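import Vale.Agent.Lib.P154.PChain.BE.R3_0

set_option linter.all false

namespace Vale.Agent.Lib.P154.PChain.BE.S4

open Vale.Agent.Lib.P154.Chain

noncomputable def pc0 : PT := (PT.nd (nat_lit 9326850) (PT.nd (nat_lit 8952138) (PT.nd (nat_lit 8764782) (PT.nd (nat_lit 8639982) (PT.nd (nat_lit 8577582) (PT.nd (nat_lit 8577504) PT.nil (PT.lf (nat_lit 76) (nat_lit 6) (nat_lit 1) (nat_lit 3) (nat_lit 231) (nat_lit 137) (nat_lit 232))) (PT.nd (nat_lit 62322) (PT.lf (nat_lit 76) (nat_lit 6) (nat_lit 1) (nat_lit 1) (nat_lit 232) (nat_lit 137) (nat_lit 231)) (PT.lf (nat_lit 152) (nat_lit 6) (nat_lit 2) (nat_lit 3) (nat_lit 230) (nat_lit 138) (nat_lit 232)))) (PT.nd (nat_lit 62400) (PT.nd (nat_lit 78) (PT.lf (nat_lit 228) (nat_lit 3) (nat_lit 3) (nat_lit 1) (nat_lit 231) (nat_lit 138) (nat_lit 231)) (PT.lf (nat_lit 152) (nat_lit 6) (nat_lit 2) (nat_lit 1) (nat_lit 232) (nat_lit 138) (nat_lit 230))) (PT.nd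 (nat_lit 78) (PT.lf (nat_lit 304) (nat_lit 6) (nat_lit 4) (nat_lit 3) (nat_lit 230) (nat_lit 139) (nat_lit 231)) (PT.lf (nat_lit 304) (nat_lit 6) (nat_lit 4) (nat_lit 1) (nat_lit 231) (nat_lit 139) (nat_lit 230))))) (PT.nd (nat_lit 62556) (PT.nd (nat_lit 156) (PT.nd (nat_lit 78) (PT.lf (nat_lit 380) (nat_lit 6) (nat_lit 5) (nat_lit 3) (nat_lit 229) (nat_lit 140) (nat_lit 231)) (PT.lf (nat_lit 456) (nat_lit 3) (nat_lit 6) (nat_lit 1) (nat_lit 230) (nat_lit 140) (nat_lit 230))) (PT.nd (nat_lit 62322) (PT.lf (nat_lit 380) (nat_lit 6) (nat_lit 5) (nat_lit 1) (nat_lit 231) (nat_lit 140) (nat_lit 229)) (PT.lf (nat_lit 532) (nat_lit 6) (nat_lit 7) (nat_lit 3) (nat_lit 229) (nat_lit 141) (nat_lit 230)))) (PT.nd (nat_lit 62400) (PT.nd (nat_lit 62322) (PT.lf (nat_lit 532) (nat_lit 6) (nat_lit 7) (nat_lit 1) (nat_lit 230) (nat_lit 141) (nat_lit 229)) (PT.lf (nat_lit 608) (nat_lit 6) (nat_lit 8) (nat_lit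 3) (nat_lit 228) (nat_lit 142) (nat_lit 230))) (PT.nd (nat_lit 78) (PT.lf (nat_lit 684) (nat_lit 3) (nat_lit 9) (nat_lit 1) (nat_lit 229) (nat_lit 142) (nat_lit 229)) (PT.lf (nat_lit 608) (nat_lit 6) (nat_lit 8) (nat_lit 1) (nat_lit 230) (nat_lit 142) (nat_lit 228)))))) (PT.nd (nat_lit 187356) (PT.nd (nat_lit 62556) (PT.nd (nat_lit 62400) (PT.nd (nat_lit 78) (PT.lf (nat_lit 760) (nat_lit 6) (nat_lit 10) (nat_lit 3) (nat_lit 228) (nat_lit 143) (nat_lit 229)) (PT.lf (nat_lit 760) (nat_lit 6) (nat_lit 10) (nat_lit 1) (nat_lit 229) (nat_lit 143) (nat_lit 228))) (PT.nd (nat_lit 78) (PT.lf (nat_lit 836) (nat_lit 6) (nat_lit 11) (nat_lit 3) (nat_lit 227) (nat_lit 144) (nat_lit 229)) (PT.lf (nat_lit 912) (nat_lit 3) (nat_lit 12) (nat_lit 1) (nat_lit 228) (nat_lit 144) (nat_lit 228)))) (PT.nd (nat_lit 62400) (PT.nd (nat_lit 62322) (PT.lf (nat_lit 836) (nat_lit 6) (nat_lit 11) (nat_lit 1) (nat_lit 229)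 (nat_lit 144) (nat_lit 227)) (PT.lf (nat_lit 988) (nat_lit 6) (nat_lit 13) (nat_lit 3) (nat_lit 227) (nat_lit 145) (nat_lit 228))) (PT.nd (nat_lit 62322) (PT.lf (nat_lit 988) (nat_lit 6) (nat_lit 13) (nat_lit 1) (nat_lit 228) (nat_lit 145) (nat_lit 227)) (PT.lf (nat_lit 1064) (nat_lit 6) (nat_lit 14) (nat_lit 3) (nat_lit 226) (nat_lit 146) (nat_lit 228))))) (PT.nd (nat_lit 124800) (PT.nd (nat_lit 62400) (PT.nd (nat_lit 78) (PT.lf (nat_lit 1140) (nat_lit 3) (nat_lit 15) (nat_lit 1) (nat_lit 227) (nat_lit 146) (nat_lit 227)) (PT.lf (nat_lit 1064) (nat_lit 6) (nat_lit 14) (nat_lit 1) (nat_lit 228) (nat_lit 146) (nat_lit 226))) (PT.nd (nat_lit 78) (PT.lf (nat_lit 1216) (nat_lit 6) (nat_lit 16) (nat_lit 3) (nat_lit 226) (nat_lit 147) (nat_lit 227)) (PT.lf (nat_lit 1216) (nat_lit 6) (nat_lit 16) (nat_lit 1) (nat_lit 227) (nat_lit 147) (nat_lit 226)))) (PT.nd (nat_lit 156) (PT.nd (nat_lit 78) (PT.lf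 (nat_lit 1292) (nat_lit 6) (nat_lit 17) (nat_lit 3) (nat_lit 225) (nat_lit 148) (nat_lit 227)) (PT.lf (nat_lit 1368) (nat_lit 3) (nat_lit 18) (nat_lit 1) (nat_lit 226) (nat_lit 148) (nat_lit 226))) (PT.nd (nat_lit 62322) (PT.lf (nat_lit 1292) (nat_lit 6) (nat_lit 17) (nat_lit 1) (nat_lit 227) (nat_lit 148) (nat_lit 225)) (PT.lf (nat_lit 1444) (nat_lit 6) (nat_lit 19) (nat_lit 3) (nat_lit 225) (nat_lit 149) (nat_lit 226))))))) (PT.nd (nat_lit 374634) (PT.nd (nat_lit 187278) (PT.nd (nat_lit 62478) (PT.nd (nat_lit 62322) (PT.lf (nat_lit 1444) (nat_lit 6) (nat_lit 19) (nat_lit 1) (nat_lit 226) (nat_lit 149) (nat_lit 225)) (PT.nd (nat_lit 78) (PT.lf (nat_lit 1520) (nat_lit 6) (nat_lit 20) (nat_lit 3) (nat_lit 224) (nat_lit 150) (nat_lit 226)) (PT.lf (nat_lit 1596) (nat_lit 3) (nat_lit 21) (nat_lit 1) (nat_lit 225) (nat_lit 150) (nat_lit 225)))) (PT.nd (nat_lit 62400) (PT.nd (nat_lit 62322) (PT.lf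 (nat_lit 1520) (nat_lit 6) (nat_lit 20) (nat_lit 1) (nat_lit 226) (nat_lit 150) (nat_lit 224)) (PT.lf (nat_lit 1672) (nat_lit 6) (nat_lit 22) (nat_lit 3) (nat_lit 224) (nat_lit 151) (nat_lit 225))) (PT.nd (nat_lit 62322) (PT.lf (nat_lit 1672) (nat_lit 6) (nat_lit 22) (nat_lit 1) (nat_lit 225) (nat_lit 151) (nat_lit 224)) (PT.lf (nat_lit 1748) (nat_lit 6) (nat_lit 23) (nat_lit 3) (nat_lit 223) (nat_lit 152) (nat_lit 225))))) (PT.nd (nat_lit 124800) (PT.nd (nat_lit 62400) (PT.nd (nat_lit 78) (PT.lf (nat_lit 1824) (nat_lit 3) (nat_lit 24) (nat_lit 1) (nat_lit 224) (nat_lit 152) (nat_lit 224)) (PT.lf (nat_lit 1748) (nat_lit 6) (nat_lit 23) (nat_lit 1) (nat_lit 225) (nat_lit 152) (nat_lit 223))) (PT.nd (nat_lit 78) (PT.lf (nat_lit 1900) (nat_lit 6) (nat_lit 25) (nat_lit 3) (nat_lit 223) (nat_lit 153) (nat_lit 224)) (PT.lf (nat_lit 1900) (nat_lit 6) (nat_lit 25) (nat_lit 1) (nat_lit 224) (nat_lit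 153) (nat_lit 223)))) (PT.nd (nat_lit 156) (PT.nd (nat_lit 78) (PT.lf (nat_lit 1976) (nat_lit 6) (nat_lit 26) (nat_lit 3) (nat_lit 222) (nat_lit 154) (nat_lit 224)) (PT.lf (nat_lit 2052) (nat_lit 3) (nat_lit 27) (nat_lit 1) (nat_lit 223) (nat_lit 154) (nat_lit 223))) (PT.nd (nat_lit 62322) (PT.lf (nat_lit 1976) (nat_lit 6) (nat_lit 26) (nat_lit 1) (nat_lit 224) (nat_lit 154) (nat_lit 222)) (PT.lf (nat_lit 2128) (nat_lit 6) (nat_lit 28) (nat_lit 3) (nat_lit 222) (nat_lit 155) (nat_lit 223)))))) (PT.nd (nat_lit 187356) (PT.nd (nat_lit 124800) (PT.nd (nat_lit 62400) (PT.nd (nat_lit 62322) (PT.lf (nat_lit 2128) (nat_lit 6) (nat_lit 28) (nat_lit 1) (nat_lit 223) (nat_lit 155) (nat_lit 222)) (PT.lf (nat_lit 2204) (nat_lit 6) (nat_lit 29) (nat_lit 3) (nat_lit 221) (nat_lit 156) (nat_lit 223))) (PT.nd (nat_lit 78) (PT.lf (nat_lit 2280) (nat_lit 3) (nat_lit 30) (nat_lit 1) (nat_lit 222) (nat_lit 156)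 (nat_lit 222)) (PT.lf (nat_lit 2204) (nat_lit 6) (nat_lit 29) (nat_lit 1) (nat_lit 223) (nat_lit 156) (nat_lit 221)))) (PT.nd (nat_lit 62400) (PT.nd (nat_lit 78) (PT.lf (nat_lit 2356) (nat_lit 6) (nat_lit 31) (nat_lit 3) (nat_lit 221) (nat_lit 157) (nat_lit 222)) (PT.lf (nat_lit 2356) (nat_lit 6) (nat_lit 31) (nat_lit 1) (nat_lit 222) (nat_lit 157) (nat_lit 221))) (PT.nd (nat_lit 78) (PT.lf (nat_lit 2432) (nat_lit 6) (nat_lit 32) (nat_lit 3) (nat_lit 220) (nat_lit 158) (nat_lit 222)) (PT.lf (nat_lit 2508) (nat_lit 3) (nat_lit 33) (nat_lit 1) (nat_lit 221) (nat_lit 158) (nat_lit 221))))) (PT.nd (nat_lit 124800) (PT.nd (nat_lit 62400) (PT.nd (nat_lit 62322) (PT.lf (nat_lit 2432) (nat_lit 6) (nat_lit 32) (nat_lit 1) (nat_lit 222) (nat_lit 158) (nat_lit 220)) (PT.lf (nat_lit 2584) (nat_lit 6) (nat_lit 34) (nat_lit 3) (nat_lit 220) (nat_lit 159) (nat_lit 221))) (PT.nd (nat_lit 62322) (PT.lf (nat_lit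 2584) (nat_lit 6) (nat_lit 34) (nat_lit 1) (nat_lit 221) (nat_lit 159) (nat_lit 220)) (PT.lf (nat_lit 2660) (nat_lit 6) (nat_lit 35) (nat_lit 3) (nat_lit 219) (nat_lit 160) (nat_lit 221)))) (PT.nd (nat_lit 62400) (PT.nd (nat_lit 78) (PT.lf (nat_lit 2736) (nat_lit 3) (nat_lit 36) (nat_lit 1) (nat_lit 220) (nat_lit 160) (nat_lit 220)) (PT.lf (nat_lit 2660) (nat_lit 6) (nat_lit 35) (nat_lit 1) (nat_lit 221) (nat_lit 160) (nat_lit 219))) (PT.nd (nat_lit 78) (PT.lf (nat_lit 2812) (nat_lit 6) (nat_lit 37) (nat_lit 3) (nat_lit 219) (nat_lit 161) (nat_lit 220)) (PT.lf (nat_lit 2812) (nat_lit 6) (nat_lit 37) (nat_lit 1) (nat_lit 220) (nat_lit 161) (nat_lit 219))))))))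
noncomputable def pc1 : PT := (PT.nd (nat_lit 499668) (PT.nd (nat_lit 249834) (PT.nd (nat_lit 124878) (PT.nd (nat_lit 62400) (PT.nd (nat_lit 78) (PT.lf (nat_lit 2888) (nat_lit 6) (nat_lit 38) (nat_lit 3) (nat_lit 218) (nat_lit 162) (nat_lit 220)) (PT.nd (nat_lit 78) (PT.lf (nat_lit 2964) (nat_lit 3) (nat_lit 39) (nat_lit 1) (nat_lit 219) (nat_lit 162) (nat_lit 219)) (PT.lf (nat_lit 2888) (nat_lit 6) (nat_lit 38) (nat_lit 1) (nat_lit 220) (nat_lit 162) (nat_lit 218)))) (PT.nd (nat_lit 156) (PT.nd (nat_lit 78) (PT.lf (nat_lit 3040) (nat_lit 6) (nat_lit 40) (nat_lit 3) (nat_lit 217) (nat_lit 163) (nat_lit 220)) (PT.lf (nat_lit 3116) (nat_lit 6) (nat_lit 41) (nat_lit 3) (nat_lit 218) (nat_lit 163) (nat_lit 219))) (PT.nd (nat_lit 78) (PT.lf (nat_lit 3116) (nat_lit 6) (nat_lit 41) (nat_lit 1) (nat_lit 219) (nat_lit 163) (nat_lit 218)) (PT.lf (nat_lit 3040) (nat_lit 6) (nat_lit 40) (nat_lit 1) (nat_lit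 220) (nat_lit 163) (nat_lit 217))))) (PT.nd (nat_lit 62478) (PT.nd (nat_lit 156) (PT.nd (nat_lit 78) (PT.lf (nat_lit 3192) (nat_lit 6) (nat_lit 42) (nat_lit 3) (nat_lit 217) (nat_lit 164) (nat_lit 219)) (PT.lf (nat_lit 3268) (nat_lit 3) (nat_lit 43) (nat_lit 1) (nat_lit 218) (nat_lit 164) (nat_lit 218))) (PT.nd (nat_lit 62244) (PT.lf (nat_lit 3192) (nat_lit 6) (nat_lit 42) (nat_lit 1) (nat_lit 219) (nat_lit 164) (nat_lit 217)) (PT.lf (nat_lit 3344) (nat_lit 6) (nat_lit 44) (nat_lit 3) (nat_lit 216) (nat_lit 165) (nat_lit 219)))) (PT.nd (nat_lit 156) (PT.nd (nat_lit 78) (PT.lf (nat_lit 3420) (nat_lit 6) (nat_lit 45) (nat_lit 3) (nat_lit 217) (nat_lit 165) (nat_lit 218)) (PT.lf (nat_lit 3420) (nat_lit 6) (nat_lit 45) (nat_lit 1) (nat_lit 218) (nat_lit 165) (nat_lit 217))) (PT.nd (nat_lit 62244) (PT.lf (nat_lit 3344) (nat_lit 6) (nat_lit 44) (nat_lit 1) (nat_lit 219) (nat_lit 165) (nat_lit 216))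 (PT.lf (nat_lit 3496) (nat_lit 6) (nat_lit 46) (nat_lit 3) (nat_lit 216) (nat_lit 166) (nat_lit 218)))))) (PT.nd (nat_lit 124956) (PT.nd (nat_lit 62478) (PT.nd (nat_lit 62322) (PT.nd (nat_lit 78) (PT.lf (nat_lit 3572) (nat_lit 3) (nat_lit 47) (nat_lit 1) (nat_lit 217) (nat_lit 166) (nat_lit 217)) (PT.lf (nat_lit 3496) (nat_lit 6) (nat_lit 46) (nat_lit 1) (nat_lit 218) (nat_lit 166) (nat_lit 216))) (PT.nd (nat_lit 78) (PT.lf (nat_lit 3648) (nat_lit 6) (nat_lit 48) (nat_lit 3) (nat_lit 215) (nat_lit 167) (nat_lit 218)) (PT.lf (nat_lit 3724) (nat_lit 6) (nat_lit 49) (nat_lit 3) (nat_lit 216) (nat_lit 167) (nat_lit 217)))) (PT.nd (nat_lit 62322) (PT.nd (nat_lit 78) (PT.lf (nat_lit 3724) (nat_lit 6) (nat_lit 49) (nat_lit 1) (nat_lit 217) (nat_lit 167) (nat_lit 216)) (PT.lf (nat_lit 3648) (nat_lit 6) (nat_lit 48) (nat_lit 1) (nat_lit 218) (nat_lit 167) (nat_lit 215))) (PT.nd (nat_lit 78) (PT.lf (nat_lit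 3800) (nat_lit 6) (nat_lit 50) (nat_lit 3) (nat_lit 215) (nat_lit 168) (nat_lit 217)) (PT.lf (nat_lit 3876) (nat_lit 3) (nat_lit 51) (nat_lit 1) (nat_lit 216) (nat_lit 168) (nat_lit 216))))) (PT.nd (nat_lit 62478) (PT.nd (nat_lit 62322) (PT.nd (nat_lit 62244) (PT.lf (nat_lit 3800) (nat_lit 6) (nat_lit 50) (nat_lit 1) (nat_lit 217) (nat_lit 168) (nat_lit 215)) (PT.lf (nat_lit 3952) (nat_lit 6) (nat_lit 52) (nat_lit 3) (nat_lit 214) (nat_lit 169) (nat_lit 217))) (PT.nd (nat_lit 78) (PT.lf (nat_lit 4028) (nat_lit 6) (nat_lit 53) (nat_lit 3) (nat_lit 215) (nat_lit 169) (nat_lit 216)) (PT.lf (nat_lit 4028) (nat_lit 6) (nat_lit 53) (nat_lit 1) (nat_lit 216) (nat_lit 169) (nat_lit 215)))) (PT.nd (nat_lit 62244) (PT.nd (nat_lit 62166) (PT.lf (nat_lit 3952) (nat_lit 6) (nat_lit 52) (nat_lit 1) (nat_lit 217) (nat_lit 169) (nat_lit 214)) (PT.lf (nat_lit 4104) (nat_lit 6) (nat_lit 54) (nat_lit 3) (nat_lit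 213) (nat_lit 170) (nat_lit 217))) (PT.nd (nat_lit 78) (PT.lf (nat_lit 4180) (nat_lit 6) (nat_lit 55) (nat_lit 3) (nat_lit 214) (nat_lit 170) (nat_lit 216)) (PT.lf (nat_lit 4256) (nat_lit 3) (nat_lit 56) (nat_lit 1) (nat_lit 215) (nat_lit 170) (nat_lit 215))))))) (PT.nd (nat_lit 249522) (PT.nd (nat_lit 124722) (PT.nd (nat_lit 62322) (PT.nd (nat_lit 78) (PT.lf (nat_lit 4180) (nat_lit 6) (nat_lit 55) (nat_lit 1) (nat_lit 216) (nat_lit 170) (nat_lit 214)) (PT.nd (nat_lit 62166) (PT.lf (nat_lit 4104) (nat_lit 6) (nat_lit 54) (nat_lit 1) (nat_lit 217) (nat_lit 170) (nat_lit 213)) (PT.lf (nat_lit 4332) (nat_lit 6) (nat_lit 57) (nat_lit 3) (nat_lit 213) (nat_lit 171) (nat_lit 216)))) (PT.nd (nat_lit 156) (PT.nd (nat_lit 78) (PT.lf (nat_lit 4408) (nat_lit 6) (nat_lit 58) (nat_lit 3) (nat_lit 214) (nat_lit 171) (nat_lit 215)) (PT.lf (nat_lit 4408) (nat_lit 6) (nat_lit 58) (nat_lit 1) (nat_lit 215) (nat_lit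 171) (nat_lit 214))) (PT.nd (nat_lit 62166) (PT.lf (nat_lit 4332) (nat_lit 6) (nat_lit 57) (nat_lit 1) (nat_lit 216) (nat_lit 171) (nat_lit 213)) (PT.lf (nat_lit 4484) (nat_lit 6) (nat_lit 59) (nat_lit 3) (nat_lit 212) (nat_lit 172) (nat_lit 216))))) (PT.nd (nat_lit 62400) (PT.nd (nat_lit 156) (PT.nd (nat_lit 78) (PT.lf (nat_lit 4560) (nat_lit 6) (nat_lit 60) (nat_lit 3) (nat_lit 213) (nat_lit 172) (nat_lit 215)) (PT.lf (nat_lit 4636) (nat_lit 3) (nat_lit 61) (nat_lit 1) (nat_lit 214) (nat_lit 172) (nat_lit 214))) (PT.nd (nat_lit 78) (PT.lf (nat_lit 4560) (nat_lit 6) (nat_lit 60) (nat_lit 1) (nat_lit 215) (nat_lit 172) (nat_lit 213)) (PT.lf (nat_lit 4484) (nat_lit 6) (nat_lit 59) (nat_lit 1) (nat_lit 216) (nat_lit 172) (nat_lit 212)))) (PT.nd (nat_lit 156) (PT.nd (nat_lit 78) (PT.lf (nat_lit 4712) (nat_lit 6) (nat_lit 62) (nat_lit 3) (nat_lit 212) (nat_lit 173) (nat_lit 215)) (PT.lf (nat_lit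 4788) (nat_lit 6) (nat_lit 63) (nat_lit 3) (nat_lit 213) (nat_lit 173) (nat_lit 214))) (PT.nd (nat_lit 78) (PT.lf (nat_lit 4788) (nat_lit 6) (nat_lit 63) (nat_lit 1) (nat_lit 214) (nat_lit 173) (nat_lit 213)) (PT.lf (nat_lit 4712) (nat_lit 6) (nat_lit 62) (nat_lit 1) (nat_lit 215) (nat_lit 173) (nat_lit 212)))))) (PT.nd (nat_lit 62712) (PT.nd (nat_lit 312) (PT.nd (nat_lit 156) (PT.nd (nat_lit 78) (PT.lf (nat_lit 4864) (nat_lit 6) (nat_lit 64) (nat_lit 3) (nat_lit 211) (nat_lit 174) (nat_lit 215)) (PT.lf (nat_lit 4940) (nat_lit 6) (nat_lit 65) (nat_lit 3) (nat_lit 212) (nat_lit 174) (nat_lit 214))) (PT.nd (nat_lit 78) (PT.lf (nat_lit 5016) (nat_lit 3) (nat_lit 66) (nat_lit 1) (nat_lit 213) (nat_lit 174) (nat_lit 213)) (PT.lf (nat_lit 4940) (nat_lit 6) (nat_lit 65) (nat_lit 1) (nat_lit 214) (nat_lit 174) (nat_lit 212)))) (PT.nd (nat_lit 62244) (PT.nd (nat_lit 62166) (PT.lf (nat_lit 4864) (nat_lit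 6) (nat_lit 64) (nat_lit 1) (nat_lit 215) (nat_lit 174) (nat_lit 211)) (PT.lf (nat_lit 5092) (nat_lit 6) (nat_lit 67) (nat_lit 3) (nat_lit 211) (nat_lit 175) (nat_lit 214))) (PT.nd (nat_lit 78) (PT.lf (nat_lit 5168) (nat_lit 6) (nat_lit 68) (nat_lit 3) (nat_lit 212) (nat_lit 175) (nat_lit 213)) (PT.lf (nat_lit 5168) (nat_lit 6) (nat_lit 68) (nat_lit 1) (nat_lit 213) (nat_lit 175) (nat_lit 212))))) (PT.nd (nat_lit 62400) (PT.nd (nat_lit 62244) (PT.nd (nat_lit 62166) (PT.lf (nat_lit 5092) (nat_lit 6) (nat_lit 67) (nat_lit 1) (nat_lit 214) (nat_lit 175) (nat_lit 211)) (PT.lf (nat_lit 5244) (nat_lit 6) (nat_lit 69) (nat_lit 3) (nat_lit 210) (nat_lit 176) (nat_lit 214))) (PT.nd (nat_lit 78) (PT.lf (nat_lit 5320) (nat_lit 6) (nat_lit 70) (nat_lit 3) (nat_lit 211) (nat_lit 176) (nat_lit 213)) (PT.lf (nat_lit 5396) (nat_lit 3) (nat_lit 71) (nat_lit 1) (nat_lit 212) (nat_lit 176) (nat_lit 212)))) (PT.nd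 (nat_lit 62166) (PT.nd (nat_lit 78) (PT.lf (nat_lit 5320) (nat_lit 6) (nat_lit 70) (nat_lit 1) (nat_lit 213) (nat_lit 176) (nat_lit 211)) (PT.lf (nat_lit 5244) (nat_lit 6) (nat_lit 69) (nat_lit 1) (nat_lit 214) (nat_lit 176) (nat_lit 210))) (PT.nd (nat_lit 78) (PT.lf (nat_lit 5472) (nat_lit 6) (nat_lit 72) (nat_lit 3) (nat_lit 209) (nat_lit 177) (nat_lit 214)) (PT.lf (nat_lit 5548) (nat_lit 6) (nat_lit 73) (nat_lit 3) (nat_lit 210) (nat_lit 177) (nat_lit 213))))))))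
noncomputable def pc2 : PT := (PT.nd (nat_lit 312234) (PT.nd (nat_lit 187122) (PT.nd (nat_lit 62556) (PT.nd (nat_lit 234) (PT.nd (nat_lit 78) (PT.lf (nat_lit 5624) (nat_lit 6) (nat_lit 74) (nat_lit 3) (nat_lit 211) (nat_lit 177) (nat_lit 212)) (PT.nd (nat_lit 78) (PT.lf (nat_lit 5624) (nat_lit 6) (nat_lit 74) (nat_lit 1) (nat_lit 212) (nat_lit 177) (nat_lit 211)) (PT.lf (nat_lit 5548) (nat_lit 6) (nat_lit 73) (nat_lit 1) (nat_lit 213) (nat_lit 177) (nat_lit 210)))) (PT.nd (nat_lit 62166) (PT.nd (nat_lit 62088) (PT.lf (nat_lit 5472) (nat_lit 6) (nat_lit 72) (nat_lit 1) (nat_lit 214) (nat_lit 177) (nat_lit 209)) (PT.lf (nat_lit 5700) (nat_lit 6) (nat_lit 75) (nat_lit 3) (nat_lit 209) (nat_lit 178) (nat_lit 213))) (PT.nd (nat_lit 78) (PT.lf (nat_lit 5776) (nat_lit 6) (nat_lit 76) (nat_lit 3) (nat_lit 210) (nat_lit 178) (nat_lit 212)) (PT.lf (nat_lit 5852) (nat_lit 3) (nat_lit 77) (nat_lit 1) (nat_lit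 211) (nat_lit 178) (nat_lit 211))))) (PT.nd (nat_lit 62322) (PT.nd (nat_lit 62166) (PT.nd (nat_lit 78) (PT.lf (nat_lit 5776) (nat_lit 6) (nat_lit 76) (nat_lit 1) (nat_lit 212) (nat_lit 178) (nat_lit 210)) (PT.lf (nat_lit 5700) (nat_lit 6) (nat_lit 75) (nat_lit 1) (nat_lit 213) (nat_lit 178) (nat_lit 209))) (PT.nd (nat_lit 78) (PT.lf (nat_lit 5928) (nat_lit 6) (nat_lit 78) (nat_lit 3) (nat_lit 208) (nat_lit 179) (nat_lit 213)) (PT.lf (nat_lit 6004) (nat_lit 6) (nat_lit 79) (nat_lit 3) (nat_lit 209) (nat_lit 179) (nat_lit 212)))) (PT.nd (nat_lit 156) (PT.nd (nat_lit 78) (PT.lf (nat_lit 6080) (nat_lit 6) (nat_lit 80) (nat_lit 3) (nat_lit 210) (nat_lit 179) (nat_lit 211)) (PT.lf (nat_lit 6080) (nat_lit 6) (nat_lit 80) (nat_lit 1) (nat_lit 211) (nat_lit 179) (nat_lit 210))) (PT.nd (nat_lit 78) (PT.lf (nat_lit 6004) (nat_lit 6) (nat_lit 79) (nat_lit 1) (nat_lit 212) (nat_lit 179) (nat_lit 209)) (PT.lf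 (nat_lit 5928) (nat_lit 6) (nat_lit 78) (nat_lit 1) (nat_lit 213) (nat_lit 179) (nat_lit 208)))))) (PT.nd (nat_lit 62556) (PT.nd (nat_lit 312) (PT.nd (nat_lit 156) (PT.nd (nat_lit 78) (PT.lf (nat_lit 6156) (nat_lit 6) (nat_lit 81) (nat_lit 3) (nat_lit 207) (nat_lit 180) (nat_lit 213)) (PT.lf (nat_lit 6232) (nat_lit 6) (nat_lit 82) (nat_lit 3) (nat_lit 208) (nat_lit 180) (nat_lit 212))) (PT.nd (nat_lit 78) (PT.lf (nat_lit 6308) (nat_lit 6) (nat_lit 83) (nat_lit 3) (nat_lit 209) (nat_lit 180) (nat_lit 211)) (PT.lf (nat_lit 6384) (nat_lit 3) (nat_lit 84) (nat_lit 1) (nat_lit 210) (nat_lit 180) (nat_lit 210)))) (PT.nd (nat_lit 156) (PT.nd (nat_lit 78) (PT.lf (nat_lit 6308) (nat_lit 6) (nat_lit 83) (nat_lit 1) (nat_lit 211) (nat_lit 180) (nat_lit 209)) (PT.lf (nat_lit 6232) (nat_lit 6) (nat_lit 82) (nat_lit 1) (nat_lit 212) (nat_lit 180) (nat_lit 208))) (PT.nd (nat_lit 62010) (PT.lf (nat_lit 6156)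 (nat_lit 6) (nat_lit 81) (nat_lit 1) (nat_lit 213) (nat_lit 180) (nat_lit 207)) (PT.lf (nat_lit 6460) (nat_lit 6) (nat_lit 85) (nat_lit 3) (nat_lit 207) (nat_lit 181) (nat_lit 212))))) (PT.nd (nat_lit 312) (PT.nd (nat_lit 156) (PT.nd (nat_lit 78) (PT.lf (nat_lit 6536) (nat_lit 6) (nat_lit 86) (nat_lit 3) (nat_lit 208) (nat_lit 181) (nat_lit 211)) (PT.lf (nat_lit 6612) (nat_lit 6) (nat_lit 87) (nat_lit 3) (nat_lit 209) (nat_lit 181) (nat_lit 210))) (PT.nd (nat_lit 78) (PT.lf (nat_lit 6612) (nat_lit 6) (nat_lit 87) (nat_lit 1) (nat_lit 210) (nat_lit 181) (nat_lit 209)) (PT.lf (nat_lit 6536) (nat_lit 6) (nat_lit 86) (nat_lit 1) (nat_lit 211) (nat_lit 181) (nat_lit 208)))) (PT.nd (nat_lit 62088) (PT.nd (nat_lit 62010) (PT.lf (nat_lit 6460) (nat_lit 6) (nat_lit 85) (nat_lit 1) (nat_lit 212) (nat_lit 181) (nat_lit 207)) (PT.lf (nat_lit 6688) (nat_lit 6) (nat_lit 88) (nat_lit 3) (nat_lit 206) (nat_lit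 182) (nat_lit 212))) (PT.nd (nat_lit 78) (PT.lf (nat_lit 6764) (nat_lit 6) (nat_lit 89) (nat_lit 3) (nat_lit 207) (nat_lit 182) (nat_lit 211)) (PT.lf (nat_lit 6840) (nat_lit 6) (nat_lit 90) (nat_lit 3) (nat_lit 208) (nat_lit 182) (nat_lit 210))))))) (PT.nd (nat_lit 124878) (PT.nd (nat_lit 62400) (PT.nd (nat_lit 234) (PT.nd (nat_lit 78) (PT.lf (nat_lit 6916) (nat_lit 3) (nat_lit 91) (nat_lit 1) (nat_lit 209) (nat_lit 182) (nat_lit 209)) (PT.nd (nat_lit 78) (PT.lf (nat_lit 6840) (nat_lit 6) (nat_lit 90) (nat_lit 1) (nat_lit 210) (nat_lit 182) (nat_lit 208)) (PT.lf (nat_lit 6764) (nat_lit 6) (nat_lit 89) (nat_lit 1) (nat_lit 211) (nat_lit 182) (nat_lit 207)))) (PT.nd (nat_lit 62010) (PT.nd (nat_lit 61932) (PT.lf (nat_lit 6688) (nat_lit 6) (nat_lit 88) (nat_lit 1) (nat_lit 212) (nat_lit 182) (nat_lit 206)) (PT.lf (nat_lit 6992) (nat_lit 6) (nat_lit 92) (nat_lit 3) (nat_lit 205) (nat_lit 183) (nat_lit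 212))) (PT.nd (nat_lit 78) (PT.lf (nat_lit 7068) (nat_lit 6) (nat_lit 93) (nat_lit 3) (nat_lit 206) (nat_lit 183) (nat_lit 211)) (PT.lf (nat_lit 7144) (nat_lit 6) (nat_lit 94) (nat_lit 3) (nat_lit 207) (nat_lit 183) (nat_lit 210))))) (PT.nd (nat_lit 312) (PT.nd (nat_lit 156) (PT.nd (nat_lit 78) (PT.lf (nat_lit 7220) (nat_lit 6) (nat_lit 95) (nat_lit 3) (nat_lit 208) (nat_lit 183) (nat_lit 209)) (PT.lf (nat_lit 7220) (nat_lit 6) (nat_lit 95) (nat_lit 1) (nat_lit 209) (nat_lit 183) (nat_lit 208))) (PT.nd (nat_lit 78) (PT.lf (nat_lit 7144) (nat_lit 6) (nat_lit 94) (nat_lit 1) (nat_lit 210) (nat_lit 183) (nat_lit 207)) (PT.lf (nat_lit 7068) (nat_lit 6) (nat_lit 93) (nat_lit 1) (nat_lit 211) (nat_lit 183) (nat_lit 206)))) (PT.nd (nat_lit 62010) (PT.nd (nat_lit 61932) (PT.lf (nat_lit 6992) (nat_lit 6) (nat_lit 92) (nat_lit 1) (nat_lit 212) (nat_lit 183) (nat_lit 205)) (PT.lf (nat_lit 7296) (nat_lit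 6) (nat_lit 96) (nat_lit 3) (nat_lit 205) (nat_lit 184) (nat_lit 211))) (PT.nd (nat_lit 78) (PT.lf (nat_lit 7372) (nat_lit 6) (nat_lit 97) (nat_lit 3) (nat_lit 206) (nat_lit 184) (nat_lit 210)) (PT.lf (nat_lit 7448) (nat_lit 6) (nat_lit 98) (nat_lit 3) (nat_lit 207) (nat_lit 184) (nat_lit 209)))))) (PT.nd (nat_lit 62478) (PT.nd (nat_lit 62166) (PT.nd (nat_lit 156) (PT.nd (nat_lit 78) (PT.lf (nat_lit 7524) (nat_lit 3) (nat_lit 99) (nat_lit 1) (nat_lit 208) (nat_lit 184) (nat_lit 208)) (PT.lf (nat_lit 7448) (nat_lit 6) (nat_lit 98) (nat_lit 1) (nat_lit 209) (nat_lit 184) (nat_lit 207))) (PT.nd (nat_lit 78) (PT.lf (nat_lit 7372) (nat_lit 6) (nat_lit 97) (nat_lit 1) (nat_lit 210) (nat_lit 184) (nat_lit 206)) (PT.lf (nat_lit 7296) (nat_lit 6) (nat_lit 96) (nat_lit 1) (nat_lit 211) (nat_lit 184) (nat_lit 205)))) (PT.nd (nat_lit 156) (PT.nd (nat_lit 78) (PT.lf (nat_lit 7600) (nat_lit 6) (nat_lit 100)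 (nat_lit 3) (nat_lit 204) (nat_lit 185) (nat_lit 211)) (PT.lf (nat_lit 7676) (nat_lit 6) (nat_lit 101) (nat_lit 3) (nat_lit 205) (nat_lit 185) (nat_lit 210))) (PT.nd (nat_lit 78) (PT.lf (nat_lit 7752) (nat_lit 6) (nat_lit 102) (nat_lit 3) (nat_lit 206) (nat_lit 185) (nat_lit 209)) (PT.lf (nat_lit 7828) (nat_lit 6) (nat_lit 103) (nat_lit 3) (nat_lit 207) (nat_lit 185) (nat_lit 208))))) (PT.nd (nat_lit 62088) (PT.nd (nat_lit 156) (PT.nd (nat_lit 78) (PT.lf (nat_lit 7828) (nat_lit 6) (nat_lit 103) (nat_lit 1) (nat_lit 208) (nat_lit 185) (nat_lit 207)) (PT.lf (nat_lit 7752) (nat_lit 6) (nat_lit 102) (nat_lit 1) (nat_lit 209) (nat_lit 185) (nat_lit 206))) (PT.nd (nat_lit 78) (PT.lf (nat_lit 7676) (nat_lit 6) (nat_lit 101) (nat_lit 1) (nat_lit 210) (nat_lit 185) (nat_lit 205)) (PT.lf (nat_lit 7600) (nat_lit 6) (nat_lit 100) (nat_lit 1) (nat_lit 211) (nat_lit 185) (nat_lit 204)))) (PT.nd (nat_lit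 156) (PT.nd (nat_lit 78) (PT.lf (nat_lit 7904) (nat_lit 6) (nat_lit 104) (nat_lit 3) (nat_lit 203) (nat_lit 186) (nat_lit 211)) (PT.lf (nat_lit 7980) (nat_lit 6) (nat_lit 105) (nat_lit 3) (nat_lit 204) (nat_lit 186) (nat_lit 210))) (PT.nd (nat_lit 78) (PT.lf (nat_lit 8056) (nat_lit 6) (nat_lit 106) (nat_lit 3) (nat_lit 205) (nat_lit 186) (nat_lit 209)) (PT.lf (nat_lit 8132) (nat_lit 6) (nat_lit 107) (nat_lit 3) (nat_lit 206) (nat_lit 186) (nat_lit 208))))))))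
noncomputable def pc3 : PT := (PT.nd (nat_lit 187356) (PT.nd (nat_lit 124488) (PT.nd (nat_lit 62244) (PT.nd (nat_lit 234) (PT.nd (nat_lit 78) (PT.lf (nat_lit 8208) (nat_lit 3) (nat_lit 108) (nat_lit 1) (nat_lit 207) (nat_lit 186) (nat_lit 207)) (PT.nd (nat_lit 78) (PT.lf (nat_lit 8132) (nat_lit 6) (nat_lit 107) (nat_lit 1) (nat_lit 208) (nat_lit 186) (nat_lit 206)) (PT.lf (nat_lit 8056) (nat_lit 6) (nat_lit 106) (nat_lit 1) (nat_lit 209) (nat_lit 186) (nat_lit 205)))) (PT.nd (nat_lit 61854) (PT.nd (nat_lit 78) (PT.lf (nat_lit 7980) (nat_lit 6) (nat_lit 105) (nat_lit 1) (nat_lit 210) (nat_lit 186) (nat_lit 204)) (PT.lf (nat_lit 7904) (nat_lit 6) (nat_lit 104) (nat_lit 1) (nat_lit 211) (nat_lit 186) (nat_lit 203))) (PT.nd (nat_lit 78) (PT.lf (nat_lit 8284) (nat_lit 6) (nat_lit 109) (nat_lit 3) (nat_lit 202) (nat_lit 187) (nat_lit 211)) (PT.lf (nat_lit 8360) (nat_lit 6) (nat_lit 110) (nat_lit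 3) (nat_lit 203) (nat_lit 187) (nat_lit 210))))) (PT.nd (nat_lit 312) (PT.nd (nat_lit 156) (PT.nd (nat_lit 78) (PT.lf (nat_lit 8436) (nat_lit 6) (nat_lit 111) (nat_lit 3) (nat_lit 204) (nat_lit 187) (nat_lit 209)) (PT.lf (nat_lit 8512) (nat_lit 6) (nat_lit 112) (nat_lit 3) (nat_lit 205) (nat_lit 187) (nat_lit 208))) (PT.nd (nat_lit 78) (PT.lf (nat_lit 8588) (nat_lit 6) (nat_lit 113) (nat_lit 3) (nat_lit 206) (nat_lit 187) (nat_lit 207)) (PT.lf (nat_lit 8588) (nat_lit 6) (nat_lit 113) (nat_lit 1) (nat_lit 207) (nat_lit 187) (nat_lit 206)))) (PT.nd (nat_lit 156) (PT.nd (nat_lit 78) (PT.lf (nat_lit 8512) (nat_lit 6) (nat_lit 112) (nat_lit 1) (nat_lit 208) (nat_lit 187) (nat_lit 205)) (PT.lf (nat_lit 8436) (nat_lit 6) (nat_lit 111) (nat_lit 1) (nat_lit 209) (nat_lit 187) (nat_lit 204))) (PT.nd (nat_lit 78) (PT.lf (nat_lit 8360) (nat_lit 6) (nat_lit 110) (nat_lit 1) (nat_lit 210) (nat_lit 187) (nat_lit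 203)) (PT.lf (nat_lit 8284) (nat_lit 6) (nat_lit 109) (nat_lit 1) (nat_lit 211) (nat_lit 187) (nat_lit 202)))))) (PT.nd (nat_lit 624) (PT.nd (nat_lit 312) (PT.nd (nat_lit 156) (PT.nd (nat_lit 78) (PT.lf (nat_lit 8664) (nat_lit 6) (nat_lit 114) (nat_lit 3) (nat_lit 201) (nat_lit 188) (nat_lit 211)) (PT.lf (nat_lit 8740) (nat_lit 6) (nat_lit 115) (nat_lit 3) (nat_lit 202) (nat_lit 188) (nat_lit 210))) (PT.nd (nat_lit 78) (PT.lf (nat_lit 8816) (nat_lit 6) (nat_lit 116) (nat_lit 3) (nat_lit 203) (nat_lit 188) (nat_lit 209)) (PT.lf (nat_lit 8892) (nat_lit 6) (nat_lit 117) (nat_lit 3) (nat_lit 204) (nat_lit 188) (nat_lit 208)))) (PT.nd (nat_lit 156) (PT.nd (nat_lit 78) (PT.lf (nat_lit 8968) (nat_lit 6) (nat_lit 118) (nat_lit 3) (nat_lit 205) (nat_lit 188) (nat_lit 207)) (PT.lf (nat_lit 9044) (nat_lit 3) (nat_lit 119) (nat_lit 1) (nat_lit 206) (nat_lit 188) (nat_lit 206))) (PT.nd (nat_lit 78) (PT.lf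 (nat_lit 8968) (nat_lit 6) (nat_lit 118) (nat_lit 1) (nat_lit 207) (nat_lit 188) (nat_lit 205)) (PT.lf (nat_lit 8892) (nat_lit 6) (nat_lit 117) (nat_lit 1) (nat_lit 208) (nat_lit 188) (nat_lit 204))))) (PT.nd (nat_lit 61932) (PT.nd (nat_lit 156) (PT.nd (nat_lit 78) (PT.lf (nat_lit 8816) (nat_lit 6) (nat_lit 116) (nat_lit 1) (nat_lit 209) (nat_lit 188) (nat_lit 203)) (PT.lf (nat_lit 8740) (nat_lit 6) (nat_lit 115) (nat_lit 1) (nat_lit 210) (nat_lit 188) (nat_lit 202))) (PT.nd (nat_lit 61698) (PT.lf (nat_lit 8664) (nat_lit 6) (nat_lit 114) (nat_lit 1) (nat_lit 211) (nat_lit 188) (nat_lit 201)) (PT.lf (nat_lit 9120) (nat_lit 6) (nat_lit 120) (nat_lit 3) (nat_lit 201) (nat_lit 189) (nat_lit 210)))) (PT.nd (nat_lit 156) (PT.nd (nat_lit 78) (PT.lf (nat_lit 9196) (nat_lit 6) (nat_lit 121) (nat_lit 3) (nat_lit 202) (nat_lit 189) (nat_lit 209)) (PT.lf (nat_lit 9272) (nat_lit 6) (nat_lit 122) (nat_lit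 3) (nat_lit 203) (nat_lit 189) (nat_lit 208))) (PT.nd (nat_lit 78) (PT.lf (nat_lit 9348) (nat_lit 6) (nat_lit 123) (nat_lit 3) (nat_lit 204) (nat_lit 189) (nat_lit 207)) (PT.lf (nat_lit 9424) (nat_lit 6) (nat_lit 124) (nat_lit 3) (nat_lit 205) (nat_lit 189) (nat_lit 206))))))) (PT.nd (nat_lit 124410) (PT.nd (nat_lit 62244) (PT.nd (nat_lit 312) (PT.nd (nat_lit 156) (PT.nd (nat_lit 78) (PT.lf (nat_lit 9424) (nat_lit 6) (nat_lit 124) (nat_lit 1) (nat_lit 206) (nat_lit 189) (nat_lit 205)) (PT.lf (nat_lit 9348) (nat_lit 6) (nat_lit 123) (nat_lit 1) (nat_lit 207) (nat_lit 189) (nat_lit 204))) (PT.nd (nat_lit 78) (PT.lf (nat_lit 9272) (nat_lit 6) (nat_lit 122) (nat_lit 1) (nat_lit 208) (nat_lit 189) (nat_lit 203)) (PT.lf (nat_lit 9196) (nat_lit 6) (nat_lit 121) (nat_lit 1) (nat_lit 209) (nat_lit 189) (nat_lit 202)))) (PT.nd (nat_lit 61776) (PT.nd (nat_lit 61698) (PT.lf (nat_lit 9120) (nat_lit 6) (nat_lit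 120) (nat_lit 1) (nat_lit 210) (nat_lit 189) (nat_lit 201)) (PT.lf (nat_lit 9880) (nat_lit 6) (nat_lit 130) (nat_lit 3) (nat_lit 200) (nat_lit 190) (nat_lit 210))) (PT.nd (nat_lit 78) (PT.lf (nat_lit 9956) (nat_lit 6) (nat_lit 131) (nat_lit 3) (nat_lit 201) (nat_lit 190) (nat_lit 209)) (PT.lf (nat_lit 10032) (nat_lit 6) (nat_lit 132) (nat_lit 3) (nat_lit 202) (nat_lit 190) (nat_lit 208))))) (PT.nd (nat_lit 312) (PT.nd (nat_lit 156) (PT.nd (nat_lit 78) (PT.lf (nat_lit 10108) (nat_lit 6) (nat_lit 133) (nat_lit 3) (nat_lit 203) (nat_lit 190) (nat_lit 207)) (PT.lf (nat_lit 10184) (nat_lit 6) (nat_lit 134) (nat_lit 3) (nat_lit 204) (nat_lit 190) (nat_lit 206))) (PT.nd (nat_lit 78) (PT.lf (nat_lit 10260) (nat_lit 3) (nat_lit 135) (nat_lit 1) (nat_lit 205) (nat_lit 190) (nat_lit 205)) (PT.lf (nat_lit 10184) (nat_lit 6) (nat_lit 134) (nat_lit 1) (nat_lit 206) (nat_lit 190) (nat_lit 204)))) (PT.nd (nat_lit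 156) (PT.nd (nat_lit 78) (PT.lf (nat_lit 10108) (nat_lit 6) (nat_lit 133) (nat_lit 1) (nat_lit 207) (nat_lit 190) (nat_lit 203)) (PT.lf (nat_lit 10032) (nat_lit 6) (nat_lit 132) (nat_lit 1) (nat_lit 208) (nat_lit 190) (nat_lit 202))) (PT.nd (nat_lit 78) (PT.lf (nat_lit 9956) (nat_lit 6) (nat_lit 131) (nat_lit 1) (nat_lit 209) (nat_lit 190) (nat_lit 201)) (PT.lf (nat_lit 9880) (nat_lit 6) (nat_lit 130) (nat_lit 1) (nat_lit 210) (nat_lit 190) (nat_lit 200)))))) (PT.nd (nat_lit 624) (PT.nd (nat_lit 312) (PT.nd (nat_lit 156) (PT.nd (nat_lit 78) (PT.lf (nat_lit 9804) (nat_lit 6) (nat_lit 129) (nat_lit 3) (nat_lit 199) (nat_lit 191) (nat_lit 210)) (PT.lf (nat_lit 10640) (nat_lit 6) (nat_lit 140) (nat_lit 3) (nat_lit 200) (nat_lit 191) (nat_lit 209))) (PT.nd (nat_lit 78) (PT.lf (nat_lit 10716) (nat_lit 6) (nat_lit 141) (nat_lit 3) (nat_lit 201) (nat_lit 191) (nat_lit 208)) (PT.lf (nat_lit 10792) (nat_lit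 6) (nat_lit 142) (nat_lit 3) (nat_lit 202) (nat_lit 191) (nat_lit 207)))) (PT.nd (nat_lit 156) (PT.nd (nat_lit 78) (PT.lf (nat_lit 10868) (nat_lit 6) (nat_lit 143) (nat_lit 3) (nat_lit 203) (nat_lit 191) (nat_lit 206)) (PT.lf (nat_lit 10944) (nat_lit 6) (nat_lit 144) (nat_lit 3) (nat_lit 204) (nat_lit 191) (nat_lit 205))) (PT.nd (nat_lit 78) (PT.lf (nat_lit 10944) (nat_lit 6) (nat_lit 144) (nat_lit 1) (nat_lit 205) (nat_lit 191) (nat_lit 204)) (PT.lf (nat_lit 10868) (nat_lit 6) (nat_lit 143) (nat_lit 1) (nat_lit 206) (nat_lit 191) (nat_lit 203))))) (PT.nd (nat_lit 61776) (PT.nd (nat_lit 156) (PT.nd (nat_lit 78) (PT.lf (nat_lit 10792) (nat_lit 6) (nat_lit 142) (nat_lit 1) (nat_lit 207) (nat_lit 191) (nat_lit 202)) (PT.lf (nat_lit 10716) (nat_lit 6) (nat_lit 141) (nat_lit 1) (nat_lit 208) (nat_lit 191) (nat_lit 201))) (PT.nd (nat_lit 78) (PT.lf (nat_lit 10640) (nat_lit 6) (nat_lit 140) (nat_lit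 1) (nat_lit 209) (nat_lit 191) (nat_lit 200)) (PT.lf (nat_lit 9804) (nat_lit 6) (nat_lit 129) (nat_lit 1) (nat_lit 210) (nat_lit 191) (nat_lit 199)))) (PT.nd (nat_lit 156) (PT.nd (nat_lit 78) (PT.lf (nat_lit 9728) (nat_lit 6) (nat_lit 128) (nat_lit 3) (nat_lit 198) (nat_lit 192) (nat_lit 210)) (PT.lf (nat_lit 10564) (nat_lit 6) (nat_lit 139) (nat_lit 3) (nat_lit 199) (nat_lit 192) (nat_lit 209))) (PT.nd (nat_lit 78) (PT.lf (nat_lit 11324) (nat_lit 6) (nat_lit 149) (nat_lit 3) (nat_lit 200) (nat_lit 192) (nat_lit 208)) (PT.lf (nat_lit 11400) (nat_lit 6) (nat_lit 150) (nat_lit 3) (nat_lit 201) (nat_lit 192) (nat_lit 207))))))))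
noncomputable def pc4 : PT := (PT.nd (nat_lit 125112) (PT.nd (nat_lit 62556) (PT.nd (nat_lit 546) (PT.nd (nat_lit 234) (PT.nd (nat_lit 78) (PT.lf (nat_lit 11476) (nat_lit 6) (nat_lit 151) (nat_lit 3) (nat_lit 202) (nat_lit 192) (nat_lit 206)) (PT.nd (nat_lit 78) (PT.lf (nat_lit 11552) (nat_lit 6) (nat_lit 152) (nat_lit 3) (nat_lit 203) (nat_lit 192) (nat_lit 205)) (PT.lf (nat_lit 11628) (nat_lit 3) (nat_lit 153) (nat_lit 1) (nat_lit 204) (nat_lit 192) (nat_lit 204)))) (PT.nd (nat_lit 156) (PT.nd (nat_lit 78) (PT.lf (nat_lit 11552) (nat_lit 6) (nat_lit 152) (nat_lit 1) (nat_lit 205) (nat_lit 192) (nat_lit 203)) (PT.lf (nat_lit 11476) (nat_lit 6) (nat_lit 151) (nat_lit 1) (nat_lit 206) (nat_lit 192) (nat_lit 202))) (PT.nd (nat_lit 78) (PT.lf (nat_lit 11400) (nat_lit 6) (nat_lit 150) (nat_lit 1) (nat_lit 207) (nat_lit 192) (nat_lit 201)) (PT.lf (nat_lit 11324) (nat_lit 6) (nat_lit 149) (nat_lit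 1) (nat_lit 208) (nat_lit 192) (nat_lit 200))))) (PT.nd (nat_lit 61698) (PT.nd (nat_lit 61542) (PT.nd (nat_lit 78) (PT.lf (nat_lit 10564) (nat_lit 6) (nat_lit 139) (nat_lit 1) (nat_lit 209) (nat_lit 192) (nat_lit 199)) (PT.lf (nat_lit 9728) (nat_lit 6) (nat_lit 128) (nat_lit 1) (nat_lit 210) (nat_lit 192) (nat_lit 198))) (PT.nd (nat_lit 78) (PT.lf (nat_lit 9652) (nat_lit 6) (nat_lit 127) (nat_lit 3) (nat_lit 197) (nat_lit 193) (nat_lit 210)) (PT.lf (nat_lit 10488) (nat_lit 6) (nat_lit 138) (nat_lit 3) (nat_lit 198) (nat_lit 193) (nat_lit 209)))) (PT.nd (nat_lit 156) (PT.nd (nat_lit 78) (PT.lf (nat_lit 11248) (nat_lit 6) (nat_lit 148) (nat_lit 3) (nat_lit 199) (nat_lit 193) (nat_lit 208)) (PT.lf (nat_lit 11932) (nat_lit 6) (nat_lit 157) (nat_lit 3) (nat_lit 200) (nat_lit 193) (nat_lit 207))) (PT.nd (nat_lit 78) (PT.lf (nat_lit 12008) (nat_lit 6) (nat_lit 158) (nat_lit 3) (nat_lit 201) (nat_lit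 193) (nat_lit 206)) (PT.lf (nat_lit 12084) (nat_lit 6) (nat_lit 159) (nat_lit 3) (nat_lit 202) (nat_lit 193) (nat_lit 205)))))) (PT.nd (nat_lit 61932) (PT.nd (nat_lit 312) (PT.nd (nat_lit 156) (PT.nd (nat_lit 78) (PT.lf (nat_lit 12160) (nat_lit 6) (nat_lit 160) (nat_lit 3) (nat_lit 203) (nat_lit 193) (nat_lit 204)) (PT.lf (nat_lit 12160) (nat_lit 6) (nat_lit 160) (nat_lit 1) (nat_lit 204) (nat_lit 193) (nat_lit 203))) (PT.nd (nat_lit 78) (PT.lf (nat_lit 12084) (nat_lit 6) (nat_lit 159) (nat_lit 1) (nat_lit 205) (nat_lit 193) (nat_lit 202)) (PT.lf (nat_lit 12008) (nat_lit 6) (nat_lit 158) (nat_lit 1) (nat_lit 206) (nat_lit 193) (nat_lit 201)))) (PT.nd (nat_lit 156) (PT.nd (nat_lit 78) (PT.lf (nat_lit 11932) (nat_lit 6) (nat_lit 157) (nat_lit 1) (nat_lit 207) (nat_lit 193) (nat_lit 200)) (PT.lf (nat_lit 11248) (nat_lit 6) (nat_lit 148) (nat_lit 1) (nat_lit 208) (nat_lit 193) (nat_lit 199))) (PT.nd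 (nat_lit 78) (PT.lf (nat_lit 10488) (nat_lit 6) (nat_lit 138) (nat_lit 1) (nat_lit 209) (nat_lit 193) (nat_lit 198)) (PT.lf (nat_lit 9652) (nat_lit 6) (nat_lit 127) (nat_lit 1) (nat_lit 210) (nat_lit 193) (nat_lit 197))))) (PT.nd (nat_lit 312) (PT.nd (nat_lit 156) (PT.nd (nat_lit 78) (PT.lf (nat_lit 9576) (nat_lit 6) (nat_lit 126) (nat_lit 3) (nat_lit 196) (nat_lit 194) (nat_lit 210)) (PT.lf (nat_lit 10412) (nat_lit 6) (nat_lit 137) (nat_lit 3) (nat_lit 197) (nat_lit 194) (nat_lit 209))) (PT.nd (nat_lit 78) (PT.lf (nat_lit 11172) (nat_lit 6) (nat_lit 147) (nat_lit 3) (nat_lit 198) (nat_lit 194) (nat_lit 208)) (PT.lf (nat_lit 11856) (nat_lit 6) (nat_lit 156) (nat_lit 3) (nat_lit 199) (nat_lit 194) (nat_lit 207)))) (PT.nd (nat_lit 156) (PT.nd (nat_lit 78) (PT.lf (nat_lit 12464) (nat_lit 6) (nat_lit 164) (nat_lit 3) (nat_lit 200) (nat_lit 194) (nat_lit 206)) (PT.lf (nat_lit 12540) (nat_lit 6)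 (nat_lit 165) (nat_lit 3) (nat_lit 201) (nat_lit 194) (nat_lit 205))) (PT.nd (nat_lit 78) (PT.lf (nat_lit 12616) (nat_lit 6) (nat_lit 166) (nat_lit 3) (nat_lit 202) (nat_lit 194) (nat_lit 204)) (PT.lf (nat_lit 12692) (nat_lit 3) (nat_lit 167) (nat_lit 1) (nat_lit 203) (nat_lit 194) (nat_lit 203))))))) (PT.nd (nat_lit 62400) (PT.nd (nat_lit 61776) (PT.nd (nat_lit 234) (PT.nd (nat_lit 78) (PT.lf (nat_lit 12616) (nat_lit 6) (nat_lit 166) (nat_lit 1) (nat_lit 204) (nat_lit 194) (nat_lit 202)) (PT.nd (nat_lit 78) (PT.lf (nat_lit 12540) (nat_lit 6) (nat_lit 165) (nat_lit 1) (nat_lit 205) (nat_lit 194) (nat_lit 201)) (PT.lf (nat_lit 12464) (nat_lit 6) (nat_lit 164) (nat_lit 1) (nat_lit 206) (nat_lit 194) (nat_lit 200)))) (PT.nd (nat_lit 156) (PT.nd (nat_lit 78) (PT.lf (nat_lit 11856) (nat_lit 6) (nat_lit 156) (nat_lit 1) (nat_lit 207) (nat_lit 194) (nat_lit 199)) (PT.lf (nat_lit 11172) (nat_lit 6)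 (nat_lit 147) (nat_lit 1) (nat_lit 208) (nat_lit 194) (nat_lit 198))) (PT.nd (nat_lit 78) (PT.lf (nat_lit 10412) (nat_lit 6) (nat_lit 137) (nat_lit 1) (nat_lit 209) (nat_lit 194) (nat_lit 197)) (PT.lf (nat_lit 9576) (nat_lit 6) (nat_lit 126) (nat_lit 1) (nat_lit 210) (nat_lit 194) (nat_lit 196))))) (PT.nd (nat_lit 312) (PT.nd (nat_lit 156) (PT.nd (nat_lit 78) (PT.lf (nat_lit 9500) (nat_lit 3) (nat_lit 125) (nat_lit 3) (nat_lit 195) (nat_lit 195) (nat_lit 210)) (PT.lf (nat_lit 10336) (nat_lit 6) (nat_lit 136) (nat_lit 3) (nat_lit 196) (nat_lit 195) (nat_lit 209))) (PT.nd (nat_lit 78) (PT.lf (nat_lit 11096) (nat_lit 6) (nat_lit 146) (nat_lit 3) (nat_lit 197) (nat_lit 195) (nat_lit 208)) (PT.lf (nat_lit 11780) (nat_lit 6) (nat_lit 155) (nat_lit 3) (nat_lit 198) (nat_lit 195) (nat_lit 207)))) (PT.nd (nat_lit 156) (PT.nd (nat_lit 78) (PT.lf (nat_lit 12388) (nat_lit 6) (nat_lit 163) (nat_lit 3) (nat_lit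 199) (nat_lit 195) (nat_lit 206)) (PT.lf (nat_lit 12920) (nat_lit 6) (nat_lit 170) (nat_lit 3) (nat_lit 200) (nat_lit 195) (nat_lit 205))) (PT.nd (nat_lit 78) (PT.lf (nat_lit 12996) (nat_lit 6) (nat_lit 171) (nat_lit 3) (nat_lit 201) (nat_lit 195) (nat_lit 204)) (PT.lf (nat_lit 13072) (nat_lit 6) (nat_lit 172) (nat_lit 3) (nat_lit 202) (nat_lit 195) (nat_lit 203)))))) (PT.nd (nat_lit 61776) (PT.nd (nat_lit 312) (PT.nd (nat_lit 156) (PT.nd (nat_lit 78) (PT.lf (nat_lit 13072) (nat_lit 6) (nat_lit 172) (nat_lit 1) (nat_lit 203) (nat_lit 195) (nat_lit 202)) (PT.lf (nat_lit 12996) (nat_lit 6) (nat_lit 171) (nat_lit 1) (nat_lit 204) (nat_lit 195) (nat_lit 201))) (PT.nd (nat_lit 78) (PT.lf (nat_lit 12920) (nat_lit 6) (nat_lit 170) (nat_lit 1) (nat_lit 205) (nat_lit 195) (nat_lit 200)) (PT.lf (nat_lit 12388) (nat_lit 6) (nat_lit 163) (nat_lit 1) (nat_lit 206) (nat_lit 195) (nat_lit 199)))) (PT.nd (nat_lit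 156) (PT.nd (nat_lit 78) (PT.lf (nat_lit 11780) (nat_lit 6) (nat_lit 155) (nat_lit 1) (nat_lit 207) (nat_lit 195) (nat_lit 198)) (PT.lf (nat_lit 11096) (nat_lit 6) (nat_lit 146) (nat_lit 1) (nat_lit 208) (nat_lit 195) (nat_lit 197))) (PT.nd (nat_lit 78) (PT.lf (nat_lit 10336) (nat_lit 6) (nat_lit 136) (nat_lit 1) (nat_lit 209) (nat_lit 195) (nat_lit 196)) (PT.lf (nat_lit 9500) (nat_lit 3) (nat_lit 125) (nat_lit 0) (nat_lit 210) (nat_lit 195) (nat_lit 195))))) (PT.nd (nat_lit 312) (PT.nd (nat_lit 156) (PT.nd (nat_lit 78) (PT.lf (nat_lit 9576) (nat_lit 6) (nat_lit 126) (nat_lit 5) (nat_lit 194) (nat_lit 196) (nat_lit 210)) (PT.lf (nat_lit 10336) (nat_lit 6) (nat_lit 136) (nat_lit 5) (nat_lit 195) (nat_lit 196) (nat_lit 209))) (PT.nd (nat_lit 78) (PT.lf (nat_lit 11020) (nat_lit 3) (nat_lit 145) (nat_lit 3) (nat_lit 196) (nat_lit 196) (nat_lit 208)) (PT.lf (nat_lit 11704) (nat_lit 6) (nat_lit 154)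 (nat_lit 3) (nat_lit 197) (nat_lit 196) (nat_lit 207)))) (PT.nd (nat_lit 156) (PT.nd (nat_lit 78) (PT.lf (nat_lit 12312) (nat_lit 6) (nat_lit 162) (nat_lit 3) (nat_lit 198) (nat_lit 196) (nat_lit 206)) (PT.lf (nat_lit 12844) (nat_lit 6) (nat_lit 169) (nat_lit 3) (nat_lit 199) (nat_lit 196) (nat_lit 205))) (PT.nd (nat_lit 78) (PT.lf (nat_lit 13300) (nat_lit 6) (nat_lit 175) (nat_lit 3) (nat_lit 200) (nat_lit 196) (nat_lit 204)) (PT.lf (nat_lit 13376) (nat_lit 6) (nat_lit 176) (nat_lit 3) (nat_lit 201) (nat_lit 196) (nat_lit 203))))))))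
noncomputable def pc5 : PT := (PT.nd (nat_lit 124488) (PT.nd (nat_lit 62244) (PT.nd (nat_lit 546) (PT.nd (nat_lit 234) (PT.nd (nat_lit 78) (PT.lf (nat_lit 13452) (nat_lit 3) (nat_lit 177) (nat_lit 1) (nat_lit 202) (nat_lit 196) (nat_lit 202)) (PT.nd (nat_lit 78) (PT.lf (nat_lit 13376) (nat_lit 6) (nat_lit 176) (nat_lit 1) (nat_lit 203) (nat_lit 196) (nat_lit 201)) (PT.lf (nat_lit 13300) (nat_lit 6) (nat_lit 175) (nat_lit 1) (nat_lit 204) (nat_lit 196) (nat_lit 200)))) (PT.nd (nat_lit 156) (PT.nd (nat_lit 78) (PT.lf (nat_lit 12844) (nat_lit 6) (nat_lit 169) (nat_lit 1) (nat_lit 205) (nat_lit 196) (nat_lit 199)) (PT.lf (nat_lit 12312) (nat_lit 6) (nat_lit 162) (nat_lit 1) (nat_lit 206) (nat_lit 196) (nat_lit 198))) (PT.nd (nat_lit 78) (PT.lf (nat_lit 11704) (nat_lit 6) (nat_lit 154) (nat_lit 1) (nat_lit 207) (nat_lit 196) (nat_lit 197)) (PT.lf (nat_lit 11020) (nat_lit 3) (nat_lit 145) (nat_lit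 0) (nat_lit 208) (nat_lit 196) (nat_lit 196))))) (PT.nd (nat_lit 61386) (PT.nd (nat_lit 61230) (PT.nd (nat_lit 78) (PT.lf (nat_lit 10336) (nat_lit 6) (nat_lit 136) (nat_lit 0) (nat_lit 209) (nat_lit 196) (nat_lit 195)) (PT.lf (nat_lit 9576) (nat_lit 6) (nat_lit 126) (nat_lit 0) (nat_lit 210) (nat_lit 196) (nat_lit 194))) (PT.nd (nat_lit 78) (PT.lf (nat_lit 9652) (nat_lit 6) (nat_lit 127) (nat_lit 5) (nat_lit 193) (nat_lit 197) (nat_lit 210)) (PT.lf (nat_lit 10412) (nat_lit 6) (nat_lit 137) (nat_lit 5) (nat_lit 194) (nat_lit 197) (nat_lit 209)))) (PT.nd (nat_lit 156) (PT.nd (nat_lit 78) (PT.lf (nat_lit 11096) (nat_lit 6) (nat_lit 146) (nat_lit 5) (nat_lit 195) (nat_lit 197) (nat_lit 208)) (PT.lf (nat_lit 11704) (nat_lit 6) (nat_lit 154) (nat_lit 5) (nat_lit 196) (nat_lit 197) (nat_lit 207))) (PT.nd (nat_lit 78) (PT.lf (nat_lit 12236) (nat_lit 3) (nat_lit 161) (nat_lit 3) (nat_lit 197) (nat_lit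 197) (nat_lit 206)) (PT.lf (nat_lit 12768) (nat_lit 6) (nat_lit 168) (nat_lit 3) (nat_lit 198) (nat_lit 197) (nat_lit 205)))))) (PT.nd (nat_lit 624) (PT.nd (nat_lit 312) (PT.nd (nat_lit 156) (PT.nd (nat_lit 78) (PT.lf (nat_lit 13224) (nat_lit 6) (nat_lit 174) (nat_lit 3) (nat_lit 199) (nat_lit 197) (nat_lit 204)) (PT.lf (nat_lit 13604) (nat_lit 6) (nat_lit 179) (nat_lit 3) (nat_lit 200) (nat_lit 197) (nat_lit 203))) (PT.nd (nat_lit 78) (PT.lf (nat_lit 13680) (nat_lit 6) (nat_lit 180) (nat_lit 3) (nat_lit 201) (nat_lit 197) (nat_lit 202)) (PT.lf (nat_lit 13680) (nat_lit 6) (nat_lit 180) (nat_lit 1) (nat_lit 202) (nat_lit 197) (nat_lit 201)))) (PT.nd (nat_lit 156) (PT.nd (nat_lit 78) (PT.lf (nat_lit 13604) (nat_lit 6) (nat_lit 179) (nat_lit 1) (nat_lit 203) (nat_lit 197) (nat_lit 200)) (PT.lf (nat_lit 13224) (nat_lit 6) (nat_lit 174) (nat_lit 1) (nat_lit 204) (nat_lit 197) (nat_lit 199))) (PT.nd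 (nat_lit 78) (PT.lf (nat_lit 12768) (nat_lit 6) (nat_lit 168) (nat_lit 1) (nat_lit 205) (nat_lit 197) (nat_lit 198)) (PT.lf (nat_lit 12236) (nat_lit 3) (nat_lit 161) (nat_lit 0) (nat_lit 206) (nat_lit 197) (nat_lit 197))))) (PT.nd (nat_lit 61308) (PT.nd (nat_lit 156) (PT.nd (nat_lit 78) (PT.lf (nat_lit 11704) (nat_lit 6) (nat_lit 154) (nat_lit 0) (nat_lit 207) (nat_lit 197) (nat_lit 196)) (PT.lf (nat_lit 11096) (nat_lit 6) (nat_lit 146) (nat_lit 0) (nat_lit 208) (nat_lit 197) (nat_lit 195))) (PT.nd (nat_lit 78) (PT.lf (nat_lit 10412) (nat_lit 6) (nat_lit 137) (nat_lit 0) (nat_lit 209) (nat_lit 197) (nat_lit 194)) (PT.lf (nat_lit 9652) (nat_lit 6) (nat_lit 127) (nat_lit 0) (nat_lit 210) (nat_lit 197) (nat_lit 193)))) (PT.nd (nat_lit 156) (PT.nd (nat_lit 78) (PT.lf (nat_lit 9728) (nat_lit 6) (nat_lit 128) (nat_lit 5) (nat_lit 192) (nat_lit 198) (nat_lit 210)) (PT.lf (nat_lit 10488) (nat_lit 6)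 (nat_lit 138) (nat_lit 5) (nat_lit 193) (nat_lit 198) (nat_lit 209))) (PT.nd (nat_lit 78) (PT.lf (nat_lit 11172) (nat_lit 6) (nat_lit 147) (nat_lit 5) (nat_lit 194) (nat_lit 198) (nat_lit 208)) (PT.lf (nat_lit 11780) (nat_lit 6) (nat_lit 155) (nat_lit 5) (nat_lit 195) (nat_lit 198) (nat_lit 207))))))) (PT.nd (nat_lit 62088) (PT.nd (nat_lit 546) (PT.nd (nat_lit 234) (PT.nd (nat_lit 78) (PT.lf (nat_lit 12312) (nat_lit 6) (nat_lit 162) (nat_lit 5) (nat_lit 196) (nat_lit 198) (nat_lit 206)) (PT.nd (nat_lit 78) (PT.lf (nat_lit 12768) (nat_lit 6) (nat_lit 168) (nat_lit 5) (nat_lit 197) (nat_lit 198) (nat_lit 205)) (PT.lf (nat_lit 13148) (nat_lit 3) (nat_lit 173) (nat_lit 3) (nat_lit 198) (nat_lit 198) (nat_lit 204)))) (PT.nd (nat_lit 156) (PT.nd (nat_lit 78) (PT.lf (nat_lit 13528) (nat_lit 6) (nat_lit 178) (nat_lit 3) (nat_lit 199) (nat_lit 198) (nat_lit 203)) (PT.lf (nat_lit 13832) (nat_lit 6) (nat_lit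 182) (nat_lit 3) (nat_lit 200) (nat_lit 198) (nat_lit 202))) (PT.nd (nat_lit 78) (PT.lf (nat_lit 13908) (nat_lit 3) (nat_lit 183) (nat_lit 1) (nat_lit 201) (nat_lit 198) (nat_lit 201)) (PT.lf (nat_lit 13832) (nat_lit 6) (nat_lit 182) (nat_lit 1) (nat_lit 202) (nat_lit 198) (nat_lit 200))))) (PT.nd (nat_lit 312) (PT.nd (nat_lit 156) (PT.nd (nat_lit 78) (PT.lf (nat_lit 13528) (nat_lit 6) (nat_lit 178) (nat_lit 1) (nat_lit 203) (nat_lit 198) (nat_lit 199)) (PT.lf (nat_lit 13148) (nat_lit 3) (nat_lit 173) (nat_lit 0) (nat_lit 204) (nat_lit 198) (nat_lit 198))) (PT.nd (nat_lit 78) (PT.lf (nat_lit 12768) (nat_lit 6) (nat_lit 168) (nat_lit 0) (nat_lit 205) (nat_lit 198) (nat_lit 197)) (PT.lf (nat_lit 12312) (nat_lit 6) (nat_lit 162) (nat_lit 0) (nat_lit 206) (nat_lit 198) (nat_lit 196)))) (PT.nd (nat_lit 156) (PT.nd (nat_lit 78) (PT.lf (nat_lit 11780) (nat_lit 6) (nat_lit 155) (nat_lit 0) (nat_lit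 207) (nat_lit 198) (nat_lit 195)) (PT.lf (nat_lit 11172) (nat_lit 6) (nat_lit 147) (nat_lit 0) (nat_lit 208) (nat_lit 198) (nat_lit 194))) (PT.nd (nat_lit 78) (PT.lf (nat_lit 10488) (nat_lit 6) (nat_lit 138) (nat_lit 0) (nat_lit 209) (nat_lit 198) (nat_lit 193)) (PT.lf (nat_lit 9728) (nat_lit 6) (nat_lit 128) (nat_lit 0) (nat_lit 210) (nat_lit 198) (nat_lit 192)))))) (PT.nd (nat_lit 624) (PT.nd (nat_lit 312) (PT.nd (nat_lit 156) (PT.nd (nat_lit 78) (PT.lf (nat_lit 9804) (nat_lit 6) (nat_lit 129) (nat_lit 5) (nat_lit 191) (nat_lit 199) (nat_lit 210)) (PT.lf (nat_lit 10564) (nat_lit 6) (nat_lit 139) (nat_lit 5) (nat_lit 192) (nat_lit 199) (nat_lit 209))) (PT.nd (nat_lit 78) (PT.lf (nat_lit 11248) (nat_lit 6) (nat_lit 148) (nat_lit 5) (nat_lit 193) (nat_lit 199) (nat_lit 208)) (PT.lf (nat_lit 11856) (nat_lit 6) (nat_lit 156) (nat_lit 5) (nat_lit 194) (nat_lit 199) (nat_lit 207)))) (PT.nd (nat_lit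 156) (PT.nd (nat_lit 78) (PT.lf (nat_lit 12388) (nat_lit 6) (nat_lit 163) (nat_lit 5) (nat_lit 195) (nat_lit 199) (nat_lit 206)) (PT.lf (nat_lit 12844) (nat_lit 6) (nat_lit 169) (nat_lit 5) (nat_lit 196) (nat_lit 199) (nat_lit 205))) (PT.nd (nat_lit 78) (PT.lf (nat_lit 13224) (nat_lit 6) (nat_lit 174) (nat_lit 5) (nat_lit 197) (nat_lit 199) (nat_lit 204)) (PT.lf (nat_lit 13528) (nat_lit 6) (nat_lit 178) (nat_lit 5) (nat_lit 198) (nat_lit 199) (nat_lit 203))))) (PT.nd (nat_lit 312) (PT.nd (nat_lit 156) (PT.nd (nat_lit 78) (PT.lf (nat_lit 13756) (nat_lit 3) (nat_lit 181) (nat_lit 3) (nat_lit 199) (nat_lit 199) (nat_lit 202)) (PT.lf (nat_lit 13984) (nat_lit 6) (nat_lit 184) (nat_lit 3) (nat_lit 200) (nat_lit 199) (nat_lit 201))) (PT.nd (nat_lit 78) (PT.lf (nat_lit 13984) (nat_lit 6) (nat_lit 184) (nat_lit 1) (nat_lit 201) (nat_lit 199) (nat_lit 200)) (PT.lf (nat_lit 13756) (nat_lit 3) (nat_lit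 181) (nat_lit 0) (nat_lit 202) (nat_lit 199) (nat_lit 199)))) (PT.nd (nat_lit 156) (PT.nd (nat_lit 78) (PT.lf (nat_lit 13528) (nat_lit 6) (nat_lit 178) (nat_lit 0) (nat_lit 203) (nat_lit 199) (nat_lit 198)) (PT.lf (nat_lit 13224) (nat_lit 6) (nat_lit 174) (nat_lit 0) (nat_lit 204) (nat_lit 199) (nat_lit 197))) (PT.nd (nat_lit 78) (PT.lf (nat_lit 12844) (nat_lit 6) (nat_lit 169) (nat_lit 0) (nat_lit 205) (nat_lit 199) (nat_lit 196)) (PT.lf (nat_lit 12388) (nat_lit 6) (nat_lit 163) (nat_lit 0) (nat_lit 206) (nat_lit 199) (nat_lit 195))))))))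
noncomputable def pc6 : PT := (PT.nd (nat_lit 123942) (PT.nd (nat_lit 62010) (PT.nd (nat_lit 61386) (PT.nd (nat_lit 234) (PT.nd (nat_lit 78) (PT.lf (nat_lit 11856) (nat_lit 6) (nat_lit 156) (nat_lit 0) (nat_lit 207) (nat_lit 199) (nat_lit 194)) (PT.nd (nat_lit 78) (PT.lf (nat_lit 11248) (nat_lit 6) (nat_lit 148) (nat_lit 0) (nat_lit 208) (nat_lit 199) (nat_lit 193)) (PT.lf (nat_lit 10564) (nat_lit 6) (nat_lit 139) (nat_lit 0) (nat_lit 209) (nat_lit 199) (nat_lit 192)))) (PT.nd (nat_lit 60996) (PT.nd (nat_lit 60918) (PT.lf (nat_lit 9804) (nat_lit 6) (nat_lit 129) (nat_lit 0) (nat_lit 210) (nat_lit 199) (nat_lit 191)) (PT.lf (nat_lit 9880) (nat_lit 6) (nat_lit 130) (nat_lit 5) (nat_lit 190) (nat_lit 200) (nat_lit 210))) (PT.nd (nat_lit 78) (PT.lf (nat_lit 10640) (nat_lit 6) (nat_lit 140) (nat_lit 5) (nat_lit 191) (nat_lit 200) (nat_lit 209)) (PT.lf (nat_lit 11324) (nat_lit 6) (nat_lit 149) (nat_lit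 5) (nat_lit 192) (nat_lit 200) (nat_lit 208))))) (PT.nd (nat_lit 312) (PT.nd (nat_lit 156) (PT.nd (nat_lit 78) (PT.lf (nat_lit 11932) (nat_lit 6) (nat_lit 157) (nat_lit 5) (nat_lit 193) (nat_lit 200) (nat_lit 207)) (PT.lf (nat_lit 12464) (nat_lit 6) (nat_lit 164) (nat_lit 5) (nat_lit 194) (nat_lit 200) (nat_lit 206))) (PT.nd (nat_lit 78) (PT.lf (nat_lit 12920) (nat_lit 6) (nat_lit 170) (nat_lit 5) (nat_lit 195) (nat_lit 200) (nat_lit 205)) (PT.lf (nat_lit 13300) (nat_lit 6) (nat_lit 175) (nat_lit 5) (nat_lit 196) (nat_lit 200) (nat_lit 204)))) (PT.nd (nat_lit 156) (PT.nd (nat_lit 78) (PT.lf (nat_lit 13604) (nat_lit 6) (nat_lit 179) (nat_lit 5) (nat_lit 197) (nat_lit 200) (nat_lit 203)) (PT.lf (nat_lit 13832) (nat_lit 6) (nat_lit 182) (nat_lit 5) (nat_lit 198) (nat_lit 200) (nat_lit 202))) (PT.nd (nat_lit 78) (PT.lf (nat_lit 13984) (nat_lit 6) (nat_lit 184) (nat_lit 5) (nat_lit 199) (nat_lit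 200) (nat_lit 201)) (PT.lf (nat_lit 14060) (nat_lit 1) (nat_lit 185) (nat_lit 0) (nat_lit 200) (nat_lit 200) (nat_lit 200)))))) (PT.nd (nat_lit 624) (PT.nd (nat_lit 312) (PT.nd (nat_lit 156) (PT.nd (nat_lit 78) (PT.lf (nat_lit 13984) (nat_lit 6) (nat_lit 184) (nat_lit 0) (nat_lit 201) (nat_lit 200) (nat_lit 199)) (PT.lf (nat_lit 13832) (nat_lit 6) (nat_lit 182) (nat_lit 0) (nat_lit 202) (nat_lit 200) (nat_lit 198))) (PT.nd (nat_lit 78) (PT.lf (nat_lit 13604) (nat_lit 6) (nat_lit 179) (nat_lit 0) (nat_lit 203) (nat_lit 200) (nat_lit 197)) (PT.lf (nat_lit 13300) (nat_lit 6) (nat_lit 175) (nat_lit 0) (nat_lit 204) (nat_lit 200) (nat_lit 196)))) (PT.nd (nat_lit 156) (PT.nd (nat_lit 78) (PT.lf (nat_lit 12920) (nat_lit 6) (nat_lit 170) (nat_lit 0) (nat_lit 205) (nat_lit 200) (nat_lit 195)) (PT.lf (nat_lit 12464) (nat_lit 6) (nat_lit 164) (nat_lit 0) (nat_lit 206) (nat_lit 200) (nat_lit 194))) (PT.nd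 (nat_lit 78) (PT.lf (nat_lit 11932) (nat_lit 6) (nat_lit 157) (nat_lit 0) (nat_lit 207) (nat_lit 200) (nat_lit 193)) (PT.lf (nat_lit 11324) (nat_lit 6) (nat_lit 149) (nat_lit 0) (nat_lit 208) (nat_lit 200) (nat_lit 192))))) (PT.nd (nat_lit 60996) (PT.nd (nat_lit 60840) (PT.nd (nat_lit 78) (PT.lf (nat_lit 10640) (nat_lit 6) (nat_lit 140) (nat_lit 0) (nat_lit 209) (nat_lit 200) (nat_lit 191)) (PT.lf (nat_lit 9880) (nat_lit 6) (nat_lit 130) (nat_lit 0) (nat_lit 210) (nat_lit 200) (nat_lit 190))) (PT.nd (nat_lit 78) (PT.lf (nat_lit 8664) (nat_lit 6) (nat_lit 114) (nat_lit 5) (nat_lit 188) (nat_lit 201) (nat_lit 211)) (PT.lf (nat_lit 9120) (nat_lit 6) (nat_lit 120) (nat_lit 5) (nat_lit 189) (nat_lit 201) (nat_lit 210)))) (PT.nd (nat_lit 156) (PT.nd (nat_lit 78) (PT.lf (nat_lit 9956) (nat_lit 6) (nat_lit 131) (nat_lit 5) (nat_lit 190) (nat_lit 201) (nat_lit 209)) (PT.lf (nat_lit 10716) (nat_lit 6)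 (nat_lit 141) (nat_lit 5) (nat_lit 191) (nat_lit 201) (nat_lit 208))) (PT.nd (nat_lit 78) (PT.lf (nat_lit 11400) (nat_lit 6) (nat_lit 150) (nat_lit 5) (nat_lit 192) (nat_lit 201) (nat_lit 207)) (PT.lf (nat_lit 12008) (nat_lit 6) (nat_lit 158) (nat_lit 5) (nat_lit 193) (nat_lit 201) (nat_lit 206))))))) (PT.nd (nat_lit 1170) (PT.nd (nat_lit 546) (PT.nd (nat_lit 234) (PT.nd (nat_lit 78) (PT.lf (nat_lit 12540) (nat_lit 6) (nat_lit 165) (nat_lit 5) (nat_lit 194) (nat_lit 201) (nat_lit 205)) (PT.nd (nat_lit 78) (PT.lf (nat_lit 12996) (nat_lit 6) (nat_lit 171) (nat_lit 5) (nat_lit 195) (nat_lit 201) (nat_lit 204)) (PT.lf (nat_lit 13376) (nat_lit 6) (nat_lit 176) (nat_lit 5) (nat_lit 196) (nat_lit 201) (nat_lit 203)))) (PT.nd (nat_lit 156) (PT.nd (nat_lit 78) (PT.lf (nat_lit 13680) (nat_lit 6) (nat_lit 180) (nat_lit 5) (nat_lit 197) (nat_lit 201) (nat_lit 202)) (PT.lf (nat_lit 13908) (nat_lit 3) (nat_lit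 183) (nat_lit 4) (nat_lit 198) (nat_lit 201) (nat_lit 201))) (PT.nd (nat_lit 78) (PT.lf (nat_lit 13984) (nat_lit 6) (nat_lit 184) (nat_lit 4) (nat_lit 199) (nat_lit 201) (nat_lit 200)) (PT.lf (nat_lit 13984) (nat_lit 6) (nat_lit 184) (nat_lit 2) (nat_lit 200) (nat_lit 201) (nat_lit 199))))) (PT.nd (nat_lit 312) (PT.nd (nat_lit 156) (PT.nd (nat_lit 78) (PT.lf (nat_lit 13908) (nat_lit 3) (nat_lit 183) (nat_lit 0) (nat_lit 201) (nat_lit 201) (nat_lit 198)) (PT.lf (nat_lit 13680) (nat_lit 6) (nat_lit 180) (nat_lit 0) (nat_lit 202) (nat_lit 201) (nat_lit 197))) (PT.nd (nat_lit 78) (PT.lf (nat_lit 13376) (nat_lit 6) (nat_lit 176) (nat_lit 0) (nat_lit 203) (nat_lit 201) (nat_lit 196)) (PT.lf (nat_lit 12996) (nat_lit 6) (nat_lit 171) (nat_lit 0) (nat_lit 204) (nat_lit 201) (nat_lit 195)))) (PT.nd (nat_lit 156) (PT.nd (nat_lit 78) (PT.lf (nat_lit 12540) (nat_lit 6) (nat_lit 165) (nat_lit 0) (nat_lit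 205) (nat_lit 201) (nat_lit 194)) (PT.lf (nat_lit 12008) (nat_lit 6) (nat_lit 158) (nat_lit 0) (nat_lit 206) (nat_lit 201) (nat_lit 193))) (PT.nd (nat_lit 78) (PT.lf (nat_lit 11400) (nat_lit 6) (nat_lit 150) (nat_lit 0) (nat_lit 207) (nat_lit 201) (nat_lit 192)) (PT.lf (nat_lit 10716) (nat_lit 6) (nat_lit 141) (nat_lit 0) (nat_lit 208) (nat_lit 201) (nat_lit 191)))))) (PT.nd (nat_lit 61152) (PT.nd (nat_lit 60840) (PT.nd (nat_lit 156) (PT.nd (nat_lit 78) (PT.lf (nat_lit 9956) (nat_lit 6) (nat_lit 131) (nat_lit 0) (nat_lit 209) (nat_lit 201) (nat_lit 190)) (PT.lf (nat_lit 9120) (nat_lit 6) (nat_lit 120) (nat_lit 0) (nat_lit 210) (nat_lit 201) (nat_lit 189))) (PT.nd (nat_lit 60606) (PT.lf (nat_lit 8664) (nat_lit 6) (nat_lit 114) (nat_lit 0) (nat_lit 211) (nat_lit 201) (nat_lit 188)) (PT.lf (nat_lit 8284) (nat_lit 6) (nat_lit 109) (nat_lit 5) (nat_lit 187) (nat_lit 202) (nat_lit 211)))) (PT.nd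 (nat_lit 156) (PT.nd (nat_lit 78) (PT.lf (nat_lit 8740) (nat_lit 6) (nat_lit 115) (nat_lit 5) (nat_lit 188) (nat_lit 202) (nat_lit 210)) (PT.lf (nat_lit 9196) (nat_lit 6) (nat_lit 121) (nat_lit 5) (nat_lit 189) (nat_lit 202) (nat_lit 209))) (PT.nd (nat_lit 78) (PT.lf (nat_lit 10032) (nat_lit 6) (nat_lit 132) (nat_lit 5) (nat_lit 190) (nat_lit 202) (nat_lit 208)) (PT.lf (nat_lit 10792) (nat_lit 6) (nat_lit 142) (nat_lit 5) (nat_lit 191) (nat_lit 202) (nat_lit 207))))) (PT.nd (nat_lit 312) (PT.nd (nat_lit 156) (PT.nd (nat_lit 78) (PT.lf (nat_lit 11476) (nat_lit 6) (nat_lit 151) (nat_lit 5) (nat_lit 192) (nat_lit 202) (nat_lit 206)) (PT.lf (nat_lit 12084) (nat_lit 6) (nat_lit 159) (nat_lit 5) (nat_lit 193) (nat_lit 202) (nat_lit 205))) (PT.nd (nat_lit 78) (PT.lf (nat_lit 12616) (nat_lit 6) (nat_lit 166) (nat_lit 5) (nat_lit 194) (nat_lit 202) (nat_lit 204)) (PT.lf (nat_lit 13072) (nat_lit 6) (nat_lit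 172) (nat_lit 5) (nat_lit 195) (nat_lit 202) (nat_lit 203)))) (PT.nd (nat_lit 156) (PT.nd (nat_lit 78) (PT.lf (nat_lit 13452) (nat_lit 3) (nat_lit 177) (nat_lit 4) (nat_lit 196) (nat_lit 202) (nat_lit 202)) (PT.lf (nat_lit 13680) (nat_lit 6) (nat_lit 180) (nat_lit 4) (nat_lit 197) (nat_lit 202) (nat_lit 201))) (PT.nd (nat_lit 78) (PT.lf (nat_lit 13832) (nat_lit 6) (nat_lit 182) (nat_lit 4) (nat_lit 198) (nat_lit 202) (nat_lit 200)) (PT.lf (nat_lit 13756) (nat_lit 3) (nat_lit 181) (nat_lit 2) (nat_lit 199) (nat_lit 202) (nat_lit 199))))))))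
noncomputable def pc7 : PT := (PT.nd (nat_lit 62868) (PT.nd (nat_lit 61620) (PT.nd (nat_lit 546) (PT.nd (nat_lit 234) (PT.nd (nat_lit 78) (PT.lf (nat_lit 13832) (nat_lit 6) (nat_lit 182) (nat_lit 2) (nat_lit 200) (nat_lit 202) (nat_lit 198)) (PT.nd (nat_lit 78) (PT.lf (nat_lit 13680) (nat_lit 6) (nat_lit 180) (nat_lit 2) (nat_lit 201) (nat_lit 202) (nat_lit 197)) (PT.lf (nat_lit 13452) (nat_lit 3) (nat_lit 177) (nat_lit 0) (nat_lit 202) (nat_lit 202) (nat_lit 196)))) (PT.nd (nat_lit 156) (PT.nd (nat_lit 78) (PT.lf (nat_lit 13072) (nat_lit 6) (nat_lit 172) (nat_lit 0) (nat_lit 203) (nat_lit 202) (nat_lit 195)) (PT.lf (nat_lit 12616) (nat_lit 6) (nat_lit 166) (nat_lit 0) (nat_lit 204) (nat_lit 202) (nat_lit 194))) (PT.nd (nat_lit 78) (PT.lf (nat_lit 12084) (nat_lit 6) (nat_lit 159) (nat_lit 0) (nat_lit 205) (nat_lit 202) (nat_lit 193)) (PT.lf (nat_lit 11476) (nat_lit 6) (nat_lit 151) (nat_lit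 0) (nat_lit 206) (nat_lit 202) (nat_lit 192))))) (PT.nd (nat_lit 312) (PT.nd (nat_lit 156) (PT.nd (nat_lit 78) (PT.lf (nat_lit 10792) (nat_lit 6) (nat_lit 142) (nat_lit 0) (nat_lit 207) (nat_lit 202) (nat_lit 191)) (PT.lf (nat_lit 10032) (nat_lit 6) (nat_lit 132) (nat_lit 0) (nat_lit 208) (nat_lit 202) (nat_lit 190))) (PT.nd (nat_lit 78) (PT.lf (nat_lit 9196) (nat_lit 6) (nat_lit 121) (nat_lit 0) (nat_lit 209) (nat_lit 202) (nat_lit 189)) (PT.lf (nat_lit 8740) (nat_lit 6) (nat_lit 115) (nat_lit 0) (nat_lit 210) (nat_lit 202) (nat_lit 188)))) (PT.nd (nat_lit 60606) (PT.nd (nat_lit 60528) (PT.lf (nat_lit 8284) (nat_lit 6) (nat_lit 109) (nat_lit 0) (nat_lit 211) (nat_lit 202) (nat_lit 187)) (PT.lf (nat_lit 7904) (nat_lit 6) (nat_lit 104) (nat_lit 5) (nat_lit 186) (nat_lit 203) (nat_lit 211))) (PT.nd (nat_lit 78) (PT.lf (nat_lit 8360) (nat_lit 6) (nat_lit 110) (nat_lit 5) (nat_lit 187) (nat_lit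 203) (nat_lit 210)) (PT.lf (nat_lit 8816) (nat_lit 6) (nat_lit 116) (nat_lit 5) (nat_lit 188) (nat_lit 203) (nat_lit 209)))))) (PT.nd (nat_lit 624) (PT.nd (nat_lit 312) (PT.nd (nat_lit 156) (PT.nd (nat_lit 78) (PT.lf (nat_lit 9272) (nat_lit 6) (nat_lit 122) (nat_lit 5) (nat_lit 189) (nat_lit 203) (nat_lit 208)) (PT.lf (nat_lit 10108) (nat_lit 6) (nat_lit 133) (nat_lit 5) (nat_lit 190) (nat_lit 203) (nat_lit 207))) (PT.nd (nat_lit 78) (PT.lf (nat_lit 10868) (nat_lit 6) (nat_lit 143) (nat_lit 5) (nat_lit 191) (nat_lit 203) (nat_lit 206)) (PT.lf (nat_lit 11552) (nat_lit 6) (nat_lit 152) (nat_lit 5) (nat_lit 192) (nat_lit 203) (nat_lit 205)))) (PT.nd (nat_lit 156) (PT.nd (nat_lit 78) (PT.lf (nat_lit 12160) (nat_lit 6) (nat_lit 160) (nat_lit 5) (nat_lit 193) (nat_lit 203) (nat_lit 204)) (PT.lf (nat_lit 12692) (nat_lit 3) (nat_lit 167) (nat_lit 4) (nat_lit 194) (nat_lit 203) (nat_lit 203))) (PT.nd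 (nat_lit 78) (PT.lf (nat_lit 13072) (nat_lit 6) (nat_lit 172) (nat_lit 4) (nat_lit 195) (nat_lit 203) (nat_lit 202)) (PT.lf (nat_lit 13376) (nat_lit 6) (nat_lit 176) (nat_lit 4) (nat_lit 196) (nat_lit 203) (nat_lit 201))))) (PT.nd (nat_lit 312) (PT.nd (nat_lit 156) (PT.nd (nat_lit 78) (PT.lf (nat_lit 13604) (nat_lit 6) (nat_lit 179) (nat_lit 4) (nat_lit 197) (nat_lit 203) (nat_lit 200)) (PT.lf (nat_lit 13528) (nat_lit 6) (nat_lit 178) (nat_lit 4) (nat_lit 198) (nat_lit 203) (nat_lit 199))) (PT.nd (nat_lit 78) (PT.lf (nat_lit 13528) (nat_lit 6) (nat_lit 178) (nat_lit 2) (nat_lit 199) (nat_lit 203) (nat_lit 198)) (PT.lf (nat_lit 13604) (nat_lit 6) (nat_lit 179) (nat_lit 2) (nat_lit 200) (nat_lit 203) (nat_lit 197)))) (PT.nd (nat_lit 156) (PT.nd (nat_lit 78) (PT.lf (nat_lit 13376) (nat_lit 6) (nat_lit 176) (nat_lit 2) (nat_lit 201) (nat_lit 203) (nat_lit 196)) (PT.lf (nat_lit 13072) (nat_lit 6)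 (nat_lit 172) (nat_lit 2) (nat_lit 202) (nat_lit 203) (nat_lit 195))) (PT.nd (nat_lit 78) (PT.lf (nat_lit 12692) (nat_lit 3) (nat_lit 167) (nat_lit 0) (nat_lit 203) (nat_lit 203) (nat_lit 194)) (PT.lf (nat_lit 12160) (nat_lit 6) (nat_lit 160) (nat_lit 0) (nat_lit 204) (nat_lit 203) (nat_lit 193))))))) (PT.nd (nat_lit 61620) (PT.nd (nat_lit 60996) (PT.nd (nat_lit 312) (PT.nd (nat_lit 156) (PT.nd (nat_lit 78) (PT.lf (nat_lit 11552) (nat_lit 6) (nat_lit 152) (nat_lit 0) (nat_lit 205) (nat_lit 203) (nat_lit 192)) (PT.lf (nat_lit 10868) (nat_lit 6) (nat_lit 143) (nat_lit 0) (nat_lit 206) (nat_lit 203) (nat_lit 191))) (PT.nd (nat_lit 78) (PT.lf (nat_lit 10108) (nat_lit 6) (nat_lit 133) (nat_lit 0) (nat_lit 207) (nat_lit 203) (nat_lit 190)) (PT.lf (nat_lit 9272) (nat_lit 6) (nat_lit 122) (nat_lit 0) (nat_lit 208) (nat_lit 203) (nat_lit 189)))) (PT.nd (nat_lit 156) (PT.nd (nat_lit 78) (PT.lf (nat_lit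 8816) (nat_lit 6) (nat_lit 116) (nat_lit 0) (nat_lit 209) (nat_lit 203) (nat_lit 188)) (PT.lf (nat_lit 8360) (nat_lit 6) (nat_lit 110) (nat_lit 0) (nat_lit 210) (nat_lit 203) (nat_lit 187))) (PT.nd (nat_lit 60450) (PT.lf (nat_lit 7904) (nat_lit 6) (nat_lit 104) (nat_lit 0) (nat_lit 211) (nat_lit 203) (nat_lit 186)) (PT.lf (nat_lit 7600) (nat_lit 6) (nat_lit 100) (nat_lit 5) (nat_lit 185) (nat_lit 204) (nat_lit 211))))) (PT.nd (nat_lit 312) (PT.nd (nat_lit 156) (PT.nd (nat_lit 78) (PT.lf (nat_lit 7980) (nat_lit 6) (nat_lit 105) (nat_lit 5) (nat_lit 186) (nat_lit 204) (nat_lit 210)) (PT.lf (nat_lit 8436) (nat_lit 6) (nat_lit 111) (nat_lit 5) (nat_lit 187) (nat_lit 204) (nat_lit 209))) (PT.nd (nat_lit 78) (PT.lf (nat_lit 8892) (nat_lit 6) (nat_lit 117) (nat_lit 5) (nat_lit 188) (nat_lit 204) (nat_lit 208)) (PT.lf (nat_lit 9348) (nat_lit 6) (nat_lit 123) (nat_lit 5) (nat_lit 189) (nat_lit 204)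 (nat_lit 207)))) (PT.nd (nat_lit 156) (PT.nd (nat_lit 78) (PT.lf (nat_lit 10184) (nat_lit 6) (nat_lit 134) (nat_lit 5) (nat_lit 190) (nat_lit 204) (nat_lit 206)) (PT.lf (nat_lit 10944) (nat_lit 6) (nat_lit 144) (nat_lit 5) (nat_lit 191) (nat_lit 204) (nat_lit 205))) (PT.nd (nat_lit 78) (PT.lf (nat_lit 11628) (nat_lit 3) (nat_lit 153) (nat_lit 4) (nat_lit 192) (nat_lit 204) (nat_lit 204)) (PT.lf (nat_lit 12160) (nat_lit 6) (nat_lit 160) (nat_lit 4) (nat_lit 193) (nat_lit 204) (nat_lit 203)))))) (PT.nd (nat_lit 624) (PT.nd (nat_lit 312) (PT.nd (nat_lit 156) (PT.nd (nat_lit 78) (PT.lf (nat_lit 12616) (nat_lit 6) (nat_lit 166) (nat_lit 4) (nat_lit 194) (nat_lit 204) (nat_lit 202)) (PT.lf (nat_lit 12996) (nat_lit 6) (nat_lit 171) (nat_lit 4) (nat_lit 195) (nat_lit 204) (nat_lit 201))) (PT.nd (nat_lit 78) (PT.lf (nat_lit 13300) (nat_lit 6) (nat_lit 175) (nat_lit 4) (nat_lit 196) (nat_lit 204) (nat_lit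 200)) (PT.lf (nat_lit 13224) (nat_lit 6) (nat_lit 174) (nat_lit 4) (nat_lit 197) (nat_lit 204) (nat_lit 199)))) (PT.nd (nat_lit 156) (PT.nd (nat_lit 78) (PT.lf (nat_lit 13148) (nat_lit 3) (nat_lit 173) (nat_lit 2) (nat_lit 198) (nat_lit 204) (nat_lit 198)) (PT.lf (nat_lit 13224) (nat_lit 6) (nat_lit 174) (nat_lit 2) (nat_lit 199) (nat_lit 204) (nat_lit 197))) (PT.nd (nat_lit 78) (PT.lf (nat_lit 13300) (nat_lit 6) (nat_lit 175) (nat_lit 2) (nat_lit 200) (nat_lit 204) (nat_lit 196)) (PT.lf (nat_lit 12996) (nat_lit 6) (nat_lit 171) (nat_lit 2) (nat_lit 201) (nat_lit 204) (nat_lit 195))))) (PT.nd (nat_lit 312) (PT.nd (nat_lit 156) (PT.nd (nat_lit 78) (PT.lf (nat_lit 12616) (nat_lit 6) (nat_lit 166) (nat_lit 2) (nat_lit 202) (nat_lit 204) (nat_lit 194)) (PT.lf (nat_lit 12160) (nat_lit 6) (nat_lit 160) (nat_lit 2) (nat_lit 203) (nat_lit 204) (nat_lit 193))) (PT.nd (nat_lit 78) (PT.lf (nat_lit 11628)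 (nat_lit 3) (nat_lit 153) (nat_lit 0) (nat_lit 204) (nat_lit 204) (nat_lit 192)) (PT.lf (nat_lit 10944) (nat_lit 6) (nat_lit 144) (nat_lit 0) (nat_lit 205) (nat_lit 204) (nat_lit 191)))) (PT.nd (nat_lit 156) (PT.nd (nat_lit 78) (PT.lf (nat_lit 10184) (nat_lit 6) (nat_lit 134) (nat_lit 0) (nat_lit 206) (nat_lit 204) (nat_lit 190)) (PT.lf (nat_lit 9348) (nat_lit 6) (nat_lit 123) (nat_lit 0) (nat_lit 207) (nat_lit 204) (nat_lit 189))) (PT.nd (nat_lit 78) (PT.lf (nat_lit 8892) (nat_lit 6) (nat_lit 117) (nat_lit 0) (nat_lit 208) (nat_lit 204) (nat_lit 188)) (PT.lf (nat_lit 8436) (nat_lit 6) (nat_lit 111) (nat_lit 0) (nat_lit 209) (nat_lit 204) (nat_lit 187))))))))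
noncomputable def pc8 : PT := (PT.nd (nat_lit 62634) (PT.nd (nat_lit 61386) (PT.nd (nat_lit 60762) (PT.nd (nat_lit 60450) (PT.nd (nat_lit 78) (PT.lf (nat_lit 7980) (nat_lit 6) (nat_lit 105) (nat_lit 0) (nat_lit 210) (nat_lit 204) (nat_lit 186)) (PT.nd (nat_lit 60294) (PT.lf (nat_lit 7600) (nat_lit 6) (nat_lit 100) (nat_lit 0) (nat_lit 211) (nat_lit 204) (nat_lit 185)) (PT.lf (nat_lit 6992) (nat_lit 6) (nat_lit 92) (nat_lit 5) (nat_lit 183) (nat_lit 205) (nat_lit 212)))) (PT.nd (nat_lit 156) (PT.nd (nat_lit 78) (PT.lf (nat_lit 7296) (nat_lit 6) (nat_lit 96) (nat_lit 5) (nat_lit 184) (nat_lit 205) (nat_lit 211)) (PT.lf (nat_lit 7676) (nat_lit 6) (nat_lit 101) (nat_lit 5) (nat_lit 185) (nat_lit 205) (nat_lit 210))) (PT.nd (nat_lit 78) (PT.lf (nat_lit 8056) (nat_lit 6) (nat_lit 106) (nat_lit 5) (nat_lit 186) (nat_lit 205) (nat_lit 209)) (PT.lf (nat_lit 8512) (nat_lit 6) (nat_lit 112) (nat_lit 5)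 (nat_lit 187) (nat_lit 205) (nat_lit 208))))) (PT.nd (nat_lit 312) (PT.nd (nat_lit 156) (PT.nd (nat_lit 78) (PT.lf (nat_lit 8968) (nat_lit 6) (nat_lit 118) (nat_lit 5) (nat_lit 188) (nat_lit 205) (nat_lit 207)) (PT.lf (nat_lit 9424) (nat_lit 6) (nat_lit 124) (nat_lit 5) (nat_lit 189) (nat_lit 205) (nat_lit 206))) (PT.nd (nat_lit 78) (PT.lf (nat_lit 10260) (nat_lit 3) (nat_lit 135) (nat_lit 4) (nat_lit 190) (nat_lit 205) (nat_lit 205)) (PT.lf (nat_lit 10944) (nat_lit 6) (nat_lit 144) (nat_lit 4) (nat_lit 191) (nat_lit 205) (nat_lit 204)))) (PT.nd (nat_lit 156) (PT.nd (nat_lit 78) (PT.lf (nat_lit 11552) (nat_lit 6) (nat_lit 152) (nat_lit 4) (nat_lit 192) (nat_lit 205) (nat_lit 203)) (PT.lf (nat_lit 12084) (nat_lit 6) (nat_lit 159) (nat_lit 4) (nat_lit 193) (nat_lit 205) (nat_lit 202))) (PT.nd (nat_lit 78) (PT.lf (nat_lit 12540) (nat_lit 6) (nat_lit 165) (nat_lit 4) (nat_lit 194) (nat_lit 205)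 (nat_lit 201)) (PT.lf (nat_lit 12920) (nat_lit 6) (nat_lit 170) (nat_lit 4) (nat_lit 195) (nat_lit 205) (nat_lit 200)))))) (PT.nd (nat_lit 624) (PT.nd (nat_lit 312) (PT.nd (nat_lit 156) (PT.nd (nat_lit 78) (PT.lf (nat_lit 12844) (nat_lit 6) (nat_lit 169) (nat_lit 4) (nat_lit 196) (nat_lit 205) (nat_lit 199)) (PT.lf (nat_lit 12768) (nat_lit 6) (nat_lit 168) (nat_lit 4) (nat_lit 197) (nat_lit 205) (nat_lit 198))) (PT.nd (nat_lit 78) (PT.lf (nat_lit 12768) (nat_lit 6) (nat_lit 168) (nat_lit 2) (nat_lit 198) (nat_lit 205) (nat_lit 197)) (PT.lf (nat_lit 12844) (nat_lit 6) (nat_lit 169) (nat_lit 2) (nat_lit 199) (nat_lit 205) (nat_lit 196)))) (PT.nd (nat_lit 156) (PT.nd (nat_lit 78) (PT.lf (nat_lit 12920) (nat_lit 6) (nat_lit 170) (nat_lit 2) (nat_lit 200) (nat_lit 205) (nat_lit 195)) (PT.lf (nat_lit 12540) (nat_lit 6) (nat_lit 165) (nat_lit 2) (nat_lit 201) (nat_lit 205) (nat_lit 194))) (PT.nd (nat_lit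 78) (PT.lf (nat_lit 12084) (nat_lit 6) (nat_lit 159) (nat_lit 2) (nat_lit 202) (nat_lit 205) (nat_lit 193)) (PT.lf (nat_lit 11552) (nat_lit 6) (nat_lit 152) (nat_lit 2) (nat_lit 203) (nat_lit 205) (nat_lit 192))))) (PT.nd (nat_lit 312) (PT.nd (nat_lit 156) (PT.nd (nat_lit 78) (PT.lf (nat_lit 10944) (nat_lit 6) (nat_lit 144) (nat_lit 2) (nat_lit 204) (nat_lit 205) (nat_lit 191)) (PT.lf (nat_lit 10260) (nat_lit 3) (nat_lit 135) (nat_lit 0) (nat_lit 205) (nat_lit 205) (nat_lit 190))) (PT.nd (nat_lit 78) (PT.lf (nat_lit 9424) (nat_lit 6) (nat_lit 124) (nat_lit 0) (nat_lit 206) (nat_lit 205) (nat_lit 189)) (PT.lf (nat_lit 8968) (nat_lit 6) (nat_lit 118) (nat_lit 0) (nat_lit 207) (nat_lit 205) (nat_lit 188)))) (PT.nd (nat_lit 156) (PT.nd (nat_lit 78) (PT.lf (nat_lit 8512) (nat_lit 6) (nat_lit 112) (nat_lit 0) (nat_lit 208) (nat_lit 205) (nat_lit 187)) (PT.lf (nat_lit 8056) (nat_lit 6) (nat_lit 106)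 (nat_lit 0) (nat_lit 209) (nat_lit 205) (nat_lit 186))) (PT.nd (nat_lit 78) (PT.lf (nat_lit 7676) (nat_lit 6) (nat_lit 101) (nat_lit 0) (nat_lit 210) (nat_lit 205) (nat_lit 185)) (PT.lf (nat_lit 7296) (nat_lit 6) (nat_lit 96) (nat_lit 0) (nat_lit 211) (nat_lit 205) (nat_lit 184))))))) (PT.nd (nat_lit 61230) (PT.nd (nat_lit 60606) (PT.nd (nat_lit 60294) (PT.nd (nat_lit 60138) (PT.lf (nat_lit 6992) (nat_lit 6) (nat_lit 92) (nat_lit 0) (nat_lit 212) (nat_lit 205) (nat_lit 183)) (PT.nd (nat_lit 78) (PT.lf (nat_lit 6688) (nat_lit 6) (nat_lit 88) (nat_lit 5) (nat_lit 182) (nat_lit 206) (nat_lit 212)) (PT.lf (nat_lit 7068) (nat_lit 6) (nat_lit 93) (nat_lit 5) (nat_lit 183) (nat_lit 206) (nat_lit 211)))) (PT.nd (nat_lit 156) (PT.nd (nat_lit 78) (PT.lf (nat_lit 7372) (nat_lit 6) (nat_lit 97) (nat_lit 5) (nat_lit 184) (nat_lit 206) (nat_lit 210)) (PT.lf (nat_lit 7752) (nat_lit 6) (nat_lit 102) (nat_lit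 5) (nat_lit 185) (nat_lit 206) (nat_lit 209))) (PT.nd (nat_lit 78) (PT.lf (nat_lit 8132) (nat_lit 6) (nat_lit 107) (nat_lit 5) (nat_lit 186) (nat_lit 206) (nat_lit 208)) (PT.lf (nat_lit 8588) (nat_lit 6) (nat_lit 113) (nat_lit 5) (nat_lit 187) (nat_lit 206) (nat_lit 207))))) (PT.nd (nat_lit 312) (PT.nd (nat_lit 156) (PT.nd (nat_lit 78) (PT.lf (nat_lit 9044) (nat_lit 3) (nat_lit 119) (nat_lit 4) (nat_lit 188) (nat_lit 206) (nat_lit 206)) (PT.lf (nat_lit 9424) (nat_lit 6) (nat_lit 124) (nat_lit 4) (nat_lit 189) (nat_lit 206) (nat_lit 205))) (PT.nd (nat_lit 78) (PT.lf (nat_lit 10184) (nat_lit 6) (nat_lit 134) (nat_lit 4) (nat_lit 190) (nat_lit 206) (nat_lit 204)) (PT.lf (nat_lit 10868) (nat_lit 6) (nat_lit 143) (nat_lit 4) (nat_lit 191) (nat_lit 206) (nat_lit 203)))) (PT.nd (nat_lit 156) (PT.nd (nat_lit 78) (PT.lf (nat_lit 11476) (nat_lit 6) (nat_lit 151) (nat_lit 4) (nat_lit 192) (nat_lit 206)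 (nat_lit 202)) (PT.lf (nat_lit 12008) (nat_lit 6) (nat_lit 158) (nat_lit 4) (nat_lit 193) (nat_lit 206) (nat_lit 201))) (PT.nd (nat_lit 78) (PT.lf (nat_lit 12464) (nat_lit 6) (nat_lit 164) (nat_lit 4) (nat_lit 194) (nat_lit 206) (nat_lit 200)) (PT.lf (nat_lit 12388) (nat_lit 6) (nat_lit 163) (nat_lit 4) (nat_lit 195) (nat_lit 206) (nat_lit 199)))))) (PT.nd (nat_lit 624) (PT.nd (nat_lit 312) (PT.nd (nat_lit 156) (PT.nd (nat_lit 78) (PT.lf (nat_lit 12312) (nat_lit 6) (nat_lit 162) (nat_lit 4) (nat_lit 196) (nat_lit 206) (nat_lit 198)) (PT.lf (nat_lit 12236) (nat_lit 3) (nat_lit 161) (nat_lit 2) (nat_lit 197) (nat_lit 206) (nat_lit 197))) (PT.nd (nat_lit 78) (PT.lf (nat_lit 12312) (nat_lit 6) (nat_lit 162) (nat_lit 2) (nat_lit 198) (nat_lit 206) (nat_lit 196)) (PT.lf (nat_lit 12388) (nat_lit 6) (nat_lit 163) (nat_lit 2) (nat_lit 199) (nat_lit 206) (nat_lit 195)))) (PT.nd (nat_lit 156) (PT.nd (nat_lit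 78) (PT.lf (nat_lit 12464) (nat_lit 6) (nat_lit 164) (nat_lit 2) (nat_lit 200) (nat_lit 206) (nat_lit 194)) (PT.lf (nat_lit 12008) (nat_lit 6) (nat_lit 158) (nat_lit 2) (nat_lit 201) (nat_lit 206) (nat_lit 193))) (PT.nd (nat_lit 78) (PT.lf (nat_lit 11476) (nat_lit 6) (nat_lit 151) (nat_lit 2) (nat_lit 202) (nat_lit 206) (nat_lit 192)) (PT.lf (nat_lit 10868) (nat_lit 6) (nat_lit 143) (nat_lit 2) (nat_lit 203) (nat_lit 206) (nat_lit 191))))) (PT.nd (nat_lit 312) (PT.nd (nat_lit 156) (PT.nd (nat_lit 78) (PT.lf (nat_lit 10184) (nat_lit 6) (nat_lit 134) (nat_lit 2) (nat_lit 204) (nat_lit 206) (nat_lit 190)) (PT.lf (nat_lit 9424) (nat_lit 6) (nat_lit 124) (nat_lit 2) (nat_lit 205) (nat_lit 206) (nat_lit 189))) (PT.nd (nat_lit 78) (PT.lf (nat_lit 9044) (nat_lit 3) (nat_lit 119) (nat_lit 0) (nat_lit 206) (nat_lit 206) (nat_lit 188)) (PT.lf (nat_lit 8588) (nat_lit 6) (nat_lit 113) (nat_lit 0) (nat_lit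 207) (nat_lit 206) (nat_lit 187)))) (PT.nd (nat_lit 156) (PT.nd (nat_lit 78) (PT.lf (nat_lit 8132) (nat_lit 6) (nat_lit 107) (nat_lit 0) (nat_lit 208) (nat_lit 206) (nat_lit 186)) (PT.lf (nat_lit 7752) (nat_lit 6) (nat_lit 102) (nat_lit 0) (nat_lit 209) (nat_lit 206) (nat_lit 185))) (PT.nd (nat_lit 78) (PT.lf (nat_lit 7372) (nat_lit 6) (nat_lit 97) (nat_lit 0) (nat_lit 210) (nat_lit 206) (nat_lit 184)) (PT.lf (nat_lit 7068) (nat_lit 6) (nat_lit 93) (nat_lit 0) (nat_lit 211) (nat_lit 206) (nat_lit 183))))))))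
noncomputable def pc9 : PT := (PT.nd (nat_lit 62322) (PT.nd (nat_lit 61074) (PT.nd (nat_lit 60450) (PT.nd (nat_lit 60138) (PT.nd (nat_lit 59982) (PT.lf (nat_lit 6688) (nat_lit 6) (nat_lit 88) (nat_lit 0) (nat_lit 212) (nat_lit 206) (nat_lit 182)) (PT.nd (nat_lit 78) (PT.lf (nat_lit 6156) (nat_lit 6) (nat_lit 81) (nat_lit 5) (nat_lit 180) (nat_lit 207) (nat_lit 213)) (PT.lf (nat_lit 6460) (nat_lit 6) (nat_lit 85) (nat_lit 5) (nat_lit 181) (nat_lit 207) (nat_lit 212)))) (PT.nd (nat_lit 156) (PT.nd (nat_lit 78) (PT.lf (nat_lit 6764) (nat_lit 6) (nat_lit 89) (nat_lit 5) (nat_lit 182) (nat_lit 207) (nat_lit 211)) (PT.lf (nat_lit 7144) (nat_lit 6) (nat_lit 94) (nat_lit 5) (nat_lit 183) (nat_lit 207) (nat_lit 210))) (PT.nd (nat_lit 78) (PT.lf (nat_lit 7448) (nat_lit 6) (nat_lit 98) (nat_lit 5) (nat_lit 184) (nat_lit 207) (nat_lit 209)) (PT.lf (nat_lit 7828) (nat_lit 6) (nat_lit 103) (nat_lit 5) (nat_lit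 185) (nat_lit 207) (nat_lit 208))))) (PT.nd (nat_lit 312) (PT.nd (nat_lit 156) (PT.nd (nat_lit 78) (PT.lf (nat_lit 8208) (nat_lit 3) (nat_lit 108) (nat_lit 4) (nat_lit 186) (nat_lit 207) (nat_lit 207)) (PT.lf (nat_lit 8588) (nat_lit 6) (nat_lit 113) (nat_lit 4) (nat_lit 187) (nat_lit 207) (nat_lit 206))) (PT.nd (nat_lit 78) (PT.lf (nat_lit 8968) (nat_lit 6) (nat_lit 118) (nat_lit 4) (nat_lit 188) (nat_lit 207) (nat_lit 205)) (PT.lf (nat_lit 9348) (nat_lit 6) (nat_lit 123) (nat_lit 4) (nat_lit 189) (nat_lit 207) (nat_lit 204)))) (PT.nd (nat_lit 156) (PT.nd (nat_lit 78) (PT.lf (nat_lit 10108) (nat_lit 6) (nat_lit 133) (nat_lit 4) (nat_lit 190) (nat_lit 207) (nat_lit 203)) (PT.lf (nat_lit 10792) (nat_lit 6) (nat_lit 142) (nat_lit 4) (nat_lit 191) (nat_lit 207) (nat_lit 202))) (PT.nd (nat_lit 78) (PT.lf (nat_lit 11400) (nat_lit 6) (nat_lit 150) (nat_lit 4) (nat_lit 192) (nat_lit 207) (nat_lit 201))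 (PT.lf (nat_lit 11932) (nat_lit 6) (nat_lit 157) (nat_lit 4) (nat_lit 193) (nat_lit 207) (nat_lit 200)))))) (PT.nd (nat_lit 624) (PT.nd (nat_lit 312) (PT.nd (nat_lit 156) (PT.nd (nat_lit 78) (PT.lf (nat_lit 11856) (nat_lit 6) (nat_lit 156) (nat_lit 4) (nat_lit 194) (nat_lit 207) (nat_lit 199)) (PT.lf (nat_lit 11780) (nat_lit 6) (nat_lit 155) (nat_lit 4) (nat_lit 195) (nat_lit 207) (nat_lit 198))) (PT.nd (nat_lit 78) (PT.lf (nat_lit 11704) (nat_lit 6) (nat_lit 154) (nat_lit 4) (nat_lit 196) (nat_lit 207) (nat_lit 197)) (PT.lf (nat_lit 11704) (nat_lit 6) (nat_lit 154) (nat_lit 2) (nat_lit 197) (nat_lit 207) (nat_lit 196)))) (PT.nd (nat_lit 156) (PT.nd (nat_lit 78) (PT.lf (nat_lit 11780) (nat_lit 6) (nat_lit 155) (nat_lit 2) (nat_lit 198) (nat_lit 207) (nat_lit 195)) (PT.lf (nat_lit 11856) (nat_lit 6) (nat_lit 156) (nat_lit 2) (nat_lit 199) (nat_lit 207) (nat_lit 194))) (PT.nd (nat_lit 78) (PT.lf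 (nat_lit 11932) (nat_lit 6) (nat_lit 157) (nat_lit 2) (nat_lit 200) (nat_lit 207) (nat_lit 193)) (PT.lf (nat_lit 11400) (nat_lit 6) (nat_lit 150) (nat_lit 2) (nat_lit 201) (nat_lit 207) (nat_lit 192))))) (PT.nd (nat_lit 312) (PT.nd (nat_lit 156) (PT.nd (nat_lit 78) (PT.lf (nat_lit 10792) (nat_lit 6) (nat_lit 142) (nat_lit 2) (nat_lit 202) (nat_lit 207) (nat_lit 191)) (PT.lf (nat_lit 10108) (nat_lit 6) (nat_lit 133) (nat_lit 2) (nat_lit 203) (nat_lit 207) (nat_lit 190))) (PT.nd (nat_lit 78) (PT.lf (nat_lit 9348) (nat_lit 6) (nat_lit 123) (nat_lit 2) (nat_lit 204) (nat_lit 207) (nat_lit 189)) (PT.lf (nat_lit 8968) (nat_lit 6) (nat_lit 118) (nat_lit 2) (nat_lit 205) (nat_lit 207) (nat_lit 188)))) (PT.nd (nat_lit 156) (PT.nd (nat_lit 78) (PT.lf (nat_lit 8588) (nat_lit 6) (nat_lit 113) (nat_lit 2) (nat_lit 206) (nat_lit 207) (nat_lit 187)) (PT.lf (nat_lit 8208) (nat_lit 3) (nat_lit 108) (nat_lit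 0) (nat_lit 207) (nat_lit 207) (nat_lit 186))) (PT.nd (nat_lit 78) (PT.lf (nat_lit 7828) (nat_lit 6) (nat_lit 103) (nat_lit 0) (nat_lit 208) (nat_lit 207) (nat_lit 185)) (PT.lf (nat_lit 7448) (nat_lit 6) (nat_lit 98) (nat_lit 0) (nat_lit 209) (nat_lit 207) (nat_lit 184))))))) (PT.nd (nat_lit 60918) (PT.nd (nat_lit 60294) (PT.nd (nat_lit 234) (PT.nd (nat_lit 78) (PT.lf (nat_lit 7144) (nat_lit 6) (nat_lit 94) (nat_lit 0) (nat_lit 210) (nat_lit 207) (nat_lit 183)) (PT.nd (nat_lit 78) (PT.lf (nat_lit 6764) (nat_lit 6) (nat_lit 89) (nat_lit 0) (nat_lit 211) (nat_lit 207) (nat_lit 182)) (PT.lf (nat_lit 6460) (nat_lit 6) (nat_lit 85) (nat_lit 0) (nat_lit 212) (nat_lit 207) (nat_lit 181)))) (PT.nd (nat_lit 59904) (PT.nd (nat_lit 59826) (PT.lf (nat_lit 6156) (nat_lit 6) (nat_lit 81) (nat_lit 0) (nat_lit 213) (nat_lit 207) (nat_lit 180)) (PT.lf (nat_lit 5928) (nat_lit 6) (nat_lit 78) (nat_lit 5) (nat_lit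 179) (nat_lit 208) (nat_lit 213))) (PT.nd (nat_lit 78) (PT.lf (nat_lit 6232) (nat_lit 6) (nat_lit 82) (nat_lit 5) (nat_lit 180) (nat_lit 208) (nat_lit 212)) (PT.lf (nat_lit 6536) (nat_lit 6) (nat_lit 86) (nat_lit 5) (nat_lit 181) (nat_lit 208) (nat_lit 211))))) (PT.nd (nat_lit 312) (PT.nd (nat_lit 156) (PT.nd (nat_lit 78) (PT.lf (nat_lit 6840) (nat_lit 6) (nat_lit 90) (nat_lit 5) (nat_lit 182) (nat_lit 208) (nat_lit 210)) (PT.lf (nat_lit 7220) (nat_lit 6) (nat_lit 95) (nat_lit 5) (nat_lit 183) (nat_lit 208) (nat_lit 209))) (PT.nd (nat_lit 78) (PT.lf (nat_lit 7524) (nat_lit 3) (nat_lit 99) (nat_lit 4) (nat_lit 184) (nat_lit 208) (nat_lit 208)) (PT.lf (nat_lit 7828) (nat_lit 6) (nat_lit 103) (nat_lit 4) (nat_lit 185) (nat_lit 208) (nat_lit 207)))) (PT.nd (nat_lit 156) (PT.nd (nat_lit 78) (PT.lf (nat_lit 8132) (nat_lit 6) (nat_lit 107) (nat_lit 4) (nat_lit 186) (nat_lit 208) (nat_lit 206)) (PT.lf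 (nat_lit 8512) (nat_lit 6) (nat_lit 112) (nat_lit 4) (nat_lit 187) (nat_lit 208) (nat_lit 205))) (PT.nd (nat_lit 78) (PT.lf (nat_lit 8892) (nat_lit 6) (nat_lit 117) (nat_lit 4) (nat_lit 188) (nat_lit 208) (nat_lit 204)) (PT.lf (nat_lit 9272) (nat_lit 6) (nat_lit 122) (nat_lit 4) (nat_lit 189) (nat_lit 208) (nat_lit 203)))))) (PT.nd (nat_lit 624) (PT.nd (nat_lit 312) (PT.nd (nat_lit 156) (PT.nd (nat_lit 78) (PT.lf (nat_lit 10032) (nat_lit 6) (nat_lit 132) (nat_lit 4) (nat_lit 190) (nat_lit 208) (nat_lit 202)) (PT.lf (nat_lit 10716) (nat_lit 6) (nat_lit 141) (nat_lit 4) (nat_lit 191) (nat_lit 208) (nat_lit 201))) (PT.nd (nat_lit 78) (PT.lf (nat_lit 11324) (nat_lit 6) (nat_lit 149) (nat_lit 4) (nat_lit 192) (nat_lit 208) (nat_lit 200)) (PT.lf (nat_lit 11248) (nat_lit 6) (nat_lit 148) (nat_lit 4) (nat_lit 193) (nat_lit 208) (nat_lit 199)))) (PT.nd (nat_lit 156) (PT.nd (nat_lit 78) (PT.lf (nat_lit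 11172) (nat_lit 6) (nat_lit 147) (nat_lit 4) (nat_lit 194) (nat_lit 208) (nat_lit 198)) (PT.lf (nat_lit 11096) (nat_lit 6) (nat_lit 146) (nat_lit 4) (nat_lit 195) (nat_lit 208) (nat_lit 197))) (PT.nd (nat_lit 78) (PT.lf (nat_lit 11020) (nat_lit 3) (nat_lit 145) (nat_lit 2) (nat_lit 196) (nat_lit 208) (nat_lit 196)) (PT.lf (nat_lit 11096) (nat_lit 6) (nat_lit 146) (nat_lit 2) (nat_lit 197) (nat_lit 208) (nat_lit 195))))) (PT.nd (nat_lit 312) (PT.nd (nat_lit 156) (PT.nd (nat_lit 78) (PT.lf (nat_lit 11172) (nat_lit 6) (nat_lit 147) (nat_lit 2) (nat_lit 198) (nat_lit 208) (nat_lit 194)) (PT.lf (nat_lit 11248) (nat_lit 6) (nat_lit 148) (nat_lit 2) (nat_lit 199) (nat_lit 208) (nat_lit 193))) (PT.nd (nat_lit 78) (PT.lf (nat_lit 11324) (nat_lit 6) (nat_lit 149) (nat_lit 2) (nat_lit 200) (nat_lit 208) (nat_lit 192)) (PT.lf (nat_lit 10716) (nat_lit 6) (nat_lit 141) (nat_lit 2) (nat_lit 201) (nat_lit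 208) (nat_lit 191)))) (PT.nd (nat_lit 156) (PT.nd (nat_lit 78) (PT.lf (nat_lit 10032) (nat_lit 6) (nat_lit 132) (nat_lit 2) (nat_lit 202) (nat_lit 208) (nat_lit 190)) (PT.lf (nat_lit 9272) (nat_lit 6) (nat_lit 122) (nat_lit 2) (nat_lit 203) (nat_lit 208) (nat_lit 189))) (PT.nd (nat_lit 78) (PT.lf (nat_lit 8892) (nat_lit 6) (nat_lit 117) (nat_lit 2) (nat_lit 204) (nat_lit 208) (nat_lit 188)) (PT.lf (nat_lit 8512) (nat_lit 6) (nat_lit 112) (nat_lit 2) (nat_lit 205) (nat_lit 208) (nat_lit 187))))))))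
noncomputable def pc10 : PT := (PT.nd (nat_lit 62010) (PT.nd (nat_lit 60762) (PT.nd (nat_lit 546) (PT.nd (nat_lit 234) (PT.nd (nat_lit 78) (PT.lf (nat_lit 8132) (nat_lit 6) (nat_lit 107) (nat_lit 2) (nat_lit 206) (nat_lit 208) (nat_lit 186)) (PT.nd (nat_lit 78) (PT.lf (nat_lit 7828) (nat_lit 6) (nat_lit 103) (nat_lit 2) (nat_lit 207) (nat_lit 208) (nat_lit 185)) (PT.lf (nat_lit 7524) (nat_lit 3) (nat_lit 99) (nat_lit 0) (nat_lit 208) (nat_lit 208) (nat_lit 184)))) (PT.nd (nat_lit 156) (PT.nd (nat_lit 78) (PT.lf (nat_lit 7220) (nat_lit 6) (nat_lit 95) (nat_lit 0) (nat_lit 209) (nat_lit 208) (nat_lit 183)) (PT.lf (nat_lit 6840) (nat_lit 6) (nat_lit 90) (nat_lit 0) (nat_lit 210) (nat_lit 208) (nat_lit 182))) (PT.nd (nat_lit 78) (PT.lf (nat_lit 6536) (nat_lit 6) (nat_lit 86) (nat_lit 0) (nat_lit 211) (nat_lit 208) (nat_lit 181)) (PT.lf (nat_lit 6232) (nat_lit 6) (nat_lit 82) (nat_lit 0) (nat_lit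 212) (nat_lit 208) (nat_lit 180))))) (PT.nd (nat_lit 59904) (PT.nd (nat_lit 59748) (PT.nd (nat_lit 59670) (PT.lf (nat_lit 5928) (nat_lit 6) (nat_lit 78) (nat_lit 0) (nat_lit 213) (nat_lit 208) (nat_lit 179)) (PT.lf (nat_lit 5472) (nat_lit 6) (nat_lit 72) (nat_lit 5) (nat_lit 177) (nat_lit 209) (nat_lit 214))) (PT.nd (nat_lit 78) (PT.lf (nat_lit 5700) (nat_lit 6) (nat_lit 75) (nat_lit 5) (nat_lit 178) (nat_lit 209) (nat_lit 213)) (PT.lf (nat_lit 6004) (nat_lit 6) (nat_lit 79) (nat_lit 5) (nat_lit 179) (nat_lit 209) (nat_lit 212)))) (PT.nd (nat_lit 156) (PT.nd (nat_lit 78) (PT.lf (nat_lit 6308) (nat_lit 6) (nat_lit 83) (nat_lit 5) (nat_lit 180) (nat_lit 209) (nat_lit 211)) (PT.lf (nat_lit 6612) (nat_lit 6) (nat_lit 87) (nat_lit 5) (nat_lit 181) (nat_lit 209) (nat_lit 210))) (PT.nd (nat_lit 78) (PT.lf (nat_lit 6916) (nat_lit 3) (nat_lit 91) (nat_lit 4) (nat_lit 182) (nat_lit 209) (nat_lit 209))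 (PT.lf (nat_lit 7220) (nat_lit 6) (nat_lit 95) (nat_lit 4) (nat_lit 183) (nat_lit 209) (nat_lit 208)))))) (PT.nd (nat_lit 624) (PT.nd (nat_lit 312) (PT.nd (nat_lit 156) (PT.nd (nat_lit 78) (PT.lf (nat_lit 7448) (nat_lit 6) (nat_lit 98) (nat_lit 4) (nat_lit 184) (nat_lit 209) (nat_lit 207)) (PT.lf (nat_lit 7752) (nat_lit 6) (nat_lit 102) (nat_lit 4) (nat_lit 185) (nat_lit 209) (nat_lit 206))) (PT.nd (nat_lit 78) (PT.lf (nat_lit 8056) (nat_lit 6) (nat_lit 106) (nat_lit 4) (nat_lit 186) (nat_lit 209) (nat_lit 205)) (PT.lf (nat_lit 8436) (nat_lit 6) (nat_lit 111) (nat_lit 4) (nat_lit 187) (nat_lit 209) (nat_lit 204)))) (PT.nd (nat_lit 156) (PT.nd (nat_lit 78) (PT.lf (nat_lit 8816) (nat_lit 6) (nat_lit 116) (nat_lit 4) (nat_lit 188) (nat_lit 209) (nat_lit 203)) (PT.lf (nat_lit 9196) (nat_lit 6) (nat_lit 121) (nat_lit 4) (nat_lit 189) (nat_lit 209) (nat_lit 202))) (PT.nd (nat_lit 78) (PT.lf (nat_lit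 9956) (nat_lit 6) (nat_lit 131) (nat_lit 4) (nat_lit 190) (nat_lit 209) (nat_lit 201)) (PT.lf (nat_lit 10640) (nat_lit 6) (nat_lit 140) (nat_lit 4) (nat_lit 191) (nat_lit 209) (nat_lit 200))))) (PT.nd (nat_lit 312) (PT.nd (nat_lit 156) (PT.nd (nat_lit 78) (PT.lf (nat_lit 10564) (nat_lit 6) (nat_lit 139) (nat_lit 4) (nat_lit 192) (nat_lit 209) (nat_lit 199)) (PT.lf (nat_lit 10488) (nat_lit 6) (nat_lit 138) (nat_lit 4) (nat_lit 193) (nat_lit 209) (nat_lit 198))) (PT.nd (nat_lit 78) (PT.lf (nat_lit 10412) (nat_lit 6) (nat_lit 137) (nat_lit 4) (nat_lit 194) (nat_lit 209) (nat_lit 197)) (PT.lf (nat_lit 10336) (nat_lit 6) (nat_lit 136) (nat_lit 4) (nat_lit 195) (nat_lit 209) (nat_lit 196)))) (PT.nd (nat_lit 156) (PT.nd (nat_lit 78) (PT.lf (nat_lit 10336) (nat_lit 6) (nat_lit 136) (nat_lit 2) (nat_lit 196) (nat_lit 209) (nat_lit 195)) (PT.lf (nat_lit 10412) (nat_lit 6) (nat_lit 137) (nat_lit 2) (nat_lit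 197) (nat_lit 209) (nat_lit 194))) (PT.nd (nat_lit 78) (PT.lf (nat_lit 10488) (nat_lit 6) (nat_lit 138) (nat_lit 2) (nat_lit 198) (nat_lit 209) (nat_lit 193)) (PT.lf (nat_lit 10564) (nat_lit 6) (nat_lit 139) (nat_lit 2) (nat_lit 199) (nat_lit 209) (nat_lit 192))))))) (PT.nd (nat_lit 60606) (PT.nd (nat_lit 546) (PT.nd (nat_lit 234) (PT.nd (nat_lit 78) (PT.lf (nat_lit 10640) (nat_lit 6) (nat_lit 140) (nat_lit 2) (nat_lit 200) (nat_lit 209) (nat_lit 191)) (PT.nd (nat_lit 78) (PT.lf (nat_lit 9956) (nat_lit 6) (nat_lit 131) (nat_lit 2) (nat_lit 201) (nat_lit 209) (nat_lit 190)) (PT.lf (nat_lit 9196) (nat_lit 6) (nat_lit 121) (nat_lit 2) (nat_lit 202) (nat_lit 209) (nat_lit 189)))) (PT.nd (nat_lit 156) (PT.nd (nat_lit 78) (PT.lf (nat_lit 8816) (nat_lit 6) (nat_lit 116) (nat_lit 2) (nat_lit 203) (nat_lit 209) (nat_lit 188)) (PT.lf (nat_lit 8436) (nat_lit 6) (nat_lit 111) (nat_lit 2) (nat_lit 204)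 (nat_lit 209) (nat_lit 187))) (PT.nd (nat_lit 78) (PT.lf (nat_lit 8056) (nat_lit 6) (nat_lit 106) (nat_lit 2) (nat_lit 205) (nat_lit 209) (nat_lit 186)) (PT.lf (nat_lit 7752) (nat_lit 6) (nat_lit 102) (nat_lit 2) (nat_lit 206) (nat_lit 209) (nat_lit 185))))) (PT.nd (nat_lit 312) (PT.nd (nat_lit 156) (PT.nd (nat_lit 78) (PT.lf (nat_lit 7448) (nat_lit 6) (nat_lit 98) (nat_lit 2) (nat_lit 207) (nat_lit 209) (nat_lit 184)) (PT.lf (nat_lit 7220) (nat_lit 6) (nat_lit 95) (nat_lit 2) (nat_lit 208) (nat_lit 209) (nat_lit 183))) (PT.nd (nat_lit 78) (PT.lf (nat_lit 6916) (nat_lit 3) (nat_lit 91) (nat_lit 0) (nat_lit 209) (nat_lit 209) (nat_lit 182)) (PT.lf (nat_lit 6612) (nat_lit 6) (nat_lit 87) (nat_lit 0) (nat_lit 210) (nat_lit 209) (nat_lit 181)))) (PT.nd (nat_lit 156) (PT.nd (nat_lit 78) (PT.lf (nat_lit 6308) (nat_lit 6) (nat_lit 83) (nat_lit 0) (nat_lit 211) (nat_lit 209) (nat_lit 180)) (PT.lf (nat_lit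 6004) (nat_lit 6) (nat_lit 79) (nat_lit 0) (nat_lit 212) (nat_lit 209) (nat_lit 179))) (PT.nd (nat_lit 78) (PT.lf (nat_lit 5700) (nat_lit 6) (nat_lit 75) (nat_lit 0) (nat_lit 213) (nat_lit 209) (nat_lit 178)) (PT.lf (nat_lit 5472) (nat_lit 6) (nat_lit 72) (nat_lit 0) (nat_lit 214) (nat_lit 209) (nat_lit 177)))))) (PT.nd (nat_lit 624) (PT.nd (nat_lit 312) (PT.nd (nat_lit 156) (PT.nd (nat_lit 78) (PT.lf (nat_lit 5244) (nat_lit 6) (nat_lit 69) (nat_lit 5) (nat_lit 176) (nat_lit 210) (nat_lit 214)) (PT.lf (nat_lit 5548) (nat_lit 6) (nat_lit 73) (nat_lit 5) (nat_lit 177) (nat_lit 210) (nat_lit 213))) (PT.nd (nat_lit 78) (PT.lf (nat_lit 5776) (nat_lit 6) (nat_lit 76) (nat_lit 5) (nat_lit 178) (nat_lit 210) (nat_lit 212)) (PT.lf (nat_lit 6080) (nat_lit 6) (nat_lit 80) (nat_lit 5) (nat_lit 179) (nat_lit 210) (nat_lit 211)))) (PT.nd (nat_lit 156) (PT.nd (nat_lit 78) (PT.lf (nat_lit 6384) (nat_lit 3)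 (nat_lit 84) (nat_lit 4) (nat_lit 180) (nat_lit 210) (nat_lit 210)) (PT.lf (nat_lit 6612) (nat_lit 6) (nat_lit 87) (nat_lit 4) (nat_lit 181) (nat_lit 210) (nat_lit 209))) (PT.nd (nat_lit 78) (PT.lf (nat_lit 6840) (nat_lit 6) (nat_lit 90) (nat_lit 4) (nat_lit 182) (nat_lit 210) (nat_lit 208)) (PT.lf (nat_lit 7144) (nat_lit 6) (nat_lit 94) (nat_lit 4) (nat_lit 183) (nat_lit 210) (nat_lit 207))))) (PT.nd (nat_lit 312) (PT.nd (nat_lit 156) (PT.nd (nat_lit 78) (PT.lf (nat_lit 7372) (nat_lit 6) (nat_lit 97) (nat_lit 4) (nat_lit 184) (nat_lit 210) (nat_lit 206)) (PT.lf (nat_lit 7676) (nat_lit 6) (nat_lit 101) (nat_lit 4) (nat_lit 185) (nat_lit 210) (nat_lit 205))) (PT.nd (nat_lit 78) (PT.lf (nat_lit 7980) (nat_lit 6) (nat_lit 105) (nat_lit 4) (nat_lit 186) (nat_lit 210) (nat_lit 204)) (PT.lf (nat_lit 8360) (nat_lit 6) (nat_lit 110) (nat_lit 4) (nat_lit 187) (nat_lit 210) (nat_lit 203)))) (PT.nd (nat_lit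 156) (PT.nd (nat_lit 78) (PT.lf (nat_lit 8740) (nat_lit 6) (nat_lit 115) (nat_lit 4) (nat_lit 188) (nat_lit 210) (nat_lit 202)) (PT.lf (nat_lit 9120) (nat_lit 6) (nat_lit 120) (nat_lit 4) (nat_lit 189) (nat_lit 210) (nat_lit 201))) (PT.nd (nat_lit 78) (PT.lf (nat_lit 9880) (nat_lit 6) (nat_lit 130) (nat_lit 4) (nat_lit 190) (nat_lit 210) (nat_lit 200)) (PT.lf (nat_lit 9804) (nat_lit 6) (nat_lit 129) (nat_lit 4) (nat_lit 191) (nat_lit 210) (nat_lit 199))))))))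
noncomputable def pc11 : PT := (PT.nd (nat_lit 61698) (PT.nd (nat_lit 1170) (PT.nd (nat_lit 546) (PT.nd (nat_lit 234) (PT.nd (nat_lit 78) (PT.lf (nat_lit 9728) (nat_lit 6) (nat_lit 128) (nat_lit 4) (nat_lit 192) (nat_lit 210) (nat_lit 198)) (PT.nd (nat_lit 78) (PT.lf (nat_lit 9652) (nat_lit 6) (nat_lit 127) (nat_lit 4) (nat_lit 193) (nat_lit 210) (nat_lit 197)) (PT.lf (nat_lit 9576) (nat_lit 6) (nat_lit 126) (nat_lit 4) (nat_lit 194) (nat_lit 210) (nat_lit 196)))) (PT.nd (nat_lit 156) (PT.nd (nat_lit 78) (PT.lf (nat_lit 9500) (nat_lit 3) (nat_lit 125) (nat_lit 2) (nat_lit 195) (nat_lit 210) (nat_lit 195)) (PT.lf (nat_lit 9576) (nat_lit 6) (nat_lit 126) (nat_lit 2) (nat_lit 196) (nat_lit 210) (nat_lit 194))) (PT.nd (nat_lit 78) (PT.lf (nat_lit 9652) (nat_lit 6) (nat_lit 127) (nat_lit 2) (nat_lit 197) (nat_lit 210) (nat_lit 193)) (PT.lf (nat_lit 9728) (nat_lit 6) (nat_lit 128) (nat_lit 2) (nat_lit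 198) (nat_lit 210) (nat_lit 192))))) (PT.nd (nat_lit 312) (PT.nd (nat_lit 156) (PT.nd (nat_lit 78) (PT.lf (nat_lit 9804) (nat_lit 6) (nat_lit 129) (nat_lit 2) (nat_lit 199) (nat_lit 210) (nat_lit 191)) (PT.lf (nat_lit 9880) (nat_lit 6) (nat_lit 130) (nat_lit 2) (nat_lit 200) (nat_lit 210) (nat_lit 190))) (PT.nd (nat_lit 78) (PT.lf (nat_lit 9120) (nat_lit 6) (nat_lit 120) (nat_lit 2) (nat_lit 201) (nat_lit 210) (nat_lit 189)) (PT.lf (nat_lit 8740) (nat_lit 6) (nat_lit 115) (nat_lit 2) (nat_lit 202) (nat_lit 210) (nat_lit 188)))) (PT.nd (nat_lit 156) (PT.nd (nat_lit 78) (PT.lf (nat_lit 8360) (nat_lit 6) (nat_lit 110) (nat_lit 2) (nat_lit 203) (nat_lit 210) (nat_lit 187)) (PT.lf (nat_lit 7980) (nat_lit 6) (nat_lit 105) (nat_lit 2) (nat_lit 204) (nat_lit 210) (nat_lit 186))) (PT.nd (nat_lit 78) (PT.lf (nat_lit 7676) (nat_lit 6) (nat_lit 101) (nat_lit 2) (nat_lit 205) (nat_lit 210) (nat_lit 185))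 (PT.lf (nat_lit 7372) (nat_lit 6) (nat_lit 97) (nat_lit 2) (nat_lit 206) (nat_lit 210) (nat_lit 184)))))) (PT.nd (nat_lit 59904) (PT.nd (nat_lit 312) (PT.nd (nat_lit 156) (PT.nd (nat_lit 78) (PT.lf (nat_lit 7144) (nat_lit 6) (nat_lit 94) (nat_lit 2) (nat_lit 207) (nat_lit 210) (nat_lit 183)) (PT.lf (nat_lit 6840) (nat_lit 6) (nat_lit 90) (nat_lit 2) (nat_lit 208) (nat_lit 210) (nat_lit 182))) (PT.nd (nat_lit 78) (PT.lf (nat_lit 6612) (nat_lit 6) (nat_lit 87) (nat_lit 2) (nat_lit 209) (nat_lit 210) (nat_lit 181)) (PT.lf (nat_lit 6384) (nat_lit 3) (nat_lit 84) (nat_lit 0) (nat_lit 210) (nat_lit 210) (nat_lit 180)))) (PT.nd (nat_lit 156) (PT.nd (nat_lit 78) (PT.lf (nat_lit 6080) (nat_lit 6) (nat_lit 80) (nat_lit 0) (nat_lit 211) (nat_lit 210) (nat_lit 179)) (PT.lf (nat_lit 5776) (nat_lit 6) (nat_lit 76) (nat_lit 0) (nat_lit 212) (nat_lit 210) (nat_lit 178))) (PT.nd (nat_lit 78) (PT.lf (nat_lit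 5548) (nat_lit 6) (nat_lit 73) (nat_lit 0) (nat_lit 213) (nat_lit 210) (nat_lit 177)) (PT.lf (nat_lit 5244) (nat_lit 6) (nat_lit 69) (nat_lit 0) (nat_lit 214) (nat_lit 210) (nat_lit 176))))) (PT.nd (nat_lit 312) (PT.nd (nat_lit 156) (PT.nd (nat_lit 78) (PT.lf (nat_lit 4864) (nat_lit 6) (nat_lit 64) (nat_lit 5) (nat_lit 174) (nat_lit 211) (nat_lit 215)) (PT.lf (nat_lit 5092) (nat_lit 6) (nat_lit 67) (nat_lit 5) (nat_lit 175) (nat_lit 211) (nat_lit 214))) (PT.nd (nat_lit 78) (PT.lf (nat_lit 5320) (nat_lit 6) (nat_lit 70) (nat_lit 5) (nat_lit 176) (nat_lit 211) (nat_lit 213)) (PT.lf (nat_lit 5624) (nat_lit 6) (nat_lit 74) (nat_lit 5) (nat_lit 177) (nat_lit 211) (nat_lit 212)))) (PT.nd (nat_lit 156) (PT.nd (nat_lit 78) (PT.lf (nat_lit 5852) (nat_lit 3) (nat_lit 77) (nat_lit 4) (nat_lit 178) (nat_lit 211) (nat_lit 211)) (PT.lf (nat_lit 6080) (nat_lit 6) (nat_lit 80) (nat_lit 4) (nat_lit 179) (nat_lit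 211) (nat_lit 210))) (PT.nd (nat_lit 78) (PT.lf (nat_lit 6308) (nat_lit 6) (nat_lit 83) (nat_lit 4) (nat_lit 180) (nat_lit 211) (nat_lit 209)) (PT.lf (nat_lit 6536) (nat_lit 6) (nat_lit 86) (nat_lit 4) (nat_lit 181) (nat_lit 211) (nat_lit 208))))))) (PT.nd (nat_lit 2184) (PT.nd (nat_lit 1560) (PT.nd (nat_lit 312) (PT.nd (nat_lit 156) (PT.nd (nat_lit 78) (PT.lf (nat_lit 6764) (nat_lit 6) (nat_lit 89) (nat_lit 4) (nat_lit 182) (nat_lit 211) (nat_lit 207)) (PT.lf (nat_lit 7068) (nat_lit 6) (nat_lit 93) (nat_lit 4) (nat_lit 183) (nat_lit 211) (nat_lit 206))) (PT.nd (nat_lit 78) (PT.lf (nat_lit 7296) (nat_lit 6) (nat_lit 96) (nat_lit 4) (nat_lit 184) (nat_lit 211) (nat_lit 205)) (PT.lf (nat_lit 7600) (nat_lit 6) (nat_lit 100) (nat_lit 4) (nat_lit 185) (nat_lit 211) (nat_lit 204)))) (PT.nd (nat_lit 156) (PT.nd (nat_lit 78) (PT.lf (nat_lit 7904) (nat_lit 6) (nat_lit 104) (nat_lit 4) (nat_lit 186)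 (nat_lit 211) (nat_lit 203)) (PT.lf (nat_lit 8284) (nat_lit 6) (nat_lit 109) (nat_lit 4) (nat_lit 187) (nat_lit 211) (nat_lit 202))) (PT.nd (nat_lit 1014) (PT.lf (nat_lit 8664) (nat_lit 6) (nat_lit 114) (nat_lit 4) (nat_lit 188) (nat_lit 211) (nat_lit 201)) (PT.lf (nat_lit 8664) (nat_lit 6) (nat_lit 114) (nat_lit 2) (nat_lit 201) (nat_lit 211) (nat_lit 188))))) (PT.nd (nat_lit 312) (PT.nd (nat_lit 156) (PT.nd (nat_lit 78) (PT.lf (nat_lit 8284) (nat_lit 6) (nat_lit 109) (nat_lit 2) (nat_lit 202) (nat_lit 211) (nat_lit 187)) (PT.lf (nat_lit 7904) (nat_lit 6) (nat_lit 104) (nat_lit 2) (nat_lit 203) (nat_lit 211) (nat_lit 186))) (PT.nd (nat_lit 78) (PT.lf (nat_lit 7600) (nat_lit 6) (nat_lit 100) (nat_lit 2) (nat_lit 204) (nat_lit 211) (nat_lit 185)) (PT.lf (nat_lit 7296) (nat_lit 6) (nat_lit 96) (nat_lit 2) (nat_lit 205) (nat_lit 211) (nat_lit 184)))) (PT.nd (nat_lit 156) (PT.nd (nat_lit 78) (PT.lf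 (nat_lit 7068) (nat_lit 6) (nat_lit 93) (nat_lit 2) (nat_lit 206) (nat_lit 211) (nat_lit 183)) (PT.lf (nat_lit 6764) (nat_lit 6) (nat_lit 89) (nat_lit 2) (nat_lit 207) (nat_lit 211) (nat_lit 182))) (PT.nd (nat_lit 78) (PT.lf (nat_lit 6536) (nat_lit 6) (nat_lit 86) (nat_lit 2) (nat_lit 208) (nat_lit 211) (nat_lit 181)) (PT.lf (nat_lit 6308) (nat_lit 6) (nat_lit 83) (nat_lit 2) (nat_lit 209) (nat_lit 211) (nat_lit 180)))))) (PT.nd (nat_lit 59670) (PT.nd (nat_lit 312) (PT.nd (nat_lit 156) (PT.nd (nat_lit 78) (PT.lf (nat_lit 6080) (nat_lit 6) (nat_lit 80) (nat_lit 2) (nat_lit 210) (nat_lit 211) (nat_lit 179)) (PT.lf (nat_lit 5852) (nat_lit 3) (nat_lit 77) (nat_lit 0) (nat_lit 211) (nat_lit 211) (nat_lit 178))) (PT.nd (nat_lit 78) (PT.lf (nat_lit 5624) (nat_lit 6) (nat_lit 74) (nat_lit 0) (nat_lit 212) (nat_lit 211) (nat_lit 177)) (PT.lf (nat_lit 5320) (nat_lit 6) (nat_lit 70) (nat_lit 0) (nat_lit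 213) (nat_lit 211) (nat_lit 176)))) (PT.nd (nat_lit 59202) (PT.nd (nat_lit 78) (PT.lf (nat_lit 5092) (nat_lit 6) (nat_lit 67) (nat_lit 0) (nat_lit 214) (nat_lit 211) (nat_lit 175)) (PT.lf (nat_lit 4864) (nat_lit 6) (nat_lit 64) (nat_lit 0) (nat_lit 215) (nat_lit 211) (nat_lit 174))) (PT.nd (nat_lit 78) (PT.lf (nat_lit 4484) (nat_lit 6) (nat_lit 59) (nat_lit 5) (nat_lit 172) (nat_lit 212) (nat_lit 216)) (PT.lf (nat_lit 4712) (nat_lit 6) (nat_lit 62) (nat_lit 5) (nat_lit 173) (nat_lit 212) (nat_lit 215))))) (PT.nd (nat_lit 312) (PT.nd (nat_lit 156) (PT.nd (nat_lit 78) (PT.lf (nat_lit 4940) (nat_lit 6) (nat_lit 65) (nat_lit 5) (nat_lit 174) (nat_lit 212) (nat_lit 214)) (PT.lf (nat_lit 5168) (nat_lit 6) (nat_lit 68) (nat_lit 5) (nat_lit 175) (nat_lit 212) (nat_lit 213))) (PT.nd (nat_lit 78) (PT.lf (nat_lit 5396) (nat_lit 3) (nat_lit 71) (nat_lit 4) (nat_lit 176) (nat_lit 212) (nat_lit 212)) (PT.lf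 (nat_lit 5624) (nat_lit 6) (nat_lit 74) (nat_lit 4) (nat_lit 177) (nat_lit 212) (nat_lit 211)))) (PT.nd (nat_lit 156) (PT.nd (nat_lit 78) (PT.lf (nat_lit 5776) (nat_lit 6) (nat_lit 76) (nat_lit 4) (nat_lit 178) (nat_lit 212) (nat_lit 210)) (PT.lf (nat_lit 6004) (nat_lit 6) (nat_lit 79) (nat_lit 4) (nat_lit 179) (nat_lit 212) (nat_lit 209))) (PT.nd (nat_lit 78) (PT.lf (nat_lit 6232) (nat_lit 6) (nat_lit 82) (nat_lit 4) (nat_lit 180) (nat_lit 212) (nat_lit 208)) (PT.lf (nat_lit 6460) (nat_lit 6) (nat_lit 85) (nat_lit 4) (nat_lit 181) (nat_lit 212) (nat_lit 207))))))))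
noncomputable def pc12 : PT := (PT.nd (nat_lit 64896) (PT.nd (nat_lit 61620) (PT.nd (nat_lit 2184) (PT.nd (nat_lit 1872) (PT.nd (nat_lit 78) (PT.lf (nat_lit 6688) (nat_lit 6) (nat_lit 88) (nat_lit 4) (nat_lit 182) (nat_lit 212) (nat_lit 206)) (PT.nd (nat_lit 1716) (PT.lf (nat_lit 6992) (nat_lit 6) (nat_lit 92) (nat_lit 4) (nat_lit 183) (nat_lit 212) (nat_lit 205)) (PT.lf (nat_lit 6992) (nat_lit 6) (nat_lit 92) (nat_lit 2) (nat_lit 205) (nat_lit 212) (nat_lit 183)))) (PT.nd (nat_lit 156) (PT.nd (nat_lit 78) (PT.lf (nat_lit 6688) (nat_lit 6) (nat_lit 88) (nat_lit 2) (nat_lit 206) (nat_lit 212) (nat_lit 182)) (PT.lf (nat_lit 6460) (nat_lit 6) (nat_lit 85) (nat_lit 2) (nat_lit 207) (nat_lit 212) (nat_lit 181))) (PT.nd (nat_lit 78) (PT.lf (nat_lit 6232) (nat_lit 6) (nat_lit 82) (nat_lit 2) (nat_lit 208) (nat_lit 212) (nat_lit 180)) (PT.lf (nat_lit 6004) (nat_lit 6) (nat_lit 79) (nat_lit 2) (nat_lit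 209) (nat_lit 212) (nat_lit 179))))) (PT.nd (nat_lit 312) (PT.nd (nat_lit 156) (PT.nd (nat_lit 78) (PT.lf (nat_lit 5776) (nat_lit 6) (nat_lit 76) (nat_lit 2) (nat_lit 210) (nat_lit 212) (nat_lit 178)) (PT.lf (nat_lit 5624) (nat_lit 6) (nat_lit 74) (nat_lit 2) (nat_lit 211) (nat_lit 212) (nat_lit 177))) (PT.nd (nat_lit 78) (PT.lf (nat_lit 5396) (nat_lit 3) (nat_lit 71) (nat_lit 0) (nat_lit 212) (nat_lit 212) (nat_lit 176)) (PT.lf (nat_lit 5168) (nat_lit 6) (nat_lit 68) (nat_lit 0) (nat_lit 213) (nat_lit 212) (nat_lit 175)))) (PT.nd (nat_lit 156) (PT.nd (nat_lit 78) (PT.lf (nat_lit 4940) (nat_lit 6) (nat_lit 65) (nat_lit 0) (nat_lit 214) (nat_lit 212) (nat_lit 174)) (PT.lf (nat_lit 4712) (nat_lit 6) (nat_lit 62) (nat_lit 0) (nat_lit 215) (nat_lit 212) (nat_lit 173))) (PT.nd (nat_lit 58890) (PT.lf (nat_lit 4484) (nat_lit 6) (nat_lit 59) (nat_lit 0) (nat_lit 216) (nat_lit 212) (nat_lit 172)) (PT.lf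 (nat_lit 4104) (nat_lit 6) (nat_lit 54) (nat_lit 5) (nat_lit 170) (nat_lit 213) (nat_lit 217)))))) (PT.nd (nat_lit 624) (PT.nd (nat_lit 312) (PT.nd (nat_lit 156) (PT.nd (nat_lit 78) (PT.lf (nat_lit 4332) (nat_lit 6) (nat_lit 57) (nat_lit 5) (nat_lit 171) (nat_lit 213) (nat_lit 216)) (PT.lf (nat_lit 4560) (nat_lit 6) (nat_lit 60) (nat_lit 5) (nat_lit 172) (nat_lit 213) (nat_lit 215))) (PT.nd (nat_lit 78) (PT.lf (nat_lit 4788) (nat_lit 6) (nat_lit 63) (nat_lit 5) (nat_lit 173) (nat_lit 213) (nat_lit 214)) (PT.lf (nat_lit 5016) (nat_lit 3) (nat_lit 66) (nat_lit 4) (nat_lit 174) (nat_lit 213) (nat_lit 213)))) (PT.nd (nat_lit 156) (PT.nd (nat_lit 78) (PT.lf (nat_lit 5168) (nat_lit 6) (nat_lit 68) (nat_lit 4) (nat_lit 175) (nat_lit 213) (nat_lit 212)) (PT.lf (nat_lit 5320) (nat_lit 6) (nat_lit 70) (nat_lit 4) (nat_lit 176) (nat_lit 213) (nat_lit 211))) (PT.nd (nat_lit 78) (PT.lf (nat_lit 5548) (nat_lit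 6) (nat_lit 73) (nat_lit 4) (nat_lit 177) (nat_lit 213) (nat_lit 210)) (PT.lf (nat_lit 5700) (nat_lit 6) (nat_lit 75) (nat_lit 4) (nat_lit 178) (nat_lit 213) (nat_lit 209))))) (PT.nd (nat_lit 2340) (PT.nd (nat_lit 2184) (PT.nd (nat_lit 78) (PT.lf (nat_lit 5928) (nat_lit 6) (nat_lit 78) (nat_lit 4) (nat_lit 179) (nat_lit 213) (nat_lit 208)) (PT.lf (nat_lit 6156) (nat_lit 6) (nat_lit 81) (nat_lit 4) (nat_lit 180) (nat_lit 213) (nat_lit 207))) (PT.nd (nat_lit 78) (PT.lf (nat_lit 6156) (nat_lit 6) (nat_lit 81) (nat_lit 2) (nat_lit 207) (nat_lit 213) (nat_lit 180)) (PT.lf (nat_lit 5928) (nat_lit 6) (nat_lit 78) (nat_lit 2) (nat_lit 208) (nat_lit 213) (nat_lit 179)))) (PT.nd (nat_lit 156) (PT.nd (nat_lit 78) (PT.lf (nat_lit 5700) (nat_lit 6) (nat_lit 75) (nat_lit 2) (nat_lit 209) (nat_lit 213) (nat_lit 178)) (PT.lf (nat_lit 5548) (nat_lit 6) (nat_lit 73) (nat_lit 2) (nat_lit 210) (nat_lit 213) (nat_lit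 177))) (PT.nd (nat_lit 78) (PT.lf (nat_lit 5320) (nat_lit 6) (nat_lit 70) (nat_lit 2) (nat_lit 211) (nat_lit 213) (nat_lit 176)) (PT.lf (nat_lit 5168) (nat_lit 6) (nat_lit 68) (nat_lit 2) (nat_lit 212) (nat_lit 213) (nat_lit 175))))))) (PT.nd (nat_lit 62244) (PT.nd (nat_lit 59202) (PT.nd (nat_lit 234) (PT.nd (nat_lit 78) (PT.lf (nat_lit 5016) (nat_lit 3) (nat_lit 66) (nat_lit 0) (nat_lit 213) (nat_lit 213) (nat_lit 174)) (PT.nd (nat_lit 78) (PT.lf (nat_lit 4788) (nat_lit 6) (nat_lit 63) (nat_lit 0) (nat_lit 214) (nat_lit 213) (nat_lit 173)) (PT.lf (nat_lit 4560) (nat_lit 6) (nat_lit 60) (nat_lit 0) (nat_lit 215) (nat_lit 213) (nat_lit 172)))) (PT.nd (nat_lit 58812) (PT.nd (nat_lit 78) (PT.lf (nat_lit 4332) (nat_lit 6) (nat_lit 57) (nat_lit 0) (nat_lit 216) (nat_lit 213) (nat_lit 171)) (PT.lf (nat_lit 4104) (nat_lit 6) (nat_lit 54) (nat_lit 0) (nat_lit 217) (nat_lit 213) (nat_lit 170))) (PT.nd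 (nat_lit 78) (PT.lf (nat_lit 3952) (nat_lit 6) (nat_lit 52) (nat_lit 5) (nat_lit 169) (nat_lit 214) (nat_lit 217)) (PT.lf (nat_lit 4180) (nat_lit 6) (nat_lit 55) (nat_lit 5) (nat_lit 170) (nat_lit 214) (nat_lit 216))))) (PT.nd (nat_lit 312) (PT.nd (nat_lit 156) (PT.nd (nat_lit 78) (PT.lf (nat_lit 4408) (nat_lit 6) (nat_lit 58) (nat_lit 5) (nat_lit 171) (nat_lit 214) (nat_lit 215)) (PT.lf (nat_lit 4636) (nat_lit 3) (nat_lit 61) (nat_lit 4) (nat_lit 172) (nat_lit 214) (nat_lit 214))) (PT.nd (nat_lit 78) (PT.lf (nat_lit 4788) (nat_lit 6) (nat_lit 63) (nat_lit 4) (nat_lit 173) (nat_lit 214) (nat_lit 213)) (PT.lf (nat_lit 4940) (nat_lit 6) (nat_lit 65) (nat_lit 4) (nat_lit 174) (nat_lit 214) (nat_lit 212)))) (PT.nd (nat_lit 156) (PT.nd (nat_lit 78) (PT.lf (nat_lit 5092) (nat_lit 6) (nat_lit 67) (nat_lit 4) (nat_lit 175) (nat_lit 214) (nat_lit 211)) (PT.lf (nat_lit 5244) (nat_lit 6) (nat_lit 69)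 (nat_lit 4) (nat_lit 176) (nat_lit 214) (nat_lit 210))) (PT.nd (nat_lit 2496) (PT.lf (nat_lit 5472) (nat_lit 6) (nat_lit 72) (nat_lit 4) (nat_lit 177) (nat_lit 214) (nat_lit 209)) (PT.lf (nat_lit 5472) (nat_lit 6) (nat_lit 72) (nat_lit 2) (nat_lit 209) (nat_lit 214) (nat_lit 177)))))) (PT.nd (nat_lit 59124) (PT.nd (nat_lit 312) (PT.nd (nat_lit 156) (PT.nd (nat_lit 78) (PT.lf (nat_lit 5244) (nat_lit 6) (nat_lit 69) (nat_lit 2) (nat_lit 210) (nat_lit 214) (nat_lit 176)) (PT.lf (nat_lit 5092) (nat_lit 6) (nat_lit 67) (nat_lit 2) (nat_lit 211) (nat_lit 214) (nat_lit 175))) (PT.nd (nat_lit 78) (PT.lf (nat_lit 4940) (nat_lit 6) (nat_lit 65) (nat_lit 2) (nat_lit 212) (nat_lit 214) (nat_lit 174)) (PT.lf (nat_lit 4788) (nat_lit 6) (nat_lit 63) (nat_lit 2) (nat_lit 213) (nat_lit 214) (nat_lit 173)))) (PT.nd (nat_lit 156) (PT.nd (nat_lit 78) (PT.lf (nat_lit 4636) (nat_lit 3) (nat_lit 61) (nat_lit 0) (nat_lit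 214) (nat_lit 214) (nat_lit 172)) (PT.lf (nat_lit 4408) (nat_lit 6) (nat_lit 58) (nat_lit 0) (nat_lit 215) (nat_lit 214) (nat_lit 171))) (PT.nd (nat_lit 78) (PT.lf (nat_lit 4180) (nat_lit 6) (nat_lit 55) (nat_lit 0) (nat_lit 216) (nat_lit 214) (nat_lit 170)) (PT.lf (nat_lit 3952) (nat_lit 6) (nat_lit 52) (nat_lit 0) (nat_lit 217) (nat_lit 214) (nat_lit 169))))) (PT.nd (nat_lit 312) (PT.nd (nat_lit 156) (PT.nd (nat_lit 78) (PT.lf (nat_lit 3648) (nat_lit 6) (nat_lit 48) (nat_lit 5) (nat_lit 167) (nat_lit 215) (nat_lit 218)) (PT.lf (nat_lit 3800) (nat_lit 6) (nat_lit 50) (nat_lit 5) (nat_lit 168) (nat_lit 215) (nat_lit 217))) (PT.nd (nat_lit 78) (PT.lf (nat_lit 4028) (nat_lit 6) (nat_lit 53) (nat_lit 5) (nat_lit 169) (nat_lit 215) (nat_lit 216)) (PT.lf (nat_lit 4256) (nat_lit 3) (nat_lit 56) (nat_lit 4) (nat_lit 170) (nat_lit 215) (nat_lit 215)))) (PT.nd (nat_lit 156) (PT.nd (nat_lit 78) (PT.lf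 (nat_lit 4408) (nat_lit 6) (nat_lit 58) (nat_lit 4) (nat_lit 171) (nat_lit 215) (nat_lit 214)) (PT.lf (nat_lit 4560) (nat_lit 6) (nat_lit 60) (nat_lit 4) (nat_lit 172) (nat_lit 215) (nat_lit 213))) (PT.nd (nat_lit 78) (PT.lf (nat_lit 4712) (nat_lit 6) (nat_lit 62) (nat_lit 4) (nat_lit 173) (nat_lit 215) (nat_lit 212)) (PT.lf (nat_lit 4864) (nat_lit 6) (nat_lit 64) (nat_lit 4) (nat_lit 174) (nat_lit 215) (nat_lit 211))))))))
noncomputable def pc13 : PT := (PT.nd (nat_lit 121758) (PT.nd (nat_lit 59436) (PT.nd (nat_lit 546) (PT.nd (nat_lit 234) (PT.nd (nat_lit 78) (PT.lf (nat_lit 4864) (nat_lit 6) (nat_lit 64) (nat_lit 2) (nat_lit 211) (nat_lit 215) (nat_lit 174)) (PT.nd (nat_lit 78) (PT.lf (nat_lit 4712) (nat_lit 6) (nat_lit 62) (nat_lit 2) (nat_lit 212) (nat_lit 215) (nat_lit 173)) (PT.lf (nat_lit 4560) (nat_lit 6) (nat_lit 60) (nat_lit 2) (nat_lit 213) (nat_lit 215) (nat_lit 172)))) (PT.nd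 (nat_lit 156) (PT.nd (nat_lit 78) (PT.lf (nat_lit 4408) (nat_lit 6) (nat_lit 58) (nat_lit 2) (nat_lit 214) (nat_lit 215) (nat_lit 171)) (PT.lf (nat_lit 4256) (nat_lit 3) (nat_lit 56) (nat_lit 0) (nat_lit 215) (nat_lit 215) (nat_lit 170))) (PT.nd (nat_lit 78) (PT.lf (nat_lit 4028) (nat_lit 6) (nat_lit 53) (nat_lit 0) (nat_lit 216) (nat_lit 215) (nat_lit 169)) (PT.lf (nat_lit 3800) (nat_lit 6) (nat_lit 50) (nat_lit 0) (nat_lit 217) (nat_lit 215) (nat_lit 168))))) (PT.nd (nat_lit 58578) (PT.nd (nat_lit 58422) (PT.nd (nat_lit 58344) (PT.lf (nat_lit 3648) (nat_lit 6) (nat_lit 48) (nat_lit 0) (nat_lit 218) (nat_lit 215) (nat_lit 167)) (PT.lf (nat_lit 3344) (nat_lit 6) (nat_lit 44) (nat_lit 5) (nat_lit 165) (nat_lit 216) (nat_lit 219))) (PT.nd (nat_lit 78) (PT.lf (nat_lit 3496) (nat_lit 6) (nat_lit 46) (nat_lit 5) (nat_lit 166) (nat_lit 216) (nat_lit 218)) (PT.lf (nat_lit 3724) (nat_lit 6) (nat_lit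 49) (nat_lit 5) (nat_lit 167) (nat_lit 216) (nat_lit 217)))) (PT.nd (nat_lit 156) (PT.nd (nat_lit 78) (PT.lf (nat_lit 3876) (nat_lit 3) (nat_lit 51) (nat_lit 4) (nat_lit 168) (nat_lit 216) (nat_lit 216)) (PT.lf (nat_lit 4028) (nat_lit 6) (nat_lit 53) (nat_lit 4) (nat_lit 169) (nat_lit 216) (nat_lit 215))) (PT.nd (nat_lit 78) (PT.lf (nat_lit 4180) (nat_lit 6) (nat_lit 55) (nat_lit 4) (nat_lit 170) (nat_lit 216) (nat_lit 214)) (PT.lf (nat_lit 4332) (nat_lit 6) (nat_lit 57) (nat_lit 4) (nat_lit 171) (nat_lit 216) (nat_lit 213)))))) (PT.nd (nat_lit 3666) (PT.nd (nat_lit 3354) (PT.nd (nat_lit 3198) (PT.nd (nat_lit 3120) (PT.lf (nat_lit 4484) (nat_lit 6) (nat_lit 59) (nat_lit 4) (nat_lit 172) (nat_lit 216) (nat_lit 212)) (PT.lf (nat_lit 4484) (nat_lit 6) (nat_lit 59) (nat_lit 2) (nat_lit 212) (nat_lit 216) (nat_lit 172))) (PT.nd (nat_lit 78) (PT.lf (nat_lit 4332) (nat_lit 6) (nat_lit 57) (nat_lit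 2) (nat_lit 213) (nat_lit 216) (nat_lit 171)) (PT.lf (nat_lit 4180) (nat_lit 6) (nat_lit 55) (nat_lit 2) (nat_lit 214) (nat_lit 216) (nat_lit 170)))) (PT.nd (nat_lit 156) (PT.nd (nat_lit 78) (PT.lf (nat_lit 4028) (nat_lit 6) (nat_lit 53) (nat_lit 2) (nat_lit 215) (nat_lit 216) (nat_lit 169)) (PT.lf (nat_lit 3876) (nat_lit 3) (nat_lit 51) (nat_lit 0) (nat_lit 216) (nat_lit 216) (nat_lit 168))) (PT.nd (nat_lit 78) (PT.lf (nat_lit 3724) (nat_lit 6) (nat_lit 49) (nat_lit 0) (nat_lit 217) (nat_lit 216) (nat_lit 167)) (PT.lf (nat_lit 3496) (nat_lit 6) (nat_lit 46) (nat_lit 0) (nat_lit 218) (nat_lit 216) (nat_lit 166))))) (PT.nd (nat_lit 58344) (PT.nd (nat_lit 58188) (PT.nd (nat_lit 58110) (PT.lf (nat_lit 3344) (nat_lit 6) (nat_lit 44) (nat_lit 0) (nat_lit 219) (nat_lit 216) (nat_lit 165)) (PT.lf (nat_lit 3040) (nat_lit 6) (nat_lit 40) (nat_lit 5) (nat_lit 163) (nat_lit 217) (nat_lit 220))) (PT.nd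 (nat_lit 78) (PT.lf (nat_lit 3192) (nat_lit 6) (nat_lit 42) (nat_lit 5) (nat_lit 164) (nat_lit 217) (nat_lit 219)) (PT.lf (nat_lit 3420) (nat_lit 6) (nat_lit 45) (nat_lit 5) (nat_lit 165) (nat_lit 217) (nat_lit 218)))) (PT.nd (nat_lit 156) (PT.nd (nat_lit 78) (PT.lf (nat_lit 3572) (nat_lit 3) (nat_lit 47) (nat_lit 4) (nat_lit 166) (nat_lit 217) (nat_lit 217)) (PT.lf (nat_lit 3724) (nat_lit 6) (nat_lit 49) (nat_lit 4) (nat_lit 167) (nat_lit 217) (nat_lit 216))) (PT.nd (nat_lit 78) (PT.lf (nat_lit 3800) (nat_lit 6) (nat_lit 50) (nat_lit 4) (nat_lit 168) (nat_lit 217) (nat_lit 215)) (PT.lf (nat_lit 3952) (nat_lit 6) (nat_lit 52) (nat_lit 4) (nat_lit 169) (nat_lit 217) (nat_lit 214))))))) (PT.nd (nat_lit 66066) (PT.nd (nat_lit 3900) (PT.nd (nat_lit 3588) (PT.nd (nat_lit 3432) (PT.nd (nat_lit 3354) (PT.lf (nat_lit 4104) (nat_lit 6) (nat_lit 54) (nat_lit 4) (nat_lit 170) (nat_lit 217) (nat_lit 213))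 (PT.lf (nat_lit 4104) (nat_lit 6) (nat_lit 54) (nat_lit 2) (nat_lit 213) (nat_lit 217) (nat_lit 170))) (PT.nd (nat_lit 78) (PT.lf (nat_lit 3952) (nat_lit 6) (nat_lit 52) (nat_lit 2) (nat_lit 214) (nat_lit 217) (nat_lit 169)) (PT.lf (nat_lit 3800) (nat_lit 6) (nat_lit 50) (nat_lit 2) (nat_lit 215) (nat_lit 217) (nat_lit 168)))) (PT.nd (nat_lit 156) (PT.nd (nat_lit 78) (PT.lf (nat_lit 3724) (nat_lit 6) (nat_lit 49) (nat_lit 2) (nat_lit 216) (nat_lit 217) (nat_lit 167)) (PT.lf (nat_lit 3572) (nat_lit 3) (nat_lit 47) (nat_lit 0) (nat_lit 217) (nat_lit 217) (nat_lit 166))) (PT.nd (nat_lit 78) (PT.lf (nat_lit 3420) (nat_lit 6) (nat_lit 45) (nat_lit 0) (nat_lit 218) (nat_lit 217) (nat_lit 165)) (PT.lf (nat_lit 3192) (nat_lit 6) (nat_lit 42) (nat_lit 0) (nat_lit 219) (nat_lit 217) (nat_lit 164))))) (PT.nd (nat_lit 58188) (PT.nd (nat_lit 58032) (PT.nd (nat_lit 57954) (PT.lf (nat_lit 3040) (nat_lit 6)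 (nat_lit 40) (nat_lit 0) (nat_lit 220) (nat_lit 217) (nat_lit 163)) (PT.lf (nat_lit 2888) (nat_lit 6) (nat_lit 38) (nat_lit 5) (nat_lit 162) (nat_lit 218) (nat_lit 220))) (PT.nd (nat_lit 78) (PT.lf (nat_lit 3116) (nat_lit 6) (nat_lit 41) (nat_lit 5) (nat_lit 163) (nat_lit 218) (nat_lit 219)) (PT.lf (nat_lit 3268) (nat_lit 3) (nat_lit 43) (nat_lit 4) (nat_lit 164) (nat_lit 218) (nat_lit 218)))) (PT.nd (nat_lit 156) (PT.nd (nat_lit 78) (PT.lf (nat_lit 3420) (nat_lit 6) (nat_lit 45) (nat_lit 4) (nat_lit 165) (nat_lit 218) (nat_lit 217)) (PT.lf (nat_lit 3496) (nat_lit 6) (nat_lit 46) (nat_lit 4) (nat_lit 166) (nat_lit 218) (nat_lit 216))) (PT.nd (nat_lit 3744) (PT.lf (nat_lit 3648) (nat_lit 6) (nat_lit 48) (nat_lit 4) (nat_lit 167) (nat_lit 218) (nat_lit 215)) (PT.lf (nat_lit 3648) (nat_lit 6) (nat_lit 48) (nat_lit 2) (nat_lit 215) (nat_lit 218) (nat_lit 167)))))) (PT.nd (nat_lit 58344) (PT.nd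 (nat_lit 312) (PT.nd (nat_lit 156) (PT.nd (nat_lit 78) (PT.lf (nat_lit 3496) (nat_lit 6) (nat_lit 46) (nat_lit 2) (nat_lit 216) (nat_lit 218) (nat_lit 166)) (PT.lf (nat_lit 3420) (nat_lit 6) (nat_lit 45) (nat_lit 2) (nat_lit 217) (nat_lit 218) (nat_lit 165))) (PT.nd (nat_lit 78) (PT.lf (nat_lit 3268) (nat_lit 3) (nat_lit 43) (nat_lit 0) (nat_lit 218) (nat_lit 218) (nat_lit 164)) (PT.lf (nat_lit 3116) (nat_lit 6) (nat_lit 41) (nat_lit 0) (nat_lit 219) (nat_lit 218) (nat_lit 163)))) (PT.nd (nat_lit 57876) (PT.nd (nat_lit 57798) (PT.lf (nat_lit 2888) (nat_lit 6) (nat_lit 38) (nat_lit 0) (nat_lit 220) (nat_lit 218) (nat_lit 162)) (PT.lf (nat_lit 2660) (nat_lit 6) (nat_lit 35) (nat_lit 5) (nat_lit 160) (nat_lit 219) (nat_lit 221))) (PT.nd (nat_lit 78) (PT.lf (nat_lit 2812) (nat_lit 6) (nat_lit 37) (nat_lit 5) (nat_lit 161) (nat_lit 219) (nat_lit 220)) (PT.lf (nat_lit 2964) (nat_lit 3) (nat_lit 39)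 (nat_lit 4) (nat_lit 162) (nat_lit 219) (nat_lit 219))))) (PT.nd (nat_lit 4212) (PT.nd (nat_lit 156) (PT.nd (nat_lit 78) (PT.lf (nat_lit 3116) (nat_lit 6) (nat_lit 41) (nat_lit 4) (nat_lit 163) (nat_lit 219) (nat_lit 218)) (PT.lf (nat_lit 3192) (nat_lit 6) (nat_lit 42) (nat_lit 4) (nat_lit 164) (nat_lit 219) (nat_lit 217))) (PT.nd (nat_lit 3978) (PT.lf (nat_lit 3344) (nat_lit 6) (nat_lit 44) (nat_lit 4) (nat_lit 165) (nat_lit 219) (nat_lit 216)) (PT.lf (nat_lit 3344) (nat_lit 6) (nat_lit 44) (nat_lit 2) (nat_lit 216) (nat_lit 219) (nat_lit 165)))) (PT.nd (nat_lit 156) (PT.nd (nat_lit 78) (PT.lf (nat_lit 3192) (nat_lit 6) (nat_lit 42) (nat_lit 2) (nat_lit 217) (nat_lit 219) (nat_lit 164)) (PT.lf (nat_lit 3116) (nat_lit 6) (nat_lit 41) (nat_lit 2) (nat_lit 218) (nat_lit 219) (nat_lit 163))) (PT.nd (nat_lit 78) (PT.lf (nat_lit 2964) (nat_lit 3) (nat_lit 39) (nat_lit 0) (nat_lit 219) (nat_lit 219)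 (nat_lit 162)) (PT.lf (nat_lit 2812) (nat_lit 6) (nat_lit 37) (nat_lit 0) (nat_lit 220) (nat_lit 219) (nat_lit 161))))))))
noncomputable def pc14 : PT := (PT.nd (nat_lit 187590) (PT.nd (nat_lit 120042) (PT.nd (nat_lit 62166) (PT.nd (nat_lit 57720) (PT.nd (nat_lit 57564) (PT.lf (nat_lit 2660) (nat_lit 6) (nat_lit 35) (nat_lit 0) (nat_lit 221) (nat_lit 219) (nat_lit 160)) (PT.nd (nat_lit 78) (PT.lf (nat_lit 2432) (nat_lit 6) (nat_lit 32) (nat_lit 5) (nat_lit 158) (nat_lit 220) (nat_lit 222)) (PT.lf (nat_lit 2584) (nat_lit 6) (nat_lit 34) (nat_lit 5) (nat_lit 159) (nat_lit 220) (nat_lit 221)))) (PT.nd (nat_lit 156) (PT.nd (nat_lit 78) (PT.lf (nat_lit 2736) (nat_lit 3) (nat_lit 36) (nat_lit 4) (nat_lit 160) (nat_lit 220) (nat_lit 220)) (PT.lf (nat_lit 2812) (nat_lit 6) (nat_lit 37) (nat_lit 4) (nat_lit 161) (nat_lit 220) (nat_lit 219))) (PT.nd (nat_lit 78) (PT.lf (nat_lit 2888) (nat_lit 6) (nat_lit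 38) (nat_lit 4) (nat_lit 162) (nat_lit 220) (nat_lit 218)) (PT.lf (nat_lit 3040) (nat_lit 6) (nat_lit 40) (nat_lit 4) (nat_lit 163) (nat_lit 220) (nat_lit 217))))) (PT.nd (nat_lit 312) (PT.nd (nat_lit 156) (PT.nd (nat_lit 78) (PT.lf (nat_lit 3040) (nat_lit 6) (nat_lit 40) (nat_lit 2) (nat_lit 217) (nat_lit 220) (nat_lit 163)) (PT.lf (nat_lit 2888) (nat_lit 6) (nat_lit 38) (nat_lit 2) (nat_lit 218) (nat_lit 220) (nat_lit 162))) (PT.nd (nat_lit 78) (PT.lf (nat_lit 2812) (nat_lit 6) (nat_lit 37) (nat_lit 2) (nat_lit 219) (nat_lit 220) (nat_lit 161)) (PT.lf (nat_lit 2736) (nat_lit 3) (nat_lit 36) (nat_lit 0) (nat_lit 220) (nat_lit 220) (nat_lit 160)))) (PT.nd (nat_lit 57408) (PT.nd (nat_lit 78) (PT.lf (nat_lit 2584) (nat_lit 6) (nat_lit 34) (nat_lit 0) (nat_lit 221) (nat_lit 220) (nat_lit 159)) (PT.lf (nat_lit 2432) (nat_lit 6) (nat_lit 32) (nat_lit 0) (nat_lit 222) (nat_lit 220) (nat_lit 158)))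 (PT.nd (nat_lit 78) (PT.lf (nat_lit 2204) (nat_lit 6) (nat_lit 29) (nat_lit 5) (nat_lit 156) (nat_lit 221) (nat_lit 223)) (PT.lf (nat_lit 2356) (nat_lit 6) (nat_lit 31) (nat_lit 5) (nat_lit 157) (nat_lit 221) (nat_lit 222)))))) (PT.nd (nat_lit 62166) (PT.nd (nat_lit 4836) (PT.nd (nat_lit 156) (PT.nd (nat_lit 78) (PT.lf (nat_lit 2508) (nat_lit 3) (nat_lit 33) (nat_lit 4) (nat_lit 158) (nat_lit 221) (nat_lit 221)) (PT.lf (nat_lit 2584) (nat_lit 6) (nat_lit 34) (nat_lit 4) (nat_lit 159) (nat_lit 221) (nat_lit 220))) (PT.nd (nat_lit 4602) (PT.lf (nat_lit 2660) (nat_lit 6) (nat_lit 35) (nat_lit 4) (nat_lit 160) (nat_lit 221) (nat_lit 219)) (PT.lf (nat_lit 2660) (nat_lit 6) (nat_lit 35) (nat_lit 2) (nat_lit 219) (nat_lit 221) (nat_lit 160)))) (PT.nd (nat_lit 156) (PT.nd (nat_lit 78) (PT.lf (nat_lit 2584) (nat_lit 6) (nat_lit 34) (nat_lit 2) (nat_lit 220) (nat_lit 221) (nat_lit 159)) (PT.lf (nat_lit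 2508) (nat_lit 3) (nat_lit 33) (nat_lit 0) (nat_lit 221) (nat_lit 221) (nat_lit 158))) (PT.nd (nat_lit 78) (PT.lf (nat_lit 2356) (nat_lit 6) (nat_lit 31) (nat_lit 0) (nat_lit 222) (nat_lit 221) (nat_lit 157)) (PT.lf (nat_lit 2204) (nat_lit 6) (nat_lit 29) (nat_lit 0) (nat_lit 223) (nat_lit 221) (nat_lit 156))))) (PT.nd (nat_lit 312) (PT.nd (nat_lit 156) (PT.nd (nat_lit 78) (PT.lf (nat_lit 1976) (nat_lit 6) (nat_lit 26) (nat_lit 5) (nat_lit 154) (nat_lit 222) (nat_lit 224)) (PT.lf (nat_lit 2128) (nat_lit 6) (nat_lit 28) (nat_lit 5) (nat_lit 155) (nat_lit 222) (nat_lit 223))) (PT.nd (nat_lit 78) (PT.lf (nat_lit 2280) (nat_lit 3) (nat_lit 30) (nat_lit 4) (nat_lit 156) (nat_lit 222) (nat_lit 222)) (PT.lf (nat_lit 2356) (nat_lit 6) (nat_lit 31) (nat_lit 4) (nat_lit 157) (nat_lit 222) (nat_lit 221)))) (PT.nd (nat_lit 4914) (PT.nd (nat_lit 4836) (PT.lf (nat_lit 2432) (nat_lit 6) (nat_lit 32) (nat_lit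 4) (nat_lit 158) (nat_lit 222) (nat_lit 220)) (PT.lf (nat_lit 2432) (nat_lit 6) (nat_lit 32) (nat_lit 2) (nat_lit 220) (nat_lit 222) (nat_lit 158))) (PT.nd (nat_lit 78) (PT.lf (nat_lit 2356) (nat_lit 6) (nat_lit 31) (nat_lit 2) (nat_lit 221) (nat_lit 222) (nat_lit 157)) (PT.lf (nat_lit 2280) (nat_lit 3) (nat_lit 30) (nat_lit 0) (nat_lit 222) (nat_lit 222) (nat_lit 156))))))) (PT.nd (nat_lit 119496) (PT.nd (nat_lit 62322) (PT.nd (nat_lit 57018) (PT.nd (nat_lit 78) (PT.lf (nat_lit 2128) (nat_lit 6) (nat_lit 28) (nat_lit 0) (nat_lit 223) (nat_lit 222) (nat_lit 155)) (PT.nd (nat_lit 56862) (PT.lf (nat_lit 1976) (nat_lit 6) (nat_lit 26) (nat_lit 0) (nat_lit 224) (nat_lit 222) (nat_lit 154)) (PT.lf (nat_lit 1748) (nat_lit 6) (nat_lit 23) (nat_lit 5) (nat_lit 152) (nat_lit 223) (nat_lit 225)))) (PT.nd (nat_lit 156) (PT.nd (nat_lit 78) (PT.lf (nat_lit 1900) (nat_lit 6) (nat_lit 25) (nat_lit 5) (nat_lit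 153) (nat_lit 223) (nat_lit 224)) (PT.lf (nat_lit 2052) (nat_lit 3) (nat_lit 27) (nat_lit 4) (nat_lit 154) (nat_lit 223) (nat_lit 223))) (PT.nd (nat_lit 78) (PT.lf (nat_lit 2128) (nat_lit 6) (nat_lit 28) (nat_lit 4) (nat_lit 155) (nat_lit 223) (nat_lit 222)) (PT.lf (nat_lit 2204) (nat_lit 6) (nat_lit 29) (nat_lit 4) (nat_lit 156) (nat_lit 223) (nat_lit 221))))) (PT.nd (nat_lit 312) (PT.nd (nat_lit 156) (PT.nd (nat_lit 78) (PT.lf (nat_lit 2204) (nat_lit 6) (nat_lit 29) (nat_lit 2) (nat_lit 221) (nat_lit 223) (nat_lit 156)) (PT.lf (nat_lit 2128) (nat_lit 6) (nat_lit 28) (nat_lit 2) (nat_lit 222) (nat_lit 223) (nat_lit 155))) (PT.nd (nat_lit 78) (PT.lf (nat_lit 2052) (nat_lit 3) (nat_lit 27) (nat_lit 0) (nat_lit 223) (nat_lit 223) (nat_lit 154)) (PT.lf (nat_lit 1900) (nat_lit 6) (nat_lit 25) (nat_lit 0) (nat_lit 224) (nat_lit 223) (nat_lit 153)))) (PT.nd (nat_lit 56706) (PT.nd (nat_lit 56628)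 (PT.lf (nat_lit 1748) (nat_lit 6) (nat_lit 23) (nat_lit 0) (nat_lit 225) (nat_lit 223) (nat_lit 152)) (PT.lf (nat_lit 1520) (nat_lit 6) (nat_lit 20) (nat_lit 5) (nat_lit 150) (nat_lit 224) (nat_lit 226))) (PT.nd (nat_lit 78) (PT.lf (nat_lit 1672) (nat_lit 6) (nat_lit 22) (nat_lit 5) (nat_lit 151) (nat_lit 224) (nat_lit 225)) (PT.lf (nat_lit 1824) (nat_lit 3) (nat_lit 24) (nat_lit 4) (nat_lit 152) (nat_lit 224) (nat_lit 224)))))) (PT.nd (nat_lit 62166) (PT.nd (nat_lit 5538) (PT.nd (nat_lit 5382) (PT.nd (nat_lit 78) (PT.lf (nat_lit 1900) (nat_lit 6) (nat_lit 25) (nat_lit 4) (nat_lit 153) (nat_lit 224) (nat_lit 223)) (PT.lf (nat_lit 1976) (nat_lit 6) (nat_lit 26) (nat_lit 4) (nat_lit 154) (nat_lit 224) (nat_lit 222))) (PT.nd (nat_lit 78) (PT.lf (nat_lit 1976) (nat_lit 6) (nat_lit 26) (nat_lit 2) (nat_lit 222) (nat_lit 224) (nat_lit 154)) (PT.lf (nat_lit 1900) (nat_lit 6) (nat_lit 25) (nat_lit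 2) (nat_lit 223) (nat_lit 224) (nat_lit 153)))) (PT.nd (nat_lit 156) (PT.nd (nat_lit 78) (PT.lf (nat_lit 1824) (nat_lit 3) (nat_lit 24) (nat_lit 0) (nat_lit 224) (nat_lit 224) (nat_lit 152)) (PT.lf (nat_lit 1672) (nat_lit 6) (nat_lit 22) (nat_lit 0) (nat_lit 225) (nat_lit 224) (nat_lit 151))) (PT.nd (nat_lit 56394) (PT.lf (nat_lit 1520) (nat_lit 6) (nat_lit 20) (nat_lit 0) (nat_lit 226) (nat_lit 224) (nat_lit 150)) (PT.lf (nat_lit 1292) (nat_lit 6) (nat_lit 17) (nat_lit 5) (nat_lit 148) (nat_lit 225) (nat_lit 227))))) (PT.nd (nat_lit 5772) (PT.nd (nat_lit 156) (PT.nd (nat_lit 78) (PT.lf (nat_lit 1444) (nat_lit 6) (nat_lit 19) (nat_lit 5) (nat_lit 149) (nat_lit 225) (nat_lit 226)) (PT.lf (nat_lit 1596) (nat_lit 3) (nat_lit 21) (nat_lit 4) (nat_lit 150) (nat_lit 225) (nat_lit 225))) (PT.nd (nat_lit 78) (PT.lf (nat_lit 1672) (nat_lit 6) (nat_lit 22) (nat_lit 4) (nat_lit 151) (nat_lit 225) (nat_lit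 224)) (PT.lf (nat_lit 1748) (nat_lit 6) (nat_lit 23) (nat_lit 4) (nat_lit 152) (nat_lit 225) (nat_lit 223)))) (PT.nd (nat_lit 156) (PT.nd (nat_lit 78) (PT.lf (nat_lit 1748) (nat_lit 6) (nat_lit 23) (nat_lit 2) (nat_lit 223) (nat_lit 225) (nat_lit 152)) (PT.lf (nat_lit 1672) (nat_lit 6) (nat_lit 22) (nat_lit 2) (nat_lit 224) (nat_lit 225) (nat_lit 151))) (PT.nd (nat_lit 78) (PT.lf (nat_lit 1596) (nat_lit 3) (nat_lit 21) (nat_lit 0) (nat_lit 225) (nat_lit 225) (nat_lit 150)) (PT.lf (nat_lit 1444) (nat_lit 6) (nat_lit 19) (nat_lit 0) (nat_lit 226) (nat_lit 225) (nat_lit 149))))))))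
noncomputable def pc15 : PT := (PT.nd (nat_lit 243126) (PT.nd (nat_lit 118794) (PT.nd (nat_lit 62322) (PT.nd (nat_lit 56316) (PT.nd (nat_lit 56160) (PT.lf (nat_lit 1292) (nat_lit 6) (nat_lit 17) (nat_lit 0) (nat_lit 227) (nat_lit 225) (nat_lit 148)) (PT.nd (nat_lit 78) (PT.lf (nat_lit 1064) (nat_lit 6) (nat_lit 14) (nat_lit 5) (nat_lit 146) (nat_lit 226) (nat_lit 228)) (PT.lf (nat_lit 1216) (nat_lit 6) (nat_lit 16) (nat_lit 5) (nat_lit 147) (nat_lit 226) (nat_lit 227)))) (PT.nd (nat_lit 156) (PT.nd (nat_lit 78) (PT.lf (nat_lit 1368) (nat_lit 3) (nat_lit 18) (nat_lit 4) (nat_lit 148) (nat_lit 226) (nat_lit 226)) (PT.lf (nat_lit 1444) (nat_lit 6) (nat_lit 19) (nat_lit 4) (nat_lit 149) (nat_lit 226) (nat_lit 225))) (PT.nd (nat_lit 5772) (PT.lf (nat_lit 1520) (nat_lit 6) (nat_lit 20) (nat_lit 4) (nat_lit 150) (nat_lit 226) (nat_lit 224)) (PT.lf (nat_lit 1520) (nat_lit 6) (nat_lit 20) (nat_lit 2)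 (nat_lit 224) (nat_lit 226) (nat_lit 150))))) (PT.nd (nat_lit 56160) (PT.nd (nat_lit 156) (PT.nd (nat_lit 78) (PT.lf (nat_lit 1444) (nat_lit 6) (nat_lit 19) (nat_lit 2) (nat_lit 225) (nat_lit 226) (nat_lit 149)) (PT.lf (nat_lit 1368) (nat_lit 3) (nat_lit 18) (nat_lit 0) (nat_lit 226) (nat_lit 226) (nat_lit 148))) (PT.nd (nat_lit 78) (PT.lf (nat_lit 1216) (nat_lit 6) (nat_lit 16) (nat_lit 0) (nat_lit 227) (nat_lit 226) (nat_lit 147)) (PT.lf (nat_lit 1064) (nat_lit 6) (nat_lit 14) (nat_lit 0) (nat_lit 228) (nat_lit 226) (nat_lit 146)))) (PT.nd (nat_lit 156) (PT.nd (nat_lit 78) (PT.lf (nat_lit 836) (nat_lit 6) (nat_lit 11) (nat_lit 5) (nat_lit 144) (nat_lit 227) (nat_lit 229)) (PT.lf (nat_lit 988) (nat_lit 6) (nat_lit 13) (nat_lit 5) (nat_lit 145) (nat_lit 227) (nat_lit 228))) (PT.nd (nat_lit 78) (PT.lf (nat_lit 1140) (nat_lit 3) (nat_lit 15) (nat_lit 4) (nat_lit 146) (nat_lit 227) (nat_lit 227))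 (PT.lf (nat_lit 1216) (nat_lit 6) (nat_lit 16) (nat_lit 4) (nat_lit 147) (nat_lit 227) (nat_lit 226)))))) (PT.nd (nat_lit 62166) (PT.nd (nat_lit 6240) (PT.nd (nat_lit 6084) (PT.nd (nat_lit 6006) (PT.lf (nat_lit 1292) (nat_lit 6) (nat_lit 17) (nat_lit 4) (nat_lit 148) (nat_lit 227) (nat_lit 225)) (PT.lf (nat_lit 1292) (nat_lit 6) (nat_lit 17) (nat_lit 2) (nat_lit 225) (nat_lit 227) (nat_lit 148))) (PT.nd (nat_lit 78) (PT.lf (nat_lit 1216) (nat_lit 6) (nat_lit 16) (nat_lit 2) (nat_lit 226) (nat_lit 227) (nat_lit 147)) (PT.lf (nat_lit 1140) (nat_lit 3) (nat_lit 15) (nat_lit 0) (nat_lit 227) (nat_lit 227) (nat_lit 146)))) (PT.nd (nat_lit 55770) (PT.nd (nat_lit 78) (PT.lf (nat_lit 988) (nat_lit 6) (nat_lit 13) (nat_lit 0) (nat_lit 228) (nat_lit 227) (nat_lit 145)) (PT.lf (nat_lit 836) (nat_lit 6) (nat_lit 11) (nat_lit 0) (nat_lit 229) (nat_lit 227) (nat_lit 144))) (PT.nd (nat_lit 78) (PT.lf (nat_lit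 608) (nat_lit 6) (nat_lit 8) (nat_lit 5) (nat_lit 142) (nat_lit 228) (nat_lit 230)) (PT.lf (nat_lit 760) (nat_lit 6) (nat_lit 10) (nat_lit 5) (nat_lit 143) (nat_lit 228) (nat_lit 229))))) (PT.nd (nat_lit 6474) (PT.nd (nat_lit 156) (PT.nd (nat_lit 78) (PT.lf (nat_lit 912) (nat_lit 3) (nat_lit 12) (nat_lit 4) (nat_lit 144) (nat_lit 228) (nat_lit 228)) (PT.lf (nat_lit 988) (nat_lit 6) (nat_lit 13) (nat_lit 4) (nat_lit 145) (nat_lit 228) (nat_lit 227))) (PT.nd (nat_lit 6240) (PT.lf (nat_lit 1064) (nat_lit 6) (nat_lit 14) (nat_lit 4) (nat_lit 146) (nat_lit 228) (nat_lit 226)) (PT.lf (nat_lit 1064) (nat_lit 6) (nat_lit 14) (nat_lit 2) (nat_lit 226) (nat_lit 228) (nat_lit 146)))) (PT.nd (nat_lit 156) (PT.nd (nat_lit 78) (PT.lf (nat_lit 988) (nat_lit 6) (nat_lit 13) (nat_lit 2) (nat_lit 227) (nat_lit 228) (nat_lit 145)) (PT.lf (nat_lit 912) (nat_lit 3) (nat_lit 12) (nat_lit 0) (nat_lit 228) (nat_lit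 228) (nat_lit 144))) (PT.nd (nat_lit 78) (PT.lf (nat_lit 760) (nat_lit 6) (nat_lit 10) (nat_lit 0) (nat_lit 229) (nat_lit 228) (nat_lit 143)) (PT.lf (nat_lit 608) (nat_lit 6) (nat_lit 8) (nat_lit 0) (nat_lit 230) (nat_lit 228) (nat_lit 142))))))) (PT.nd (nat_lit 69420) (PT.nd (nat_lit 7020) (PT.nd (nat_lit 312) (PT.nd (nat_lit 156) (PT.nd (nat_lit 78) (PT.lf (nat_lit 380) (nat_lit 6) (nat_lit 5) (nat_lit 5) (nat_lit 140) (nat_lit 229) (nat_lit 231)) (PT.lf (nat_lit 532) (nat_lit 6) (nat_lit 7) (nat_lit 5) (nat_lit 141) (nat_lit 229) (nat_lit 230))) (PT.nd (nat_lit 78) (PT.lf (nat_lit 684) (nat_lit 3) (nat_lit 9) (nat_lit 4) (nat_lit 142) (nat_lit 229) (nat_lit 229)) (PT.lf (nat_lit 760) (nat_lit 6) (nat_lit 10) (nat_lit 4) (nat_lit 143) (nat_lit 229) (nat_lit 228)))) (PT.nd (nat_lit 6552) (PT.nd (nat_lit 6474) (PT.lf (nat_lit 836) (nat_lit 6) (nat_lit 11) (nat_lit 4) (nat_lit 144) (nat_lit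 229) (nat_lit 227)) (PT.lf (nat_lit 836) (nat_lit 6) (nat_lit 11) (nat_lit 2) (nat_lit 227) (nat_lit 229) (nat_lit 144))) (PT.nd (nat_lit 78) (PT.lf (nat_lit 760) (nat_lit 6) (nat_lit 10) (nat_lit 2) (nat_lit 228) (nat_lit 229) (nat_lit 143)) (PT.lf (nat_lit 684) (nat_lit 3) (nat_lit 9) (nat_lit 0) (nat_lit 229) (nat_lit 229) (nat_lit 142))))) (PT.nd (nat_lit 55458) (PT.nd (nat_lit 55302) (PT.nd (nat_lit 78) (PT.lf (nat_lit 532) (nat_lit 6) (nat_lit 7) (nat_lit 0) (nat_lit 230) (nat_lit 229) (nat_lit 141)) (PT.lf (nat_lit 380) (nat_lit 6) (nat_lit 5) (nat_lit 0) (nat_lit 231) (nat_lit 229) (nat_lit 140))) (PT.nd (nat_lit 78) (PT.lf (nat_lit 152) (nat_lit 6) (nat_lit 2) (nat_lit 5) (nat_lit 138) (nat_lit 230) (nat_lit 232)) (PT.lf (nat_lit 304) (nat_lit 6) (nat_lit 4) (nat_lit 5) (nat_lit 139) (nat_lit 230) (nat_lit 231)))) (PT.nd (nat_lit 156) (PT.nd (nat_lit 78) (PT.lf (nat_lit 456) (nat_lit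 3) (nat_lit 6) (nat_lit 4) (nat_lit 140) (nat_lit 230) (nat_lit 230)) (PT.lf (nat_lit 532) (nat_lit 6) (nat_lit 7) (nat_lit 4) (nat_lit 141) (nat_lit 230) (nat_lit 229))) (PT.nd (nat_lit 6708) (PT.lf (nat_lit 608) (nat_lit 6) (nat_lit 8) (nat_lit 4) (nat_lit 142) (nat_lit 230) (nat_lit 228)) (PT.lf (nat_lit 608) (nat_lit 6) (nat_lit 8) (nat_lit 2) (nat_lit 228) (nat_lit 230) (nat_lit 142)))))) (PT.nd (nat_lit 62478) (PT.nd (nat_lit 55302) (PT.nd (nat_lit 156) (PT.nd (nat_lit 78) (PT.lf (nat_lit 532) (nat_lit 6) (nat_lit 7) (nat_lit 2) (nat_lit 229) (nat_lit 230) (nat_lit 141)) (PT.lf (nat_lit 456) (nat_lit 3) (nat_lit 6) (nat_lit 0) (nat_lit 230) (nat_lit 230) (nat_lit 140))) (PT.nd (nat_lit 78) (PT.lf (nat_lit 304) (nat_lit 6) (nat_lit 4) (nat_lit 0) (nat_lit 231) (nat_lit 230) (nat_lit 139)) (PT.lf (nat_lit 152) (nat_lit 6) (nat_lit 2) (nat_lit 0) (nat_lit 232) (nat_lit 230) (nat_lit 138))))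 (PT.nd (nat_lit 156) (PT.nd (nat_lit 78) (PT.lf (nat_lit 76) (nat_lit 6) (nat_lit 1) (nat_lit 5) (nat_lit 137) (nat_lit 231) (nat_lit 232)) (PT.lf (nat_lit 228) (nat_lit 3) (nat_lit 3) (nat_lit 4) (nat_lit 138) (nat_lit 231) (nat_lit 231))) (PT.nd (nat_lit 78) (PT.lf (nat_lit 304) (nat_lit 6) (nat_lit 4) (nat_lit 4) (nat_lit 139) (nat_lit 231) (nat_lit 230)) (PT.lf (nat_lit 380) (nat_lit 6) (nat_lit 5) (nat_lit 4) (nat_lit 140) (nat_lit 231) (nat_lit 229))))) (PT.nd (nat_lit 55302) (PT.nd (nat_lit 156) (PT.nd (nat_lit 78) (PT.lf (nat_lit 380) (nat_lit 6) (nat_lit 5) (nat_lit 2) (nat_lit 229) (nat_lit 231) (nat_lit 140)) (PT.lf (nat_lit 304) (nat_lit 6) (nat_lit 4) (nat_lit 2) (nat_lit 230) (nat_lit 231) (nat_lit 139))) (PT.nd (nat_lit 78) (PT.lf (nat_lit 228) (nat_lit 3) (nat_lit 3) (nat_lit 0) (nat_lit 231) (nat_lit 231) (nat_lit 138)) (PT.lf (nat_lit 76) (nat_lit 6) (nat_lit 1) (nat_lit 0)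 (nat_lit 232) (nat_lit 231) (nat_lit 137)))) (PT.nd (nat_lit 7254) (PT.nd (nat_lit 78) (PT.lf (nat_lit 76) (nat_lit 6) (nat_lit 1) (nat_lit 4) (nat_lit 137) (nat_lit 232) (nat_lit 231)) (PT.lf (nat_lit 152) (nat_lit 6) (nat_lit 2) (nat_lit 4) (nat_lit 138) (nat_lit 232) (nat_lit 230))) (PT.nd (nat_lit 78) (PT.lf (nat_lit 152) (nat_lit 6) (nat_lit 2) (nat_lit 2) (nat_lit 230) (nat_lit 232) (nat_lit 138)) (PT.lf (nat_lit 76) (nat_lit 6) (nat_lit 1) (nat_lit 2) (nat_lit 231) (nat_lit 232) (nat_lit 137))))))))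
noncomputable def xc0 : XT := (XT.nd (nat_lit 249990) (nat_lit 0) (nat_lit 0) (XT.nd (nat_lit 187200) (nat_lit 0) (nat_lit 0) (XT.nd (nat_lit 124800) (nat_lit 0) (nat_lit 0) (XT.nd (nat_lit 62478) (nat_lit 0) (nat_lit 0) (XT.nd (nat_lit 78) (nat_lit 0) (nat_lit 0) (XT.lf (nat_lit 0) (nat_lit 170415811446) (nat_lit 152) (nat_lit 88768153679) (nat_lit 0) (nat_lit 170415811446) (nat_lit 1) (nat_lit 5) (nat_lit 3) (nat_lit 4) (nat_lit 1) (nat_lit 4) (nat_lit 546) (nat_lit 327) (nat_lit 327)) (XT.nd (nat_lit 62322) (nat_lit 0) (nat_lit 0) (XT.lf (nat_lit 0) (nat_lit 359777051536) (nat_lit 152) (nat_lit 182528118267) (nat_lit 0) (nat_lit 359758146350) (nat_lit 1) (nat_lit 5) (nat_lit 3) (nat_lit 4) (nat_lit 1) (nat_lit 4) (nat_lit 547) (nat_lit 327) (nat_lit 326)) (XT.lf (nat_lit 0) (nat_lit 322747630684) (nat_lit 152) (nat_lit 172904540581) (nat_lit 0) (nat_lit 322727780239) (nat_lit 1) (nat_lit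 5) (nat_lit 3) (nat_lit 4) (nat_lit 1) (nat_lit 4) (nat_lit 545) (nat_lit 328) (nat_lit 327)))) (XT.nd (nat_lit 62166) (nat_lit 0) (nat_lit 0) (XT.nd (nat_lit 78) (nat_lit 0) (nat_lit 0) (XT.lf (nat_lit 0) (nat_lit 340820445951) (nat_lit 152) (nat_lit 177598968720) (nat_lit 0) (nat_lit 340781690320) (nat_lit 1) (nat_lit 5) (nat_lit 3) (nat_lit 4) (nat_lit 1) (nat_lit 4) (nat_lit 546) (nat_lit 328) (nat_lit 326)) (XT.lf (nat_lit 0) (nat_lit 359736324703) (nat_lit 152) (nat_lit 182650457117) (nat_lit 0) (nat_lit 359679564133) (nat_lit 1) (nat_lit 5) (nat_lit 3) (nat_lit 4) (nat_lit 1) (nat_lit 4) (nat_lit 547) (nat_lit 328) (nat_lit 325))) (XT.nd (nat_lit 78) (nat_lit 0) (nat_lit 0) (XT.lf (nat_lit 0) (nat_lit 136610868808) (nat_lit 152) (nat_lit 80393427229) (nat_lit 0) (nat_lit 136610868808) (nat_lit 1) (nat_lit 5) (nat_lit 3) (nat_lit 4) (nat_lit 1) (nat_lit 4) (nat_lit 542) (nat_lit 329)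 (nat_lit 329)) (XT.lf (nat_lit 0) (nat_lit 288981816365) (nat_lit 152) (nat_lit 164542979765) (nat_lit 0) (nat_lit 288960973397) (nat_lit 1) (nat_lit 5) (nat_lit 3) (nat_lit 4) (nat_lit 1) (nat_lit 4) (nat_lit 543) (nat_lit 329) (nat_lit 328))))) (XT.nd (nat_lit 234) (nat_lit 0) (nat_lit 0) (XT.nd (nat_lit 78) (nat_lit 0) (nat_lit 0) (XT.lf (nat_lit 0) (nat_lit 305463112602) (nat_lit 152) (nat_lit 168621789919) (nat_lit 0) (nat_lit 305422419190) (nat_lit 1) (nat_lit 5) (nat_lit 3) (nat_lit 4) (nat_lit 1) (nat_lit 4) (nat_lit 544) (nat_lit 329) (nat_lit 327)) (XT.nd (nat_lit 78) (nat_lit 0) (nat_lit 0) (XT.lf (nat_lit 0) (nat_lit 322704867510) (nat_lit 152) (nat_lit 173032996373) (nat_lit 0) (nat_lit 322645268911) (nat_lit 1) (nat_lit 5) (nat_lit 3) (nat_lit 4) (nat_lit 1) (nat_lit 4) (nat_lit 545) (nat_lit 329) (nat_lit 326)) (XT.lf (nat_lit 0) (nat_lit 340748132885) (nat_lit 152) (nat_lit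 177787102001) (nat_lit 0) (nat_lit 340670529348) (nat_lit 1) (nat_lit 5) (nat_lit 3) (nat_lit 4) (nat_lit 1) (nat_lit 4) (nat_lit 546) (nat_lit 329) (nat_lit 325)))) (XT.nd (nat_lit 62010) (nat_lit 0) (nat_lit 0) (XT.nd (nat_lit 61932) (nat_lit 0) (nat_lit 0) (XT.lf (nat_lit 0) (nat_lit 359635868884) (nat_lit 152) (nat_lit 182895426100) (nat_lit 0) (nat_lit 359541117785) (nat_lit 1) (nat_lit 5) (nat_lit 3) (nat_lit 4) (nat_lit 1) (nat_lit 4) (nat_lit 547) (nat_lit 329) (nat_lit 324)) (XT.lf (nat_lit 0) (nat_lit 121887283815) (nat_lit 152) (nat_lit 77067547205) (nat_lit 0) (nat_lit 121887283815) (nat_lit 1) (nat_lit 5) (nat_lit 3) (nat_lit 4) (nat_lit 1) (nat_lit 4) (nat_lit 540) (nat_lit 330) (nat_lit 330))) (XT.nd (nat_lit 78) (nat_lit 0) (nat_lit 0) (XT.lf (nat_lit 0) (nat_lit 258167237474) (nat_lit 152) (nat_lit 157344470844) (nat_lit 0) (nat_lit 258145352359) (nat_lit 1) (nat_lit 5) (nat_lit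 3) (nat_lit 4) (nat_lit 1) (nat_lit 4) (nat_lit 541) (nat_lit 330) (nat_lit 329)) (XT.lf (nat_lit 0) (nat_lit 273209415038) (nat_lit 152) (nat_lit 160855938610) (nat_lit 0) (nat_lit 273166686955) (nat_lit 1) (nat_lit 5) (nat_lit 3) (nat_lit 4) (nat_lit 1) (nat_lit 4) (nat_lit 542) (nat_lit 330) (nat_lit 328)))))) (XT.nd (nat_lit 62244) (nat_lit 0) (nat_lit 0) (XT.nd (nat_lit 234) (nat_lit 0) (nat_lit 0) (XT.nd (nat_lit 78) (nat_lit 0) (nat_lit 0) (XT.lf (nat_lit 0) (nat_lit 288936915032) (nat_lit 152) (nat_lit 164677858347) (nat_lit 0) (nat_lit 288874336503) (nat_lit 1) (nat_lit 5) (nat_lit 3) (nat_lit 4) (nat_lit 1) (nat_lit 4) (nat_lit 543) (nat_lit 330) (nat_lit 327)) (XT.nd (nat_lit 78) (nat_lit 0) (nat_lit 0) (XT.lf (nat_lit 0) (nat_lit 305387183883) (nat_lit 152) (nat_lit 168819329864) (nat_lit 0) (nat_lit 305305700169) (nat_lit 1) (nat_lit 5) (nat_lit 3) (nat_lit 4) (nat_lit 1) (nat_lit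 4) (nat_lit 544) (nat_lit 330) (nat_lit 326)) (XT.lf (nat_lit 0) (nat_lit 322599388899) (nat_lit 152) (nat_lit 173290213806) (nat_lit 0) (nat_lit 322499900246) (nat_lit 1) (nat_lit 5) (nat_lit 3) (nat_lit 4) (nat_lit 1) (nat_lit 4) (nat_lit 545) (nat_lit 330) (nat_lit 325)))) (XT.nd (nat_lit 61854) (nat_lit 0) (nat_lit 0) (XT.nd (nat_lit 78) (nat_lit 0) (nat_lit 0) (XT.lf (nat_lit 0) (nat_lit 340614511520) (nat_lit 152) (nat_lit 178101155136) (nat_lit 0) (nat_lit 340497875306) (nat_lit 1) (nat_lit 5) (nat_lit 3) (nat_lit 4) (nat_lit 1) (nat_lit 4) (nat_lit 546) (nat_lit 330) (nat_lit 324)) (XT.lf (nat_lit 0) (nat_lit 359475444896) (nat_lit 152) (nat_lit 183263608476) (nat_lit 0) (nat_lit 359342477671) (nat_lit 1) (nat_lit 5) (nat_lit 3) (nat_lit 4) (nat_lit 1) (nat_lit 4) (nat_lit 547) (nat_lit 330) (nat_lit 323))) (XT.nd (nat_lit 78) (nat_lit 0) (nat_lit 0) (XT.lf (nat_lit 0) (nat_lit 108431418135)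 (nat_lit 152) (nat_lit 74258292923) (nat_lit 0) (nat_lit 108431418135) (nat_lit 1) (nat_lit 5) (nat_lit 3) (nat_lit 4) (nat_lit 1) (nat_lit 4) (nat_lit 538) (nat_lit 331) (nat_lit 331)) (XT.lf (nat_lit 0) (nat_lit 230020116619) (nat_lit 152) (nat_lit 151220167938) (nat_lit 0) (nat_lit 229997137248) (nat_lit 1) (nat_lit 5) (nat_lit 3) (nat_lit 4) (nat_lit 1) (nat_lit 4) (nat_lit 539) (nat_lit 331) (nat_lit 330))))) (XT.nd (nat_lit 234) (nat_lit 0) (nat_lit 0) (XT.nd (nat_lit 78) (nat_lit 0) (nat_lit 0) (XT.lf (nat_lit 0) (nat_lit 243761628925) (nat_lit 152) (nat_lit 154207632770) (nat_lit 0) (nat_lit 243716764438) (nat_lit 1) (nat_lit 5) (nat_lit 3) (nat_lit 4) (nat_lit 1) (nat_lit 4) (nat_lit 540) (nat_lit 331) (nat_lit 329)) (XT.nd (nat_lit 78) (nat_lit 0) (nat_lit 0) (XT.lf (nat_lit 0) (nat_lit 258120091075) (nat_lit 152) (nat_lit 157486093355) (nat_lit 0) (nat_lit 258054383620) (nat_lit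 1) (nat_lit 5) (nat_lit 3) (nat_lit 4) (nat_lit 1) (nat_lit 4) (nat_lit 541) (nat_lit 331) (nat_lit 328)) (XT.lf (nat_lit 0) (nat_lit 273129689883) (nat_lit 152) (nat_lit 161063355552) (nat_lit 0) (nat_lit 273044131983) (nat_lit 1) (nat_lit 5) (nat_lit 3) (nat_lit 4) (nat_lit 1) (nat_lit 4) (nat_lit 542) (nat_lit 331) (nat_lit 327)))) (XT.nd (nat_lit 156) (nat_lit 0) (nat_lit 0) (XT.nd (nat_lit 78) (nat_lit 0) (nat_lit 0) (XT.lf (nat_lit 0) (nat_lit 288826162490) (nat_lit 152) (nat_lit 164947936651) (nat_lit 0) (nat_lit 288721699404) (nat_lit 1) (nat_lit 5) (nat_lit 3) (nat_lit 4) (nat_lit 1) (nat_lit 4) (nat_lit 543) (nat_lit 331) (nat_lit 326)) (XT.lf (nat_lit 0) (nat_lit 305246881450) (nat_lit 152) (nat_lit 169149085655) (nat_lit 0) (nat_lit 305124413425) (nat_lit 1) (nat_lit 5) (nat_lit 3) (nat_lit 4) (nat_lit 1) (nat_lit 4) (nat_lit 544) (nat_lit 331) (nat_lit 325))) (XT.nd (nat_lit 78)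 (nat_lit 0) (nat_lit 0) (XT.lf (nat_lit 0) (nat_lit 322430943712) (nat_lit 152) (nat_lit 173676805300) (nat_lit 0) (nat_lit 322291328126) (nat_lit 1) (nat_lit 5) (nat_lit 3) (nat_lit 4) (nat_lit 1) (nat_lit 4) (nat_lit 545) (nat_lit 331) (nat_lit 324)) (XT.lf (nat_lit 0) (nat_lit 340419263711) (nat_lit 152) (nat_lit 178541875871) (nat_lit 0) (nat_lit 340263317114) (nat_lit 1) (nat_lit 5) (nat_lit 3) (nat_lit 4) (nat_lit 1) (nat_lit 4) (nat_lit 546) (nat_lit 331) (nat_lit 323))))))) (XT.nd (nat_lit 124020) (nat_lit 0) (nat_lit 0) (XT.nd (nat_lit 62088) (nat_lit 0) (nat_lit 0) (XT.nd (nat_lit 61776) (nat_lit 0) (nat_lit 0) (XT.nd (nat_lit 61620) (nat_lit 0) (nat_lit 0) (XT.lf (nat_lit 0) (nat_lit 359254670779) (nat_lit 152) (nat_lit 183755880869) (nat_lit 0) (nat_lit 359083170839) (nat_lit 1) (nat_lit 5) (nat_lit 3) (nat_lit 4) (nat_lit 1) (nat_lit 4) (nat_lit 547) (nat_lit 331) (nat_lit 322))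 (XT.nd (nat_lit 78) (nat_lit 0) (nat_lit 0) (XT.lf (nat_lit 0) (nat_lit 96120354239) (nat_lit 152) (nat_lit 71928004266) (nat_lit 0) (nat_lit 96120354239) (nat_lit 1) (nat_lit 5) (nat_lit 3) (nat_lit 4) (nat_lit 1) (nat_lit 4) (nat_lit 536) (nat_lit 332) (nat_lit 332)) (XT.lf (nat_lit 0) (nat_lit 204282589363) (nat_lit 152) (nat_lit 146090449398) (nat_lit 0) (nat_lit 204258461023) (nat_lit 1) (nat_lit 5) (nat_lit 3) (nat_lit 4) (nat_lit 1) (nat_lit 4) (nat_lit 537) (nat_lit 332) (nat_lit 331)))) (XT.nd (nat_lit 156) (nat_lit 0) (nat_lit 0) (XT.nd (nat_lit 78) (nat_lit 0) (nat_lit 0) (XT.lf (nat_lit 0) (nat_lit 216849250630) (nat_lit 152) (nat_lit 148592751125) (nat_lit 0) (nat_lit 216802142918) (nat_lit 1) (nat_lit 5) (nat_lit 3) (nat_lit 4) (nat_lit 1) (nat_lit 4) (nat_lit 538) (nat_lit 332) (nat_lit 330)) (XT.lf (nat_lit 0) (nat_lit 229970612900) (nat_lit 152) (nat_lit 151368871575) (nat_lit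 0) (nat_lit 229901620072) (nat_lit 1) (nat_lit 5) (nat_lit 3) (nat_lit 4) (nat_lit 1) (nat_lit 4) (nat_lit 539) (nat_lit 332) (nat_lit 329))) (XT.nd (nat_lit 78) (nat_lit 0) (nat_lit 0) (XT.lf (nat_lit 0) (nat_lit 243677917512) (nat_lit 152) (nat_lit 154425420559) (nat_lit 0) (nat_lit 243588081717) (nat_lit 1) (nat_lit 5) (nat_lit 3) (nat_lit 4) (nat_lit 1) (nat_lit 4) (nat_lit 540) (nat_lit 332) (nat_lit 328)) (XT.lf (nat_lit 0) (nat_lit 258003800906) (nat_lit 152) (nat_lit 157769675575) (nat_lit 0) (nat_lit 257894114666) (nat_lit 1) (nat_lit 5) (nat_lit 3) (nat_lit 4) (nat_lit 1) (nat_lit 4) (nat_lit 541) (nat_lit 332) (nat_lit 327))))) (XT.nd (nat_lit 234) (nat_lit 0) (nat_lit 0) (XT.nd (nat_lit 78) (nat_lit 0) (nat_lit 0) (XT.lf (nat_lit 0) (nat_lit 272982372329) (nat_lit 152) (nat_lit 161409599134) (nat_lit 0) (nat_lit 272853780902) (nat_lit 1) (nat_lit 5) (nat_lit 3) (nat_lit 4) (nat_lit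 1) (nat_lit 4) (nat_lit 542) (nat_lit 332) (nat_lit 326)) (XT.nd (nat_lit 78) (nat_lit 0) (nat_lit 0) (XT.lf (nat_lit 0) (nat_lit 288649295044) (nat_lit 152) (nat_lit 165353857720) (nat_lit 0) (nat_lit 288502698679) (nat_lit 1) (nat_lit 5) (nat_lit 3) (nat_lit 4) (nat_lit 1) (nat_lit 4) (nat_lit 543) (nat_lit 332) (nat_lit 325)) (XT.lf (nat_lit 0) (nat_lit 305041871250) (nat_lit 152) (nat_lit 169611842427) (nat_lit 0) (nat_lit 304878127324) (nat_lit 1) (nat_lit 5) (nat_lit 3) (nat_lit 4) (nat_lit 1) (nat_lit 4) (nat_lit 544) (nat_lit 332) (nat_lit 324)))) (XT.nd (nat_lit 156) (nat_lit 0) (nat_lit 0) (XT.nd (nat_lit 78) (nat_lit 0) (nat_lit 0) (XT.lf (nat_lit 0) (nat_lit 322199130889) (nat_lit 152) (nat_lit 174193691313) (nat_lit 0) (nat_lit 322019055953) (nat_lit 1) (nat_lit 5) (nat_lit 3) (nat_lit 4) (nat_lit 1) (nat_lit 4) (nat_lit 545) (nat_lit 332) (nat_lit 323)) (XT.lf (nat_lit 0) (nat_lit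 340161924581) (nat_lit 152) (nat_lit 179110313541) (nat_lit 0) (nat_lit 339966296301) (nat_lit 1) (nat_lit 5) (nat_lit 3) (nat_lit 4) (nat_lit 1) (nat_lit 4) (nat_lit 546) (nat_lit 332) (nat_lit 322))) (XT.nd (nat_lit 61464) (nat_lit 0) (nat_lit 0) (XT.lf (nat_lit 0) (nat_lit 358973020880) (nat_lit 152) (nat_lit 184373415356) (nat_lit 0) (nat_lit 358762579892) (nat_lit 1) (nat_lit 5) (nat_lit 3) (nat_lit 4) (nat_lit 1) (nat_lit 4) (nat_lit 547) (nat_lit 332) (nat_lit 321)) (XT.lf (nat_lit 0) (nat_lit 84842349453) (nat_lit 152) (nat_lit 70043040939) (nat_lit 0) (nat_lit 84842349453) (nat_lit 1) (nat_lit 5) (nat_lit 3) (nat_lit 4) (nat_lit 1) (nat_lit 4) (nat_lit 534) (nat_lit 333) (nat_lit 333)))))) (XT.nd (nat_lit 546) (nat_lit 0) (nat_lit 0) (XT.nd (nat_lit 234) (nat_lit 0) (nat_lit 0) (XT.nd (nat_lit 78) (nat_lit 0) (nat_lit 0) (XT.lf (nat_lit 0) (nat_lit 180720271586) (nat_lit 152) (nat_lit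 141884108433) (nat_lit 0) (nat_lit 180694936829) (nat_lit 1) (nat_lit 5) (nat_lit 3) (nat_lit 4) (nat_lit 1) (nat_lit 4) (nat_lit 535) (nat_lit 333) (nat_lit 332)) (XT.nd (nat_lit 78) (nat_lit 0) (nat_lit 0) (XT.lf (nat_lit 0) (nat_lit 192226443554) (nat_lit 152) (nat_lit 143935982074) (nat_lit 0) (nat_lit 192176980457) (nat_lit 1) (nat_lit 5) (nat_lit 3) (nat_lit 4) (nat_lit 1) (nat_lit 4) (nat_lit 536) (nat_lit 333) (nat_lit 331)) (XT.lf (nat_lit 0) (nat_lit 204230610457) (nat_lit 152) (nat_lit 146246588217) (nat_lit 0) (nat_lit 204158167988) (nat_lit 1) (nat_lit 5) (nat_lit 3) (nat_lit 4) (nat_lit 1) (nat_lit 4) (nat_lit 537) (nat_lit 333) (nat_lit 330)))) (XT.nd (nat_lit 156) (nat_lit 0) (nat_lit 0) (XT.nd (nat_lit 78) (nat_lit 0) (nat_lit 0) (XT.lf (nat_lit 0) (nat_lit 216761353646) (nat_lit 152) (nat_lit 148821428303) (nat_lit 0) (nat_lit 216667026061) (nat_lit 1) (nat_lit 5) (nat_lit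 3) (nat_lit 4) (nat_lit 1) (nat_lit 4) (nat_lit 538) (nat_lit 333) (nat_lit 329)) (XT.lf (nat_lit 0) (nat_lit 229848508223) (nat_lit 152) (nat_lit 151666632905) (nat_lit 0) (nat_lit 229733337670) (nat_lit 1) (nat_lit 5) (nat_lit 3) (nat_lit 4) (nat_lit 1) (nat_lit 4) (nat_lit 539) (nat_lit 333) (nat_lit 328))) (XT.nd (nat_lit 78) (nat_lit 0) (nat_lit 0) (XT.lf (nat_lit 0) (nat_lit 243523234080) (nat_lit 152) (nat_lit 154788976320) (nat_lit 0) (nat_lit 243388213082) (nat_lit 1) (nat_lit 5) (nat_lit 3) (nat_lit 4) (nat_lit 1) (nat_lit 4) (nat_lit 540) (nat_lit 333) (nat_lit 327)) (XT.lf (nat_lit 0) (nat_lit 257818090088) (nat_lit 152) (nat_lit 158195892697) (nat_lit 0) (nat_lit 257664163904) (nat_lit 1) (nat_lit 5) (nat_lit 3) (nat_lit 4) (nat_lit 1) (nat_lit 4) (nat_lit 541) (nat_lit 333) (nat_lit 326))))) (XT.nd (nat_lit 234) (nat_lit 0) (nat_lit 0) (XT.nd (nat_lit 78) (nat_lit 0) (nat_lit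 0) (XT.lf (nat_lit 0) (nat_lit 272767111619) (nat_lit 152) (nat_lit 161895493744) (nat_lit 0) (nat_lit 272595180496) (nat_lit 1) (nat_lit 5) (nat_lit 3) (nat_lit 4) (nat_lit 1) (nat_lit 4) (nat_lit 542) (nat_lit 333) (nat_lit 325)) (XT.nd (nat_lit 78) (nat_lit 0) (nat_lit 0) (XT.lf (nat_lit 0) (nat_lit 288405891580) (nat_lit 152) (nat_lit 165896588034) (nat_lit 0) (nat_lit 288216812897) (nat_lit 1) (nat_lit 5) (nat_lit 3) (nat_lit 4) (nat_lit 1) (nat_lit 4) (nat_lit 543) (nat_lit 333) (nat_lit 324)) (XT.lf (nat_lit 0) (nat_lit 304771665163) (nat_lit 152) (nat_lit 170208701981) (nat_lit 0) (nat_lit 304566255469) (nat_lit 1) (nat_lit 5) (nat_lit 3) (nat_lit 4) (nat_lit 1) (nat_lit 4) (nat_lit 544) (nat_lit 333) (nat_lit 323)))) (XT.nd (nat_lit 156) (nat_lit 0) (nat_lit 0) (XT.nd (nat_lit 78) (nat_lit 0) (nat_lit 0) (XT.lf (nat_lit 0) (nat_lit 321903398495) (nat_lit 152) (nat_lit 174842102525)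 (nat_lit 0) (nat_lit 321682435458) (nat_lit 1) (nat_lit 5) (nat_lit 3) (nat_lit 4) (nat_lit 1) (nat_lit 4) (nat_lit 545) (nat_lit 333) (nat_lit 322)) (XT.lf (nat_lit 0) (nat_lit 339841881417) (nat_lit 152) (nat_lit 179807821570) (nat_lit 0) (nat_lit 339606105672) (nat_lit 1) (nat_lit 5) (nat_lit 3) (nat_lit 4) (nat_lit 1) (nat_lit 4) (nat_lit 546) (nat_lit 333) (nat_lit 321))) (XT.nd (nat_lit 61308) (nat_lit 0) (nat_lit 0) (XT.lf (nat_lit 0) (nat_lit 358629824603) (nat_lit 152) (nat_lit 185117682258) (nat_lit 0) (nat_lit 358379941517) (nat_lit 1) (nat_lit 5) (nat_lit 3) (nat_lit 4) (nat_lit 1) (nat_lit 4) (nat_lit 547) (nat_lit 333) (nat_lit 320)) (XT.lf (nat_lit 0) (nat_lit 74495784388) (nat_lit 152) (nat_lit 68573434673) (nat_lit 0) (nat_lit 74495784388) (nat_lit 1) (nat_lit 5) (nat_lit 3) (nat_lit 4) (nat_lit 1) (nat_lit 4) (nat_lit 532) (nat_lit 334) (nat_lit 334))))))))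
noncomputable def xc1 : XT := (XT.nd (nat_lit 63258) (nat_lit 0) (nat_lit 0) (XT.nd (nat_lit 1092) (nat_lit 0) (nat_lit 0) (XT.nd (nat_lit 546) (nat_lit 0) (nat_lit 0) (XT.nd (nat_lit 234) (nat_lit 0) (nat_lit 0) (XT.nd (nat_lit 78) (nat_lit 0) (nat_lit 0) (XT.lf (nat_lit 0) (nat_lit 159120051837) (nat_lit 152) (nat_lit 138537621396) (nat_lit 0) (nat_lit 159093450342) (nat_lit 1) (nat_lit 5) (nat_lit 3) (nat_lit 4) (nat_lit 1) (nat_lit 4) (nat_lit 533) (nat_lit 334) (nat_lit 333)) (XT.nd (nat_lit 78) (nat_lit 0) (nat_lit 0) (XT.lf (nat_lit 0) (nat_lit 169669720737) (nat_lit 152) (nat_lit 140170054097) (nat_lit 0) (nat_lit 169617784484) (nat_lit 1) (nat_lit 5) (nat_lit 3) (nat_lit 4) (nat_lit 1) (nat_lit 4) (nat_lit 534) (nat_lit 334) (nat_lit 332)) (XT.lf (nat_lit 0) (nat_lit 180665693735) (nat_lit 152) (nat_lit 142048054192) (nat_lit 0) (nat_lit 180589629143) (nat_lit 1) (nat_lit 5) (nat_lit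 3) (nat_lit 4) (nat_lit 1) (nat_lit 4) (nat_lit 535) (nat_lit 334) (nat_lit 331)))) (XT.nd (nat_lit 156) (nat_lit 0) (nat_lit 0) (XT.nd (nat_lit 78) (nat_lit 0) (nat_lit 0) (XT.lf (nat_lit 0) (nat_lit 192134151721) (nat_lit 152) (nat_lit 144176093111) (nat_lit 0) (nat_lit 192035107757) (nat_lit 1) (nat_lit 5) (nat_lit 3) (nat_lit 4) (nat_lit 1) (nat_lit 4) (nat_lit 536) (nat_lit 334) (nat_lit 330)) (XT.lf (nat_lit 0) (nat_lit 204102400547) (nat_lit 152) (nat_lit 146559237613) (nat_lit 0) (nat_lit 203981471467) (nat_lit 1) (nat_lit 5) (nat_lit 3) (nat_lit 4) (nat_lit 1) (nat_lit 4) (nat_lit 537) (nat_lit 334) (nat_lit 329))) (XT.nd (nat_lit 78) (nat_lit 0) (nat_lit 0) (XT.lf (nat_lit 0) (nat_lit 216598936042) (nat_lit 152) (nat_lit 149203161851) (nat_lit 0) (nat_lit 216457163995) (nat_lit 1) (nat_lit 5) (nat_lit 3) (nat_lit 4) (nat_lit 1) (nat_lit 4) (nat_lit 538) (nat_lit 334) (nat_lit 328))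 (XT.lf (nat_lit 0) (nat_lit 229653511863) (nat_lit 152) (nat_lit 152114160884) (nat_lit 0) (nat_lit 229491889371) (nat_lit 1) (nat_lit 5) (nat_lit 3) (nat_lit 4) (nat_lit 1) (nat_lit 4) (nat_lit 539) (nat_lit 334) (nat_lit 327))))) (XT.nd (nat_lit 234) (nat_lit 0) (nat_lit 0) (XT.nd (nat_lit 78) (nat_lit 0) (nat_lit 0) (XT.lf (nat_lit 0) (nat_lit 243297210334) (nat_lit 152) (nat_lit 155299165661) (nat_lit 0) (nat_lit 243116682656) (nat_lit 1) (nat_lit 5) (nat_lit 3) (nat_lit 4) (nat_lit 1) (nat_lit 4) (nat_lit 540) (nat_lit 334) (nat_lit 326)) (XT.nd (nat_lit 78) (nat_lit 0) (nat_lit 0) (XT.lf (nat_lit 0) (nat_lit 257562516451) (nat_lit 152) (nat_lit 158765759526) (nat_lit 0) (nat_lit 257363983833) (nat_lit 1) (nat_lit 5) (nat_lit 3) (nat_lit 4) (nat_lit 1) (nat_lit 4) (nat_lit 541) (nat_lit 334) (nat_lit 325)) (XT.lf (nat_lit 0) (nat_lit 272483395227) (nat_lit 152) (nat_lit 162522196276) (nat_lit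 0) (nat_lit 272267715049) (nat_lit 1) (nat_lit 5) (nat_lit 3) (nat_lit 4) (nat_lit 1) (nat_lit 4) (nat_lit 542) (nat_lit 334) (nat_lit 324)))) (XT.nd (nat_lit 156) (nat_lit 0) (nat_lit 0) (XT.nd (nat_lit 78) (nat_lit 0) (nat_lit 0) (XT.lf (nat_lit 0) (nat_lit 288095372566) (nat_lit 152) (nat_lit 166577419806) (nat_lit 0) (nat_lit 287863361377) (nat_lit 1) (nat_lit 5) (nat_lit 3) (nat_lit 4) (nat_lit 1) (nat_lit 4) (nat_lit 543) (nat_lit 334) (nat_lit 323)) (XT.lf (nat_lit 0) (nat_lit 304435619842) (nat_lit 152) (nat_lit 170941085412) (nat_lit 0) (nat_lit 304188055310) (nat_lit 1) (nat_lit 5) (nat_lit 3) (nat_lit 4) (nat_lit 1) (nat_lit 4) (nat_lit 544) (nat_lit 334) (nat_lit 322))) (XT.nd (nat_lit 78) (nat_lit 0) (nat_lit 0) (XT.lf (nat_lit 0) (nat_lit 321543042405) (nat_lit 152) (nat_lit 175623582772) (nat_lit 0) (nat_lit 321280665165) (nat_lit 1) (nat_lit 5) (nat_lit 3) (nat_lit 4) (nat_lit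 1) (nat_lit 4) (nat_lit 545) (nat_lit 334) (nat_lit 321)) (XT.lf (nat_lit 0) (nat_lit 339458372214) (nat_lit 152) (nat_lit 180636060691) (nat_lit 0) (nat_lit 339181887633) (nat_lit 1) (nat_lit 5) (nat_lit 3) (nat_lit 4) (nat_lit 1) (nat_lit 4) (nat_lit 546) (nat_lit 334) (nat_lit 320)))))) (XT.nd (nat_lit 61620) (nat_lit 0) (nat_lit 0) (XT.nd (nat_lit 61308) (nat_lit 0) (nat_lit 0) (XT.nd (nat_lit 61152) (nat_lit 0) (nat_lit 0) (XT.lf (nat_lit 0) (nat_lit 358224264816) (nat_lit 152) (nat_lit 185990453639) (nat_lit 0) (nat_lit 357934344672) (nat_lit 1) (nat_lit 5) (nat_lit 3) (nat_lit 4) (nat_lit 1) (nat_lit 4) (nat_lit 547) (nat_lit 334) (nat_lit 319)) (XT.nd (nat_lit 78) (nat_lit 0) (nat_lit 0) (XT.lf (nat_lit 0) (nat_lit 64988208494) (nat_lit 152) (nat_lit 67492575056) (nat_lit 0) (nat_lit 64988208494) (nat_lit 1) (nat_lit 5) (nat_lit 3) (nat_lit 4) (nat_lit 1) (nat_lit 4) (nat_lit 530) (nat_lit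 335) (nat_lit 335)) (XT.lf (nat_lit 0) (nat_lit 139288087691) (nat_lit 152) (nat_lit 135994486631) (nat_lit 0) (nat_lit 139260156121) (nat_lit 1) (nat_lit 5) (nat_lit 3) (nat_lit 4) (nat_lit 1) (nat_lit 4) (nat_lit 531) (nat_lit 335) (nat_lit 334)))) (XT.nd (nat_lit 156) (nat_lit 0) (nat_lit 0) (XT.nd (nat_lit 78) (nat_lit 0) (nat_lit 0) (XT.lf (nat_lit 0) (nat_lit 148975841699) (nat_lit 152) (nat_lit 137235040175) (nat_lit 0) (nat_lit 148921308634) (nat_lit 1) (nat_lit 5) (nat_lit 3) (nat_lit 4) (nat_lit 1) (nat_lit 4) (nat_lit 532) (nat_lit 335) (nat_lit 333)) (XT.lf (nat_lit 0) (nat_lit 159062745094) (nat_lit 152) (nat_lit 138709764444) (nat_lit 0) (nat_lit 158982877271) (nat_lit 1) (nat_lit 5) (nat_lit 3) (nat_lit 4) (nat_lit 1) (nat_lit 4) (nat_lit 533) (nat_lit 335) (nat_lit 332))) (XT.nd (nat_lit 78) (nat_lit 0) (nat_lit 0) (XT.lf (nat_lit 0) (nat_lit 169572814312) (nat_lit 152) (nat_lit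 140422170686) (nat_lit 0) (nat_lit 169468818150) (nat_lit 1) (nat_lit 5) (nat_lit 3) (nat_lit 4) (nat_lit 1) (nat_lit 4) (nat_lit 534) (nat_lit 335) (nat_lit 331)) (XT.lf (nat_lit 0) (nat_lit 180531073329) (nat_lit 152) (nat_lit 142376336059) (nat_lit 0) (nat_lit 180404097795) (nat_lit 1) (nat_lit 5) (nat_lit 3) (nat_lit 4) (nat_lit 1) (nat_lit 4) (nat_lit 535) (nat_lit 335) (nat_lit 330))))) (XT.nd (nat_lit 234) (nat_lit 0) (nat_lit 0) (XT.nd (nat_lit 78) (nat_lit 0) (nat_lit 0) (XT.lf (nat_lit 0) (nat_lit 191963613237) (nat_lit 152) (nat_lit 144576913337) (nat_lit 0) (nat_lit 191814752587) (nat_lit 1) (nat_lit 5) (nat_lit 3) (nat_lit 4) (nat_lit 1) (nat_lit 4) (nat_lit 536) (nat_lit 335) (nat_lit 329)) (XT.nd (nat_lit 78) (nat_lit 0) (nat_lit 0) (XT.lf (nat_lit 0) (nat_lit 203897654369) (nat_lit 152) (nat_lit 147029141991) (nat_lit 0) (nat_lit 203727950752) (nat_lit 1) (nat_lit 5) (nat_lit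 3) (nat_lit 4) (nat_lit 1) (nat_lit 4) (nat_lit 537) (nat_lit 335) (nat_lit 328)) (XT.lf (nat_lit 0) (nat_lit 216361611109) (nat_lit 152) (nat_lit 149738860660) (nat_lit 0) (nat_lit 216172057047) (nat_lit 1) (nat_lit 5) (nat_lit 3) (nat_lit 4) (nat_lit 1) (nat_lit 4) (nat_lit 538) (nat_lit 335) (nat_lit 327)))) (XT.nd (nat_lit 156) (nat_lit 0) (nat_lit 0) (XT.nd (nat_lit 78) (nat_lit 0) (nat_lit 0) (XT.lf (nat_lit 0) (nat_lit 229385159544) (nat_lit 152) (nat_lit 152712521054) (nat_lit 0) (nat_lit 229176700296) (nat_lit 1) (nat_lit 5) (nat_lit 3) (nat_lit 4) (nat_lit 1) (nat_lit 4) (nat_lit 539) (nat_lit 335) (nat_lit 326)) (XT.lf (nat_lit 0) (nat_lit 242999308123) (nat_lit 152) (nat_lit 155957203319) (nat_lit 0) (nat_lit 242772843936) (nat_lit 1) (nat_lit 5) (nat_lit 3) (nat_lit 4) (nat_lit 1) (nat_lit 4) (nat_lit 540) (nat_lit 335) (nat_lit 325))) (XT.nd (nat_lit 78) (nat_lit 0) (nat_lit 0)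 (XT.lf (nat_lit 0) (nat_lit 257236471486) (nat_lit 152) (nat_lit 159480632887) (nat_lit 0) (nat_lit 256992859738) (nat_lit 1) (nat_lit 5) (nat_lit 3) (nat_lit 4) (nat_lit 1) (nat_lit 4) (nat_lit 541) (nat_lit 335) (nat_lit 324)) (XT.lf (nat_lit 0) (nat_lit 272130547640) (nat_lit 152) (nat_lit 163291198877) (nat_lit 0) (nat_lit 271870604881) (nat_lit 1) (nat_lit 5) (nat_lit 3) (nat_lit 4) (nat_lit 1) (nat_lit 4) (nat_lit 542) (nat_lit 335) (nat_lit 323))))))) (XT.nd (nat_lit 62010) (nat_lit 0) (nat_lit 0) (XT.nd (nat_lit 61464) (nat_lit 0) (nat_lit 0) (XT.nd (nat_lit 234) (nat_lit 0) (nat_lit 0) (XT.nd (nat_lit 78) (nat_lit 0) (nat_lit 0) (XT.lf (nat_lit 0) (nat_lit 287716998671) (nat_lit 152) (nat_lit 167397974066) (nat_lit 0) (nat_lit 287441502569) (nat_lit 1) (nat_lit 5) (nat_lit 3) (nat_lit 4) (nat_lit 1) (nat_lit 4) (nat_lit 543) (nat_lit 335) (nat_lit 322)) (XT.nd (nat_lit 78) (nat_lit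 0) (nat_lit 0) (XT.lf (nat_lit 0) (nat_lit 304032935178) (nat_lit 152) (nat_lit 171810736488) (nat_lit 0) (nat_lit 303742626368) (nat_lit 1) (nat_lit 5) (nat_lit 3) (nat_lit 4) (nat_lit 1) (nat_lit 4) (nat_lit 544) (nat_lit 335) (nat_lit 321)) (XT.lf (nat_lit 0) (nat_lit 321117204628) (nat_lit 152) (nat_lit 176539992722) (nat_lit 0) (nat_lit 320812788477) (nat_lit 1) (nat_lit 5) (nat_lit 3) (nat_lit 4) (nat_lit 1) (nat_lit 4) (nat_lit 545) (nat_lit 335) (nat_lit 320)))) (XT.nd (nat_lit 61074) (nat_lit 0) (nat_lit 0) (XT.nd (nat_lit 78) (nat_lit 0) (nat_lit 0) (XT.lf (nat_lit 0) (nat_lit 339010483852) (nat_lit 152) (nat_lit 181597002900) (nat_lit 0) (nat_lit 338692632139) (nat_lit 1) (nat_lit 5) (nat_lit 3) (nat_lit 4) (nat_lit 1) (nat_lit 4) (nat_lit 546) (nat_lit 335) (nat_lit 319)) (XT.lf (nat_lit 0) (nat_lit 357755375898) (nat_lit 152) (nat_lit 186993807525) (nat_lit 0) (nat_lit 357424728411)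 (nat_lit 1) (nat_lit 5) (nat_lit 3) (nat_lit 4) (nat_lit 1) (nat_lit 4) (nat_lit 547) (nat_lit 335) (nat_lit 318))) (XT.nd (nat_lit 78) (nat_lit 0) (nat_lit 0) (XT.lf (nat_lit 0) (nat_lit 56235473692) (nat_lit 152) (nat_lit 66776925940) (nat_lit 0) (nat_lit 56235473692) (nat_lit 1) (nat_lit 5) (nat_lit 3) (nat_lit 4) (nat_lit 1) (nat_lit 4) (nat_lit 528) (nat_lit 336) (nat_lit 336)) (XT.lf (nat_lit 0) (nat_lit 121047987098) (nat_lit 152) (nat_lit 134204627439) (nat_lit 0) (nat_lit 121018658949) (nat_lit 1) (nat_lit 5) (nat_lit 3) (nat_lit 4) (nat_lit 1) (nat_lit 4) (nat_lit 529) (nat_lit 336) (nat_lit 335))))) (XT.nd (nat_lit 234) (nat_lit 0) (nat_lit 0) (XT.nd (nat_lit 78) (nat_lit 0) (nat_lit 0) (XT.lf (nat_lit 0) (nat_lit 129959903557) (nat_lit 152) (nat_lit 135077729484) (nat_lit 0) (nat_lit 129902643839) (nat_lit 1) (nat_lit 5) (nat_lit 3) (nat_lit 4) (nat_lit 1) (nat_lit 4) (nat_lit 530)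 (nat_lit 336) (nat_lit 334)) (XT.nd (nat_lit 78) (nat_lit 0) (nat_lit 0) (XT.lf (nat_lit 0) (nat_lit 139227915610) (nat_lit 152) (nat_lit 136175236831) (nat_lit 0) (nat_lit 139144054397) (nat_lit 1) (nat_lit 5) (nat_lit 3) (nat_lit 4) (nat_lit 1) (nat_lit 4) (nat_lit 531) (nat_lit 336) (nat_lit 333)) (XT.lf (nat_lit 0) (nat_lit 148874089953) (nat_lit 152) (nat_lit 137499762593) (nat_lit 0) (nat_lit 148764893983) (nat_lit 1) (nat_lit 5) (nat_lit 3) (nat_lit 4) (nat_lit 1) (nat_lit 4) (nat_lit 532) (nat_lit 336) (nat_lit 332)))) (XT.nd (nat_lit 156) (nat_lit 0) (nat_lit 0) (XT.nd (nat_lit 78) (nat_lit 0) (nat_lit 0) (XT.lf (nat_lit 0) (nat_lit 158921393667) (nat_lit 152) (nat_lit 139054460404) (nat_lit 0) (nat_lit 158788069356) (nat_lit 1) (nat_lit 5) (nat_lit 3) (nat_lit 4) (nat_lit 1) (nat_lit 4) (nat_lit 533) (nat_lit 336) (nat_lit 331)) (XT.lf (nat_lit 0) (nat_lit 169393748904) (nat_lit 152)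 (nat_lit 140843031923) (nat_lit 0) (nat_lit 169237445222) (nat_lit 1) (nat_lit 5) (nat_lit 3) (nat_lit 4) (nat_lit 1) (nat_lit 4) (nat_lit 534) (nat_lit 336) (nat_lit 330))) (XT.nd (nat_lit 78) (nat_lit 0) (nat_lit 0) (XT.lf (nat_lit 0) (nat_lit 180316089843) (nat_lit 152) (nat_lit 142869735655) (nat_lit 0) (nat_lit 180137901045) (nat_lit 1) (nat_lit 5) (nat_lit 3) (nat_lit 4) (nat_lit 1) (nat_lit 4) (nat_lit 535) (nat_lit 336) (nat_lit 329)) (XT.lf (nat_lit 0) (nat_lit 191714422058) (nat_lit 152) (nat_lit 145139397086) (nat_lit 0) (nat_lit 191515390292) (nat_lit 1) (nat_lit 5) (nat_lit 3) (nat_lit 4) (nat_lit 1) (nat_lit 4) (nat_lit 536) (nat_lit 336) (nat_lit 328)))))) (XT.nd (nat_lit 546) (nat_lit 0) (nat_lit 0) (XT.nd (nat_lit 234) (nat_lit 0) (nat_lit 0) (XT.nd (nat_lit 78) (nat_lit 0) (nat_lit 0) (XT.lf (nat_lit 0) (nat_lit 203615884434) (nat_lit 152) (nat_lit 147657420170) (nat_lit 0)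 (nat_lit 203397002223) (nat_lit 1) (nat_lit 5) (nat_lit 3) (nat_lit 4) (nat_lit 1) (nat_lit 4) (nat_lit 537) (nat_lit 336) (nat_lit 327)) (XT.nd (nat_lit 78) (nat_lit 0) (nat_lit 0) (XT.lf (nat_lit 0) (nat_lit 216048813788) (nat_lit 152) (nat_lit 150429800201) (nat_lit 0) (nat_lit 215811026391) (nat_lit 1) (nat_lit 5) (nat_lit 3) (nat_lit 4) (nat_lit 1) (nat_lit 4) (nat_lit 538) (nat_lit 336) (nat_lit 326)) (XT.lf (nat_lit 0) (nat_lit 229042812331) (nat_lit 152) (nat_lit 153463138083) (nat_lit 0) (nat_lit 228787019996) (nat_lit 1) (nat_lit 5) (nat_lit 3) (nat_lit 4) (nat_lit 1) (nat_lit 4) (nat_lit 539) (nat_lit 336) (nat_lit 325)))) (XT.nd (nat_lit 156) (nat_lit 0) (nat_lit 0) (XT.nd (nat_lit 78) (nat_lit 0) (nat_lit 0) (XT.lf (nat_lit 0) (nat_lit 242628818157) (nat_lit 152) (nat_lit 156764656051) (nat_lit 0) (nat_lit 242355878260) (nat_lit 1) (nat_lit 5) (nat_lit 3) (nat_lit 4) (nat_lit 1)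 (nat_lit 4) (nat_lit 540) (nat_lit 336) (nat_lit 324)) (XT.lf (nat_lit 0) (nat_lit 256839178896) (nat_lit 152) (nat_lit 160342214860) (nat_lit 0) (nat_lit 256549907989) (nat_lit 1) (nat_lit 5) (nat_lit 3) (nat_lit 4) (nat_lit 1) (nat_lit 4) (nat_lit 541) (nat_lit 336) (nat_lit 323))) (XT.nd (nat_lit 78) (nat_lit 0) (nat_lit 0) (XT.lf (nat_lit 0) (nat_lit 271707728743) (nat_lit 152) (nat_lit 164204332508) (nat_lit 0) (nat_lit 271402904492) (nat_lit 1) (nat_lit 5) (nat_lit 3) (nat_lit 4) (nat_lit 1) (nat_lit 4) (nat_lit 542) (nat_lit 336) (nat_lit 322)) (XT.lf (nat_lit 0) (nat_lit 287269869005) (nat_lit 152) (nat_lit 168360204513) (nat_lit 0) (nat_lit 286950232047) (nat_lit 1) (nat_lit 5) (nat_lit 3) (nat_lit 4) (nat_lit 1) (nat_lit 4) (nat_lit 543) (nat_lit 336) (nat_lit 321))))) (XT.nd (nat_lit 61074) (nat_lit 0) (nat_lit 0) (XT.nd (nat_lit 156) (nat_lit 0) (nat_lit 0) (XT.nd (nat_lit 78) (nat_lit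 0) (nat_lit 0) (XT.lf (nat_lit 0) (nat_lit 303562652399) (nat_lit 152) (nat_lit 172819725808) (nat_lit 0) (nat_lit 303228908100) (nat_lit 1) (nat_lit 5) (nat_lit 3) (nat_lit 4) (nat_lit 1) (nat_lit 4) (nat_lit 544) (nat_lit 336) (nat_lit 320)) (XT.lf (nat_lit 0) (nat_lit 320624871264) (nat_lit 152) (nat_lit 177593514302) (nat_lit 0) (nat_lit 320277691402) (nat_lit 1) (nat_lit 5) (nat_lit 3) (nat_lit 4) (nat_lit 1) (nat_lit 4) (nat_lit 545) (nat_lit 336) (nat_lit 319))) (XT.nd (nat_lit 78) (nat_lit 0) (nat_lit 0) (XT.lf (nat_lit 0) (nat_lit 338497149933) (nat_lit 152) (nat_lit 182692936158) (nat_lit 0) (nat_lit 338137174297) (nat_lit 1) (nat_lit 5) (nat_lit 3) (nat_lit 4) (nat_lit 1) (nat_lit 4) (nat_lit 546) (nat_lit 336) (nat_lit 318)) (XT.lf (nat_lit 0) (nat_lit 357222041449) (nat_lit 152) (nat_lit 188130132855) (nat_lit 0) (nat_lit 356849879361) (nat_lit 1) (nat_lit 5) (nat_lit 3) (nat_lit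 4) (nat_lit 1) (nat_lit 4) (nat_lit 547) (nat_lit 336) (nat_lit 317)))) (XT.nd (nat_lit 156) (nat_lit 0) (nat_lit 0) (XT.nd (nat_lit 78) (nat_lit 0) (nat_lit 0) (XT.lf (nat_lit 0) (nat_lit 48160947850) (nat_lit 152) (nat_lit 66405769636) (nat_lit 0) (nat_lit 48160947850) (nat_lit 1) (nat_lit 5) (nat_lit 3) (nat_lit 4) (nat_lit 1) (nat_lit 4) (nat_lit 526) (nat_lit 337) (nat_lit 337)) (XT.lf (nat_lit 0) (nat_lit 104239157448) (nat_lit 152) (nat_lit 133123853347) (nat_lit 0) (nat_lit 104208362892) (nat_lit 1) (nat_lit 5) (nat_lit 3) (nat_lit 4) (nat_lit 1) (nat_lit 4) (nat_lit 527) (nat_lit 337) (nat_lit 336))) (XT.nd (nat_lit 78) (nat_lit 0) (nat_lit 0) (XT.lf (nat_lit 0) (nat_lit 112453608280) (nat_lit 152) (nat_lit 133651060221) (nat_lit 0) (nat_lit 112393485576) (nat_lit 1) (nat_lit 5) (nat_lit 3) (nat_lit 4) (nat_lit 1) (nat_lit 4) (nat_lit 528) (nat_lit 337) (nat_lit 335)) (XT.lf (nat_lit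 0) (nat_lit 120984806413) (nat_lit 152) (nat_lit 134394415149) (nat_lit 0) (nat_lit 120896752139) (nat_lit 1) (nat_lit 5) (nat_lit 3) (nat_lit 4) (nat_lit 1) (nat_lit 4) (nat_lit 529) (nat_lit 337) (nat_lit 334))))))))
noncomputable def xc2 : XT := (XT.nd (nat_lit 62790) (nat_lit 0) (nat_lit 0) (XT.nd (nat_lit 1092) (nat_lit 0) (nat_lit 0) (XT.nd (nat_lit 546) (nat_lit 0) (nat_lit 0) (XT.nd (nat_lit 234) (nat_lit 0) (nat_lit 0) (XT.nd (nat_lit 78) (nat_lit 0) (nat_lit 0) (XT.lf (nat_lit 0) (nat_lit 129853064224) (nat_lit 152) (nat_lit 135355688023) (nat_lit 0) (nat_lit 129738408455) (nat_lit 1) (nat_lit 5) (nat_lit 3) (nat_lit 4) (nat_lit 1) (nat_lit 4) (nat_lit 530) (nat_lit 337) (nat_lit 333)) (XT.nd (nat_lit 78) (nat_lit 0) (nat_lit 0) (XT.lf (nat_lit 0) (nat_lit 139079496613) (nat_lit 152) (nat_lit 136537167589) (nat_lit 0) (nat_lit 138939506086) (nat_lit 1) (nat_lit 5) (nat_lit 3) (nat_lit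 4) (nat_lit 1) (nat_lit 4) (nat_lit 531) (nat_lit 337) (nat_lit 332)) (XT.lf (nat_lit 0) (nat_lit 148686071274) (nat_lit 152) (nat_lit 137941666892) (nat_lit 0) (nat_lit 148521952408) (nat_lit 1) (nat_lit 5) (nat_lit 3) (nat_lit 4) (nat_lit 1) (nat_lit 4) (nat_lit 532) (nat_lit 337) (nat_lit 331)))) (XT.nd (nat_lit 156) (nat_lit 0) (nat_lit 0) (XT.nd (nat_lit 78) (nat_lit 0) (nat_lit 0) (XT.lf (nat_lit 0) (nat_lit 158695661007) (nat_lit 152) (nat_lit 139572529980) (nat_lit 0) (nat_lit 158508562768) (nat_lit 1) (nat_lit 5) (nat_lit 3) (nat_lit 4) (nat_lit 1) (nat_lit 4) (nat_lit 533) (nat_lit 337) (nat_lit 330)) (XT.lf (nat_lit 0) (nat_lit 169132098165) (nat_lit 152) (nat_lit 141433639859) (nat_lit 0) (nat_lit 168923114811) (nat_lit 1) (nat_lit 5) (nat_lit 3) (nat_lit 4) (nat_lit 1) (nat_lit 4) (nat_lit 534) (nat_lit 337) (nat_lit 329))) (XT.nd (nat_lit 78) (nat_lit 0) (nat_lit 0) (XT.lf (nat_lit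 0) (nat_lit 180020231411) (nat_lit 152) (nat_lit 143529427743) (nat_lit 0) (nat_lit 179790405090) (nat_lit 1) (nat_lit 5) (nat_lit 3) (nat_lit 4) (nat_lit 1) (nat_lit 4) (nat_lit 535) (nat_lit 337) (nat_lit 328)) (XT.lf (nat_lit 0) (nat_lit 191385984870) (nat_lit 152) (nat_lit 145864883604) (nat_lit 0) (nat_lit 191136308104) (nat_lit 1) (nat_lit 5) (nat_lit 3) (nat_lit 4) (nat_lit 1) (nat_lit 4) (nat_lit 536) (nat_lit 337) (nat_lit 327))))) (XT.nd (nat_lit 234) (nat_lit 0) (nat_lit 0) (XT.nd (nat_lit 78) (nat_lit 0) (nat_lit 0) (XT.lf (nat_lit 0) (nat_lit 203256419861) (nat_lit 152) (nat_lit 148445568050) (nat_lit 0) (nat_lit 202987837908) (nat_lit 1) (nat_lit 5) (nat_lit 3) (nat_lit 4) (nat_lit 1) (nat_lit 4) (nat_lit 537) (nat_lit 337) (nat_lit 326)) (XT.nd (nat_lit 78) (nat_lit 0) (nat_lit 0) (XT.lf (nat_lit 0) (nat_lit 215659799323) (nat_lit 152) (nat_lit 151277625569) (nat_lit 0) (nat_lit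 215373212431) (nat_lit 1) (nat_lit 5) (nat_lit 3) (nat_lit 4) (nat_lit 1) (nat_lit 4) (nat_lit 538) (nat_lit 337) (nat_lit 325)) (XT.lf (nat_lit 0) (nat_lit 228625655112) (nat_lit 152) (nat_lit 154367799154) (nat_lit 0) (nat_lit 228321920660) (nat_lit 1) (nat_lit 5) (nat_lit 3) (nat_lit 4) (nat_lit 1) (nat_lit 4) (nat_lit 539) (nat_lit 337) (nat_lit 324)))) (XT.nd (nat_lit 156) (nat_lit 0) (nat_lit 0) (XT.nd (nat_lit 78) (nat_lit 0) (nat_lit 0) (XT.lf (nat_lit 0) (nat_lit 242184858315) (nat_lit 152) (nat_lit 157723446362) (nat_lit 0) (nat_lit 241864792852) (nat_lit 1) (nat_lit 5) (nat_lit 3) (nat_lit 4) (nat_lit 1) (nat_lit 4) (nat_lit 540) (nat_lit 337) (nat_lit 323)) (XT.lf (nat_lit 0) (nat_lit 256369692747) (nat_lit 152) (nat_lit 161352556829) (nat_lit 0) (nat_lit 256034073941) (nat_lit 1) (nat_lit 5) (nat_lit 3) (nat_lit 4) (nat_lit 1) (nat_lit 4) (nat_lit 541) (nat_lit 337) (nat_lit 322)))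 (XT.nd (nat_lit 78) (nat_lit 0) (nat_lit 0) (XT.lf (nat_lit 0) (nat_lit 271213931825) (nat_lit 152) (nat_lit 165263771294) (nat_lit 0) (nat_lit 270863500311) (nat_lit 1) (nat_lit 5) (nat_lit 3) (nat_lit 4) (nat_lit 1) (nat_lit 4) (nat_lit 542) (nat_lit 337) (nat_lit 321)) (XT.lf (nat_lit 0) (nat_lit 286752918974) (nat_lit 152) (nat_lit 169466402173) (nat_lit 0) (nat_lit 286388380119) (nat_lit 1) (nat_lit 5) (nat_lit 3) (nat_lit 4) (nat_lit 1) (nat_lit 4) (nat_lit 543) (nat_lit 337) (nat_lit 320)))))) (XT.nd (nat_lit 61152) (nat_lit 0) (nat_lit 0) (XT.nd (nat_lit 234) (nat_lit 0) (nat_lit 0) (XT.nd (nat_lit 78) (nat_lit 0) (nat_lit 0) (XT.lf (nat_lit 0) (nat_lit 303023651783) (nat_lit 152) (nat_lit 173970455728) (nat_lit 0) (nat_lit 302645677365) (nat_lit 1) (nat_lit 5) (nat_lit 3) (nat_lit 4) (nat_lit 1) (nat_lit 4) (nat_lit 544) (nat_lit 337) (nat_lit 319)) (XT.nd (nat_lit 78) (nat_lit 0)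 (nat_lit 0) (XT.lf (nat_lit 0) (nat_lit 320064870092) (nat_lit 152) (nat_lit 178786655899) (nat_lit 0) (nat_lit 319674099901) (nat_lit 1) (nat_lit 5) (nat_lit 3) (nat_lit 4) (nat_lit 1) (nat_lit 4) (nat_lit 545) (nat_lit 337) (nat_lit 318)) (XT.lf (nat_lit 0) (nat_lit 337917148231) (nat_lit 152) (nat_lit 183926469827) (nat_lit 0) (nat_lit 337514191588) (nat_lit 1) (nat_lit 5) (nat_lit 3) (nat_lit 4) (nat_lit 1) (nat_lit 4) (nat_lit 546) (nat_lit 337) (nat_lit 317)))) (XT.nd (nat_lit 60762) (nat_lit 0) (nat_lit 0) (XT.nd (nat_lit 60684) (nat_lit 0) (nat_lit 0) (XT.lf (nat_lit 0) (nat_lit 356622991623) (nat_lit 152) (nat_lit 189402135165) (nat_lit 0) (nat_lit 356208428836) (nat_lit 1) (nat_lit 5) (nat_lit 3) (nat_lit 4) (nat_lit 1) (nat_lit 4) (nat_lit 547) (nat_lit 337) (nat_lit 316)) (XT.lf (nat_lit 0) (nat_lit 40694800661) (nat_lit 152) (nat_lit 66360976393) (nat_lit 0) (nat_lit 40694800661)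 (nat_lit 1) (nat_lit 5) (nat_lit 3) (nat_lit 4) (nat_lit 1) (nat_lit 4) (nat_lit 524) (nat_lit 338) (nat_lit 338))) (XT.nd (nat_lit 78) (nat_lit 0) (nat_lit 0) (XT.lf (nat_lit 0) (nat_lit 88715306699) (nat_lit 152) (nat_lit 132713374392) (nat_lit 0) (nat_lit 88682972416) (nat_lit 1) (nat_lit 5) (nat_lit 3) (nat_lit 4) (nat_lit 1) (nat_lit 4) (nat_lit 525) (nat_lit 338) (nat_lit 337)) (XT.lf (nat_lit 0) (nat_lit 96303689642) (nat_lit 152) (nat_lit 132913608028) (nat_lit 0) (nat_lit 96240560802) (nat_lit 1) (nat_lit 5) (nat_lit 3) (nat_lit 4) (nat_lit 1) (nat_lit 4) (nat_lit 526) (nat_lit 338) (nat_lit 336))))) (XT.nd (nat_lit 234) (nat_lit 0) (nat_lit 0) (XT.nd (nat_lit 78) (nat_lit 0) (nat_lit 0) (XT.lf (nat_lit 0) (nat_lit 104172817729) (nat_lit 152) (nat_lit 133323130442) (nat_lit 0) (nat_lit 104080360741) (nat_lit 1) (nat_lit 5) (nat_lit 3) (nat_lit 4) (nat_lit 1) (nat_lit 4) (nat_lit 527)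 (nat_lit 338) (nat_lit 335)) (XT.nd (nat_lit 78) (nat_lit 0) (nat_lit 0) (XT.lf (nat_lit 0) (nat_lit 112341426980) (nat_lit 152) (nat_lit 133942916687) (nat_lit 0) (nat_lit 112221038423) (nat_lit 1) (nat_lit 5) (nat_lit 3) (nat_lit 4) (nat_lit 1) (nat_lit 4) (nat_lit 528) (nat_lit 338) (nat_lit 334)) (XT.lf (nat_lit 0) (nat_lit 120828966465) (nat_lit 152) (nat_lit 134774442444) (nat_lit 0) (nat_lit 120681976413) (nat_lit 1) (nat_lit 5) (nat_lit 3) (nat_lit 4) (nat_lit 1) (nat_lit 4) (nat_lit 529) (nat_lit 338) (nat_lit 333)))) (XT.nd (nat_lit 156) (nat_lit 0) (nat_lit 0) (XT.nd (nat_lit 78) (nat_lit 0) (nat_lit 0) (XT.lf (nat_lit 0) (nat_lit 129655644611) (nat_lit 152) (nat_lit 135819687537) (nat_lit 0) (nat_lit 129483319802) (nat_lit 1) (nat_lit 5) (nat_lit 3) (nat_lit 4) (nat_lit 1) (nat_lit 4) (nat_lit 530) (nat_lit 338) (nat_lit 332)) (XT.lf (nat_lit 0) (nat_lit 138842477319) (nat_lit 152)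 (nat_lit 137081140644) (nat_lit 0) (nat_lit 138646024169) (nat_lit 1) (nat_lit 5) (nat_lit 3) (nat_lit 4) (nat_lit 1) (nat_lit 4) (nat_lit 531) (nat_lit 338) (nat_lit 331))) (XT.nd (nat_lit 78) (nat_lit 0) (nat_lit 0) (XT.lf (nat_lit 0) (nat_lit 148411337999) (nat_lit 152) (nat_lit 138561805225) (nat_lit 0) (nat_lit 148191905477) (nat_lit 1) (nat_lit 5) (nat_lit 3) (nat_lit 4) (nat_lit 1) (nat_lit 4) (nat_lit 532) (nat_lit 338) (nat_lit 330)) (XT.lf (nat_lit 0) (nat_lit 158385009653) (nat_lit 152) (nat_lit 140265206672) (nat_lit 0) (nat_lit 158143692015) (nat_lit 1) (nat_lit 5) (nat_lit 3) (nat_lit 4) (nat_lit 1) (nat_lit 4) (nat_lit 533) (nat_lit 338) (nat_lit 329))))))) (XT.nd (nat_lit 61542) (nat_lit 0) (nat_lit 0) (XT.nd (nat_lit 546) (nat_lit 0) (nat_lit 0) (XT.nd (nat_lit 234) (nat_lit 0) (nat_lit 0) (XT.nd (nat_lit 78) (nat_lit 0) (nat_lit 0) (XT.lf (nat_lit 0) (nat_lit 168787239119)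 (nat_lit 152) (nat_lit 142195400703) (nat_lit 0) (nat_lit 168525078514) (nat_lit 1) (nat_lit 5) (nat_lit 3) (nat_lit 4) (nat_lit 1) (nat_lit 4) (nat_lit 534) (nat_lit 338) (nat_lit 328)) (XT.nd (nat_lit 78) (nat_lit 0) (nat_lit 0) (XT.lf (nat_lit 0) (nat_lit 179642793609) (nat_lit 152) (nat_lit 144356983018) (nat_lit 0) (nat_lit 179360782559) (nat_lit 1) (nat_lit 5) (nat_lit 3) (nat_lit 4) (nat_lit 1) (nat_lit 4) (nat_lit 535) (nat_lit 338) (nat_lit 327)) (XT.lf (nat_lit 0) (nat_lit 190977519682) (nat_lit 152) (nat_lit 146755100241) (nat_lit 0) (nat_lit 190676603446) (nat_lit 1) (nat_lit 5) (nat_lit 3) (nat_lit 4) (nat_lit 1) (nat_lit 4) (nat_lit 536) (nat_lit 338) (nat_lit 326)))) (XT.nd (nat_lit 156) (nat_lit 0) (nat_lit 0) (XT.nd (nat_lit 78) (nat_lit 0) (nat_lit 0) (XT.lf (nat_lit 0) (nat_lit 202818404781) (nat_lit 152) (nat_lit 149395462175) (nat_lit 0) (nat_lit 202499483605) (nat_lit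 1) (nat_lit 5) (nat_lit 3) (nat_lit 4) (nat_lit 1) (nat_lit 4) (nat_lit 537) (nat_lit 338) (nat_lit 325)) (XT.lf (nat_lit 0) (nat_lit 215193641489) (nat_lit 152) (nat_lit 152284355396) (nat_lit 0) (nat_lit 214857572753) (nat_lit 1) (nat_lit 5) (nat_lit 3) (nat_lit 4) (nat_lit 1) (nat_lit 4) (nat_lit 538) (nat_lit 338) (nat_lit 324))) (XT.nd (nat_lit 78) (nat_lit 0) (nat_lit 0) (XT.lf (nat_lit 0) (nat_lit 228132694656) (nat_lit 152) (nat_lit 155428658222) (nat_lit 0) (nat_lit 227780294909) (nat_lit 1) (nat_lit 5) (nat_lit 3) (nat_lit 4) (nat_lit 1) (nat_lit 4) (nat_lit 539) (nat_lit 338) (nat_lit 323)) (XT.lf (nat_lit 0) (nat_lit 241666371551) (nat_lit 152) (nat_lit 158835857088) (nat_lit 0) (nat_lit 241298418461) (nat_lit 1) (nat_lit 5) (nat_lit 3) (nat_lit 4) (nat_lit 1) (nat_lit 4) (nat_lit 540) (nat_lit 338) (nat_lit 322))))) (XT.nd (nat_lit 234) (nat_lit 0) (nat_lit 0) (XT.nd (nat_lit 78)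 (nat_lit 0) (nat_lit 0) (XT.lf (nat_lit 0) (nat_lit 255826895214) (nat_lit 152) (nat_lit 162514064372) (nat_lit 0) (nat_lit 255444129416) (nat_lit 1) (nat_lit 5) (nat_lit 3) (nat_lit 4) (nat_lit 1) (nat_lit 4) (nat_lit 541) (nat_lit 338) (nat_lit 321)) (XT.nd (nat_lit 78) (nat_lit 0) (nat_lit 0) (XT.lf (nat_lit 0) (nat_lit 270647981178) (nat_lit 152) (nat_lit 166472037710) (nat_lit 0) (nat_lit 270251108040) (nat_lit 1) (nat_lit 5) (nat_lit 3) (nat_lit 4) (nat_lit 1) (nat_lit 4) (nat_lit 542) (nat_lit 338) (nat_lit 320)) (XT.lf (nat_lit 0) (nat_lit 286164917743) (nat_lit 152) (nat_lit 170719200849) (nat_lit 0) (nat_lit 285754609042) (nat_lit 1) (nat_lit 5) (nat_lit 3) (nat_lit 4) (nat_lit 1) (nat_lit 4) (nat_lit 543) (nat_lit 338) (nat_lit 319)))) (XT.nd (nat_lit 156) (nat_lit 0) (nat_lit 0) (XT.nd (nat_lit 78) (nat_lit 0) (nat_lit 0) (XT.lf (nat_lit 0) (nat_lit 302414649996) (nat_lit 152) (nat_lit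 175265666081) (nat_lit 0) (nat_lit 301991545521) (nat_lit 1) (nat_lit 5) (nat_lit 3) (nat_lit 4) (nat_lit 1) (nat_lit 4) (nat_lit 544) (nat_lit 338) (nat_lit 318)) (XT.lf (nat_lit 0) (nat_lit 319435867776) (nat_lit 152) (nat_lit 180122258324) (nat_lit 0) (nat_lit 319000576849) (nat_lit 1) (nat_lit 5) (nat_lit 3) (nat_lit 4) (nat_lit 1) (nat_lit 4) (nat_lit 545) (nat_lit 338) (nat_lit 317))) (XT.nd (nat_lit 78) (nat_lit 0) (nat_lit 0) (XT.lf (nat_lit 0) (nat_lit 337269097791) (nat_lit 152) (nat_lit 185300540893) (nat_lit 0) (nat_lit 336822200720) (nat_lit 1) (nat_lit 5) (nat_lit 3) (nat_lit 4) (nat_lit 1) (nat_lit 4) (nat_lit 546) (nat_lit 338) (nat_lit 316)) (XT.lf (nat_lit 0) (nat_lit 355956800113) (nat_lit 152) (nat_lit 190812843032) (nat_lit 0) (nat_lit 355498849571) (nat_lit 1) (nat_lit 5) (nat_lit 3) (nat_lit 4) (nat_lit 1) (nat_lit 4) (nat_lit 547) (nat_lit 338) (nat_lit 315)))))) (XT.nd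 (nat_lit 546) (nat_lit 0) (nat_lit 0) (XT.nd (nat_lit 234) (nat_lit 0) (nat_lit 0) (XT.nd (nat_lit 78) (nat_lit 0) (nat_lit 0) (XT.lf (nat_lit 0) (nat_lit 33773355133) (nat_lit 152) (nat_lit 66626796890) (nat_lit 0) (nat_lit 33773355133) (nat_lit 1) (nat_lit 5) (nat_lit 3) (nat_lit 4) (nat_lit 1) (nat_lit 4) (nat_lit 522) (nat_lit 339) (nat_lit 339)) (XT.nd (nat_lit 78) (nat_lit 0) (nat_lit 0) (XT.lf (nat_lit 0) (nat_lit 74343082355) (nat_lit 152) (nat_lit 132939363635) (nat_lit 0) (nat_lit 74309131357) (nat_lit 1) (nat_lit 5) (nat_lit 3) (nat_lit 4) (nat_lit 1) (nat_lit 4) (nat_lit 523) (nat_lit 339) (nat_lit 338)) (XT.lf (nat_lit 0) (nat_lit 81370484961) (nat_lit 152) (nat_lit 132829124980) (nat_lit 0) (nat_lit 81304199680) (nat_lit 1) (nat_lit 5) (nat_lit 3) (nat_lit 4) (nat_lit 1) (nat_lit 4) (nat_lit 524) (nat_lit 339) (nat_lit 337)))) (XT.nd (nat_lit 156) (nat_lit 0) (nat_lit 0) (XT.nd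 (nat_lit 78) (nat_lit 0) (nat_lit 0) (XT.lf (nat_lit 0) (nat_lit 88645649994) (nat_lit 152) (nat_lit 132922615342) (nat_lit 0) (nat_lit 88548570157) (nat_lit 1) (nat_lit 5) (nat_lit 3) (nat_lit 4) (nat_lit 1) (nat_lit 4) (nat_lit 525) (nat_lit 339) (nat_lit 336)) (XT.lf (nat_lit 0) (nat_lit 96185899277) (nat_lit 152) (nat_lit 133220057318) (nat_lit 0) (nat_lit 96059491292) (nat_lit 1) (nat_lit 5) (nat_lit 3) (nat_lit 4) (nat_lit 1) (nat_lit 4) (nat_lit 526) (nat_lit 339) (nat_lit 335))) (XT.nd (nat_lit 78) (nat_lit 0) (nat_lit 0) (XT.lf (nat_lit 0) (nat_lit 104009185784) (nat_lit 152) (nat_lit 133722159103) (nat_lit 0) (nat_lit 103854846229) (nat_lit 1) (nat_lit 5) (nat_lit 3) (nat_lit 4) (nat_lit 1) (nat_lit 4) (nat_lit 527) (nat_lit 339) (nat_lit 334)) (XT.lf (nat_lit 0) (nat_lit 112134136387) (nat_lit 152) (nat_lit 134430116177) (nat_lit 0) (nat_lit 111953195337) (nat_lit 1) (nat_lit 5)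 (nat_lit 3) (nat_lit 4) (nat_lit 1) (nat_lit 4) (nat_lit 528) (nat_lit 339) (nat_lit 333))))) (XT.nd (nat_lit 312) (nat_lit 0) (nat_lit 0) (XT.nd (nat_lit 156) (nat_lit 0) (nat_lit 0) (XT.nd (nat_lit 78) (nat_lit 0) (nat_lit 0) (XT.lf (nat_lit 0) (nat_lit 120580096207) (nat_lit 152) (nat_lit 135345614152) (nat_lit 0) (nat_lit 120373820399) (nat_lit 1) (nat_lit 5) (nat_lit 3) (nat_lit 4) (nat_lit 1) (nat_lit 4) (nat_lit 529) (nat_lit 339) (nat_lit 332)) (XT.lf (nat_lit 0) (nat_lit 129367174672) (nat_lit 152) (nat_lit 136470832786) (nat_lit 0) (nat_lit 129136770524) (nat_lit 1) (nat_lit 5) (nat_lit 3) (nat_lit 4) (nat_lit 1) (nat_lit 4) (nat_lit 530) (nat_lit 339) (nat_lit 331))) (XT.nd (nat_lit 78) (nat_lit 0) (nat_lit 0) (XT.lf (nat_lit 0) (nat_lit 138516293398) (nat_lit 152) (nat_lit 137808451171) (nat_lit 0) (nat_lit 138262909878) (nat_lit 1) (nat_lit 5) (nat_lit 3) (nat_lit 4) (nat_lit 1)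 (nat_lit 4) (nat_lit 531) (nat_lit 339) (nat_lit 330)) (XT.lf (nat_lit 0) (nat_lit 148049236000) (nat_lit 152) (nat_lit 139361654112) (nat_lit 0) (nat_lit 147773967364) (nat_lit 1) (nat_lit 5) (nat_lit 3) (nat_lit 4) (nat_lit 1) (nat_lit 4) (nat_lit 532) (nat_lit 339) (nat_lit 329)))) (XT.nd (nat_lit 156) (nat_lit 0) (nat_lit 0) (XT.nd (nat_lit 78) (nat_lit 0) (nat_lit 0) (XT.lf (nat_lit 0) (nat_lit 157988699961) (nat_lit 152) (nat_lit 141134139711) (nat_lit 0) (nat_lit 157692588358) (nat_lit 1) (nat_lit 5) (nat_lit 3) (nat_lit 4) (nat_lit 1) (nat_lit 4) (nat_lit 533) (nat_lit 339) (nat_lit 328)) (XT.lf (nat_lit 0) (nat_lit 168358350671) (nat_lit 152) (nat_lit 143130128172) (nat_lit 0) (nat_lit 168042388623) (nat_lit 1) (nat_lit 5) (nat_lit 3) (nat_lit 4) (nat_lit 1) (nat_lit 4) (nat_lit 534) (nat_lit 339) (nat_lit 327))) (XT.nd (nat_lit 78) (nat_lit 0) (nat_lit 0) (XT.lf (nat_lit 0) (nat_lit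 179182877775) (nat_lit 152) (nat_lit 145354371849) (nat_lit 0) (nat_lit 178848010541) (nat_lit 1) (nat_lit 5) (nat_lit 3) (nat_lit 4) (nat_lit 1) (nat_lit 4) (nat_lit 535) (nat_lit 339) (nat_lit 326)) (XT.lf (nat_lit 0) (nat_lit 190488053956) (nat_lit 152) (nat_lit 147812166559) (nat_lit 0) (nat_lit 190135181783) (nat_lit 1) (nat_lit 5) (nat_lit 3) (nat_lit 4) (nat_lit 1) (nat_lit 4) (nat_lit 536) (nat_lit 339) (nat_lit 325))))))))
noncomputable def xc3 : XT := (XT.nd (nat_lit 62478) (nat_lit 0) (nat_lit 0) (XT.nd (nat_lit 61386) (nat_lit 0) (nat_lit 0) (XT.nd (nat_lit 546) (nat_lit 0) (nat_lit 0) (XT.nd (nat_lit 234) (nat_lit 0) (nat_lit 0) (XT.nd (nat_lit 78) (nat_lit 0) (nat_lit 0) (XT.lf (nat_lit 0) (nat_lit 202300796301) (nat_lit 152) (nat_lit 150509364196) (nat_lit 0) (nat_lit 201930776567) (nat_lit 1) (nat_lit 5) (nat_lit 3) (nat_lit 4) (nat_lit 1) (nat_lit 4) (nat_lit 537) (nat_lit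 339) (nat_lit 324)) (XT.nd (nat_lit 78) (nat_lit 0) (nat_lit 0) (XT.lf (nat_lit 0) (nat_lit 214649230386) (nat_lit 152) (nat_lit 153452386659) (nat_lit 0) (nat_lit 214262879642) (nat_lit 1) (nat_lit 5) (nat_lit 3) (nat_lit 4) (nat_lit 1) (nat_lit 4) (nat_lit 538) (nat_lit 339) (nat_lit 323)) (XT.lf (nat_lit 0) (nat_lit 227562757246) (nat_lit 152) (nat_lit 156648241142) (nat_lit 0) (nat_lit 227160853158) (nat_lit 1) (nat_lit 5) (nat_lit 3) (nat_lit 4) (nat_lit 1) (nat_lit 4) (nat_lit 539) (nat_lit 339) (nat_lit 322)))) (XT.nd (nat_lit 156) (nat_lit 0) (nat_lit 0) (XT.nd (nat_lit 78) (nat_lit 0) (nat_lit 0) (XT.lf (nat_lit 0) (nat_lit 241072123372) (nat_lit 152) (nat_lit 160104536825) (nat_lit 0) (nat_lit 240655406576) (nat_lit 1) (nat_lit 5) (nat_lit 3) (nat_lit 4) (nat_lit 1) (nat_lit 4) (nat_lit 540) (nat_lit 339) (nat_lit 321)) (XT.lf (nat_lit 0) (nat_lit 255209493922) (nat_lit 152) (nat_lit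 163829502982) (nat_lit 0) (nat_lit 254778669786) (nat_lit 1) (nat_lit 5) (nat_lit 3) (nat_lit 4) (nat_lit 1) (nat_lit 4) (nat_lit 541) (nat_lit 339) (nat_lit 320))) (XT.nd (nat_lit 78) (nat_lit 0) (nat_lit 0) (XT.lf (nat_lit 0) (nat_lit 270008529302) (nat_lit 152) (nat_lit 167832008581) (nat_lit 0) (nat_lit 269564269603) (nat_lit 1) (nat_lit 5) (nat_lit 3) (nat_lit 4) (nat_lit 1) (nat_lit 4) (nat_lit 542) (nat_lit 339) (nat_lit 319)) (XT.lf (nat_lit 0) (nat_lit 285504465311) (nat_lit 152) (nat_lit 172121583396) (nat_lit 0) (nat_lit 285047409838) (nat_lit 1) (nat_lit 5) (nat_lit 3) (nat_lit 4) (nat_lit 1) (nat_lit 4) (nat_lit 543) (nat_lit 339) (nat_lit 318))))) (XT.nd (nat_lit 234) (nat_lit 0) (nat_lit 0) (XT.nd (nat_lit 78) (nat_lit 0) (nat_lit 0) (XT.lf (nat_lit 0) (nat_lit 301734197034) (nat_lit 152) (nat_lit 176708440701) (nat_lit 0) (nat_lit 301264955110) (nat_lit 1) (nat_lit 5) (nat_lit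 3) (nat_lit 4) (nat_lit 1) (nat_lit 4) (nat_lit 544) (nat_lit 339) (nat_lit 317)) (XT.nd (nat_lit 78) (nat_lit 0) (nat_lit 0) (XT.lf (nat_lit 0) (nat_lit 318736366690) (nat_lit 152) (nat_lit 181603501585) (nat_lit 0) (nat_lit 318255518621) (nat_lit 1) (nat_lit 5) (nat_lit 3) (nat_lit 4) (nat_lit 1) (nat_lit 4) (nat_lit 545) (nat_lit 339) (nat_lit 316)) (XT.lf (nat_lit 0) (nat_lit 336551455635) (nat_lit 152) (nat_lit 186818420954) (nat_lit 0) (nat_lit 336059554096) (nat_lit 1) (nat_lit 5) (nat_lit 3) (nat_lit 4) (nat_lit 1) (nat_lit 4) (nat_lit 546) (nat_lit 339) (nat_lit 315)))) (XT.nd (nat_lit 60450) (nat_lit 0) (nat_lit 0) (XT.nd (nat_lit 60372) (nat_lit 0) (nat_lit 0) (XT.lf (nat_lit 0) (nat_lit 355221880747) (nat_lit 152) (nat_lit 192365615284) (nat_lit 0) (nat_lit 354719452093) (nat_lit 1) (nat_lit 5) (nat_lit 3) (nat_lit 4) (nat_lit 1) (nat_lit 4) (nat_lit 547) (nat_lit 339) (nat_lit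 314)) (XT.lf (nat_lit 0) (nat_lit 27338498571) (nat_lit 152) (nat_lit 67189675672) (nat_lit 0) (nat_lit 27338498571) (nat_lit 1) (nat_lit 5) (nat_lit 3) (nat_lit 4) (nat_lit 1) (nat_lit 4) (nat_lit 520) (nat_lit 340) (nat_lit 340))) (XT.nd (nat_lit 78) (nat_lit 0) (nat_lit 0) (XT.lf (nat_lit 0) (nat_lit 61000835403) (nat_lit 152) (nat_lit 133772563584) (nat_lit 0) (nat_lit 60965186856) (nat_lit 1) (nat_lit 5) (nat_lit 3) (nat_lit 4) (nat_lit 1) (nat_lit 4) (nat_lit 521) (nat_lit 340) (nat_lit 339)) (XT.lf (nat_lit 0) (nat_lit 67526638086) (nat_lit 152) (nat_lit 133366124585) (nat_lit 0) (nat_lit 67457038541) (nat_lit 1) (nat_lit 5) (nat_lit 3) (nat_lit 4) (nat_lit 1) (nat_lit 4) (nat_lit 522) (nat_lit 340) (nat_lit 338)))))) (XT.nd (nat_lit 546) (nat_lit 0) (nat_lit 0) (XT.nd (nat_lit 234) (nat_lit 0) (nat_lit 0) (XT.nd (nat_lit 78) (nat_lit 0) (nat_lit 0) (XT.lf (nat_lit 0) (nat_lit 74269942815)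 (nat_lit 152) (nat_lit 133159066633) (nat_lit 0) (nat_lit 74168008986) (nat_lit 1) (nat_lit 5) (nat_lit 3) (nat_lit 4) (nat_lit 1) (nat_lit 4) (nat_lit 523) (nat_lit 340) (nat_lit 337)) (XT.nd (nat_lit 78) (nat_lit 0) (nat_lit 0) (XT.lf (nat_lit 0) (nat_lit 81246805078) (nat_lit 152) (nat_lit 133150896734) (nat_lit 0) (nat_lit 81114076693) (nat_lit 1) (nat_lit 5) (nat_lit 3) (nat_lit 4) (nat_lit 1) (nat_lit 4) (nat_lit 524) (nat_lit 340) (nat_lit 336)) (XT.lf (nat_lit 0) (nat_lit 88473836452) (nat_lit 152) (nat_lit 133341595435) (nat_lit 0) (nat_lit 88311779919) (nat_lit 1) (nat_lit 5) (nat_lit 3) (nat_lit 4) (nat_lit 1) (nat_lit 4) (nat_lit 525) (nat_lit 340) (nat_lit 335)))) (XT.nd (nat_lit 156) (nat_lit 0) (nat_lit 0) (XT.nd (nat_lit 78) (nat_lit 0) (nat_lit 0) (XT.lf (nat_lit 0) (nat_lit 95968244154) (nat_lit 152) (nat_lit 133731616782) (nat_lit 0) (nat_lit 95778256051) (nat_lit 1) (nat_lit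 5) (nat_lit 3) (nat_lit 4) (nat_lit 1) (nat_lit 4) (nat_lit 526) (nat_lit 340) (nat_lit 334)) (XT.lf (nat_lit 0) (nat_lit 103747872013) (nat_lit 152) (nat_lit 134321889396) (nat_lit 0) (nat_lit 103531282415) (nat_lit 1) (nat_lit 5) (nat_lit 3) (nat_lit 4) (nat_lit 1) (nat_lit 4) (nat_lit 527) (nat_lit 340) (nat_lit 333))) (XT.nd (nat_lit 78) (nat_lit 0) (nat_lit 0) (XT.lf (nat_lit 0) (nat_lit 111831242951) (nat_lit 152) (nat_lit 135113818689) (nat_lit 0) (nat_lit 111589318596) (nat_lit 1) (nat_lit 5) (nat_lit 3) (nat_lit 4) (nat_lit 1) (nat_lit 4) (nat_lit 528) (nat_lit 340) (nat_lit 332)) (XT.lf (nat_lit 0) (nat_lit 120237603090) (nat_lit 152) (nat_lit 136109290206) (nat_lit 0) (nat_lit 119971550394) (nat_lit 1) (nat_lit 5) (nat_lit 3) (nat_lit 4) (nat_lit 1) (nat_lit 4) (nat_lit 529) (nat_lit 340) (nat_lit 331))))) (XT.nd (nat_lit 234) (nat_lit 0) (nat_lit 0) (XT.nd (nat_lit 78) (nat_lit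 0) (nat_lit 0) (XT.lf (nat_lit 0) (nat_lit 128986967573) (nat_lit 152) (nat_lit 137310674117) (nat_lit 0) (nat_lit 128697935506) (nat_lit 1) (nat_lit 5) (nat_lit 3) (nat_lit 4) (nat_lit 1) (nat_lit 4) (nat_lit 530) (nat_lit 340) (nat_lit 330)) (XT.nd (nat_lit 78) (nat_lit 0) (nat_lit 0) (XT.lf (nat_lit 0) (nat_lit 138100168221) (nat_lit 152) (nat_lit 138720830861) (nat_lit 0) (nat_lit 137789251038) (nat_lit 1) (nat_lit 5) (nat_lit 3) (nat_lit 4) (nat_lit 1) (nat_lit 4) (nat_lit 531) (nat_lit 340) (nat_lit 329)) (XT.lf (nat_lit 0) (nat_lit 147598903130) (nat_lit 152) (nat_lit 140343117954) (nat_lit 0) (nat_lit 147267142979) (nat_lit 1) (nat_lit 5) (nat_lit 3) (nat_lit 4) (nat_lit 1) (nat_lit 4) (nat_lit 532) (nat_lit 340) (nat_lit 328)))) (XT.nd (nat_lit 156) (nat_lit 0) (nat_lit 0) (XT.nd (nat_lit 78) (nat_lit 0) (nat_lit 0) (XT.lf (nat_lit 0) (nat_lit 157505788335) (nat_lit 152) (nat_lit 142181397983)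 (nat_lit 0) (nat_lit 157154177739) (nat_lit 1) (nat_lit 5) (nat_lit 3) (nat_lit 4) (nat_lit 1) (nat_lit 4) (nat_lit 533) (nat_lit 340) (nat_lit 327)) (XT.lf (nat_lit 0) (nat_lit 167844411659) (nat_lit 152) (nat_lit 144240047806) (nat_lit 0) (nat_lit 167473895877) (nat_lit 1) (nat_lit 5) (nat_lit 3) (nat_lit 4) (nat_lit 1) (nat_lit 4) (nat_lit 534) (nat_lit 340) (nat_lit 326))) (XT.nd (nat_lit 78) (nat_lit 0) (nat_lit 0) (XT.lf (nat_lit 0) (nat_lit 178639388871) (nat_lit 152) (nat_lit 146523968971) (nat_lit 0) (nat_lit 178250868151) (nat_lit 1) (nat_lit 5) (nat_lit 3) (nat_lit 4) (nat_lit 1) (nat_lit 4) (nat_lit 535) (nat_lit 340) (nat_lit 325)) (XT.lf (nat_lit 0) (nat_lit 189916422299) (nat_lit 152) (nat_lit 149038599385) (nat_lit 0) (nat_lit 189510754017) (nat_lit 1) (nat_lit 5) (nat_lit 3) (nat_lit 4) (nat_lit 1) (nat_lit 4) (nat_lit 536) (nat_lit 340) (nat_lit 324))))))) (XT.nd (nat_lit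 61308) (nat_lit 0) (nat_lit 0) (XT.nd (nat_lit 546) (nat_lit 0) (nat_lit 0) (XT.nd (nat_lit 234) (nat_lit 0) (nat_lit 0) (XT.nd (nat_lit 78) (nat_lit 0) (nat_lit 0) (XT.lf (nat_lit 0) (nat_lit 201702362021) (nat_lit 152) (nat_lit 151789926262) (nat_lit 0) (nat_lit 201280362729) (nat_lit 1) (nat_lit 5) (nat_lit 3) (nat_lit 4) (nat_lit 1) (nat_lit 4) (nat_lit 537) (nat_lit 340) (nat_lit 323)) (XT.nd (nat_lit 78) (nat_lit 0) (nat_lit 0) (XT.lf (nat_lit 0) (nat_lit 214025269799) (nat_lit 152) (nat_lit 154784500382) (nat_lit 0) (nat_lit 213587717163) (nat_lit 1) (nat_lit 5) (nat_lit 3) (nat_lit 4) (nat_lit 1) (nat_lit 4) (nat_lit 538) (nat_lit 340) (nat_lit 322)) (XT.lf (nat_lit 0) (nat_lit 226914485889) (nat_lit 152) (nat_lit 158029451683) (nat_lit 0) (nat_lit 226462120546) (nat_lit 1) (nat_lit 5) (nat_lit 3) (nat_lit 4) (nat_lit 1) (nat_lit 4) (nat_lit 539) (nat_lit 340) (nat_lit 321)))) (XT.nd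 (nat_lit 156) (nat_lit 0) (nat_lit 0) (XT.nd (nat_lit 78) (nat_lit 0) (nat_lit 0) (XT.lf (nat_lit 0) (nat_lit 240400698902) (nat_lit 152) (nat_lit 161532506239) (nat_lit 0) (nat_lit 239934226218) (nat_lit 1) (nat_lit 5) (nat_lit 3) (nat_lit 4) (nat_lit 1) (nat_lit 4) (nat_lit 540) (nat_lit 340) (nat_lit 320)) (XT.lf (nat_lit 0) (nat_lit 254516018868) (nat_lit 152) (nat_lit 165302004656) (nat_lit 0) (nat_lit 254036110621) (nat_lit 1) (nat_lit 5) (nat_lit 3) (nat_lit 4) (nat_lit 1) (nat_lit 4) (nat_lit 541) (nat_lit 340) (nat_lit 319))) (XT.nd (nat_lit 78) (nat_lit 0) (nat_lit 0) (XT.lf (nat_lit 0) (nat_lit 269294053692) (nat_lit 152) (nat_lit 169346921931) (nat_lit 0) (nat_lit 268801349671) (nat_lit 1) (nat_lit 5) (nat_lit 3) (nat_lit 4) (nat_lit 1) (nat_lit 4) (nat_lit 542) (nat_lit 340) (nat_lit 318)) (XT.lf (nat_lit 0) (nat_lit 284769989171) (nat_lit 152) (nat_lit 173676888819) (nat_lit 0)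 (nat_lit 284265098699) (nat_lit 1) (nat_lit 5) (nat_lit 3) (nat_lit 4) (nat_lit 1) (nat_lit 4) (nat_lit 543) (nat_lit 340) (nat_lit 317))))) (XT.nd (nat_lit 60450) (nat_lit 0) (nat_lit 0) (XT.nd (nat_lit 78) (nat_lit 0) (nat_lit 0) (XT.lf (nat_lit 0) (nat_lit 300980672770) (nat_lit 152) (nat_lit 178302214765) (nat_lit 0) (nat_lit 300464176154) (nat_lit 1) (nat_lit 5) (nat_lit 3) (nat_lit 4) (nat_lit 1) (nat_lit 4) (nat_lit 544) (nat_lit 340) (nat_lit 316)) (XT.nd (nat_lit 78) (nat_lit 0) (nat_lit 0) (XT.lf (nat_lit 0) (nat_lit 317964701356) (nat_lit 152) (nat_lit 183233912450) (nat_lit 0) (nat_lit 317437151269) (nat_lit 1) (nat_lit 5) (nat_lit 3) (nat_lit 4) (nat_lit 1) (nat_lit 4) (nat_lit 545) (nat_lit 340) (nat_lit 315)) (XT.lf (nat_lit 0) (nat_lit 335762513091) (nat_lit 152) (nat_lit 188483724011) (nat_lit 0) (nat_lit 335224435890) (nat_lit 1) (nat_lit 5) (nat_lit 3) (nat_lit 4) (nat_lit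 1) (nat_lit 4) (nat_lit 546) (nat_lit 340) (nat_lit 314)))) (XT.nd (nat_lit 156) (nat_lit 0) (nat_lit 0) (XT.nd (nat_lit 78) (nat_lit 0) (nat_lit 0) (XT.lf (nat_lit 0) (nat_lit 21337147473) (nat_lit 152) (nat_lit 68038083661) (nat_lit 0) (nat_lit 21337147473) (nat_lit 1) (nat_lit 5) (nat_lit 3) (nat_lit 4) (nat_lit 1) (nat_lit 4) (nat_lit 518) (nat_lit 341) (nat_lit 341)) (XT.lf (nat_lit 0) (nat_lit 48577497519) (nat_lit 152) (nat_lit 135187932596) (nat_lit 0) (nat_lit 48540066544) (nat_lit 1) (nat_lit 5) (nat_lit 3) (nat_lit 4) (nat_lit 1) (nat_lit 4) (nat_lit 519) (nat_lit 341) (nat_lit 340))) (XT.nd (nat_lit 78) (nat_lit 0) (nat_lit 0) (XT.lf (nat_lit 0) (nat_lit 54655921353) (nat_lit 152) (nat_lit 134497508688) (nat_lit 0) (nat_lit 54582841830) (nat_lit 1) (nat_lit 5) (nat_lit 3) (nat_lit 4) (nat_lit 1) (nat_lit 4) (nat_lit 520) (nat_lit 341) (nat_lit 339)) (XT.lf (nat_lit 0) (nat_lit 60924038886)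 (nat_lit 152) (nat_lit 134003251732) (nat_lit 0) (nat_lit 60817008366) (nat_lit 1) (nat_lit 5) (nat_lit 3) (nat_lit 4) (nat_lit 1) (nat_lit 4) (nat_lit 521) (nat_lit 341) (nat_lit 338)))))) (XT.nd (nat_lit 546) (nat_lit 0) (nat_lit 0) (XT.nd (nat_lit 234) (nat_lit 0) (nat_lit 0) (XT.nd (nat_lit 78) (nat_lit 0) (nat_lit 0) (XT.lf (nat_lit 0) (nat_lit 67396774209) (nat_lit 152) (nat_lit 133703984926) (nat_lit 0) (nat_lit 67257409405) (nat_lit 1) (nat_lit 5) (nat_lit 3) (nat_lit 4) (nat_lit 1) (nat_lit 4) (nat_lit 522) (nat_lit 341) (nat_lit 337)) (XT.nd (nat_lit 78) (nat_lit 0) (nat_lit 0) (XT.lf (nat_lit 0) (nat_lit 74089538596) (nat_lit 152) (nat_lit 133598995731) (nat_lit 0) (nat_lit 73919379236) (nat_lit 1) (nat_lit 5) (nat_lit 3) (nat_lit 4) (nat_lit 1) (nat_lit 4) (nat_lit 523) (nat_lit 341) (nat_lit 336)) (XT.lf (nat_lit 0) (nat_lit 81018267199) (nat_lit 152) (nat_lit 133688034171) (nat_lit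 0) (nat_lit 80818779691) (nat_lit 1) (nat_lit 5) (nat_lit 3) (nat_lit 4) (nat_lit 1) (nat_lit 4) (nat_lit 524) (nat_lit 341) (nat_lit 335)))) (XT.nd (nat_lit 156) (nat_lit 0) (nat_lit 0) (XT.nd (nat_lit 78) (nat_lit 0) (nat_lit 0) (XT.lf (nat_lit 0) (nat_lit 88199456992) (nat_lit 152) (nat_lit 133971312244) (nat_lit 0) (nat_lit 87972037914) (nat_lit 1) (nat_lit 5) (nat_lit 3) (nat_lit 4) (nat_lit 1) (nat_lit 4) (nat_lit 525) (nat_lit 341) (nat_lit 334)) (XT.lf (nat_lit 0) (nat_lit 95650206046) (nat_lit 152) (nat_lit 134449504420) (nat_lit 0) (nat_lit 95396185473) (nat_lit 1) (nat_lit 5) (nat_lit 3) (nat_lit 4) (nat_lit 1) (nat_lit 4) (nat_lit 526) (nat_lit 341) (nat_lit 333))) (XT.nd (nat_lit 78) (nat_lit 0) (nat_lit 0) (XT.lf (nat_lit 0) (nat_lit 103388254240) (nat_lit 152) (nat_lit 135123749252) (nat_lit 0) (nat_lit 103108898909) (nat_lit 1) (nat_lit 5) (nat_lit 3) (nat_lit 4) (nat_lit 1)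 (nat_lit 4) (nat_lit 527) (nat_lit 341) (nat_lit 332)) (XT.lf (nat_lit 0) (nat_lit 111432025497) (nat_lit 152) (nat_lit 135995652086) (nat_lit 0) (nat_lit 111128541826) (nat_lit 1) (nat_lit 5) (nat_lit 3) (nat_lit 4) (nat_lit 1) (nat_lit 4) (nat_lit 528) (nat_lit 341) (nat_lit 331))))) (XT.nd (nat_lit 312) (nat_lit 0) (nat_lit 0) (XT.nd (nat_lit 156) (nat_lit 0) (nat_lit 0) (XT.nd (nat_lit 78) (nat_lit 0) (nat_lit 0) (XT.lf (nat_lit 0) (nat_lit 119800671654) (nat_lit 152) (nat_lit 137067288880) (nat_lit 0) (nat_lit 119474208612) (nat_lit 1) (nat_lit 5) (nat_lit 3) (nat_lit 4) (nat_lit 1) (nat_lit 4) (nat_lit 529) (nat_lit 341) (nat_lit 330)) (XT.lf (nat_lit 0) (nat_lit 128514118059) (nat_lit 152) (nat_lit 138341211151) (nat_lit 0) (nat_lit 128165769901) (nat_lit 1) (nat_lit 5) (nat_lit 3) (nat_lit 4) (nat_lit 1) (nat_lit 4) (nat_lit 530) (nat_lit 341) (nat_lit 329))) (XT.nd (nat_lit 78) (nat_lit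 0) (nat_lit 0) (XT.lf (nat_lit 0) (nat_lit 137593111014) (nat_lit 152) (nat_lit 139820452047) (nat_lit 0) (nat_lit 137223919888) (nat_lit 1) (nat_lit 5) (nat_lit 3) (nat_lit 4) (nat_lit 1) (nat_lit 4) (nat_lit 531) (nat_lit 341) (nat_lit 328)) (XT.lf (nat_lit 0) (nat_lit 147059267167) (nat_lit 152) (nat_lit 141508533570) (nat_lit 0) (nat_lit 146670225596) (nat_lit 1) (nat_lit 5) (nat_lit 3) (nat_lit 4) (nat_lit 1) (nat_lit 4) (nat_lit 532) (nat_lit 341) (nat_lit 327)))) (XT.nd (nat_lit 156) (nat_lit 0) (nat_lit 0) (XT.nd (nat_lit 78) (nat_lit 0) (nat_lit 0) (XT.lf (nat_lit 0) (nat_lit 156935124986) (nat_lit 152) (nat_lit 143409474962) (nat_lit 0) (nat_lit 156527178230) (nat_lit 1) (nat_lit 5) (nat_lit 3) (nat_lit 4) (nat_lit 1) (nat_lit 4) (nat_lit 533) (nat_lit 341) (nat_lit 326)) (XT.lf (nat_lit 0) (nat_lit 167244198419) (nat_lit 152) (nat_lit 145527802273) (nat_lit 0) (nat_lit 166818246723)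 (nat_lit 1) (nat_lit 5) (nat_lit 3) (nat_lit 4) (nat_lit 1) (nat_lit 4) (nat_lit 534) (nat_lit 341) (nat_lit 325))) (XT.nd (nat_lit 78) (nat_lit 0) (nat_lit 0) (XT.lf (nat_lit 0) (nat_lit 178011032877) (nat_lit 152) (nat_lit 147868559140) (nat_lit 0) (nat_lit 177567933620) (nat_lit 1) (nat_lit 5) (nat_lit 3) (nat_lit 4) (nat_lit 1) (nat_lit 4) (nat_lit 535) (nat_lit 341) (nat_lit 324)) (XT.lf (nat_lit 0) (nat_lit 189261263682) (nat_lit 152) (nat_lit 150437318795) (nat_lit 0) (nat_lit 188801833415) (nat_lit 1) (nat_lit 5) (nat_lit 3) (nat_lit 4) (nat_lit 1) (nat_lit 4) (nat_lit 536) (nat_lit 341) (nat_lit 323))))))))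
noncomputable def xc4 : XT := (XT.nd (nat_lit 62244) (nat_lit 0) (nat_lit 0) (XT.nd (nat_lit 61152) (nat_lit 0) (nat_lit 0) (XT.nd (nat_lit 546) (nat_lit 0) (nat_lit 0) (XT.nd (nat_lit 234) (nat_lit 0) (nat_lit 0) (XT.nd (nat_lit 78) (nat_lit 0) (nat_lit 0) (XT.lf (nat_lit 0) (nat_lit 201021677096) (nat_lit 152) (nat_lit 153240197330) (nat_lit 0) (nat_lit 200546693486) (nat_lit 1) (nat_lit 5) (nat_lit 3) (nat_lit 4) (nat_lit 1) (nat_lit 4) (nat_lit 537) (nat_lit 341) (nat_lit 322)) (XT.nd (nat_lit 78) (nat_lit 0) (nat_lit 0) (XT.lf (nat_lit 0) (nat_lit 213320274105) (nat_lit 152) (nat_lit 156283868267) (nat_lit 0) (nat_lit 212830477787) (nat_lit 1) (nat_lit 5) (nat_lit 3) (nat_lit 4) (nat_lit 1) (nat_lit 4) (nat_lit 538) (nat_lit 341) (nat_lit 321)) (XT.lf (nat_lit 0) (nat_lit 226186337082) (nat_lit 152) (nat_lit 159575578441) (nat_lit 0) (nat_lit 225682433423) (nat_lit 1) (nat_lit 5) (nat_lit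 3) (nat_lit 4) (nat_lit 1) (nat_lit 4) (nat_lit 539) (nat_lit 341) (nat_lit 320)))) (XT.nd (nat_lit 156) (nat_lit 0) (nat_lit 0) (XT.nd (nat_lit 78) (nat_lit 0) (nat_lit 0) (XT.lf (nat_lit 0) (nat_lit 239650499511) (nat_lit 152) (nat_lit 163123165257) (nat_lit 0) (nat_lit 239133160289) (nat_lit 1) (nat_lit 5) (nat_lit 3) (nat_lit 4) (nat_lit 1) (nat_lit 4) (nat_lit 540) (nat_lit 341) (nat_lit 319)) (XT.lf (nat_lit 0) (nat_lit 253744818921) (nat_lit 152) (nat_lit 166935075351) (nat_lit 0) (nat_lit 253214683925) (nat_lit 1) (nat_lit 5) (nat_lit 3) (nat_lit 4) (nat_lit 1) (nat_lit 4) (nat_lit 541) (nat_lit 341) (nat_lit 318))) (XT.nd (nat_lit 78) (nat_lit 0) (nat_lit 0) (XT.lf (nat_lit 0) (nat_lit 268502853215) (nat_lit 152) (nat_lit 171020384699) (nat_lit 0) (nat_lit 267960531768) (nat_lit 1) (nat_lit 5) (nat_lit 3) (nat_lit 4) (nat_lit 1) (nat_lit 4) (nat_lit 542) (nat_lit 341) (nat_lit 317))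 (XT.lf (nat_lit 0) (nat_lit 283959740570) (nat_lit 152) (nat_lit 175388820227) (nat_lit 0) (nat_lit 283405812979) (nat_lit 1) (nat_lit 5) (nat_lit 3) (nat_lit 4) (nat_lit 1) (nat_lit 4) (nat_lit 543) (nat_lit 341) (nat_lit 316))))) (XT.nd (nat_lit 60294) (nat_lit 0) (nat_lit 0) (XT.nd (nat_lit 78) (nat_lit 0) (nat_lit 0) (XT.lf (nat_lit 0) (nat_lit 300152283099) (nat_lit 152) (nat_lit 180050782974) (nat_lit 0) (nat_lit 299587302038) (nat_lit 1) (nat_lit 5) (nat_lit 3) (nat_lit 4) (nat_lit 1) (nat_lit 4) (nat_lit 544) (nat_lit 341) (nat_lit 315)) (XT.nd (nat_lit 78) (nat_lit 0) (nat_lit 0) (XT.lf (nat_lit 0) (nat_lit 317119034476) (nat_lit 152) (nat_lit 185017372850) (nat_lit 0) (nat_lit 316543526299) (nat_lit 1) (nat_lit 5) (nat_lit 3) (nat_lit 4) (nat_lit 1) (nat_lit 4) (nat_lit 545) (nat_lit 341) (nat_lit 314)) (XT.lf (nat_lit 0) (nat_lit 334900391726) (nat_lit 152) (nat_lit 190300415069)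 (nat_lit 0) (nat_lit 334314857725) (nat_lit 1) (nat_lit 5) (nat_lit 3) (nat_lit 4) (nat_lit 1) (nat_lit 4) (nat_lit 546) (nat_lit 341) (nat_lit 313)))) (XT.nd (nat_lit 156) (nat_lit 0) (nat_lit 0) (XT.nd (nat_lit 78) (nat_lit 0) (nat_lit 0) (XT.lf (nat_lit 0) (nat_lit 15720761286) (nat_lit 152) (nat_lit 69162368076) (nat_lit 0) (nat_lit 15720761286) (nat_lit 1) (nat_lit 5) (nat_lit 3) (nat_lit 4) (nat_lit 1) (nat_lit 4) (nat_lit 516) (nat_lit 342) (nat_lit 342)) (XT.lf (nat_lit 0) (nat_lit 36971560917) (nat_lit 152) (nat_lit 137164327713) (nat_lit 0) (nat_lit 36932258393) (nat_lit 1) (nat_lit 5) (nat_lit 3) (nat_lit 4) (nat_lit 1) (nat_lit 4) (nat_lit 517) (nat_lit 342) (nat_lit 341))) (XT.nd (nat_lit 78) (nat_lit 0) (nat_lit 0) (XT.lf (nat_lit 0) (nat_lit 42652165368) (nat_lit 152) (nat_lit 136200232534) (nat_lit 0) (nat_lit 42575431870) (nat_lit 1) (nat_lit 5) (nat_lit 3) (nat_lit 4) (nat_lit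 1) (nat_lit 4) (nat_lit 518) (nat_lit 342) (nat_lit 340)) (XT.lf (nat_lit 0) (nat_lit 48496861176) (nat_lit 152) (nat_lit 135430155151) (nat_lit 0) (nat_lit 48384479130) (nat_lit 1) (nat_lit 5) (nat_lit 3) (nat_lit 4) (nat_lit 1) (nat_lit 4) (nat_lit 519) (nat_lit 342) (nat_lit 339)))))) (XT.nd (nat_lit 546) (nat_lit 0) (nat_lit 0) (XT.nd (nat_lit 234) (nat_lit 0) (nat_lit 0) (XT.nd (nat_lit 78) (nat_lit 0) (nat_lit 0) (XT.lf (nat_lit 0) (nat_lit 54519564282) (nat_lit 152) (nat_lit 134852262047) (nat_lit 0) (nat_lit 54373231238) (nat_lit 1) (nat_lit 5) (nat_lit 3) (nat_lit 4) (nat_lit 1) (nat_lit 4) (nat_lit 520) (nat_lit 342) (nat_lit 338)) (XT.nd (nat_lit 78) (nat_lit 0) (nat_lit 0) (XT.lf (nat_lit 0) (nat_lit 60734614456) (nat_lit 152) (nat_lit 134465177285) (nat_lit 0) (nat_lit 60555947128) (nat_lit 1) (nat_lit 5) (nat_lit 3) (nat_lit 4) (nat_lit 1) (nat_lit 4) (nat_lit 521) (nat_lit 342)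 (nat_lit 337)) (XT.lf (nat_lit 0) (nat_lit 67156809436) (nat_lit 152) (nat_lit 134267979236) (nat_lit 0) (nat_lit 66947347553) (nat_lit 1) (nat_lit 5) (nat_lit 3) (nat_lit 4) (nat_lit 1) (nat_lit 4) (nat_lit 522) (nat_lit 342) (nat_lit 336)))) (XT.nd (nat_lit 156) (nat_lit 0) (nat_lit 0) (XT.nd (nat_lit 78) (nat_lit 0) (nat_lit 0) (XT.lf (nat_lit 0) (nat_lit 73801440163) (nat_lit 152) (nat_lit 134260198380) (nat_lit 0) (nat_lit 73562650131) (nat_lit 1) (nat_lit 5) (nat_lit 3) (nat_lit 4) (nat_lit 1) (nat_lit 4) (nat_lit 523) (nat_lit 342) (nat_lit 335)) (XT.lf (nat_lit 0) (nat_lit 80684327186) (nat_lit 152) (nat_lit 134441816191) (nat_lit 0) (nat_lit 80417605584) (nat_lit 1) (nat_lit 5) (nat_lit 3) (nat_lit 4) (nat_lit 1) (nat_lit 4) (nat_lit 524) (nat_lit 342) (nat_lit 334))) (XT.nd (nat_lit 78) (nat_lit 0) (nat_lit 0) (XT.lf (nat_lit 0) (nat_lit 87821858331) (nat_lit 152) (nat_lit 134813265092)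 (nat_lit 0) (nat_lit 87528535234) (nat_lit 1) (nat_lit 5) (nat_lit 3) (nat_lit 4) (nat_lit 1) (nat_lit 4) (nat_lit 525) (nat_lit 342) (nat_lit 333)) (XT.lf (nat_lit 0) (nat_lit 95231027720) (nat_lit 152) (nat_lit 135375429487) (nat_lit 0) (nat_lit 94912369866) (nat_lit 1) (nat_lit 5) (nat_lit 3) (nat_lit 4) (nat_lit 1) (nat_lit 4) (nat_lit 526) (nat_lit 342) (nat_lit 332))))) (XT.nd (nat_lit 234) (nat_lit 0) (nat_lit 0) (XT.nd (nat_lit 78) (nat_lit 0) (nat_lit 0) (XT.lf (nat_lit 0) (nat_lit 102929476232) (nat_lit 152) (nat_lit 136129647860) (nat_lit 0) (nat_lit 102586690038) (nat_lit 1) (nat_lit 5) (nat_lit 3) (nat_lit 4) (nat_lit 1) (nat_lit 4) (nat_lit 527) (nat_lit 342) (nat_lit 331)) (XT.nd (nat_lit 78) (nat_lit 0) (nat_lit 0) (XT.lf (nat_lit 0) (nat_lit 110935533507) (nat_lit 152) (nat_lit 137077715972) (nat_lit 0) (nat_lit 110569767942) (nat_lit 1) (nat_lit 5) (nat_lit 3) (nat_lit 4)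 (nat_lit 1) (nat_lit 4) (nat_lit 528) (nat_lit 342) (nat_lit 330)) (XT.lf (nat_lit 0) (nat_lit 119268261587) (nat_lit 152) (nat_lit 138221891126) (nat_lit 0) (nat_lit 118880610905) (nat_lit 1) (nat_lit 5) (nat_lit 3) (nat_lit 4) (nat_lit 1) (nat_lit 4) (nat_lit 529) (nat_lit 342) (nat_lit 329)))) (XT.nd (nat_lit 156) (nat_lit 0) (nat_lit 0) (XT.nd (nat_lit 78) (nat_lit 0) (nat_lit 0) (XT.lf (nat_lit 0) (nat_lit 127947500299) (nat_lit 152) (nat_lit 139564897548) (nat_lit 0) (nat_lit 127539006650) (nat_lit 1) (nat_lit 5) (nat_lit 3) (nat_lit 4) (nat_lit 1) (nat_lit 4) (nat_lit 530) (nat_lit 342) (nat_lit 328)) (XT.lf (nat_lit 0) (nat_lit 136993914498) (nat_lit 152) (nat_lit 141109932875) (nat_lit 0) (nat_lit 136565570403) (nat_lit 1) (nat_lit 5) (nat_lit 3) (nat_lit 4) (nat_lit 1) (nat_lit 4) (nat_lit 531) (nat_lit 342) (nat_lit 327))) (XT.nd (nat_lit 78) (nat_lit 0) (nat_lit 0) (XT.lf (nat_lit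 0) (nat_lit 146429043265) (nat_lit 152) (nat_lit 142860675760) (nat_lit 0) (nat_lit 145981793984) (nat_lit 1) (nat_lit 5) (nat_lit 3) (nat_lit 4) (nat_lit 1) (nat_lit 4) (nat_lit 532) (nat_lit 342) (nat_lit 326)) (XT.lf (nat_lit 0) (nat_lit 156275351192) (nat_lit 152) (nat_lit 144821294639) (nat_lit 0) (nat_lit 155810096973) (nat_lit 1) (nat_lit 5) (nat_lit 3) (nat_lit 4) (nat_lit 1) (nat_lit 4) (nat_lit 533) (nat_lit 342) (nat_lit 325))))))) (XT.nd (nat_lit 60996) (nat_lit 0) (nat_lit 0) (XT.nd (nat_lit 546) (nat_lit 0) (nat_lit 0) (XT.nd (nat_lit 234) (nat_lit 0) (nat_lit 0) (XT.nd (nat_lit 78) (nat_lit 0) (nat_lit 0) (XT.lf (nat_lit 0) (nat_lit 166556281871) (nat_lit 152) (nat_lit 146996457653) (nat_lit 0) (nat_lit 166073880090) (nat_lit 1) (nat_lit 5) (nat_lit 3) (nat_lit 4) (nat_lit 1) (nat_lit 4) (nat_lit 534) (nat_lit 342) (nat_lit 324)) (XT.nd (nat_lit 78) (nat_lit 0) (nat_lit 0) (XT.lf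 (nat_lit 0) (nat_lit 177296313706) (nat_lit 152) (nat_lit 149391343761) (nat_lit 0) (nat_lit 176797580916) (nat_lit 1) (nat_lit 5) (nat_lit 3) (nat_lit 4) (nat_lit 1) (nat_lit 4) (nat_lit 535) (nat_lit 342) (nat_lit 323)) (XT.lf (nat_lit 0) (nat_lit 188521018203) (nat_lit 152) (nat_lit 152011655073) (nat_lit 0) (nat_lit 188006732069) (nat_lit 1) (nat_lit 5) (nat_lit 3) (nat_lit 4) (nat_lit 1) (nat_lit 4) (nat_lit 536) (nat_lit 342) (nat_lit 322)))) (XT.nd (nat_lit 156) (nat_lit 0) (nat_lit 0) (XT.nd (nat_lit 78) (nat_lit 0) (nat_lit 0) (XT.lf (nat_lit 0) (nat_lit 200257120849) (nat_lit 152) (nat_lit 154863630426) (nat_lit 0) (nat_lit 199728022007) (nat_lit 1) (nat_lit 5) (nat_lit 3) (nat_lit 4) (nat_lit 1) (nat_lit 4) (nat_lit 537) (nat_lit 342) (nat_lit 321)) (XT.lf (nat_lit 0) (nat_lit 212532564745) (nat_lit 152) (nat_lit 157954060236) (nat_lit 0) (nat_lit 211989358562) (nat_lit 1) (nat_lit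 5) (nat_lit 3) (nat_lit 4) (nat_lit 1) (nat_lit 4) (nat_lit 538) (nat_lit 342) (nat_lit 320))) (XT.nd (nat_lit 78) (nat_lit 0) (nat_lit 0) (XT.lf (nat_lit 0) (nat_lit 225376577138) (nat_lit 152) (nat_lit 161290302670) (nat_lit 0) (nat_lit 224819935393) (nat_lit 1) (nat_lit 5) (nat_lit 3) (nat_lit 4) (nat_lit 1) (nat_lit 4) (nat_lit 539) (nat_lit 342) (nat_lit 319)) (XT.lf (nat_lit 0) (nat_lit 238819739010) (nat_lit 152) (nat_lit 164880301163) (nat_lit 0) (nat_lit 238250301491) (nat_lit 1) (nat_lit 5) (nat_lit 3) (nat_lit 4) (nat_lit 1) (nat_lit 4) (nat_lit 540) (nat_lit 342) (nat_lit 318))))) (XT.nd (nat_lit 234) (nat_lit 0) (nat_lit 0) (XT.nd (nat_lit 78) (nat_lit 0) (nat_lit 0) (XT.lf (nat_lit 0) (nat_lit 252894057890) (nat_lit 152) (nat_lit 168732603329) (nat_lit 0) (nat_lit 252312433919) (nat_lit 1) (nat_lit 5) (nat_lit 3) (nat_lit 4) (nat_lit 1) (nat_lit 4) (nat_lit 541) (nat_lit 342)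 (nat_lit 317)) (XT.nd (nat_lit 78) (nat_lit 0) (nat_lit 0) (XT.lf (nat_lit 0) (nat_lit 267633044060) (nat_lit 152) (nat_lit 172856381318) (nat_lit 0) (nat_lit 267039813946) (nat_lit 1) (nat_lit 5) (nat_lit 3) (nat_lit 4) (nat_lit 1) (nat_lit 4) (nat_lit 542) (nat_lit 342) (nat_lit 316)) (XT.lf (nat_lit 0) (nat_lit 283071790346) (nat_lit 152) (nat_lit 177261453647) (nat_lit 0) (nat_lit 282467506760) (nat_lit 1) (nat_lit 5) (nat_lit 3) (nat_lit 4) (nat_lit 1) (nat_lit 4) (nat_lit 543) (nat_lit 342) (nat_lit 315)))) (XT.nd (nat_lit 156) (nat_lit 0) (nat_lit 0) (XT.nd (nat_lit 78) (nat_lit 0) (nat_lit 0) (XT.lf (nat_lit 0) (nat_lit 299247055665) (nat_lit 152) (nat_lit 181958308585) (nat_lit 0) (nat_lit 298632244965) (nat_lit 1) (nat_lit 5) (nat_lit 3) (nat_lit 4) (nat_lit 1) (nat_lit 4) (nat_lit 544) (nat_lit 342) (nat_lit 314)) (XT.lf (nat_lit 0) (nat_lit 316197352556) (nat_lit 152) (nat_lit 186958129119)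 (nat_lit 0) (nat_lit 315572516032) (nat_lit 1) (nat_lit 5) (nat_lit 3) (nat_lit 4) (nat_lit 1) (nat_lit 4) (nat_lit 545) (nat_lit 342) (nat_lit 313))) (XT.nd (nat_lit 59982) (nat_lit 0) (nat_lit 0) (XT.lf (nat_lit 0) (nat_lit 333963038868) (nat_lit 152) (nat_lit 192272819584) (nat_lit 0) (nat_lit 333328653940) (nat_lit 1) (nat_lit 5) (nat_lit 3) (nat_lit 4) (nat_lit 1) (nat_lit 4) (nat_lit 546) (nat_lit 342) (nat_lit 312)) (XT.lf (nat_lit 0) (nat_lit 10444900429) (nat_lit 152) (nat_lit 70554618210) (nat_lit 0) (nat_lit 10444900429) (nat_lit 1) (nat_lit 5) (nat_lit 3) (nat_lit 4) (nat_lit 1) (nat_lit 4) (nat_lit 514) (nat_lit 343) (nat_lit 343)))))) (XT.nd (nat_lit 546) (nat_lit 0) (nat_lit 0) (XT.nd (nat_lit 234) (nat_lit 0) (nat_lit 0) (XT.nd (nat_lit 78) (nat_lit 0) (nat_lit 0) (XT.lf (nat_lit 0) (nat_lit 26090151227) (nat_lit 152) (nat_lit 139684220731) (nat_lit 0) (nat_lit 26048883577)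 (nat_lit 1) (nat_lit 5) (nat_lit 3) (nat_lit 4) (nat_lit 1) (nat_lit 4) (nat_lit 515) (nat_lit 343) (nat_lit 342)) (XT.nd (nat_lit 78) (nat_lit 0) (nat_lit 0) (XT.lf (nat_lit 0) (nat_lit 31418286515) (nat_lit 152) (nat_lit 138455004625) (nat_lit 0) (nat_lit 31337716341) (nat_lit 1) (nat_lit 5) (nat_lit 3) (nat_lit 4) (nat_lit 1) (nat_lit 4) (nat_lit 516) (nat_lit 343) (nat_lit 341)) (XT.lf (nat_lit 0) (nat_lit 36886892757) (nat_lit 152) (nat_lit 137418661396) (nat_lit 0) (nat_lit 36768891608) (nat_lit 1) (nat_lit 5) (nat_lit 3) (nat_lit 4) (nat_lit 1) (nat_lit 4) (nat_lit 517) (nat_lit 343) (nat_lit 340)))) (XT.nd (nat_lit 156) (nat_lit 0) (nat_lit 0) (XT.nd (nat_lit 78) (nat_lit 0) (nat_lit 0) (XT.lf (nat_lit 0) (nat_lit 42508990444) (nat_lit 152) (nat_lit 136572723561) (nat_lit 0) (nat_lit 42355340748) (nat_lit 1) (nat_lit 5) (nat_lit 3) (nat_lit 4) (nat_lit 1) (nat_lit 4) (nat_lit 518) (nat_lit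 343) (nat_lit 339)) (XT.lf (nat_lit 0) (nat_lit 48297965524) (nat_lit 152) (nat_lit 135915176982) (nat_lit 0) (nat_lit 48110364830) (nat_lit 1) (nat_lit 5) (nat_lit 3) (nat_lit 4) (nat_lit 1) (nat_lit 4) (nat_lit 519) (nat_lit 343) (nat_lit 338))) (XT.nd (nat_lit 78) (nat_lit 0) (nat_lit 0) (XT.lf (nat_lit 0) (nat_lit 54267601270) (nat_lit 152) (nat_lit 135444456072) (nat_lit 0) (nat_lit 54047666293) (nat_lit 1) (nat_lit 5) (nat_lit 3) (nat_lit 4) (nat_lit 1) (nat_lit 4) (nat_lit 520) (nat_lit 343) (nat_lit 337)) (XT.lf (nat_lit 0) (nat_lit 60432111102) (nat_lit 152) (nat_lit 135159440066) (nat_lit 0) (nat_lit 60181381568) (nat_lit 1) (nat_lit 5) (nat_lit 3) (nat_lit 4) (nat_lit 1) (nat_lit 4) (nat_lit 521) (nat_lit 343) (nat_lit 336))))) (XT.nd (nat_lit 234) (nat_lit 0) (nat_lit 0) (XT.nd (nat_lit 78) (nat_lit 0) (nat_lit 0) (XT.lf (nat_lit 0) (nat_lit 66806172422) (nat_lit 152) (nat_lit 135059450356)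 (nat_lit 0) (nat_lit 66526114740) (nat_lit 1) (nat_lit 5) (nat_lit 3) (nat_lit 4) (nat_lit 1) (nat_lit 4) (nat_lit 522) (nat_lit 343) (nat_lit 335)) (XT.nd (nat_lit 78) (nat_lit 0) (nat_lit 0) (XT.lf (nat_lit 0) (nat_lit 73404961568) (nat_lit 152) (nat_lit 135144248871) (nat_lit 0) (nat_lit 73096972317) (nat_lit 1) (nat_lit 5) (nat_lit 3) (nat_lit 4) (nat_lit 1) (nat_lit 4) (nat_lit 523) (nat_lit 343) (nat_lit 334)) (XT.lf (nat_lit 0) (nat_lit 80244189943) (nat_lit 152) (nat_lit 135414037511) (nat_lit 0) (nat_lit 79909599196) (nat_lit 1) (nat_lit 5) (nat_lit 3) (nat_lit 4) (nat_lit 1) (nat_lit 4) (nat_lit 524) (nat_lit 343) (nat_lit 333)))) (XT.nd (nat_lit 156) (nat_lit 0) (nat_lit 0) (XT.nd (nat_lit 78) (nat_lit 0) (nat_lit 0) (XT.lf (nat_lit 0) (nat_lit 87340141423) (nat_lit 152) (nat_lit 135869458631) (nat_lit 0) (nat_lit 86980215919) (nat_lit 1) (nat_lit 5) (nat_lit 3) (nat_lit 4) (nat_lit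 1) (nat_lit 4) (nat_lit 525) (nat_lit 343) (nat_lit 332)) (XT.lf (nat_lit 0) (nat_lit 94709711131) (nat_lit 152) (nat_lit 136511596567) (nat_lit 0) (nat_lit 94325657286) (nat_lit 1) (nat_lit 5) (nat_lit 3) (nat_lit 4) (nat_lit 1) (nat_lit 4) (nat_lit 526) (nat_lit 343) (nat_lit 331))) (XT.nd (nat_lit 78) (nat_lit 0) (nat_lit 0) (XT.lf (nat_lit 0) (nat_lit 102370445661) (nat_lit 152) (nat_lit 137341980218) (nat_lit 0) (nat_lit 101963412446) (nat_lit 1) (nat_lit 5) (nat_lit 3) (nat_lit 4) (nat_lit 1) (nat_lit 4) (nat_lit 527) (nat_lit 343) (nat_lit 330)) (XT.lf (nat_lit 0) (nat_lit 110340584859) (nat_lit 152) (nat_lit 138362586689) (nat_lit 0) (nat_lit 109911666527) (nat_lit 1) (nat_lit 5) (nat_lit 3) (nat_lit 4) (nat_lit 1) (nat_lit 4) (nat_lit 528) (nat_lit 343) (nat_lit 329))))))))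
noncomputable def xc5 : XT := (XT.nd (nat_lit 61932) (nat_lit 0) (nat_lit 0) (XT.nd (nat_lit 1092) (nat_lit 0) (nat_lit 0) (XT.nd (nat_lit 546) (nat_lit 0) (nat_lit 0) (XT.nd (nat_lit 234) (nat_lit 0) (nat_lit 0) (XT.nd (nat_lit 78) (nat_lit 0) (nat_lit 0) (XT.lf (nat_lit 0) (nat_lit 118639105245) (nat_lit 152) (nat_lit 139575845994) (nat_lit 0) (nat_lit 118189343946) (nat_lit 1) (nat_lit 5) (nat_lit 3) (nat_lit 4) (nat_lit 1) (nat_lit 4) (nat_lit 529) (nat_lit 343) (nat_lit 328)) (XT.nd (nat_lit 78) (nat_lit 0) (nat_lit 0) (XT.lf (nat_lit 0) (nat_lit 127285765201) (nat_lit 152) (nat_lit 140984646848) (nat_lit 0) (nat_lit 126816153457) (nat_lit 1) (nat_lit 5) (nat_lit 3) (nat_lit 4) (nat_lit 1) (nat_lit 4) (nat_lit 530) (nat_lit 343) (nat_lit 327)) (XT.lf (nat_lit 0) (nat_lit 136301152014) (nat_lit 152) (nat_lit 142592343536) (nat_lit 0) (nat_lit 135812635084) (nat_lit 1) (nat_lit 5) (nat_lit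 3) (nat_lit 4) (nat_lit 1) (nat_lit 4) (nat_lit 531) (nat_lit 343) (nat_lit 326)))) (XT.nd (nat_lit 156) (nat_lit 0) (nat_lit 0) (XT.nd (nat_lit 78) (nat_lit 0) (nat_lit 0) (XT.lf (nat_lit 0) (nat_lit 145706730889) (nat_lit 152) (nat_lit 144402763909) (nat_lit 0) (nat_lit 145200209020) (nat_lit 1) (nat_lit 5) (nat_lit 3) (nat_lit 4) (nat_lit 1) (nat_lit 4) (nat_lit 532) (nat_lit 343) (nat_lit 325)) (XT.lf (nat_lit 0) (nat_lit 155524896063) (nat_lit 152) (nat_lit 146420218491) (nat_lit 0) (nat_lit 155001226633) (nat_lit 1) (nat_lit 5) (nat_lit 3) (nat_lit 4) (nat_lit 1) (nat_lit 4) (nat_lit 533) (nat_lit 343) (nat_lit 324))) (XT.nd (nat_lit 78) (nat_lit 0) (nat_lit 0) (XT.lf (nat_lit 0) (nat_lit 165779024118) (nat_lit 152) (nat_lit 148649510746) (nat_lit 0) (nat_lit 165239023678) (nat_lit 1) (nat_lit 5) (nat_lit 3) (nat_lit 4) (nat_lit 1) (nat_lit 4) (nat_lit 534) (nat_lit 343) (nat_lit 323))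 (XT.lf (nat_lit 0) (nat_lit 176493529647) (nat_lit 152) (nat_lit 151095948512) (nat_lit 0) (nat_lit 175937975863) (nat_lit 1) (nat_lit 5) (nat_lit 3) (nat_lit 4) (nat_lit 1) (nat_lit 4) (nat_lit 535) (nat_lit 343) (nat_lit 322))))) (XT.nd (nat_lit 234) (nat_lit 0) (nat_lit 0) (XT.nd (nat_lit 78) (nat_lit 0) (nat_lit 0) (XT.lf (nat_lit 0) (nat_lit 187693923375) (nat_lit 152) (nat_lit 153765356641) (nat_lit 0) (nat_lit 187123556883) (nat_lit 1) (nat_lit 5) (nat_lit 3) (nat_lit 4) (nat_lit 1) (nat_lit 4) (nat_lit 536) (nat_lit 343) (nat_lit 321)) (XT.nd (nat_lit 78) (nat_lit 0) (nat_lit 0) (XT.lf (nat_lit 0) (nat_lit 199406872907) (nat_lit 152) (nat_lit 156664090867) (nat_lit 0) (nat_lit 198822399075) (nat_lit 1) (nat_lit 5) (nat_lit 3) (nat_lit 4) (nat_lit 1) (nat_lit 4) (nat_lit 537) (nat_lit 343) (nat_lit 320)) (XT.lf (nat_lit 0) (nat_lit 211660266219) (nat_lit 152) (nat_lit 159799052937) (nat_lit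 0) (nat_lit 211062356824) (nat_lit 1) (nat_lit 5) (nat_lit 3) (nat_lit 4) (nat_lit 1) (nat_lit 4) (nat_lit 538) (nat_lit 343) (nat_lit 319)))) (XT.nd (nat_lit 156) (nat_lit 0) (nat_lit 0) (XT.nd (nat_lit 78) (nat_lit 0) (nat_lit 0) (XT.lf (nat_lit 0) (nat_lit 224483278056) (nat_lit 152) (nat_lit 163177707048) (nat_lit 0) (nat_lit 223872572886) (nat_lit 1) (nat_lit 5) (nat_lit 3) (nat_lit 4) (nat_lit 1) (nat_lit 4) (nat_lit 539) (nat_lit 343) (nat_lit 318)) (XT.lf (nat_lit 0) (nat_lit 237906439398) (nat_lit 152) (nat_lit 166808097613) (nat_lit 0) (nat_lit 237283547778) (nat_lit 1) (nat_lit 5) (nat_lit 3) (nat_lit 4) (nat_lit 1) (nat_lit 4) (nat_lit 540) (nat_lit 343) (nat_lit 317))) (XT.nd (nat_lit 78) (nat_lit 0) (nat_lit 0) (XT.lf (nat_lit 0) (nat_lit 251961710154) (nat_lit 152) (nat_lit 170698868421) (nat_lit 0) (nat_lit 251327212390) (nat_lit 1) (nat_lit 5) (nat_lit 3) (nat_lit 4) (nat_lit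 1) (nat_lit 4) (nat_lit 541) (nat_lit 343) (nat_lit 316)) (XT.lf (nat_lit 0) (nat_lit 266682555255) (nat_lit 152) (nat_lit 174859283210) (nat_lit 0) (nat_lit 266037004019) (nat_lit 1) (nat_lit 5) (nat_lit 3) (nat_lit 4) (nat_lit 1) (nat_lit 4) (nat_lit 542) (nat_lit 343) (nat_lit 315)))))) (XT.nd (nat_lit 60294) (nat_lit 0) (nat_lit 0) (XT.nd (nat_lit 234) (nat_lit 0) (nat_lit 0) (XT.nd (nat_lit 78) (nat_lit 0) (nat_lit 0) (XT.lf (nat_lit 0) (nat_lit 282104024330) (nat_lit 152) (nat_lit 179299247730) (nat_lit 0) (nat_lit 281447945980) (nat_lit 1) (nat_lit 5) (nat_lit 3) (nat_lit 4) (nat_lit 1) (nat_lit 4) (nat_lit 543) (nat_lit 343) (nat_lit 314)) (XT.nd (nat_lit 78) (nat_lit 0) (nat_lit 0) (XT.lf (nat_lit 0) (nat_lit 298262835165) (nat_lit 152) (nat_lit 184029333326) (nat_lit 0) (nat_lit 297596730991) (nat_lit 1) (nat_lit 5) (nat_lit 3) (nat_lit 4) (nat_lit 1) (nat_lit 4) (nat_lit 544) (nat_lit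 343) (nat_lit 313)) (XT.lf (nat_lit 0) (nat_lit 315197461117) (nat_lit 152) (nat_lit 189060802107) (nat_lit 0) (nat_lit 314521808540) (nat_lit 1) (nat_lit 5) (nat_lit 3) (nat_lit 4) (nat_lit 1) (nat_lit 4) (nat_lit 545) (nat_lit 343) (nat_lit 312)))) (XT.nd (nat_lit 59904) (nat_lit 0) (nat_lit 0) (XT.nd (nat_lit 59826) (nat_lit 0) (nat_lit 0) (XT.lf (nat_lit 0) (nat_lit 332948222725) (nat_lit 152) (nat_lit 194405633758) (nat_lit 0) (nat_lit 332263476430) (nat_lit 1) (nat_lit 5) (nat_lit 3) (nat_lit 4) (nat_lit 1) (nat_lit 4) (nat_lit 546) (nat_lit 343) (nat_lit 311)) (XT.lf (nat_lit 0) (nat_lit 5468824433) (nat_lit 152) (nat_lit 72208545701) (nat_lit 0) (nat_lit 5468824433) (nat_lit 1) (nat_lit 5) (nat_lit 3) (nat_lit 4) (nat_lit 1) (nat_lit 4) (nat_lit 512) (nat_lit 344) (nat_lit 344))) (XT.nd (nat_lit 78) (nat_lit 0) (nat_lit 0) (XT.lf (nat_lit 0) (nat_lit 15848184652) (nat_lit 152) (nat_lit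 142733444586) (nat_lit 0) (nat_lit 15804853620) (nat_lit 1) (nat_lit 5) (nat_lit 3) (nat_lit 4) (nat_lit 1) (nat_lit 4) (nat_lit 513) (nat_lit 344) (nat_lit 343)) (XT.lf (nat_lit 0) (nat_lit 20865402997) (nat_lit 152) (nat_lit 141246018316) (nat_lit 0) (nat_lit 20780804315) (nat_lit 1) (nat_lit 5) (nat_lit 3) (nat_lit 4) (nat_lit 1) (nat_lit 4) (nat_lit 514) (nat_lit 344) (nat_lit 342))))) (XT.nd (nat_lit 234) (nat_lit 0) (nat_lit 0) (XT.nd (nat_lit 78) (nat_lit 0) (nat_lit 0) (XT.lf (nat_lit 0) (nat_lit 26001249659) (nat_lit 152) (nat_lit 139951271098) (nat_lit 0) (nat_lit 25877348453) (nat_lit 1) (nat_lit 5) (nat_lit 3) (nat_lit 4) (nat_lit 1) (nat_lit 4) (nat_lit 515) (nat_lit 344) (nat_lit 341)) (XT.nd (nat_lit 78) (nat_lit 0) (nat_lit 0) (XT.lf (nat_lit 0) (nat_lit 31267952844) (nat_lit 152) (nat_lit 138846120203) (nat_lit 0) (nat_lit 31106620663) (nat_lit 1) (nat_lit 5) (nat_lit 3) (nat_lit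 4) (nat_lit 1) (nat_lit 4) (nat_lit 516) (nat_lit 344) (nat_lit 340)) (XT.lf (nat_lit 0) (nat_lit 36678052322) (nat_lit 152) (nat_lit 137927934318) (nat_lit 0) (nat_lit 36481071593) (nat_lit 1) (nat_lit 5) (nat_lit 3) (nat_lit 4) (nat_lit 1) (nat_lit 4) (nat_lit 517) (nat_lit 344) (nat_lit 339)))) (XT.nd (nat_lit 156) (nat_lit 0) (nat_lit 0) (XT.nd (nat_lit 78) (nat_lit 0) (nat_lit 0) (XT.lf (nat_lit 0) (nat_lit 42244429282) (nat_lit 152) (nat_lit 137194527287) (nat_lit 0) (nat_lit 42013497555) (nat_lit 1) (nat_lit 5) (nat_lit 3) (nat_lit 4) (nat_lit 1) (nat_lit 4) (nat_lit 518) (nat_lit 344) (nat_lit 338)) (XT.lf (nat_lit 0) (nat_lit 47980337002) (nat_lit 152) (nat_lit 136644152902) (nat_lit 0) (nat_lit 47717070992) (nat_lit 1) (nat_lit 5) (nat_lit 3) (nat_lit 4) (nat_lit 1) (nat_lit 4) (nat_lit 519) (nat_lit 344) (nat_lit 337))) (XT.nd (nat_lit 78) (nat_lit 0) (nat_lit 0) (XT.lf (nat_lit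 0) (nat_lit 53899432406) (nat_lit 152) (nat_lit 136275500748) (nat_lit 0) (nat_lit 53605371840) (nat_lit 1) (nat_lit 5) (nat_lit 3) (nat_lit 4) (nat_lit 1) (nat_lit 4) (nat_lit 520) (nat_lit 344) (nat_lit 336)) (XT.lf (nat_lit 0) (nat_lit 60015808577) (nat_lit 152) (nat_lit 136087693082) (nat_lit 0) (nat_lit 59692419863) (nat_lit 1) (nat_lit 5) (nat_lit 3) (nat_lit 4) (nat_lit 1) (nat_lit 4) (nat_lit 521) (nat_lit 344) (nat_lit 335))))))) (XT.nd (nat_lit 1092) (nat_lit 0) (nat_lit 0) (XT.nd (nat_lit 546) (nat_lit 0) (nat_lit 0) (XT.nd (nat_lit 234) (nat_lit 0) (nat_lit 0) (XT.nd (nat_lit 78) (nat_lit 0) (nat_lit 0) (XT.lf (nat_lit 0) (nat_lit 66344028317) (nat_lit 152) (nat_lit 136080282743) (nat_lit 0) (nat_lit 65992708033) (nat_lit 1) (nat_lit 5) (nat_lit 3) (nat_lit 4) (nat_lit 1) (nat_lit 4) (nat_lit 522) (nat_lit 344) (nat_lit 334)) (XT.nd (nat_lit 78) (nat_lit 0) (nat_lit 0) (XT.lf (nat_lit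 0) (nat_lit 72899158815) (nat_lit 152) (nat_lit 136253252086) (nat_lit 0) (nat_lit 72521237036) (nat_lit 1) (nat_lit 5) (nat_lit 3) (nat_lit 4) (nat_lit 1) (nat_lit 4) (nat_lit 523) (nat_lit 344) (nat_lit 333)) (XT.lf (nat_lit 0) (nat_lit 79696807524) (nat_lit 152) (nat_lit 136607012945) (nat_lit 0) (nat_lit 79293550988) (nat_lit 1) (nat_lit 5) (nat_lit 3) (nat_lit 4) (nat_lit 1) (nat_lit 4) (nat_lit 524) (nat_lit 344) (nat_lit 332)))) (XT.nd (nat_lit 156) (nat_lit 0) (nat_lit 0) (XT.nd (nat_lit 78) (nat_lit 0) (nat_lit 0) (XT.lf (nat_lit 0) (nat_lit 86753159323) (nat_lit 152) (nat_lit 137142407606) (nat_lit 0) (nat_lit 86325774447) (nat_lit 1) (nat_lit 5) (nat_lit 3) (nat_lit 4) (nat_lit 1) (nat_lit 4) (nat_lit 525) (nat_lit 344) (nat_lit 331)) (XT.lf (nat_lit 0) (nat_lit 94085015049) (nat_lit 152) (nat_lit 137860710820) (nat_lit 0) (nat_lit 93634650801) (nat_lit 1) (nat_lit 5) (nat_lit 3)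 (nat_lit 4) (nat_lit 1) (nat_lit 4) (nat_lit 526) (nat_lit 344) (nat_lit 330))) (XT.nd (nat_lit 78) (nat_lit 0) (nat_lit 0) (XT.lf (nat_lit 0) (nat_lit 101709831502) (nat_lit 152) (nat_lit 138763632830) (nat_lit 0) (nat_lit 101237582138) (nat_lit 1) (nat_lit 5) (nat_lit 3) (nat_lit 4) (nat_lit 1) (nat_lit 4) (nat_lit 527) (nat_lit 344) (nat_lit 329)) (XT.lf (nat_lit 0) (nat_lit 109645763006) (nat_lit 152) (nat_lit 139853323453) (nat_lit 0) (nat_lit 109152670675) (nat_lit 1) (nat_lit 5) (nat_lit 3) (nat_lit 4) (nat_lit 1) (nat_lit 4) (nat_lit 528) (nat_lit 344) (nat_lit 328))))) (XT.nd (nat_lit 234) (nat_lit 0) (nat_lit 0) (XT.nd (nat_lit 78) (nat_lit 0) (nat_lit 0) (XT.lf (nat_lit 0) (nat_lit 117911704637) (nat_lit 152) (nat_lit 141132377189) (nat_lit 0) (nat_lit 117398761860) (nat_lit 1) (nat_lit 5) (nat_lit 3) (nat_lit 4) (nat_lit 1) (nat_lit 4) (nat_lit 529) (nat_lit 344) (nat_lit 327))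 (XT.nd (nat_lit 78) (nat_lit 0) (nat_lit 0) (XT.lf (nat_lit 0) (nat_lit 126527337207) (nat_lit 152) (nat_lit 142603839405) (nat_lit 0) (nat_lit 125995489244) (nat_lit 1) (nat_lit 5) (nat_lit 3) (nat_lit 4) (nat_lit 1) (nat_lit 4) (nat_lit 530) (nat_lit 344) (nat_lit 326)) (XT.lf (nat_lit 0) (nat_lit 135513174128) (nat_lit 152) (nat_lit 144271213581) (nat_lit 0) (nat_lit 134963321226) (nat_lit 1) (nat_lit 5) (nat_lit 3) (nat_lit 4) (nat_lit 1) (nat_lit 4) (nat_lit 531) (nat_lit 344) (nat_lit 325)))) (XT.nd (nat_lit 156) (nat_lit 0) (nat_lit 0) (XT.nd (nat_lit 78) (nat_lit 0) (nat_lit 0) (XT.lf (nat_lit 0) (nat_lit 144890610250) (nat_lit 152) (nat_lit 146138469657) (nat_lit 0) (nat_lit 144323609787) (nat_lit 1) (nat_lit 5) (nat_lit 3) (nat_lit 4) (nat_lit 1) (nat_lit 4) (nat_lit 532) (nat_lit 344) (nat_lit 324)) (XT.lf (nat_lit 0) (nat_lit 154681972800) (nat_lit 152) (nat_lit 148210053479) (nat_lit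 0) (nat_lit 154098641327) (nat_lit 1) (nat_lit 5) (nat_lit 3) (nat_lit 4) (nat_lit 1) (nat_lit 4) (nat_lit 533) (nat_lit 344) (nat_lit 323))) (XT.nd (nat_lit 78) (nat_lit 0) (nat_lit 0) (XT.lf (nat_lit 0) (nat_lit 164910574549) (nat_lit 152) (nat_lit 150490897392) (nat_lit 0) (nat_lit 164311689732) (nat_lit 1) (nat_lit 5) (nat_lit 3) (nat_lit 4) (nat_lit 1) (nat_lit 4) (nat_lit 534) (nat_lit 344) (nat_lit 322)) (XT.lf (nat_lit 0) (nat_lit 175600769308) (nat_lit 152) (nat_lit 152986431975) (nat_lit 0) (nat_lit 174987071784) (nat_lit 1) (nat_lit 5) (nat_lit 3) (nat_lit 4) (nat_lit 1) (nat_lit 4) (nat_lit 535) (nat_lit 344) (nat_lit 321)))))) (XT.nd (nat_lit 546) (nat_lit 0) (nat_lit 0) (XT.nd (nat_lit 234) (nat_lit 0) (nat_lit 0) (XT.nd (nat_lit 78) (nat_lit 0) (nat_lit 0) (XT.lf (nat_lit 0) (nat_lit 186778009923) (nat_lit 152) (nat_lit 155702598977) (nat_lit 0) (nat_lit 186150205058) (nat_lit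 1) (nat_lit 5) (nat_lit 3) (nat_lit 4) (nat_lit 1) (nat_lit 4) (nat_lit 536) (nat_lit 344) (nat_lit 320)) (XT.nd (nat_lit 78) (nat_lit 0) (nat_lit 0) (XT.lf (nat_lit 0) (nat_lit 198468908871) (nat_lit 152) (nat_lit 158645865463) (nat_lit 0) (nat_lit 197827668443) (nat_lit 1) (nat_lit 5) (nat_lit 3) (nat_lit 4) (nat_lit 1) (nat_lit 4) (nat_lit 537) (nat_lit 344) (nat_lit 319)) (XT.lf (nat_lit 0) (nat_lit 210701301626) (nat_lit 152) (nat_lit 161823239210) (nat_lit 0) (nat_lit 210047265425) (nat_lit 1) (nat_lit 5) (nat_lit 3) (nat_lit 4) (nat_lit 1) (nat_lit 4) (nat_lit 538) (nat_lit 344) (nat_lit 318)))) (XT.nd (nat_lit 156) (nat_lit 0) (nat_lit 0) (XT.nd (nat_lit 78) (nat_lit 0) (nat_lit 0) (XT.lf (nat_lit 0) (nat_lit 223504312933) (nat_lit 152) (nat_lit 165242285393) (nat_lit 0) (nat_lit 222838090280) (nat_lit 1) (nat_lit 5) (nat_lit 3) (nat_lit 4) (nat_lit 1) (nat_lit 4) (nat_lit 539) (nat_lit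 344) (nat_lit 317)) (XT.lf (nat_lit 0) (nat_lit 236908426152) (nat_lit 152) (nat_lit 168911144600) (nat_lit 0) (nat_lit 236230597355) (nat_lit 1) (nat_lit 5) (nat_lit 3) (nat_lit 4) (nat_lit 1) (nat_lit 4) (nat_lit 540) (nat_lit 344) (nat_lit 316))) (XT.nd (nat_lit 78) (nat_lit 0) (nat_lit 0) (XT.lf (nat_lit 0) (nat_lit 250945555838) (nat_lit 152) (nat_lit 172838552208) (nat_lit 0) (nat_lit 250256673570) (nat_lit 1) (nat_lit 5) (nat_lit 3) (nat_lit 4) (nat_lit 1) (nat_lit 4) (nat_lit 541) (nat_lit 344) (nat_lit 315)) (XT.lf (nat_lit 0) (nat_lit 265649123729) (nat_lit 152) (nat_lit 177033859188) (nat_lit 0) (nat_lit 264949714346) (nat_lit 1) (nat_lit 5) (nat_lit 3) (nat_lit 4) (nat_lit 1) (nat_lit 4) (nat_lit 542) (nat_lit 344) (nat_lit 314))))) (XT.nd (nat_lit 59904) (nat_lit 0) (nat_lit 0) (XT.nd (nat_lit 156) (nat_lit 0) (nat_lit 0) (XT.nd (nat_lit 78) (nat_lit 0) (nat_lit 0) (XT.lf (nat_lit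 0) (nat_lit 281054138319) (nat_lit 152) (nat_lit 181507054367) (nat_lit 0) (nat_lit 280344703113) (nat_lit 1) (nat_lit 5) (nat_lit 3) (nat_lit 4) (nat_lit 1) (nat_lit 4) (nat_lit 543) (nat_lit 344) (nat_lit 313)) (XT.lf (nat_lit 0) (nat_lit 297197278215) (nat_lit 152) (nat_lit 186268788209) (nat_lit 0) (nat_lit 296478294605) (nat_lit 1) (nat_lit 5) (nat_lit 3) (nat_lit 4) (nat_lit 1) (nat_lit 4) (nat_lit 544) (nat_lit 344) (nat_lit 312))) (XT.nd (nat_lit 78) (nat_lit 0) (nat_lit 0) (XT.lf (nat_lit 0) (nat_lit 314116979464) (nat_lit 152) (nat_lit 191330398176) (nat_lit 0) (nat_lit 313388902137) (nat_lit 1) (nat_lit 5) (nat_lit 3) (nat_lit 4) (nat_lit 1) (nat_lit 4) (nat_lit 545) (nat_lit 344) (nat_lit 311)) (XT.lf (nat_lit 0) (nat_lit 331853527070) (nat_lit 152) (nat_lit 196703935719) (nat_lit 0) (nat_lit 331116789058) (nat_lit 1) (nat_lit 5) (nat_lit 3) (nat_lit 4) (nat_lit 1) (nat_lit 4) (nat_lit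 546) (nat_lit 344) (nat_lit 310)))) (XT.nd (nat_lit 156) (nat_lit 0) (nat_lit 0) (XT.nd (nat_lit 78) (nat_lit 0) (nat_lit 0) (XT.lf (nat_lit 0) (nat_lit 755126410) (nat_lit 152) (nat_lit 74119378047) (nat_lit 0) (nat_lit 755126410) (nat_lit 1) (nat_lit 5) (nat_lit 3) (nat_lit 4) (nat_lit 1) (nat_lit 4) (nat_lit 510) (nat_lit 345) (nat_lit 345)) (XT.lf (nat_lit 0) (nat_lit 6167601471) (nat_lit 152) (nat_lit 146300967445) (nat_lit 0) (nat_lit 6122103887) (nat_lit 1) (nat_lit 5) (nat_lit 3) (nat_lit 4) (nat_lit 1) (nat_lit 4) (nat_lit 511) (nat_lit 345) (nat_lit 344))) (XT.nd (nat_lit 78) (nat_lit 0) (nat_lit 0) (XT.lf (nat_lit 0) (nat_lit 10912031112) (nat_lit 152) (nat_lit 144560712392) (nat_lit 0) (nat_lit 10823202496) (nat_lit 1) (nat_lit 5) (nat_lit 3) (nat_lit 4) (nat_lit 1) (nat_lit 4) (nat_lit 512) (nat_lit 345) (nat_lit 343)) (XT.lf (nat_lit 0) (nat_lit 15754838006) (nat_lit 152) (nat_lit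 143013847472) (nat_lit 0) (nat_lit 15624741739) (nat_lit 1) (nat_lit 5) (nat_lit 3) (nat_lit 4) (nat_lit 1) (nat_lit 4) (nat_lit 513) (nat_lit 345) (nat_lit 342))))))))
noncomputable def xc6 : XT := (XT.nd (nat_lit 2184) (nat_lit 0) (nat_lit 0) (XT.nd (nat_lit 1092) (nat_lit 0) (nat_lit 0) (XT.nd (nat_lit 546) (nat_lit 0) (nat_lit 0) (XT.nd (nat_lit 234) (nat_lit 0) (nat_lit 0) (XT.nd (nat_lit 78) (nat_lit 0) (nat_lit 0) (XT.lf (nat_lit 0) (nat_lit 20707552643) (nat_lit 152) (nat_lit 141656689673) (nat_lit 0) (nat_lit 20538153853) (nat_lit 1) (nat_lit 5) (nat_lit 3) (nat_lit 4) (nat_lit 1) (nat_lit 4) (nat_lit 514) (nat_lit 345) (nat_lit 341)) (XT.nd (nat_lit 78) (nat_lit 0) (nat_lit 0) (XT.lf (nat_lit 0) (nat_lit 25781967203) (nat_lit 152) (nat_lit 140486007667) (nat_lit 0) (nat_lit 25575137438) (nat_lit 1) (nat_lit 5) (nat_lit 3) (nat_lit 4) (nat_lit 1) (nat_lit 4) (nat_lit 515) (nat_lit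 345) (nat_lit 340)) (XT.lf (nat_lit 0) (nat_lit 30990163624) (nat_lit 152) (nat_lit 139499014115) (nat_lit 0) (nat_lit 30747685311) (nat_lit 1) (nat_lit 5) (nat_lit 3) (nat_lit 4) (nat_lit 1) (nat_lit 4) (nat_lit 516) (nat_lit 345) (nat_lit 339)))) (XT.nd (nat_lit 156) (nat_lit 0) (nat_lit 0) (XT.nd (nat_lit 78) (nat_lit 0) (nat_lit 0) (XT.lf (nat_lit 0) (nat_lit 36344542374) (nat_lit 152) (nat_lit 138693359034) (nat_lit 0) (nat_lit 36068113063) (nat_lit 1) (nat_lit 5) (nat_lit 3) (nat_lit 4) (nat_lit 1) (nat_lit 4) (nat_lit 517) (nat_lit 345) (nat_lit 338)) (XT.lf (nat_lit 0) (nat_lit 41857851974) (nat_lit 152) (nat_lit 138067124197) (nat_lit 0) (nat_lit 41549088380) (nat_lit 1) (nat_lit 5) (nat_lit 3) (nat_lit 4) (nat_lit 1) (nat_lit 4) (nat_lit 518) (nat_lit 345) (nat_lit 337))) (XT.nd (nat_lit 78) (nat_lit 0) (nat_lit 0) (XT.lf (nat_lit 0) (nat_lit 47543219351) (nat_lit 152) (nat_lit 137618818568)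 (nat_lit 0) (nat_lit 47203661201) (nat_lit 1) (nat_lit 5) (nat_lit 3) (nat_lit 4) (nat_lit 1) (nat_lit 4) (nat_lit 519) (nat_lit 345) (nat_lit 336)) (XT.lf (nat_lit 0) (nat_lit 53414181095) (nat_lit 152) (nat_lit 137347374754) (nat_lit 0) (nat_lit 53045294797) (nat_lit 1) (nat_lit 5) (nat_lit 3) (nat_lit 4) (nat_lit 1) (nat_lit 4) (nat_lit 520) (nat_lit 345) (nat_lit 335))))) (XT.nd (nat_lit 234) (nat_lit 0) (nat_lit 0) (XT.nd (nat_lit 78) (nat_lit 0) (nat_lit 0) (XT.lf (nat_lit 0) (nat_lit 59484715686) (nat_lit 152) (nat_lit 137252146458) (nat_lit 0) (nat_lit 59087897818) (nat_lit 1) (nat_lit 5) (nat_lit 3) (nat_lit 4) (nat_lit 1) (nat_lit 4) (nat_lit 521) (nat_lit 345) (nat_lit 334)) (XT.nd (nat_lit 78) (nat_lit 0) (nat_lit 0) (XT.lf (nat_lit 0) (nat_lit 65769276778) (nat_lit 152) (nat_lit 137332906948) (nat_lit 0) (nat_lit 65345857414) (nat_lit 1) (nat_lit 5) (nat_lit 3) (nat_lit 4) (nat_lit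 1) (nat_lit 4) (nat_lit 522) (nat_lit 345) (nat_lit 333)) (XT.lf (nat_lit 0) (nat_lit 72282827610) (nat_lit 152) (nat_lit 137589848511) (nat_lit 0) (nat_lit 71834073490) (nat_lit 1) (nat_lit 5) (nat_lit 3) (nat_lit 4) (nat_lit 1) (nat_lit 4) (nat_lit 523) (nat_lit 345) (nat_lit 332)))) (XT.nd (nat_lit 156) (nat_lit 0) (nat_lit 0) (XT.nd (nat_lit 78) (nat_lit 0) (nat_lit 0) (XT.lf (nat_lit 0) (nat_lit 79040876639) (nat_lit 152) (nat_lit 138023582911) (nat_lit 0) (nat_lit 78567994178) (nat_lit 1) (nat_lit 5) (nat_lit 3) (nat_lit 4) (nat_lit 1) (nat_lit 4) (nat_lit 524) (nat_lit 345) (nat_lit 331)) (XT.lf (nat_lit 0) (nat_lit 86059514456) (nat_lit 152) (nat_lit 138635142849) (nat_lit 0) (nat_lit 85563652624) (nat_lit 1) (nat_lit 5) (nat_lit 3) (nat_lit 4) (nat_lit 1) (nat_lit 4) (nat_lit 525) (nat_lit 345) (nat_lit 330))) (XT.nd (nat_lit 78) (nat_lit 0) (nat_lit 0) (XT.lf (nat_lit 0) (nat_lit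 93355452104) (nat_lit 152) (nat_lit 139425984422) (nat_lit 0) (nat_lit 92837705156) (nat_lit 1) (nat_lit 5) (nat_lit 3) (nat_lit 4) (nat_lit 1) (nat_lit 4) (nat_lit 526) (nat_lit 345) (nat_lit 329)) (XT.lf (nat_lit 0) (nat_lit 100946060864) (nat_lit 152) (nat_lit 140397990585) (nat_lit 0) (nat_lit 100407470948) (nat_lit 1) (nat_lit 5) (nat_lit 3) (nat_lit 4) (nat_lit 1) (nat_lit 4) (nat_lit 527) (nat_lit 345) (nat_lit 328)))))) (XT.nd (nat_lit 546) (nat_lit 0) (nat_lit 0) (XT.nd (nat_lit 234) (nat_lit 0) (nat_lit 0) (XT.nd (nat_lit 78) (nat_lit 0) (nat_lit 0) (XT.lf (nat_lit 0) (nat_lit 108849413612) (nat_lit 152) (nat_lit 141553475638) (nat_lit 0) (nat_lit 108290973252) (nat_lit 1) (nat_lit 5) (nat_lit 3) (nat_lit 4) (nat_lit 1) (nat_lit 4) (nat_lit 528) (nat_lit 345) (nat_lit 327)) (XT.nd (nat_lit 78) (nat_lit 0) (nat_lit 0) (XT.lf (nat_lit 0) (nat_lit 117084327857) (nat_lit 152) (nat_lit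 142895190736) (nat_lit 0) (nat_lit 116506982310) (nat_lit 1) (nat_lit 5) (nat_lit 3) (nat_lit 4) (nat_lit 1) (nat_lit 4) (nat_lit 529) (nat_lit 345) (nat_lit 326)) (XT.lf (nat_lit 0) (nat_lit 125670410535) (nat_lit 152) (nat_lit 144426330439) (nat_lit 0) (nat_lit 125075060050) (nat_lit 1) (nat_lit 5) (nat_lit 3) (nat_lit 4) (nat_lit 1) (nat_lit 4) (nat_lit 530) (nat_lit 345) (nat_lit 325)))) (XT.nd (nat_lit 156) (nat_lit 0) (nat_lit 0) (XT.nd (nat_lit 78) (nat_lit 0) (nat_lit 0) (XT.lf (nat_lit 0) (nat_lit 134628104702) (nat_lit 152) (nat_lit 146150540318) (nat_lit 0) (nat_lit 134015606656) (nat_lit 1) (nat_lit 5) (nat_lit 3) (nat_lit 4) (nat_lit 1) (nat_lit 4) (nat_lit 531) (nat_lit 345) (nat_lit 324)) (XT.lf (nat_lit 0) (nat_lit 143978738201) (nat_lit 152) (nat_lit 148071925635) (nat_lit 0) (nat_lit 143349909144) (nat_lit 1) (nat_lit 5) (nat_lit 3) (nat_lit 4) (nat_lit 1) (nat_lit 4) (nat_lit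 532) (nat_lit 345) (nat_lit 323))) (XT.nd (nat_lit 78) (nat_lit 0) (nat_lit 0) (XT.lf (nat_lit 0) (nat_lit 153744574445) (nat_lit 152) (nat_lit 150195061115) (nat_lit 0) (nat_lit 153100192044) (nat_lit 1) (nat_lit 5) (nat_lit 3) (nat_lit 4) (nat_lit 1) (nat_lit 4) (nat_lit 533) (nat_lit 345) (nat_lit 322)) (XT.lf (nat_lit 0) (nat_lit 163948865424) (nat_lit 152) (nat_lit 152525001845) (nat_lit 0) (nat_lit 163289670316) (nat_lit 1) (nat_lit 5) (nat_lit 3) (nat_lit 4) (nat_lit 1) (nat_lit 4) (nat_lit 534) (nat_lit 345) (nat_lit 321))))) (XT.nd (nat_lit 234) (nat_lit 0) (nat_lit 0) (XT.nd (nat_lit 78) (nat_lit 0) (nat_lit 0) (XT.lf (nat_lit 0) (nat_lit 174615907070) (nat_lit 152) (nat_lit 155067295301) (nat_lit 0) (nat_lit 173942604621) (nat_lit 1) (nat_lit 5) (nat_lit 3) (nat_lit 4) (nat_lit 1) (nat_lit 4) (nat_lit 535) (nat_lit 345) (nat_lit 320)) (XT.nd (nat_lit 78) (nat_lit 0) (nat_lit 0) (XT.lf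 (nat_lit 0) (nat_lit 185771097101) (nat_lit 152) (nat_lit 157827994564) (nat_lit 0) (nat_lit 185084359089) (nat_lit 1) (nat_lit 5) (nat_lit 3) (nat_lit 4) (nat_lit 1) (nat_lit 4) (nat_lit 536) (nat_lit 345) (nat_lit 319)) (XT.lf (nat_lit 0) (nat_lit 197440995493) (nat_lit 152) (nat_lit 160813672726) (nat_lit 0) (nat_lit 196741461707) (nat_lit 1) (nat_lit 5) (nat_lit 3) (nat_lit 4) (nat_lit 1) (nat_lit 4) (nat_lit 537) (nat_lit 345) (nat_lit 318)))) (XT.nd (nat_lit 156) (nat_lit 0) (nat_lit 0) (XT.nd (nat_lit 78) (nat_lit 0) (nat_lit 0) (XT.lf (nat_lit 0) (nat_lit 209653387718) (nat_lit 152) (nat_lit 164031438546) (nat_lit 0) (nat_lit 208941667481) (nat_lit 1) (nat_lit 5) (nat_lit 3) (nat_lit 4) (nat_lit 1) (nat_lit 4) (nat_lit 538) (nat_lit 345) (nat_lit 317)) (XT.lf (nat_lit 0) (nat_lit 222437350901) (nat_lit 152) (nat_lit 167488953370) (nat_lit 0) (nat_lit 221714024520) (nat_lit 1) (nat_lit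 5) (nat_lit 3) (nat_lit 4) (nat_lit 1) (nat_lit 4) (nat_lit 539) (nat_lit 345) (nat_lit 316))) (XT.nd (nat_lit 78) (nat_lit 0) (nat_lit 0) (XT.lf (nat_lit 0) (nat_lit 235823323050) (nat_lit 152) (nat_lit 171194449377) (nat_lit 0) (nat_lit 235088943198) (nat_lit 1) (nat_lit 5) (nat_lit 3) (nat_lit 4) (nat_lit 1) (nat_lit 4) (nat_lit 540) (nat_lit 345) (nat_lit 315)) (XT.lf (nat_lit 0) (nat_lit 249843175527) (nat_lit 152) (nat_lit 175156749176) (nat_lit 0) (nat_lit 249098268560) (nat_lit 1) (nat_lit 5) (nat_lit 3) (nat_lit 4) (nat_lit 1) (nat_lit 4) (nat_lit 541) (nat_lit 345) (nat_lit 314))))))) (XT.nd (nat_lit 60528) (nat_lit 0) (nat_lit 0) (XT.nd (nat_lit 59982) (nat_lit 0) (nat_lit 0) (XT.nd (nat_lit 234) (nat_lit 0) (nat_lit 0) (XT.nd (nat_lit 78) (nat_lit 0) (nat_lit 0) (XT.lf (nat_lit 0) (nat_lit 264530288932) (nat_lit 152) (nat_lit 179385286815) (nat_lit 0) (nat_lit 263775356142) (nat_lit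 1) (nat_lit 5) (nat_lit 3) (nat_lit 4) (nat_lit 1) (nat_lit 4) (nat_lit 542) (nat_lit 345) (nat_lit 313)) (XT.nd (nat_lit 78) (nat_lit 0) (nat_lit 0) (XT.lf (nat_lit 0) (nat_lit 279919632584) (nat_lit 152) (nat_lit 183890130240) (nat_lit 0) (nat_lit 279155151390) (nat_lit 1) (nat_lit 5) (nat_lit 3) (nat_lit 4) (nat_lit 1) (nat_lit 4) (nat_lit 543) (nat_lit 345) (nat_lit 312)) (XT.lf (nat_lit 0) (nat_lit 296047847777) (nat_lit 152) (nat_lit 188682005268) (nat_lit 0) (nat_lit 295274272865) (nat_lit 1) (nat_lit 5) (nat_lit 3) (nat_lit 4) (nat_lit 1) (nat_lit 4) (nat_lit 544) (nat_lit 345) (nat_lit 311)))) (XT.nd (nat_lit 59592) (nat_lit 0) (nat_lit 152) (XT.nd (nat_lit 78) (nat_lit 0) (nat_lit 0) (XT.lf (nat_lit 0) (nat_lit 312953335023) (nat_lit 152) (nat_lit 193772321127) (nat_lit 0) (nat_lit 312171099427) (nat_lit 1) (nat_lit 5) (nat_lit 3) (nat_lit 4) (nat_lit 1) (nat_lit 4) (nat_lit 545)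 (nat_lit 345) (nat_lit 310)) (XT.lf (nat_lit 0) (nat_lit 330676345482) (nat_lit 152) (nat_lit 199173197616) (nat_lit 0) (nat_lit 329885861617) (nat_lit 1) (nat_lit 5) (nat_lit 3) (nat_lit 4) (nat_lit 1) (nat_lit 4) (nat_lit 546) (nat_lit 345) (nat_lit 309))) (XT.nd (nat_lit 78) (nat_lit 0) (nat_lit 0) (XT.lf (nat_lit 0) (nat_lit 61469960187) (nat_lit 76) (nat_lit 3670428616) (nat_lit 76) (nat_lit 3670428616) (nat_lit 3) (nat_lit 4) (nat_lit 4) (nat_lit 5) (nat_lit 4) (nat_lit 4) (nat_lit 508) (nat_lit 346) (nat_lit 346)) (XT.lf (nat_lit 0) (nat_lit 138278523636) (nat_lit 76) (nat_lit 3023149407) (nat_lit 76) (nat_lit 2972988320) (nat_lit 3) (nat_lit 4) (nat_lit 4) (nat_lit 5) (nat_lit 4) (nat_lit 4) (nat_lit 509) (nat_lit 346) (nat_lit 345))))) (XT.nd (nat_lit 234) (nat_lit 0) (nat_lit 0) (XT.nd (nat_lit 78) (nat_lit 0) (nat_lit 0) (XT.lf (nat_lit 0) (nat_lit 1483354178) (nat_lit 152) (nat_lit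 148389558135) (nat_lit 0) (nat_lit 1390084131) (nat_lit 1) (nat_lit 5) (nat_lit 3) (nat_lit 4) (nat_lit 1) (nat_lit 4) (nat_lit 510) (nat_lit 346) (nat_lit 344)) (XT.nd (nat_lit 78) (nat_lit 0) (nat_lit 0) (XT.lf (nat_lit 0) (nat_lit 6069587492) (nat_lit 152) (nat_lit 146595390475) (nat_lit 0) (nat_lit 5932986412) (nat_lit 1) (nat_lit 5) (nat_lit 3) (nat_lit 4) (nat_lit 1) (nat_lit 4) (nat_lit 511) (nat_lit 346) (nat_lit 343)) (XT.lf (nat_lit 0) (nat_lit 10746288241) (nat_lit 152) (nat_lit 144991917317) (nat_lit 0) (nat_lit 10568419511) (nat_lit 1) (nat_lit 5) (nat_lit 3) (nat_lit 4) (nat_lit 1) (nat_lit 4) (nat_lit 512) (nat_lit 346) (nat_lit 342)))) (XT.nd (nat_lit 156) (nat_lit 0) (nat_lit 0) (XT.nd (nat_lit 78) (nat_lit 0) (nat_lit 0) (XT.lf (nat_lit 0) (nat_lit 15524591427) (nat_lit 152) (nat_lit 143575320869) (nat_lit 0) (nat_lit 15307420173) (nat_lit 1) (nat_lit 5) (nat_lit 3) (nat_lit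 4) (nat_lit 1) (nat_lit 4) (nat_lit 513) (nat_lit 346) (nat_lit 341)) (XT.lf (nat_lit 0) (nat_lit 20415873962) (nat_lit 152) (nat_lit 142342228281) (nat_lit 0) (nat_lit 20161271733) (nat_lit 1) (nat_lit 5) (nat_lit 3) (nat_lit 4) (nat_lit 1) (nat_lit 4) (nat_lit 514) (nat_lit 346) (nat_lit 340))) (XT.nd (nat_lit 78) (nat_lit 0) (nat_lit 0) (XT.lf (nat_lit 0) (nat_lit 25431781757) (nat_lit 152) (nat_lit 141289703619) (nat_lit 0) (nat_lit 25141530981) (nat_lit 1) (nat_lit 5) (nat_lit 3) (nat_lit 4) (nat_lit 1) (nat_lit 4) (nat_lit 515) (nat_lit 346) (nat_lit 339)) (XT.lf (nat_lit 0) (nat_lit 30584257450) (nat_lit 152) (nat_lit 140415240871) (nat_lit 0) (nat_lit 30260055677) (nat_lit 1) (nat_lit 5) (nat_lit 3) (nat_lit 4) (nat_lit 1) (nat_lit 4) (nat_lit 516) (nat_lit 346) (nat_lit 338)))))) (XT.nd (nat_lit 546) (nat_lit 0) (nat_lit 0) (XT.nd (nat_lit 234) (nat_lit 0) (nat_lit 0) (XT.nd (nat_lit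 78) (nat_lit 0) (nat_lit 0) (XT.lf (nat_lit 0) (nat_lit 35885568841) (nat_lit 152) (nat_lit 139716757984) (nat_lit 0) (nat_lit 35529032783) (nat_lit 1) (nat_lit 5) (nat_lit 3) (nat_lit 4) (nat_lit 1) (nat_lit 4) (nat_lit 517) (nat_lit 346) (nat_lit 337)) (XT.nd (nat_lit 78) (nat_lit 0) (nat_lit 0) (XT.lf (nat_lit 0) (nat_lit 41348338098) (nat_lit 152) (nat_lit 139192591903) (nat_lit 0) (nat_lit 40961007485) (nat_lit 1) (nat_lit 5) (nat_lit 3) (nat_lit 4) (nat_lit 1) (nat_lit 4) (nat_lit 518) (nat_lit 346) (nat_lit 336)) (XT.lf (nat_lit 0) (nat_lit 46985571816) (nat_lit 152) (nat_lit 138841494614) (nat_lit 0) (nat_lit 46568913054) (nat_lit 1) (nat_lit 5) (nat_lit 3) (nat_lit 4) (nat_lit 1) (nat_lit 4) (nat_lit 519) (nat_lit 346) (nat_lit 335)))) (XT.nd (nat_lit 156) (nat_lit 0) (nat_lit 0) (XT.nd (nat_lit 78) (nat_lit 0) (nat_lit 0) (XT.lf (nat_lit 0) (nat_lit 52810691979) (nat_lit 152) (nat_lit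 138662630170) (nat_lit 0) (nat_lit 52366101648) (nat_lit 1) (nat_lit 5) (nat_lit 3) (nat_lit 4) (nat_lit 1) (nat_lit 4) (nat_lit 520) (nat_lit 346) (nat_lit 334)) (XT.lf (nat_lit 0) (nat_lit 58837567922) (nat_lit 152) (nat_lit 138655572704) (nat_lit 0) (nat_lit 58366376095) (nat_lit 1) (nat_lit 5) (nat_lit 3) (nat_lit 4) (nat_lit 1) (nat_lit 4) (nat_lit 521) (nat_lit 346) (nat_lit 333))) (XT.nd (nat_lit 78) (nat_lit 0) (nat_lit 0) (XT.lf (nat_lit 0) (nat_lit 65080549348) (nat_lit 152) (nat_lit 138820305412) (nat_lit 0) (nat_lit 64584022764) (nat_lit 1) (nat_lit 5) (nat_lit 3) (nat_lit 4) (nat_lit 1) (nat_lit 4) (nat_lit 522) (nat_lit 346) (nat_lit 332)) (XT.lf (nat_lit 0) (nat_lit 71554500500) (nat_lit 152) (nat_lit 139157220516) (nat_lit 0) (nat_lit 71033845576) (nat_lit 1) (nat_lit 5) (nat_lit 3) (nat_lit 4) (nat_lit 1) (nat_lit 4) (nat_lit 523) (nat_lit 346) (nat_lit 331))))) (XT.nd (nat_lit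 312) (nat_lit 0) (nat_lit 0) (XT.nd (nat_lit 156) (nat_lit 0) (nat_lit 0) (XT.nd (nat_lit 78) (nat_lit 0) (nat_lit 0) (XT.lf (nat_lit 0) (nat_lit 78274835547) (nat_lit 152) (nat_lit 139667120193) (nat_lit 0) (nat_lit 77731201251) (nat_lit 1) (nat_lit 5) (nat_lit 3) (nat_lit 4) (nat_lit 1) (nat_lit 4) (nat_lit 524) (nat_lit 346) (nat_lit 330)) (XT.lf (nat_lit 0) (nat_lit 85257555286) (nat_lit 152) (nat_lit 140351218491) (nat_lit 0) (nat_lit 84692035875) (nat_lit 1) (nat_lit 5) (nat_lit 3) (nat_lit 4) (nat_lit 1) (nat_lit 4) (nat_lit 525) (nat_lit 346) (nat_lit 329))) (XT.nd (nat_lit 78) (nat_lit 0) (nat_lit 0) (XT.lf (nat_lit 0) (nat_lit 92519285241) (nat_lit 152) (nat_lit 141211144216) (nat_lit 0) (nat_lit 91932922862) (nat_lit 1) (nat_lit 5) (nat_lit 3) (nat_lit 4) (nat_lit 1) (nat_lit 4) (nat_lit 526) (nat_lit 346) (nat_lit 328)) (XT.lf (nat_lit 0) (nat_lit 100077315245) (nat_lit 152) (nat_lit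 142248944809) (nat_lit 0) (nat_lit 99471102421) (nat_lit 1) (nat_lit 5) (nat_lit 3) (nat_lit 4) (nat_lit 1) (nat_lit 4) (nat_lit 527) (nat_lit 346) (nat_lit 327)))) (XT.nd (nat_lit 156) (nat_lit 0) (nat_lit 0) (XT.nd (nat_lit 78) (nat_lit 0) (nat_lit 0) (XT.lf (nat_lit 0) (nat_lit 107949640607) (nat_lit 152) (nat_lit 143467091224) (nat_lit 0) (nat_lit 107324522597) (nat_lit 1) (nat_lit 5) (nat_lit 3) (nat_lit 4) (nat_lit 1) (nat_lit 4) (nat_lit 528) (nat_lit 346) (nat_lit 326)) (XT.lf (nat_lit 0) (nat_lit 116155004960) (nat_lit 152) (nat_lit 144868483810) (nat_lit 0) (nat_lit 115511882011) (nat_lit 1) (nat_lit 5) (nat_lit 3) (nat_lit 4) (nat_lit 1) (nat_lit 4) (nat_lit 529) (nat_lit 346) (nat_lit 325))) (XT.nd (nat_lit 78) (nat_lit 0) (nat_lit 0) (XT.lf (nat_lit 0) (nat_lit 124712944885) (nat_lit 152) (nat_lit 146456459216) (nat_lit 0) (nat_lit 124052674375) (nat_lit 1) (nat_lit 5) (nat_lit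 3) (nat_lit 4) (nat_lit 1) (nat_lit 4) (nat_lit 530) (nat_lit 346) (nat_lit 324)) (XT.lf (nat_lit 0) (nat_lit 133643836429) (nat_lit 152) (nat_lit 148234798336) (nat_lit 0) (nat_lit 132967234909) (nat_lit 1) (nat_lit 5) (nat_lit 3) (nat_lit 4) (nat_lit 1) (nat_lit 4) (nat_lit 531) (nat_lit 346) (nat_lit 323))))))))
noncomputable def xc7 : XT := (XT.nd (nat_lit 61464) (nat_lit 0) (nat_lit 0) (XT.nd (nat_lit 1092) (nat_lit 0) (nat_lit 0) (XT.nd (nat_lit 546) (nat_lit 0) (nat_lit 0) (XT.nd (nat_lit 234) (nat_lit 0) (nat_lit 0) (XT.nd (nat_lit 78) (nat_lit 0) (nat_lit 0) (XT.lf (nat_lit 0) (nat_lit 142968943620) (nat_lit 152) (nat_lit 150207735310) (nat_lit 0) (nat_lit 142276788757) (nat_lit 1) (nat_lit 5) (nat_lit 3) (nat_lit 4) (nat_lit 1) (nat_lit 4) (nat_lit 532) (nat_lit 346) (nat_lit 322)) (XT.nd (nat_lit 78) (nat_lit 0) (nat_lit 0) (XT.lf (nat_lit 0) (nat_lit 152710469095) (nat_lit 152)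 (nat_lit 152379967608) (nat_lit 0) (nat_lit 152003501523) (nat_lit 1) (nat_lit 5) (nat_lit 3) (nat_lit 4) (nat_lit 1) (nat_lit 4) (nat_lit 533) (nat_lit 346) (nat_lit 321)) (XT.lf (nat_lit 0) (nat_lit 162891606961) (nat_lit 152) (nat_lit 154756667211) (nat_lit 0) (nat_lit 162170532048) (nat_lit 1) (nat_lit 5) (nat_lit 3) (nat_lit 4) (nat_lit 1) (nat_lit 4) (nat_lit 534) (nat_lit 346) (nat_lit 320)))) (XT.nd (nat_lit 156) (nat_lit 0) (nat_lit 0) (XT.nd (nat_lit 78) (nat_lit 0) (nat_lit 0) (XT.lf (nat_lit 0) (nat_lit 173536598022) (nat_lit 152) (nat_lit 157343492927) (nat_lit 0) (nat_lit 172802087547) (nat_lit 1) (nat_lit 5) (nat_lit 3) (nat_lit 4) (nat_lit 1) (nat_lit 4) (nat_lit 535) (nat_lit 346) (nat_lit 319)) (XT.lf (nat_lit 0) (nat_lit 184670787497) (nat_lit 152) (nat_lit 160146603866) (nat_lit 0) (nat_lit 183923481248) (nat_lit 1) (nat_lit 5) (nat_lit 3) (nat_lit 4) (nat_lit 1) (nat_lit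 4) (nat_lit 536) (nat_lit 346) (nat_lit 318))) (XT.nd (nat_lit 78) (nat_lit 0) (nat_lit 0) (XT.lf (nat_lit 0) (nat_lit 196320685359) (nat_lit 152) (nat_lit 163172674101) (nat_lit 0) (nat_lit 195561192659) (nat_lit 1) (nat_lit 5) (nat_lit 3) (nat_lit 4) (nat_lit 1) (nat_lit 4) (nat_lit 537) (nat_lit 346) (nat_lit 317)) (XT.lf (nat_lit 0) (nat_lit 208514029461) (nat_lit 152) (nat_lit 166428908562) (nat_lit 0) (nat_lit 207742930617) (nat_lit 1) (nat_lit 5) (nat_lit 3) (nat_lit 4) (nat_lit 1) (nat_lit 4) (nat_lit 538) (nat_lit 346) (nat_lit 316))))) (XT.nd (nat_lit 234) (nat_lit 0) (nat_lit 0) (XT.nd (nat_lit 78) (nat_lit 0) (nat_lit 0) (XT.lf (nat_lit 0) (nat_lit 221279851574) (nat_lit 152) (nat_lit 169923060187) (nat_lit 0) (nat_lit 220497699259) (nat_lit 1) (nat_lit 5) (nat_lit 3) (nat_lit 4) (nat_lit 1) (nat_lit 4) (nat_lit 539) (nat_lit 346) (nat_lit 315)) (XT.nd (nat_lit 78) (nat_lit 0) (nat_lit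 0) (XT.lf (nat_lit 0) (nat_lit 234648546513) (nat_lit 152) (nat_lit 173663448385) (nat_lit 0) (nat_lit 233855867083) (nat_lit 1) (nat_lit 5) (nat_lit 3) (nat_lit 4) (nat_lit 1) (nat_lit 4) (nat_lit 540) (nat_lit 346) (nat_lit 314)) (XT.lf (nat_lit 0) (nat_lit 248651944505) (nat_lit 152) (nat_lit 177658978842) (nat_lit 0) (nat_lit 247849239251) (nat_lit 1) (nat_lit 5) (nat_lit 3) (nat_lit 4) (nat_lit 1) (nat_lit 4) (nat_lit 541) (nat_lit 346) (nat_lit 313)))) (XT.nd (nat_lit 156) (nat_lit 0) (nat_lit 0) (XT.nd (nat_lit 78) (nat_lit 0) (nat_lit 0) (XT.lf (nat_lit 0) (nat_lit 263323386972) (nat_lit 152) (nat_lit 181919164727) (nat_lit 0) (nat_lit 262511133314) (nat_lit 1) (nat_lit 5) (nat_lit 3) (nat_lit 4) (nat_lit 1) (nat_lit 4) (nat_lit 542) (nat_lit 346) (nat_lit 312)) (XT.lf (nat_lit 0) (nat_lit 278697805920) (nat_lit 152) (nat_lit 186454149339) (nat_lit 0) (nat_lit 277876458545) (nat_lit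 1) (nat_lit 5) (nat_lit 3) (nat_lit 4) (nat_lit 1) (nat_lit 4) (nat_lit 543) (nat_lit 346) (nat_lit 311))) (XT.nd (nat_lit 78) (nat_lit 0) (nat_lit 0) (XT.lf (nat_lit 0) (nat_lit 294811807110) (nat_lit 152) (nat_lit 191274730259) (nat_lit 0) (nat_lit 293981799051) (nat_lit 1) (nat_lit 5) (nat_lit 3) (nat_lit 4) (nat_lit 1) (nat_lit 4) (nat_lit 544) (nat_lit 346) (nat_lit 310)) (XT.lf (nat_lit 0) (nat_lit 311703757210) (nat_lit 152) (nat_lit 196392385063) (nat_lit 0) (nat_lit 310865500881) (nat_lit 1) (nat_lit 5) (nat_lit 3) (nat_lit 4) (nat_lit 1) (nat_lit 4) (nat_lit 545) (nat_lit 346) (nat_lit 309)))))) (XT.nd (nat_lit 59826) (nat_lit 0) (nat_lit 0) (XT.nd (nat_lit 59514) (nat_lit 0) (nat_lit 0) (XT.nd (nat_lit 59358) (nat_lit 0) (nat_lit 152) (XT.lf (nat_lit 0) (nat_lit 329413875149) (nat_lit 152) (nat_lit 201819298642) (nat_lit 0) (nat_lit 328567763326) (nat_lit 1) (nat_lit 5) (nat_lit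 3) (nat_lit 4) (nat_lit 1) (nat_lit 4) (nat_lit 546) (nat_lit 346) (nat_lit 308)) (XT.nd (nat_lit 78) (nat_lit 0) (nat_lit 0) (XT.lf (nat_lit 0) (nat_lit 46852902539) (nat_lit 76) (nat_lit 7890705526) (nat_lit 76) (nat_lit 7890705526) (nat_lit 3) (nat_lit 4) (nat_lit 4) (nat_lit 5) (nat_lit 4) (nat_lit 4) (nat_lit 506) (nat_lit 347) (nat_lit 347)) (XT.lf (nat_lit 0) (nat_lit 108042282938) (nat_lit 76) (nat_lit 11651493384) (nat_lit 76) (nat_lit 11598824243) (nat_lit 3) (nat_lit 4) (nat_lit 4) (nat_lit 5) (nat_lit 4) (nat_lit 4) (nat_lit 507) (nat_lit 347) (nat_lit 346)))) (XT.nd (nat_lit 156) (nat_lit 152) (nat_lit 0) (XT.nd (nat_lit 78) (nat_lit 0) (nat_lit 0) (XT.lf (nat_lit 0) (nat_lit 122791668644) (nat_lit 76) (nat_lit 7468237366) (nat_lit 76) (nat_lit 7365407139) (nat_lit 3) (nat_lit 4) (nat_lit 4) (nat_lit 5) (nat_lit 4) (nat_lit 4) (nat_lit 508) (nat_lit 347) (nat_lit 345)) (XT.lf (nat_lit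 0) (nat_lit 137989079783) (nat_lit 76) (nat_lit 3221682867) (nat_lit 76) (nat_lit 3071080176) (nat_lit 3) (nat_lit 4) (nat_lit 4) (nat_lit 5) (nat_lit 4) (nat_lit 4) (nat_lit 509) (nat_lit 347) (nat_lit 344))) (XT.nd (nat_lit 78) (nat_lit 0) (nat_lit 0) (XT.lf (nat_lit 0) (nat_lit 1309324163) (nat_lit 152) (nat_lit 148842323306) (nat_lit 0) (nat_lit 1122561997) (nat_lit 1) (nat_lit 5) (nat_lit 3) (nat_lit 4) (nat_lit 1) (nat_lit 4) (nat_lit 510) (nat_lit 347) (nat_lit 343)) (XT.lf (nat_lit 0) (nat_lit 5827828584) (nat_lit 152) (nat_lit 147184937541) (nat_lit 0) (nat_lit 5599798768) (nat_lit 1) (nat_lit 5) (nat_lit 3) (nat_lit 4) (nat_lit 1) (nat_lit 4) (nat_lit 511) (nat_lit 347) (nat_lit 342))))) (XT.nd (nat_lit 234) (nat_lit 0) (nat_lit 0) (XT.nd (nat_lit 78) (nat_lit 0) (nat_lit 0) (XT.lf (nat_lit 0) (nat_lit 10440025625) (nat_lit 152) (nat_lit 145711732855) (nat_lit 0) (nat_lit 10172693285)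 (nat_lit 1) (nat_lit 5) (nat_lit 3) (nat_lit 4) (nat_lit 1) (nat_lit 4) (nat_lit 512) (nat_lit 347) (nat_lit 341)) (XT.nd (nat_lit 78) (nat_lit 0) (nat_lit 0) (XT.lf (nat_lit 0) (nat_lit 15156896709) (nat_lit 152) (nat_lit 144419201618) (nat_lit 0) (nat_lit 14852133394) (nat_lit 1) (nat_lit 5) (nat_lit 3) (nat_lit 4) (nat_lit 1) (nat_lit 4) (nat_lit 513) (nat_lit 347) (nat_lit 340)) (XT.lf (nat_lit 0) (nat_lit 19989672480) (nat_lit 152) (nat_lit 143304266374) (nat_lit 0) (nat_lit 19649260617) (nat_lit 1) (nat_lit 5) (nat_lit 3) (nat_lit 4) (nat_lit 1) (nat_lit 4) (nat_lit 514) (nat_lit 347) (nat_lit 339)))) (XT.nd (nat_lit 156) (nat_lit 0) (nat_lit 0) (XT.nd (nat_lit 78) (nat_lit 0) (nat_lit 0) (XT.lf (nat_lit 0) (nat_lit 24949859547) (nat_lit 152) (nat_lit 142364272516) (nat_lit 0) (nat_lit 24575496687) (nat_lit 1) (nat_lit 5) (nat_lit 3) (nat_lit 4) (nat_lit 1) (nat_lit 4) (nat_lit 515) (nat_lit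 347) (nat_lit 338)) (XT.lf (nat_lit 0) (nat_lit 30049267881) (nat_lit 152) (nat_lit 141596981962) (nat_lit 0) (nat_lit 29642570737) (nat_lit 1) (nat_lit 5) (nat_lit 3) (nat_lit 4) (nat_lit 1) (nat_lit 4) (nat_lit 516) (nat_lit 347) (nat_lit 337))) (XT.nd (nat_lit 78) (nat_lit 0) (nat_lit 0) (XT.lf (nat_lit 0) (nat_lit 35300038928) (nat_lit 152) (nat_lit 141000567832) (nat_lit 0) (nat_lit 34862547229) (nat_lit 1) (nat_lit 5) (nat_lit 3) (nat_lit 4) (nat_lit 1) (nat_lit 4) (nat_lit 517) (nat_lit 347) (nat_lit 336)) (XT.lf (nat_lit 0) (nat_lit 40714674526) (nat_lit 152) (nat_lit 140573610090) (nat_lit 0) (nat_lit 40247854678) (nat_lit 1) (nat_lit 5) (nat_lit 3) (nat_lit 4) (nat_lit 1) (nat_lit 4) (nat_lit 518) (nat_lit 347) (nat_lit 335))))))) (XT.nd (nat_lit 1092) (nat_lit 0) (nat_lit 0) (XT.nd (nat_lit 546) (nat_lit 0) (nat_lit 0) (XT.nd (nat_lit 234) (nat_lit 0) (nat_lit 0) (XT.nd (nat_lit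 78) (nat_lit 0) (nat_lit 0) (XT.lf (nat_lit 0) (nat_lit 46306066663) (nat_lit 152) (nat_lit 140315092171) (nat_lit 0) (nat_lit 45811315245) (nat_lit 1) (nat_lit 5) (nat_lit 3) (nat_lit 4) (nat_lit 1) (nat_lit 4) (nat_lit 519) (nat_lit 347) (nat_lit 334)) (XT.nd (nat_lit 78) (nat_lit 0) (nat_lit 0) (XT.lf (nat_lit 0) (nat_lit 52087528178) (nat_lit 152) (nat_lit 140224398557) (nat_lit 0) (nat_lit 51566175265) (nat_lit 1) (nat_lit 5) (nat_lit 3) (nat_lit 4) (nat_lit 1) (nat_lit 4) (nat_lit 520) (nat_lit 347) (nat_lit 333)) (XT.lf (nat_lit 0) (nat_lit 58072824456) (nat_lit 152) (nat_lit 140301313309) (nat_lit 0) (nat_lit 57526136786) (nat_lit 1) (nat_lit 5) (nat_lit 3) (nat_lit 4) (nat_lit 1) (nat_lit 4) (nat_lit 521) (nat_lit 347) (nat_lit 332)))) (XT.nd (nat_lit 156) (nat_lit 0) (nat_lit 0) (XT.nd (nat_lit 78) (nat_lit 0) (nat_lit 0) (XT.lf (nat_lit 0) (nat_lit 64276206201) (nat_lit 152) (nat_lit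 140546019559) (nat_lit 0) (nat_lit 63705390191) (nat_lit 1) (nat_lit 5) (nat_lit 3) (nat_lit 4) (nat_lit 1) (nat_lit 4) (nat_lit 522) (nat_lit 347) (nat_lit 331)) (XT.lf (nat_lit 0) (nat_lit 70712443371) (nat_lit 152) (nat_lit 140959099940) (nat_lit 0) (nat_lit 70118647989) (nat_lit 1) (nat_lit 5) (nat_lit 3) (nat_lit 4) (nat_lit 1) (nat_lit 4) (nat_lit 523) (nat_lit 347) (nat_lit 330))) (XT.nd (nat_lit 78) (nat_lit 0) (nat_lit 0) (XT.lf (nat_lit 0) (nat_lit 77396860340) (nat_lit 152) (nat_lit 141541537977) (nat_lit 0) (nat_lit 76781179842) (nat_lit 1) (nat_lit 5) (nat_lit 3) (nat_lit 4) (nat_lit 1) (nat_lit 4) (nat_lit 524) (nat_lit 347) (nat_lit 329)) (XT.lf (nat_lit 0) (nat_lit 84345372386) (nat_lit 152) (nat_lit 142294720427) (nat_lit 0) (nat_lit 83708848921) (nat_lit 1) (nat_lit 5) (nat_lit 3) (nat_lit 4) (nat_lit 1) (nat_lit 4) (nat_lit 525) (nat_lit 347) (nat_lit 328))))) (XT.nd (nat_lit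 234) (nat_lit 0) (nat_lit 0) (XT.nd (nat_lit 78) (nat_lit 0) (nat_lit 0) (XT.lf (nat_lit 0) (nat_lit 91574523585) (nat_lit 152) (nat_lit 143220440582) (nat_lit 0) (nat_lit 90918149675) (nat_lit 1) (nat_lit 5) (nat_lit 3) (nat_lit 4) (nat_lit 1) (nat_lit 4) (nat_lit 526) (nat_lit 347) (nat_lit 327)) (XT.nd (nat_lit 78) (nat_lit 0) (nat_lit 0) (XT.lf (nat_lit 0) (nat_lit 99101526203) (nat_lit 152) (nat_lit 144320902537) (nat_lit 0) (nat_lit 98426247107) (nat_lit 1) (nat_lit 5) (nat_lit 3) (nat_lit 4) (nat_lit 1) (nat_lit 4) (nat_lit 527) (nat_lit 347) (nat_lit 326)) (XT.lf (nat_lit 0) (nat_lit 106944301674) (nat_lit 152) (nat_lit 145598726440) (nat_lit 0) (nat_lit 106251017638) (nat_lit 1) (nat_lit 5) (nat_lit 3) (nat_lit 4) (nat_lit 1) (nat_lit 4) (nat_lit 528) (nat_lit 347) (nat_lit 325)))) (XT.nd (nat_lit 156) (nat_lit 0) (nat_lit 0) (XT.nd (nat_lit 78) (nat_lit 0) (nat_lit 0) (XT.lf (nat_lit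 0) (nat_lit 115121523273) (nat_lit 152) (nat_lit 147056954729) (nat_lit 0) (nat_lit 114411091676) (nat_lit 1) (nat_lit 5) (nat_lit 3) (nat_lit 4) (nat_lit 1) (nat_lit 4) (nat_lit 529) (nat_lit 347) (nat_lit 324)) (XT.lf (nat_lit 0) (nat_lit 123652660575) (nat_lit 152) (nat_lit 148699059376) (nat_lit 0) (nat_lit 122925897968) (nat_lit 1) (nat_lit 5) (nat_lit 3) (nat_lit 4) (nat_lit 1) (nat_lit 4) (nat_lit 530) (nat_lit 347) (nat_lit 323))) (XT.nd (nat_lit 78) (nat_lit 0) (nat_lit 0) (XT.lf (nat_lit 0) (nat_lit 132558025811) (nat_lit 152) (nat_lit 150528950153) (nat_lit 0) (nat_lit 131815709861) (nat_lit 1) (nat_lit 5) (nat_lit 3) (nat_lit 4) (nat_lit 1) (nat_lit 4) (nat_lit 531) (nat_lit 347) (nat_lit 322)) (XT.lf (nat_lit 0) (nat_lit 141858822234) (nat_lit 152) (nat_lit 152550983944) (nat_lit 0) (nat_lit 141101693576) (nat_lit 1) (nat_lit 5) (nat_lit 3) (nat_lit 4) (nat_lit 1) (nat_lit 4) (nat_lit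 532) (nat_lit 347) (nat_lit 321)))))) (XT.nd (nat_lit 546) (nat_lit 0) (nat_lit 0) (XT.nd (nat_lit 234) (nat_lit 0) (nat_lit 0) (XT.nd (nat_lit 78) (nat_lit 0) (nat_lit 0) (XT.lf (nat_lit 0) (nat_lit 151577194595) (nat_lit 152) (nat_lit 154769975115) (nat_lit 0) (nat_lit 150805958596) (nat_lit 1) (nat_lit 5) (nat_lit 3) (nat_lit 4) (nat_lit 1) (nat_lit 4) (nat_lit 533) (nat_lit 347) (nat_lit 320)) (XT.nd (nat_lit 78) (nat_lit 0) (nat_lit 0) (XT.lf (nat_lit 0) (nat_lit 161736281877) (nat_lit 152) (nat_lit 157191206978) (nat_lit 0) (nat_lit 160951610315) (nat_lit 1) (nat_lit 5) (nat_lit 3) (nat_lit 4) (nat_lit 1) (nat_lit 4) (nat_lit 534) (nat_lit 347) (nat_lit 319)) (XT.lf (nat_lit 0) (nat_lit 172360272382) (nat_lit 152) (nat_lit 159820444371) (nat_lit 0) (nat_lit 171562805047) (nat_lit 1) (nat_lit 5) (nat_lit 3) (nat_lit 4) (nat_lit 1) (nat_lit 4) (nat_lit 535) (nat_lit 347) (nat_lit 318))))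 (XT.nd (nat_lit 156) (nat_lit 0) (nat_lit 0) (XT.nd (nat_lit 78) (nat_lit 0) (nat_lit 0) (XT.lf (nat_lit 0) (nat_lit 183474461327) (nat_lit 152) (nat_lit 162663947383) (nat_lit 0) (nat_lit 182664807540) (nat_lit 1) (nat_lit 5) (nat_lit 3) (nat_lit 4) (nat_lit 1) (nat_lit 4) (nat_lit 536) (nat_lit 347) (nat_lit 317)) (XT.lf (nat_lit 0) (nat_lit 195105311066) (nat_lit 152) (nat_lit 165728486259) (nat_lit 0) (nat_lit 194284051135) (nat_lit 1) (nat_lit 5) (nat_lit 3) (nat_lit 4) (nat_lit 1) (nat_lit 4) (nat_lit 537) (nat_lit 347) (nat_lit 316))) (XT.nd (nat_lit 78) (nat_lit 0) (nat_lit 0) (XT.lf (nat_lit 0) (nat_lit 207280514097) (nat_lit 152) (nat_lit 169021357520) (nat_lit 0) (nat_lit 206448200696) (nat_lit 1) (nat_lit 5) (nat_lit 3) (nat_lit 4) (nat_lit 1) (nat_lit 4) (nat_lit 538) (nat_lit 347) (nat_lit 315)) (XT.lf (nat_lit 0) (nat_lit 220029059001) (nat_lit 152) (nat_lit 172550401336) (nat_lit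 0) (nat_lit 219186218485) (nat_lit 1) (nat_lit 5) (nat_lit 3) (nat_lit 4) (nat_lit 1) (nat_lit 4) (nat_lit 539) (nat_lit 347) (nat_lit 314))))) (XT.nd (nat_lit 312) (nat_lit 0) (nat_lit 0) (XT.nd (nat_lit 156) (nat_lit 0) (nat_lit 0) (XT.nd (nat_lit 78) (nat_lit 0) (nat_lit 0) (XT.lf (nat_lit 0) (nat_lit 233381299455) (nat_lit 152) (nat_lit 176324020193) (nat_lit 0) (nat_lit 232528433115) (nat_lit 1) (nat_lit 5) (nat_lit 3) (nat_lit 4) (nat_lit 1) (nat_lit 4) (nat_lit 540) (nat_lit 347) (nat_lit 313)) (XT.lf (nat_lit 0) (nat_lit 247369026508) (nat_lit 152) (nat_lit 180351198896) (nat_lit 0) (nat_lit 246506611764) (nat_lit 1) (nat_lit 5) (nat_lit 3) (nat_lit 4) (nat_lit 1) (nat_lit 4) (nat_lit 541) (nat_lit 347) (nat_lit 312))) (XT.nd (nat_lit 78) (nat_lit 0) (nat_lit 0) (XT.lf (nat_lit 0) (nat_lit 262025544271) (nat_lit 152) (nat_lit 184641525968) (nat_lit 0) (nat_lit 261154035810) (nat_lit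 1) (nat_lit 5) (nat_lit 3) (nat_lit 4) (nat_lit 1) (nat_lit 4) (nat_lit 542) (nat_lit 347) (nat_lit 311)) (XT.lf (nat_lit 0) (nat_lit 277385749217) (nat_lit 152) (nat_lit 189205216471) (nat_lit 0) (nat_lit 276505580072) (nat_lit 1) (nat_lit 5) (nat_lit 3) (nat_lit 4) (nat_lit 1) (nat_lit 4) (nat_lit 543) (nat_lit 347) (nat_lit 310)))) (XT.nd (nat_lit 156) (nat_lit 0) (nat_lit 0) (XT.nd (nat_lit 78) (nat_lit 0) (nat_lit 0) (XT.lf (nat_lit 0) (nat_lit 293486213260) (nat_lit 152) (nat_lit 194053136336) (nat_lit 0) (nat_lit 292597795845) (nat_lit 1) (nat_lit 5) (nat_lit 3) (nat_lit 4) (nat_lit 1) (nat_lit 4) (nat_lit 544) (nat_lit 347) (nat_lit 309)) (XT.lf (nat_lit 0) (nat_lit 310365270841) (nat_lit 152) (nat_lit 199196828230) (nat_lit 0) (nat_lit 309468997931) (nat_lit 1) (nat_lit 5) (nat_lit 3) (nat_lit 4) (nat_lit 1) (nat_lit 4) (nat_lit 545) (nat_lit 347) (nat_lit 308))) (XT.nd (nat_lit 59202)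 (nat_lit 0) (nat_lit 152) (XT.lf (nat_lit 0) (nat_lit 328063110190) (nat_lit 152) (nat_lit 204648539038) (nat_lit 0) (nat_lit 327159355856) (nat_lit 1) (nat_lit 5) (nat_lit 3) (nat_lit 4) (nat_lit 1) (nat_lit 4) (nat_lit 546) (nat_lit 347) (nat_lit 307)) (XT.lf (nat_lit 0) (nat_lit 33149692195) (nat_lit 76) (nat_lit 11946697020) (nat_lit 76) (nat_lit 11946697020) (nat_lit 3) (nat_lit 4) (nat_lit 4) (nat_lit 5) (nat_lit 4) (nat_lit 4) (nat_lit 504) (nat_lit 348) (nat_lit 348))))))))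
noncomputable def xc8 : XT := (XT.nd (nat_lit 2184) (nat_lit 0) (nat_lit 0) (XT.nd (nat_lit 1092) (nat_lit 0) (nat_lit 0) (XT.nd (nat_lit 546) (nat_lit 0) (nat_lit 0) (XT.nd (nat_lit 234) (nat_lit 152) (nat_lit 0) (XT.nd (nat_lit 78) (nat_lit 0) (nat_lit 0) (XT.lf (nat_lit 0) (nat_lit 79748100595) (nat_lit 76) (nat_lit 19923126109) (nat_lit 76) (nat_lit 19867823512) (nat_lit 3) (nat_lit 4) (nat_lit 4) (nat_lit 5) (nat_lit 4) (nat_lit 4) (nat_lit 505) (nat_lit 348) (nat_lit 347)) (XT.nd (nat_lit 78) (nat_lit 0) (nat_lit 0) (XT.lf (nat_lit 0) (nat_lit 93550140762) (nat_lit 76) (nat_lit 15915160193) (nat_lit 76) (nat_lit 15807188455) (nat_lit 3) (nat_lit 4) (nat_lit 4) (nat_lit 5) (nat_lit 4) (nat_lit 4) (nat_lit 506) (nat_lit 348) (nat_lit 346)) (XT.lf (nat_lit 0) (nat_lit 107738366892) (nat_lit 76) (nat_lit 11859953517) (nat_lit 76) (nat_lit 11701820692) (nat_lit 3) (nat_lit 4) (nat_lit 4) (nat_lit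 5) (nat_lit 4) (nat_lit 4) (nat_lit 507) (nat_lit 348) (nat_lit 345)))) (XT.nd (nat_lit 156) (nat_lit 152) (nat_lit 0) (XT.nd (nat_lit 78) (nat_lit 0) (nat_lit 0) (XT.lf (nat_lit 0) (nat_lit 122346560475) (nat_lit 76) (nat_lit 7747850825) (nat_lit 76) (nat_lit 7541945537) (nat_lit 3) (nat_lit 4) (nat_lit 4) (nat_lit 5) (nat_lit 4) (nat_lit 4) (nat_lit 508) (nat_lit 348) (nat_lit 344)) (XT.lf (nat_lit 0) (nat_lit 137409502924) (nat_lit 76) (nat_lit 3569061399) (nat_lit 76) (nat_lit 3317658526) (nat_lit 3) (nat_lit 4) (nat_lit 4) (nat_lit 5) (nat_lit 4) (nat_lit 4) (nat_lit 509) (nat_lit 348) (nat_lit 343))) (XT.nd (nat_lit 78) (nat_lit 0) (nat_lit 0) (XT.lf (nat_lit 0) (nat_lit 987748417) (nat_lit 152) (nat_lit 149598129621) (nat_lit 0) (nat_lit 707049460) (nat_lit 1) (nat_lit 5) (nat_lit 3) (nat_lit 4) (nat_lit 1) (nat_lit 4) (nat_lit 510) (nat_lit 348) (nat_lit 342)) (XT.lf (nat_lit 0) (nat_lit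 5441749130) (nat_lit 152) (nat_lit 148071012328) (nat_lit 0) (nat_lit 5121747650) (nat_lit 1) (nat_lit 5) (nat_lit 3) (nat_lit 4) (nat_lit 1) (nat_lit 4) (nat_lit 511) (nat_lit 348) (nat_lit 341))))) (XT.nd (nat_lit 234) (nat_lit 0) (nat_lit 0) (XT.nd (nat_lit 78) (nat_lit 0) (nat_lit 0) (XT.lf (nat_lit 0) (nat_lit 9992514069) (nat_lit 152) (nat_lit 146721872853) (nat_lit 0) (nat_lit 9635081613) (nat_lit 1) (nat_lit 5) (nat_lit 3) (nat_lit 4) (nat_lit 1) (nat_lit 4) (nat_lit 512) (nat_lit 348) (nat_lit 340)) (XT.nd (nat_lit 78) (nat_lit 0) (nat_lit 0) (XT.lf (nat_lit 0) (nat_lit 14650878388) (nat_lit 152) (nat_lit 145547498960) (nat_lit 0) (nat_lit 14257797385) (nat_lit 1) (nat_lit 5) (nat_lit 3) (nat_lit 4) (nat_lit 1) (nat_lit 4) (nat_lit 513) (nat_lit 348) (nat_lit 339)) (XT.lf (nat_lit 0) (nat_lit 19427933431) (nat_lit 152) (nat_lit 144545094520) (nat_lit 0) (nat_lit 19000901431) (nat_lit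 1) (nat_lit 5) (nat_lit 3) (nat_lit 4) (nat_lit 1) (nat_lit 4) (nat_lit 514) (nat_lit 348) (nat_lit 338)))) (XT.nd (nat_lit 156) (nat_lit 0) (nat_lit 0) (XT.nd (nat_lit 78) (nat_lit 0) (nat_lit 0) (XT.lf (nat_lit 0) (nat_lit 24335053139) (nat_lit 152) (nat_lit 143712272856) (nat_lit 0) (nat_lit 23875686855) (nat_lit 1) (nat_lit 5) (nat_lit 3) (nat_lit 4) (nat_lit 1) (nat_lit 4) (nat_lit 515) (nat_lit 348) (nat_lit 337)) (XT.lf (nat_lit 0) (nat_lit 29383921130) (nat_lit 152) (nat_lit 143047051059) (nat_lit 0) (nat_lit 28893760290) (nat_lit 1) (nat_lit 5) (nat_lit 3) (nat_lit 4) (nat_lit 1) (nat_lit 4) (nat_lit 516) (nat_lit 348) (nat_lit 336))) (XT.nd (nat_lit 78) (nat_lit 0) (nat_lit 0) (XT.lf (nat_lit 0) (nat_lit 34586558518) (nat_lit 152) (nat_lit 142547845267) (nat_lit 0) (nat_lit 34067069529) (nat_lit 1) (nat_lit 5) (nat_lit 3) (nat_lit 4) (nat_lit 1) (nat_lit 4) (nat_lit 517) (nat_lit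 348) (nat_lit 335)) (XT.lf (nat_lit 0) (nat_lit 39955352535) (nat_lit 152) (nat_lit 142213466896) (nat_lit 0) (nat_lit 39407931976) (nat_lit 1) (nat_lit 5) (nat_lit 3) (nat_lit 4) (nat_lit 1) (nat_lit 4) (nat_lit 518) (nat_lit 348) (nat_lit 334)))))) (XT.nd (nat_lit 546) (nat_lit 0) (nat_lit 0) (XT.nd (nat_lit 234) (nat_lit 0) (nat_lit 0) (XT.nd (nat_lit 78) (nat_lit 0) (nat_lit 0) (XT.lf (nat_lit 0) (nat_lit 45503086024) (nat_lit 152) (nat_lit 142043119807) (nat_lit 0) (nat_lit 44929063970) (nat_lit 1) (nat_lit 5) (nat_lit 3) (nat_lit 4) (nat_lit 1) (nat_lit 4) (nat_lit 519) (nat_lit 348) (nat_lit 333)) (XT.nd (nat_lit 78) (nat_lit 0) (nat_lit 0) (XT.lf (nat_lit 0) (nat_lit 51242967874) (nat_lit 152) (nat_lit 142036398411) (nat_lit 0) (nat_lit 50643611063) (nat_lit 1) (nat_lit 5) (nat_lit 3) (nat_lit 4) (nat_lit 1) (nat_lit 4) (nat_lit 520) (nat_lit 348) (nat_lit 332)) (XT.lf (nat_lit 0) (nat_lit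 57188664470) (nat_lit 152) (nat_lit 142193286705) (nat_lit 0) (nat_lit 56565179319) (nat_lit 1) (nat_lit 5) (nat_lit 3) (nat_lit 4) (nat_lit 1) (nat_lit 4) (nat_lit 521) (nat_lit 348) (nat_lit 331)))) (XT.nd (nat_lit 156) (nat_lit 0) (nat_lit 0) (XT.nd (nat_lit 78) (nat_lit 0) (nat_lit 0) (XT.lf (nat_lit 0) (nat_lit 63354332234) (nat_lit 152) (nat_lit 142514158232) (nat_lit 0) (nat_lit 62707867711) (nat_lit 1) (nat_lit 5) (nat_lit 3) (nat_lit 4) (nat_lit 1) (nat_lit 4) (nat_lit 522) (nat_lit 348) (nat_lit 330)) (XT.lf (nat_lit 0) (nat_lit 69754651326) (nat_lit 152) (nat_lit 142999776972) (nat_lit 0) (nat_lit 69086301688) (nat_lit 1) (nat_lit 5) (nat_lit 3) (nat_lit 4) (nat_lit 1) (nat_lit 4) (nat_lit 523) (nat_lit 348) (nat_lit 329))) (XT.nd (nat_lit 78) (nat_lit 0) (nat_lit 0) (XT.lf (nat_lit 0) (nat_lit 76404860602) (nat_lit 152) (nat_lit 143651299161) (nat_lit 0) (nat_lit 75715667996) (nat_lit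 1) (nat_lit 5) (nat_lit 3) (nat_lit 4) (nat_lit 1) (nat_lit 4) (nat_lit 524) (nat_lit 348) (nat_lit 328)) (XT.lf (nat_lit 0) (nat_lit 83320793892) (nat_lit 152) (nat_lit 144470276042) (nat_lit 0) (nat_lit 82611750841) (nat_lit 1) (nat_lit 5) (nat_lit 3) (nat_lit 4) (nat_lit 1) (nat_lit 4) (nat_lit 525) (nat_lit 348) (nat_lit 327))))) (XT.nd (nat_lit 234) (nat_lit 0) (nat_lit 0) (XT.nd (nat_lit 78) (nat_lit 0) (nat_lit 0) (XT.lf (nat_lit 0) (nat_lit 90518917705) (nat_lit 152) (nat_lit 145458657559) (nat_lit 0) (nat_lit 89790969468) (nat_lit 1) (nat_lit 5) (nat_lit 3) (nat_lit 4) (nat_lit 1) (nat_lit 4) (nat_lit 526) (nat_lit 348) (nat_lit 326)) (XT.nd (nat_lit 78) (nat_lit 0) (nat_lit 0) (XT.lf (nat_lit 0) (nat_lit 98016370432) (nat_lit 152) (nat_lit 146618797002) (nat_lit 0) (nat_lit 97270417255) (nat_lit 1) (nat_lit 5) (nat_lit 3) (nat_lit 4) (nat_lit 1) (nat_lit 4) (nat_lit 527) (nat_lit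 348) (nat_lit 325)) (XT.lf (nat_lit 0) (nat_lit 105831003148) (nat_lit 152) (nat_lit 147953456608) (nat_lit 0) (nat_lit 105067902411) (nat_lit 1) (nat_lit 5) (nat_lit 3) (nat_lit 4) (nat_lit 1) (nat_lit 4) (nat_lit 528) (nat_lit 348) (nat_lit 324)))) (XT.nd (nat_lit 156) (nat_lit 0) (nat_lit 0) (XT.nd (nat_lit 78) (nat_lit 0) (nat_lit 0) (XT.lf (nat_lit 0) (nat_lit 113981422124) (nat_lit 152) (nat_lit 149465814137) (nat_lit 0) (nat_lit 113201990377) (nat_lit 1) (nat_lit 5) (nat_lit 3) (nat_lit 4) (nat_lit 1) (nat_lit 4) (nat_lit 529) (nat_lit 348) (nat_lit 323)) (XT.lf (nat_lit 0) (nat_lit 122487033119) (nat_lit 152) (nat_lit 151159470442) (nat_lit 0) (nat_lit 121692048028) (nat_lit 1) (nat_lit 5) (nat_lit 3) (nat_lit 4) (nat_lit 1) (nat_lit 4) (nat_lit 530) (nat_lit 348) (nat_lit 322))) (XT.nd (nat_lit 78) (nat_lit 0) (nat_lit 0) (XT.lf (nat_lit 0) (nat_lit 131368087587) (nat_lit 152) (nat_lit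 153038458036) (nat_lit 0) (nat_lit 130558289788) (nat_lit 1) (nat_lit 5) (nat_lit 3) (nat_lit 4) (nat_lit 1) (nat_lit 4) (nat_lit 531) (nat_lit 348) (nat_lit 321)) (XT.lf (nat_lit 0) (nat_lit 140645730896) (nat_lit 152) (nat_lit 155107250700) (nat_lit 0) (nat_lit 139821825756) (nat_lit 1) (nat_lit 5) (nat_lit 3) (nat_lit 4) (nat_lit 1) (nat_lit 4) (nat_lit 532) (nat_lit 348) (nat_lit 320))))))) (XT.nd (nat_lit 60060) (nat_lit 0) (nat_lit 0) (XT.nd (nat_lit 546) (nat_lit 0) (nat_lit 0) (XT.nd (nat_lit 234) (nat_lit 0) (nat_lit 0) (XT.nd (nat_lit 78) (nat_lit 0) (nat_lit 0) (XT.lf (nat_lit 0) (nat_lit 150342052673) (nat_lit 152) (nat_lit 157370774132) (nat_lit 0) (nat_lit 149504711971) (nat_lit 1) (nat_lit 5) (nat_lit 3) (nat_lit 4) (nat_lit 1) (nat_lit 4) (nat_lit 533) (nat_lit 348) (nat_lit 319)) (XT.nd (nat_lit 78) (nat_lit 0) (nat_lit 0) (XT.lf (nat_lit 0) (nat_lit 160480139398) (nat_lit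 152) (nat_lit 159834417671) (nat_lit 0) (nat_lit 159630002922) (nat_lit 1) (nat_lit 5) (nat_lit 3) (nat_lit 4) (nat_lit 1) (nat_lit 4) (nat_lit 534) (nat_lit 348) (nat_lit 318)) (XT.lf (nat_lit 0) (nat_lit 171084129374) (nat_lit 152) (nat_lit 162504047137) (nat_lit 0) (nat_lit 170221806447) (nat_lit 1) (nat_lit 5) (nat_lit 3) (nat_lit 4) (nat_lit 1) (nat_lit 4) (nat_lit 535) (nat_lit 348) (nat_lit 317)))) (XT.nd (nat_lit 156) (nat_lit 0) (nat_lit 0) (XT.nd (nat_lit 78) (nat_lit 0) (nat_lit 0) (XT.lf (nat_lit 0) (nat_lit 182179270195) (nat_lit 152) (nat_lit 165386018789) (nat_lit 0) (nat_lit 181305341124) (nat_lit 1) (nat_lit 5) (nat_lit 3) (nat_lit 4) (nat_lit 1) (nat_lit 4) (nat_lit 536) (nat_lit 348) (nat_lit 316)) (XT.lf (nat_lit 0) (nat_lit 193791978864) (nat_lit 152) (nat_lit 168487194466) (nat_lit 0) (nat_lit 192906996321) (nat_lit 1) (nat_lit 5) (nat_lit 3) (nat_lit 4) (nat_lit 1) (nat_lit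 4) (nat_lit 537) (nat_lit 348) (nat_lit 315))) (XT.nd (nat_lit 78) (nat_lit 0) (nat_lit 0) (XT.lf (nat_lit 0) (nat_lit 205949904686) (nat_lit 152) (nat_lit 171814957918) (nat_lit 0) (nat_lit 205054395029) (nat_lit 1) (nat_lit 5) (nat_lit 3) (nat_lit 4) (nat_lit 1) (nat_lit 4) (nat_lit 538) (nat_lit 348) (nat_lit 314)) (XT.lf (nat_lit 0) (nat_lit 218681995104) (nat_lit 152) (nat_lit 175377232393) (nat_lit 0) (nat_lit 217776459623) (nat_lit 1) (nat_lit 5) (nat_lit 3) (nat_lit 4) (nat_lit 1) (nat_lit 4) (nat_lit 539) (nat_lit 348) (nat_lit 313))))) (XT.nd (nat_lit 234) (nat_lit 0) (nat_lit 0) (XT.nd (nat_lit 78) (nat_lit 0) (nat_lit 0) (XT.lf (nat_lit 0) (nat_lit 232018564620) (nat_lit 152) (nat_lit 179182499495) (nat_lit 0) (nat_lit 231103480735) (nat_lit 1) (nat_lit 5) (nat_lit 3) (nat_lit 4) (nat_lit 1) (nat_lit 4) (nat_lit 540) (nat_lit 348) (nat_lit 312)) (XT.nd (nat_lit 78) (nat_lit 0) (nat_lit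 0) (XT.lf (nat_lit 0) (nat_lit 245991366969) (nat_lit 152) (nat_lit 183239819385) (nat_lit 0) (nat_lit 245067189367) (nat_lit 1) (nat_lit 5) (nat_lit 3) (nat_lit 4) (nat_lit 1) (nat_lit 4) (nat_lit 541) (nat_lit 348) (nat_lit 311)) (XT.lf (nat_lit 0) (nat_lit 260633670730) (nat_lit 152) (nat_lit 187558852349) (nat_lit 0) (nat_lit 259700832444) (nat_lit 1) (nat_lit 5) (nat_lit 3) (nat_lit 4) (nat_lit 1) (nat_lit 4) (nat_lit 542) (nat_lit 348) (nat_lit 310)))) (XT.nd (nat_lit 156) (nat_lit 0) (nat_lit 0) (XT.nd (nat_lit 78) (nat_lit 0) (nat_lit 0) (XT.lf (nat_lit 0) (nat_lit 275980338529) (nat_lit 152) (nat_lit 192149881797) (nat_lit 0) (nat_lit 275039251973) (nat_lit 1) (nat_lit 5) (nat_lit 3) (nat_lit 4) (nat_lit 1) (nat_lit 4) (nat_lit 543) (nat_lit 348) (nat_lit 309)) (XT.lf (nat_lit 0) (nat_lit 292067910053) (nat_lit 152) (nat_lit 197023838753) (nat_lit 0) (nat_lit 291118968002) (nat_lit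 1) (nat_lit 5) (nat_lit 3) (nat_lit 4) (nat_lit 1) (nat_lit 4) (nat_lit 544) (nat_lit 348) (nat_lit 308))) (XT.nd (nat_lit 78) (nat_lit 0) (nat_lit 0) (XT.lf (nat_lit 0) (nat_lit 308934689043) (nat_lit 152) (nat_lit 202192327875) (nat_lit 0) (nat_lit 307978265568) (nat_lit 1) (nat_lit 5) (nat_lit 3) (nat_lit 4) (nat_lit 1) (nat_lit 4) (nat_lit 545) (nat_lit 348) (nat_lit 307)) (XT.lf (nat_lit 0) (nat_lit 326620834497) (nat_lit 152) (nat_lit 207667655091) (nat_lit 0) (nat_lit 325657285856) (nat_lit 1) (nat_lit 5) (nat_lit 3) (nat_lit 4) (nat_lit 1) (nat_lit 4) (nat_lit 546) (nat_lit 348) (nat_lit 306)))))) (XT.nd (nat_lit 546) (nat_lit 152) (nat_lit 0) (XT.nd (nat_lit 234) (nat_lit 0) (nat_lit 0) (XT.nd (nat_lit 78) (nat_lit 0) (nat_lit 0) (XT.lf (nat_lit 0) (nat_lit 20253112885) (nat_lit 76) (nat_lit 15865080594) (nat_lit 76) (nat_lit 15865080594) (nat_lit 3) (nat_lit 4) (nat_lit 4) (nat_lit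 5) (nat_lit 4) (nat_lit 4) (nat_lit 502) (nat_lit 349) (nat_lit 349)) (XT.nd (nat_lit 78) (nat_lit 0) (nat_lit 0) (XT.lf (nat_lit 0) (nat_lit 53171971394) (nat_lit 76) (nat_lit 27893484733) (nat_lit 76) (nat_lit 27835417006) (nat_lit 3) (nat_lit 4) (nat_lit 4) (nat_lit 5) (nat_lit 4) (nat_lit 4) (nat_lit 503) (nat_lit 349) (nat_lit 348)) (XT.lf (nat_lit 0) (nat_lit 66135936858) (nat_lit 76) (nat_lit 24033830638) (nat_lit 76) (nat_lit 23920460312) (nat_lit 3) (nat_lit 4) (nat_lit 4) (nat_lit 5) (nat_lit 4) (nat_lit 4) (nat_lit 504) (nat_lit 349) (nat_lit 347)))) (XT.nd (nat_lit 156) (nat_lit 0) (nat_lit 0) (XT.nd (nat_lit 78) (nat_lit 0) (nat_lit 0) (XT.lf (nat_lit 0) (nat_lit 79428988747) (nat_lit 76) (nat_lit 20142009249) (nat_lit 76) (nat_lit 19975969783) (nat_lit 3) (nat_lit 4) (nat_lit 4) (nat_lit 5) (nat_lit 4) (nat_lit 4) (nat_lit 505) (nat_lit 349) (nat_lit 346)) (XT.lf (nat_lit 0) (nat_lit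 93082777184) (nat_lit 76) (nat_lit 16208754326) (nat_lit 76) (nat_lit 15992553773) (nat_lit 3) (nat_lit 4) (nat_lit 4) (nat_lit 5) (nat_lit 4) (nat_lit 4) (nat_lit 506) (nat_lit 349) (nat_lit 345))) (XT.nd (nat_lit 78) (nat_lit 0) (nat_lit 0) (XT.lf (nat_lit 0) (nat_lit 107129811190) (nat_lit 76) (nat_lit 12224700975) (nat_lit 76) (nat_lit 11960727959) (nat_lit 3) (nat_lit 4) (nat_lit 4) (nat_lit 5) (nat_lit 4) (nat_lit 4) (nat_lit 507) (nat_lit 349) (nat_lit 344)) (XT.lf (nat_lit 0) (nat_lit 121603536084) (nat_lit 76) (nat_lit 8180363357) (nat_lit 76) (nat_lit 7870892757) (nat_lit 3) (nat_lit 4) (nat_lit 4) (nat_lit 5) (nat_lit 4) (nat_lit 4) (nat_lit 508) (nat_lit 349) (nat_lit 343))))) (XT.nd (nat_lit 234) (nat_lit 0) (nat_lit 0) (XT.nd (nat_lit 78) (nat_lit 152) (nat_lit 0) (XT.lf (nat_lit 0) (nat_lit 136538413115) (nat_lit 76) (nat_lit 4066112094) (nat_lit 76) (nat_lit 3713310462) (nat_lit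 3) (nat_lit 4) (nat_lit 4) (nat_lit 5) (nat_lit 4) (nat_lit 4) (nat_lit 509) (nat_lit 349) (nat_lit 342)) (XT.nd (nat_lit 78) (nat_lit 0) (nat_lit 0) (XT.lf (nat_lit 0) (nat_lit 517861283) (nat_lit 152) (nat_lit 150658776619) (nat_lit 0) (nat_lit 142557205) (nat_lit 1) (nat_lit 5) (nat_lit 3) (nat_lit 4) (nat_lit 1) (nat_lit 4) (nat_lit 510) (nat_lit 349) (nat_lit 341)) (XT.lf (nat_lit 0) (nat_lit 4910429894) (nat_lit 152) (nat_lit 149255724537) (nat_lit 0) (nat_lit 4497694840) (nat_lit 1) (nat_lit 5) (nat_lit 3) (nat_lit 4) (nat_lit 1) (nat_lit 4) (nat_lit 511) (nat_lit 349) (nat_lit 340)))) (XT.nd (nat_lit 156) (nat_lit 0) (nat_lit 0) (XT.nd (nat_lit 78) (nat_lit 0) (nat_lit 0) (XT.lf (nat_lit 0) (nat_lit 9402688068) (nat_lit 152) (nat_lit 148024742407) (nat_lit 0) (nat_lit 8954304467) (nat_lit 1) (nat_lit 5) (nat_lit 3) (nat_lit 4) (nat_lit 1) (nat_lit 4) (nat_lit 512) (nat_lit 349) (nat_lit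 339)) (XT.lf (nat_lit 0) (nat_lit 14005331660) (nat_lit 152) (nat_lit 146962899317) (nat_lit 0) (nat_lit 13522997061) (nat_lit 1) (nat_lit 5) (nat_lit 3) (nat_lit 4) (nat_lit 1) (nat_lit 4) (nat_lit 513) (nat_lit 349) (nat_lit 338))) (XT.nd (nat_lit 78) (nat_lit 0) (nat_lit 0) (XT.lf (nat_lit 0) (nat_lit 18729319343) (nat_lit 152) (nat_lit 146067667071) (nat_lit 0) (nat_lit 18214650461) (nat_lit 1) (nat_lit 5) (nat_lit 3) (nat_lit 4) (nat_lit 1) (nat_lit 4) (nat_lit 514) (nat_lit 349) (nat_lit 337)) (XT.lf (nat_lit 0) (nat_lit 23585898708) (nat_lit 152) (nat_lit 145336914163) (nat_lit 0) (nat_lit 23040435270) (nat_lit 1) (nat_lit 5) (nat_lit 3) (nat_lit 4) (nat_lit 1) (nat_lit 4) (nat_lit 515) (nat_lit 349) (nat_lit 336))))))))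
noncomputable def xc9 : XT := (XT.nd (nat_lit 2184) (nat_lit 0) (nat_lit 0) (XT.nd (nat_lit 1092) (nat_lit 0) (nat_lit 0) (XT.nd (nat_lit 546) (nat_lit 0) (nat_lit 0) (XT.nd (nat_lit 234) (nat_lit 0) (nat_lit 0) (XT.nd (nat_lit 78) (nat_lit 0) (nat_lit 0) (XT.lf (nat_lit 0) (nat_lit 28586633039) (nat_lit 152) (nat_lit 144768900705) (nat_lit 0) (nat_lit 28011841453) (nat_lit 1) (nat_lit 5) (nat_lit 3) (nat_lit 4) (nat_lit 1) (nat_lit 4) (nat_lit 516) (nat_lit 349) (nat_lit 335)) (XT.nd (nat_lit 78) (nat_lit 0) (nat_lit 0) (XT.lf (nat_lit 0) (nat_lit 33743428847) (nat_lit 152) (nat_lit 144362274285) (nat_lit 0) (nat_lit 33140705690) (nat_lit 1) (nat_lit 5) (nat_lit 3) (nat_lit 4) (nat_lit 1) (nat_lit 4) (nat_lit 517) (nat_lit 349) (nat_lit 334)) (XT.lf (nat_lit 0) (nat_lit 39068564215) (nat_lit 152) (nat_lit 144116066743) (nat_lit 0) (nat_lit 38439239564) (nat_lit 1) (nat_lit 5) (nat_lit 3) (nat_lit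 4) (nat_lit 1) (nat_lit 4) (nat_lit 518) (nat_lit 349) (nat_lit 333)))) (XT.nd (nat_lit 156) (nat_lit 0) (nat_lit 0) (XT.nd (nat_lit 78) (nat_lit 0) (nat_lit 0) (XT.lf (nat_lit 0) (nat_lit 44574718039) (nat_lit 152) (nat_lit 144029691872) (nat_lit 0) (nat_lit 43920058631) (nat_lit 1) (nat_lit 5) (nat_lit 3) (nat_lit 4) (nat_lit 1) (nat_lit 4) (nat_lit 519) (nat_lit 349) (nat_lit 332)) (XT.lf (nat_lit 0) (nat_lit 50275000208) (nat_lit 152) (nat_lit 144102944017) (nat_lit 0) (nat_lit 49596212460) (nat_lit 1) (nat_lit 5) (nat_lit 3) (nat_lit 4) (nat_lit 1) (nat_lit 4) (nat_lit 520) (nat_lit 349) (nat_lit 331))) (XT.nd (nat_lit 78) (nat_lit 0) (nat_lit 0) (XT.lf (nat_lit 0) (nat_lit 56182982823) (nat_lit 152) (nat_lit 144335997588) (nat_lit 0) (nat_lit 55481215703) (nat_lit 1) (nat_lit 5) (nat_lit 3) (nat_lit 4) (nat_lit 1) (nat_lit 4) (nat_lit 521) (nat_lit 349) (nat_lit 330)) (XT.lf (nat_lit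 0) (nat_lit 62312732509) (nat_lit 152) (nat_lit 144729407475) (nat_lit 0) (nat_lit 61589080273) (nat_lit 1) (nat_lit 5) (nat_lit 3) (nat_lit 4) (nat_lit 1) (nat_lit 4) (nat_lit 522) (nat_lit 349) (nat_lit 329))))) (XT.nd (nat_lit 234) (nat_lit 0) (nat_lit 0) (XT.nd (nat_lit 78) (nat_lit 0) (nat_lit 0) (XT.lf (nat_lit 0) (nat_lit 68678843908) (nat_lit 152) (nat_lit 145284110367) (nat_lit 0) (nat_lit 67934348704) (nat_lit 1) (nat_lit 5) (nat_lit 3) (nat_lit 4) (nat_lit 1) (nat_lit 4) (nat_lit 523) (nat_lit 349) (nat_lit 328)) (XT.nd (nat_lit 78) (nat_lit 0) (nat_lit 0) (XT.lf (nat_lit 0) (nat_lit 75296474428) (nat_lit 152) (nat_lit 146001426987) (nat_lit 0) (nat_lit 74532128779) (nat_lit 1) (nat_lit 5) (nat_lit 3) (nat_lit 4) (nat_lit 1) (nat_lit 4) (nat_lit 524) (nat_lit 349) (nat_lit 327)) (XT.lf (nat_lit 0) (nat_lit 82181380332) (nat_lit 152) (nat_lit 146883065229) (nat_lit 0) (nat_lit 81398129497)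 (nat_lit 1) (nat_lit 5) (nat_lit 3) (nat_lit 4) (nat_lit 1) (nat_lit 4) (nat_lit 525) (nat_lit 349) (nat_lit 326)))) (XT.nd (nat_lit 156) (nat_lit 0) (nat_lit 0) (XT.nd (nat_lit 78) (nat_lit 0) (nat_lit 0) (XT.lf (nat_lit 0) (nat_lit 89349954254) (nat_lit 152) (nat_lit 147931124234) (nat_lit 0) (nat_lit 88548698480) (nat_lit 1) (nat_lit 5) (nat_lit 3) (nat_lit 4) (nat_lit 1) (nat_lit 4) (nat_lit 526) (nat_lit 349) (nat_lit 325)) (XT.lf (nat_lit 0) (nat_lit 96819264226) (nat_lit 152) (nat_lit 149148099380) (nat_lit 0) (nat_lit 96000860891) (nat_lit 1) (nat_lit 5) (nat_lit 3) (nat_lit 4) (nat_lit 1) (nat_lit 4) (nat_lit 527) (nat_lit 349) (nat_lit 324))) (XT.nd (nat_lit 78) (nat_lit 0) (nat_lit 0) (XT.lf (nat_lit 0) (nat_lit 104607094320) (nat_lit 152) (nat_lit 150536888227) (nat_lit 0) (nat_lit 103772359974) (nat_lit 1) (nat_lit 5) (nat_lit 3) (nat_lit 4) (nat_lit 1) (nat_lit 4) (nat_lit 528)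 (nat_lit 349) (nat_lit 323)) (XT.lf (nat_lit 0) (nat_lit 112731986988) (nat_lit 152) (nat_lit 152100797414) (nat_lit 0) (nat_lit 111881699300) (nat_lit 1) (nat_lit 5) (nat_lit 3) (nat_lit 4) (nat_lit 1) (nat_lit 4) (nat_lit 529) (nat_lit 349) (nat_lit 322)))))) (XT.nd (nat_lit 546) (nat_lit 0) (nat_lit 0) (XT.nd (nat_lit 234) (nat_lit 0) (nat_lit 0) (XT.nd (nat_lit 78) (nat_lit 0) (nat_lit 0) (XT.lf (nat_lit 0) (nat_lit 121213287214) (nat_lit 152) (nat_lit 153843550535) (nat_lit 0) (nat_lit 120348186818) (nat_lit 1) (nat_lit 5) (nat_lit 3) (nat_lit 4) (nat_lit 1) (nat_lit 4) (nat_lit 530) (nat_lit 349) (nat_lit 321)) (XT.nd (nat_lit 78) (nat_lit 0) (nat_lit 0) (XT.lf (nat_lit 0) (nat_lit 130071188569) (nat_lit 152) (nat_lit 155769297003) (nat_lit 0) (nat_lit 129191980831) (nat_lit 1) (nat_lit 5) (nat_lit 3) (nat_lit 4) (nat_lit 1) (nat_lit 4) (nat_lit 531) (nat_lit 349) (nat_lit 320)) (XT.lf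 (nat_lit 0) (nat_lit 139326781293) (nat_lit 152) (nat_lit 157882621928) (nat_lit 0) (nat_lit 138434137994) (nat_lit 1) (nat_lit 5) (nat_lit 3) (nat_lit 4) (nat_lit 1) (nat_lit 4) (nat_lit 532) (nat_lit 349) (nat_lit 319)))) (XT.nd (nat_lit 156) (nat_lit 0) (nat_lit 0) (XT.nd (nat_lit 78) (nat_lit 0) (nat_lit 0) (XT.lf (nat_lit 0) (nat_lit 149002102514) (nat_lit 152) (nat_lit 160188557035) (nat_lit 0) (nat_lit 148096663440) (nat_lit 1) (nat_lit 5) (nat_lit 3) (nat_lit 4) (nat_lit 1) (nat_lit 4) (nat_lit 533) (nat_lit 349) (nat_lit 318)) (XT.lf (nat_lit 0) (nat_lit 159120188710) (nat_lit 152) (nat_lit 162692592648) (nat_lit 0) (nat_lit 158202563185) (nat_lit 1) (nat_lit 5) (nat_lit 3) (nat_lit 4) (nat_lit 1) (nat_lit 4) (nat_lit 534) (nat_lit 349) (nat_lit 317))) (XT.nd (nat_lit 78) (nat_lit 0) (nat_lit 0) (XT.lf (nat_lit 0) (nat_lit 169705130562) (nat_lit 152) (nat_lit 165400690754) (nat_lit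 0) (nat_lit 168775898893) (nat_lit 1) (nat_lit 5) (nat_lit 3) (nat_lit 4) (nat_lit 1) (nat_lit 4) (nat_lit 535) (nat_lit 349) (nat_lit 316)) (XT.lf (nat_lit 0) (nat_lit 180782130313) (nat_lit 152) (nat_lit 168319299207) (nat_lit 0) (nat_lit 179841845173) (nat_lit 1) (nat_lit 5) (nat_lit 3) (nat_lit 4) (nat_lit 1) (nat_lit 4) (nat_lit 536) (nat_lit 349) (nat_lit 315))))) (XT.nd (nat_lit 234) (nat_lit 0) (nat_lit 0) (XT.nd (nat_lit 78) (nat_lit 0) (nat_lit 0) (XT.lf (nat_lit 0) (nat_lit 192377561772) (nat_lit 152) (nat_lit 171455367075) (nat_lit 0) (nat_lit 191426749517) (nat_lit 1) (nat_lit 5) (nat_lit 3) (nat_lit 4) (nat_lit 1) (nat_lit 4) (nat_lit 537) (nat_lit 349) (nat_lit 314)) (XT.nd (nat_lit 78) (nat_lit 0) (nat_lit 0) (XT.lf (nat_lit 0) (nat_lit 204519033109) (nat_lit 152) (nat_lit 174816361186) (nat_lit 0) (nat_lit 203558195030) (nat_lit 1) (nat_lit 5) (nat_lit 3) (nat_lit 4) (nat_lit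 1) (nat_lit 4) (nat_lit 538) (nat_lit 349) (nat_lit 313)) (XT.lf (nat_lit 0) (nat_lit 217235452589) (nat_lit 152) (nat_lit 178410283906) (nat_lit 0) (nat_lit 216265066106) (nat_lit 1) (nat_lit 5) (nat_lit 3) (nat_lit 4) (nat_lit 1) (nat_lit 4) (nat_lit 539) (nat_lit 349) (nat_lit 312)))) (XT.nd (nat_lit 156) (nat_lit 0) (nat_lit 0) (XT.nd (nat_lit 78) (nat_lit 0) (nat_lit 0) (XT.lf (nat_lit 0) (nat_lit 230557097401) (nat_lit 152) (nat_lit 182245692195) (nat_lit 0) (nat_lit 229577617201) (nat_lit 1) (nat_lit 5) (nat_lit 3) (nat_lit 4) (nat_lit 1) (nat_lit 4) (nat_lit 540) (nat_lit 349) (nat_lit 311)) (XT.lf (nat_lit 0) (nat_lit 244515685747) (nat_lit 152) (nat_lit 186331717978) (nat_lit 0) (nat_lit 243527544864) (nat_lit 1) (nat_lit 5) (nat_lit 3) (nat_lit 4) (nat_lit 1) (nat_lit 4) (nat_lit 541) (nat_lit 349) (nat_lit 310))) (XT.nd (nat_lit 78) (nat_lit 0) (nat_lit 0) (XT.lf (nat_lit 0) (nat_lit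 259144452362) (nat_lit 152) (nat_lit 190678089886) (nat_lit 0) (nat_lit 258148063208) (nat_lit 1) (nat_lit 5) (nat_lit 3) (nat_lit 4) (nat_lit 1) (nat_lit 4) (nat_lit 542) (nat_lit 349) (nat_lit 309)) (XT.lf (nat_lit 0) (nat_lit 274478227642) (nat_lit 152) (nat_lit 195295156424) (nat_lit 0) (nat_lit 273473982993) (nat_lit 1) (nat_lit 5) (nat_lit 3) (nat_lit 4) (nat_lit 1) (nat_lit 4) (nat_lit 543) (nat_lit 349) (nat_lit 308))))))) (XT.nd (nat_lit 59904) (nat_lit 0) (nat_lit 0) (XT.nd (nat_lit 59358) (nat_lit 0) (nat_lit 152) (XT.nd (nat_lit 59046) (nat_lit 0) (nat_lit 152) (XT.nd (nat_lit 78) (nat_lit 0) (nat_lit 0) (XT.lf (nat_lit 0) (nat_lit 290553520575) (nat_lit 152) (nat_lit 200193910609) (nat_lit 0) (nat_lit 289541794502) (nat_lit 1) (nat_lit 5) (nat_lit 3) (nat_lit 4) (nat_lit 1) (nat_lit 4) (nat_lit 544) (nat_lit 349) (nat_lit 307)) (XT.nd (nat_lit 78) (nat_lit 0) (nat_lit 0) (XT.lf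 (nat_lit 0) (nat_lit 307408605670) (nat_lit 152) (nat_lit 205386016140) (nat_lit 0) (nat_lit 306389754431) (nat_lit 1) (nat_lit 5) (nat_lit 3) (nat_lit 4) (nat_lit 1) (nat_lit 4) (nat_lit 545) (nat_lit 349) (nat_lit 306)) (XT.lf (nat_lit 0) (nat_lit 325083614080) (nat_lit 152) (nat_lit 210883835173) (nat_lit 0) (nat_lit 324057976969) (nat_lit 1) (nat_lit 5) (nat_lit 3) (nat_lit 4) (nat_lit 1) (nat_lit 4) (nat_lit 546) (nat_lit 349) (nat_lit 305)))) (XT.nd (nat_lit 156) (nat_lit 0) (nat_lit 0) (XT.nd (nat_lit 78) (nat_lit 0) (nat_lit 0) (XT.lf (nat_lit 0) (nat_lit 8064803523) (nat_lit 76) (nat_lit 19670623715) (nat_lit 76) (nat_lit 19670623715) (nat_lit 3) (nat_lit 4) (nat_lit 4) (nat_lit 5) (nat_lit 4) (nat_lit 4) (nat_lit 500) (nat_lit 350) (nat_lit 350)) (XT.lf (nat_lit 0) (nat_lit 28108543450) (nat_lit 76) (nat_lit 35613966062) (nat_lit 76) (nat_lit 35552994948) (nat_lit 3) (nat_lit 4) (nat_lit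 4) (nat_lit 5) (nat_lit 4) (nat_lit 4) (nat_lit 501) (nat_lit 350) (nat_lit 349))) (XT.nd (nat_lit 78) (nat_lit 0) (nat_lit 0) (XT.lf (nat_lit 0) (nat_lit 40334605862) (nat_lit 76) (nat_lit 31877619616) (nat_lit 76) (nat_lit 31758580774) (nat_lit 3) (nat_lit 4) (nat_lit 4) (nat_lit 5) (nat_lit 4) (nat_lit 4) (nat_lit 502) (nat_lit 350) (nat_lit 348)) (XT.lf (nat_lit 0) (nat_lit 52836903953) (nat_lit 76) (nat_lit 28123312030) (nat_lit 76) (nat_lit 27948970590) (nat_lit 3) (nat_lit 4) (nat_lit 4) (nat_lit 5) (nat_lit 4) (nat_lit 4) (nat_lit 503) (nat_lit 350) (nat_lit 347))))) (XT.nd (nat_lit 234) (nat_lit 0) (nat_lit 0) (XT.nd (nat_lit 78) (nat_lit 0) (nat_lit 0) (XT.lf (nat_lit 0) (nat_lit 65645205101) (nat_lit 76) (nat_lit 24342104476) (nat_lit 76) (nat_lit 24115093896) (nat_lit 3) (nat_lit 4) (nat_lit 4) (nat_lit 5) (nat_lit 4) (nat_lit 4) (nat_lit 504) (nat_lit 350) (nat_lit 346)) (XT.nd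 (nat_lit 78) (nat_lit 0) (nat_lit 0) (XT.lf (nat_lit 0) (nat_lit 78790005260) (nat_lit 76) (nat_lit 20524994080) (nat_lit 76) (nat_lit 20247822414) (nat_lit 3) (nat_lit 4) (nat_lit 4) (nat_lit 5) (nat_lit 4) (nat_lit 4) (nat_lit 505) (nat_lit 350) (nat_lit 345)) (XT.lf (nat_lit 0) (nat_lit 92302601574) (nat_lit 76) (nat_lit 16662892483) (nat_lit 76) (nat_lit 16337948353) (nat_lit 3) (nat_lit 4) (nat_lit 4) (nat_lit 5) (nat_lit 4) (nat_lit 4) (nat_lit 506) (nat_lit 350) (nat_lit 344)))) (XT.nd (nat_lit 156) (nat_lit 0) (nat_lit 0) (XT.nd (nat_lit 78) (nat_lit 0) (nat_lit 0) (XT.lf (nat_lit 0) (nat_lit 106215166891) (nat_lit 76) (nat_lit 12746604206) (nat_lit 76) (nat_lit 12376162492) (nat_lit 3) (nat_lit 4) (nat_lit 4) (nat_lit 5) (nat_lit 4) (nat_lit 4) (nat_lit 507) (nat_lit 350) (nat_lit 343)) (XT.lf (nat_lit 0) (nat_lit 120560826367) (nat_lit 76) (nat_lit 8766804752) (nat_lit 76) (nat_lit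 8353032005) (nat_lit 3) (nat_lit 4) (nat_lit 4) (nat_lit 5) (nat_lit 4) (nat_lit 4) (nat_lit 508) (nat_lit 350) (nat_lit 342))) (XT.nd (nat_lit 78) (nat_lit 0) (nat_lit 0) (XT.lf (nat_lit 0) (nat_lit 135373736333) (nat_lit 76) (nat_lit 4714018408) (nat_lit 76) (nat_lit 4258978012) (nat_lit 3) (nat_lit 4) (nat_lit 4) (nat_lit 5) (nat_lit 4) (nat_lit 4) (nat_lit 509) (nat_lit 350) (nat_lit 341)) (XT.lf (nat_lit 0) (nat_lit 150689165623) (nat_lit 76) (nat_lit 578595683) (nat_lit 76) (nat_lit 84252763) (nat_lit 3) (nat_lit 4) (nat_lit 4) (nat_lit 5) (nat_lit 4) (nat_lit 4) (nat_lit 510) (nat_lit 350) (nat_lit 340)))))) (XT.nd (nat_lit 546) (nat_lit 0) (nat_lit 0) (XT.nd (nat_lit 234) (nat_lit 0) (nat_lit 0) (XT.nd (nat_lit 78) (nat_lit 0) (nat_lit 0) (XT.lf (nat_lit 0) (nat_lit 4232605829) (nat_lit 152) (nat_lit 150741894912) (nat_lit 0) (nat_lit 3726154500) (nat_lit 1) (nat_lit 5) (nat_lit 3)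 (nat_lit 4) (nat_lit 1) (nat_lit 4) (nat_lit 511) (nat_lit 350) (nat_lit 339)) (XT.nd (nat_lit 78) (nat_lit 0) (nat_lit 0) (XT.lf (nat_lit 0) (nat_lit 8669143276) (nat_lit 152) (nat_lit 149623443585) (nat_lit 0) (nat_lit 8128740949) (nat_lit 1) (nat_lit 5) (nat_lit 3) (nat_lit 4) (nat_lit 1) (nat_lit 4) (nat_lit 512) (nat_lit 350) (nat_lit 338)) (XT.lf (nat_lit 0) (nat_lit 13218719507) (nat_lit 152) (nat_lit 148668772690) (nat_lit 0) (nat_lit 12645982897) (nat_lit 1) (nat_lit 5) (nat_lit 3) (nat_lit 4) (nat_lit 1) (nat_lit 4) (nat_lit 513) (nat_lit 350) (nat_lit 337)))) (XT.nd (nat_lit 156) (nat_lit 0) (nat_lit 0) (XT.nd (nat_lit 78) (nat_lit 0) (nat_lit 0) (XT.lf (nat_lit 0) (nat_lit 17892166848) (nat_lit 152) (nat_lit 147875609200) (nat_lit 0) (nat_lit 17288635682) (nat_lit 1) (nat_lit 5) (nat_lit 3) (nat_lit 4) (nat_lit 1) (nat_lit 4) (nat_lit 514) (nat_lit 350) (nat_lit 336)) (XT.lf (nat_lit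 0) (nat_lit 22700612554) (nat_lit 152) (nat_lit 147242064631) (nat_lit 0) (nat_lit 22067753240) (nat_lit 1) (nat_lit 5) (nat_lit 3) (nat_lit 4) (nat_lit 1) (nat_lit 4) (nat_lit 515) (nat_lit 350) (nat_lit 335))) (XT.nd (nat_lit 78) (nat_lit 0) (nat_lit 0) (XT.lf (nat_lit 0) (nat_lit 27655505304) (nat_lit 152) (nat_lit 146766630544) (nat_lit 0) (nat_lit 26994714420) (nat_lit 1) (nat_lit 5) (nat_lit 3) (nat_lit 4) (nat_lit 1) (nat_lit 4) (nat_lit 516) (nat_lit 350) (nat_lit 334)) (XT.lf (nat_lit 0) (nat_lit 32768642463) (nat_lit 152) (nat_lit 146448174953) (nat_lit 0) (nat_lit 32081250084) (nat_lit 1) (nat_lit 5) (nat_lit 3) (nat_lit 4) (nat_lit 1) (nat_lit 4) (nat_lit 517) (nat_lit 350) (nat_lit 333))))) (XT.nd (nat_lit 312) (nat_lit 0) (nat_lit 0) (XT.nd (nat_lit 156) (nat_lit 0) (nat_lit 0) (XT.nd (nat_lit 78) (nat_lit 0) (nat_lit 0) (XT.lf (nat_lit 0) (nat_lit 38052198167) (nat_lit 152) (nat_lit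 146285939630) (nat_lit 0) (nat_lit 37339471030) (nat_lit 1) (nat_lit 5) (nat_lit 3) (nat_lit 4) (nat_lit 1) (nat_lit 4) (nat_lit 518) (nat_lit 350) (nat_lit 332)) (XT.lf (nat_lit 0) (nat_lit 43518752310) (nat_lit 152) (nat_lit 146279538300) (nat_lit 0) (nat_lit 42781896833) (nat_lit 1) (nat_lit 5) (nat_lit 3) (nat_lit 4) (nat_lit 1) (nat_lit 4) (nat_lit 519) (nat_lit 350) (nat_lit 331))) (XT.nd (nat_lit 78) (nat_lit 0) (nat_lit 0) (XT.lf (nat_lit 0) (nat_lit 49181320497) (nat_lit 152) (nat_lit 146428955723) (nat_lit 0) (nat_lit 48421485649) (nat_lit 1) (nat_lit 5) (nat_lit 3) (nat_lit 4) (nat_lit 1) (nat_lit 4) (nat_lit 520) (nat_lit 350) (nat_lit 330)) (XT.lf (nat_lit 0) (nat_lit 55053385034) (nat_lit 152) (nat_lit 146734547653) (nat_lit 0) (nat_lit 54271665070) (nat_lit 1) (nat_lit 5) (nat_lit 3) (nat_lit 4) (nat_lit 1) (nat_lit 4) (nat_lit 521) (nat_lit 350) (nat_lit 329)))) (XT.nd (nat_lit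 156) (nat_lit 0) (nat_lit 0) (XT.nd (nat_lit 78) (nat_lit 0) (nat_lit 0) (XT.lf (nat_lit 0) (nat_lit 61148927026) (nat_lit 152) (nat_lit 147197041692) (nat_lit 0) (nat_lit 60346364095) (nat_lit 1) (nat_lit 5) (nat_lit 3) (nat_lit 4) (nat_lit 1) (nat_lit 4) (nat_lit 522) (nat_lit 350) (nat_lit 328)) (XT.lf (nat_lit 0) (nat_lit 67482459670) (nat_lit 152) (nat_lit 147817539015) (nat_lit 0) (nat_lit 66660046293) (nat_lit 1) (nat_lit 5) (nat_lit 3) (nat_lit 4) (nat_lit 1) (nat_lit 4) (nat_lit 523) (nat_lit 350) (nat_lit 327))) (XT.nd (nat_lit 78) (nat_lit 0) (nat_lit 0) (XT.lf (nat_lit 0) (nat_lit 74069062803) (nat_lit 152) (nat_lit 148597516996) (nat_lit 0) (nat_lit 73227744241) (nat_lit 1) (nat_lit 5) (nat_lit 3) (nat_lit 4) (nat_lit 1) (nat_lit 4) (nat_lit 524) (nat_lit 350) (nat_lit 326)) (XT.lf (nat_lit 0) (nat_lit 80924418816) (nat_lit 152) (nat_lit 149538832727) (nat_lit 0) (nat_lit 80065095314)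 (nat_lit 1) (nat_lit 5) (nat_lit 3) (nat_lit 4) (nat_lit 1) (nat_lit 4) (nat_lit 525) (nat_lit 350) (nat_lit 325))))))))
noncomputable def xc10 : XT := (XT.nd (nat_lit 60840) (nat_lit 0) (nat_lit 0) (XT.nd (nat_lit 1092) (nat_lit 0) (nat_lit 0) (XT.nd (nat_lit 546) (nat_lit 0) (nat_lit 0) (XT.nd (nat_lit 234) (nat_lit 0) (nat_lit 0) (XT.nd (nat_lit 78) (nat_lit 0) (nat_lit 0) (XT.lf (nat_lit 0) (nat_lit 88064849984) (nat_lit 152) (nat_lit 150643727434) (nat_lit 0) (nat_lit 87188378921) (nat_lit 1) (nat_lit 5) (nat_lit 3) (nat_lit 4) (nat_lit 1) (nat_lit 4) (nat_lit 526) (nat_lit 350) (nat_lit 324)) (XT.nd (nat_lit 78) (nat_lit 0) (nat_lit 0) (XT.lf (nat_lit 0) (nat_lit 95507357333) (nat_lit 152) (nat_lit 151914831821) (nat_lit 0) (nat_lit 94614555260) (nat_lit 1) (nat_lit 5) (nat_lit 3) (nat_lit 4) (nat_lit 1) (nat_lit 4) (nat_lit 527) (nat_lit 350) (nat_lit 323)) (XT.lf (nat_lit 0) (nat_lit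 103269661120) (nat_lit 152) (nat_lit 153355172325) (nat_lit 0) (nat_lit 102361305703) (nat_lit 1) (nat_lit 5) (nat_lit 3) (nat_lit 4) (nat_lit 1) (nat_lit 4) (nat_lit 528) (nat_lit 350) (nat_lit 322)))) (XT.nd (nat_lit 156) (nat_lit 0) (nat_lit 0) (XT.nd (nat_lit 78) (nat_lit 0) (nat_lit 0) (XT.lf (nat_lit 0) (nat_lit 111370243019) (nat_lit 152) (nat_lit 154968178329) (nat_lit 0) (nat_lit 110447074895) (nat_lit 1) (nat_lit 5) (nat_lit 3) (nat_lit 4) (nat_lit 1) (nat_lit 4) (nat_lit 529) (nat_lit 350) (nat_lit 321)) (XT.lf (nat_lit 0) (nat_lit 119828390131) (nat_lit 152) (nat_lit 156757690324) (nat_lit 0) (nat_lit 118891114667) (nat_lit 1) (nat_lit 5) (nat_lit 3) (nat_lit 4) (nat_lit 1) (nat_lit 4) (nat_lit 530) (nat_lit 350) (nat_lit 320))) (XT.nd (nat_lit 78) (nat_lit 0) (nat_lit 0) (XT.lf (nat_lit 0) (nat_lit 128664240902) (nat_lit 152) (nat_lit 158727969052) (nat_lit 0) (nat_lit 127713529874)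 (nat_lit 1) (nat_lit 5) (nat_lit 3) (nat_lit 4) (nat_lit 1) (nat_lit 4) (nat_lit 531) (nat_lit 350) (nat_lit 319)) (XT.lf (nat_lit 0) (nat_lit 137898833071) (nat_lit 152) (nat_lit 160883705653) (nat_lit 0) (nat_lit 136935326269) (nat_lit 1) (nat_lit 5) (nat_lit 3) (nat_lit 4) (nat_lit 1) (nat_lit 4) (nat_lit 532) (nat_lit 350) (nat_lit 318))))) (XT.nd (nat_lit 234) (nat_lit 0) (nat_lit 0) (XT.nd (nat_lit 78) (nat_lit 0) (nat_lit 0) (XT.lf (nat_lit 0) (nat_lit 147554153762) (nat_lit 152) (nat_lit 163230032834) (nat_lit 0) (nat_lit 146578460509) (nat_lit 1) (nat_lit 5) (nat_lit 3) (nat_lit 4) (nat_lit 1) (nat_lit 4) (nat_lit 533) (nat_lit 350) (nat_lit 317)) (XT.nd (nat_lit 78) (nat_lit 0) (nat_lit 0) (XT.lf (nat_lit 0) (nat_lit 157653191834) (nat_lit 152) (nat_lit 165772537087) (nat_lit 0) (nat_lit 156665892437) (nat_lit 1) (nat_lit 5) (nat_lit 3) (nat_lit 4) (nat_lit 1) (nat_lit 4) (nat_lit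 534) (nat_lit 350) (nat_lit 316)) (XT.lf (nat_lit 0) (nat_lit 168219992616) (nat_lit 152) (nat_lit 168517271994) (nat_lit 0) (nat_lit 167221639748) (nat_lit 1) (nat_lit 5) (nat_lit 3) (nat_lit 4) (nat_lit 1) (nat_lit 4) (nat_lit 535) (nat_lit 350) (nat_lit 315)))) (XT.nd (nat_lit 156) (nat_lit 0) (nat_lit 0) (XT.nd (nat_lit 78) (nat_lit 0) (nat_lit 0) (XT.lf (nat_lit 0) (nat_lit 179279715157) (nat_lit 152) (nat_lit 171470772638) (nat_lit 0) (nat_lit 178270835174) (nat_lit 1) (nat_lit 5) (nat_lit 3) (nat_lit 4) (nat_lit 1) (nat_lit 4) (nat_lit 536) (nat_lit 350) (nat_lit 314)) (XT.lf (nat_lit 0) (nat_lit 190858692131) (nat_lit 152) (nat_lit 174640071165) (nat_lit 0) (nat_lit 189839786324) (nat_lit 1) (nat_lit 5) (nat_lit 3) (nat_lit 4) (nat_lit 1) (nat_lit 4) (nat_lit 537) (nat_lit 350) (nat_lit 313))) (XT.nd (nat_lit 78) (nat_lit 0) (nat_lit 0) (XT.lf (nat_lit 0) (nat_lit 202984492529) (nat_lit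 152) (nat_lit 178032713521) (nat_lit 0) (nat_lit 201956038319) (nat_lit 1) (nat_lit 5) (nat_lit 3) (nat_lit 4) (nat_lit 1) (nat_lit 4) (nat_lit 538) (nat_lit 350) (nat_lit 312)) (XT.lf (nat_lit 0) (nat_lit 215685987306) (nat_lit 152) (nat_lit 181656777428) (nat_lit 0) (nat_lit 214648439378) (nat_lit 1) (nat_lit 5) (nat_lit 3) (nat_lit 4) (nat_lit 1) (nat_lit 4) (nat_lit 539) (nat_lit 350) (nat_lit 311)))))) (XT.nd (nat_lit 59202) (nat_lit 0) (nat_lit 152) (XT.nd (nat_lit 234) (nat_lit 0) (nat_lit 0) (XT.nd (nat_lit 78) (nat_lit 0) (nat_lit 0) (XT.lf (nat_lit 0) (nat_lit 228993418115) (nat_lit 152) (nat_lit 185520891609) (nat_lit 0) (nat_lit 227947209503) (nat_lit 1) (nat_lit 5) (nat_lit 3) (nat_lit 4) (nat_lit 1) (nat_lit 4) (nat_lit 540) (nat_lit 350) (nat_lit 310)) (XT.nd (nat_lit 78) (nat_lit 0) (nat_lit 0) (XT.lf (nat_lit 0) (nat_lit 242938469315) (nat_lit 152) (nat_lit 189634256336) (nat_lit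 0) (nat_lit 241884012434) (nat_lit 1) (nat_lit 5) (nat_lit 3) (nat_lit 4) (nat_lit 1) (nat_lit 4) (nat_lit 541) (nat_lit 350) (nat_lit 309)) (XT.lf (nat_lit 0) (nat_lit 257554343410) (nat_lit 152) (nat_lit 194006665335) (nat_lit 0) (nat_lit 256492031034) (nat_lit 1) (nat_lit 5) (nat_lit 3) (nat_lit 4) (nat_lit 1) (nat_lit 4) (nat_lit 542) (nat_lit 350) (nat_lit 308)))) (XT.nd (nat_lit 156) (nat_lit 0) (nat_lit 0) (XT.nd (nat_lit 78) (nat_lit 0) (nat_lit 0) (XT.lf (nat_lit 0) (nat_lit 272875840099) (nat_lit 152) (nat_lit 198648529102) (nat_lit 0) (nat_lit 271806046299) (nat_lit 1) (nat_lit 5) (nat_lit 3) (nat_lit 4) (nat_lit 1) (nat_lit 4) (nat_lit 543) (nat_lit 350) (nat_lit 307)) (XT.lf (nat_lit 0) (nat_lit 288939439138) (nat_lit 152) (nat_lit 203570899695) (nat_lit 0) (nat_lit 287862520171) (nat_lit 1) (nat_lit 5) (nat_lit 3) (nat_lit 4) (nat_lit 1) (nat_lit 4) (nat_lit 544) (nat_lit 350)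 (nat_lit 306))) (XT.nd (nat_lit 78) (nat_lit 0) (nat_lit 0) (XT.lf (nat_lit 0) (nat_lit 305783387189) (nat_lit 152) (nat_lit 208785497044) (nat_lit 0) (nat_lit 304699682350) (nat_lit 1) (nat_lit 5) (nat_lit 3) (nat_lit 4) (nat_lit 1) (nat_lit 4) (nat_lit 545) (nat_lit 350) (nat_lit 305)) (XT.lf (nat_lit 0) (nat_lit 323447788891) (nat_lit 152) (nat_lit 214304736856) (nat_lit 0) (nat_lit 322357621317) (nat_lit 1) (nat_lit 5) (nat_lit 3) (nat_lit 4) (nat_lit 1) (nat_lit 4) (nat_lit 546) (nat_lit 350) (nat_lit 304))))) (XT.nd (nat_lit 234) (nat_lit 0) (nat_lit 0) (XT.nd (nat_lit 78) (nat_lit 76) (nat_lit 0) (XT.lf (nat_lit 0) (nat_lit 19935501763) (nat_lit 152) (nat_lit 3393418949) (nat_lit 0) (nat_lit 19935501763) (nat_lit 4) (nat_lit 5) (nat_lit 6) (nat_lit 4) (nat_lit 4) (nat_lit 4) (nat_lit 498) (nat_lit 351) (nat_lit 351)) (XT.nd (nat_lit 78) (nat_lit 0) (nat_lit 0) (XT.lf (nat_lit 0) (nat_lit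 4369275373) (nat_lit 76) (nat_lit 43132357872) (nat_lit 76) (nat_lit 43068338202) (nat_lit 3) (nat_lit 4) (nat_lit 4) (nat_lit 5) (nat_lit 4) (nat_lit 4) (nat_lit 499) (nat_lit 351) (nat_lit 350)) (XT.lf (nat_lit 0) (nat_lit 15949406142) (nat_lit 76) (nat_lit 39496078779) (nat_lit 76) (nat_lit 39371087995) (nat_lit 3) (nat_lit 4) (nat_lit 4) (nat_lit 5) (nat_lit 4) (nat_lit 4) (nat_lit 500) (nat_lit 351) (nat_lit 349)))) (XT.nd (nat_lit 156) (nat_lit 0) (nat_lit 0) (XT.nd (nat_lit 78) (nat_lit 0) (nat_lit 0) (XT.lf (nat_lit 0) (nat_lit 27756722638) (nat_lit 76) (nat_lit 35855284723) (nat_lit 76) (nat_lit 35672226211) (nat_lit 3) (nat_lit 4) (nat_lit 4) (nat_lit 5) (nat_lit 4) (nat_lit 4) (nat_lit 501) (nat_lit 351) (nat_lit 348)) (XT.lf (nat_lit 0) (nat_lit 39819337517) (nat_lit 76) (nat_lit 32201307146) (nat_lit 76) (nat_lit 31962946037) (nat_lit 3) (nat_lit 4) (nat_lit 4) (nat_lit 5) (nat_lit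 4) (nat_lit 4) (nat_lit 502) (nat_lit 351) (nat_lit 347))) (XT.nd (nat_lit 78) (nat_lit 0) (nat_lit 0) (XT.lf (nat_lit 0) (nat_lit 52165971292) (nat_lit 76) (nat_lit 28525446103) (nat_lit 76) (nat_lit 28234415853) (nat_lit 3) (nat_lit 4) (nat_lit 4) (nat_lit 5) (nat_lit 4) (nat_lit 4) (nat_lit 503) (nat_lit 351) (nat_lit 346)) (XT.lf (nat_lit 0) (nat_lit 64826020710) (nat_lit 76) (nat_lit 24818949542) (nat_lit 76) (nat_lit 24477758206) (nat_lit 3) (nat_lit 4) (nat_lit 4) (nat_lit 5) (nat_lit 4) (nat_lit 4) (nat_lit 504) (nat_lit 351) (nat_lit 345))))))) (XT.nd (nat_lit 1092) (nat_lit 0) (nat_lit 0) (XT.nd (nat_lit 546) (nat_lit 0) (nat_lit 0) (XT.nd (nat_lit 234) (nat_lit 152) (nat_lit 0) (XT.nd (nat_lit 78) (nat_lit 0) (nat_lit 0) (XT.lf (nat_lit 0) (nat_lit 77829628746) (nat_lit 76) (nat_lit 21072992472) (nat_lit 76) (nat_lit 20684028673) (nat_lit 3) (nat_lit 4) (nat_lit 4) (nat_lit 5) (nat_lit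 4) (nat_lit 4) (nat_lit 505) (nat_lit 351) (nat_lit 344)) (XT.nd (nat_lit 78) (nat_lit 0) (nat_lit 0) (XT.lf (nat_lit 0) (nat_lit 91207756371) (nat_lit 76) (nat_lit 17278655948) (nat_lit 76) (nat_lit 16844194564) (nat_lit 3) (nat_lit 4) (nat_lit 4) (nat_lit 5) (nat_lit 4) (nat_lit 4) (nat_lit 506) (nat_lit 351) (nat_lit 343)) (XT.lf (nat_lit 0) (nat_lit 104992256270) (nat_lit 76) (nat_lit 13426905835) (nat_lit 76) (nat_lit 12949113419) (nat_lit 3) (nat_lit 4) (nat_lit 4) (nat_lit 5) (nat_lit 4) (nat_lit 4) (nat_lit 507) (nat_lit 351) (nat_lit 342)))) (XT.nd (nat_lit 156) (nat_lit 152) (nat_lit 0) (XT.nd (nat_lit 78) (nat_lit 0) (nat_lit 0) (XT.lf (nat_lit 0) (nat_lit 119215948680) (nat_lit 76) (nat_lit 9508571300) (nat_lit 76) (nat_lit 8989511233) (nat_lit 3) (nat_lit 4) (nat_lit 4) (nat_lit 5) (nat_lit 4) (nat_lit 4) (nat_lit 508) (nat_lit 351) (nat_lit 341)) (XT.lf (nat_lit 0) (nat_lit 133912699537)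 (nat_lit 76) (nat_lit 5514322974) (nat_lit 76) (nat_lit 4955960384) (nat_lit 3) (nat_lit 4) (nat_lit 4) (nat_lit 5) (nat_lit 4) (nat_lit 4) (nat_lit 509) (nat_lit 351) (nat_lit 340))) (XT.nd (nat_lit 78) (nat_lit 152) (nat_lit 0) (XT.lf (nat_lit 0) (nat_lit 149117501104) (nat_lit 76) (nat_lit 1434650742) (nat_lit 76) (nat_lit 838857177) (nat_lit 3) (nat_lit 4) (nat_lit 4) (nat_lit 5) (nat_lit 4) (nat_lit 4) (nat_lit 510) (nat_lit 351) (nat_lit 339)) (XT.lf (nat_lit 0) (nat_lit 3406663069) (nat_lit 152) (nat_lit 152533061954) (nat_lit 0) (nat_lit 2805289628) (nat_lit 1) (nat_lit 5) (nat_lit 3) (nat_lit 4) (nat_lit 1) (nat_lit 4) (nat_lit 511) (nat_lit 351) (nat_lit 338))))) (XT.nd (nat_lit 234) (nat_lit 0) (nat_lit 0) (XT.nd (nat_lit 78) (nat_lit 0) (nat_lit 0) (XT.lf (nat_lit 0) (nat_lit 7790133156) (nat_lit 152) (nat_lit 151521782821) (nat_lit 0) (nat_lit 7156425432) (nat_lit 1) (nat_lit 5)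 (nat_lit 3) (nat_lit 4) (nat_lit 1) (nat_lit 4) (nat_lit 512) (nat_lit 351) (nat_lit 337)) (XT.nd (nat_lit 78) (nat_lit 0) (nat_lit 0) (XT.lf (nat_lit 0) (nat_lit 12289169045) (nat_lit 152) (nat_lit 150669180682) (nat_lit 0) (nat_lit 11624666765) (nat_lit 1) (nat_lit 5) (nat_lit 3) (nat_lit 4) (nat_lit 1) (nat_lit 4) (nat_lit 513) (nat_lit 351) (nat_lit 336)) (XT.lf (nat_lit 0) (nat_lit 16914482726) (nat_lit 152) (nat_lit 149973225531) (nat_lit 0) (nat_lit 16220652298) (nat_lit 1) (nat_lit 5) (nat_lit 3) (nat_lit 4) (nat_lit 1) (nat_lit 4) (nat_lit 514) (nat_lit 351) (nat_lit 335)))) (XT.nd (nat_lit 156) (nat_lit 0) (nat_lit 0) (XT.nd (nat_lit 78) (nat_lit 0) (nat_lit 0) (XT.lf (nat_lit 0) (nat_lit 21677086851) (nat_lit 152) (nat_lit 149432260333) (nat_lit 0) (nat_lit 20955324853) (nat_lit 1) (nat_lit 5) (nat_lit 3) (nat_lit 4) (nat_lit 1) (nat_lit 4) (nat_lit 515) (nat_lit 351) (nat_lit 334))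 (XT.lf (nat_lit 0) (nat_lit 26588320953) (nat_lit 152) (nat_lit 149044997076) (nat_lit 0) (nat_lit 25839957460) (nat_lit 1) (nat_lit 5) (nat_lit 3) (nat_lit 4) (nat_lit 1) (nat_lit 4) (nat_lit 516) (nat_lit 351) (nat_lit 333))) (XT.nd (nat_lit 78) (nat_lit 0) (nat_lit 0) (XT.lf (nat_lit 0) (nat_lit 31659878447) (nat_lit 152) (nat_lit 148810513703) (nat_lit 0) (nat_lit 30886180197) (nat_lit 1) (nat_lit 5) (nat_lit 3) (nat_lit 4) (nat_lit 1) (nat_lit 4) (nat_lit 517) (nat_lit 351) (nat_lit 332)) (XT.lf (nat_lit 0) (nat_lit 36903834470) (nat_lit 152) (nat_lit 148728251921) (nat_lit 0) (nat_lit 36106007879) (nat_lit 1) (nat_lit 5) (nat_lit 3) (nat_lit 4) (nat_lit 1) (nat_lit 4) (nat_lit 518) (nat_lit 351) (nat_lit 331)))))) (XT.nd (nat_lit 546) (nat_lit 0) (nat_lit 0) (XT.nd (nat_lit 234) (nat_lit 0) (nat_lit 0) (XT.nd (nat_lit 78) (nat_lit 0) (nat_lit 0) (XT.lf (nat_lit 0) (nat_lit 42332674631)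 (nat_lit 152) (nat_lit 148798015868) (nat_lit 0) (nat_lit 41511868669) (nat_lit 1) (nat_lit 5) (nat_lit 3) (nat_lit 4) (nat_lit 1) (nat_lit 4) (nat_lit 519) (nat_lit 351) (nat_lit 330)) (XT.nd (nat_lit 78) (nat_lit 0) (nat_lit 0) (XT.lf (nat_lit 0) (nat_lit 47959324740) (nat_lit 152) (nat_lit 149019971650) (nat_lit 0) (nat_lit 47116633662) (nat_lit 1) (nat_lit 5) (nat_lit 3) (nat_lit 4) (nat_lit 1) (nat_lit 4) (nat_lit 520) (nat_lit 351) (nat_lit 329)) (XT.lf (nat_lit 0) (nat_lit 53797181584) (nat_lit 152) (nat_lit 149394647733) (nat_lit 0) (nat_lit 52933647538) (nat_lit 1) (nat_lit 5) (nat_lit 3) (nat_lit 4) (nat_lit 1) (nat_lit 4) (nat_lit 521) (nat_lit 351) (nat_lit 328)))) (XT.nd (nat_lit 156) (nat_lit 0) (nat_lit 0) (XT.nd (nat_lit 78) (nat_lit 0) (nat_lit 0) (XT.lf (nat_lit 0) (nat_lit 59860144821) (nat_lit 152) (nat_lit 149922936202) (nat_lit 0) (nat_lit 58976760330) (nat_lit 1) (nat_lit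 5) (nat_lit 3) (nat_lit 4) (nat_lit 1) (nat_lit 4) (nat_lit 522) (nat_lit 351) (nat_lit 327)) (XT.lf (nat_lit 0) (nat_lit 66162650078) (nat_lit 152) (nat_lit 150606094887) (nat_lit 0) (nat_lit 65260360401) (nat_lit 1) (nat_lit 5) (nat_lit 3) (nat_lit 4) (nat_lit 1) (nat_lit 4) (nat_lit 523) (nat_lit 351) (nat_lit 326))) (XT.nd (nat_lit 78) (nat_lit 0) (nat_lit 0) (XT.lf (nat_lit 0) (nat_lit 72719703320) (nat_lit 152) (nat_lit 151445750356) (nat_lit 0) (nat_lit 71799408704) (nat_lit 1) (nat_lit 5) (nat_lit 3) (nat_lit 4) (nat_lit 1) (nat_lit 4) (nat_lit 524) (nat_lit 351) (nat_lit 325)) (XT.lf (nat_lit 0) (nat_lit 79546916579) (nat_lit 152) (nat_lit 152443901789) (nat_lit 0) (nat_lit 78609474402) (nat_lit 1) (nat_lit 5) (nat_lit 3) (nat_lit 4) (nat_lit 1) (nat_lit 4) (nat_lit 525) (nat_lit 351) (nat_lit 324))))) (XT.nd (nat_lit 312) (nat_lit 0) (nat_lit 0) (XT.nd (nat_lit 156) (nat_lit 0) (nat_lit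 0) (XT.nd (nat_lit 78) (nat_lit 0) (nat_lit 0) (XT.lf (nat_lit 0) (nat_lit 86660545123) (nat_lit 152) (nat_lit 153602925738) (nat_lit 0) (nat_lit 85706771936) (nat_lit 1) (nat_lit 5) (nat_lit 3) (nat_lit 4) (nat_lit 1) (nat_lit 4) (nat_lit 526) (nat_lit 351) (nat_lit 323)) (XT.lf (nat_lit 0) (nat_lit 94077526165) (nat_lit 152) (nat_lit 154925581782) (nat_lit 0) (nat_lit 93108199635) (nat_lit 1) (nat_lit 5) (nat_lit 3) (nat_lit 4) (nat_lit 1) (nat_lit 4) (nat_lit 527) (nat_lit 351) (nat_lit 322))) (XT.nd (nat_lit 78) (nat_lit 0) (nat_lit 0) (XT.lf (nat_lit 0) (nat_lit 101815519183) (nat_lit 152) (nat_lit 156415019103) (nat_lit 0) (nat_lit 100831379945) (nat_lit 1) (nat_lit 5) (nat_lit 3) (nat_lit 4) (nat_lit 1) (nat_lit 4) (nat_lit 528) (nat_lit 351) (nat_lit 321)) (XT.lf (nat_lit 0) (nat_lit 109892947969) (nat_lit 152) (nat_lit 158074783981) (nat_lit 0) (nat_lit 108894701390) (nat_lit 1) (nat_lit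 5) (nat_lit 3) (nat_lit 4) (nat_lit 1) (nat_lit 4) (nat_lit 529) (nat_lit 351) (nat_lit 320)))) (XT.nd (nat_lit 156) (nat_lit 0) (nat_lit 0) (XT.nd (nat_lit 78) (nat_lit 0) (nat_lit 0) (XT.lf (nat_lit 0) (nat_lit 118329044498) (nat_lit 152) (nat_lit 159908828236) (nat_lit 0) (nat_lit 117317362356) (nat_lit 1) (nat_lit 5) (nat_lit 3) (nat_lit 4) (nat_lit 1) (nat_lit 4) (nat_lit 530) (nat_lit 351) (nat_lit 319)) (XT.lf (nat_lit 0) (nat_lit 127143894712) (nat_lit 152) (nat_lit 161921518640) (nat_lit 0) (nat_lit 126119416796) (nat_lit 1) (nat_lit 5) (nat_lit 3) (nat_lit 4) (nat_lit 1) (nat_lit 4) (nat_lit 531) (nat_lit 351) (nat_lit 318))) (XT.nd (nat_lit 78) (nat_lit 0) (nat_lit 0) (XT.lf (nat_lit 0) (nat_lit 136358486351) (nat_lit 152) (nat_lit 164117647314) (nat_lit 0) (nat_lit 135321821984) (nat_lit 1) (nat_lit 5) (nat_lit 3) (nat_lit 4) (nat_lit 1) (nat_lit 4) (nat_lit 532) (nat_lit 351) (nat_lit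 317)) (XT.lf (nat_lit 0) (nat_lit 145994758918) (nat_lit 152) (nat_lit 166502443136) (nat_lit 0) (nat_lit 144946488407) (nat_lit 1) (nat_lit 5) (nat_lit 3) (nat_lit 4) (nat_lit 1) (nat_lit 4) (nat_lit 533) (nat_lit 351) (nat_lit 316))))))))
noncomputable def xc11 : XT := (XT.nd (nat_lit 60684) (nat_lit 0) (nat_lit 0) (XT.nd (nat_lit 59592) (nat_lit 0) (nat_lit 152) (XT.nd (nat_lit 546) (nat_lit 0) (nat_lit 0) (XT.nd (nat_lit 234) (nat_lit 0) (nat_lit 0) (XT.nd (nat_lit 78) (nat_lit 0) (nat_lit 0) (XT.lf (nat_lit 0) (nat_lit 156075655920) (nat_lit 152) (nat_lit 169081584189) (nat_lit 0) (nat_lit 155016331938) (nat_lit 1) (nat_lit 5) (nat_lit 3) (nat_lit 4) (nat_lit 1) (nat_lit 4) (nat_lit 534) (nat_lit 351) (nat_lit 315)) (XT.nd (nat_lit 78) (nat_lit 0) (nat_lit 0) (XT.lf (nat_lit 0) (nat_lit 166625179492) (nat_lit 152) (nat_lit 171861211288) (nat_lit 0) (nat_lit 165555328396) (nat_lit 1) (nat_lit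 5) (nat_lit 3) (nat_lit 4) (nat_lit 1) (nat_lit 4) (nat_lit 535) (nat_lit 351) (nat_lit 314)) (XT.lf (nat_lit 0) (nat_lit 177668447548) (nat_lit 152) (nat_lit 174847942590) (nat_lit 0) (nat_lit 176588570628) (nat_lit 1) (nat_lit 5) (nat_lit 3) (nat_lit 4) (nat_lit 1) (nat_lit 4) (nat_lit 536) (nat_lit 351) (nat_lit 313)))) (XT.nd (nat_lit 156) (nat_lit 0) (nat_lit 0) (XT.nd (nat_lit 78) (nat_lit 0) (nat_lit 0) (XT.lf (nat_lit 0) (nat_lit 189231753583) (nat_lit 152) (nat_lit 178048889362) (nat_lit 0) (nat_lit 188142328259) (nat_lit 1) (nat_lit 5) (nat_lit 3) (nat_lit 4) (nat_lit 1) (nat_lit 4) (nat_lit 537) (nat_lit 351) (nat_lit 312)) (XT.lf (nat_lit 0) (nat_lit 201342629279) (nat_lit 152) (nat_lit 181471672906) (nat_lit 0) (nat_lit 200244110237) (nat_lit 1) (nat_lit 5) (nat_lit 3) (nat_lit 4) (nat_lit 1) (nat_lit 4) (nat_lit 538) (nat_lit 351) (nat_lit 311))) (XT.nd (nat_lit 78) (nat_lit 0)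 (nat_lit 0) (XT.lf (nat_lit 0) (nat_lit 214029910052) (nat_lit 152) (nat_lit 185124442705) (nat_lit 0) (nat_lit 212922730327) (nat_lit 1) (nat_lit 5) (nat_lit 3) (nat_lit 4) (nat_lit 1) (nat_lit 4) (nat_lit 539) (nat_lit 351) (nat_lit 310)) (XT.lf (nat_lit 0) (nat_lit 227323803715) (nat_lit 152) (nat_lit 189015895831) (nat_lit 0) (nat_lit 226208375720) (nat_lit 1) (nat_lit 5) (nat_lit 3) (nat_lit 4) (nat_lit 1) (nat_lit 4) (nat_lit 540) (nat_lit 351) (nat_lit 309))))) (XT.nd (nat_lit 234) (nat_lit 0) (nat_lit 0) (XT.nd (nat_lit 78) (nat_lit 0) (nat_lit 0) (XT.lf (nat_lit 0) (nat_lit 241255962396) (nat_lit 152) (nat_lit 193155297648) (nat_lit 0) (nat_lit 240132678905) (nat_lit 1) (nat_lit 5) (nat_lit 3) (nat_lit 4) (nat_lit 1) (nat_lit 4) (nat_lit 541) (nat_lit 351) (nat_lit 308)) (XT.nd (nat_lit 78) (nat_lit 0) (nat_lit 0) (XT.lf (nat_lit 0) (nat_lit 255859557900) (nat_lit 152) (nat_lit 197552503875)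 (nat_lit 0) (nat_lit 254728792986) (nat_lit 1) (nat_lit 5) (nat_lit 3) (nat_lit 4) (nat_lit 1) (nat_lit 4) (nat_lit 542) (nat_lit 351) (nat_lit 307)) (XT.lf (nat_lit 0) (nat_lit 271169360694) (nat_lit 152) (nat_lit 202217984051) (nat_lit 0) (nat_lit 270031470614) (nat_lit 1) (nat_lit 5) (nat_lit 3) (nat_lit 4) (nat_lit 1) (nat_lit 4) (nat_lit 543) (nat_lit 351) (nat_lit 306)))) (XT.nd (nat_lit 156) (nat_lit 0) (nat_lit 0) (XT.nd (nat_lit 78) (nat_lit 0) (nat_lit 0) (XT.lf (nat_lit 0) (nat_lit 287221822689) (nat_lit 152) (nat_lit 207162846461) (nat_lit 0) (nat_lit 286077146737) (nat_lit 1) (nat_lit 5) (nat_lit 3) (nat_lit 4) (nat_lit 1) (nat_lit 4) (nat_lit 544) (nat_lit 351) (nat_lit 305)) (XT.lf (nat_lit 0) (nat_lit 304055164032) (nat_lit 152) (nat_lit 212398864589) (nat_lit 0) (nat_lit 302904025344) (nat_lit 1) (nat_lit 5) (nat_lit 3) (nat_lit 4) (nat_lit 1) (nat_lit 4) (nat_lit 545) (nat_lit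 351) (nat_lit 304))) (XT.nd (nat_lit 58578) (nat_lit 0) (nat_lit 228) (XT.lf (nat_lit 0) (nat_lit 321709464108) (nat_lit 152) (nat_lit 217938505142) (nat_lit 0) (nat_lit 320552170434) (nat_lit 1) (nat_lit 5) (nat_lit 3) (nat_lit 4) (nat_lit 1) (nat_lit 4) (nat_lit 546) (nat_lit 351) (nat_lit 303)) (XT.lf (nat_lit 0) (nat_lit 12719590280) (nat_lit 152) (nat_lit 14075953722) (nat_lit 0) (nat_lit 12719590280) (nat_lit 4) (nat_lit 5) (nat_lit 6) (nat_lit 4) (nat_lit 4) (nat_lit 4) (nat_lit 496) (nat_lit 352) (nat_lit 352)))))) (XT.nd (nat_lit 546) (nat_lit 0) (nat_lit 0) (XT.nd (nat_lit 234) (nat_lit 0) (nat_lit 0) (XT.nd (nat_lit 78) (nat_lit 76) (nat_lit 0) (XT.lf (nat_lit 0) (nat_lit 32558445644) (nat_lit 152) (nat_lit 17636111194) (nat_lit 0) (nat_lit 32491224991) (nat_lit 4) (nat_lit 5) (nat_lit 6) (nat_lit 4) (nat_lit 4) (nat_lit 4) (nat_lit 497) (nat_lit 352) (nat_lit 351)) (XT.nd (nat_lit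 78) (nat_lit 76) (nat_lit 0) (XT.lf (nat_lit 0) (nat_lit 39847319605) (nat_lit 152) (nat_lit 6969992916) (nat_lit 0) (nat_lit 39716079282) (nat_lit 4) (nat_lit 5) (nat_lit 6) (nat_lit 4) (nat_lit 4) (nat_lit 4) (nat_lit 498) (nat_lit 352) (nat_lit 350)) (XT.lf (nat_lit 0) (nat_lit 3999863519) (nat_lit 76) (nat_lit 43385742466) (nat_lit 76) (nat_lit 43193531029) (nat_lit 3) (nat_lit 4) (nat_lit 4) (nat_lit 5) (nat_lit 4) (nat_lit 4) (nat_lit 499) (nat_lit 352) (nat_lit 349)))) (XT.nd (nat_lit 156) (nat_lit 0) (nat_lit 0) (XT.nd (nat_lit 78) (nat_lit 0) (nat_lit 0) (XT.lf (nat_lit 0) (nat_lit 15408374380) (nat_lit 76) (nat_lit 39835950686) (nat_lit 76) (nat_lit 39585671521) (nat_lit 3) (nat_lit 4) (nat_lit 4) (nat_lit 5) (nat_lit 4) (nat_lit 4) (nat_lit 500) (nat_lit 352) (nat_lit 348)) (XT.lf (nat_lit 0) (nat_lit 27052243344) (nat_lit 76) (nat_lit 36277525499) (nat_lit 76) (nat_lit 35971943737)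 (nat_lit 3) (nat_lit 4) (nat_lit 4) (nat_lit 5) (nat_lit 4) (nat_lit 4) (nat_lit 501) (nat_lit 352) (nat_lit 347))) (XT.nd (nat_lit 78) (nat_lit 0) (nat_lit 0) (XT.lf (nat_lit 0) (nat_lit 38959193907) (nat_lit 76) (nat_lit 32701994465) (nat_lit 76) (nat_lit 32343743562) (nat_lit 3) (nat_lit 4) (nat_lit 4) (nat_lit 5) (nat_lit 4) (nat_lit 4) (nat_lit 502) (nat_lit 352) (nat_lit 346)) (XT.lf (nat_lit 0) (nat_lit 51157575952) (nat_lit 76) (nat_lit 29100844414) (nat_lit 76) (nat_lit 28692432425) (nat_lit 3) (nat_lit 4) (nat_lit 4) (nat_lit 5) (nat_lit 4) (nat_lit 4) (nat_lit 503) (nat_lit 352) (nat_lit 345))))) (XT.nd (nat_lit 234) (nat_lit 0) (nat_lit 0) (XT.nd (nat_lit 78) (nat_lit 0) (nat_lit 0) (XT.lf (nat_lit 0) (nat_lit 63676433247) (nat_lit 76) (nat_lit 25465501180) (nat_lit 76) (nat_lit 25009316727) (nat_lit 3) (nat_lit 4) (nat_lit 4) (nat_lit 5) (nat_lit 4) (nat_lit 4) (nat_lit 504) (nat_lit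 352) (nat_lit 344)) (XT.nd (nat_lit 78) (nat_lit 0) (nat_lit 0) (XT.lf (nat_lit 0) (nat_lit 76545572593) (nat_lit 76) (nat_lit 21787309183) (nat_lit 76) (nat_lit 21285627146) (nat_lit 3) (nat_lit 4) (nat_lit 4) (nat_lit 5) (nat_lit 4) (nat_lit 4) (nat_lit 505) (nat_lit 352) (nat_lit 343)) (XT.lf (nat_lit 0) (nat_lit 89795634800) (nat_lit 76) (nat_lit 18057510824) (nat_lit 76) (nat_lit 17512497754) (nat_lit 3) (nat_lit 4) (nat_lit 4) (nat_lit 5) (nat_lit 4) (nat_lit 4) (nat_lit 506) (nat_lit 352) (nat_lit 342)))) (XT.nd (nat_lit 156) (nat_lit 0) (nat_lit 0) (XT.nd (nat_lit 78) (nat_lit 0) (nat_lit 0) (XT.lf (nat_lit 0) (nat_lit 103458167634) (nat_lit 76) (nat_lit 14267225629) (nat_lit 76) (nat_lit 13680944910) (nat_lit 3) (nat_lit 4) (nat_lit 4) (nat_lit 5) (nat_lit 4) (nat_lit 4) (nat_lit 507) (nat_lit 352) (nat_lit 341)) (XT.lf (nat_lit 0) (nat_lit 117565700935) (nat_lit 76) (nat_lit 10407429111)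 (nat_lit 76) (nat_lit 9781845868) (nat_lit 3) (nat_lit 4) (nat_lit 4) (nat_lit 5) (nat_lit 4) (nat_lit 4) (nat_lit 508) (nat_lit 352) (nat_lit 340))) (XT.nd (nat_lit 78) (nat_lit 0) (nat_lit 0) (XT.lf (nat_lit 0) (nat_lit 132151824068) (nat_lit 76) (nat_lit 6468931278) (nat_lit 76) (nat_lit 5805917060) (nat_lit 3) (nat_lit 4) (nat_lit 4) (nat_lit 5) (nat_lit 4) (nat_lit 4) (nat_lit 509) (nat_lit 352) (nat_lit 339)) (XT.lf (nat_lit 0) (nat_lit 147251265899) (nat_lit 76) (nat_lit 2442354754) (nat_lit 76) (nat_lit 1743691988) (nat_lit 3) (nat_lit 4) (nat_lit 4) (nat_lit 5) (nat_lit 4) (nat_lit 4) (nat_lit 510) (nat_lit 352) (nat_lit 338))))))) (XT.nd (nat_lit 1092) (nat_lit 0) (nat_lit 0) (XT.nd (nat_lit 546) (nat_lit 0) (nat_lit 0) (XT.nd (nat_lit 234) (nat_lit 0) (nat_lit 0) (XT.nd (nat_lit 78) (nat_lit 0) (nat_lit 0) (XT.lf (nat_lit 0) (nat_lit 2430635083) (nat_lit 152) (nat_lit 154633490345)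 (nat_lit 0) (nat_lit 1732907689) (nat_lit 1) (nat_lit 5) (nat_lit 3) (nat_lit 4) (nat_lit 1) (nat_lit 4) (nat_lit 511) (nat_lit 352) (nat_lit 337)) (XT.nd (nat_lit 78) (nat_lit 0) (nat_lit 0) (XT.lf (nat_lit 0) (nat_lit 6763564828) (nat_lit 152) (nat_lit 153724279968) (nat_lit 0) (nat_lit 6035042878) (nat_lit 1) (nat_lit 5) (nat_lit 3) (nat_lit 4) (nat_lit 1) (nat_lit 4) (nat_lit 512) (nat_lit 352) (nat_lit 336)) (XT.lf (nat_lit 0) (nat_lit 11214467057) (nat_lit 152) (nat_lit 152968886169) (nat_lit 0) (nat_lit 10456616959) (nat_lit 1) (nat_lit 5) (nat_lit 3) (nat_lit 4) (nat_lit 1) (nat_lit 4) (nat_lit 513) (nat_lit 352) (nat_lit 335)))) (XT.nd (nat_lit 156) (nat_lit 0) (nat_lit 0) (XT.nd (nat_lit 78) (nat_lit 0) (nat_lit 0) (XT.lf (nat_lit 0) (nat_lit 15793939157) (nat_lit 152) (nat_lit 152365510389) (nat_lit 0) (nat_lit 15008157490) (nat_lit 1) (nat_lit 5) (nat_lit 3) (nat_lit 4) (nat_lit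 1) (nat_lit 4) (nat_lit 514) (nat_lit 352) (nat_lit 334)) (XT.lf (nat_lit 0) (nat_lit 20512884634) (nat_lit 152) (nat_lit 151912716020) (nat_lit 0) (nat_lit 19700501471) (nat_lit 1) (nat_lit 5) (nat_lit 3) (nat_lit 4) (nat_lit 1) (nat_lit 4) (nat_lit 515) (nat_lit 352) (nat_lit 333))) (XT.nd (nat_lit 78) (nat_lit 0) (nat_lit 0) (XT.lf (nat_lit 0) (nat_lit 25382539071) (nat_lit 152) (nat_lit 151609424981) (nat_lit 0) (nat_lit 24544821151) (nat_lit 1) (nat_lit 5) (nat_lit 3) (nat_lit 4) (nat_lit 1) (nat_lit 4) (nat_lit 516) (nat_lit 352) (nat_lit 332)) (XT.lf (nat_lit 0) (nat_lit 30414496884) (nat_lit 152) (nat_lit 151454915149) (nat_lit 0) (nat_lit 29552650624) (nat_lit 1) (nat_lit 5) (nat_lit 3) (nat_lit 4) (nat_lit 1) (nat_lit 4) (nat_lit 517) (nat_lit 352) (nat_lit 331))))) (XT.nd (nat_lit 234) (nat_lit 0) (nat_lit 0) (XT.nd (nat_lit 78) (nat_lit 0) (nat_lit 0) (XT.lf (nat_lit 0) (nat_lit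 35620738925) (nat_lit 152) (nat_lit 151448818645) (nat_lit 0) (nat_lit 34735913293) (nat_lit 1) (nat_lit 5) (nat_lit 3) (nat_lit 4) (nat_lit 1) (nat_lit 4) (nat_lit 518) (nat_lit 352) (nat_lit 330)) (XT.nd (nat_lit 78) (nat_lit 0) (nat_lit 0) (XT.lf (nat_lit 0) (nat_lit 41013661008) (nat_lit 152) (nat_lit 151591120952) (nat_lit 0) (nat_lit 40106950260) (nat_lit 1) (nat_lit 5) (nat_lit 3) (nat_lit 4) (nat_lit 1) (nat_lit 4) (nat_lit 519) (nat_lit 352) (nat_lit 329)) (XT.lf (nat_lit 0) (nat_lit 46606103424) (nat_lit 152) (nat_lit 151882160886) (nat_lit 0) (nat_lit 45678549709) (nat_lit 1) (nat_lit 5) (nat_lit 3) (nat_lit 4) (nat_lit 1) (nat_lit 4) (nat_lit 520) (nat_lit 352) (nat_lit 328)))) (XT.nd (nat_lit 156) (nat_lit 0) (nat_lit 0) (XT.nd (nat_lit 78) (nat_lit 0) (nat_lit 0) (XT.lf (nat_lit 0) (nat_lit 52411381512) (nat_lit 152) (nat_lit 152322631399) (nat_lit 0) (nat_lit 51463977352) (nat_lit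 1) (nat_lit 5) (nat_lit 3) (nat_lit 4) (nat_lit 1) (nat_lit 4) (nat_lit 521) (nat_lit 352) (nat_lit 327)) (XT.lf (nat_lit 0) (nat_lit 58443317363) (nat_lit 152) (nat_lit 152913581230) (nat_lit 0) (nat_lit 57477008017) (nat_lit 1) (nat_lit 5) (nat_lit 3) (nat_lit 4) (nat_lit 1) (nat_lit 4) (nat_lit 522) (nat_lit 352) (nat_lit 326))) (XT.nd (nat_lit 78) (nat_lit 0) (nat_lit 0) (XT.lf (nat_lit 0) (nat_lit 64716272729) (nat_lit 152) (nat_lit 153656417403) (nat_lit 0) (nat_lit 63731958443) (nat_lit 1) (nat_lit 5) (nat_lit 3) (nat_lit 4) (nat_lit 1) (nat_lit 4) (nat_lit 523) (nat_lit 352) (nat_lit 325)) (XT.lf (nat_lit 0) (nat_lit 71245183217) (nat_lit 152) (nat_lit 154552908575) (nat_lit 0) (nat_lit 70243721370) (nat_lit 1) (nat_lit 5) (nat_lit 3) (nat_lit 4) (nat_lit 1) (nat_lit 4) (nat_lit 524) (nat_lit 352) (nat_lit 324)))))) (XT.nd (nat_lit 546) (nat_lit 0) (nat_lit 0) (XT.nd (nat_lit 234) (nat_lit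 0) (nat_lit 0) (XT.nd (nat_lit 78) (nat_lit 0) (nat_lit 0) (XT.lf (nat_lit 0) (nat_lit 78045593853) (nat_lit 152) (nat_lit 155605189249) (nat_lit 0) (nat_lit 77027800996) (nat_lit 1) (nat_lit 5) (nat_lit 3) (nat_lit 4) (nat_lit 1) (nat_lit 4) (nat_lit 525) (nat_lit 352) (nat_lit 323)) (XT.nd (nat_lit 78) (nat_lit 0) (nat_lit 0) (XT.lf (nat_lit 0) (nat_lit 85133696090) (nat_lit 152) (nat_lit 156815764855) (nat_lit 0) (nat_lit 84100349890) (nat_lit 1) (nat_lit 5) (nat_lit 3) (nat_lit 4) (nat_lit 1) (nat_lit 4) (nat_lit 526) (nat_lit 352) (nat_lit 322)) (XT.lf (nat_lit 0) (nat_lit 92526366363) (nat_lit 152) (nat_lit 158187517716) (nat_lit 0) (nat_lit 91478207455) (nat_lit 1) (nat_lit 5) (nat_lit 3) (nat_lit 4) (nat_lit 1) (nat_lit 4) (nat_lit 527) (nat_lit 352) (nat_lit 321)))) (XT.nd (nat_lit 156) (nat_lit 0) (nat_lit 0) (XT.nd (nat_lit 78) (nat_lit 0) (nat_lit 0) (XT.lf (nat_lit 0) (nat_lit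 100241206267) (nat_lit 152) (nat_lit 159723713911) (nat_lit 0) (nat_lit 99178940019) (nat_lit 1) (nat_lit 5) (nat_lit 3) (nat_lit 4) (nat_lit 1) (nat_lit 4) (nat_lit 528) (nat_lit 352) (nat_lit 320)) (XT.lf (nat_lit 0) (nat_lit 108296584470) (nat_lit 152) (nat_lit 161428011049) (nat_lit 0) (nat_lit 107220882658) (nat_lit 1) (nat_lit 5) (nat_lit 3) (nat_lit 4) (nat_lit 1) (nat_lit 4) (nat_lit 529) (nat_lit 352) (nat_lit 319))) (XT.nd (nat_lit 78) (nat_lit 0) (nat_lit 0) (XT.lf (nat_lit 0) (nat_lit 116711680442) (nat_lit 152) (nat_lit 163304466980) (nat_lit 0) (nat_lit 115623182856) (nat_lit 1) (nat_lit 5) (nat_lit 3) (nat_lit 4) (nat_lit 1) (nat_lit 4) (nat_lit 530) (nat_lit 352) (nat_lit 318)) (XT.lf (nat_lit 0) (nat_lit 125506530126) (nat_lit 152) (nat_lit 165357549457) (nat_lit 0) (nat_lit 124405846089) (nat_lit 1) (nat_lit 5) (nat_lit 3) (nat_lit 4) (nat_lit 1) (nat_lit 4) (nat_lit 531)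 (nat_lit 352) (nat_lit 317))))) (XT.nd (nat_lit 312) (nat_lit 0) (nat_lit 0) (XT.nd (nat_lit 156) (nat_lit 0) (nat_lit 0) (XT.nd (nat_lit 78) (nat_lit 0) (nat_lit 0) (XT.lf (nat_lit 0) (nat_lit 134702073641) (nat_lit 152) (nat_lit 167592146772) (nat_lit 0) (nat_lit 133589783460) (nat_lit 1) (nat_lit 5) (nat_lit 3) (nat_lit 4) (nat_lit 1) (nat_lit 4) (nat_lit 532) (nat_lit 352) (nat_lit 316)) (XT.lf (nat_lit 0) (nat_lit 144320205138) (nat_lit 152) (nat_lit 170013579394) (nat_lit 0) (nat_lit 143196861487) (nat_lit 1) (nat_lit 5) (nat_lit 3) (nat_lit 4) (nat_lit 1) (nat_lit 4) (nat_lit 533) (nat_lit 352) (nat_lit 315))) (XT.nd (nat_lit 78) (nat_lit 0) (nat_lit 0) (XT.lf (nat_lit 0) (nat_lit 154383824931) (nat_lit 152) (nat_lit 172627612639) (nat_lit 0) (nat_lit 153249954164) (nat_lit 1) (nat_lit 5) (nat_lit 3) (nat_lit 4) (nat_lit 1) (nat_lit 4) (nat_lit 534) (nat_lit 352) (nat_lit 314)) (XT.lf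 (nat_lit 0) (nat_lit 164916894018) (nat_lit 152) (nat_lit 175440470395) (nat_lit 0) (nat_lit 163772997428) (nat_lit 1) (nat_lit 5) (nat_lit 3) (nat_lit 4) (nat_lit 1) (nat_lit 4) (nat_lit 535) (nat_lit 352) (nat_lit 313)))) (XT.nd (nat_lit 156) (nat_lit 0) (nat_lit 0) (XT.nd (nat_lit 78) (nat_lit 0) (nat_lit 0) (XT.lf (nat_lit 0) (nat_lit 175944491135) (nat_lit 152) (nat_lit 178458849944) (nat_lit 0) (nat_lit 174791046142) (nat_lit 1) (nat_lit 5) (nat_lit 3) (nat_lit 4) (nat_lit 1) (nat_lit 4) (nat_lit 536) (nat_lit 352) (nat_lit 312)) (XT.lf (nat_lit 0) (nat_lit 187492872467) (nat_lit 152) (nat_lit 181689937903) (nat_lit 0) (nat_lit 186330333756) (nat_lit 1) (nat_lit 5) (nat_lit 3) (nat_lit 4) (nat_lit 1) (nat_lit 4) (nat_lit 537) (nat_lit 352) (nat_lit 311))) (XT.nd (nat_lit 78) (nat_lit 0) (nat_lit 0) (XT.lf (nat_lit 0) (nat_lit 199589534159) (nat_lit 152) (nat_lit 185141427338) (nat_lit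 0) (nat_lit 198418334764) (nat_lit 1) (nat_lit 5) (nat_lit 3) (nat_lit 4) (nat_lit 1) (nat_lit 4) (nat_lit 538) (nat_lit 352) (nat_lit 310)) (XT.lf (nat_lit 0) (nat_lit 212263277787) (nat_lit 152) (nat_lit 188821536082) (nat_lit 0) (nat_lit 211083830122) (nat_lit 1) (nat_lit 5) (nat_lit 3) (nat_lit 4) (nat_lit 1) (nat_lit 4) (nat_lit 539) (nat_lit 352) (nat_lit 309))))))))
noncomputable def xc12 : XT := (XT.nd (nat_lit 60528) (nat_lit 0) (nat_lit 0) (XT.nd (nat_lit 59436) (nat_lit 0) (nat_lit 0) (XT.nd (nat_lit 58890) (nat_lit 0) (nat_lit 152) (XT.nd (nat_lit 234) (nat_lit 0) (nat_lit 0) (XT.nd (nat_lit 78) (nat_lit 0) (nat_lit 0) (XT.lf (nat_lit 0) (nat_lit 225544278930) (nat_lit 152) (nat_lit 192739026298) (nat_lit 0) (nat_lit 224356975770) (nat_lit 1) (nat_lit 5) (nat_lit 3) (nat_lit 4) (nat_lit 1) (nat_lit 4) (nat_lit 540) (nat_lit 352) (nat_lit 308)) (XT.nd (nat_lit 78) (nat_lit 0) (nat_lit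 0) (XT.lf (nat_lit 0) (nat_lit 239464159021) (nat_lit 152) (nat_lit 196903225344) (nat_lit 0) (nat_lit 238269374436) (nat_lit 1) (nat_lit 5) (nat_lit 3) (nat_lit 4) (nat_lit 1) (nat_lit 4) (nat_lit 541) (nat_lit 352) (nat_lit 307)) (XT.lf (nat_lit 0) (nat_lit 254056060630) (nat_lit 152) (nat_lit 201324047980) (nat_lit 0) (nat_lit 252854150880) (nat_lit 1) (nat_lit 5) (nat_lit 3) (nat_lit 4) (nat_lit 1) (nat_lit 4) (nat_lit 542) (nat_lit 352) (nat_lit 306)))) (XT.nd (nat_lit 156) (nat_lit 0) (nat_lit 0) (XT.nd (nat_lit 78) (nat_lit 0) (nat_lit 0) (XT.lf (nat_lit 0) (nat_lit 269354726380) (nat_lit 152) (nat_lit 206012019973) (nat_lit 0) (nat_lit 268146030758) (nat_lit 1) (nat_lit 5) (nat_lit 3) (nat_lit 4) (nat_lit 1) (nat_lit 4) (nat_lit 543) (nat_lit 352) (nat_lit 305)) (XT.lf (nat_lit 0) (nat_lit 285396581667) (nat_lit 152) (nat_lit 210978303162) (nat_lit 0) (nat_lit 284181423309) (nat_lit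 1) (nat_lit 5) (nat_lit 3) (nat_lit 4) (nat_lit 1) (nat_lit 4) (nat_lit 544) (nat_lit 352) (nat_lit 304))) (XT.nd (nat_lit 78) (nat_lit 0) (nat_lit 0) (XT.lf (nat_lit 0) (nat_lit 302219821383) (nat_lit 152) (nat_lit 216234722031) (nat_lit 0) (nat_lit 300998508040) (nat_lit 1) (nat_lit 5) (nat_lit 3) (nat_lit 4) (nat_lit 1) (nat_lit 4) (nat_lit 545) (nat_lit 352) (nat_lit 303)) (XT.lf (nat_lit 0) (nat_lit 319864500862) (nat_lit 152) (nat_lit 221793791862) (nat_lit 0) (nat_lit 318637325627) (nat_lit 1) (nat_lit 5) (nat_lit 3) (nat_lit 4) (nat_lit 1) (nat_lit 4) (nat_lit 546) (nat_lit 352) (nat_lit 302))))) (XT.nd (nat_lit 234) (nat_lit 76) (nat_lit 0) (XT.nd (nat_lit 78) (nat_lit 0) (nat_lit 0) (XT.lf (nat_lit 0) (nat_lit 5906420977) (nat_lit 152) (nat_lit 24315228800) (nat_lit 0) (nat_lit 5906420977) (nat_lit 4) (nat_lit 5) (nat_lit 6) (nat_lit 4) (nat_lit 4) (nat_lit 4) (nat_lit 494) (nat_lit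 353) (nat_lit 353)) (XT.nd (nat_lit 78) (nat_lit 0) (nat_lit 0) (XT.lf (nat_lit 0) (nat_lit 18543155411) (nat_lit 152) (nat_lit 38542419277) (nat_lit 0) (nat_lit 18472573725) (nat_lit 4) (nat_lit 5) (nat_lit 6) (nat_lit 4) (nat_lit 4) (nat_lit 4) (nat_lit 495) (nat_lit 353) (nat_lit 352)) (XT.lf (nat_lit 0) (nat_lit 25414312445) (nat_lit 152) (nat_lit 28344220212) (nat_lit 0) (nat_lit 25276510105) (nat_lit 4) (nat_lit 5) (nat_lit 6) (nat_lit 4) (nat_lit 4) (nat_lit 4) (nat_lit 496) (nat_lit 353) (nat_lit 351)))) (XT.nd (nat_lit 156) (nat_lit 76) (nat_lit 0) (XT.nd (nat_lit 78) (nat_lit 0) (nat_lit 0) (XT.lf (nat_lit 0) (nat_lit 32442672954) (nat_lit 152) (nat_lit 18011578979) (nat_lit 0) (nat_lit 32240850945) (nat_lit 4) (nat_lit 5) (nat_lit 6) (nat_lit 4) (nat_lit 4) (nat_lit 4) (nat_lit 497) (nat_lit 353) (nat_lit 350)) (XT.lf (nat_lit 0) (nat_lit 39644971131) (nat_lit 152) (nat_lit 7519894051)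 (nat_lit 0) (nat_lit 39382178008) (nat_lit 4) (nat_lit 5) (nat_lit 6) (nat_lit 4) (nat_lit 4) (nat_lit 4) (nat_lit 498) (nat_lit 353) (nat_lit 349))) (XT.nd (nat_lit 78) (nat_lit 0) (nat_lit 0) (XT.lf (nat_lit 0) (nat_lit 3260160261) (nat_lit 76) (nat_lit 43829095282) (nat_lit 76) (nat_lit 43508234431) (nat_lit 3) (nat_lit 4) (nat_lit 4) (nat_lit 5) (nat_lit 4) (nat_lit 4) (nat_lit 499) (nat_lit 353) (nat_lit 348)) (XT.lf (nat_lit 0) (nat_lit 14505223589) (nat_lit 76) (nat_lit 40361672371) (nat_lit 76) (nat_lit 39985508923) (nat_lit 3) (nat_lit 4) (nat_lit 4) (nat_lit 5) (nat_lit 4) (nat_lit 4) (nat_lit 500) (nat_lit 353) (nat_lit 347)))))) (XT.nd (nat_lit 546) (nat_lit 152) (nat_lit 0) (XT.nd (nat_lit 234) (nat_lit 0) (nat_lit 0) (XT.nd (nat_lit 78) (nat_lit 0) (nat_lit 0) (XT.lf (nat_lit 0) (nat_lit 25993428237) (nat_lit 76) (nat_lit 36881693727) (nat_lit 76) (nat_lit 36452861138) (nat_lit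 3) (nat_lit 4) (nat_lit 4) (nat_lit 5) (nat_lit 4) (nat_lit 4) (nat_lit 501) (nat_lit 353) (nat_lit 346)) (XT.nd (nat_lit 78) (nat_lit 0) (nat_lit 0) (XT.lf (nat_lit 0) (nat_lit 37752127070) (nat_lit 76) (nat_lit 33380873685) (nat_lit 76) (nat_lit 32901880010) (nat_lit 3) (nat_lit 4) (nat_lit 4) (nat_lit 5) (nat_lit 4) (nat_lit 4) (nat_lit 502) (nat_lit 353) (nat_lit 345)) (XT.lf (nat_lit 0) (nat_lit 49809316992) (nat_lit 76) (nat_lit 29850876961) (nat_lit 76) (nat_lit 29324110822) (nat_lit 3) (nat_lit 4) (nat_lit 4) (nat_lit 5) (nat_lit 4) (nat_lit 4) (nat_lit 503) (nat_lit 353) (nat_lit 344)))) (XT.nd (nat_lit 156) (nat_lit 0) (nat_lit 0) (XT.nd (nat_lit 78) (nat_lit 0) (nat_lit 0) (XT.lf (nat_lit 0) (nat_lit 62193705598) (nat_lit 76) (nat_lit 26283298799) (nat_lit 76) (nat_lit 25711035076) (nat_lit 3) (nat_lit 4) (nat_lit 4) (nat_lit 5) (nat_lit 4) (nat_lit 4) (nat_lit 504) (nat_lit 353)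 (nat_lit 343)) (XT.lf (nat_lit 0) (nat_lit 74934779526) (nat_lit 76) (nat_lit 22669644967) (nat_lit 76) (nat_lit 22054050211) (nat_lit 3) (nat_lit 4) (nat_lit 4) (nat_lit 5) (nat_lit 4) (nat_lit 4) (nat_lit 505) (nat_lit 353) (nat_lit 342))) (XT.nd (nat_lit 78) (nat_lit 0) (nat_lit 0) (XT.lf (nat_lit 0) (nat_lit 88062874668) (nat_lit 76) (nat_lit 19001311526) (nat_lit 76) (nat_lit 18344449120) (nat_lit 3) (nat_lit 4) (nat_lit 4) (nat_lit 5) (nat_lit 4) (nat_lit 4) (nat_lit 506) (nat_lit 353) (nat_lit 341)) (XT.lf (nat_lit 0) (nat_lit 101609248392) (nat_lit 76) (nat_lit 15269564349) (nat_lit 76) (nat_lit 14573399420) (nat_lit 3) (nat_lit 4) (nat_lit 4) (nat_lit 5) (nat_lit 4) (nat_lit 4) (nat_lit 507) (nat_lit 353) (nat_lit 340))))) (XT.nd (nat_lit 234) (nat_lit 152) (nat_lit 0) (XT.nd (nat_lit 78) (nat_lit 0) (nat_lit 0) (XT.lf (nat_lit 0) (nat_lit 115606153970) (nat_lit 76) (nat_lit 11465518324)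 (nat_lit 76) (nat_lit 10731922420) (nat_lit 3) (nat_lit 4) (nat_lit 4) (nat_lit 5) (nat_lit 4) (nat_lit 4) (nat_lit 508) (nat_lit 353) (nat_lit 339)) (XT.nd (nat_lit 78) (nat_lit 0) (nat_lit 0) (XT.lf (nat_lit 0) (nat_lit 130086917367) (nat_lit 76) (nat_lit 7580116199) (nat_lit 76) (nat_lit 6810871747) (nat_lit 3) (nat_lit 4) (nat_lit 4) (nat_lit 5) (nat_lit 4) (nat_lit 4) (nat_lit 509) (nat_lit 353) (nat_lit 338)) (XT.lf (nat_lit 0) (nat_lit 145086016591) (nat_lit 76) (nat_lit 3604107015) (nat_lit 76) (nat_lit 2800911566) (nat_lit 3) (nat_lit 4) (nat_lit 4) (nat_lit 5) (nat_lit 4) (nat_lit 4) (nat_lit 510) (nat_lit 353) (nat_lit 337)))) (XT.nd (nat_lit 156) (nat_lit 0) (nat_lit 0) (XT.nd (nat_lit 78) (nat_lit 0) (nat_lit 0) (XT.lf (nat_lit 0) (nat_lit 1302197996) (nat_lit 152) (nat_lit 157048181106) (nat_lit 0) (nat_lit 506455393) (nat_lit 1) (nat_lit 5) (nat_lit 3) (nat_lit 4) (nat_lit 1)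 (nat_lit 4) (nat_lit 511) (nat_lit 353) (nat_lit 336)) (XT.lf (nat_lit 0) (nat_lit 5586994081) (nat_lit 152) (nat_lit 156236179069) (nat_lit 0) (nat_lit 4761923329) (nat_lit 1) (nat_lit 5) (nat_lit 3) (nat_lit 4) (nat_lit 1) (nat_lit 4) (nat_lit 512) (nat_lit 353) (nat_lit 335))) (XT.nd (nat_lit 78) (nat_lit 0) (nat_lit 0) (XT.lf (nat_lit 0) (nat_lit 9992054729) (nat_lit 152) (nat_lit 155573364640) (nat_lit 0) (nat_lit 9139052408) (nat_lit 1) (nat_lit 5) (nat_lit 3) (nat_lit 4) (nat_lit 1) (nat_lit 4) (nat_lit 513) (nat_lit 353) (nat_lit 334)) (XT.lf (nat_lit 0) (nat_lit 14527868181) (nat_lit 152) (nat_lit 155058159689) (nat_lit 0) (nat_lit 13648264365) (nat_lit 1) (nat_lit 5) (nat_lit 3) (nat_lit 4) (nat_lit 1) (nat_lit 4) (nat_lit 514) (nat_lit 353) (nat_lit 333))))))) (XT.nd (nat_lit 1092) (nat_lit 0) (nat_lit 0) (XT.nd (nat_lit 546) (nat_lit 0) (nat_lit 0) (XT.nd (nat_lit 234) (nat_lit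 0) (nat_lit 0) (XT.nd (nat_lit 78) (nat_lit 0) (nat_lit 0) (XT.lf (nat_lit 0) (nat_lit 19205233993) (nat_lit 152) (nat_lit 154689337539) (nat_lit 0) (nat_lit 18300295420) (nat_lit 1) (nat_lit 5) (nat_lit 3) (nat_lit 4) (nat_lit 1) (nat_lit 4) (nat_lit 515) (nat_lit 353) (nat_lit 332)) (XT.nd (nat_lit 78) (nat_lit 0) (nat_lit 0) (XT.lf (nat_lit 0) (nat_lit 24035288749) (nat_lit 152) (nat_lit 154466020041) (nat_lit 0) (nat_lit 23106221836) (nat_lit 1) (nat_lit 5) (nat_lit 3) (nat_lit 4) (nat_lit 1) (nat_lit 4) (nat_lit 516) (nat_lit 353) (nat_lit 331)) (XT.lf (nat_lit 0) (nat_lit 29029532580) (nat_lit 152) (nat_lit 154387675487) (nat_lit 0) (nat_lit 28077486295) (nat_lit 1) (nat_lit 5) (nat_lit 3) (nat_lit 4) (nat_lit 1) (nat_lit 4) (nat_lit 517) (nat_lit 353) (nat_lit 330)))) (XT.nd (nat_lit 156) (nat_lit 0) (nat_lit 0) (XT.nd (nat_lit 78) (nat_lit 0) (nat_lit 0) (XT.lf (nat_lit 0) (nat_lit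 34199856543) (nat_lit 152) (nat_lit 154454117342) (nat_lit 0) (nat_lit 33225925142) (nat_lit 1) (nat_lit 5) (nat_lit 3) (nat_lit 4) (nat_lit 1) (nat_lit 4) (nat_lit 518) (nat_lit 353) (nat_lit 329)) (XT.lf (nat_lit 0) (nat_lit 39558570933) (nat_lit 152) (nat_lit 154665503801) (nat_lit 0) (nat_lit 38563796565) (nat_lit 1) (nat_lit 5) (nat_lit 3) (nat_lit 4) (nat_lit 1) (nat_lit 4) (nat_lit 519) (nat_lit 353) (nat_lit 328))) (XT.nd (nat_lit 78) (nat_lit 0) (nat_lit 0) (XT.lf (nat_lit 0) (nat_lit 45118434594) (nat_lit 152) (nat_lit 155022338165) (nat_lit 0) (nat_lit 44103809780) (nat_lit 1) (nat_lit 5) (nat_lit 3) (nat_lit 4) (nat_lit 1) (nat_lit 4) (nat_lit 520) (nat_lit 353) (nat_lit 327)) (XT.lf (nat_lit 0) (nat_lit 50892685296) (nat_lit 152) (nat_lit 155525470041) (nat_lit 0) (nat_lit 49859155296) (nat_lit 1) (nat_lit 5) (nat_lit 3) (nat_lit 4) (nat_lit 1) (nat_lit 4) (nat_lit 521) (nat_lit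 353) (nat_lit 326))))) (XT.nd (nat_lit 234) (nat_lit 0) (nat_lit 0) (XT.nd (nat_lit 78) (nat_lit 0) (nat_lit 0) (XT.lf (nat_lit 0) (nat_lit 56895071255) (nat_lit 152) (nat_lit 156176097360) (nat_lit 0) (nat_lit 55843536316) (nat_lit 1) (nat_lit 5) (nat_lit 3) (nat_lit 4) (nat_lit 1) (nat_lit 4) (nat_lit 522) (nat_lit 353) (nat_lit 325)) (XT.nd (nat_lit 78) (nat_lit 0) (nat_lit 0) (XT.lf (nat_lit 0) (nat_lit 63139883866) (nat_lit 152) (nat_lit 156975769235) (nat_lit 0) (nat_lit 62071201367) (nat_lit 1) (nat_lit 5) (nat_lit 3) (nat_lit 4) (nat_lit 1) (nat_lit 4) (nat_lit 523) (nat_lit 353) (nat_lit 324)) (XT.lf (nat_lit 0) (nat_lit 69641991732) (nat_lit 152) (nat_lit 157926389648) (nat_lit 0) (nat_lit 68556978222) (nat_lit 1) (nat_lit 5) (nat_lit 3) (nat_lit 4) (nat_lit 1) (nat_lit 4) (nat_lit 524) (nat_lit 353) (nat_lit 323)))) (XT.nd (nat_lit 156) (nat_lit 0) (nat_lit 0) (XT.nd (nat_lit 78)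 (nat_lit 0) (nat_lit 0) (XT.lf (nat_lit 0) (nat_lit 76416876060) (nat_lit 152) (nat_lit 159030221980) (nat_lit 0) (nat_lit 75316309207) (nat_lit 1) (nat_lit 5) (nat_lit 3) (nat_lit 4) (nat_lit 1) (nat_lit 4) (nat_lit 525) (nat_lit 353) (nat_lit 322)) (XT.lf (nat_lit 0) (nat_lit 83480667529) (nat_lit 152) (nat_lit 160289894403) (nat_lit 0) (nat_lit 82365287968) (nat_lit 1) (nat_lit 5) (nat_lit 3) (nat_lit 4) (nat_lit 1) (nat_lit 4) (nat_lit 526) (nat_lit 353) (nat_lit 321))) (XT.nd (nat_lit 78) (nat_lit 0) (nat_lit 0) (XT.lf (nat_lit 0) (nat_lit 90850184688) (nat_lit 152) (nat_lit 161708406137) (nat_lit 0) (nat_lit 89720697786) (nat_lit 1) (nat_lit 5) (nat_lit 3) (nat_lit 4) (nat_lit 1) (nat_lit 4) (nat_lit 527) (nat_lit 353) (nat_lit 320)) (XT.lf (nat_lit 0) (nat_lit 98542974009) (nat_lit 152) (nat_lit 163289134592) (nat_lit 0) (nat_lit 97400051544) (nat_lit 1) (nat_lit 5) (nat_lit 3) (nat_lit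 4) (nat_lit 1) (nat_lit 4) (nat_lit 528) (nat_lit 353) (nat_lit 319)))))) (XT.nd (nat_lit 546) (nat_lit 0) (nat_lit 0) (XT.nd (nat_lit 234) (nat_lit 0) (nat_lit 0) (XT.nd (nat_lit 78) (nat_lit 0) (nat_lit 0) (XT.lf (nat_lit 0) (nat_lit 106577351654) (nat_lit 152) (nat_lit 165035843406) (nat_lit 0) (nat_lit 105421633416) (nat_lit 1) (nat_lit 5) (nat_lit 3) (nat_lit 4) (nat_lit 1) (nat_lit 4) (nat_lit 529) (nat_lit 353) (nat_lit 318)) (XT.nd (nat_lit 78) (nat_lit 0) (nat_lit 0) (XT.lf (nat_lit 0) (nat_lit 114972447097) (nat_lit 152) (nat_lit 166952691411) (nat_lit 0) (nat_lit 113804542407) (nat_lit 1) (nat_lit 5) (nat_lit 3) (nat_lit 4) (nat_lit 1) (nat_lit 4) (nat_lit 530) (nat_lit 353) (nat_lit 317)) (XT.lf (nat_lit 0) (nat_lit 123748248657) (nat_lit 152) (nat_lit 169044242529) (nat_lit 0) (nat_lit 122568737823) (nat_lit 1) (nat_lit 5) (nat_lit 3) (nat_lit 4) (nat_lit 1) (nat_lit 4) (nat_lit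 531) (nat_lit 353) (nat_lit 316)))) (XT.nd (nat_lit 156) (nat_lit 0) (nat_lit 0) (XT.nd (nat_lit 78) (nat_lit 0) (nat_lit 0) (XT.lf (nat_lit 0) (nat_lit 132925651103) (nat_lit 152) (nat_lit 171315476644) (nat_lit 0) (nat_lit 131735086798) (nat_lit 1) (nat_lit 5) (nat_lit 3) (nat_lit 4) (nat_lit 1) (nat_lit 4) (nat_lit 532) (nat_lit 353) (nat_lit 315)) (XT.lf (nat_lit 0) (nat_lit 142526505390) (nat_lit 152) (nat_lit 173771801457) (nat_lit 0) (nat_lit 141325413970) (nat_lit 1) (nat_lit 5) (nat_lit 3) (nat_lit 4) (nat_lit 1) (nat_lit 4) (nat_lit 533) (nat_lit 353) (nat_lit 314))) (XT.nd (nat_lit 78) (nat_lit 0) (nat_lit 0) (XT.lf (nat_lit 0) (nat_lit 152573670697) (nat_lit 152) (nat_lit 176419065360) (nat_lit 0) (nat_lit 151362553454) (nat_lit 1) (nat_lit 5) (nat_lit 3) (nat_lit 4) (nat_lit 1) (nat_lit 4) (nat_lit 534) (nat_lit 353) (nat_lit 313)) (XT.lf (nat_lit 0) (nat_lit 163091068846) (nat_lit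 152) (nat_lit 179263571363) (nat_lit 0) (nat_lit 161870403199) (nat_lit 1) (nat_lit 5) (nat_lit 3) (nat_lit 4) (nat_lit 1) (nat_lit 4) (nat_lit 535) (nat_lit 353) (nat_lit 312))))) (XT.nd (nat_lit 234) (nat_lit 0) (nat_lit 0) (XT.nd (nat_lit 78) (nat_lit 0) (nat_lit 0) (XT.lf (nat_lit 0) (nat_lit 174103741260) (nat_lit 152) (nat_lit 182312092098) (nat_lit 0) (nat_lit 172873981895) (nat_lit 1) (nat_lit 5) (nat_lit 3) (nat_lit 4) (nat_lit 1) (nat_lit 4) (nat_lit 536) (nat_lit 353) (nat_lit 311)) (XT.nd (nat_lit 78) (nat_lit 0) (nat_lit 0) (XT.lf (nat_lit 0) (nat_lit 185637908589) (nat_lit 152) (nat_lit 185571885949) (nat_lit 0) (nat_lit 184399488541) (nat_lit 1) (nat_lit 5) (nat_lit 3) (nat_lit 4) (nat_lit 1) (nat_lit 4) (nat_lit 537) (nat_lit 353) (nat_lit 310)) (XT.lf (nat_lit 0) (nat_lit 197721033135) (nat_lit 152) (nat_lit 189050714329) (nat_lit 0) (nat_lit 196474364817) (nat_lit 1) (nat_lit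 5) (nat_lit 3) (nat_lit 4) (nat_lit 1) (nat_lit 4) (nat_lit 538) (nat_lit 353) (nat_lit 309)))) (XT.nd (nat_lit 156) (nat_lit 0) (nat_lit 0) (XT.nd (nat_lit 78) (nat_lit 0) (nat_lit 0) (XT.lf (nat_lit 0) (nat_lit 210381884243) (nat_lit 152) (nat_lit 192756860163) (nat_lit 0) (nat_lit 209127360429) (nat_lit 1) (nat_lit 5) (nat_lit 3) (nat_lit 4) (nat_lit 1) (nat_lit 4) (nat_lit 539) (nat_lit 353) (nat_lit 308)) (XT.lf (nat_lit 0) (nat_lit 223650606796) (nat_lit 152) (nat_lit 196699147608) (nat_lit 0) (nat_lit 222388601558) (nat_lit 1) (nat_lit 5) (nat_lit 3) (nat_lit 4) (nat_lit 1) (nat_lit 4) (nat_lit 540) (nat_lit 353) (nat_lit 307))) (XT.nd (nat_lit 78) (nat_lit 0) (nat_lit 0) (XT.lf (nat_lit 0) (nat_lit 237558792991) (nat_lit 152) (nat_lit 200886963063) (nat_lit 0) (nat_lit 236289662587) (nat_lit 1) (nat_lit 5) (nat_lit 3) (nat_lit 4) (nat_lit 1) (nat_lit 4) (nat_lit 541) (nat_lit 353) (nat_lit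 306)) (XT.lf (nat_lit 0) (nat_lit 252139557556) (nat_lit 152) (nat_lit 205330277516) (nat_lit 0) (nat_lit 250863641281) (nat_lit 1) (nat_lit 5) (nat_lit 3) (nat_lit 4) (nat_lit 1) (nat_lit 4) (nat_lit 542) (nat_lit 353) (nat_lit 305))))))))
noncomputable def xc13 : XT := (XT.nd (nat_lit 60372) (nat_lit 0) (nat_lit 0) (XT.nd (nat_lit 59280) (nat_lit 0) (nat_lit 0) (XT.nd (nat_lit 58734) (nat_lit 0) (nat_lit 152) (XT.nd (nat_lit 234) (nat_lit 0) (nat_lit 0) (XT.nd (nat_lit 78) (nat_lit 0) (nat_lit 0) (XT.lf (nat_lit 0) (nat_lit 267427616599) (nat_lit 152) (nat_lit 210039670288) (nat_lit 0) (nat_lit 266145237588) (nat_lit 1) (nat_lit 5) (nat_lit 3) (nat_lit 4) (nat_lit 1) (nat_lit 4) (nat_lit 543) (nat_lit 353) (nat_lit 304)) (XT.nd (nat_lit 78) (nat_lit 0) (nat_lit 0) (XT.lf (nat_lit 0) (nat_lit 283459370259) (nat_lit 152) (nat_lit 215026354218) (nat_lit 0) (nat_lit 282170836262) (nat_lit 1)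 (nat_lit 5) (nat_lit 3) (nat_lit 4) (nat_lit 1) (nat_lit 4) (nat_lit 544) (nat_lit 353) (nat_lit 303)) (XT.lf (nat_lit 0) (nat_lit 300272989379) (nat_lit 152) (nat_lit 220302202365) (nat_lit 0) (nat_lit 298978593490) (nat_lit 1) (nat_lit 5) (nat_lit 3) (nat_lit 4) (nat_lit 1) (nat_lit 4) (nat_lit 545) (nat_lit 353) (nat_lit 302)))) (XT.nd (nat_lit 58344) (nat_lit 0) (nat_lit 228) (XT.nd (nat_lit 58266) (nat_lit 0) (nat_lit 380) (XT.lf (nat_lit 0) (nat_lit 317908506384) (nat_lit 152) (nat_lit 225879776270) (nat_lit 0) (nat_lit 316608527742) (nat_lit 1) (nat_lit 5) (nat_lit 3) (nat_lit 4) (nat_lit 1) (nat_lit 4) (nat_lit 546) (nat_lit 353) (nat_lit 301)) (XT.lf (nat_lit 0) (nat_lit 31976678493) (nat_lit 76) (nat_lit 545906256) (nat_lit 76) (nat_lit 545906256) (nat_lit 6) (nat_lit 4) (nat_lit 7) (nat_lit 5) (nat_lit 7) (nat_lit 4) (nat_lit 492) (nat_lit 354) (nat_lit 354))) (XT.nd (nat_lit 78)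 (nat_lit 0) (nat_lit 0) (XT.lf (nat_lit 0) (nat_lit 5281458292) (nat_lit 152) (nat_lit 58632354321) (nat_lit 0) (nat_lit 5207347522) (nat_lit 4) (nat_lit 5) (nat_lit 6) (nat_lit 4) (nat_lit 4) (nat_lit 4) (nat_lit 493) (nat_lit 354) (nat_lit 353)) (XT.lf (nat_lit 0) (nat_lit 11786730433) (nat_lit 152) (nat_lit 48832386007) (nat_lit 0) (nat_lit 11642037977) (nat_lit 4) (nat_lit 5) (nat_lit 6) (nat_lit 4) (nat_lit 4) (nat_lit 4) (nat_lit 494) (nat_lit 354) (nat_lit 352))))) (XT.nd (nat_lit 234) (nat_lit 76) (nat_lit 0) (XT.nd (nat_lit 78) (nat_lit 0) (nat_lit 0) (XT.lf (nat_lit 0) (nat_lit 18421594087) (nat_lit 152) (nat_lit 38936660451) (nat_lit 0) (nat_lit 18209680977) (nat_lit 4) (nat_lit 5) (nat_lit 6) (nat_lit 4) (nat_lit 4) (nat_lit 4) (nat_lit 495) (nat_lit 354) (nat_lit 351)) (XT.nd (nat_lit 78) (nat_lit 0) (nat_lit 0) (XT.lf (nat_lit 0) (nat_lit 25201846547) (nat_lit 152) (nat_lit 28921616404)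 (nat_lit 0) (nat_lit 24925913767) (nat_lit 4) (nat_lit 5) (nat_lit 6) (nat_lit 4) (nat_lit 4) (nat_lit 4) (nat_lit 496) (nat_lit 354) (nat_lit 350)) (XT.lf (nat_lit 0) (nat_lit 32143631272) (nat_lit 152) (nat_lit 18763408521) (nat_lit 0) (nat_lit 31806727378) (nat_lit 4) (nat_lit 5) (nat_lit 6) (nat_lit 4) (nat_lit 4) (nat_lit 4) (nat_lit 497) (nat_lit 354) (nat_lit 349)))) (XT.nd (nat_lit 156) (nat_lit 0) (nat_lit 0) (XT.nd (nat_lit 78) (nat_lit 76) (nat_lit 0) (XT.lf (nat_lit 0) (nat_lit 39263476321) (nat_lit 152) (nat_lit 8437850593) (nat_lit 0) (nat_lit 38868504700) (nat_lit 4) (nat_lit 5) (nat_lit 6) (nat_lit 4) (nat_lit 4) (nat_lit 4) (nat_lit 498) (nat_lit 354) (nat_lit 348)) (XT.lf (nat_lit 0) (nat_lit 2148404398) (nat_lit 76) (nat_lit 44463471920) (nat_lit 76) (nat_lit 44013197702) (nat_lit 3) (nat_lit 4) (nat_lit 4) (nat_lit 5) (nat_lit 4) (nat_lit 4) (nat_lit 499) (nat_lit 354) (nat_lit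 347))) (XT.nd (nat_lit 78) (nat_lit 0) (nat_lit 0) (XT.lf (nat_lit 0) (nat_lit 13237803411) (nat_lit 76) (nat_lit 41074495552) (nat_lit 76) (nat_lit 40571552193) (nat_lit 3) (nat_lit 4) (nat_lit 4) (nat_lit 5) (nat_lit 4) (nat_lit 4) (nat_lit 500) (nat_lit 354) (nat_lit 346)) (XT.lf (nat_lit 0) (nat_lit 24577756328) (nat_lit 76) (nat_lit 37669227900) (nat_lit 76) (nat_lit 37116123455) (nat_lit 3) (nat_lit 4) (nat_lit 4) (nat_lit 5) (nat_lit 4) (nat_lit 4) (nat_lit 501) (nat_lit 354) (nat_lit 345)))))) (XT.nd (nat_lit 546) (nat_lit 152) (nat_lit 0) (XT.nd (nat_lit 234) (nat_lit 0) (nat_lit 0) (XT.nd (nat_lit 78) (nat_lit 0) (nat_lit 0) (XT.lf (nat_lit 0) (nat_lit 36195263038) (nat_lit 76) (nat_lit 34239561185) (nat_lit 76) (nat_lit 33638684276) (nat_lit 3) (nat_lit 4) (nat_lit 4) (nat_lit 5) (nat_lit 4) (nat_lit 4) (nat_lit 502) (nat_lit 354) (nat_lit 344)) (XT.nd (nat_lit 78) (nat_lit 0) (nat_lit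 0) (XT.lf (nat_lit 0) (nat_lit 48117984271) (nat_lit 76) (nat_lit 30777329533) (nat_lit 76) (nat_lit 30130955040) (nat_lit 3) (nat_lit 4) (nat_lit 4) (nat_lit 5) (nat_lit 4) (nat_lit 4) (nat_lit 503) (nat_lit 354) (nat_lit 343)) (XT.lf (nat_lit 0) (nat_lit 60374307459) (nat_lit 76) (nat_lit 27274289536) (nat_lit 76) (nat_lit 26584584011) (nat_lit 3) (nat_lit 4) (nat_lit 4) (nat_lit 5) (nat_lit 4) (nat_lit 4) (nat_lit 504) (nat_lit 354) (nat_lit 342)))) (XT.nd (nat_lit 156) (nat_lit 0) (nat_lit 0) (XT.nd (nat_lit 78) (nat_lit 0) (nat_lit 0) (XT.lf (nat_lit 0) (nat_lit 72993414322) (nat_lit 76) (nat_lit 23722100623) (nat_lit 76) (nat_lit 22991127447) (nat_lit 3) (nat_lit 4) (nat_lit 4) (nat_lit 5) (nat_lit 4) (nat_lit 4) (nat_lit 505) (nat_lit 354) (nat_lit 341)) (XT.lf (nat_lit 0) (nat_lit 86005350354) (nat_lit 76) (nat_lit 20112305199) (nat_lit 76) (nat_lit 19342029500) (nat_lit 3) (nat_lit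 4) (nat_lit 4) (nat_lit 5) (nat_lit 4) (nat_lit 4) (nat_lit 506) (nat_lit 354) (nat_lit 340))) (XT.nd (nat_lit 78) (nat_lit 0) (nat_lit 0) (XT.lf (nat_lit 0) (nat_lit 99441096355) (nat_lit 76) (nat_lit 16436308516) (nat_lit 76) (nat_lit 15628601841) (nat_lit 3) (nat_lit 4) (nat_lit 4) (nat_lit 5) (nat_lit 4) (nat_lit 4) (nat_lit 507) (nat_lit 354) (nat_lit 339)) (XT.lf (nat_lit 0) (nat_lit 113332642197) (nat_lit 76) (nat_lit 12685358198) (nat_lit 76) (nat_lit 11842002976) (nat_lit 3) (nat_lit 4) (nat_lit 4) (nat_lit 5) (nat_lit 4) (nat_lit 4) (nat_lit 508) (nat_lit 354) (nat_lit 338))))) (XT.nd (nat_lit 234) (nat_lit 76) (nat_lit 0) (XT.nd (nat_lit 78) (nat_lit 76) (nat_lit 0) (XT.lf (nat_lit 0) (nat_lit 127713062987) (nat_lit 76) (nat_lit 8850523414) (nat_lit 76) (nat_lit 7973217194) (nat_lit 3) (nat_lit 4) (nat_lit 4) (nat_lit 5) (nat_lit 4) (nat_lit 4) (nat_lit 509) (nat_lit 354) (nat_lit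 337)) (XT.nd (nat_lit 78) (nat_lit 76) (nat_lit 0) (XT.lf (nat_lit 0) (nat_lit 142616597825) (nat_lit 76) (nat_lit 4922673602) (nat_lit 76) (nat_lit 4013033099) (nat_lit 3) (nat_lit 4) (nat_lit 4) (nat_lit 5) (nat_lit 4) (nat_lit 4) (nat_lit 510) (nat_lit 354) (nat_lit 336)) (XT.lf (nat_lit 0) (nat_lit 46442711) (nat_lit 152) (nat_lit 845227500) (nat_lit 76) (nat_lit 158031502074) (nat_lit 2) (nat_lit 5) (nat_lit 4) (nat_lit 5) (nat_lit 3) (nat_lit 4) (nat_lit 511) (nat_lit 354) (nat_lit 335)))) (XT.nd (nat_lit 156) (nat_lit 0) (nat_lit 0) (XT.nd (nat_lit 78) (nat_lit 0) (nat_lit 0) (XT.lf (nat_lit 0) (nat_lit 4257619556) (nat_lit 152) (nat_lit 159063460835) (nat_lit 0) (nat_lit 3334035549) (nat_lit 1) (nat_lit 5) (nat_lit 3) (nat_lit 4) (nat_lit 1) (nat_lit 4) (nat_lit 512) (nat_lit 354) (nat_lit 334)) (XT.lf (nat_lit 0) (nat_lit 8619021556) (nat_lit 152) (nat_lit 158488817235) (nat_lit 0)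 (nat_lit 7668836054) (nat_lit 1) (nat_lit 5) (nat_lit 3) (nat_lit 4) (nat_lit 1) (nat_lit 4) (nat_lit 513) (nat_lit 354) (nat_lit 333))) (XT.nd (nat_lit 78) (nat_lit 0) (nat_lit 0) (XT.lf (nat_lit 0) (nat_lit 13113255343) (nat_lit 152) (nat_lit 158057584503) (nat_lit 0) (nat_lit 12137735084) (nat_lit 1) (nat_lit 5) (nat_lit 3) (nat_lit 4) (nat_lit 1) (nat_lit 4) (nat_lit 514) (nat_lit 354) (nat_lit 332)) (XT.lf (nat_lit 0) (nat_lit 17751021474) (nat_lit 152) (nat_lit 157768735894) (nat_lit 0) (nat_lit 16751372874) (nat_lit 1) (nat_lit 5) (nat_lit 3) (nat_lit 4) (nat_lit 1) (nat_lit 4) (nat_lit 515) (nat_lit 354) (nat_lit 331))))))) (XT.nd (nat_lit 1092) (nat_lit 0) (nat_lit 0) (XT.nd (nat_lit 546) (nat_lit 0) (nat_lit 0) (XT.nd (nat_lit 234) (nat_lit 0) (nat_lit 0) (XT.nd (nat_lit 78) (nat_lit 0) (nat_lit 0) (XT.lf (nat_lit 0) (nat_lit 22543362248) (nat_lit 152) (nat_lit 157621583673) (nat_lit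 0) (nat_lit 21520734277) (nat_lit 1) (nat_lit 5) (nat_lit 3) (nat_lit 4) (nat_lit 1) (nat_lit 4) (nat_lit 516) (nat_lit 354) (nat_lit 330)) (XT.nd (nat_lit 78) (nat_lit 0) (nat_lit 0) (XT.lf (nat_lit 0) (nat_lit 27501688002) (nat_lit 152) (nat_lit 157615777479) (nat_lit 0) (nat_lit 26457174915) (nat_lit 1) (nat_lit 5) (nat_lit 3) (nat_lit 4) (nat_lit 1) (nat_lit 4) (nat_lit 517) (nat_lit 354) (nat_lit 329)) (XT.lf (nat_lit 0) (nat_lit 32637804271) (nat_lit 152) (nat_lit 157751303485) (nat_lit 0) (nat_lit 31572448217) (nat_lit 1) (nat_lit 5) (nat_lit 3) (nat_lit 4) (nat_lit 1) (nat_lit 4) (nat_lit 518) (nat_lit 354) (nat_lit 328)))) (XT.nd (nat_lit 156) (nat_lit 0) (nat_lit 0) (XT.nd (nat_lit 78) (nat_lit 0) (nat_lit 0) (XT.lf (nat_lit 0) (nat_lit 37963939906) (nat_lit 152) (nat_lit 158028484375) (nat_lit 0) (nat_lit 36878733406) (nat_lit 1) (nat_lit 5) (nat_lit 3) (nat_lit 4) (nat_lit 1) (nat_lit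 4) (nat_lit 519) (nat_lit 354) (nat_lit 327)) (XT.lf (nat_lit 0) (nat_lit 43492776180) (nat_lit 152) (nat_lit 158447980101) (nat_lit 0) (nat_lit 42388664494) (nat_lit 1) (nat_lit 5) (nat_lit 3) (nat_lit 4) (nat_lit 1) (nat_lit 4) (nat_lit 520) (nat_lit 354) (nat_lit 326))) (XT.nd (nat_lit 78) (nat_lit 0) (nat_lit 0) (XT.lf (nat_lit 0) (nat_lit 49237476990) (nat_lit 152) (nat_lit 159010789464) (nat_lit 0) (nat_lit 48115360366) (nat_lit 1) (nat_lit 5) (nat_lit 3) (nat_lit 4) (nat_lit 1) (nat_lit 4) (nat_lit 521) (nat_lit 354) (nat_lit 325)) (XT.lf (nat_lit 0) (nat_lit 55211720195) (nat_lit 152) (nat_lit 159718252486) (nat_lit 0) (nat_lit 54072456010) (nat_lit 1) (nat_lit 5) (nat_lit 3) (nat_lit 4) (nat_lit 1) (nat_lit 4) (nat_lit 522) (nat_lit 354) (nat_lit 324))))) (XT.nd (nat_lit 234) (nat_lit 0) (nat_lit 0) (XT.nd (nat_lit 78) (nat_lit 0) (nat_lit 0) (XT.lf (nat_lit 0) (nat_lit 61429730184)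 (nat_lit 152) (nat_lit 160572053602) (nat_lit 0) (nat_lit 60274134988) (nat_lit 1) (nat_lit 5) (nat_lit 3) (nat_lit 4) (nat_lit 1) (nat_lit 4) (nat_lit 523) (nat_lit 354) (nat_lit 323)) (XT.nd (nat_lit 78) (nat_lit 0) (nat_lit 0) (XT.lf (nat_lit 0) (nat_lit 67906311742) (nat_lit 152) (nat_lit 161574225673) (nat_lit 0) (nat_lit 66735163203) (nat_lit 1) (nat_lit 5) (nat_lit 3) (nat_lit 4) (nat_lit 1) (nat_lit 4) (nat_lit 524) (nat_lit 354) (nat_lit 322)) (XT.lf (nat_lit 0) (nat_lit 74656885302) (nat_lit 152) (nat_lit 162727154822) (nat_lit 0) (nat_lit 73470924055) (nat_lit 1) (nat_lit 5) (nat_lit 3) (nat_lit 4) (nat_lit 1) (nat_lit 4) (nat_lit 525) (nat_lit 354) (nat_lit 321)))) (XT.nd (nat_lit 156) (nat_lit 0) (nat_lit 0) (XT.nd (nat_lit 78) (nat_lit 0) (nat_lit 0) (XT.lf (nat_lit 0) (nat_lit 81697523657) (nat_lit 152) (nat_lit 164033586118) (nat_lit 0) (nat_lit 80497455069) (nat_lit 1) (nat_lit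 5) (nat_lit 3) (nat_lit 4) (nat_lit 1) (nat_lit 4) (nat_lit 526) (nat_lit 354) (nat_lit 320)) (XT.lf (nat_lit 0) (nat_lit 89044990232) (nat_lit 152) (nat_lit 165496630113) (nat_lit 0) (nat_lit 87831486082) (nat_lit 1) (nat_lit 5) (nat_lit 3) (nat_lit 4) (nat_lit 1) (nat_lit 4) (nat_lit 527) (nat_lit 354) (nat_lit 319))) (XT.nd (nat_lit 78) (nat_lit 0) (nat_lit 0) (XT.lf (nat_lit 0) (nat_lit 96716778996) (nat_lit 152) (nat_lit 167119770244) (nat_lit 0) (nat_lit 95490479072) (nat_lit 1) (nat_lit 5) (nat_lit 3) (nat_lit 4) (nat_lit 1) (nat_lit 4) (nat_lit 528) (nat_lit 354) (nat_lit 318)) (XT.lf (nat_lit 0) (nat_lit 104731156113) (nat_lit 152) (nat_lit 168906871131) (nat_lit 0) (nat_lit 103492669737) (nat_lit 1) (nat_lit 5) (nat_lit 3) (nat_lit 4) (nat_lit 1) (nat_lit 4) (nat_lit 529) (nat_lit 354) (nat_lit 317)))))) (XT.nd (nat_lit 546) (nat_lit 0) (nat_lit 0) (XT.nd (nat_lit 234) (nat_lit 0)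 (nat_lit 0) (XT.nd (nat_lit 78) (nat_lit 0) (nat_lit 0) (XT.lf (nat_lit 0) (nat_lit 113107203431) (nat_lit 152) (nat_lit 170862187776) (nat_lit 0) (nat_lit 111857110911) (nat_lit 1) (nat_lit 5) (nat_lit 3) (nat_lit 4) (nat_lit 1) (nat_lit 4) (nat_lit 530) (nat_lit 354) (nat_lit 316)) (XT.nd (nat_lit 78) (nat_lit 0) (nat_lit 0) (XT.lf (nat_lit 0) (nat_lit 121864863922) (nat_lit 152) (nat_lit 172990375695) (nat_lit 0) (nat_lit 120603717931) (nat_lit 1) (nat_lit 5) (nat_lit 3) (nat_lit 4) (nat_lit 1) (nat_lit 4) (nat_lit 531) (nat_lit 354) (nat_lit 315)) (XT.lf (nat_lit 0) (nat_lit 131024989157) (nat_lit 152) (nat_lit 175296502002) (nat_lit 0) (nat_lit 129753316052) (nat_lit 1) (nat_lit 5) (nat_lit 3) (nat_lit 4) (nat_lit 1) (nat_lit 4) (nat_lit 532) (nat_lit 354) (nat_lit 314)))) (XT.nd (nat_lit 156) (nat_lit 0) (nat_lit 0) (XT.nd (nat_lit 78) (nat_lit 0) (nat_lit 0) (XT.lf (nat_lit 0) (nat_lit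 140609388960) (nat_lit 152) (nat_lit 177786057473) (nat_lit 0) (nat_lit 139327690030) (nat_lit 1) (nat_lit 5) (nat_lit 3) (nat_lit 4) (nat_lit 1) (nat_lit 4) (nat_lit 533) (nat_lit 354) (nat_lit 313)) (XT.lf (nat_lit 0) (nat_lit 150640883328) (nat_lit 152) (nat_lit 180464969622) (nat_lit 0) (nat_lit 149349635995) (nat_lit 1) (nat_lit 5) (nat_lit 3) (nat_lit 4) (nat_lit 1) (nat_lit 4) (nat_lit 534) (nat_lit 354) (nat_lit 312))) (XT.nd (nat_lit 78) (nat_lit 0) (nat_lit 0) (XT.lf (nat_lit 0) (nat_lit 161143356773) (nat_lit 152) (nat_lit 183339616811) (nat_lit 0) (nat_lit 159843015723) (nat_lit 1) (nat_lit 5) (nat_lit 3) (nat_lit 4) (nat_lit 1) (nat_lit 4) (nat_lit 535) (nat_lit 354) (nat_lit 311)) (XT.lf (nat_lit 0) (nat_lit 172141815185) (nat_lit 152) (nat_lit 186416843439) (nat_lit 0) (nat_lit 170832813451) (nat_lit 1) (nat_lit 5) (nat_lit 3) (nat_lit 4) (nat_lit 1) (nat_lit 4) (nat_lit 536)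 (nat_lit 354) (nat_lit 310))))) (XT.nd (nat_lit 312) (nat_lit 0) (nat_lit 0) (XT.nd (nat_lit 156) (nat_lit 0) (nat_lit 0) (XT.nd (nat_lit 78) (nat_lit 0) (nat_lit 0) (XT.lf (nat_lit 0) (nat_lit 183662445368) (nat_lit 152) (nat_lit 189703976234) (nat_lit 0) (nat_lit 182345195363) (nat_lit 1) (nat_lit 5) (nat_lit 3) (nat_lit 4) (nat_lit 1) (nat_lit 4) (nat_lit 537) (nat_lit 354) (nat_lit 309)) (XT.lf (nat_lit 0) (nat_lit 195732677394) (nat_lit 152) (nat_lit 193208841704) (nat_lit 0) (nat_lit 194407571894) (nat_lit 1) (nat_lit 5) (nat_lit 3) (nat_lit 4) (nat_lit 1) (nat_lit 4) (nat_lit 538) (nat_lit 354) (nat_lit 308))) (XT.nd (nat_lit 78) (nat_lit 0) (nat_lit 0) (XT.lf (nat_lit 0) (nat_lit 208381249911) (nat_lit 152) (nat_lit 196939784767) (nat_lit 0) (nat_lit 207048662988) (nat_lit 1) (nat_lit 5) (nat_lit 3) (nat_lit 4) (nat_lit 1) (nat_lit 4) (nat_lit 539) (nat_lit 354) (nat_lit 307)) (XT.lf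 (nat_lit 0) (nat_lit 221638278569) (nat_lit 152) (nat_lit 200905688621) (nat_lit 0) (nat_lit 220298566480) (nat_lit 1) (nat_lit 5) (nat_lit 3) (nat_lit 4) (nat_lit 1) (nat_lit 4) (nat_lit 540) (nat_lit 354) (nat_lit 306)))) (XT.nd (nat_lit 156) (nat_lit 0) (nat_lit 0) (XT.nd (nat_lit 78) (nat_lit 0) (nat_lit 0) (XT.lf (nat_lit 0) (nat_lit 235535327720) (nat_lit 152) (nat_lit 205115995893) (nat_lit 0) (nat_lit 234188829759) (nat_lit 1) (nat_lit 5) (nat_lit 3) (nat_lit 4) (nat_lit 1) (nat_lit 4) (nat_lit 541) (nat_lit 354) (nat_lit 305)) (XT.lf (nat_lit 0) (nat_lit 250105485578) (nat_lit 152) (nat_lit 209580731125) (nat_lit 0) (nat_lit 248752524881) (nat_lit 1) (nat_lit 5) (nat_lit 3) (nat_lit 4) (nat_lit 1) (nat_lit 4) (nat_lit 542) (nat_lit 354) (nat_lit 304))) (XT.nd (nat_lit 78) (nat_lit 0) (nat_lit 0) (XT.lf (nat_lit 0) (nat_lit 265383442994) (nat_lit 152) (nat_lit 214310524638) (nat_lit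 0) (nat_lit 264024327311) (nat_lit 1) (nat_lit 5) (nat_lit 3) (nat_lit 4) (nat_lit 1) (nat_lit 4) (nat_lit 543) (nat_lit 354) (nat_lit 303)) (XT.lf (nat_lit 0) (nat_lit 281405576057) (nat_lit 152) (nat_lit 219316637846) (nat_lit 0) (nat_lit 280040598483) (nat_lit 1) (nat_lit 5) (nat_lit 3) (nat_lit 4) (nat_lit 1) (nat_lit 4) (nat_lit 544) (nat_lit 354) (nat_lit 302))))))))
noncomputable def xc14 : XT := (XT.nd (nat_lit 60216) (nat_lit 0) (nat_lit 0) (XT.nd (nat_lit 59124) (nat_lit 0) (nat_lit 0) (XT.nd (nat_lit 58578) (nat_lit 0) (nat_lit 152) (XT.nd (nat_lit 58266) (nat_lit 0) (nat_lit 228) (XT.nd (nat_lit 78) (nat_lit 0) (nat_lit 0) (XT.lf (nat_lit 0) (nat_lit 298210032704) (nat_lit 152) (nat_lit 224610990067) (nat_lit 0) (nat_lit 296839472376) (nat_lit 1) (nat_lit 5) (nat_lit 3) (nat_lit 4) (nat_lit 1) (nat_lit 4) (nat_lit 545) (nat_lit 354) (nat_lit 301)) (XT.nd (nat_lit 58110) (nat_lit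 0) (nat_lit 380) (XT.lf (nat_lit 0) (nat_lit 315836823544) (nat_lit 152) (nat_lit 230206186900) (nat_lit 0) (nat_lit 314460946308) (nat_lit 1) (nat_lit 5) (nat_lit 3) (nat_lit 4) (nat_lit 1) (nat_lit 4) (nat_lit 546) (nat_lit 354) (nat_lit 300)) (XT.lf (nat_lit 0) (nat_lit 17085033547) (nat_lit 76) (nat_lit 6602789039) (nat_lit 76) (nat_lit 6602789039) (nat_lit 6) (nat_lit 4) (nat_lit 7) (nat_lit 5) (nat_lit 7) (nat_lit 4) (nat_lit 490) (nat_lit 355) (nat_lit 355)))) (XT.nd (nat_lit 156) (nat_lit 152) (nat_lit 0) (XT.nd (nat_lit 78) (nat_lit 0) (nat_lit 0) (XT.lf (nat_lit 0) (nat_lit 48800165984) (nat_lit 76) (nat_lit 7285180697) (nat_lit 76) (nat_lit 7203473573) (nat_lit 6) (nat_lit 4) (nat_lit 7) (nat_lit 5) (nat_lit 7) (nat_lit 4) (nat_lit 491) (nat_lit 355) (nat_lit 354)) (XT.lf (nat_lit 0) (nat_lit 63754868576) (nat_lit 76) (nat_lit 1273287437) (nat_lit 76) (nat_lit 1113764004) (nat_lit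 6) (nat_lit 4) (nat_lit 7) (nat_lit 5) (nat_lit 7) (nat_lit 4) (nat_lit 492) (nat_lit 355) (nat_lit 353))) (XT.nd (nat_lit 78) (nat_lit 0) (nat_lit 0) (XT.lf (nat_lit 0) (nat_lit 5153818902) (nat_lit 152) (nat_lit 59046307554) (nat_lit 0) (nat_lit 4931310137) (nat_lit 4) (nat_lit 5) (nat_lit 6) (nat_lit 4) (nat_lit 4) (nat_lit 4) (nat_lit 493) (nat_lit 355) (nat_lit 352)) (XT.lf (nat_lit 0) (nat_lit 11563641240) (nat_lit 152) (nat_lit 49438652008) (nat_lit 0) (nat_lit 11273911822) (nat_lit 4) (nat_lit 5) (nat_lit 6) (nat_lit 4) (nat_lit 4) (nat_lit 4) (nat_lit 494) (nat_lit 355) (nat_lit 351))))) (XT.nd (nat_lit 234) (nat_lit 76) (nat_lit 0) (XT.nd (nat_lit 78) (nat_lit 0) (nat_lit 0) (XT.lf (nat_lit 0) (nat_lit 18107600320) (nat_lit 152) (nat_lit 39726081470) (nat_lit 0) (nat_lit 17753851232) (nat_lit 4) (nat_lit 5) (nat_lit 6) (nat_lit 4) (nat_lit 4) (nat_lit 4) (nat_lit 495) (nat_lit 355)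 (nat_lit 350)) (XT.nd (nat_lit 78) (nat_lit 0) (nat_lit 0) (XT.lf (nat_lit 0) (nat_lit 24801276996) (nat_lit 152) (nat_lit 29885470772) (nat_lit 0) (nat_lit 24386556794) (nat_lit 4) (nat_lit 5) (nat_lit 6) (nat_lit 4) (nat_lit 4) (nat_lit 4) (nat_lit 496) (nat_lit 355) (nat_lit 349)) (XT.lf (nat_lit 0) (nat_lit 31660608593) (nat_lit 152) (nat_lit 19893389889) (nat_lit 0) (nat_lit 31187820663) (nat_lit 4) (nat_lit 5) (nat_lit 6) (nat_lit 4) (nat_lit 4) (nat_lit 4) (nat_lit 497) (nat_lit 355) (nat_lit 348)))) (XT.nd (nat_lit 156) (nat_lit 0) (nat_lit 0) (XT.nd (nat_lit 78) (nat_lit 76) (nat_lit 0) (XT.lf (nat_lit 0) (nat_lit 38701926853) (nat_lit 152) (nat_lit 9726048151) (nat_lit 0) (nat_lit 38173836326) (nat_lit 4) (nat_lit 5) (nat_lit 6) (nat_lit 4) (nat_lit 4) (nat_lit 4) (nat_lit 498) (nat_lit 355) (nat_lit 347)) (XT.lf (nat_lit 0) (nat_lit 661948895) (nat_lit 76) (nat_lit 45290382802) (nat_lit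 76) (nat_lit 44709623134) (nat_lit 3) (nat_lit 4) (nat_lit 4) (nat_lit 5) (nat_lit 4) (nat_lit 4) (nat_lit 499) (nat_lit 355) (nat_lit 346))) (XT.nd (nat_lit 78) (nat_lit 0) (nat_lit 0) (XT.lf (nat_lit 0) (nat_lit 11603096178) (nat_lit 76) (nat_lit 41976117427) (nat_lit 76) (nat_lit 41345196672) (nat_lit 3) (nat_lit 4) (nat_lit 4) (nat_lit 5) (nat_lit 4) (nat_lit 4) (nat_lit 500) (nat_lit 355) (nat_lit 345)) (XT.lf (nat_lit 0) (nat_lit 22801856972) (nat_lit 76) (nat_lit 38642003102) (nat_lit 76) (nat_lit 37963309884) (nat_lit 3) (nat_lit 4) (nat_lit 4) (nat_lit 5) (nat_lit 4) (nat_lit 4) (nat_lit 501) (nat_lit 355) (nat_lit 344)))))) (XT.nd (nat_lit 546) (nat_lit 152) (nat_lit 0) (XT.nd (nat_lit 234) (nat_lit 0) (nat_lit 0) (XT.nd (nat_lit 78) (nat_lit 0) (nat_lit 0) (XT.lf (nat_lit 0) (nat_lit 34284894992) (nat_lit 76) (nat_lit 35280101459) (nat_lit 76) (nat_lit 34555910658) (nat_lit 3) (nat_lit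 4) (nat_lit 4) (nat_lit 5) (nat_lit 4) (nat_lit 4) (nat_lit 502) (nat_lit 355) (nat_lit 343)) (XT.nd (nat_lit 78) (nat_lit 0) (nat_lit 0) (XT.lf (nat_lit 0) (nat_lit 46079550807) (nat_lit 76) (nat_lit 31882407972) (nat_lit 76) (nat_lit 31114886138) (nat_lit 3) (nat_lit 4) (nat_lit 4) (nat_lit 5) (nat_lit 4) (nat_lit 4) (nat_lit 503) (nat_lit 355) (nat_lit 342)) (XT.lf (nat_lit 0) (nat_lit 58213906929) (nat_lit 76) (nat_lit 28440832894) (nat_lit 76) (nat_lit 27632043409) (nat_lit 3) (nat_lit 4) (nat_lit 4) (nat_lit 5) (nat_lit 4) (nat_lit 4) (nat_lit 504) (nat_lit 355) (nat_lit 341)))) (XT.nd (nat_lit 156) (nat_lit 0) (nat_lit 0) (XT.nd (nat_lit 78) (nat_lit 0) (nat_lit 0) (XT.lf (nat_lit 0) (nat_lit 70716854683) (nat_lit 76) (nat_lit 24947181997) (nat_lit 76) (nat_lit 24099089989) (nat_lit 3) (nat_lit 4) (nat_lit 4) (nat_lit 5) (nat_lit 4) (nat_lit 4) (nat_lit 505) (nat_lit 355) (nat_lit 340))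 (XT.lf (nat_lit 0) (nat_lit 83618162992) (nat_lit 76) (nat_lit 21393137067) (nat_lit 76) (nat_lit 20507614084) (nat_lit 3) (nat_lit 4) (nat_lit 4) (nat_lit 5) (nat_lit 4) (nat_lit 4) (nat_lit 506) (nat_lit 355) (nat_lit 339))) (XT.nd (nat_lit 78) (nat_lit 0) (nat_lit 0) (XT.lf (nat_lit 0) (nat_lit 96948549257) (nat_lit 76) (nat_lit 17770236091) (nat_lit 76) (nat_lit 16849064561) (nat_lit 3) (nat_lit 4) (nat_lit 4) (nat_lit 5) (nat_lit 4) (nat_lit 4) (nat_lit 507) (nat_lit 355) (nat_lit 338)) (XT.lf (nat_lit 0) (nat_lit 110739752492) (nat_lit 76) (nat_lit 14069853115) (nat_lit 76) (nat_lit 13114730586) (nat_lit 3) (nat_lit 4) (nat_lit 4) (nat_lit 5) (nat_lit 4) (nat_lit 4) (nat_lit 508) (nat_lit 355) (nat_lit 337))))) (XT.nd (nat_lit 234) (nat_lit 152) (nat_lit 0) (XT.nd (nat_lit 78) (nat_lit 0) (nat_lit 0) (XT.lf (nat_lit 0) (nat_lit 125024608896) (nat_lit 76) (nat_lit 10283177702) (nat_lit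 76) (nat_lit 9295720890) (nat_lit 3) (nat_lit 4) (nat_lit 4) (nat_lit 5) (nat_lit 4) (nat_lit 4) (nat_lit 509) (nat_lit 355) (nat_lit 336)) (XT.nd (nat_lit 78) (nat_lit 0) (nat_lit 0) (XT.lf (nat_lit 0) (nat_lit 139837130031) (nat_lit 76) (nat_lit 6401193959) (nat_lit 76) (nat_lit 5382942591) (nat_lit 3) (nat_lit 4) (nat_lit 4) (nat_lit 5) (nat_lit 4) (nat_lit 4) (nat_lit 510) (nat_lit 355) (nat_lit 335)) (XT.lf (nat_lit 0) (nat_lit 155212583806) (nat_lit 76) (nat_lit 2414659068) (nat_lit 76) (nat_lit 1367079552) (nat_lit 3) (nat_lit 4) (nat_lit 4) (nat_lit 5) (nat_lit 4) (nat_lit 4) (nat_lit 511) (nat_lit 355) (nat_lit 334)))) (XT.nd (nat_lit 156) (nat_lit 0) (nat_lit 0) (XT.nd (nat_lit 78) (nat_lit 0) (nat_lit 0) (XT.lf (nat_lit 0) (nat_lit 2772276076) (nat_lit 152) (nat_lit 162212856889) (nat_lit 0) (nat_lit 1747979804) (nat_lit 1) (nat_lit 5) (nat_lit 3) (nat_lit 4) (nat_lit 1) (nat_lit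 4) (nat_lit 512) (nat_lit 355) (nat_lit 333)) (XT.lf (nat_lit 0) (nat_lit 7092098411) (nat_lit 152) (nat_lit 161722185507) (nat_lit 0) (nat_lit 6042467382) (nat_lit 1) (nat_lit 5) (nat_lit 3) (nat_lit 4) (nat_lit 1) (nat_lit 4) (nat_lit 513) (nat_lit 355) (nat_lit 332))) (XT.nd (nat_lit 78) (nat_lit 0) (nat_lit 0) (XT.lf (nat_lit 0) (nat_lit 11546732518) (nat_lit 152) (nat_lit 161370926316) (nat_lit 0) (nat_lit 10472973148) (nat_lit 1) (nat_lit 5) (nat_lit 3) (nat_lit 4) (nat_lit 1) (nat_lit 4) (nat_lit 514) (nat_lit 355) (nat_lit 331)) (XT.lf (nat_lit 0) (nat_lit 16146784666) (nat_lit 152) (nat_lit 161158242985) (nat_lit 0) (nat_lit 15050045925) (nat_lit 1) (nat_lit 5) (nat_lit 3) (nat_lit 4) (nat_lit 1) (nat_lit 4) (nat_lit 515) (nat_lit 355) (nat_lit 330))))))) (XT.nd (nat_lit 1092) (nat_lit 0) (nat_lit 0) (XT.nd (nat_lit 546) (nat_lit 0) (nat_lit 0) (XT.nd (nat_lit 234) (nat_lit 0) (nat_lit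 0) (XT.nd (nat_lit 78) (nat_lit 0) (nat_lit 0) (XT.lf (nat_lit 0) (nat_lit 20903207363) (nat_lit 152) (nat_lit 161083629124) (nat_lit 0) (nat_lit 19784583505) (nat_lit 1) (nat_lit 5) (nat_lit 3) (nat_lit 4) (nat_lit 1) (nat_lit 4) (nat_lit 516) (nat_lit 355) (nat_lit 329)) (XT.nd (nat_lit 78) (nat_lit 0) (nat_lit 0) (XT.lf (nat_lit 0) (nat_lit 25827325423) (nat_lit 152) (nat_lit 161146907081) (nat_lit 0) (nat_lit 24687858598) (nat_lit 1) (nat_lit 5) (nat_lit 3) (nat_lit 4) (nat_lit 1) (nat_lit 4) (nat_lit 517) (nat_lit 355) (nat_lit 328)) (XT.lf (nat_lit 0) (nat_lit 30930862937) (nat_lit 152) (nat_lit 161348227518) (nat_lit 0) (nat_lit 29771545667) (nat_lit 1) (nat_lit 5) (nat_lit 3) (nat_lit 4) (nat_lit 1) (nat_lit 4) (nat_lit 518) (nat_lit 355) (nat_lit 327)))) (XT.nd (nat_lit 156) (nat_lit 0) (nat_lit 0) (XT.nd (nat_lit 78) (nat_lit 0) (nat_lit 0) (XT.lf (nat_lit 0) (nat_lit 36225971185)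 (nat_lit 152) (nat_lit 161688069770) (nat_lit 0) (nat_lit 35047748729) (nat_lit 1) (nat_lit 5) (nat_lit 3) (nat_lit 4) (nat_lit 1) (nat_lit 4) (nat_lit 519) (nat_lit 355) (nat_lit 326)) (XT.lf (nat_lit 0) (nat_lit 41725257568) (nat_lit 152) (nat_lit 162167242984) (nat_lit 0) (nat_lit 40529030173) (nat_lit 1) (nat_lit 5) (nat_lit 3) (nat_lit 4) (nat_lit 1) (nat_lit 4) (nat_lit 520) (nat_lit 355) (nat_lit 325))) (XT.nd (nat_lit 78) (nat_lit 0) (nat_lit 0) (XT.lf (nat_lit 0) (nat_lit 47441815624) (nat_lit 152) (nat_lit 162786888050) (nat_lit 0) (nat_lit 46228440668) (nat_lit 1) (nat_lit 5) (nat_lit 3) (nat_lit 4) (nat_lit 1) (nat_lit 4) (nat_lit 521) (nat_lit 355) (nat_lit 324)) (XT.lf (nat_lit 0) (nat_lit 53389256206) (nat_lit 152) (nat_lit 163548480313) (nat_lit 0) (nat_lit 52159550240) (nat_lit 1) (nat_lit 5) (nat_lit 3) (nat_lit 4) (nat_lit 1) (nat_lit 4) (nat_lit 522) (nat_lit 355) (nat_lit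 323))))) (XT.nd (nat_lit 234) (nat_lit 0) (nat_lit 0) (XT.nd (nat_lit 78) (nat_lit 0) (nat_lit 0) (XT.lf (nat_lit 0) (nat_lit 59581739888) (nat_lit 152) (nat_lit 164453833087) (nat_lit 0) (nat_lit 58336480578) (nat_lit 1) (nat_lit 5) (nat_lit 3) (nat_lit 4) (nat_lit 1) (nat_lit 4) (nat_lit 523) (nat_lit 355) (nat_lit 322)) (XT.nd (nat_lit 78) (nat_lit 0) (nat_lit 0) (XT.lf (nat_lit 0) (nat_lit 66034010677) (nat_lit 152) (nat_lit 165505101974) (nat_lit 0) (nat_lit 64773938660) (nat_lit 1) (nat_lit 5) (nat_lit 3) (nat_lit 4) (nat_lit 1) (nat_lit 4) (nat_lit 524) (nat_lit 355) (nat_lit 321)) (XT.lf (nat_lit 0) (nat_lit 72761431123) (nat_lit 152) (nat_lit 166704789996) (nat_lit 0) (nat_lit 71487251765) (nat_lit 1) (nat_lit 5) (nat_lit 3) (nat_lit 4) (nat_lit 1) (nat_lit 4) (nat_lit 525) (nat_lit 355) (nat_lit 320)))) (XT.nd (nat_lit 156) (nat_lit 0) (nat_lit 0) (XT.nd (nat_lit 78) (nat_lit 0) (nat_lit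 0) (XT.lf (nat_lit 0) (nat_lit 79780018894) (nat_lit 152) (nat_lit 168055753553) (nat_lit 0) (nat_lit 78492403973) (nat_lit 1) (nat_lit 5) (nat_lit 3) (nat_lit 4) (nat_lit 1) (nat_lit 4) (nat_lit 526) (nat_lit 355) (nat_lit 319)) (XT.lf (nat_lit 0) (nat_lit 87106484913) (nat_lit 152) (nat_lit 169561209224) (nat_lit 0) (nat_lit 85806074219) (nat_lit 1) (nat_lit 5) (nat_lit 3) (nat_lit 4) (nat_lit 1) (nat_lit 4) (nat_lit 527) (nat_lit 355) (nat_lit 318))) (XT.nd (nat_lit 78) (nat_lit 0) (nat_lit 0) (XT.lf (nat_lit 0) (nat_lit 94758273148) (nat_lit 152) (nat_lit 171224741428) (nat_lit 0) (nat_lit 93445676001) (nat_lit 1) (nat_lit 5) (nat_lit 3) (nat_lit 4) (nat_lit 1) (nat_lit 4) (nat_lit 528) (nat_lit 355) (nat_lit 317)) (XT.lf (nat_lit 0) (nat_lit 102753602140) (nat_lit 152) (nat_lit 173050310956) (nat_lit 0) (nat_lit 101429398850) (nat_lit 1) (nat_lit 5) (nat_lit 3) (nat_lit 4) (nat_lit 1)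 (nat_lit 4) (nat_lit 529) (nat_lit 355) (nat_lit 316)))))) (XT.nd (nat_lit 546) (nat_lit 0) (nat_lit 0) (XT.nd (nat_lit 234) (nat_lit 0) (nat_lit 0) (XT.nd (nat_lit 78) (nat_lit 0) (nat_lit 0) (XT.lf (nat_lit 0) (nat_lit 111111508388) (nat_lit 152) (nat_lit 175042264402) (nat_lit 0) (nat_lit 109776251627) (nat_lit 1) (nat_lit 5) (nat_lit 3) (nat_lit 4) (nat_lit 1) (nat_lit 4) (nat_lit 530) (nat_lit 355) (nat_lit 315)) (XT.nd (nat_lit 78) (nat_lit 0) (nat_lit 0) (XT.lf (nat_lit 0) (nat_lit 119851891670) (nat_lit 152) (nat_lit 177205344512) (nat_lit 0) (nat_lit 118506107794) (nat_lit 1) (nat_lit 5) (nat_lit 3) (nat_lit 4) (nat_lit 1) (nat_lit 4) (nat_lit 531) (nat_lit 355) (nat_lit 314)) (XT.lf (nat_lit 0) (nat_lit 128995562420) (nat_lit 152) (nat_lit 179544701476) (nat_lit 0) (nat_lit 127639752720) (nat_lit 1) (nat_lit 5) (nat_lit 3) (nat_lit 4) (nat_lit 1) (nat_lit 4) (nat_lit 532) (nat_lit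 355) (nat_lit 313)))) (XT.nd (nat_lit 156) (nat_lit 0) (nat_lit 0) (XT.nd (nat_lit 78) (nat_lit 0) (nat_lit 0) (XT.lf (nat_lit 0) (nat_lit 138564291284) (nat_lit 152) (nat_lit 182065905194) (nat_lit 0) (nat_lit 137198933180) (nat_lit 1) (nat_lit 5) (nat_lit 3) (nat_lit 4) (nat_lit 1) (nat_lit 4) (nat_lit 533) (nat_lit 355) (nat_lit 312)) (XT.lf (nat_lit 0) (nat_lit 148580860949) (nat_lit 152) (nat_lit 184774958530) (nat_lit 0) (nat_lit 147206409128) (nat_lit 1) (nat_lit 5) (nat_lit 3) (nat_lit 4) (nat_lit 1) (nat_lit 4) (nat_lit 534) (nat_lit 355) (nat_lit 311))) (XT.nd (nat_lit 78) (nat_lit 0) (nat_lit 0) (XT.lf (nat_lit 0) (nat_lit 159069120391) (nat_lit 152) (nat_lit 187678311611) (nat_lit 0) (nat_lit 157686007887) (nat_lit 1) (nat_lit 5) (nat_lit 3) (nat_lit 4) (nat_lit 1) (nat_lit 4) (nat_lit 535) (nat_lit 355) (nat_lit 310)) (XT.lf (nat_lit 0) (nat_lit 170054041656) (nat_lit 152) (nat_lit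 190782877183) (nat_lit 0) (nat_lit 168662680882) (nat_lit 1) (nat_lit 5) (nat_lit 3) (nat_lit 4) (nat_lit 1) (nat_lit 4) (nat_lit 536) (nat_lit 355) (nat_lit 309))))) (XT.nd (nat_lit 312) (nat_lit 0) (nat_lit 0) (XT.nd (nat_lit 156) (nat_lit 0) (nat_lit 0) (XT.nd (nat_lit 78) (nat_lit 0) (nat_lit 0) (XT.lf (nat_lit 0) (nat_lit 181561779319) (nat_lit 152) (nat_lit 194096047069) (nat_lit 0) (nat_lit 180162563050) (nat_lit 1) (nat_lit 5) (nat_lit 3) (nat_lit 4) (nat_lit 1) (nat_lit 4) (nat_lit 537) (nat_lit 355) (nat_lit 308)) (XT.lf (nat_lit 0) (nat_lit 193619732755) (nat_lit 152) (nat_lit 197625709768) (nat_lit 0) (nat_lit 192213035062) (nat_lit 1) (nat_lit 5) (nat_lit 3) (nat_lit 4) (nat_lit 1) (nat_lit 4) (nat_lit 538) (nat_lit 355) (nat_lit 307))) (XT.nd (nat_lit 78) (nat_lit 0) (nat_lit 0) (XT.lf (nat_lit 0) (nat_lit 206256611377) (nat_lit 152) (nat_lit 201380269239) (nat_lit 0) (nat_lit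 204842788518) (nat_lit 1) (nat_lit 5) (nat_lit 3) (nat_lit 4) (nat_lit 1) (nat_lit 4) (nat_lit 539) (nat_lit 355) (nat_lit 306)) (XT.lf (nat_lit 0) (nat_lit 219502502992) (nat_lit 152) (nat_lit 205368664910) (nat_lit 0) (nat_lit 218081894260) (nat_lit 1) (nat_lit 5) (nat_lit 3) (nat_lit 4) (nat_lit 1) (nat_lit 4) (nat_lit 540) (nat_lit 355) (nat_lit 305)))) (XT.nd (nat_lit 156) (nat_lit 0) (nat_lit 0) (XT.nd (nat_lit 78) (nat_lit 0) (nat_lit 0) (XT.lf (nat_lit 0) (nat_lit 233388945435) (nat_lit 152) (nat_lit 209600392961) (nat_lit 0) (nat_lit 231961873968) (nat_lit 1) (nat_lit 5) (nat_lit 3) (nat_lit 4) (nat_lit 1) (nat_lit 4) (nat_lit 541) (nat_lit 355) (nat_lit 304)) (XT.lf (nat_lit 0) (nat_lit 247949001666) (nat_lit 152) (nat_lit 214085528934) (nat_lit 0) (nat_lit 246515775213) (nat_lit 1) (nat_lit 5) (nat_lit 3) (nat_lit 4) (nat_lit 1) (nat_lit 4) (nat_lit 542) (nat_lit 355) (nat_lit 303)))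 (XT.nd (nat_lit 78) (nat_lit 0) (nat_lit 0) (XT.lf (nat_lit 0) (nat_lit 263217338485) (nat_lit 152) (nat_lit 218834751725) (nat_lit 0) (nat_lit 261778250141) (nat_lit 1) (nat_lit 5) (nat_lit 3) (nat_lit 4) (nat_lit 1) (nat_lit 4) (nat_lit 543) (nat_lit 355) (nat_lit 302)) (XT.lf (nat_lit 0) (nat_lit 279230309075) (nat_lit 152) (nat_lit 223859369007) (nat_lit 0) (nat_lit 277785637977) (nat_lit 1) (nat_lit 5) (nat_lit 3) (nat_lit 4) (nat_lit 1) (nat_lit 4) (nat_lit 544) (nat_lit 355) (nat_lit 301))))))))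
noncomputable def xc15 : XT := (XT.nd (nat_lit 60060) (nat_lit 0) (nat_lit 0) (XT.nd (nat_lit 58968) (nat_lit 0) (nat_lit 0) (XT.nd (nat_lit 58422) (nat_lit 0) (nat_lit 228) (XT.nd (nat_lit 58110) (nat_lit 0) (nat_lit 380) (XT.nd (nat_lit 78) (nat_lit 0) (nat_lit 0) (XT.lf (nat_lit 0) (nat_lit 296026039557) (nat_lit 152) (nat_lit 229171344155) (nat_lit 0) (nat_lit 294576051550) (nat_lit 1) (nat_lit 5) (nat_lit 3) (nat_lit 4) (nat_lit 1) (nat_lit 4) (nat_lit 545) (nat_lit 355) (nat_lit 300)) (XT.nd (nat_lit 57954) (nat_lit 0) (nat_lit 380) (XT.lf (nat_lit 0) (nat_lit 313644519764) (nat_lit 152) (nat_lit 234783324729) (nat_lit 0) (nat_lit 312189468036) (nat_lit 1) (nat_lit 5) (nat_lit 3) (nat_lit 4) (nat_lit 1) (nat_lit 4) (nat_lit 546) (nat_lit 355) (nat_lit 299)) (XT.lf (nat_lit 0) (nat_lit 2981934775) (nat_lit 76) (nat_lit 12401942070) (nat_lit 76) (nat_lit 12401942070) (nat_lit 6) (nat_lit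 4) (nat_lit 7) (nat_lit 5) (nat_lit 7) (nat_lit 4) (nat_lit 488) (nat_lit 356) (nat_lit 356)))) (XT.nd (nat_lit 156) (nat_lit 0) (nat_lit 0) (XT.nd (nat_lit 78) (nat_lit 0) (nat_lit 0) (XT.lf (nat_lit 0) (nat_lit 19829738339) (nat_lit 76) (nat_lit 19134368247) (nat_lit 76) (nat_lit 19048575767) (nat_lit 6) (nat_lit 4) (nat_lit 7) (nat_lit 5) (nat_lit 7) (nat_lit 4) (nat_lit 489) (nat_lit 356) (nat_lit 355)) (XT.lf (nat_lit 0) (nat_lit 33961654264) (nat_lit 76) (nat_lit 13396126750) (nat_lit 76) (nat_lit 13228627145) (nat_lit 6) (nat_lit 4) (nat_lit 7) (nat_lit 5) (nat_lit 7) (nat_lit 4) (nat_lit 490) (nat_lit 356) (nat_lit 354))) (XT.nd (nat_lit 78) (nat_lit 0) (nat_lit 0) (XT.lf (nat_lit 0) (nat_lit 48393264743) (nat_lit 76) (nat_lit 7575497168) (nat_lit 76) (nat_lit 7330181255) (nat_lit 6) (nat_lit 4) (nat_lit 7) (nat_lit 5) (nat_lit 7) (nat_lit 4) (nat_lit 491) (nat_lit 356) (nat_lit 353))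 (XT.lf (nat_lit 0) (nat_lit 63158930753) (nat_lit 76) (nat_lit 1658620861) (nat_lit 76) (nat_lit 1339194177) (nat_lit 6) (nat_lit 4) (nat_lit 7) (nat_lit 5) (nat_lit 7) (nat_lit 4) (nat_lit 492) (nat_lit 356) (nat_lit 352))))) (XT.nd (nat_lit 234) (nat_lit 0) (nat_lit 0) (XT.nd (nat_lit 78) (nat_lit 0) (nat_lit 0) (XT.lf (nat_lit 0) (nat_lit 4824125447) (nat_lit 152) (nat_lit 59875199624) (nat_lit 0) (nat_lit 4452688905) (nat_lit 4) (nat_lit 5) (nat_lit 6) (nat_lit 4) (nat_lit 4) (nat_lit 4) (nat_lit 493) (nat_lit 356) (nat_lit 351)) (XT.nd (nat_lit 78) (nat_lit 0) (nat_lit 0) (XT.lf (nat_lit 0) (nat_lit 11143043212) (nat_lit 152) (nat_lit 50450699095) (nat_lit 0) (nat_lit 10707587000) (nat_lit 4) (nat_lit 5) (nat_lit 6) (nat_lit 4) (nat_lit 4) (nat_lit 4) (nat_lit 494) (nat_lit 356) (nat_lit 350)) (XT.lf (nat_lit 0) (nat_lit 17600426507) (nat_lit 152) (nat_lit 40912561907) (nat_lit 0) (nat_lit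 17103999181) (nat_lit 4) (nat_lit 5) (nat_lit 6) (nat_lit 4) (nat_lit 4) (nat_lit 4) (nat_lit 495) (nat_lit 356) (nat_lit 349)))) (XT.nd (nat_lit 156) (nat_lit 0) (nat_lit 0) (XT.nd (nat_lit 78) (nat_lit 0) (nat_lit 0) (XT.lf (nat_lit 0) (nat_lit 24211650055) (nat_lit 152) (nat_lit 31238078208) (nat_lit 0) (nat_lit 23657155001) (nat_lit 4) (nat_lit 5) (nat_lit 6) (nat_lit 4) (nat_lit 4) (nat_lit 4) (nat_lit 496) (nat_lit 356) (nat_lit 348)) (XT.lf (nat_lit 0) (nat_lit 30992454863) (nat_lit 152) (nat_lit 21404213515) (nat_lit 0) (nat_lit 30382657212) (nat_lit 4) (nat_lit 5) (nat_lit 6) (nat_lit 4) (nat_lit 4) (nat_lit 4) (nat_lit 497) (nat_lit 356) (nat_lit 347))) (XT.nd (nat_lit 78) (nat_lit 0) (nat_lit 0) (XT.lf (nat_lit 0) (nat_lit 37958985706) (nat_lit 152) (nat_lit 11387553864) (nat_lit 0) (nat_lit 37296518914) (nat_lit 4) (nat_lit 5) (nat_lit 6) (nat_lit 4) (nat_lit 4) (nat_lit 4) (nat_lit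 498) (nat_lit 356) (nat_lit 346)) (XT.lf (nat_lit 0) (nat_lit 45127829561) (nat_lit 152) (nat_lit 1164250064) (nat_lit 0) (nat_lit 44415201683) (nat_lit 4) (nat_lit 5) (nat_lit 6) (nat_lit 4) (nat_lit 4) (nat_lit 4) (nat_lit 499) (nat_lit 356) (nat_lit 345)))))) (XT.nd (nat_lit 546) (nat_lit 152) (nat_lit 0) (XT.nd (nat_lit 234) (nat_lit 0) (nat_lit 0) (XT.nd (nat_lit 78) (nat_lit 0) (nat_lit 0) (XT.lf (nat_lit 0) (nat_lit 9597209729) (nat_lit 76) (nat_lit 43068684715) (nat_lit 76) (nat_lit 42308284373) (nat_lit 3) (nat_lit 4) (nat_lit 4) (nat_lit 5) (nat_lit 4) (nat_lit 4) (nat_lit 500) (nat_lit 356) (nat_lit 344)) (XT.nd (nat_lit 78) (nat_lit 0) (nat_lit 0) (XT.lf (nat_lit 0) (nat_lit 20661501834) (nat_lit 76) (nat_lit 39802335462) (nat_lit 76) (nat_lit 38996437536) (nat_lit 3) (nat_lit 4) (nat_lit 4) (nat_lit 5) (nat_lit 4) (nat_lit 4) (nat_lit 501) (nat_lit 356) (nat_lit 343)) (XT.lf (nat_lit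 0) (nat_lit 32016474437) (nat_lit 76) (nat_lit 36504971984) (nat_lit 76) (nat_lit 35655743026) (nat_lit 3) (nat_lit 4) (nat_lit 4) (nat_lit 5) (nat_lit 4) (nat_lit 4) (nat_lit 502) (nat_lit 356) (nat_lit 342)))) (XT.nd (nat_lit 156) (nat_lit 0) (nat_lit 0) (XT.nd (nat_lit 78) (nat_lit 0) (nat_lit 0) (XT.lf (nat_lit 0) (nat_lit 43689163187) (nat_lit 76) (nat_lit 33168743416) (nat_lit 76) (nat_lit 32278246807) (nat_lit 3) (nat_lit 4) (nat_lit 4) (nat_lit 5) (nat_lit 4) (nat_lit 4) (nat_lit 503) (nat_lit 356) (nat_lit 341)) (XT.lf (nat_lit 0) (nat_lit 55707360199) (nat_lit 76) (nat_lit 29785706355) (nat_lit 76) (nat_lit 28855907223) (nat_lit 3) (nat_lit 4) (nat_lit 4) (nat_lit 5) (nat_lit 4) (nat_lit 4) (nat_lit 504) (nat_lit 356) (nat_lit 340))) (XT.nd (nat_lit 78) (nat_lit 0) (nat_lit 0) (XT.lf (nat_lit 0) (nat_lit 68099680230) (nat_lit 76) (nat_lit 26347805952) (nat_lit 76) (nat_lit 25380575845)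 (nat_lit 3) (nat_lit 4) (nat_lit 4) (nat_lit 5) (nat_lit 4) (nat_lit 4) (nat_lit 505) (nat_lit 356) (nat_lit 339)) (XT.lf (nat_lit 0) (nat_lit 80895628803) (nat_lit 76) (nat_lit 22846856729) (nat_lit 76) (nat_lit 21843978074) (nat_lit 3) (nat_lit 4) (nat_lit 4) (nat_lit 5) (nat_lit 4) (nat_lit 4) (nat_lit 506) (nat_lit 356) (nat_lit 338))))) (XT.nd (nat_lit 234) (nat_lit 152) (nat_lit 0) (XT.nd (nat_lit 78) (nat_lit 0) (nat_lit 0) (XT.lf (nat_lit 0) (nat_lit 94125672461) (nat_lit 76) (nat_lit 19274523094) (nat_lit 76) (nat_lit 18237693441) (nat_lit 3) (nat_lit 4) (nat_lit 4) (nat_lit 5) (nat_lit 4) (nat_lit 4) (nat_lit 507) (nat_lit 356) (nat_lit 337)) (XT.nd (nat_lit 78) (nat_lit 0) (nat_lit 0) (XT.lf (nat_lit 0) (nat_lit 107821311309) (nat_lit 76) (nat_lit 15622299489) (nat_lit 76) (nat_lit 14553135553) (nat_lit 3) (nat_lit 4) (nat_lit 4) (nat_lit 5) (nat_lit 4) (nat_lit 4) (nat_lit 508)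 (nat_lit 356) (nat_lit 336)) (XT.lf (nat_lit 0) (nat_lit 122015154011) (nat_lit 76) (nat_lit 11881490145) (nat_lit 76) (nat_lit 10781531653) (nat_lit 3) (nat_lit 4) (nat_lit 4) (nat_lit 5) (nat_lit 4) (nat_lit 4) (nat_lit 509) (nat_lit 356) (nat_lit 335)))) (XT.nd (nat_lit 156) (nat_lit 152) (nat_lit 0) (XT.nd (nat_lit 78) (nat_lit 0) (nat_lit 0) (XT.lf (nat_lit 0) (nat_lit 136740995431) (nat_lit 76) (nat_lit 8043188373) (nat_lit 76) (nat_lit 6913901732) (nat_lit 3) (nat_lit 4) (nat_lit 4) (nat_lit 5) (nat_lit 4) (nat_lit 4) (nat_lit 510) (nat_lit 356) (nat_lit 334)) (XT.lf (nat_lit 0) (nat_lit 152033897095) (nat_lit 76) (nat_lit 4098255358) (nat_lit 76) (nat_lit 2941037148) (nat_lit 3) (nat_lit 4) (nat_lit 4) (nat_lit 5) (nat_lit 4) (nat_lit 4) (nat_lit 511) (nat_lit 356) (nat_lit 333))) (XT.nd (nat_lit 78) (nat_lit 0) (nat_lit 0) (XT.lf (nat_lit 0) (nat_lit 1127406537) (nat_lit 76) (nat_lit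 20897) (nat_lit 152) (nat_lit 165691845221) (nat_lit 1) (nat_lit 5) (nat_lit 2) (nat_lit 5) (nat_lit 3) (nat_lit 4) (nat_lit 512) (nat_lit 356) (nat_lit 332)) (XT.lf (nat_lit 0) (nat_lit 5407649763) (nat_lit 152) (nat_lit 165281167953) (nat_lit 0) (nat_lit 4256074085) (nat_lit 1) (nat_lit 5) (nat_lit 3) (nat_lit 4) (nat_lit 1) (nat_lit 4) (nat_lit 513) (nat_lit 356) (nat_lit 331))))))) (XT.nd (nat_lit 1092) (nat_lit 0) (nat_lit 0) (XT.nd (nat_lit 546) (nat_lit 0) (nat_lit 0) (XT.nd (nat_lit 234) (nat_lit 0) (nat_lit 0) (XT.nd (nat_lit 78) (nat_lit 0) (nat_lit 0) (XT.lf (nat_lit 0) (nat_lit 9824569888) (nat_lit 152) (nat_lit 165006074040) (nat_lit 0) (nat_lit 8650014838) (nat_lit 1) (nat_lit 5) (nat_lit 3) (nat_lit 4) (nat_lit 1) (nat_lit 4) (nat_lit 514) (nat_lit 356) (nat_lit 330)) (XT.nd (nat_lit 78) (nat_lit 0) (nat_lit 0) (XT.lf (nat_lit 0) (nat_lit 14388703958) (nat_lit 152) (nat_lit 164865929068)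 (nat_lit 0) (nat_lit 13192263792) (nat_lit 1) (nat_lit 5) (nat_lit 3) (nat_lit 4) (nat_lit 1) (nat_lit 4) (nat_lit 515) (nat_lit 356) (nat_lit 329)) (XT.lf (nat_lit 0) (nat_lit 19110918962) (nat_lit 152) (nat_lit 164860399358) (nat_lit 0) (nat_lit 17893635828) (nat_lit 1) (nat_lit 5) (nat_lit 3) (nat_lit 4) (nat_lit 1) (nat_lit 4) (nat_lit 516) (nat_lit 356) (nat_lit 328)))) (XT.nd (nat_lit 156) (nat_lit 0) (nat_lit 0) (XT.nd (nat_lit 78) (nat_lit 0) (nat_lit 0) (XT.lf (nat_lit 0) (nat_lit 24002458266) (nat_lit 152) (nat_lit 164989471746) (nat_lit 0) (nat_lit 22765324687) (nat_lit 1) (nat_lit 5) (nat_lit 3) (nat_lit 4) (nat_lit 1) (nat_lit 4) (nat_lit 517) (nat_lit 356) (nat_lit 327)) (XT.lf (nat_lit 0) (nat_lit 29074968394) (nat_lit 152) (nat_lit 165253453545) (nat_lit 0) (nat_lit 27818929629) (nat_lit 1) (nat_lit 5) (nat_lit 3) (nat_lit 4) (nat_lit 1) (nat_lit 4) (nat_lit 518) (nat_lit 356)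 (nat_lit 326))) (XT.nd (nat_lit 78) (nat_lit 0) (nat_lit 0) (XT.lf (nat_lit 0) (nat_lit 34340526750) (nat_lit 152) (nat_lit 165652973285) (nat_lit 0) (nat_lit 33066483047) (nat_lit 1) (nat_lit 5) (nat_lit 3) (nat_lit 4) (nat_lit 1) (nat_lit 4) (nat_lit 519) (nat_lit 356) (nat_lit 325)) (XT.lf (nat_lit 0) (nat_lit 39811670379) (nat_lit 152) (nat_lit 166188982202) (nat_lit 0) (nat_lit 38520479115) (nat_lit 1) (nat_lit 5) (nat_lit 3) (nat_lit 4) (nat_lit 1) (nat_lit 4) (nat_lit 520) (nat_lit 356) (nat_lit 324))))) (XT.nd (nat_lit 234) (nat_lit 0) (nat_lit 0) (XT.nd (nat_lit 78) (nat_lit 0) (nat_lit 0) (XT.lf (nat_lit 0) (nat_lit 45501425813) (nat_lit 152) (nat_lit 166862756509) (nat_lit 0) (nat_lit 44193903538) (nat_lit 1) (nat_lit 5) (nat_lit 3) (nat_lit 4) (nat_lit 1) (nat_lit 4) (nat_lit 521) (nat_lit 356) (nat_lit 323)) (XT.nd (nat_lit 78) (nat_lit 0) (nat_lit 0) (XT.lf (nat_lit 0) (nat_lit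 51423340088) (nat_lit 152) (nat_lit 167675900429) (nat_lit 0) (nat_lit 50100264470) (nat_lit 1) (nat_lit 5) (nat_lit 3) (nat_lit 4) (nat_lit 1) (nat_lit 4) (nat_lit 522) (nat_lit 356) (nat_lit 322)) (XT.lf (nat_lit 0) (nat_lit 57591513000) (nat_lit 152) (nat_lit 168630350020) (nat_lit 0) (nat_lit 56253624674) (nat_lit 1) (nat_lit 5) (nat_lit 3) (nat_lit 4) (nat_lit 1) (nat_lit 4) (nat_lit 523) (nat_lit 356) (nat_lit 321)))) (XT.nd (nat_lit 156) (nat_lit 0) (nat_lit 0) (XT.nd (nat_lit 78) (nat_lit 0) (nat_lit 0) (XT.lf (nat_lit 0) (nat_lit 64020630676) (nat_lit 152) (nat_lit 169728377780) (nat_lit 0) (nat_lit 62668635009) (nat_lit 1) (nat_lit 5) (nat_lit 3) (nat_lit 4) (nat_lit 1) (nat_lit 4) (nat_lit 524) (nat_lit 356) (nat_lit 320)) (XT.lf (nat_lit 0) (nat_lit 70726000538) (nat_lit 152) (nat_lit 170972598063) (nat_lit 0) (nat_lit 69360569309) (nat_lit 1) (nat_lit 5) (nat_lit 3) (nat_lit 4)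 (nat_lit 1) (nat_lit 4) (nat_lit 525) (nat_lit 356) (nat_lit 319))) (XT.nd (nat_lit 78) (nat_lit 0) (nat_lit 0) (XT.lf (nat_lit 0) (nat_lit 77723587753) (nat_lit 152) (nat_lit 172365973296) (nat_lit 0) (nat_lit 76345360749) (nat_lit 1) (nat_lit 5) (nat_lit 3) (nat_lit 4) (nat_lit 1) (nat_lit 4) (nat_lit 526) (nat_lit 356) (nat_lit 318)) (XT.lf (nat_lit 0) (nat_lit 85030053242) (nat_lit 152) (nat_lit 173911821040) (nat_lit 0) (nat_lit 83639639788) (nat_lit 1) (nat_lit 5) (nat_lit 3) (nat_lit 4) (nat_lit 1) (nat_lit 4) (nat_lit 527) (nat_lit 356) (nat_lit 317)))))) (XT.nd (nat_lit 546) (nat_lit 0) (nat_lit 0) (XT.nd (nat_lit 234) (nat_lit 0) (nat_lit 0) (XT.nd (nat_lit 78) (nat_lit 0) (nat_lit 0) (XT.lf (nat_lit 0) (nat_lit 92662793353) (nat_lit 152) (nat_lit 175613821885) (nat_lit 0) (nat_lit 91260773754) (nat_lit 1) (nat_lit 5) (nat_lit 3) (nat_lit 4) (nat_lit 1) (nat_lit 4) (nat_lit 528) (nat_lit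 356) (nat_lit 316)) (XT.nd (nat_lit 78) (nat_lit 0) (nat_lit 0) (XT.lf (nat_lit 0) (nat_lit 100639981275) (nat_lit 152) (nat_lit 177476028213) (nat_lit 0) (nat_lit 99226908206) (nat_lit 1) (nat_lit 5) (nat_lit 3) (nat_lit 4) (nat_lit 1) (nat_lit 4) (nat_lit 529) (nat_lit 356) (nat_lit 315)) (XT.lf (nat_lit 0) (nat_lit 108980610314) (nat_lit 152) (nat_lit 179502873850) (nat_lit 0) (nat_lit 107557010129) (nat_lit 1) (nat_lit 5) (nat_lit 3) (nat_lit 4) (nat_lit 1) (nat_lit 4) (nat_lit 530) (nat_lit 356) (nat_lit 314)))) (XT.nd (nat_lit 156) (nat_lit 0) (nat_lit 0) (XT.nd (nat_lit 78) (nat_lit 0) (nat_lit 0) (XT.lf (nat_lit 0) (nat_lit 117704539110) (nat_lit 152) (nat_lit 181699184618) (nat_lit 0) (nat_lit 116270913101) (nat_lit 1) (nat_lit 5) (nat_lit 3) (nat_lit 4) (nat_lit 1) (nat_lit 4) (nat_lit 531) (nat_lit 356) (nat_lit 313)) (XT.lf (nat_lit 0) (nat_lit 126832538921) (nat_lit 152) (nat_lit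 184070189829) (nat_lit 0) (nat_lit 125389364510) (nat_lit 1) (nat_lit 5) (nat_lit 3) (nat_lit 4) (nat_lit 1) (nat_lit 4) (nat_lit 532) (nat_lit 356) (nat_lit 312))) (XT.nd (nat_lit 78) (nat_lit 0) (nat_lit 0) (XT.lf (nat_lit 0) (nat_lit 136386343082) (nat_lit 152) (nat_lit 186621534733) (nat_lit 0) (nat_lit 134934074952) (nat_lit 1) (nat_lit 5) (nat_lit 3) (nat_lit 4) (nat_lit 1) (nat_lit 4) (nat_lit 533) (nat_lit 356) (nat_lit 311)) (XT.lf (nat_lit 0) (nat_lit 146388698744) (nat_lit 152) (nat_lit 189359293961) (nat_lit 0) (nat_lit 144927769931) (nat_lit 1) (nat_lit 5) (nat_lit 3) (nat_lit 4) (nat_lit 1) (nat_lit 4) (nat_lit 534) (nat_lit 356) (nat_lit 310))))) (XT.nd (nat_lit 312) (nat_lit 0) (nat_lit 0) (XT.nd (nat_lit 156) (nat_lit 0) (nat_lit 0) (XT.nd (nat_lit 78) (nat_lit 0) (nat_lit 0) (XT.lf (nat_lit 0) (nat_lit 156863421041) (nat_lit 152) (nat_lit 192289985987) (nat_lit 0) (nat_lit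 155394243958) (nat_lit 1) (nat_lit 5) (nat_lit 3) (nat_lit 4) (nat_lit 1) (nat_lit 4) (nat_lit 535) (nat_lit 356) (nat_lit 309)) (XT.lf (nat_lit 0) (nat_lit 167835449786) (nat_lit 152) (nat_lit 195420588649) (nat_lit 0) (nat_lit 166358417208) (nat_lit 1) (nat_lit 5) (nat_lit 3) (nat_lit 4) (nat_lit 1) (nat_lit 4) (nat_lit 536) (nat_lit 356) (nat_lit 308))) (XT.nd (nat_lit 78) (nat_lit 0) (nat_lit 0) (XT.lf (nat_lit 0) (nat_lit 179330908859) (nat_lit 152) (nat_lit 198758555764) (nat_lit 0) (nat_lit 177846394857) (nat_lit 1) (nat_lit 5) (nat_lit 3) (nat_lit 4) (nat_lit 1) (nat_lit 4) (nat_lit 537) (nat_lit 356) (nat_lit 307)) (XT.lf (nat_lit 0) (nat_lit 191377168399) (nat_lit 152) (nat_lit 202311834872) (nat_lit 0) (nat_lit 189885529231) (nat_lit 1) (nat_lit 5) (nat_lit 3) (nat_lit 4) (nat_lit 1) (nat_lit 4) (nat_lit 538) (nat_lit 356) (nat_lit 306)))) (XT.nd (nat_lit 156) (nat_lit 0) (nat_lit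 0) (XT.nd (nat_lit 78) (nat_lit 0) (nat_lit 0) (XT.lf (nat_lit 0) (nat_lit 204002909978) (nat_lit 152) (nat_lit 206088886161) (nat_lit 0) (nat_lit 202504484938) (nat_lit 1) (nat_lit 5) (nat_lit 3) (nat_lit 4) (nat_lit 1) (nat_lit 4) (nat_lit 539) (nat_lit 356) (nat_lit 305)) (XT.lf (nat_lit 0) (nat_lit 217238194884) (nat_lit 152) (nat_lit 210098702610) (nat_lit 0) (nat_lit 215733307108) (nat_lit 1) (nat_lit 5) (nat_lit 3) (nat_lit 4) (nat_lit 1) (nat_lit 4) (nat_lit 540) (nat_lit 356) (nat_lit 304))) (XT.nd (nat_lit 78) (nat_lit 0) (nat_lit 0) (XT.lf (nat_lit 0) (nat_lit 231114535701) (nat_lit 152) (nat_lit 214350831402) (nat_lit 0) (nat_lit 229603492939) (nat_lit 1) (nat_lit 5) (nat_lit 3) (nat_lit 4) (nat_lit 1) (nat_lit 4) (nat_lit 541) (nat_lit 356) (nat_lit 303)) (XT.lf (nat_lit 0) (nat_lit 245664971335) (nat_lit 152) (nat_lit 218855396653) (nat_lit 0) (nat_lit 244148066682) (nat_lit 1)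 (nat_lit 5) (nat_lit 3) (nat_lit 4) (nat_lit 1) (nat_lit 4) (nat_lit 542) (nat_lit 356) (nat_lit 302))))))))
noncomputable def xc16 : XT := (XT.nd (nat_lit 59904) (nat_lit 0) (nat_lit 0) (XT.nd (nat_lit 58812) (nat_lit 0) (nat_lit 152) (XT.nd (nat_lit 58266) (nat_lit 0) (nat_lit 228) (XT.nd (nat_lit 234) (nat_lit 0) (nat_lit 0) (XT.nd (nat_lit 78) (nat_lit 0) (nat_lit 0) (XT.lf (nat_lit 0) (nat_lit 260924145681) (nat_lit 152) (nat_lit 223623123518) (nat_lit 0) (nat_lit 259401658274) (nat_lit 1) (nat_lit 5) (nat_lit 3) (nat_lit 4) (nat_lit 1) (nat_lit 4) (nat_lit 543) (nat_lit 356) (nat_lit 301)) (XT.nd (nat_lit 78) (nat_lit 0) (nat_lit 0) (XT.lf (nat_lit 0) (nat_lit 276928390106) (nat_lit 152) (nat_lit 228665363728) (nat_lit 0) (nat_lit 275400585791) (nat_lit 1) (nat_lit 5) (nat_lit 3) (nat_lit 4) (nat_lit 1) (nat_lit 4) (nat_lit 544) (nat_lit 356) (nat_lit 300)) (XT.lf (nat_lit 0) (nat_lit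 293715809955) (nat_lit 152) (nat_lit 233994122617) (nat_lit 0) (nat_lit 292182941917) (nat_lit 1) (nat_lit 5) (nat_lit 3) (nat_lit 4) (nat_lit 1) (nat_lit 4) (nat_lit 545) (nat_lit 356) (nat_lit 299)))) (XT.nd (nat_lit 57876) (nat_lit 0) (nat_lit 380) (XT.nd (nat_lit 57798) (nat_lit 0) (nat_lit 456) (XT.lf (nat_lit 0) (nat_lit 311326375273) (nat_lit 152) (nat_lit 239622087705) (nat_lit 0) (nat_lit 309788684643) (nat_lit 1) (nat_lit 5) (nat_lit 3) (nat_lit 4) (nat_lit 1) (nat_lit 4) (nat_lit 546) (nat_lit 356) (nat_lit 298)) (XT.lf (nat_lit 0) (nat_lit 7709800377) (nat_lit 152) (nat_lit 10101717850) (nat_lit 0) (nat_lit 7709800377) (nat_lit 7) (nat_lit 5) (nat_lit 9) (nat_lit 4) (nat_lit 7) (nat_lit 4) (nat_lit 486) (nat_lit 357) (nat_lit 357))) (XT.nd (nat_lit 78) (nat_lit 76) (nat_lit 0) (XT.lf (nat_lit 0) (nat_lit 22959023358) (nat_lit 152) (nat_lit 7423511267) (nat_lit 0) (nat_lit 22868941253)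 (nat_lit 7) (nat_lit 5) (nat_lit 9) (nat_lit 4) (nat_lit 7) (nat_lit 4) (nat_lit 487) (nat_lit 357) (nat_lit 356)) (XT.lf (nat_lit 0) (nat_lit 5745036078) (nat_lit 76) (nat_lit 25003960244) (nat_lit 76) (nat_lit 24828085660) (nat_lit 6) (nat_lit 4) (nat_lit 7) (nat_lit 5) (nat_lit 7) (nat_lit 4) (nat_lit 488) (nat_lit 357) (nat_lit 355))))) (XT.nd (nat_lit 234) (nat_lit 152) (nat_lit 0) (XT.nd (nat_lit 78) (nat_lit 0) (nat_lit 0) (XT.lf (nat_lit 0) (nat_lit 19402492036) (nat_lit 76) (nat_lit 19439200542) (nat_lit 76) (nat_lit 19181618833) (nat_lit 6) (nat_lit 4) (nat_lit 7) (nat_lit 5) (nat_lit 7) (nat_lit 4) (nat_lit 489) (nat_lit 357) (nat_lit 354)) (XT.nd (nat_lit 78) (nat_lit 0) (nat_lit 0) (XT.lf (nat_lit 0) (nat_lit 33335919549) (nat_lit 76) (nat_lit 13800726845) (nat_lit 76) (nat_lit 13465328827) (nat_lit 6) (nat_lit 4) (nat_lit 7) (nat_lit 5) (nat_lit 7) (nat_lit 4) (nat_lit 490) (nat_lit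 357) (nat_lit 353)) (XT.lf (nat_lit 0) (nat_lit 47578493446) (nat_lit 76) (nat_lit 8075114216) (nat_lit 76) (nat_lit 7665605428) (nat_lit 6) (nat_lit 4) (nat_lit 7) (nat_lit 5) (nat_lit 7) (nat_lit 4) (nat_lit 491) (nat_lit 357) (nat_lit 352)))) (XT.nd (nat_lit 156) (nat_lit 0) (nat_lit 0) (XT.nd (nat_lit 78) (nat_lit 152) (nat_lit 0) (XT.lf (nat_lit 0) (nat_lit 62164124617) (nat_lit 76) (nat_lit 2248730245) (nat_lit 76) (nat_lit 1768639771) (nat_lit 6) (nat_lit 4) (nat_lit 7) (nat_lit 5) (nat_lit 7) (nat_lit 4) (nat_lit 492) (nat_lit 357) (nat_lit 351)) (XT.lf (nat_lit 0) (nat_lit 4291592943) (nat_lit 152) (nat_lit 61121004082) (nat_lit 0) (nat_lit 3770344251) (nat_lit 4) (nat_lit 5) (nat_lit 6) (nat_lit 4) (nat_lit 4) (nat_lit 4) (nat_lit 493) (nat_lit 357) (nat_lit 350))) (XT.nd (nat_lit 78) (nat_lit 0) (nat_lit 0) (XT.lf (nat_lit 0) (nat_lit 10523934924) (nat_lit 152) (nat_lit 51870936903)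 (nat_lit 0) (nat_lit 9941715118) (nat_lit 4) (nat_lit 5) (nat_lit 6) (nat_lit 4) (nat_lit 4) (nat_lit 4) (nat_lit 494) (nat_lit 357) (nat_lit 349)) (XT.lf (nat_lit 0) (nat_lit 16898865091) (nat_lit 152) (nat_lit 42498926715) (nat_lit 0) (nat_lit 16258577557) (nat_lit 4) (nat_lit 5) (nat_lit 6) (nat_lit 4) (nat_lit 4) (nat_lit 4) (nat_lit 495) (nat_lit 357) (nat_lit 348)))))) (XT.nd (nat_lit 546) (nat_lit 0) (nat_lit 0) (XT.nd (nat_lit 234) (nat_lit 76) (nat_lit 0) (XT.nd (nat_lit 78) (nat_lit 0) (nat_lit 0) (XT.lf (nat_lit 0) (nat_lit 23431561850) (nat_lit 152) (nat_lit 32982659207) (nat_lit 0) (nat_lit 22735971719) (nat_lit 4) (nat_lit 5) (nat_lit 6) (nat_lit 4) (nat_lit 4) (nat_lit 4) (nat_lit 496) (nat_lit 357) (nat_lit 347)) (XT.nd (nat_lit 78) (nat_lit 0) (nat_lit 0) (XT.lf (nat_lit 0) (nat_lit 30137579241) (nat_lit 152) (nat_lit 23299476600) (nat_lit 0) (nat_lit 29389319969) (nat_lit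 4) (nat_lit 5) (nat_lit 6) (nat_lit 4) (nat_lit 4) (nat_lit 4) (nat_lit 497) (nat_lit 357) (nat_lit 346)) (XT.lf (nat_lit 0) (nat_lit 37032883972) (nat_lit 152) (nat_lit 13426323696) (nat_lit 0) (nat_lit 36234463613) (nat_lit 4) (nat_lit 5) (nat_lit 6) (nat_lit 4) (nat_lit 4) (nat_lit 4) (nat_lit 498) (nat_lit 357) (nat_lit 345)))) (XT.nd (nat_lit 156) (nat_lit 0) (nat_lit 0) (XT.nd (nat_lit 78) (nat_lit 76) (nat_lit 0) (XT.lf (nat_lit 0) (nat_lit 44133893435) (nat_lit 152) (nat_lit 3339692991) (nat_lit 0) (nat_lit 43287700612) (nat_lit 4) (nat_lit 5) (nat_lit 6) (nat_lit 4) (nat_lit 4) (nat_lit 4) (nat_lit 499) (nat_lit 357) (nat_lit 344)) (XT.lf (nat_lit 0) (nat_lit 7215368146) (nat_lit 76) (nat_lit 44354798766) (nat_lit 76) (nat_lit 43463108360) (nat_lit 3) (nat_lit 4) (nat_lit 4) (nat_lit 5) (nat_lit 4) (nat_lit 4) (nat_lit 500) (nat_lit 357) (nat_lit 343))) (XT.nd (nat_lit 78) (nat_lit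 0) (nat_lit 0) (XT.lf (nat_lit 0) (nat_lit 18151594833) (nat_lit 76) (nat_lit 41152987678) (nat_lit 76) (nat_lit 40217966239) (nat_lit 3) (nat_lit 4) (nat_lit 4) (nat_lit 5) (nat_lit 4) (nat_lit 4) (nat_lit 501) (nat_lit 357) (nat_lit 342)) (XT.lf (nat_lit 0) (nat_lit 29384600370) (nat_lit 76) (nat_lit 37917089119) (nat_lit 76) (nat_lit 36940800030) (nat_lit 3) (nat_lit 4) (nat_lit 4) (nat_lit 5) (nat_lit 4) (nat_lit 4) (nat_lit 502) (nat_lit 357) (nat_lit 341))))) (XT.nd (nat_lit 234) (nat_lit 0) (nat_lit 0) (XT.nd (nat_lit 78) (nat_lit 0) (nat_lit 0) (XT.lf (nat_lit 0) (nat_lit 40941130011) (nat_lit 76) (nat_lit 34639398568) (nat_lit 76) (nat_lit 33623806955) (nat_lit 3) (nat_lit 4) (nat_lit 4) (nat_lit 5) (nat_lit 4) (nat_lit 4) (nat_lit 503) (nat_lit 357) (nat_lit 340)) (XT.nd (nat_lit 78) (nat_lit 0) (nat_lit 0) (XT.lf (nat_lit 0) (nat_lit 52848699300) (nat_lit 76) (nat_lit 31312112000)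 (nat_lit 76) (nat_lit 30259089413) (nat_lit 3) (nat_lit 4) (nat_lit 4) (nat_lit 5) (nat_lit 4) (nat_lit 4) (nat_lit 504) (nat_lit 357) (nat_lit 339)) (XT.lf (nat_lit 0) (nat_lit 65135659594) (nat_lit 76) (nat_lit 27927307305) (nat_lit 76) (nat_lit 26838636170) (nat_lit 3) (nat_lit 4) (nat_lit 4) (nat_lit 5) (nat_lit 4) (nat_lit 4) (nat_lit 505) (nat_lit 357) (nat_lit 338)))) (XT.nd (nat_lit 156) (nat_lit 0) (nat_lit 0) (XT.nd (nat_lit 78) (nat_lit 0) (nat_lit 0) (XT.lf (nat_lit 0) (nat_lit 77831265561) (nat_lit 76) (nat_lit 24476925423) (nat_lit 76) (nat_lit 23354303290) (nat_lit 3) (nat_lit 4) (nat_lit 4) (nat_lit 5) (nat_lit 4) (nat_lit 4) (nat_lit 506) (nat_lit 357) (nat_lit 337)) (XT.lf (nat_lit 0) (nat_lit 90965744832) (nat_lit 76) (nat_lit 20952751159) (nat_lit 76) (nat_lit 19797794743) (nat_lit 3) (nat_lit 4) (nat_lit 4) (nat_lit 5) (nat_lit 4) (nat_lit 4) (nat_lit 507) (nat_lit 357)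 (nat_lit 336))) (XT.nd (nat_lit 78) (nat_lit 0) (nat_lit 0) (XT.lf (nat_lit 0) (nat_lit 104570369979) (nat_lit 76) (nat_lit 17346393623) (nat_lit 76) (nat_lit 16160642651) (nat_lit 3) (nat_lit 4) (nat_lit 4) (nat_lit 5) (nat_lit 4) (nat_lit 4) (nat_lit 508) (nat_lit 357) (nat_lit 335)) (XT.lf (nat_lit 0) (nat_lit 118677532965) (nat_lit 76) (nat_lit 13649266249) (nat_lit 76) (nat_lit 12434187129) (nat_lit 3) (nat_lit 4) (nat_lit 4) (nat_lit 5) (nat_lit 4) (nat_lit 4) (nat_lit 509) (nat_lit 357) (nat_lit 334))))))) (XT.nd (nat_lit 1092) (nat_lit 0) (nat_lit 0) (XT.nd (nat_lit 546) (nat_lit 0) (nat_lit 0) (XT.nd (nat_lit 234) (nat_lit 152) (nat_lit 0) (XT.nd (nat_lit 78) (nat_lit 0) (nat_lit 0) (XT.lf (nat_lit 0) (nat_lit 133320822274) (nat_lit 76) (nat_lit 9852566353) (nat_lit 76) (nat_lit 8609555663) (nat_lit 3) (nat_lit 4) (nat_lit 4) (nat_lit 5) (nat_lit 4) (nat_lit 4) (nat_lit 510) (nat_lit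 357) (nat_lit 333)) (XT.nd (nat_lit 78) (nat_lit 0) (nat_lit 0) (XT.lf (nat_lit 0) (nat_lit 148535102881) (nat_lit 76) (nat_lit 5947254173) (nat_lit 76) (nat_lit 4677641987) (nat_lit 3) (nat_lit 4) (nat_lit 4) (nat_lit 5) (nat_lit 4) (nat_lit 4) (nat_lit 511) (nat_lit 357) (nat_lit 332)) (XT.lf (nat_lit 0) (nat_lit 164356599263) (nat_lit 76) (nat_lit 1924031346) (nat_lit 76) (nat_lit 629084403) (nat_lit 3) (nat_lit 4) (nat_lit 4) (nat_lit 5) (nat_lit 4) (nat_lit 4) (nat_lit 512) (nat_lit 357) (nat_lit 331)))) (XT.nd (nat_lit 156) (nat_lit 0) (nat_lit 0) (XT.nd (nat_lit 78) (nat_lit 0) (nat_lit 0) (XT.lf (nat_lit 0) (nat_lit 3561665020) (nat_lit 152) (nat_lit 169174238340) (nat_lit 0) (nat_lit 2305402846) (nat_lit 1) (nat_lit 5) (nat_lit 3) (nat_lit 4) (nat_lit 1) (nat_lit 4) (nat_lit 513) (nat_lit 357) (nat_lit 330)) (XT.lf (nat_lit 0) (nat_lit 7942667066) (nat_lit 152) (nat_lit 168971682786)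 (nat_lit 0) (nat_lit 6664519776) (nat_lit 1) (nat_lit 5) (nat_lit 3) (nat_lit 4) (nat_lit 1) (nat_lit 4) (nat_lit 514) (nat_lit 357) (nat_lit 329))) (XT.nd (nat_lit 78) (nat_lit 0) (nat_lit 0) (XT.lf (nat_lit 0) (nat_lit 12472593444) (nat_lit 152) (nat_lit 168900621966) (nat_lit 0) (nat_lit 11173603186) (nat_lit 1) (nat_lit 5) (nat_lit 3) (nat_lit 4) (nat_lit 1) (nat_lit 4) (nat_lit 515) (nat_lit 357) (nat_lit 328)) (XT.lf (nat_lit 0) (nat_lit 17162229691) (nat_lit 152) (nat_lit 168960886687) (nat_lit 0) (nat_lit 15843388989) (nat_lit 1) (nat_lit 5) (nat_lit 3) (nat_lit 4) (nat_lit 1) (nat_lit 4) (nat_lit 516) (nat_lit 357) (nat_lit 327))))) (XT.nd (nat_lit 234) (nat_lit 0) (nat_lit 0) (XT.nd (nat_lit 78) (nat_lit 0) (nat_lit 0) (XT.lf (nat_lit 0) (nat_lit 22022741610) (nat_lit 152) (nat_lit 169152620437) (nat_lit 0) (nat_lit 20684995721) (nat_lit 1) (nat_lit 5) (nat_lit 3) (nat_lit 4) (nat_lit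 1) (nat_lit 4) (nat_lit 517) (nat_lit 357) (nat_lit 326)) (XT.nd (nat_lit 78) (nat_lit 0) (nat_lit 0) (XT.lf (nat_lit 0) (nat_lit 27065701846) (nat_lit 152) (nat_lit 169476279724) (nat_lit 0) (nat_lit 25709951018) (nat_lit 1) (nat_lit 5) (nat_lit 3) (nat_lit 4) (nat_lit 1) (nat_lit 4) (nat_lit 518) (nat_lit 357) (nat_lit 325)) (XT.lf (nat_lit 0) (nat_lit 32303117449) (nat_lit 152) (nat_lit 169932635166) (nat_lit 0) (nat_lit 30930219060) (nat_lit 1) (nat_lit 5) (nat_lit 3) (nat_lit 4) (nat_lit 1) (nat_lit 4) (nat_lit 519) (nat_lit 357) (nat_lit 324)))) (XT.nd (nat_lit 156) (nat_lit 0) (nat_lit 0) (XT.nd (nat_lit 78) (nat_lit 0) (nat_lit 0) (XT.lf (nat_lit 0) (nat_lit 37747458455) (nat_lit 152) (nat_lit 170522773324) (nat_lit 0) (nat_lit 36358229056) (nat_lit 1) (nat_lit 5) (nat_lit 3) (nat_lit 4) (nat_lit 1) (nat_lit 4) (nat_lit 520) (nat_lit 357) (nat_lit 323)) (XT.lf (nat_lit 0) (nat_lit 43411687581)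 (nat_lit 152) (nat_lit 171248099288) (nat_lit 0) (nat_lit 42006904839) (nat_lit 1) (nat_lit 5) (nat_lit 3) (nat_lit 4) (nat_lit 1) (nat_lit 4) (nat_lit 521) (nat_lit 357) (nat_lit 322))) (XT.nd (nat_lit 78) (nat_lit 0) (nat_lit 0) (XT.lf (nat_lit 0) (nat_lit 49309291087) (nat_lit 152) (nat_lit 172110340025) (nat_lit 0) (nat_lit 47889695637) (nat_lit 1) (nat_lit 5) (nat_lit 3) (nat_lit 4) (nat_lit 1) (nat_lit 4) (nat_lit 522) (nat_lit 357) (nat_lit 321)) (XT.lf (nat_lit 0) (nat_lit 55454310886) (nat_lit 152) (nat_lit 173111548490) (nat_lit 0) (nat_lit 54020608095) (nat_lit 1) (nat_lit 5) (nat_lit 3) (nat_lit 4) (nat_lit 1) (nat_lit 4) (nat_lit 523) (nat_lit 357) (nat_lit 320)))))) (XT.nd (nat_lit 546) (nat_lit 0) (nat_lit 0) (XT.nd (nat_lit 234) (nat_lit 0) (nat_lit 0) (XT.nd (nat_lit 78) (nat_lit 0) (nat_lit 0) (XT.lf (nat_lit 0) (nat_lit 61861377978) (nat_lit 152) (nat_lit 174254108511) (nat_lit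 0) (nat_lit 60414239624) (nat_lit 1) (nat_lit 5) (nat_lit 3) (nat_lit 4) (nat_lit 1) (nat_lit 4) (nat_lit 524) (nat_lit 357) (nat_lit 319)) (XT.nd (nat_lit 78) (nat_lit 0) (nat_lit 0) (XT.lf (nat_lit 0) (nat_lit 68545747283) (nat_lit 152) (nat_lit 175540740469) (nat_lit 0) (nat_lit 67085813156) (nat_lit 1) (nat_lit 5) (nat_lit 3) (nat_lit 4) (nat_lit 1) (nat_lit 4) (nat_lit 525) (nat_lit 357) (nat_lit 318)) (XT.lf (nat_lit 0) (nat_lit 75523333968) (nat_lit 152) (nat_lit 176974507775) (nat_lit 0) (nat_lit 74051213389) (nat_lit 1) (nat_lit 5) (nat_lit 3) (nat_lit 4) (nat_lit 1) (nat_lit 4) (nat_lit 526) (nat_lit 357) (nat_lit 317)))) (XT.nd (nat_lit 156) (nat_lit 0) (nat_lit 0) (XT.nd (nat_lit 78) (nat_lit 0) (nat_lit 0) (XT.lf (nat_lit 0) (nat_lit 82810751334) (nat_lit 152) (nat_lit 178558824160) (nat_lit 0) (nat_lit 81327024611) (nat_lit 1) (nat_lit 5) (nat_lit 3) (nat_lit 4) (nat_lit 1) (nat_lit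 4) (nat_lit 527) (nat_lit 357) (nat_lit 316)) (XT.lf (nat_lit 0) (nat_lit 90425350375) (nat_lit 152) (nat_lit 180297461806) (nat_lit 0) (nat_lit 88930570181) (nat_lit 1) (nat_lit 5) (nat_lit 3) (nat_lit 4) (nat_lit 1) (nat_lit 4) (nat_lit 528) (nat_lit 357) (nat_lit 315))) (XT.nd (nat_lit 78) (nat_lit 0) (nat_lit 0) (XT.lf (nat_lit 0) (nat_lit 98385261088) (nat_lit 152) (nat_lit 182194560325) (nat_lit 0) (nat_lit 96879953779) (nat_lit 1) (nat_lit 5) (nat_lit 3) (nat_lit 4) (nat_lit 1) (nat_lit 4) (nat_lit 529) (nat_lit 357) (nat_lit 314)) (XT.lf (nat_lit 0) (nat_lit 106709435641) (nat_lit 152) (nat_lit 184254636621) (nat_lit 0) (nat_lit 105194102508) (nat_lit 1) (nat_lit 5) (nat_lit 3) (nat_lit 4) (nat_lit 1) (nat_lit 4) (nat_lit 530) (nat_lit 357) (nat_lit 313))))) (XT.nd (nat_lit 234) (nat_lit 0) (nat_lit 0) (XT.nd (nat_lit 78) (nat_lit 0) (nat_lit 0) (XT.lf (nat_lit 0) (nat_lit 115417693498)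 (nat_lit 152) (nat_lit 186482595635) (nat_lit 0) (nat_lit 113892811962) (nat_lit 1) (nat_lit 5) (nat_lit 3) (nat_lit 4) (nat_lit 1) (nat_lit 4) (nat_lit 531) (nat_lit 357) (nat_lit 312)) (XT.nd (nat_lit 78) (nat_lit 0) (nat_lit 0) (XT.lf (nat_lit 0) (nat_lit 124530768607) (nat_lit 152) (nat_lit 188883742032) (nat_lit 0) (nat_lit 122996793353) (nat_lit 1) (nat_lit 5) (nat_lit 3) (nat_lit 4) (nat_lit 1) (nat_lit 4) (nat_lit 532) (nat_lit 357) (nat_lit 311)) (XT.lf (nat_lit 0) (nat_lit 134070358764) (nat_lit 152) (nat_lit 191463792828) (nat_lit 0) (nat_lit 132527722827) (nat_lit 1) (nat_lit 5) (nat_lit 3) (nat_lit 4) (nat_lit 1) (nat_lit 4) (nat_lit 533) (nat_lit 357) (nat_lit 310)))) (XT.nd (nat_lit 156) (nat_lit 0) (nat_lit 0) (XT.nd (nat_lit 78) (nat_lit 0) (nat_lit 0) (XT.lf (nat_lit 0) (nat_lit 144059177280) (nat_lit 152) (nat_lit 194228891001) (nat_lit 0) (nat_lit 142508293073) (nat_lit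 1) (nat_lit 5) (nat_lit 3) (nat_lit 4) (nat_lit 1) (nat_lit 4) (nat_lit 534) (nat_lit 357) (nat_lit 309)) (XT.lf (nat_lit 0) (nat_lit 154521007057) (nat_lit 152) (nat_lit 197185620117) (nat_lit 0) (nat_lit 152962267355) (nat_lit 1) (nat_lit 5) (nat_lit 3) (nat_lit 4) (nat_lit 1) (nat_lit 4) (nat_lit 535) (nat_lit 357) (nat_lit 308))) (XT.nd (nat_lit 78) (nat_lit 0) (nat_lit 0) (XT.lf (nat_lit 0) (nat_lit 165480757212) (nat_lit 152) (nat_lit 200341020008) (nat_lit 0) (nat_lit 163914536086) (nat_lit 1) (nat_lit 5) (nat_lit 3) (nat_lit 4) (nat_lit 1) (nat_lit 4) (nat_lit 536) (nat_lit 357) (nat_lit 307)) (XT.lf (nat_lit 0) (nat_lit 176964522389) (nat_lit 152) (nat_lit 203702603531) (nat_lit 0) (nat_lit 175391176097) (nat_lit 1) (nat_lit 5) (nat_lit 3) (nat_lit 4) (nat_lit 1) (nat_lit 4) (nat_lit 537) (nat_lit 357) (nat_lit 306))))))))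
noncomputable def xc17 : XT := (XT.nd (nat_lit 59748) (nat_lit 0) (nat_lit 0) (XT.nd (nat_lit 58656) (nat_lit 0) (nat_lit 152) (XT.nd (nat_lit 546) (nat_lit 0) (nat_lit 0) (XT.nd (nat_lit 234) (nat_lit 0) (nat_lit 0) (XT.nd (nat_lit 78) (nat_lit 0) (nat_lit 0) (XT.lf (nat_lit 0) (nat_lit 188999644886) (nat_lit 152) (nat_lit 207278374457) (nat_lit 0) (nat_lit 187419512722) (nat_lit 1) (nat_lit 5) (nat_lit 3) (nat_lit 4) (nat_lit 1) (nat_lit 4) (nat_lit 538) (nat_lit 357) (nat_lit 305)) (XT.nd (nat_lit 78) (nat_lit 0) (nat_lit 0) (XT.lf (nat_lit 0) (nat_lit 201614779757) (nat_lit 152) (nat_lit 211076846524) (nat_lit 0) (nat_lit 200028184857) (nat_lit 1) (nat_lit 5) (nat_lit 3) (nat_lit 4) (nat_lit 1) (nat_lit 4) (nat_lit 539) (nat_lit 357) (nat_lit 304)) (XT.lf (nat_lit 0) (nat_lit 214839963037) (nat_lit 152) (nat_lit 215107063715) (nat_lit 0) (nat_lit 213247213151) (nat_lit 1) (nat_lit 5) (nat_lit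 3) (nat_lit 4) (nat_lit 1) (nat_lit 4) (nat_lit 540) (nat_lit 357) (nat_lit 303)))) (XT.nd (nat_lit 156) (nat_lit 0) (nat_lit 0) (XT.nd (nat_lit 78) (nat_lit 0) (nat_lit 0) (XT.lf (nat_lit 0) (nat_lit 228706683257) (nat_lit 152) (nat_lit 219378621785) (nat_lit 0) (nat_lit 227108071479) (nat_lit 1) (nat_lit 5) (nat_lit 3) (nat_lit 4) (nat_lit 1) (nat_lit 4) (nat_lit 541) (nat_lit 357) (nat_lit 302)) (XT.lf (nat_lit 0) (nat_lit 243247956418) (nat_lit 152) (nat_lit 223901691110) (nat_lit 0) (nat_lit 241643761887) (nat_lit 1) (nat_lit 5) (nat_lit 3) (nat_lit 4) (nat_lit 1) (nat_lit 4) (nat_lit 542) (nat_lit 357) (nat_lit 301))) (XT.nd (nat_lit 78) (nat_lit 0) (nat_lit 0) (XT.lf (nat_lit 0) (nat_lit 258498404599) (nat_lit 152) (nat_lit 228687040902) (nat_lit 0) (nat_lit 256888893159) (nat_lit 1) (nat_lit 5) (nat_lit 3) (nat_lit 4) (nat_lit 1) (nat_lit 4) (nat_lit 543) (nat_lit 357) (nat_lit 300))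 (XT.lf (nat_lit 0) (nat_lit 274494338391) (nat_lit 152) (nat_lit 233746064853) (nat_lit 0) (nat_lit 272879763229) (nat_lit 1) (nat_lit 5) (nat_lit 3) (nat_lit 4) (nat_lit 1) (nat_lit 4) (nat_lit 544) (nat_lit 357) (nat_lit 299))))) (XT.nd (nat_lit 57798) (nat_lit 0) (nat_lit 380) (XT.nd (nat_lit 78) (nat_lit 0) (nat_lit 0) (XT.lf (nat_lit 0) (nat_lit 291273843350) (nat_lit 152) (nat_lit 239090808256) (nat_lit 0) (nat_lit 289654445596) (nat_lit 1) (nat_lit 5) (nat_lit 3) (nat_lit 4) (nat_lit 1) (nat_lit 4) (nat_lit 545) (nat_lit 357) (nat_lit 298)) (XT.nd (nat_lit 57642) (nat_lit 0) (nat_lit 456) (XT.lf (nat_lit 0) (nat_lit 308876870680) (nat_lit 152) (nat_lit 244733996692) (nat_lit 0) (nat_lit 307252879980) (nat_lit 1) (nat_lit 5) (nat_lit 3) (nat_lit 4) (nat_lit 1) (nat_lit 4) (nat_lit 546) (nat_lit 357) (nat_lit 297)) (XT.lf (nat_lit 0) (nat_lit 481334719) (nat_lit 152) (nat_lit 22518401749)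 (nat_lit 0) (nat_lit 481334719) (nat_lit 7) (nat_lit 5) (nat_lit 9) (nat_lit 4) (nat_lit 7) (nat_lit 4) (nat_lit 484) (nat_lit 358) (nat_lit 358)))) (XT.nd (nat_lit 156) (nat_lit 76) (nat_lit 0) (XT.nd (nat_lit 78) (nat_lit 0) (nat_lit 0) (XT.lf (nat_lit 0) (nat_lit 8117667604) (nat_lit 152) (nat_lit 32809042645) (nat_lit 0) (nat_lit 8023081394) (nat_lit 7) (nat_lit 5) (nat_lit 9) (nat_lit 4) (nat_lit 7) (nat_lit 4) (nat_lit 485) (nat_lit 358) (nat_lit 357)) (XT.lf (nat_lit 0) (nat_lit 15403492952) (nat_lit 152) (nat_lit 20425856607) (nat_lit 0) (nat_lit 15218824638) (nat_lit 7) (nat_lit 5) (nat_lit 9) (nat_lit 4) (nat_lit 7) (nat_lit 4) (nat_lit 486) (nat_lit 358) (nat_lit 356))) (XT.nd (nat_lit 78) (nat_lit 76) (nat_lit 0) (XT.lf (nat_lit 0) (nat_lit 22837492686) (nat_lit 152) (nat_lit 7857761609) (nat_lit 0) (nat_lit 22567031891) (nat_lit 7) (nat_lit 5) (nat_lit 9) (nat_lit 4) (nat_lit 7)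 (nat_lit 4) (nat_lit 487) (nat_lit 358) (nat_lit 355)) (XT.lf (nat_lit 0) (nat_lit 5088014627) (nat_lit 76) (nat_lit 25428790344) (nat_lit 76) (nat_lit 25076622426) (nat_lit 6) (nat_lit 4) (nat_lit 7) (nat_lit 5) (nat_lit 7) (nat_lit 4) (nat_lit 488) (nat_lit 358) (nat_lit 354)))))) (XT.nd (nat_lit 546) (nat_lit 76) (nat_lit 0) (XT.nd (nat_lit 234) (nat_lit 152) (nat_lit 0) (XT.nd (nat_lit 78) (nat_lit 0) (nat_lit 0) (XT.lf (nat_lit 0) (nat_lit 18546982174) (nat_lit 76) (nat_lit 19963798442) (nat_lit 76) (nat_lit 19533814215) (nat_lit 6) (nat_lit 4) (nat_lit 7) (nat_lit 5) (nat_lit 7) (nat_lit 4) (nat_lit 489) (nat_lit 358) (nat_lit 353)) (XT.nd (nat_lit 78) (nat_lit 0) (nat_lit 0) (XT.lf (nat_lit 0) (nat_lit 32291373107) (nat_lit 76) (nat_lit 14420341698) (nat_lit 76) (nat_lit 13916246700) (nat_lit 6) (nat_lit 4) (nat_lit 7) (nat_lit 5) (nat_lit 7) (nat_lit 4) (nat_lit 490) (nat_lit 358) (nat_lit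 352)) (XT.lf (nat_lit 0) (nat_lit 46353912164) (nat_lit 76) (nat_lit 8785221405) (nat_lit 76) (nat_lit 8210544722) (nat_lit 6) (nat_lit 4) (nat_lit 7) (nat_lit 5) (nat_lit 7) (nat_lit 4) (nat_lit 491) (nat_lit 358) (nat_lit 351)))) (XT.nd (nat_lit 156) (nat_lit 0) (nat_lit 0) (XT.nd (nat_lit 78) (nat_lit 152) (nat_lit 0) (XT.lf (nat_lit 0) (nat_lit 60768081583) (nat_lit 76) (nat_lit 3045020611) (nat_lit 76) (nat_lit 2403123274) (nat_lit 6) (nat_lit 4) (nat_lit 7) (nat_lit 5) (nat_lit 7) (nat_lit 4) (nat_lit 492) (nat_lit 358) (nat_lit 350)) (XT.lf (nat_lit 0) (nat_lit 3554953457) (nat_lit 152) (nat_lit 62786687131) (nat_lit 0) (nat_lit 2882651546) (nat_lit 4) (nat_lit 5) (nat_lit 6) (nat_lit 4) (nat_lit 4) (nat_lit 4) (nat_lit 493) (nat_lit 358) (nat_lit 349))) (XT.nd (nat_lit 78) (nat_lit 0) (nat_lit 0) (XT.lf (nat_lit 0) (nat_lit 9704842309) (nat_lit 152) (nat_lit 53702746951) (nat_lit 0)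 (nat_lit 8974472671) (nat_lit 4) (nat_lit 5) (nat_lit 6) (nat_lit 4) (nat_lit 4) (nat_lit 4) (nat_lit 494) (nat_lit 358) (nat_lit 348)) (XT.lf (nat_lit 0) (nat_lit 16001245688) (nat_lit 152) (nat_lit 44488952953) (nat_lit 0) (nat_lit 15215573452) (nat_lit 4) (nat_lit 5) (nat_lit 6) (nat_lit 4) (nat_lit 4) (nat_lit 4) (nat_lit 495) (nat_lit 358) (nat_lit 347))))) (XT.nd (nat_lit 234) (nat_lit 76) (nat_lit 0) (XT.nd (nat_lit 78) (nat_lit 0) (nat_lit 0) (XT.lf (nat_lit 0) (nat_lit 22459155030) (nat_lit 152) (nat_lit 35123367531) (nat_lit 0) (nat_lit 21620813653) (nat_lit 4) (nat_lit 5) (nat_lit 6) (nat_lit 4) (nat_lit 4) (nat_lit 4) (nat_lit 496) (nat_lit 358) (nat_lit 346)) (XT.nd (nat_lit 78) (nat_lit 0) (nat_lit 0) (XT.lf (nat_lit 0) (nat_lit 29093946308) (nat_lit 152) (nat_lit 25583691672) (nat_lit 0) (nat_lit 28205443845) (nat_lit 4) (nat_lit 5) (nat_lit 6) (nat_lit 4) (nat_lit 4) (nat_lit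 4) (nat_lit 497) (nat_lit 358) (nat_lit 345)) (XT.lf (nat_lit 0) (nat_lit 35921416647) (nat_lit 152) (nat_lit 15847211863) (nat_lit 0) (nat_lit 34985141720) (nat_lit 4) (nat_lit 5) (nat_lit 6) (nat_lit 4) (nat_lit 4) (nat_lit 4) (nat_lit 498) (nat_lit 358) (nat_lit 344)))) (XT.nd (nat_lit 156) (nat_lit 0) (nat_lit 0) (XT.nd (nat_lit 78) (nat_lit 76) (nat_lit 0) (XT.lf (nat_lit 0) (nat_lit 42957821926) (nat_lit 152) (nat_lit 5890746009) (nat_lit 0) (nat_lit 41976049415) (nat_lit 4) (nat_lit 5) (nat_lit 6) (nat_lit 4) (nat_lit 4) (nat_lit 4) (nat_lit 499) (nat_lit 358) (nat_lit 343)) (XT.lf (nat_lit 0) (nat_lit 4451900376) (nat_lit 76) (nat_lit 45837521757) (nat_lit 76) (nat_lit 44812418214) (nat_lit 3) (nat_lit 4) (nat_lit 4) (nat_lit 5) (nat_lit 4) (nat_lit 4) (nat_lit 500) (nat_lit 358) (nat_lit 342))) (XT.nd (nat_lit 78) (nat_lit 0) (nat_lit 0) (XT.lf (nat_lit 0) (nat_lit 15266159998) (nat_lit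 76) (nat_lit 42697175588) (nat_lit 76) (nat_lit 41630804395) (nat_lit 3) (nat_lit 4) (nat_lit 4) (nat_lit 5) (nat_lit 4) (nat_lit 4) (nat_lit 501) (nat_lit 358) (nat_lit 341)) (XT.lf (nat_lit 0) (nat_lit 26383006426) (nat_lit 76) (nat_lit 39519815046) (nat_lit 76) (nat_lit 38414141329) (nat_lit 3) (nat_lit 4) (nat_lit 4) (nat_lit 5) (nat_lit 4) (nat_lit 4) (nat_lit 502) (nat_lit 358) (nat_lit 340))))))) (XT.nd (nat_lit 1092) (nat_lit 0) (nat_lit 0) (XT.nd (nat_lit 546) (nat_lit 152) (nat_lit 0) (XT.nd (nat_lit 234) (nat_lit 0) (nat_lit 0) (XT.nd (nat_lit 78) (nat_lit 0) (nat_lit 0) (XT.lf (nat_lit 0) (nat_lit 37828908343) (nat_lit 76) (nat_lit 36297874988) (nat_lit 76) (nat_lit 35154770296) (nat_lit 3) (nat_lit 4) (nat_lit 4) (nat_lit 5) (nat_lit 4) (nat_lit 4) (nat_lit 503) (nat_lit 358) (nat_lit 339)) (XT.nd (nat_lit 78) (nat_lit 0) (nat_lit 0) (XT.lf (nat_lit 0) (nat_lit 49631117896) (nat_lit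 76) (nat_lit 33023684128) (nat_lit 76) (nat_lit 31844930889) (nat_lit 3) (nat_lit 4) (nat_lit 4) (nat_lit 5) (nat_lit 4) (nat_lit 4) (nat_lit 504) (nat_lit 358) (nat_lit 338)) (XT.lf (nat_lit 0) (nat_lit 61817735584) (nat_lit 76) (nat_lit 29689446773) (nat_lit 76) (nat_lit 28476742536) (nat_lit 3) (nat_lit 4) (nat_lit 4) (nat_lit 5) (nat_lit 4) (nat_lit 4) (nat_lit 505) (nat_lit 358) (nat_lit 337)))) (XT.nd (nat_lit 156) (nat_lit 0) (nat_lit 0) (XT.nd (nat_lit 78) (nat_lit 0) (nat_lit 0) (XT.lf (nat_lit 0) (nat_lit 74417777164) (nat_lit 76) (nat_lit 26287224263) (nat_lit 76) (nat_lit 25042185743) (nat_lit 3) (nat_lit 4) (nat_lit 4) (nat_lit 5) (nat_lit 4) (nat_lit 4) (nat_lit 506) (nat_lit 358) (nat_lit 336)) (XT.lf (nat_lit 0) (nat_lit 87461242733) (nat_lit 76) (nat_lit 22808916069) (nat_lit 76) (nat_lit 21533082992) (nat_lit 3) (nat_lit 4) (nat_lit 4) (nat_lit 5) (nat_lit 4) (nat_lit 4) (nat_lit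 507) (nat_lit 358) (nat_lit 335))) (XT.nd (nat_lit 78) (nat_lit 0) (nat_lit 0) (XT.lf (nat_lit 0) (nat_lit 100979188164) (nat_lit 76) (nat_lit 19246240503) (nat_lit 76) (nat_lit 17941079278) (nat_lit 3) (nat_lit 4) (nat_lit 4) (nat_lit 5) (nat_lit 4) (nat_lit 4) (nat_lit 508) (nat_lit 358) (nat_lit 334)) (XT.lf (nat_lit 0) (nat_lit 115003799040) (nat_lit 76) (nat_lit 15590715005) (nat_lit 76) (nat_lit 14257622210) (nat_lit 3) (nat_lit 4) (nat_lit 4) (nat_lit 5) (nat_lit 4) (nat_lit 4) (nat_lit 509) (nat_lit 358) (nat_lit 333))))) (XT.nd (nat_lit 234) (nat_lit 152) (nat_lit 0) (XT.nd (nat_lit 78) (nat_lit 0) (nat_lit 0) (XT.lf (nat_lit 0) (nat_lit 129568467292) (nat_lit 76) (nat_lit 11833635943) (nat_lit 76) (nat_lit 10473941653) (nat_lit 3) (nat_lit 4) (nat_lit 4) (nat_lit 5) (nat_lit 4) (nat_lit 4) (nat_lit 510) (nat_lit 358) (nat_lit 332)) (XT.nd (nat_lit 78) (nat_lit 0) (nat_lit 0) (XT.lf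 (nat_lit 0) (nat_lit 144707870701) (nat_lit 76) (nat_lit 7966057891) (nat_lit 76) (nat_lit 6581028844) (nat_lit 3) (nat_lit 4) (nat_lit 4) (nat_lit 5) (nat_lit 4) (nat_lit 4) (nat_lit 511) (nat_lit 358) (nat_lit 331)) (XT.lf (nat_lit 0) (nat_lit 160458055465) (nat_lit 76) (nat_lit 3978772329) (nat_lit 76) (nat_lit 2569614942) (nat_lit 3) (nat_lit 4) (nat_lit 4) (nat_lit 5) (nat_lit 4) (nat_lit 4) (nat_lit 512) (nat_lit 358) (nat_lit 330)))) (XT.nd (nat_lit 156) (nat_lit 0) (nat_lit 0) (XT.nd (nat_lit 78) (nat_lit 0) (nat_lit 0) (XT.lf (nat_lit 0) (nat_lit 1549748980) (nat_lit 152) (nat_lit 173410665883) (nat_lit 0) (nat_lit 185809209) (nat_lit 1) (nat_lit 5) (nat_lit 3) (nat_lit 4) (nat_lit 1) (nat_lit 4) (nat_lit 513) (nat_lit 358) (nat_lit 329)) (XT.lf (nat_lit 0) (nat_lit 5896543333) (nat_lit 152) (nat_lit 173277194481) (nat_lit 0) (nat_lit 4511760595) (nat_lit 1) (nat_lit 5) (nat_lit 3)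 (nat_lit 4) (nat_lit 1) (nat_lit 4) (nat_lit 514) (nat_lit 358) (nat_lit 328))) (XT.nd (nat_lit 78) (nat_lit 0) (nat_lit 0) (XT.lf (nat_lit 0) (nat_lit 10393890955) (nat_lit 152) (nat_lit 173271928091) (nat_lit 0) (nat_lit 8989257772) (nat_lit 1) (nat_lit 5) (nat_lit 3) (nat_lit 4) (nat_lit 1) (nat_lit 4) (nat_lit 515) (nat_lit 358) (nat_lit 327)) (XT.lf (nat_lit 0) (nat_lit 15052499816) (nat_lit 152) (nat_lit 173394854174) (nat_lit 0) (nat_lit 13628961447) (nat_lit 1) (nat_lit 5) (nat_lit 3) (nat_lit 4) (nat_lit 1) (nat_lit 4) (nat_lit 516) (nat_lit 358) (nat_lit 326)))))) (XT.nd (nat_lit 546) (nat_lit 0) (nat_lit 0) (XT.nd (nat_lit 234) (nat_lit 0) (nat_lit 0) (XT.nd (nat_lit 78) (nat_lit 0) (nat_lit 0) (XT.lf (nat_lit 0) (nat_lit 19883461843) (nat_lit 152) (nat_lit 173646265412) (nat_lit 0) (nat_lit 18441918535) (nat_lit 1) (nat_lit 5) (nat_lit 3) (nat_lit 4) (nat_lit 1) (nat_lit 4) (nat_lit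 517) (nat_lit 358) (nat_lit 325)) (XT.nd (nat_lit 78) (nat_lit 0) (nat_lit 0) (XT.lf (nat_lit 0) (nat_lit 24898279325) (nat_lit 152) (nat_lit 174026760402) (nat_lit 0) (nat_lit 23439588456) (nat_lit 1) (nat_lit 5) (nat_lit 3) (nat_lit 4) (nat_lit 1) (nat_lit 4) (nat_lit 518) (nat_lit 358) (nat_lit 324)) (XT.lf (nat_lit 0) (nat_lit 30108892305) (nat_lit 152) (nat_lit 174537245085) (nat_lit 0) (nat_lit 28633870426) (nat_lit 1) (nat_lit 5) (nat_lit 3) (nat_lit 4) (nat_lit 1) (nat_lit 4) (nat_lit 519) (nat_lit 358) (nat_lit 323)))) (XT.nd (nat_lit 156) (nat_lit 0) (nat_lit 0) (XT.nd (nat_lit 78) (nat_lit 0) (nat_lit 0) (XT.lf (nat_lit 0) (nat_lit 35527707004) (nat_lit 152) (nat_lit 175178934901) (nat_lit 0) (nat_lit 34037131781) (nat_lit 1) (nat_lit 5) (nat_lit 3) (nat_lit 4) (nat_lit 1) (nat_lit 4) (nat_lit 520) (nat_lit 358) (nat_lit 322)) (XT.lf (nat_lit 0) (nat_lit 41167625361) (nat_lit 152)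 (nat_lit 175953357682) (nat_lit 0) (nat_lit 39662237430) (nat_lit 1) (nat_lit 5) (nat_lit 3) (nat_lit 4) (nat_lit 1) (nat_lit 4) (nat_lit 521) (nat_lit 358) (nat_lit 321))) (XT.nd (nat_lit 78) (nat_lit 0) (nat_lit 0) (XT.lf (nat_lit 0) (nat_lit 47042075754) (nat_lit 152) (nat_lit 176862357292) (nat_lit 0) (nat_lit 45522580482) (nat_lit 1) (nat_lit 5) (nat_lit 3) (nat_lit 4) (nat_lit 1) (nat_lit 4) (nat_lit 522) (nat_lit 358) (nat_lit 320)) (XT.lf (nat_lit 0) (nat_lit 53165044969) (nat_lit 152) (nat_lit 177908098017) (nat_lit 0) (nat_lit 51632114135) (nat_lit 1) (nat_lit 5) (nat_lit 3) (nat_lit 4) (nat_lit 1) (nat_lit 4) (nat_lit 523) (nat_lit 358) (nat_lit 319))))) (XT.nd (nat_lit 312) (nat_lit 0) (nat_lit 0) (XT.nd (nat_lit 156) (nat_lit 0) (nat_lit 0) (XT.nd (nat_lit 78) (nat_lit 0) (nat_lit 0) (XT.lf (nat_lit 0) (nat_lit 59551111504) (nat_lit 152) (nat_lit 179093069714) (nat_lit 0) (nat_lit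 58005384896) (nat_lit 1) (nat_lit 5) (nat_lit 3) (nat_lit 4) (nat_lit 1) (nat_lit 4) (nat_lit 524) (nat_lit 358) (nat_lit 318)) (XT.lf (nat_lit 0) (nat_lit 66215480280) (nat_lit 152) (nat_lit 180420093746) (nat_lit 0) (nat_lit 64657567221) (nat_lit 1) (nat_lit 5) (nat_lit 3) (nat_lit 4) (nat_lit 1) (nat_lit 4) (nat_lit 525) (nat_lit 358) (nat_lit 317))) (XT.nd (nat_lit 78) (nat_lit 0) (nat_lit 0) (XT.lf (nat_lit 0) (nat_lit 73174018841) (nat_lit 152) (nat_lit 181892329692) (nat_lit 0) (nat_lit 71604499638) (nat_lit 1) (nat_lit 5) (nat_lit 3) (nat_lit 4) (nat_lit 1) (nat_lit 4) (nat_lit 526) (nat_lit 358) (nat_lit 316)) (XT.lf (nat_lit 0) (nat_lit 80443295137) (nat_lit 152) (nat_lit 183513282878) (nat_lit 0) (nat_lit 78862722463) (nat_lit 1) (nat_lit 5) (nat_lit 3) (nat_lit 4) (nat_lit 1) (nat_lit 4) (nat_lit 527) (nat_lit 358) (nat_lit 315)))) (XT.nd (nat_lit 156) (nat_lit 0) (nat_lit 0) (XT.nd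 (nat_lit 78) (nat_lit 0) (nat_lit 0) (XT.lf (nat_lit 0) (nat_lit 88040616968) (nat_lit 152) (nat_lit 185286812715) (nat_lit 0) (nat_lit 86449517179) (nat_lit 1) (nat_lit 5) (nat_lit 3) (nat_lit 4) (nat_lit 1) (nat_lit 4) (nat_lit 528) (nat_lit 358) (nat_lit 314)) (XT.lf (nat_lit 0) (nat_lit 95984073195) (nat_lit 152) (nat_lit 187217141893) (nat_lit 0) (nat_lit 94382947583) (nat_lit 1) (nat_lit 5) (nat_lit 3) (nat_lit 4) (nat_lit 1) (nat_lit 4) (nat_lit 529) (nat_lit 358) (nat_lit 313))) (XT.nd (nat_lit 78) (nat_lit 0) (nat_lit 0) (XT.lf (nat_lit 0) (nat_lit 104292576810) (nat_lit 152) (nat_lit 189308866434) (nat_lit 0) (nat_lit 102681902794) (nat_lit 1) (nat_lit 5) (nat_lit 3) (nat_lit 4) (nat_lit 1) (nat_lit 4) (nat_lit 530) (nat_lit 358) (nat_lit 312)) (XT.lf (nat_lit 0) (nat_lit 112985909964) (nat_lit 152) (nat_lit 191566966635) (nat_lit 0) (nat_lit 111366142230) (nat_lit 1) (nat_lit 5)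 (nat_lit 3) (nat_lit 4) (nat_lit 1) (nat_lit 4) (nat_lit 531) (nat_lit 358) (nat_lit 311))))))))
noncomputable def xc18 : XT := (XT.nd (nat_lit 59592) (nat_lit 0) (nat_lit 0) (XT.nd (nat_lit 1092) (nat_lit 0) (nat_lit 0) (XT.nd (nat_lit 546) (nat_lit 0) (nat_lit 0) (XT.nd (nat_lit 234) (nat_lit 0) (nat_lit 0) (XT.nd (nat_lit 78) (nat_lit 0) (nat_lit 0) (XT.lf (nat_lit 0) (nat_lit 122084771070) (nat_lit 152) (nat_lit 193996818924) (nat_lit 0) (nat_lit 120456342652) (nat_lit 1) (nat_lit 5) (nat_lit 3) (nat_lit 4) (nat_lit 1) (nat_lit 4) (nat_lit 532) (nat_lit 358) (nat_lit 310)) (XT.nd (nat_lit 78) (nat_lit 0) (nat_lit 0) (XT.lf (nat_lit 0) (nat_lit 131610824081) (nat_lit 152) (nat_lit 196604208665) (nat_lit 0) (nat_lit 129974147394) (nat_lit 1) (nat_lit 5) (nat_lit 3) (nat_lit 4) (nat_lit 1) (nat_lit 4) (nat_lit 533) (nat_lit 358) (nat_lit 309)) (XT.lf (nat_lit 0) (nat_lit 141586750078) (nat_lit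 152) (nat_lit 199395343928) (nat_lit 0) (nat_lit 139942217895) (nat_lit 1) (nat_lit 5) (nat_lit 3) (nat_lit 4) (nat_lit 1) (nat_lit 4) (nat_lit 534) (nat_lit 358) (nat_lit 308)))) (XT.nd (nat_lit 156) (nat_lit 0) (nat_lit 0) (XT.nd (nat_lit 78) (nat_lit 0) (nat_lit 0) (XT.lf (nat_lit 0) (nat_lit 152036301264) (nat_lit 152) (nat_lit 202376870273) (nat_lit 0) (nat_lit 150384287657) (nat_lit 1) (nat_lit 5) (nat_lit 3) (nat_lit 4) (nat_lit 1) (nat_lit 4) (nat_lit 535) (nat_lit 358) (nat_lit 307)) (XT.lf (nat_lit 0) (nat_lit 162984357524) (nat_lit 152) (nat_lit 205555886573) (nat_lit 0) (nat_lit 161325218751) (nat_lit 1) (nat_lit 5) (nat_lit 3) (nat_lit 4) (nat_lit 1) (nat_lit 4) (nat_lit 536) (nat_lit 358) (nat_lit 306))) (XT.nd (nat_lit 78) (nat_lit 0) (nat_lit 0) (XT.lf (nat_lit 0) (nat_lit 174456985658) (nat_lit 152) (nat_lit 208939961913) (nat_lit 0) (nat_lit 172791061013) (nat_lit 1) (nat_lit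 5) (nat_lit 3) (nat_lit 4) (nat_lit 1) (nat_lit 4) (nat_lit 537) (nat_lit 358) (nat_lit 305)) (XT.lf (nat_lit 0) (nat_lit 186481501447) (nat_lit 152) (nat_lit 212537153617) (nat_lit 0) (nat_lit 184809114067) (nat_lit 1) (nat_lit 5) (nat_lit 3) (nat_lit 4) (nat_lit 1) (nat_lit 4) (nat_lit 538) (nat_lit 358) (nat_lit 304))))) (XT.nd (nat_lit 234) (nat_lit 0) (nat_lit 0) (XT.nd (nat_lit 78) (nat_lit 0) (nat_lit 0) (XT.lf (nat_lit 0) (nat_lit 199086534691) (nat_lit 152) (nat_lit 216356026426) (nat_lit 0) (nat_lit 197407992324) (nat_lit 1) (nat_lit 5) (nat_lit 3) (nat_lit 4) (nat_lit 1) (nat_lit 4) (nat_lit 539) (nat_lit 358) (nat_lit 303)) (XT.nd (nat_lit 78) (nat_lit 0) (nat_lit 0) (XT.lf (nat_lit 0) (nat_lit 212302097373) (nat_lit 152) (nat_lit 220405672895) (nat_lit 0) (nat_lit 210617693116) (nat_lit 1) (nat_lit 5) (nat_lit 3) (nat_lit 4) (nat_lit 1) (nat_lit 4) (nat_lit 540) (nat_lit 358) (nat_lit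 302)) (XT.lf (nat_lit 0) (nat_lit 226159655120) (nat_lit 152) (nat_lit 224695735038) (nat_lit 0) (nat_lit 224469668109) (nat_lit 1) (nat_lit 5) (nat_lit 3) (nat_lit 4) (nat_lit 1) (nat_lit 4) (nat_lit 541) (nat_lit 358) (nat_lit 301)))) (XT.nd (nat_lit 156) (nat_lit 0) (nat_lit 0) (XT.nd (nat_lit 78) (nat_lit 0) (nat_lit 0) (XT.lf (nat_lit 0) (nat_lit 240692202116) (nat_lit 152) (nat_lit 229236427291) (nat_lit 0) (nat_lit 238996898197) (nat_lit 1) (nat_lit 5) (nat_lit 3) (nat_lit 4) (nat_lit 1) (nat_lit 4) (nat_lit 542) (nat_lit 358) (nat_lit 300)) (XT.lf (nat_lit 0) (nat_lit 255934339664) (nat_lit 152) (nat_lit 234038560824) (nat_lit 0) (nat_lit 254233972022) (nat_lit 1) (nat_lit 5) (nat_lit 3) (nat_lit 4) (nat_lit 1) (nat_lit 4) (nat_lit 543) (nat_lit 358) (nat_lit 299))) (XT.nd (nat_lit 78) (nat_lit 0) (nat_lit 0) (XT.lf (nat_lit 0) (nat_lit 271922358567) (nat_lit 152) (nat_lit 239113569289)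 (nat_lit 0) (nat_lit 270217168333) (nat_lit 1) (nat_lit 5) (nat_lit 3) (nat_lit 4) (nat_lit 1) (nat_lit 4) (nat_lit 544) (nat_lit 358) (nat_lit 298)) (XT.lf (nat_lit 0) (nat_lit 288694325538) (nat_lit 152) (nat_lit 244473536040) (nat_lit 0) (nat_lit 286984542358) (nat_lit 1) (nat_lit 5) (nat_lit 3) (nat_lit 4) (nat_lit 1) (nat_lit 4) (nat_lit 545) (nat_lit 358) (nat_lit 297)))))) (XT.nd (nat_lit 57954) (nat_lit 0) (nat_lit 228) (XT.nd (nat_lit 57642) (nat_lit 0) (nat_lit 456) (XT.nd (nat_lit 57486) (nat_lit 0) (nat_lit 608) (XT.lf (nat_lit 0) (nat_lit 306290173830) (nat_lit 152) (nat_lit 250131222902) (nat_lit 0) (nat_lit 304576016416) (nat_lit 1) (nat_lit 5) (nat_lit 3) (nat_lit 4) (nat_lit 1) (nat_lit 4) (nat_lit 546) (nat_lit 358) (nat_lit 296)) (XT.nd (nat_lit 78) (nat_lit 0) (nat_lit 0) (XT.lf (nat_lit 0) (nat_lit 9032087020) (nat_lit 76) (nat_lit 6297444004) (nat_lit 76) (nat_lit 6297444004)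 (nat_lit 9) (nat_lit 4) (nat_lit 10) (nat_lit 5) (nat_lit 10) (nat_lit 4) (nat_lit 482) (nat_lit 359) (nat_lit 359)) (XT.lf (nat_lit 0) (nat_lit 33198229945) (nat_lit 76) (nat_lit 5983780149) (nat_lit 76) (nat_lit 5879498853) (nat_lit 9) (nat_lit 4) (nat_lit 10) (nat_lit 5) (nat_lit 10) (nat_lit 4) (nat_lit 483) (nat_lit 359) (nat_lit 358)))) (XT.nd (nat_lit 156) (nat_lit 0) (nat_lit 0) (XT.nd (nat_lit 78) (nat_lit 0) (nat_lit 0) (XT.lf (nat_lit 0) (nat_lit 945756246) (nat_lit 152) (nat_lit 45270345451) (nat_lit 0) (nat_lit 751854516) (nat_lit 7) (nat_lit 5) (nat_lit 9) (nat_lit 4) (nat_lit 7) (nat_lit 4) (nat_lit 484) (nat_lit 359) (nat_lit 357)) (XT.lf (nat_lit 0) (nat_lit 7990060398) (nat_lit 152) (nat_lit 33265005504) (nat_lit 0) (nat_lit 7706076564) (nat_lit 7) (nat_lit 5) (nat_lit 9) (nat_lit 4) (nat_lit 7) (nat_lit 4) (nat_lit 485) (nat_lit 359) (nat_lit 356))) (XT.nd (nat_lit 78) (nat_lit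 0) (nat_lit 0) (XT.lf (nat_lit 0) (nat_lit 15170462877) (nat_lit 152) (nat_lit 21093648901) (nat_lit 0) (nat_lit 14800686563) (nat_lit 7) (nat_lit 5) (nat_lit 9) (nat_lit 4) (nat_lit 7) (nat_lit 4) (nat_lit 486) (nat_lit 359) (nat_lit 355)) (XT.lf (nat_lit 0) (nat_lit 22504059879) (nat_lit 152) (nat_lit 8727296222) (nat_lit 0) (nat_lit 22052576440) (nat_lit 7) (nat_lit 5) (nat_lit 9) (nat_lit 4) (nat_lit 7) (nat_lit 4) (nat_lit 487) (nat_lit 359) (nat_lit 354))))) (XT.nd (nat_lit 234) (nat_lit 152) (nat_lit 0) (XT.nd (nat_lit 78) (nat_lit 0) (nat_lit 0) (XT.lf (nat_lit 0) (nat_lit 3991240863) (nat_lit 76) (nat_lit 26079385940) (nat_lit 76) (nat_lit 25550086193) (nat_lit 6) (nat_lit 4) (nat_lit 7) (nat_lit 5) (nat_lit 7) (nat_lit 4) (nat_lit 488) (nat_lit 359) (nat_lit 353)) (XT.nd (nat_lit 78) (nat_lit 0) (nat_lit 0) (XT.lf (nat_lit 0) (nat_lit 17261171828) (nat_lit 76) (nat_lit 20709410990)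 (nat_lit 76) (nat_lit 20106000473) (nat_lit 6) (nat_lit 4) (nat_lit 7) (nat_lit 5) (nat_lit 7) (nat_lit 4) (nat_lit 489) (nat_lit 359) (nat_lit 352)) (XT.lf (nat_lit 0) (nat_lit 30825527921) (nat_lit 76) (nat_lit 15256446582) (nat_lit 76) (nat_lit 14582454379) (nat_lit 6) (nat_lit 4) (nat_lit 7) (nat_lit 5) (nat_lit 7) (nat_lit 4) (nat_lit 490) (nat_lit 359) (nat_lit 351)))) (XT.nd (nat_lit 156) (nat_lit 152) (nat_lit 0) (XT.nd (nat_lit 78) (nat_lit 0) (nat_lit 0) (XT.lf (nat_lit 0) (nat_lit 44716605226) (nat_lit 76) (nat_lit 9707509466) (nat_lit 76) (nat_lit 8966296610) (nat_lit 6) (nat_lit 4) (nat_lit 7) (nat_lit 5) (nat_lit 7) (nat_lit 4) (nat_lit 491) (nat_lit 359) (nat_lit 350)) (XT.lf (nat_lit 0) (nat_lit 58967477738) (nat_lit 76) (nat_lit 4049387888) (nat_lit 76) (nat_lit 3244155362) (nat_lit 6) (nat_lit 4) (nat_lit 7) (nat_lit 5) (nat_lit 7) (nat_lit 4) (nat_lit 492) (nat_lit 359) (nat_lit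 349))) (XT.nd (nat_lit 78) (nat_lit 0) (nat_lit 0) (XT.lf (nat_lit 0) (nat_lit 2612453084) (nat_lit 152) (nat_lit 64876214681) (nat_lit 0) (nat_lit 1787497235) (nat_lit 4) (nat_lit 5) (nat_lit 6) (nat_lit 4) (nat_lit 4) (nat_lit 4) (nat_lit 493) (nat_lit 359) (nat_lit 348)) (XT.lf (nat_lit 0) (nat_lit 8683815148) (nat_lit 152) (nat_lit 55950490692) (nat_lit 0) (nat_lit 7803556702) (nat_lit 4) (nat_lit 5) (nat_lit 6) (nat_lit 4) (nat_lit 4) (nat_lit 4) (nat_lit 494) (nat_lit 359) (nat_lit 347))))))) (XT.nd (nat_lit 1092) (nat_lit 152) (nat_lit 0) (XT.nd (nat_lit 546) (nat_lit 0) (nat_lit 0) (XT.nd (nat_lit 234) (nat_lit 76) (nat_lit 0) (XT.nd (nat_lit 78) (nat_lit 0) (nat_lit 0) (XT.lf (nat_lit 0) (nat_lit 14905431109) (nat_lit 152) (nat_lit 46887378780) (nat_lit 0) (nat_lit 13972503522) (nat_lit 4) (nat_lit 5) (nat_lit 6) (nat_lit 4) (nat_lit 4) (nat_lit 4) (nat_lit 495) (nat_lit 359) (nat_lit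 346)) (XT.nd (nat_lit 78) (nat_lit 0) (nat_lit 0) (XT.lf (nat_lit 0) (nat_lit 21292114338) (nat_lit 152) (nat_lit 37665300106) (nat_lit 0) (nat_lit 20309025665) (nat_lit 4) (nat_lit 5) (nat_lit 6) (nat_lit 4) (nat_lit 4) (nat_lit 4) (nat_lit 496) (nat_lit 359) (nat_lit 345)) (XT.lf (nat_lit 0) (nat_lit 27859071224) (nat_lit 152) (nat_lit 28262297341) (nat_lit 0) (nat_lit 26828210088) (nat_lit 4) (nat_lit 5) (nat_lit 6) (nat_lit 4) (nat_lit 4) (nat_lit 4) (nat_lit 497) (nat_lit 359) (nat_lit 344)))) (XT.nd (nat_lit 156) (nat_lit 76) (nat_lit 0) (XT.nd (nat_lit 78) (nat_lit 0) (nat_lit 0) (XT.lf (nat_lit 0) (nat_lit 34621937379) (nat_lit 152) (nat_lit 18655982383) (nat_lit 0) (nat_lit 33545578659) (nat_lit 4) (nat_lit 5) (nat_lit 6) (nat_lit 4) (nat_lit 4) (nat_lit 4) (nat_lit 498) (nat_lit 359) (nat_lit 343)) (XT.lf (nat_lit 0) (nat_lit 41596814865) (nat_lit 152) (nat_lit 8823483054) (nat_lit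 0) (nat_lit 40477125112) (nat_lit 4) (nat_lit 5) (nat_lit 6) (nat_lit 4) (nat_lit 4) (nat_lit 4) (nat_lit 499) (nat_lit 359) (nat_lit 342))) (XT.nd (nat_lit 78) (nat_lit 0) (nat_lit 0) (XT.lf (nat_lit 0) (nat_lit 1300226735) (nat_lit 76) (nat_lit 47520383981) (nat_lit 76) (nat_lit 46359426578) (nat_lit 3) (nat_lit 4) (nat_lit 4) (nat_lit 5) (nat_lit 4) (nat_lit 4) (nat_lit 500) (nat_lit 359) (nat_lit 341)) (XT.lf (nat_lit 0) (nat_lit 11998327247) (nat_lit 76) (nat_lit 44438575829) (nat_lit 76) (nat_lit 43238315903) (nat_lit 3) (nat_lit 4) (nat_lit 4) (nat_lit 5) (nat_lit 4) (nat_lit 4) (nat_lit 501) (nat_lit 359) (nat_lit 340))))) (XT.nd (nat_lit 234) (nat_lit 0) (nat_lit 0) (XT.nd (nat_lit 78) (nat_lit 0) (nat_lit 0) (XT.lf (nat_lit 0) (nat_lit 23004545952) (nat_lit 76) (nat_lit 41316965781) (nat_lit 76) (nat_lit 40079274879) (nat_lit 3) (nat_lit 4) (nat_lit 4) (nat_lit 5) (nat_lit 4) (nat_lit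 4) (nat_lit 502) (nat_lit 359) (nat_lit 339)) (XT.nd (nat_lit 78) (nat_lit 0) (nat_lit 0) (XT.lf (nat_lit 0) (nat_lit 34345088132) (nat_lit 76) (nat_lit 38148121431) (nat_lit 76) (nat_lit 36874781981) (nat_lit 3) (nat_lit 4) (nat_lit 4) (nat_lit 5) (nat_lit 4) (nat_lit 4) (nat_lit 503) (nat_lit 359) (nat_lit 338)) (XT.lf (nat_lit 0) (nat_lit 46046955079) (nat_lit 76) (nat_lit 34924497911) (nat_lit 76) (nat_lit 33617207464) (nat_lit 3) (nat_lit 4) (nat_lit 4) (nat_lit 5) (nat_lit 4) (nat_lit 4) (nat_lit 504) (nat_lit 359) (nat_lit 337)))) (XT.nd (nat_lit 156) (nat_lit 0) (nat_lit 0) (XT.nd (nat_lit 78) (nat_lit 0) (nat_lit 0) (XT.lf (nat_lit 0) (nat_lit 58138008380) (nat_lit 76) (nat_lit 31638419928) (nat_lit 76) (nat_lit 30298795198) (nat_lit 3) (nat_lit 4) (nat_lit 4) (nat_lit 5) (nat_lit 4) (nat_lit 4) (nat_lit 505) (nat_lit 359) (nat_lit 336)) (XT.lf (nat_lit 0) (nat_lit 70647036258) (nat_lit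 76) (nat_lit 28282063487) (nat_lit 76) (nat_lit 26911644201) (nat_lit 3) (nat_lit 4) (nat_lit 4) (nat_lit 5) (nat_lit 4) (nat_lit 4) (nat_lit 506) (nat_lit 359) (nat_lit 335))) (XT.nd (nat_lit 78) (nat_lit 0) (nat_lit 0) (XT.lf (nat_lit 0) (nat_lit 83603822112) (nat_lit 76) (nat_lit 24847437262) (nat_lit 76) (nat_lit 23447689828) (nat_lit 3) (nat_lit 4) (nat_lit 4) (nat_lit 5) (nat_lit 4) (nat_lit 4) (nat_lit 507) (nat_lit 359) (nat_lit 334)) (XT.lf (nat_lit 0) (nat_lit 97039215432) (nat_lit 76) (nat_lit 21326363573) (nat_lit 76) (nat_lit 19898684568) (nat_lit 3) (nat_lit 4) (nat_lit 4) (nat_lit 5) (nat_lit 4) (nat_lit 4) (nat_lit 508) (nat_lit 359) (nat_lit 333)))))) (XT.nd (nat_lit 546) (nat_lit 0) (nat_lit 0) (XT.nd (nat_lit 234) (nat_lit 152) (nat_lit 0) (XT.nd (nat_lit 78) (nat_lit 0) (nat_lit 0) (XT.lf (nat_lit 0) (nat_lit 110985205251) (nat_lit 76) (nat_lit 17710458910) (nat_lit 76)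 (nat_lit 16256178410) (nat_lit 3) (nat_lit 4) (nat_lit 4) (nat_lit 5) (nat_lit 4) (nat_lit 4) (nat_lit 509) (nat_lit 359) (nat_lit 332)) (XT.nd (nat_lit 78) (nat_lit 0) (nat_lit 0) (XT.lf (nat_lit 0) (nat_lit 125474996305) (nat_lit 76) (nat_lit 13991113976) (nat_lit 76) (nat_lit 12511498719) (nat_lit 3) (nat_lit 4) (nat_lit 4) (nat_lit 5) (nat_lit 4) (nat_lit 4) (nat_lit 510) (nat_lit 359) (nat_lit 331)) (XT.lf (nat_lit 0) (nat_lit 140543088097) (nat_lit 76) (nat_lit 10159473189) (nat_lit 76) (nat_lit 8655729592) (nat_lit 3) (nat_lit 4) (nat_lit 4) (nat_lit 5) (nat_lit 4) (nat_lit 4) (nat_lit 511) (nat_lit 359) (nat_lit 330)))) (XT.nd (nat_lit 156) (nat_lit 152) (nat_lit 0) (XT.nd (nat_lit 78) (nat_lit 0) (nat_lit 0) (XT.lf (nat_lit 0) (nat_lit 156225357036) (nat_lit 76) (nat_lit 6206413593) (nat_lit 76) (nat_lit 4679690625) (nat_lit 3) (nat_lit 4) (nat_lit 4) (nat_lit 5) (nat_lit 4) (nat_lit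 4) (nat_lit 512) (nat_lit 359) (nat_lit 329)) (XT.lf (nat_lit 0) (nat_lit 172559141858) (nat_lit 76) (nat_lit 2122523144) (nat_lit 76) (nat_lit 573915059) (nat_lit 3) (nat_lit 4) (nat_lit 4) (nat_lit 5) (nat_lit 4) (nat_lit 4) (nat_lit 513) (nat_lit 359) (nat_lit 328))) (XT.nd (nat_lit 78) (nat_lit 0) (nat_lit 0) (XT.lf (nat_lit 0) (nat_lit 3681326964) (nat_lit 152) (nat_lit 177932860343) (nat_lit 0) (nat_lit 2186611676) (nat_lit 1) (nat_lit 5) (nat_lit 3) (nat_lit 4) (nat_lit 1) (nat_lit 4) (nat_lit 514) (nat_lit 359) (nat_lit 327)) (XT.lf (nat_lit 0) (nat_lit 8147647200) (nat_lit 152) (nat_lit 177990255315) (nat_lit 0) (nat_lit 6634026726) (nat_lit 1) (nat_lit 5) (nat_lit 3) (nat_lit 4) (nat_lit 1) (nat_lit 4) (nat_lit 515) (nat_lit 359) (nat_lit 326))))) (XT.nd (nat_lit 312) (nat_lit 0) (nat_lit 0) (XT.nd (nat_lit 156) (nat_lit 0) (nat_lit 0) (XT.nd (nat_lit 78) (nat_lit 0) (nat_lit 0) (XT.lf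 (nat_lit 0) (nat_lit 12776706169) (nat_lit 152) (nat_lit 178172858886) (nat_lit 0) (nat_lit 11245080757) (nat_lit 1) (nat_lit 5) (nat_lit 3) (nat_lit 4) (nat_lit 1) (nat_lit 4) (nat_lit 516) (nat_lit 359) (nat_lit 325)) (XT.lf (nat_lit 0) (nat_lit 17579525442) (nat_lit 152) (nat_lit 178481105827) (nat_lit 0) (nat_lit 16030752469) (nat_lit 1) (nat_lit 5) (nat_lit 3) (nat_lit 4) (nat_lit 1) (nat_lit 4) (nat_lit 517) (nat_lit 359) (nat_lit 324))) (XT.nd (nat_lit 78) (nat_lit 0) (nat_lit 0) (XT.lf (nat_lit 0) (nat_lit 22567540302) (nat_lit 152) (nat_lit 178915730057) (nat_lit 0) (nat_lit 21002436318) (nat_lit 1) (nat_lit 5) (nat_lit 3) (nat_lit 4) (nat_lit 1) (nat_lit 4) (nat_lit 518) (nat_lit 359) (nat_lit 323)) (XT.lf (nat_lit 0) (nat_lit 27752626974) (nat_lit 152) (nat_lit 179477766398) (nat_lit 0) (nat_lit 26171969647) (nat_lit 1) (nat_lit 5) (nat_lit 3) (nat_lit 4) (nat_lit 1) (nat_lit 4)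 (nat_lit 519) (nat_lit 359) (nat_lit 322)))) (XT.nd (nat_lit 156) (nat_lit 0) (nat_lit 0) (XT.nd (nat_lit 78) (nat_lit 0) (nat_lit 0) (XT.lf (nat_lit 0) (nat_lit 33147130904) (nat_lit 152) (nat_lit 180168553031) (nat_lit 0) (nat_lit 31551660869) (nat_lit 1) (nat_lit 5) (nat_lit 3) (nat_lit 4) (nat_lit 1) (nat_lit 4) (nat_lit 520) (nat_lit 359) (nat_lit 321)) (XT.lf (nat_lit 0) (nat_lit 38763896148) (nat_lit 152) (nat_lit 180989734685) (nat_lit 0) (nat_lit 37154318772) (nat_lit 1) (nat_lit 5) (nat_lit 3) (nat_lit 4) (nat_lit 1) (nat_lit 4) (nat_lit 521) (nat_lit 359) (nat_lit 320))) (XT.nd (nat_lit 78) (nat_lit 0) (nat_lit 0) (XT.lf (nat_lit 0) (nat_lit 44616295956) (nat_lit 152) (nat_lit 181943266556) (nat_lit 0) (nat_lit 42993283018) (nat_lit 1) (nat_lit 5) (nat_lit 3) (nat_lit 4) (nat_lit 1) (nat_lit 4) (nat_lit 522) (nat_lit 359) (nat_lit 319)) (XT.lf (nat_lit 0) (nat_lit 50718264615) (nat_lit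 152) (nat_lit 183031418957) (nat_lit 0) (nat_lit 49082455903) (nat_lit 1) (nat_lit 5) (nat_lit 3) (nat_lit 4) (nat_lit 1) (nat_lit 4) (nat_lit 523) (nat_lit 359) (nat_lit 318))))))))
noncomputable def xc19 : XT := (XT.nd (nat_lit 59436) (nat_lit 0) (nat_lit 152) (XT.nd (nat_lit 1092) (nat_lit 0) (nat_lit 0) (XT.nd (nat_lit 546) (nat_lit 0) (nat_lit 0) (XT.nd (nat_lit 234) (nat_lit 0) (nat_lit 0) (XT.nd (nat_lit 78) (nat_lit 0) (nat_lit 0) (XT.lf (nat_lit 0) (nat_lit 57084330621) (nat_lit 152) (nat_lit 184256782727) (nat_lit 0) (nat_lit 55436335457) (nat_lit 1) (nat_lit 5) (nat_lit 3) (nat_lit 4) (nat_lit 1) (nat_lit 4) (nat_lit 524) (nat_lit 359) (nat_lit 317)) (XT.nd (nat_lit 78) (nat_lit 0) (nat_lit 0) (XT.lf (nat_lit 0) (nat_lit 63729651273) (nat_lit 152) (nat_lit 185622275399) (nat_lit 0) (nat_lit 62070049965) (nat_lit 1) (nat_lit 5) (nat_lit 3) (nat_lit 4) (nat_lit 1) (nat_lit 4) (nat_lit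 525) (nat_lit 359) (nat_lit 316)) (XT.lf (nat_lit 0) (nat_lit 70670048764) (nat_lit 152) (nat_lit 187131148147) (nat_lit 0) (nat_lit 68999393986) (nat_lit 1) (nat_lit 5) (nat_lit 3) (nat_lit 4) (nat_lit 1) (nat_lit 4) (nat_lit 526) (nat_lit 359) (nat_lit 315)))) (XT.nd (nat_lit 156) (nat_lit 0) (nat_lit 0) (XT.nd (nat_lit 78) (nat_lit 0) (nat_lit 0) (XT.lf (nat_lit 0) (nat_lit 77922047850) (nat_lit 152) (nat_lit 188786993524) (nat_lit 0) (nat_lit 76240865957) (nat_lit 1) (nat_lit 5) (nat_lit 3) (nat_lit 4) (nat_lit 1) (nat_lit 4) (nat_lit 527) (nat_lit 359) (nat_lit 314)) (XT.lf (nat_lit 0) (nat_lit 85502915196) (nat_lit 152) (nat_lit 190593754019) (nat_lit 0) (nat_lit 83811707479) (nat_lit 1) (nat_lit 5) (nat_lit 3) (nat_lit 4) (nat_lit 1) (nat_lit 4) (nat_lit 528) (nat_lit 359) (nat_lit 313))) (XT.nd (nat_lit 78) (nat_lit 0) (nat_lit 0) (XT.lf (nat_lit 0) (nat_lit 93430700485) (nat_lit 152)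 (nat_lit 192555731443) (nat_lit 0) (nat_lit 91729944364) (nat_lit 1) (nat_lit 5) (nat_lit 3) (nat_lit 4) (nat_lit 1) (nat_lit 4) (nat_lit 529) (nat_lit 359) (nat_lit 312)) (XT.lf (nat_lit 0) (nat_lit 101724279397) (nat_lit 152) (nat_lit 194677597170) (nat_lit 0) (nat_lit 100014429558) (nat_lit 1) (nat_lit 5) (nat_lit 3) (nat_lit 4) (nat_lit 1) (nat_lit 4) (nat_lit 530) (nat_lit 359) (nat_lit 311))))) (XT.nd (nat_lit 234) (nat_lit 0) (nat_lit 0) (XT.nd (nat_lit 78) (nat_lit 0) (nat_lit 0) (XT.lf (nat_lit 0) (nat_lit 110403398547) (nat_lit 152) (nat_lit 196964403263) (nat_lit 0) (nat_lit 108684888025) (nat_lit 1) (nat_lit 5) (nat_lit 3) (nat_lit 4) (nat_lit 1) (nat_lit 4) (nat_lit 531) (nat_lit 359) (nat_lit 310)) (XT.nd (nat_lit 78) (nat_lit 0) (nat_lit 0) (XT.lf (nat_lit 0) (nat_lit 119488722507) (nat_lit 152) (nat_lit 199421594497) (nat_lit 0) (nat_lit 117761963715) (nat_lit 1) (nat_lit 5)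 (nat_lit 3) (nat_lit 4) (nat_lit 1) (nat_lit 4) (nat_lit 532) (nat_lit 359) (nat_lit 309)) (XT.lf (nat_lit 0) (nat_lit 129001882999) (nat_lit 152) (nat_lit 202055021328) (nat_lit 0) (nat_lit 127267268712) (nat_lit 1) (nat_lit 5) (nat_lit 3) (nat_lit 4) (nat_lit 1) (nat_lit 4) (nat_lit 533) (nat_lit 359) (nat_lit 308)))) (XT.nd (nat_lit 156) (nat_lit 0) (nat_lit 0) (XT.nd (nat_lit 78) (nat_lit 0) (nat_lit 0) (XT.lf (nat_lit 0) (nat_lit 138965530405) (nat_lit 152) (nat_lit 204870953820) (nat_lit 0) (nat_lit 137223434694) (nat_lit 1) (nat_lit 5) (nat_lit 3) (nat_lit 4) (nat_lit 1) (nat_lit 4) (nat_lit 534) (nat_lit 359) (nat_lit 307)) (XT.lf (nat_lit 0) (nat_lit 149403387696) (nat_lit 152) (nat_lit 207876096574) (nat_lit 0) (nat_lit 147654166819) (nat_lit 1) (nat_lit 5) (nat_lit 3) (nat_lit 4) (nat_lit 1) (nat_lit 4) (nat_lit 535) (nat_lit 359) (nat_lit 306))) (XT.nd (nat_lit 78) (nat_lit 0) (nat_lit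 0) (XT.lf (nat_lit 0) (nat_lit 160340306912) (nat_lit 152) (nat_lit 211077604691) (nat_lit 0) (nat_lit 158584300163) (nat_lit 1) (nat_lit 5) (nat_lit 3) (nat_lit 4) (nat_lit 1) (nat_lit 4) (nat_lit 536) (nat_lit 359) (nat_lit 305)) (XT.lf (nat_lit 0) (nat_lit 171802328338) (nat_lit 152) (nat_lit 214483100810) (nat_lit 0) (nat_lit 170039858853) (nat_lit 1) (nat_lit 5) (nat_lit 3) (nat_lit 4) (nat_lit 1) (nat_lit 4) (nat_lit 537) (nat_lit 359) (nat_lit 304)))))) (XT.nd (nat_lit 546) (nat_lit 0) (nat_lit 0) (XT.nd (nat_lit 234) (nat_lit 0) (nat_lit 0) (XT.nd (nat_lit 78) (nat_lit 0) (nat_lit 0) (XT.lf (nat_lit 0) (nat_lit 183816742500) (nat_lit 152) (nat_lit 218100693255) (nat_lit 0) (nat_lit 182048118030) (nat_lit 1) (nat_lit 5) (nat_lit 3) (nat_lit 4) (nat_lit 1) (nat_lit 4) (nat_lit 538) (nat_lit 359) (nat_lit 303)) (XT.nd (nat_lit 78) (nat_lit 0) (nat_lit 0) (XT.lf (nat_lit 0) (nat_lit 196412155147)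 (nat_lit 152) (nat_lit 221938995342) (nat_lit 0) (nat_lit 194637668785) (nat_lit 1) (nat_lit 5) (nat_lit 3) (nat_lit 4) (nat_lit 1) (nat_lit 4) (nat_lit 539) (nat_lit 359) (nat_lit 302)) (XT.lf (nat_lit 0) (nat_lit 209618555357) (nat_lit 152) (nat_lit 226007145885) (nat_lit 0) (nat_lit 207838486241) (nat_lit 1) (nat_lit 5) (nat_lit 3) (nat_lit 4) (nat_lit 1) (nat_lit 4) (nat_lit 540) (nat_lit 359) (nat_lit 301)))) (XT.nd (nat_lit 156) (nat_lit 0) (nat_lit 0) (XT.nd (nat_lit 78) (nat_lit 0) (nat_lit 0) (XT.lf (nat_lit 0) (nat_lit 223467386939) (nat_lit 152) (nat_lit 230314830956) (nat_lit 0) (nat_lit 221682000915) (nat_lit 1) (nat_lit 5) (nat_lit 3) (nat_lit 4) (nat_lit 1) (nat_lit 4) (nat_lit 541) (nat_lit 359) (nat_lit 300)) (XT.lf (nat_lit 0) (nat_lit 237991623302) (nat_lit 152) (nat_lit 234872306949) (nat_lit 0) (nat_lit 236201173555) (nat_lit 1) (nat_lit 5) (nat_lit 3) (nat_lit 4) (nat_lit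 1) (nat_lit 4) (nat_lit 542) (nat_lit 359) (nat_lit 299))) (XT.nd (nat_lit 78) (nat_lit 0) (nat_lit 0) (XT.lf (nat_lit 0) (nat_lit 253225845961) (nat_lit 152) (nat_lit 239690424997) (nat_lit 0) (nat_lit 251430573622) (nat_lit 1) (nat_lit 5) (nat_lit 3) (nat_lit 4) (nat_lit 1) (nat_lit 4) (nat_lit 543) (nat_lit 359) (nat_lit 298)) (XT.lf (nat_lit 0) (nat_lit 269206326875) (nat_lit 152) (nat_lit 244780656810) (nat_lit 0) (nat_lit 267406461590) (nat_lit 1) (nat_lit 5) (nat_lit 3) (nat_lit 4) (nat_lit 1) (nat_lit 4) (nat_lit 544) (nat_lit 359) (nat_lit 297))))) (XT.nd (nat_lit 57486) (nat_lit 0) (nat_lit 456) (XT.nd (nat_lit 78) (nat_lit 0) (nat_lit 0) (XT.lf (nat_lit 0) (nat_lit 285971114808) (nat_lit 152) (nat_lit 250155121986) (nat_lit 0) (nat_lit 284166875289) (nat_lit 1) (nat_lit 5) (nat_lit 3) (nat_lit 4) (nat_lit 1) (nat_lit 4) (nat_lit 545) (nat_lit 359) (nat_lit 296)) (XT.nd (nat_lit 57330)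 (nat_lit 0) (nat_lit 684) (XT.lf (nat_lit 0) (nat_lit 303560125921) (nat_lit 152) (nat_lit 255826616873) (nat_lit 0) (nat_lit 301751720466) (nat_lit 1) (nat_lit 5) (nat_lit 3) (nat_lit 4) (nat_lit 1) (nat_lit 4) (nat_lit 546) (nat_lit 359) (nat_lit 295)) (XT.lf (nat_lit 0) (nat_lit 7272236380) (nat_lit 152) (nat_lit 5411422363) (nat_lit 0) (nat_lit 7272236380) (nat_lit 10) (nat_lit 5) (nat_lit 12) (nat_lit 4) (nat_lit 10) (nat_lit 4) (nat_lit 480) (nat_lit 360) (nat_lit 360)))) (XT.nd (nat_lit 156) (nat_lit 152) (nat_lit 0) (XT.nd (nat_lit 78) (nat_lit 0) (nat_lit 0) (XT.lf (nat_lit 0) (nat_lit 3202657869) (nat_lit 76) (nat_lit 19225243106) (nat_lit 76) (nat_lit 19115747745) (nat_lit 9) (nat_lit 4) (nat_lit 10) (nat_lit 5) (nat_lit 10) (nat_lit 4) (nat_lit 481) (nat_lit 360) (nat_lit 359)) (XT.lf (nat_lit 0) (nat_lit 17834644247) (nat_lit 76) (nat_lit 12819405254) (nat_lit 76) (nat_lit 12605628597)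 (nat_lit 9) (nat_lit 4) (nat_lit 10) (nat_lit 5) (nat_lit 10) (nat_lit 4) (nat_lit 482) (nat_lit 360) (nat_lit 358))) (XT.nd (nat_lit 78) (nat_lit 152) (nat_lit 0) (XT.lf (nat_lit 0) (nat_lit 32750100348) (nat_lit 76) (nat_lit 6317842048) (nat_lit 76) (nat_lit 6004749871) (nat_lit 9) (nat_lit 4) (nat_lit 10) (nat_lit 5) (nat_lit 10) (nat_lit 4) (nat_lit 483) (nat_lit 360) (nat_lit 357)) (XT.lf (nat_lit 0) (nat_lit 701074667) (nat_lit 152) (nat_lit 45971527359) (nat_lit 0) (nat_lit 312809537) (nat_lit 7) (nat_lit 5) (nat_lit 9) (nat_lit 4) (nat_lit 7) (nat_lit 4) (nat_lit 484) (nat_lit 360) (nat_lit 356))))))) (XT.nd (nat_lit 1092) (nat_lit 76) (nat_lit 0) (XT.nd (nat_lit 546) (nat_lit 152) (nat_lit 0) (XT.nd (nat_lit 234) (nat_lit 76) (nat_lit 0) (XT.nd (nat_lit 78) (nat_lit 0) (nat_lit 0) (XT.lf (nat_lit 0) (nat_lit 7639955951) (nat_lit 152) (nat_lit 34178016847) (nat_lit 0) (nat_lit 7165898341)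 (nat_lit 7) (nat_lit 5) (nat_lit 9) (nat_lit 4) (nat_lit 7) (nat_lit 4) (nat_lit 485) (nat_lit 360) (nat_lit 355)) (XT.nd (nat_lit 78) (nat_lit 0) (nat_lit 0) (XT.lf (nat_lit 0) (nat_lit 14719955697) (nat_lit 152) (nat_lit 22208402563) (nat_lit 0) (nat_lit 14164190963) (nat_lit 7) (nat_lit 5) (nat_lit 9) (nat_lit 4) (nat_lit 7) (nat_lit 4) (nat_lit 486) (nat_lit 360) (nat_lit 354)) (XT.lf (nat_lit 0) (nat_lit 21957931049) (nat_lit 152) (nat_lit 10034185426) (nat_lit 0) (nat_lit 21324350006) (nat_lit 7) (nat_lit 5) (nat_lit 9) (nat_lit 4) (nat_lit 7) (nat_lit 4) (nat_lit 487) (nat_lit 360) (nat_lit 353)))) (XT.nd (nat_lit 156) (nat_lit 0) (nat_lit 0) (XT.nd (nat_lit 78) (nat_lit 0) (nat_lit 0) (XT.lf (nat_lit 0) (nat_lit 2452103417) (nat_lit 76) (nat_lit 26957296068) (nat_lit 76) (nat_lit 26249604255) (nat_lit 6) (nat_lit 4) (nat_lit 7) (nat_lit 5) (nat_lit 7) (nat_lit 4) (nat_lit 488) (nat_lit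 360) (nat_lit 352)) (XT.lf (nat_lit 0) (nat_lit 15541999543) (nat_lit 76) (nat_lit 21677813455) (nat_lit 76) (nat_lit 20899539955) (nat_lit 6) (nat_lit 4) (nat_lit 7) (nat_lit 5) (nat_lit 7) (nat_lit 4) (nat_lit 489) (nat_lit 360) (nat_lit 351))) (XT.nd (nat_lit 78) (nat_lit 0) (nat_lit 0) (XT.lf (nat_lit 0) (nat_lit 28934893884) (nat_lit 76) (nat_lit 16311032224) (nat_lit 76) (nat_lit 15465538071) (nat_lit 6) (nat_lit 4) (nat_lit 7) (nat_lit 5) (nat_lit 7) (nat_lit 4) (nat_lit 490) (nat_lit 360) (nat_lit 350)) (XT.lf (nat_lit 0) (nat_lit 42662674283) (nat_lit 76) (nat_lit 10844174324) (nat_lit 76) (nat_lit 9934660502) (nat_lit 6) (nat_lit 4) (nat_lit 7) (nat_lit 5) (nat_lit 7) (nat_lit 4) (nat_lit 491) (nat_lit 360) (nat_lit 349))))) (XT.nd (nat_lit 234) (nat_lit 0) (nat_lit 0) (XT.nd (nat_lit 78) (nat_lit 152) (nat_lit 0) (XT.lf (nat_lit 0) (nat_lit 56758025931) (nat_lit 76) (nat_lit 5264223429)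 (nat_lit 76) (nat_lit 4293738492) (nat_lit 6) (nat_lit 4) (nat_lit 7) (nat_lit 5) (nat_lit 7) (nat_lit 4) (nat_lit 492) (nat_lit 360) (nat_lit 348)) (XT.nd (nat_lit 78) (nat_lit 0) (nat_lit 0) (XT.lf (nat_lit 0) (nat_lit 1461847775) (nat_lit 152) (nat_lit 67394561799) (nat_lit 0) (nat_lit 482273809) (nat_lit 4) (nat_lit 5) (nat_lit 6) (nat_lit 4) (nat_lit 4) (nat_lit 4) (nat_lit 493) (nat_lit 360) (nat_lit 347)) (XT.lf (nat_lit 0) (nat_lit 7458422421) (nat_lit 152) (nat_lit 58619519896) (nat_lit 0) (nat_lit 6426179315) (nat_lit 4) (nat_lit 5) (nat_lit 6) (nat_lit 4) (nat_lit 4) (nat_lit 4) (nat_lit 494) (nat_lit 360) (nat_lit 346)))) (XT.nd (nat_lit 156) (nat_lit 0) (nat_lit 0) (XT.nd (nat_lit 78) (nat_lit 0) (nat_lit 0) (XT.lf (nat_lit 0) (nat_lit 13608812270) (nat_lit 152) (nat_lit 49699914732) (nat_lit 0) (nat_lit 12526408077) (nat_lit 4) (nat_lit 5) (nat_lit 6) (nat_lit 4) (nat_lit 4) (nat_lit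 4) (nat_lit 495) (nat_lit 360) (nat_lit 345)) (XT.lf (nat_lit 0) (nat_lit 19927661107) (nat_lit 152) (nat_lit 40614509152) (nat_lit 0) (nat_lit 18797484451) (nat_lit 4) (nat_lit 5) (nat_lit 6) (nat_lit 4) (nat_lit 4) (nat_lit 4) (nat_lit 496) (nat_lit 360) (nat_lit 344))) (XT.nd (nat_lit 78) (nat_lit 0) (nat_lit 0) (XT.lf (nat_lit 0) (nat_lit 26430013811) (nat_lit 152) (nat_lit 31341671239) (nat_lit 0) (nat_lit 25254339570) (nat_lit 4) (nat_lit 5) (nat_lit 6) (nat_lit 4) (nat_lit 4) (nat_lit 4) (nat_lit 497) (nat_lit 360) (nat_lit 343)) (XT.lf (nat_lit 0) (nat_lit 33131352172) (nat_lit 152) (nat_lit 21859322806) (nat_lit 0) (nat_lit 31912346899) (nat_lit 4) (nat_lit 5) (nat_lit 6) (nat_lit 4) (nat_lit 4) (nat_lit 4) (nat_lit 498) (nat_lit 360) (nat_lit 342)))))) (XT.nd (nat_lit 546) (nat_lit 0) (nat_lit 0) (XT.nd (nat_lit 234) (nat_lit 0) (nat_lit 0) (XT.nd (nat_lit 78) (nat_lit 76) (nat_lit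 0) (XT.lf (nat_lit 0) (nat_lit 40047631759) (nat_lit 152) (nat_lit 12144886833) (nat_lit 0) (nat_lit 38787358836) (nat_lit 4) (nat_lit 5) (nat_lit 6) (nat_lit 4) (nat_lit 4) (nat_lit 4) (nat_lit 499) (nat_lit 360) (nat_lit 341)) (XT.nd (nat_lit 78) (nat_lit 76) (nat_lit 0) (XT.lf (nat_lit 0) (nat_lit 47195319904) (nat_lit 152) (nat_lit 2175233712) (nat_lit 0) (nat_lit 45895744458) (nat_lit 4) (nat_lit 5) (nat_lit 6) (nat_lit 4) (nat_lit 4) (nat_lit 4) (nat_lit 500) (nat_lit 360) (nat_lit 340)) (XT.lf (nat_lit 0) (nat_lit 8340316026) (nat_lit 76) (nat_lit 46381334594) (nat_lit 76) (nat_lit 45044328172) (nat_lit 3) (nat_lit 4) (nat_lit 4) (nat_lit 5) (nat_lit 4) (nat_lit 4) (nat_lit 501) (nat_lit 360) (nat_lit 339)))) (XT.nd (nat_lit 156) (nat_lit 0) (nat_lit 0) (XT.nd (nat_lit 78) (nat_lit 0) (nat_lit 0) (XT.lf (nat_lit 0) (nat_lit 19241174994) (nat_lit 76) (nat_lit 43312820253) (nat_lit 76)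 (nat_lit 41940165284) (nat_lit 3) (nat_lit 4) (nat_lit 4) (nat_lit 5) (nat_lit 4) (nat_lit 4) (nat_lit 502) (nat_lit 360) (nat_lit 338)) (XT.lf (nat_lit 0) (nat_lit 30481374569) (nat_lit 76) (nat_lit 40194543243) (nat_lit 76) (nat_lit 38787937276) (nat_lit 3) (nat_lit 4) (nat_lit 4) (nat_lit 5) (nat_lit 4) (nat_lit 4) (nat_lit 503) (nat_lit 360) (nat_lit 337))) (XT.nd (nat_lit 78) (nat_lit 0) (nat_lit 0) (XT.lf (nat_lit 0) (nat_lit 42087677129) (nat_lit 76) (nat_lit 37019079096) (nat_lit 76) (nat_lit 35580138845) (nat_lit 3) (nat_lit 4) (nat_lit 4) (nat_lit 5) (nat_lit 4) (nat_lit 4) (nat_lit 504) (nat_lit 360) (nat_lit 336)) (XT.lf (nat_lit 0) (nat_lit 54087716728) (nat_lit 76) (nat_lit 33778867181) (nat_lit 76) (nat_lit 32309132375) (nat_lit 3) (nat_lit 4) (nat_lit 4) (nat_lit 5) (nat_lit 4) (nat_lit 4) (nat_lit 505) (nat_lit 360) (nat_lit 335))))) (XT.nd (nat_lit 312) (nat_lit 0) (nat_lit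 0) (XT.nd (nat_lit 156) (nat_lit 0) (nat_lit 0) (XT.nd (nat_lit 78) (nat_lit 0) (nat_lit 0) (XT.lf (nat_lit 0) (nat_lit 66510064890) (nat_lit 76) (nat_lit 30466192710) (nat_lit 76) (nat_lit 28967129756) (nat_lit 3) (nat_lit 4) (nat_lit 4) (nat_lit 5) (nat_lit 4) (nat_lit 4) (nat_lit 506) (nat_lit 360) (nat_lit 334)) (XT.lf (nat_lit 0) (nat_lit 79384298633) (nat_lit 76) (nat_lit 27073168362) (nat_lit 76) (nat_lit 25546173837) (nat_lit 3) (nat_lit 4) (nat_lit 4) (nat_lit 5) (nat_lit 4) (nat_lit 4) (nat_lit 507) (nat_lit 360) (nat_lit 333))) (XT.nd (nat_lit 78) (nat_lit 0) (nat_lit 0) (XT.lf (nat_lit 0) (nat_lit 92741070896) (nat_lit 76) (nat_lit 23591715507) (nat_lit 76) (nat_lit 22038119487) (nat_lit 3) (nat_lit 4) (nat_lit 4) (nat_lit 5) (nat_lit 4) (nat_lit 4) (nat_lit 508) (nat_lit 360) (nat_lit 332)) (XT.lf (nat_lit 0) (nat_lit 106612183517) (nat_lit 76) (nat_lit 20013544972) (nat_lit 76)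 (nat_lit 18434614195) (nat_lit 3) (nat_lit 4) (nat_lit 4) (nat_lit 5) (nat_lit 4) (nat_lit 4) (nat_lit 509) (nat_lit 360) (nat_lit 331)))) (XT.nd (nat_lit 156) (nat_lit 0) (nat_lit 0) (XT.nd (nat_lit 78) (nat_lit 0) (nat_lit 0) (XT.lf (nat_lit 0) (nat_lit 121030662954) (nat_lit 76) (nat_lit 16330137303) (nat_lit 76) (nat_lit 14727078186) (nat_lit 3) (nat_lit 4) (nat_lit 4) (nat_lit 5) (nat_lit 4) (nat_lit 4) (nat_lit 510) (nat_lit 360) (nat_lit 330)) (XT.lf (nat_lit 0) (nat_lit 136030838920) (nat_lit 76) (nat_lit 12532722482) (nat_lit 76) (nat_lit 10906683994) (nat_lit 3) (nat_lit 4) (nat_lit 4) (nat_lit 5) (nat_lit 4) (nat_lit 4) (nat_lit 511) (nat_lit 360) (nat_lit 329))) (XT.nd (nat_lit 78) (nat_lit 0) (nat_lit 0) (XT.lf (nat_lit 0) (nat_lit 151648426121) (nat_lit 76) (nat_lit 8612259046) (nat_lit 76) (nat_lit 6964335441) (nat_lit 3) (nat_lit 4) (nat_lit 4) (nat_lit 5) (nat_lit 4) (nat_lit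 4) (nat_lit 512) (nat_lit 360) (nat_lit 328)) (XT.lf (nat_lit 0) (nat_lit 167920609288) (nat_lit 76) (nat_lit 4559412557) (nat_lit 76) (nat_lit 2890645985) (nat_lit 3) (nat_lit 4) (nat_lit 4) (nat_lit 5) (nat_lit 4) (nat_lit 4) (nat_lit 513) (nat_lit 360) (nat_lit 327))))))))
noncomputable def xc20 : XT := (XT.nd (nat_lit 2184) (nat_lit 0) (nat_lit 0) (XT.nd (nat_lit 1092) (nat_lit 0) (nat_lit 0) (XT.nd (nat_lit 546) (nat_lit 0) (nat_lit 0) (XT.nd (nat_lit 234) (nat_lit 0) (nat_lit 0) (XT.nd (nat_lit 78) (nat_lit 0) (nat_lit 0) (XT.lf (nat_lit 0) (nat_lit 969921132) (nat_lit 76) (nat_lit 326926745) (nat_lit 152) (nat_lit 182627942787) (nat_lit 1) (nat_lit 5) (nat_lit 2) (nat_lit 5) (nat_lit 3) (nat_lit 4) (nat_lit 514) (nat_lit 360) (nat_lit 326)) (XT.nd (nat_lit 78) (nat_lit 0) (nat_lit 0) (XT.lf (nat_lit 0) (nat_lit 5728513979) (nat_lit 152) (nat_lit 183066837751) (nat_lit 0) (nat_lit 4102302357)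 (nat_lit 1) (nat_lit 5) (nat_lit 3) (nat_lit 4) (nat_lit 1) (nat_lit 4) (nat_lit 515) (nat_lit 360) (nat_lit 325)) (XT.lf (nat_lit 0) (nat_lit 10329430195) (nat_lit 152) (nat_lit 183306277024) (nat_lit 0) (nat_lit 8686071012) (nat_lit 1) (nat_lit 5) (nat_lit 3) (nat_lit 4) (nat_lit 1) (nat_lit 4) (nat_lit 516) (nat_lit 360) (nat_lit 324)))) (XT.nd (nat_lit 156) (nat_lit 0) (nat_lit 0) (XT.nd (nat_lit 78) (nat_lit 0) (nat_lit 0) (XT.lf (nat_lit 0) (nat_lit 15105446845) (nat_lit 152) (nat_lit 183668653205) (nat_lit 0) (nat_lit 13445756651) (nat_lit 1) (nat_lit 5) (nat_lit 3) (nat_lit 4) (nat_lit 1) (nat_lit 4) (nat_lit 517) (nat_lit 360) (nat_lit 323)) (XT.lf (nat_lit 0) (nat_lit 20067935397) (nat_lit 152) (nat_lit 184154829094) (nat_lit 0) (nat_lit 18392691860) (nat_lit 1) (nat_lit 5) (nat_lit 3) (nat_lit 4) (nat_lit 1) (nat_lit 4) (nat_lit 518) (nat_lit 360) (nat_lit 322))) (XT.nd (nat_lit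 78) (nat_lit 0) (nat_lit 0) (XT.lf (nat_lit 0) (nat_lit 25228711300) (nat_lit 152) (nat_lit 184765962252) (nat_lit 0) (nat_lit 23538655056) (nat_lit 1) (nat_lit 5) (nat_lit 3) (nat_lit 4) (nat_lit 1) (nat_lit 4) (nat_lit 519) (nat_lit 360) (nat_lit 321)) (XT.lf (nat_lit 0) (nat_lit 30600062117) (nat_lit 152) (nat_lit 185503507758) (nat_lit 0) (nat_lit 28895898531) (nat_lit 1) (nat_lit 5) (nat_lit 3) (nat_lit 4) (nat_lit 1) (nat_lit 4) (nat_lit 520) (nat_lit 360) (nat_lit 320))))) (XT.nd (nat_lit 234) (nat_lit 0) (nat_lit 0) (XT.nd (nat_lit 78) (nat_lit 0) (nat_lit 0) (XT.lf (nat_lit 0) (nat_lit 36194776776) (nat_lit 152) (nat_lit 186369221672) (nat_lit 0) (nat_lit 34477177628) (nat_lit 1) (nat_lit 5) (nat_lit 3) (nat_lit 4) (nat_lit 1) (nat_lit 4) (nat_lit 521) (nat_lit 360) (nat_lit 319)) (XT.nd (nat_lit 78) (nat_lit 0) (nat_lit 0) (XT.lf (nat_lit 0) (nat_lit 42026176029) (nat_lit 152) (nat_lit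 187365165219) (nat_lit 0) (nat_lit 40295781107) (nat_lit 1) (nat_lit 5) (nat_lit 3) (nat_lit 4) (nat_lit 1) (nat_lit 4) (nat_lit 522) (nat_lit 360) (nat_lit 318)) (XT.lf (nat_lit 0) (nat_lit 48108144158) (nat_lit 152) (nat_lit 188493709693) (nat_lit 0) (nat_lit 46365562784) (nat_lit 1) (nat_lit 5) (nat_lit 3) (nat_lit 4) (nat_lit 1) (nat_lit 4) (nat_lit 523) (nat_lit 360) (nat_lit 317)))) (XT.nd (nat_lit 156) (nat_lit 0) (nat_lit 0) (XT.nd (nat_lit 78) (nat_lit 0) (nat_lit 0) (XT.lf (nat_lit 0) (nat_lit 54455162040) (nat_lit 152) (nat_lit 189757542104) (nat_lit 0) (nat_lit 52700974522) (nat_lit 1) (nat_lit 5) (nat_lit 3) (nat_lit 4) (nat_lit 1) (nat_lit 4) (nat_lit 524) (nat_lit 360) (nat_lit 316)) (XT.lf (nat_lit 0) (nat_lit 61082341622) (nat_lit 152) (nat_lit 191159671577) (nat_lit 0) (nat_lit 59317100634) (nat_lit 1) (nat_lit 5) (nat_lit 3) (nat_lit 4) (nat_lit 1) (nat_lit 4) (nat_lit 525)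 (nat_lit 360) (nat_lit 315))) (XT.nd (nat_lit 78) (nat_lit 0) (nat_lit 0) (XT.lf (nat_lit 0) (nat_lit 68005461904) (nat_lit 152) (nat_lit 192703436516) (nat_lit 0) (nat_lit 66229693800) (nat_lit 1) (nat_lit 5) (nat_lit 3) (nat_lit 4) (nat_lit 1) (nat_lit 4) (nat_lit 526) (nat_lit 360) (nat_lit 314)) (XT.lf (nat_lit 0) (nat_lit 75241006504) (nat_lit 152) (nat_lit 194392512551) (nat_lit 0) (nat_lit 73455212577) (nat_lit 1) (nat_lit 5) (nat_lit 3) (nat_lit 4) (nat_lit 1) (nat_lit 4) (nat_lit 527) (nat_lit 360) (nat_lit 313)))))) (XT.nd (nat_lit 546) (nat_lit 0) (nat_lit 0) (XT.nd (nat_lit 234) (nat_lit 0) (nat_lit 0) (XT.nd (nat_lit 78) (nat_lit 0) (nat_lit 0) (XT.lf (nat_lit 0) (nat_lit 82806202911) (nat_lit 152) (nat_lit 196230921292) (nat_lit 0) (nat_lit 81010860581) (nat_lit 1) (nat_lit 5) (nat_lit 3) (nat_lit 4) (nat_lit 1) (nat_lit 4) (nat_lit 528) (nat_lit 360) (nat_lit 312)) (XT.nd (nat_lit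 78) (nat_lit 0) (nat_lit 0) (XT.lf (nat_lit 0) (nat_lit 90719063497) (nat_lit 152) (nat_lit 198223039902) (nat_lit 0) (nat_lit 88914627449) (nat_lit 1) (nat_lit 5) (nat_lit 3) (nat_lit 4) (nat_lit 1) (nat_lit 4) (nat_lit 529) (nat_lit 360) (nat_lit 311)) (XT.lf (nat_lit 0) (nat_lit 98998428406) (nat_lit 152) (nat_lit 200373611522) (nat_lit 0) (nat_lit 97185331674) (nat_lit 1) (nat_lit 5) (nat_lit 3) (nat_lit 4) (nat_lit 1) (nat_lit 4) (nat_lit 530) (nat_lit 360) (nat_lit 310)))) (XT.nd (nat_lit 156) (nat_lit 0) (nat_lit 0) (XT.nd (nat_lit 78) (nat_lit 0) (nat_lit 0) (XT.lf (nat_lit 0) (nat_lit 107664010411) (nat_lit 152) (nat_lit 202687756560) (nat_lit 0) (nat_lit 105842665409) (nat_lit 1) (nat_lit 5) (nat_lit 3) (nat_lit 4) (nat_lit 1) (nat_lit 4) (nat_lit 531) (nat_lit 360) (nat_lit 309)) (XT.lf (nat_lit 0) (nat_lit 116736441850) (nat_lit 152) (nat_lit 205170984884) (nat_lit 0) (nat_lit 114907241354)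 (nat_lit 1) (nat_lit 5) (nat_lit 3) (nat_lit 4) (nat_lit 1) (nat_lit 4) (nat_lit 532) (nat_lit 360) (nat_lit 308))) (XT.nd (nat_lit 78) (nat_lit 0) (nat_lit 0) (XT.lf (nat_lit 0) (nat_lit 126237323752) (nat_lit 152) (nat_lit 207829208944) (nat_lit 0) (nat_lit 124400641831) (nat_lit 1) (nat_lit 5) (nat_lit 3) (nat_lit 4) (nat_lit 1) (nat_lit 4) (nat_lit 533) (nat_lit 360) (nat_lit 307)) (XT.lf (nat_lit 0) (nat_lit 136189277263) (nat_lit 152) (nat_lit 210668757844) (nat_lit 0) (nat_lit 134345470176) (nat_lit 1) (nat_lit 5) (nat_lit 3) (nat_lit 4) (nat_lit 1) (nat_lit 4) (nat_lit 534) (nat_lit 360) (nat_lit 306))))) (XT.nd (nat_lit 234) (nat_lit 0) (nat_lit 0) (XT.nd (nat_lit 78) (nat_lit 0) (nat_lit 0) (XT.lf (nat_lit 0) (nat_lit 146615997510) (nat_lit 152) (nat_lit 213696392416) (nat_lit 0) (nat_lit 144765404551) (nat_lit 1) (nat_lit 5) (nat_lit 3) (nat_lit 4) (nat_lit 1) (nat_lit 4) (nat_lit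 535) (nat_lit 360) (nat_lit 305)) (XT.nd (nat_lit 78) (nat_lit 0) (nat_lit 0) (XT.lf (nat_lit 0) (nat_lit 157542310018) (nat_lit 152) (nat_lit 216919321311) (nat_lit 0) (nat_lit 155685254324) (nat_lit 1) (nat_lit 5) (nat_lit 3) (nat_lit 4) (nat_lit 1) (nat_lit 4) (nat_lit 536) (nat_lit 360) (nat_lit 304)) (XT.lf (nat_lit 0) (nat_lit 168994229817) (nat_lit 152) (nat_lit 220345218172) (nat_lit 0) (nat_lit 167131019137) (nat_lit 1) (nat_lit 5) (nat_lit 3) (nat_lit 4) (nat_lit 1) (nat_lit 4) (nat_lit 537) (nat_lit 360) (nat_lit 303)))) (XT.nd (nat_lit 156) (nat_lit 0) (nat_lit 0) (XT.nd (nat_lit 78) (nat_lit 0) (nat_lit 0) (XT.lf (nat_lit 0) (nat_lit 180999023383) (nat_lit 152) (nat_lit 223982239895) (nat_lit 0) (nat_lit 179129950811) (nat_lit 1) (nat_lit 5) (nat_lit 3) (nat_lit 4) (nat_lit 1) (nat_lit 4) (nat_lit 538) (nat_lit 360) (nat_lit 302)) (XT.lf (nat_lit 0) (nat_lit 193585273557) (nat_lit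 152) (nat_lit 227839046056) (nat_lit 0) (nat_lit 191710618232) (nat_lit 1) (nat_lit 5) (nat_lit 3) (nat_lit 4) (nat_lit 1) (nat_lit 4) (nat_lit 539) (nat_lit 360) (nat_lit 301))) (XT.nd (nat_lit 78) (nat_lit 0) (nat_lit 0) (XT.lf (nat_lit 0) (nat_lit 206782947602) (nat_lit 152) (nat_lit 231924819526) (nat_lit 0) (nat_lit 204902975368) (nat_lit 1) (nat_lit 5) (nat_lit 3) (nat_lit 4) (nat_lit 1) (nat_lit 4) (nat_lit 540) (nat_lit 360) (nat_lit 300)) (XT.lf (nat_lit 0) (nat_lit 220623468550) (nat_lit 152) (nat_lit 236249288338) (nat_lit 0) (nat_lit 218738432594) (nat_lit 1) (nat_lit 5) (nat_lit 3) (nat_lit 4) (nat_lit 1) (nat_lit 4) (nat_lit 541) (nat_lit 360) (nat_lit 299))))))) (XT.nd (nat_lit 58188) (nat_lit 0) (nat_lit 228) (XT.nd (nat_lit 57642) (nat_lit 0) (nat_lit 456) (XT.nd (nat_lit 234) (nat_lit 0) (nat_lit 0) (XT.nd (nat_lit 78) (nat_lit 0) (nat_lit 0) (XT.lf (nat_lit 0) (nat_lit 235139790025)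 (nat_lit 152) (nat_lit 240822748845) (nat_lit 0) (nat_lit 233249931476) (nat_lit 1) (nat_lit 5) (nat_lit 3) (nat_lit 4) (nat_lit 1) (nat_lit 4) (nat_lit 542) (nat_lit 360) (nat_lit 298)) (XT.nd (nat_lit 78) (nat_lit 0) (nat_lit 0) (XT.lf (nat_lit 0) (nat_lit 250366474694) (nat_lit 152) (nat_lit 245656090241) (nat_lit 0) (nat_lit 248472023200) (nat_lit 1) (nat_lit 5) (nat_lit 3) (nat_lit 4) (nat_lit 1) (nat_lit 4) (nat_lit 543) (nat_lit 360) (nat_lit 297)) (XT.lf (nat_lit 0) (nat_lit 266339776571) (nat_lit 152) (nat_lit 250760820480) (nat_lit 0) (nat_lit 264440950843) (nat_lit 1) (nat_lit 5) (nat_lit 3) (nat_lit 4) (nat_lit 1) (nat_lit 4) (nat_lit 544) (nat_lit 360) (nat_lit 296)))) (XT.nd (nat_lit 57252) (nat_lit 0) (nat_lit 684) (XT.nd (nat_lit 78) (nat_lit 0) (nat_lit 0) (XT.lf (nat_lit 0) (nat_lit 283097727325) (nat_lit 152) (nat_lit 256149093681) (nat_lit 0) (nat_lit 281194735660) (nat_lit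 1) (nat_lit 5) (nat_lit 3) (nat_lit 4) (nat_lit 1) (nat_lit 4) (nat_lit 545) (nat_lit 360) (nat_lit 295)) (XT.lf (nat_lit 0) (nat_lit 300680226840) (nat_lit 152) (nat_lit 261833739068) (nat_lit 0) (nat_lit 298773267616) (nat_lit 1) (nat_lit 5) (nat_lit 3) (nat_lit 4) (nat_lit 1) (nat_lit 4) (nat_lit 546) (nat_lit 360) (nat_lit 294))) (XT.nd (nat_lit 78) (nat_lit 152) (nat_lit 0) (XT.lf (nat_lit 0) (nat_lit 17990688695) (nat_lit 76) (nat_lit 229508813) (nat_lit 76) (nat_lit 229508813) (nat_lit 12) (nat_lit 4) (nat_lit 13) (nat_lit 5) (nat_lit 13) (nat_lit 4) (nat_lit 478) (nat_lit 361) (nat_lit 361)) (XT.lf (nat_lit 0) (nat_lit 6971642587) (nat_lit 152) (nat_lit 24538318369) (nat_lit 0) (nat_lit 6856672458) (nat_lit 10) (nat_lit 5) (nat_lit 12) (nat_lit 4) (nat_lit 10) (nat_lit 4) (nat_lit 479) (nat_lit 361) (nat_lit 360))))) (XT.nd (nat_lit 234) (nat_lit 152) (nat_lit 0) (XT.nd (nat_lit 78)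 (nat_lit 76) (nat_lit 0) (XT.lf (nat_lit 0) (nat_lit 14542972369) (nat_lit 152) (nat_lit 11056137303) (nat_lit 0) (nat_lit 14318506879) (nat_lit 10) (nat_lit 5) (nat_lit 12) (nat_lit 4) (nat_lit 10) (nat_lit 4) (nat_lit 480) (nat_lit 361) (nat_lit 359)) (XT.nd (nat_lit 78) (nat_lit 0) (nat_lit 0) (XT.lf (nat_lit 0) (nat_lit 2732121792) (nat_lit 76) (nat_lit 19576008100) (nat_lit 76) (nat_lit 19247261314) (nat_lit 9) (nat_lit 4) (nat_lit 10) (nat_lit 5) (nat_lit 10) (nat_lit 4) (nat_lit 481) (nat_lit 361) (nat_lit 358)) (XT.lf (nat_lit 0) (nat_lit 17145508367) (nat_lit 76) (nat_lit 13279714901) (nat_lit 76) (nat_lit 12851652595) (nat_lit 9) (nat_lit 4) (nat_lit 10) (nat_lit 5) (nat_lit 10) (nat_lit 4) (nat_lit 482) (nat_lit 361) (nat_lit 357)))) (XT.nd (nat_lit 156) (nat_lit 76) (nat_lit 0) (XT.nd (nat_lit 78) (nat_lit 76) (nat_lit 0) (XT.lf (nat_lit 0) (nat_lit 31852774178) (nat_lit 76) (nat_lit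 6882479936) (nat_lit 76) (nat_lit 6359831420) (nat_lit 9) (nat_lit 4) (nat_lit 10) (nat_lit 5) (nat_lit 10) (nat_lit 4) (nat_lit 483) (nat_lit 361) (nat_lit 356)) (XT.lf (nat_lit 0) (nat_lit 235860319) (nat_lit 152) (nat_lit 129216965) (nat_lit 76) (nat_lit 46649081798) (nat_lit 8) (nat_lit 5) (nat_lit 10) (nat_lit 5) (nat_lit 9) (nat_lit 4) (nat_lit 484) (nat_lit 361) (nat_lit 355))) (XT.nd (nat_lit 78) (nat_lit 0) (nat_lit 0) (XT.lf (nat_lit 0) (nat_lit 7066520680) (nat_lit 152) (nat_lit 35550250512) (nat_lit 0) (nat_lit 6401260584) (nat_lit 7) (nat_lit 5) (nat_lit 9) (nat_lit 4) (nat_lit 7) (nat_lit 4) (nat_lit 485) (nat_lit 361) (nat_lit 354)) (XT.lf (nat_lit 0) (nat_lit 14050898776) (nat_lit 152) (nat_lit 23772771770) (nat_lit 0) (nat_lit 13307822372) (nat_lit 7) (nat_lit 5) (nat_lit 9) (nat_lit 4) (nat_lit 7) (nat_lit 4) (nat_lit 486) (nat_lit 361) (nat_lit 353)))))) (XT.nd (nat_lit 546)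 (nat_lit 76) (nat_lit 0) (XT.nd (nat_lit 234) (nat_lit 76) (nat_lit 0) (XT.nd (nat_lit 78) (nat_lit 76) (nat_lit 0) (XT.lf (nat_lit 0) (nat_lit 21197805890) (nat_lit 152) (nat_lit 11781540863) (nat_lit 0) (nat_lit 20380618715) (nat_lit 7) (nat_lit 5) (nat_lit 9) (nat_lit 4) (nat_lit 7) (nat_lit 4) (nat_lit 487) (nat_lit 361) (nat_lit 352)) (XT.nd (nat_lit 78) (nat_lit 0) (nat_lit 0) (XT.lf (nat_lit 0) (nat_lit 466937679) (nat_lit 76) (nat_lit 28064610992) (nat_lit 76) (nat_lit 27176842132) (nat_lit 6) (nat_lit 4) (nat_lit 7) (nat_lit 5) (nat_lit 7) (nat_lit 4) (nat_lit 488) (nat_lit 361) (nat_lit 351)) (XT.lf (nat_lit 0) (nat_lit 13385372053) (nat_lit 76) (nat_lit 22871311556) (nat_lit 76) (nat_lit 21916322042) (nat_lit 6) (nat_lit 4) (nat_lit 7) (nat_lit 5) (nat_lit 7) (nat_lit 4) (nat_lit 489) (nat_lit 361) (nat_lit 350)))) (XT.nd (nat_lit 156) (nat_lit 76) (nat_lit 0) (XT.nd (nat_lit 78)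 (nat_lit 0) (nat_lit 0) (XT.lf (nat_lit 0) (nat_lit 26614969486) (nat_lit 76) (nat_lit 17586609541) (nat_lit 76) (nat_lit 16567600357) (nat_lit 6) (nat_lit 4) (nat_lit 7) (nat_lit 5) (nat_lit 7) (nat_lit 4) (nat_lit 490) (nat_lit 361) (nat_lit 349)) (XT.lf (nat_lit 0) (nat_lit 40187229022) (nat_lit 76) (nat_lit 12197922324) (nat_lit 76) (nat_lit 11117942026) (nat_lit 6) (nat_lit 4) (nat_lit 7) (nat_lit 5) (nat_lit 7) (nat_lit 4) (nat_lit 491) (nat_lit 361) (nat_lit 348))) (XT.nd (nat_lit 78) (nat_lit 76) (nat_lit 0) (XT.lf (nat_lit 0) (nat_lit 54134465562) (nat_lit 76) (nat_lit 6692419697) (nat_lit 76) (nat_lit 5554371672) (nat_lit 6) (nat_lit 4) (nat_lit 7) (nat_lit 5) (nat_lit 7) (nat_lit 4) (nat_lit 492) (nat_lit 361) (nat_lit 347)) (XT.lf (nat_lit 0) (nat_lit 131993017) (nat_lit 152) (nat_lit 922764937) (nat_lit 76) (nat_lit 68355658431) (nat_lit 5) (nat_lit 5) (nat_lit 7) (nat_lit 5) (nat_lit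 6) (nat_lit 4) (nat_lit 493) (nat_lit 361) (nat_lit 346))))) (XT.nd (nat_lit 234) (nat_lit 0) (nat_lit 0) (XT.nd (nat_lit 78) (nat_lit 0) (nat_lit 0) (XT.lf (nat_lit 0) (nat_lit 6025746529) (nat_lit 152) (nat_lit 61716189394) (nat_lit 0) (nat_lit 4839061040) (nat_lit 4) (nat_lit 5) (nat_lit 6) (nat_lit 4) (nat_lit 4) (nat_lit 4) (nat_lit 494) (nat_lit 361) (nat_lit 345)) (XT.nd (nat_lit 78) (nat_lit 0) (nat_lit 0) (XT.lf (nat_lit 0) (nat_lit 12108301986) (nat_lit 152) (nat_lit 52933257324) (nat_lit 0) (nat_lit 10873844033) (nat_lit 4) (nat_lit 5) (nat_lit 6) (nat_lit 4) (nat_lit 4) (nat_lit 4) (nat_lit 495) (nat_lit 361) (nat_lit 344)) (XT.lf (nat_lit 0) (nat_lit 18362546640) (nat_lit 152) (nat_lit 43978016596) (nat_lit 0) (nat_lit 17082591103) (nat_lit 4) (nat_lit 5) (nat_lit 6) (nat_lit 4) (nat_lit 4) (nat_lit 4) (nat_lit 496) (nat_lit 361) (nat_lit 343)))) (XT.nd (nat_lit 156) (nat_lit 0)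 (nat_lit 0) (XT.nd (nat_lit 78) (nat_lit 0) (nat_lit 0) (XT.lf (nat_lit 0) (nat_lit 24803371549) (nat_lit 152) (nat_lit 34829145207) (nat_lit 0) (nat_lit 23480084980) (nat_lit 4) (nat_lit 5) (nat_lit 6) (nat_lit 4) (nat_lit 4) (nat_lit 4) (nat_lit 497) (nat_lit 361) (nat_lit 342)) (XT.lf (nat_lit 0) (nat_lit 31446112012) (nat_lit 152) (nat_lit 25464860131) (nat_lit 0) (nat_lit 30081557793) (nat_lit 4) (nat_lit 5) (nat_lit 6) (nat_lit 4) (nat_lit 4) (nat_lit 4) (nat_lit 498) (nat_lit 361) (nat_lit 341))) (XT.nd (nat_lit 78) (nat_lit 0) (nat_lit 0) (XT.lf (nat_lit 0) (nat_lit 38306584076) (nat_lit 152) (nat_lit 15862865452) (nat_lit 0) (nat_lit 36902727334) (nat_lit 4) (nat_lit 5) (nat_lit 6) (nat_lit 4) (nat_lit 4) (nat_lit 4) (nat_lit 499) (nat_lit 361) (nat_lit 340)) (XT.lf (nat_lit 0) (nat_lit 45401122200) (nat_lit 152) (nat_lit 6000299276) (nat_lit 0) (nat_lit 43959834483) (nat_lit 4) (nat_lit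 5) (nat_lit 6) (nat_lit 4) (nat_lit 4) (nat_lit 4) (nat_lit 500) (nat_lit 361) (nat_lit 339))))))))
noncomputable def xc21 : XT := (XT.nd (nat_lit 2184) (nat_lit 0) (nat_lit 0) (XT.nd (nat_lit 1092) (nat_lit 152) (nat_lit 0) (XT.nd (nat_lit 546) (nat_lit 0) (nat_lit 0) (XT.nd (nat_lit 234) (nat_lit 0) (nat_lit 0) (XT.nd (nat_lit 78) (nat_lit 0) (nat_lit 0) (XT.lf (nat_lit 0) (nat_lit 4283416784) (nat_lit 76) (nat_lit 48530077497) (nat_lit 76) (nat_lit 47053141232) (nat_lit 3) (nat_lit 4) (nat_lit 4) (nat_lit 5) (nat_lit 4) (nat_lit 4) (nat_lit 501) (nat_lit 361) (nat_lit 338)) (XT.nd (nat_lit 78) (nat_lit 0) (nat_lit 0) (XT.lf (nat_lit 0) (nat_lit 15083933146) (nat_lit 76) (nat_lit 45512130497) (nat_lit 76) (nat_lit 44001243234) (nat_lit 3) (nat_lit 4) (nat_lit 4) (nat_lit 5) (nat_lit 4) (nat_lit 4) (nat_lit 502) (nat_lit 361) (nat_lit 337)) (XT.lf (nat_lit 0) (nat_lit 26228568334) (nat_lit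 76) (nat_lit 42442012859) (nat_lit 76) (nat_lit 40898791313) (nat_lit 3) (nat_lit 4) (nat_lit 4) (nat_lit 5) (nat_lit 4) (nat_lit 4) (nat_lit 503) (nat_lit 361) (nat_lit 336)))) (XT.nd (nat_lit 156) (nat_lit 0) (nat_lit 0) (XT.nd (nat_lit 78) (nat_lit 0) (nat_lit 0) (XT.lf (nat_lit 0) (nat_lit 37743857192) (nat_lit 76) (nat_lit 39312414780) (nat_lit 76) (nat_lit 37738398678) (nat_lit 3) (nat_lit 4) (nat_lit 4) (nat_lit 5) (nat_lit 4) (nat_lit 4) (nat_lit 504) (nat_lit 361) (nat_lit 335)) (XT.lf (nat_lit 0) (nat_lit 49657217075) (nat_lit 76) (nat_lit 36115884836) (nat_lit 76) (nat_lit 34512540585) (nat_lit 3) (nat_lit 4) (nat_lit 4) (nat_lit 5) (nat_lit 4) (nat_lit 4) (nat_lit 505) (nat_lit 361) (nat_lit 334))) (XT.nd (nat_lit 78) (nat_lit 0) (nat_lit 0) (XT.lf (nat_lit 0) (nat_lit 61997013127) (nat_lit 76) (nat_lit 32844812241) (nat_lit 76) (nat_lit 31213536421) (nat_lit 3) (nat_lit 4) (nat_lit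 4) (nat_lit 5) (nat_lit 4) (nat_lit 4) (nat_lit 506) (nat_lit 361) (nat_lit 333)) (XT.lf (nat_lit 0) (nat_lit 74792625813) (nat_lit 76) (nat_lit 29491408727) (nat_lit 76) (nat_lit 27833531412) (nat_lit 3) (nat_lit 4) (nat_lit 4) (nat_lit 5) (nat_lit 4) (nat_lit 4) (nat_lit 507) (nat_lit 361) (nat_lit 332))))) (XT.nd (nat_lit 234) (nat_lit 0) (nat_lit 0) (XT.nd (nat_lit 78) (nat_lit 0) (nat_lit 0) (XT.lf (nat_lit 0) (nat_lit 88074520878) (nat_lit 76) (nat_lit 26047690000) (nat_lit 76) (nat_lit 24364477928) (nat_lit 3) (nat_lit 4) (nat_lit 4) (nat_lit 5) (nat_lit 4) (nat_lit 4) (nat_lit 508) (nat_lit 361) (nat_lit 331)) (XT.nd (nat_lit 78) (nat_lit 0) (nat_lit 0) (XT.lf (nat_lit 0) (nat_lit 101874321881) (nat_lit 76) (nat_lit 22505456730) (nat_lit 76) (nat_lit 20798116317) (nat_lit 3) (nat_lit 4) (nat_lit 4) (nat_lit 5) (nat_lit 4) (nat_lit 4) (nat_lit 509) (nat_lit 361) (nat_lit 330)) (XT.lf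 (nat_lit 0) (nat_lit 116224885493) (nat_lit 76) (nat_lit 18856275028) (nat_lit 76) (nat_lit 17125955243) (nat_lit 3) (nat_lit 4) (nat_lit 4) (nat_lit 5) (nat_lit 4) (nat_lit 4) (nat_lit 510) (nat_lit 361) (nat_lit 329)))) (XT.nd (nat_lit 156) (nat_lit 0) (nat_lit 0) (XT.nd (nat_lit 78) (nat_lit 0) (nat_lit 0) (XT.lf (nat_lit 0) (nat_lit 131160379721) (nat_lit 76) (nat_lit 15091456366) (nat_lit 76) (nat_lit 13339251465) (nat_lit 3) (nat_lit 4) (nat_lit 4) (nat_lit 5) (nat_lit 4) (nat_lit 4) (nat_lit 511) (nat_lit 361) (nat_lit 328)) (XT.lf (nat_lit 0) (nat_lit 146716365266) (nat_lit 76) (nat_lit 11202036890) (nat_lit 76) (nat_lit 9428989022) (nat_lit 3) (nat_lit 4) (nat_lit 4) (nat_lit 5) (nat_lit 4) (nat_lit 4) (nat_lit 512) (nat_lit 361) (nat_lit 327))) (XT.nd (nat_lit 78) (nat_lit 0) (nat_lit 0) (XT.lf (nat_lit 0) (nat_lit 162929880189) (nat_lit 76) (nat_lit 7178756078) (nat_lit 76) (nat_lit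 5385857764) (nat_lit 3) (nat_lit 4) (nat_lit 4) (nat_lit 5) (nat_lit 4) (nat_lit 4) (nat_lit 513) (nat_lit 361) (nat_lit 326)) (XT.lf (nat_lit 0) (nat_lit 179839528096) (nat_lit 76) (nat_lit 3012034689) (nat_lit 76) (nat_lit 1200231190) (nat_lit 3) (nat_lit 4) (nat_lit 4) (nat_lit 5) (nat_lit 4) (nat_lit 4) (nat_lit 514) (nat_lit 361) (nat_lit 325)))))) (XT.nd (nat_lit 546) (nat_lit 0) (nat_lit 0) (XT.nd (nat_lit 234) (nat_lit 0) (nat_lit 0) (XT.nd (nat_lit 78) (nat_lit 0) (nat_lit 0) (XT.lf (nat_lit 0) (nat_lit 3130731451) (nat_lit 152) (nat_lit 188513762498) (nat_lit 0) (nat_lit 1388056748) (nat_lit 1) (nat_lit 5) (nat_lit 3) (nat_lit 4) (nat_lit 1) (nat_lit 4) (nat_lit 515) (nat_lit 361) (nat_lit 324)) (XT.nd (nat_lit 78) (nat_lit 0) (nat_lit 0) (XT.lf (nat_lit 0) (nat_lit 7704845045) (nat_lit 152) (nat_lit 188807331013) (nat_lit 0) (nat_lit 5945839331) (nat_lit 1) (nat_lit 5) (nat_lit 3)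 (nat_lit 4) (nat_lit 1) (nat_lit 4) (nat_lit 516) (nat_lit 361) (nat_lit 323)) (XT.lf (nat_lit 0) (nat_lit 12455335387) (nat_lit 152) (nat_lit 189221258852) (nat_lit 0) (nat_lit 10680776330) (nat_lit 1) (nat_lit 5) (nat_lit 3) (nat_lit 4) (nat_lit 1) (nat_lit 4) (nat_lit 517) (nat_lit 361) (nat_lit 322)))) (XT.nd (nat_lit 156) (nat_lit 0) (nat_lit 0) (XT.nd (nat_lit 78) (nat_lit 0) (nat_lit 0) (XT.lf (nat_lit 0) (nat_lit 17393513170) (nat_lit 152) (nat_lit 189756531557) (nat_lit 0) (nat_lit 15604141406) (nat_lit 1) (nat_lit 5) (nat_lit 3) (nat_lit 4) (nat_lit 1) (nat_lit 4) (nat_lit 518) (nat_lit 361) (nat_lit 321)) (XT.lf (nat_lit 0) (nat_lit 22531135960) (nat_lit 152) (nat_lit 190414423588) (nat_lit 0) (nat_lit 20727656855) (nat_lit 1) (nat_lit 5) (nat_lit 3) (nat_lit 4) (nat_lit 1) (nat_lit 4) (nat_lit 519) (nat_lit 361) (nat_lit 320))) (XT.nd (nat_lit 78) (nat_lit 0) (nat_lit 0) (XT.lf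 (nat_lit 0) (nat_lit 27880436193) (nat_lit 152) (nat_lit 191196501354) (nat_lit 0) (nat_lit 26063521525) (nat_lit 1) (nat_lit 5) (nat_lit 3) (nat_lit 4) (nat_lit 1) (nat_lit 4) (nat_lit 520) (nat_lit 361) (nat_lit 319)) (XT.lf (nat_lit 0) (nat_lit 33454150296) (nat_lit 152) (nat_lit 192104626945) (nat_lit 0) (nat_lit 31624439854) (nat_lit 1) (nat_lit 5) (nat_lit 3) (nat_lit 4) (nat_lit 1) (nat_lit 4) (nat_lit 521) (nat_lit 361) (nat_lit 318))))) (XT.nd (nat_lit 234) (nat_lit 0) (nat_lit 0) (XT.nd (nat_lit 78) (nat_lit 0) (nat_lit 0) (XT.lf (nat_lit 0) (nat_lit 39265549019) (nat_lit 152) (nat_lit 193140962565) (nat_lit 0) (nat_lit 37423652125) (nat_lit 1) (nat_lit 5) (nat_lit 3) (nat_lit 4) (nat_lit 1) (nat_lit 4) (nat_lit 522) (nat_lit 361) (nat_lit 317)) (XT.nd (nat_lit 78) (nat_lit 0) (nat_lit 0) (XT.lf (nat_lit 0) (nat_lit 45328469024) (nat_lit 152) (nat_lit 194307975680) (nat_lit 0) (nat_lit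 43474965986) (nat_lit 1) (nat_lit 5) (nat_lit 3) (nat_lit 4) (nat_lit 1) (nat_lit 4) (nat_lit 523) (nat_lit 361) (nat_lit 316)) (XT.lf (nat_lit 0) (nat_lit 51657345836) (nat_lit 152) (nat_lit 195608444892) (nat_lit 0) (nat_lit 49792789328) (nat_lit 1) (nat_lit 5) (nat_lit 3) (nat_lit 4) (nat_lit 1) (nat_lit 4) (nat_lit 524) (nat_lit 361) (nat_lit 315)))) (XT.nd (nat_lit 156) (nat_lit 0) (nat_lit 0) (XT.nd (nat_lit 78) (nat_lit 0) (nat_lit 0) (XT.lf (nat_lit 0) (nat_lit 58267248208) (nat_lit 152) (nat_lit 197045466556) (nat_lit 0) (nat_lit 56392164585) (nat_lit 1) (nat_lit 5) (nat_lit 3) (nat_lit 4) (nat_lit 1) (nat_lit 4) (nat_lit 525) (nat_lit 361) (nat_lit 314)) (XT.lf (nat_lit 0) (nat_lit 65173914005) (nat_lit 152) (nat_lit 198622462153) (nat_lit 0) (nat_lit 63288804558) (nat_lit 1) (nat_lit 5) (nat_lit 3) (nat_lit 4) (nat_lit 1) (nat_lit 4) (nat_lit 526) (nat_lit 361) (nat_lit 313))) (XT.nd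 (nat_lit 78) (nat_lit 0) (nat_lit 0) (XT.lf (nat_lit 0) (nat_lit 72393787667) (nat_lit 152) (nat_lit 200343186434) (nat_lit 0) (nat_lit 70499129817) (nat_lit 1) (nat_lit 5) (nat_lit 3) (nat_lit 4) (nat_lit 1) (nat_lit 4) (nat_lit 527) (nat_lit 361) (nat_lit 312)) (XT.lf (nat_lit 0) (nat_lit 79944059371) (nat_lit 152) (nat_lit 202211736361) (nat_lit 0) (nat_lit 78040307803) (nat_lit 1) (nat_lit 5) (nat_lit 3) (nat_lit 4) (nat_lit 1) (nat_lit 4) (nat_lit 528) (nat_lit 361) (nat_lit 311))))))) (XT.nd (nat_lit 1092) (nat_lit 0) (nat_lit 0) (XT.nd (nat_lit 546) (nat_lit 0) (nat_lit 0) (XT.nd (nat_lit 234) (nat_lit 0) (nat_lit 0) (XT.nd (nat_lit 78) (nat_lit 0) (nat_lit 0) (XT.lf (nat_lit 0) (nat_lit 87842705953) (nat_lit 152) (nat_lit 204232560864) (nat_lit 0) (nat_lit 85930293702) (nat_lit 1) (nat_lit 5) (nat_lit 3) (nat_lit 4) (nat_lit 1) (nat_lit 4) (nat_lit 529) (nat_lit 361) (nat_lit 310))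 (XT.nd (nat_lit 78) (nat_lit 0) (nat_lit 0) (XT.lf (nat_lit 0) (nat_lit 96108533716) (nat_lit 152) (nat_lit 206410471429) (nat_lit 0) (nat_lit 94187873195) (nat_lit 1) (nat_lit 5) (nat_lit 3) (nat_lit 4) (nat_lit 1) (nat_lit 4) (nat_lit 530) (nat_lit 361) (nat_lit 309)) (XT.lf (nat_lit 0) (nat_lit 104761223201) (nat_lit 152) (nat_lit 208750653556) (nat_lit 0) (nat_lit 102832707185) (nat_lit 1) (nat_lit 5) (nat_lit 3) (nat_lit 4) (nat_lit 1) (nat_lit 4) (nat_lit 531) (nat_lit 361) (nat_lit 308)))) (XT.nd (nat_lit 156) (nat_lit 0) (nat_lit 0) (XT.nd (nat_lit 78) (nat_lit 0) (nat_lit 0) (XT.lf (nat_lit 0) (nat_lit 113821376051) (nat_lit 152) (nat_lit 211258679110) (nat_lit 0) (nat_lit 111885378610) (nat_lit 1) (nat_lit 5) (nat_lit 3) (nat_lit 4) (nat_lit 1) (nat_lit 4) (nat_lit 532) (nat_lit 361) (nat_lit 307)) (XT.lf (nat_lit 0) (nat_lit 123310564057) (nat_lit 152) (nat_lit 213940519578) (nat_lit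 0) (nat_lit 121367441450) (nat_lit 1) (nat_lit 5) (nat_lit 3) (nat_lit 4) (nat_lit 1) (nat_lit 4) (nat_lit 533) (nat_lit 361) (nat_lit 306))) (XT.nd (nat_lit 78) (nat_lit 0) (nat_lit 0) (XT.lf (nat_lit 0) (nat_lit 133251380524) (nat_lit 152) (nat_lit 216802560296) (nat_lit 0) (nat_lit 131301472045) (nat_lit 1) (nat_lit 5) (nat_lit 3) (nat_lit 4) (nat_lit 1) (nat_lit 4) (nat_lit 534) (nat_lit 361) (nat_lit 305)) (XT.lf (nat_lit 0) (nat_lit 143667494063) (nat_lit 152) (nat_lit 219851615646) (nat_lit 0) (nat_lit 141711122849) (nat_lit 1) (nat_lit 5) (nat_lit 3) (nat_lit 4) (nat_lit 1) (nat_lit 4) (nat_lit 535) (nat_lit 361) (nat_lit 304))))) (XT.nd (nat_lit 234) (nat_lit 0) (nat_lit 0) (XT.nd (nat_lit 78) (nat_lit 0) (nat_lit 0) (XT.lf (nat_lit 0) (nat_lit 154583704945) (nat_lit 152) (nat_lit 223094945283) (nat_lit 0) (nat_lit 152621178745) (nat_lit 1) (nat_lit 5) (nat_lit 3) (nat_lit 4) (nat_lit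 1) (nat_lit 4) (nat_lit 536) (nat_lit 361) (nat_lit 303)) (XT.nd (nat_lit 78) (nat_lit 0) (nat_lit 0) (XT.lf (nat_lit 0) (nat_lit 166026004147) (nat_lit 152) (nat_lit 226540271421) (nat_lit 0) (nat_lit 164057616056) (nat_lit 1) (nat_lit 5) (nat_lit 3) (nat_lit 4) (nat_lit 1) (nat_lit 4) (nat_lit 537) (nat_lit 361) (nat_lit 302)) (XT.lf (nat_lit 0) (nat_lit 178021635240) (nat_lit 152) (nat_lit 230195797218) (nat_lit 0) (nat_lit 176047664394) (nat_lit 1) (nat_lit 5) (nat_lit 3) (nat_lit 4) (nat_lit 1) (nat_lit 4) (nat_lit 538) (nat_lit 361) (nat_lit 301)))) (XT.nd (nat_lit 156) (nat_lit 0) (nat_lit 0) (XT.nd (nat_lit 78) (nat_lit 0) (nat_lit 0) (XT.lf (nat_lit 0) (nat_lit 190599159249) (nat_lit 152) (nat_lit 234070226306) (nat_lit 0) (nat_lit 188619871495) (nat_lit 1) (nat_lit 5) (nat_lit 3) (nat_lit 4) (nat_lit 1) (nat_lit 4) (nat_lit 539) (nat_lit 361) (nat_lit 300)) (XT.lf (nat_lit 0) (nat_lit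 203788522661) (nat_lit 152) (nat_lit 238172783517) (nat_lit 0) (nat_lit 201804171184) (nat_lit 1) (nat_lit 5) (nat_lit 3) (nat_lit 4) (nat_lit 1) (nat_lit 4) (nat_lit 540) (nat_lit 361) (nat_lit 299))) (XT.nd (nat_lit 78) (nat_lit 0) (nat_lit 0) (XT.lf (nat_lit 0) (nat_lit 217621128720) (nat_lit 152) (nat_lit 242513236844) (nat_lit 0) (nat_lit 215631954652) (nat_lit 1) (nat_lit 5) (nat_lit 3) (nat_lit 4) (nat_lit 1) (nat_lit 4) (nat_lit 541) (nat_lit 361) (nat_lit 298)) (XT.lf (nat_lit 0) (nat_lit 232129912205) (nat_lit 152) (nat_lit 247101920699) (nat_lit 0) (nat_lit 230136145191) (nat_lit 1) (nat_lit 5) (nat_lit 3) (nat_lit 4) (nat_lit 1) (nat_lit 4) (nat_lit 542) (nat_lit 361) (nat_lit 297)))))) (XT.nd (nat_lit 57486) (nat_lit 0) (nat_lit 456) (XT.nd (nat_lit 234) (nat_lit 0) (nat_lit 0) (XT.nd (nat_lit 78) (nat_lit 0) (nat_lit 0) (XT.lf (nat_lit 0) (nat_lit 247349417838) (nat_lit 152) (nat_lit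 251949760521) (nat_lit 0) (nat_lit 245351276590) (nat_lit 1) (nat_lit 5) (nat_lit 3) (nat_lit 4) (nat_lit 1) (nat_lit 4) (nat_lit 543) (nat_lit 361) (nat_lit 296)) (XT.nd (nat_lit 78) (nat_lit 0) (nat_lit 0) (XT.lf (nat_lit 0) (nat_lit 263315882535) (nat_lit 152) (nat_lit 257068298784) (nat_lit 0) (nat_lit 261313575351) (nat_lit 1) (nat_lit 5) (nat_lit 3) (nat_lit 4) (nat_lit 1) (nat_lit 4) (nat_lit 544) (nat_lit 361) (nat_lit 295)) (XT.lf (nat_lit 0) (nat_lit 280067321691) (nat_lit 152) (nat_lit 262469722486) (nat_lit 0) (nat_lit 278061046947) (nat_lit 1) (nat_lit 5) (nat_lit 3) (nat_lit 4) (nat_lit 1) (nat_lit 4) (nat_lit 545) (nat_lit 361) (nat_lit 294)))) (XT.nd (nat_lit 57096) (nat_lit 0) (nat_lit 836) (XT.nd (nat_lit 57018) (nat_lit 0) (nat_lit 836) (XT.lf (nat_lit 0) (nat_lit 297643619683) (nat_lit 152) (nat_lit 268166892158) (nat_lit 0) (nat_lit 295633566312) (nat_lit 1) (nat_lit 5)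 (nat_lit 3) (nat_lit 4) (nat_lit 1) (nat_lit 4) (nat_lit 546) (nat_lit 361) (nat_lit 293)) (XT.lf (nat_lit 0) (nat_lit 2552422498) (nat_lit 76) (nat_lit 7263386222) (nat_lit 76) (nat_lit 7263386222) (nat_lit 12) (nat_lit 4) (nat_lit 13) (nat_lit 5) (nat_lit 13) (nat_lit 4) (nat_lit 476) (nat_lit 362) (nat_lit 362))) (XT.nd (nat_lit 78) (nat_lit 0) (nat_lit 0) (XT.lf (nat_lit 0) (nat_lit 20283986679) (nat_lit 76) (nat_lit 7667650621) (nat_lit 76) (nat_lit 7540896054) (nat_lit 12) (nat_lit 4) (nat_lit 13) (nat_lit 5) (nat_lit 13) (nat_lit 4) (nat_lit 477) (nat_lit 362) (nat_lit 361)) (XT.lf (nat_lit 0) (nat_lit 35752131623) (nat_lit 76) (nat_lit 700247894) (nat_lit 76) (nat_lit 452774692) (nat_lit 12) (nat_lit 4) (nat_lit 13) (nat_lit 5) (nat_lit 13) (nat_lit 4) (nat_lit 478) (nat_lit 362) (nat_lit 360))))) (XT.nd (nat_lit 312) (nat_lit 152) (nat_lit 0) (XT.nd (nat_lit 156) (nat_lit 76) (nat_lit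 0) (XT.nd (nat_lit 78) (nat_lit 0) (nat_lit 0) (XT.lf (nat_lit 0) (nat_lit 6853596656) (nat_lit 152) (nat_lit 25016568152) (nat_lit 0) (nat_lit 6508412531) (nat_lit 10) (nat_lit 5) (nat_lit 12) (nat_lit 4) (nat_lit 10) (nat_lit 4) (nat_lit 479) (nat_lit 362) (nat_lit 359)) (XT.lf (nat_lit 0) (nat_lit 14314002133) (nat_lit 152) (nat_lit 11756570492) (nat_lit 0) (nat_lit 13864536712) (nat_lit 10) (nat_lit 5) (nat_lit 12) (nat_lit 4) (nat_lit 10) (nat_lit 4) (nat_lit 480) (nat_lit 362) (nat_lit 358))) (XT.nd (nat_lit 78) (nat_lit 0) (nat_lit 0) (XT.lf (nat_lit 0) (nat_lit 1789929314) (nat_lit 76) (nat_lit 20168877882) (nat_lit 76) (nat_lit 19620096941) (nat_lit 9) (nat_lit 4) (nat_lit 10) (nat_lit 5) (nat_lit 10) (nat_lit 4) (nat_lit 481) (nat_lit 362) (nat_lit 357)) (XT.lf (nat_lit 0) (nat_lit 15995125600) (nat_lit 76) (nat_lit 13976912924) (nat_lit 76) (nat_lit 13333545773) (nat_lit 9) (nat_lit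 4) (nat_lit 10) (nat_lit 5) (nat_lit 10) (nat_lit 4) (nat_lit 482) (nat_lit 362) (nat_lit 356)))) (XT.nd (nat_lit 156) (nat_lit 152) (nat_lit 0) (XT.nd (nat_lit 78) (nat_lit 0) (nat_lit 0) (XT.lf (nat_lit 0) (nat_lit 30504114946) (nat_lit 76) (nat_lit 7679038188) (nat_lit 76) (nat_lit 6945588933) (nat_lit 9) (nat_lit 4) (nat_lit 10) (nat_lit 5) (nat_lit 10) (nat_lit 4) (nat_lit 483) (nat_lit 362) (nat_lit 355)) (XT.lf (nat_lit 0) (nat_lit 45351442564) (nat_lit 76) (nat_lit 1260258735) (nat_lit 76) (nat_lit 441016999) (nat_lit 9) (nat_lit 4) (nat_lit 10) (nat_lit 5) (nat_lit 10) (nat_lit 4) (nat_lit 484) (nat_lit 362) (nat_lit 354))) (XT.nd (nat_lit 78) (nat_lit 0) (nat_lit 0) (XT.lf (nat_lit 0) (nat_lit 6268389263) (nat_lit 152) (nat_lit 37384973721) (nat_lit 0) (nat_lit 5410342730) (nat_lit 7) (nat_lit 5) (nat_lit 9) (nat_lit 4) (nat_lit 7) (nat_lit 4) (nat_lit 485) (nat_lit 362) (nat_lit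 353)) (XT.lf (nat_lit 0) (nat_lit 13161699121) (nat_lit 152) (nat_lit 25790481209) (nat_lit 0) (nat_lit 12229541818) (nat_lit 7) (nat_lit 5) (nat_lit 9) (nat_lit 4) (nat_lit 7) (nat_lit 4) (nat_lit 486) (nat_lit 362) (nat_lit 352))))))))
noncomputable def xc22 : XT := (XT.nd (nat_lit 2184) (nat_lit 152) (nat_lit 0) (XT.nd (nat_lit 1092) (nat_lit 76) (nat_lit 0) (XT.nd (nat_lit 546) (nat_lit 152) (nat_lit 0) (XT.nd (nat_lit 234) (nat_lit 0) (nat_lit 0) (XT.nd (nat_lit 78) (nat_lit 76) (nat_lit 0) (XT.lf (nat_lit 0) (nat_lit 20221874579) (nat_lit 152) (nat_lit 13973522903) (nat_lit 0) (nat_lit 19219135590) (nat_lit 7) (nat_lit 5) (nat_lit 9) (nat_lit 4) (nat_lit 7) (nat_lit 4) (nat_lit 487) (nat_lit 362) (nat_lit 351)) (XT.nd (nat_lit 78) (nat_lit 76) (nat_lit 0) (XT.lf (nat_lit 0) (nat_lit 27465725579) (nat_lit 152) (nat_lit 1905963187) (nat_lit 0) (nat_lit 26395765936) (nat_lit 7) (nat_lit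 5) (nat_lit 9) (nat_lit 4) (nat_lit 7) (nat_lit 4) (nat_lit 488) (nat_lit 362) (nat_lit 350)) (XT.lf (nat_lit 0) (nat_lit 10786154529) (nat_lit 76) (nat_lit 24292746955) (nat_lit 76) (nat_lit 23158767643) (nat_lit 6) (nat_lit 4) (nat_lit 7) (nat_lit 5) (nat_lit 7) (nat_lit 4) (nat_lit 489) (nat_lit 362) (nat_lit 349)))) (XT.nd (nat_lit 156) (nat_lit 0) (nat_lit 0) (XT.nd (nat_lit 78) (nat_lit 0) (nat_lit 0) (XT.lf (nat_lit 0) (nat_lit 23860231099) (nat_lit 76) (nat_lit 19086215622) (nat_lit 76) (nat_lit 17891265196) (nat_lit 6) (nat_lit 4) (nat_lit 7) (nat_lit 5) (nat_lit 7) (nat_lit 4) (nat_lit 490) (nat_lit 362) (nat_lit 348)) (XT.lf (nat_lit 0) (nat_lit 37284375526) (nat_lit 76) (nat_lit 13771976674) (nat_lit 76) (nat_lit 12518958520) (nat_lit 6) (nat_lit 4) (nat_lit 7) (nat_lit 5) (nat_lit 7) (nat_lit 4) (nat_lit 491) (nat_lit 362) (nat_lit 347))) (XT.nd (nat_lit 78) (nat_lit 0) (nat_lit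 0) (XT.lf (nat_lit 0) (nat_lit 51090550059) (nat_lit 76) (nat_lit 8337377160) (nat_lit 76) (nat_lit 7029056408) (nat_lit 6) (nat_lit 4) (nat_lit 7) (nat_lit 5) (nat_lit 7) (nat_lit 4) (nat_lit 492) (nat_lit 362) (nat_lit 346)) (XT.lf (nat_lit 0) (nat_lit 65311626541) (nat_lit 76) (nat_lit 2769477558) (nat_lit 76) (nat_lit 1408487665) (nat_lit 6) (nat_lit 4) (nat_lit 7) (nat_lit 5) (nat_lit 7) (nat_lit 4) (nat_lit 493) (nat_lit 362) (nat_lit 345))))) (XT.nd (nat_lit 234) (nat_lit 0) (nat_lit 0) (XT.nd (nat_lit 78) (nat_lit 0) (nat_lit 0) (XT.lf (nat_lit 0) (nat_lit 4382376338) (nat_lit 152) (nat_lit 65247872210) (nat_lit 0) (nat_lit 3038423025) (nat_lit 4) (nat_lit 5) (nat_lit 6) (nat_lit 4) (nat_lit 4) (nat_lit 4) (nat_lit 494) (nat_lit 362) (nat_lit 344)) (XT.nd (nat_lit 78) (nat_lit 0) (nat_lit 0) (XT.lf (nat_lit 0) (nat_lit 10400327611) (nat_lit 152) (nat_lit 56595104991) (nat_lit 0) (nat_lit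 9010876714) (nat_lit 4) (nat_lit 5) (nat_lit 6) (nat_lit 4) (nat_lit 4) (nat_lit 4) (nat_lit 495) (nat_lit 362) (nat_lit 343)) (XT.lf (nat_lit 0) (nat_lit 16593044471) (nat_lit 152) (nat_lit 47763830788) (nat_lit 0) (nat_lit 15160262542) (nat_lit 4) (nat_lit 5) (nat_lit 6) (nat_lit 4) (nat_lit 4) (nat_lit 4) (nat_lit 496) (nat_lit 362) (nat_lit 342)))) (XT.nd (nat_lit 156) (nat_lit 0) (nat_lit 0) (XT.nd (nat_lit 78) (nat_lit 0) (nat_lit 0) (XT.lf (nat_lit 0) (nat_lit 22975271482) (nat_lit 152) (nat_lit 38733022756) (nat_lit 0) (nat_lit 21501221902) (nat_lit 4) (nat_lit 5) (nat_lit 6) (nat_lit 4) (nat_lit 4) (nat_lit 4) (nat_lit 497) (nat_lit 362) (nat_lit 341)) (XT.lf (nat_lit 0) (nat_lit 29562204422) (nat_lit 152) (nat_lit 29481178973) (nat_lit 0) (nat_lit 28048852319) (nat_lit 4) (nat_lit 5) (nat_lit 6) (nat_lit 4) (nat_lit 4) (nat_lit 4) (nat_lit 498) (nat_lit 362) (nat_lit 340))) (XT.nd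 (nat_lit 78) (nat_lit 0) (nat_lit 0) (XT.lf (nat_lit 0) (nat_lit 36369526466) (nat_lit 152) (nat_lit 19986271239) (nat_lit 0) (nat_lit 34818743387) (nat_lit 4) (nat_lit 5) (nat_lit 6) (nat_lit 4) (nat_lit 4) (nat_lit 4) (nat_lit 499) (nat_lit 362) (nat_lit 339)) (XT.lf (nat_lit 0) (nat_lit 43413445521) (nat_lit 152) (nat_lit 10225692629) (nat_lit 0) (nat_lit 41827013895) (nat_lit 4) (nat_lit 5) (nat_lit 6) (nat_lit 4) (nat_lit 4) (nat_lit 4) (nat_lit 500) (nat_lit 362) (nat_lit 338)))))) (XT.nd (nat_lit 546) (nat_lit 0) (nat_lit 0) (XT.nd (nat_lit 234) (nat_lit 0) (nat_lit 0) (XT.nd (nat_lit 78) (nat_lit 76) (nat_lit 0) (XT.lf (nat_lit 0) (nat_lit 50710732826) (nat_lit 152) (nat_lit 176203673) (nat_lit 0) (nat_lit 49090350202) (nat_lit 4) (nat_lit 5) (nat_lit 6) (nat_lit 4) (nat_lit 4) (nat_lit 4) (nat_lit 501) (nat_lit 362) (nat_lit 337)) (XT.nd (nat_lit 78) (nat_lit 0) (nat_lit 0) (XT.lf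 (nat_lit 0) (nat_lit 10522922212) (nat_lit 76) (nat_lit 47920132965) (nat_lit 76) (nat_lit 46267416058) (nat_lit 3) (nat_lit 4) (nat_lit 4) (nat_lit 5) (nat_lit 4) (nat_lit 4) (nat_lit 502) (nat_lit 362) (nat_lit 336)) (XT.lf (nat_lit 0) (nat_lit 21576543698) (nat_lit 76) (nat_lit 44895881396) (nat_lit 76) (nat_lit 43212369933) (nat_lit 3) (nat_lit 4) (nat_lit 4) (nat_lit 5) (nat_lit 4) (nat_lit 4) (nat_lit 503) (nat_lit 362) (nat_lit 335)))) (XT.nd (nat_lit 156) (nat_lit 0) (nat_lit 0) (XT.nd (nat_lit 78) (nat_lit 0) (nat_lit 0) (XT.lf (nat_lit 0) (nat_lit 33005152840) (nat_lit 76) (nat_lit 41809965288) (nat_lit 76) (nat_lit 40097125676) (nat_lit 3) (nat_lit 4) (nat_lit 4) (nat_lit 5) (nat_lit 4) (nat_lit 4) (nat_lit 504) (nat_lit 362) (nat_lit 334)) (XT.lf (nat_lit 0) (nat_lit 44835960614) (nat_lit 76) (nat_lit 38655037220) (nat_lit 76) (nat_lit 36914266038) (nat_lit 3) (nat_lit 4) (nat_lit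 4) (nat_lit 5) (nat_lit 4) (nat_lit 4) (nat_lit 505) (nat_lit 362) (nat_lit 333))) (XT.nd (nat_lit 78) (nat_lit 0) (nat_lit 0) (XT.lf (nat_lit 0) (nat_lit 57097135607) (nat_lit 76) (nat_lit 35423585459) (nat_lit 76) (nat_lit 33656212783) (nat_lit 3) (nat_lit 4) (nat_lit 4) (nat_lit 5) (nat_lit 4) (nat_lit 4) (nat_lit 506) (nat_lit 362) (nat_lit 332)) (XT.lf (nat_lit 0) (nat_lit 69817871096) (nat_lit 76) (nat_lit 32107916074) (nat_lit 76) (nat_lit 30315208640) (nat_lit 3) (nat_lit 4) (nat_lit 4) (nat_lit 5) (nat_lit 4) (nat_lit 4) (nat_lit 507) (nat_lit 362) (nat_lit 331))))) (XT.nd (nat_lit 234) (nat_lit 0) (nat_lit 0) (XT.nd (nat_lit 78) (nat_lit 0) (nat_lit 0) (XT.lf (nat_lit 0) (nat_lit 83028454544) (nat_lit 76) (nat_lit 28700134612) (nat_lit 76) (nat_lit 26883298838) (nat_lit 3) (nat_lit 4) (nat_lit 4) (nat_lit 5) (nat_lit 4) (nat_lit 4) (nat_lit 508) (nat_lit 362) (nat_lit 330)) (XT.nd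 (nat_lit 78) (nat_lit 0) (nat_lit 0) (XT.lf (nat_lit 0) (nat_lit 96760339722) (nat_lit 76) (nat_lit 25192127308) (nat_lit 76) (nat_lit 23352312163) (nat_lit 3) (nat_lit 4) (nat_lit 4) (nat_lit 5) (nat_lit 4) (nat_lit 4) (nat_lit 509) (nat_lit 362) (nat_lit 329)) (XT.lf (nat_lit 0) (nat_lit 111046221595) (nat_lit 76) (nat_lit 21575541765) (nat_lit 76) (nat_lit 19713841503) (nat_lit 3) (nat_lit 4) (nat_lit 4) (nat_lit 5) (nat_lit 4) (nat_lit 4) (nat_lit 510) (nat_lit 362) (nat_lit 328)))) (XT.nd (nat_lit 156) (nat_lit 0) (nat_lit 0) (XT.nd (nat_lit 78) (nat_lit 0) (nat_lit 0) (XT.lf (nat_lit 0) (nat_lit 125920114167) (nat_lit 76) (nat_lit 17841767063) (nat_lit 76) (nat_lit 15959223834) (nat_lit 3) (nat_lit 4) (nat_lit 4) (nat_lit 5) (nat_lit 4) (nat_lit 4) (nat_lit 511) (nat_lit 362) (nat_lit 327)) (XT.lf (nat_lit 0) (nat_lit 141417431469) (nat_lit 76) (nat_lit 13981913264) (nat_lit 76) (nat_lit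 12079519590) (nat_lit 3) (nat_lit 4) (nat_lit 4) (nat_lit 5) (nat_lit 4) (nat_lit 4) (nat_lit 512) (nat_lit 362) (nat_lit 326))) (XT.nd (nat_lit 78) (nat_lit 0) (nat_lit 0) (XT.lf (nat_lit 0) (nat_lit 157575071874) (nat_lit 76) (nat_lit 9986790239) (nat_lit 76) (nat_lit 8065491379) (nat_lit 3) (nat_lit 4) (nat_lit 4) (nat_lit 5) (nat_lit 4) (nat_lit 4) (nat_lit 513) (nat_lit 362) (nat_lit 325)) (XT.lf (nat_lit 0) (nat_lit 174431505955) (nat_lit 76) (nat_lit 5846885791) (nat_lit 76) (nat_lit 3907581992) (nat_lit 3) (nat_lit 4) (nat_lit 4) (nat_lit 5) (nat_lit 4) (nat_lit 4) (nat_lit 514) (nat_lit 362) (nat_lit 324))))))) (XT.nd (nat_lit 1092) (nat_lit 0) (nat_lit 0) (XT.nd (nat_lit 546) (nat_lit 0) (nat_lit 0) (XT.nd (nat_lit 234) (nat_lit 0) (nat_lit 0) (XT.nd (nat_lit 78) (nat_lit 76) (nat_lit 0) (XT.lf (nat_lit 0) (nat_lit 391174365) (nat_lit 152) (nat_lit 1154543911) (nat_lit 76) (nat_lit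 191629068987) (nat_lit 2) (nat_lit 5) (nat_lit 4) (nat_lit 5) (nat_lit 3) (nat_lit 4) (nat_lit 515) (nat_lit 362) (nat_lit 323)) (XT.nd (nat_lit 78) (nat_lit 0) (nat_lit 0) (XT.lf (nat_lit 0) (nat_lit 4896701707) (nat_lit 152) (nat_lit 194689118599) (nat_lit 0) (nat_lit 3017861354) (nat_lit 1) (nat_lit 5) (nat_lit 3) (nat_lit 4) (nat_lit 1) (nat_lit 4) (nat_lit 516) (nat_lit 362) (nat_lit 322)) (XT.lf (nat_lit 0) (nat_lit 9622881280) (nat_lit 152) (nat_lit 195152143255) (nat_lit 0) (nat_lit 7729228220) (nat_lit 1) (nat_lit 5) (nat_lit 3) (nat_lit 4) (nat_lit 1) (nat_lit 4) (nat_lit 517) (nat_lit 362) (nat_lit 321)))) (XT.nd (nat_lit 156) (nat_lit 0) (nat_lit 0) (XT.nd (nat_lit 78) (nat_lit 0) (nat_lit 0) (XT.lf (nat_lit 0) (nat_lit 14537905950) (nat_lit 152) (nat_lit 195734174834) (nat_lit 0) (nat_lit 12630145549) (nat_lit 1) (nat_lit 5) (nat_lit 3) (nat_lit 4) (nat_lit 1) (nat_lit 4) (nat_lit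 518) (nat_lit 362) (nat_lit 320)) (XT.lf (nat_lit 0) (nat_lit 19653478156) (nat_lit 152) (nat_lit 196436599125) (nat_lit 0) (nat_lit 17732282192) (nat_lit 1) (nat_lit 5) (nat_lit 3) (nat_lit 4) (nat_lit 1) (nat_lit 4) (nat_lit 519) (nat_lit 362) (nat_lit 319))) (XT.nd (nat_lit 78) (nat_lit 0) (nat_lit 0) (XT.lf (nat_lit 0) (nat_lit 24981777832) (nat_lit 152) (nat_lit 197261088568) (nat_lit 0) (nat_lit 23047786094) (nat_lit 1) (nat_lit 5) (nat_lit 3) (nat_lit 4) (nat_lit 1) (nat_lit 4) (nat_lit 520) (nat_lit 362) (nat_lit 318)) (XT.lf (nat_lit 0) (nat_lit 30535491406) (nat_lit 152) (nat_lit 198209606232) (nat_lit 0) (nat_lit 28589313216) (nat_lit 1) (nat_lit 5) (nat_lit 3) (nat_lit 4) (nat_lit 1) (nat_lit 4) (nat_lit 521) (nat_lit 362) (nat_lit 317))))) (XT.nd (nat_lit 234) (nat_lit 0) (nat_lit 0) (XT.nd (nat_lit 78) (nat_lit 0) (nat_lit 0) (XT.lf (nat_lit 0) (nat_lit 36327842005) (nat_lit 152)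 (nat_lit 199284410492) (nat_lit 0) (nat_lit 34370057671) (nat_lit 1) (nat_lit 5) (nat_lit 3) (nat_lit 4) (nat_lit 1) (nat_lit 4) (nat_lit 522) (nat_lit 362) (nat_lit 316)) (XT.nd (nat_lit 78) (nat_lit 0) (nat_lit 0) (XT.lf (nat_lit 0) (nat_lit 42372620940) (nat_lit 152) (nat_lit 200488060408) (nat_lit 0) (nat_lit 40403783136) (nat_lit 1) (nat_lit 5) (nat_lit 3) (nat_lit 4) (nat_lit 1) (nat_lit 4) (nat_lit 523) (nat_lit 362) (nat_lit 315)) (XT.lf (nat_lit 0) (nat_lit 48684220542) (nat_lit 152) (nat_lit 201823421810) (nat_lit 0) (nat_lit 46704855623) (nat_lit 1) (nat_lit 5) (nat_lit 3) (nat_lit 4) (nat_lit 1) (nat_lit 4) (nat_lit 524) (nat_lit 362) (nat_lit 314)))) (XT.nd (nat_lit 156) (nat_lit 0) (nat_lit 0) (XT.nd (nat_lit 78) (nat_lit 0) (nat_lit 0) (XT.lf (nat_lit 0) (nat_lit 55277668429) (nat_lit 152) (nat_lit 203293674133) (nat_lit 0) (nat_lit 53288277686) (nat_lit 1) (nat_lit 5) (nat_lit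 3) (nat_lit 4) (nat_lit 1) (nat_lit 4) (nat_lit 525) (nat_lit 362) (nat_lit 313)) (XT.lf (nat_lit 0) (nat_lit 62168663287) (nat_lit 152) (nat_lit 204902317976) (nat_lit 0) (nat_lit 60169724141) (nat_lit 1) (nat_lit 5) (nat_lit 3) (nat_lit 4) (nat_lit 1) (nat_lit 4) (nat_lit 526) (nat_lit 362) (nat_lit 312))) (XT.nd (nat_lit 78) (nat_lit 0) (nat_lit 0) (XT.lf (nat_lit 0) (nat_lit 69373612246) (nat_lit 152) (nat_lit 206653183443) (nat_lit 0) (nat_lit 67365579382) (nat_lit 1) (nat_lit 5) (nat_lit 3) (nat_lit 4) (nat_lit 1) (nat_lit 4) (nat_lit 527) (nat_lit 362) (nat_lit 311)) (XT.lf (nat_lit 0) (nat_lit 76909669947) (nat_lit 152) (nat_lit 208550439263) (nat_lit 0) (nat_lit 74892976399) (nat_lit 1) (nat_lit 5) (nat_lit 3) (nat_lit 4) (nat_lit 1) (nat_lit 4) (nat_lit 528) (nat_lit 362) (nat_lit 310)))))) (XT.nd (nat_lit 546) (nat_lit 0) (nat_lit 0) (XT.nd (nat_lit 234) (nat_lit 0) (nat_lit 0) (XT.nd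 (nat_lit 78) (nat_lit 0) (nat_lit 0) (XT.lf (nat_lit 0) (nat_lit 84794779384) (nat_lit 152) (nat_lit 210598602710) (nat_lit 0) (nat_lit 82769837566) (nat_lit 1) (nat_lit 5) (nat_lit 3) (nat_lit 4) (nat_lit 1) (nat_lit 4) (nat_lit 529) (nat_lit 362) (nat_lit 309)) (XT.nd (nat_lit 78) (nat_lit 0) (nat_lit 0) (XT.lf (nat_lit 0) (nat_lit 93047714627) (nat_lit 152) (nat_lit 212802550365) (nat_lit 0) (nat_lit 91014917314) (nat_lit 1) (nat_lit 5) (nat_lit 3) (nat_lit 4) (nat_lit 1) (nat_lit 4) (nat_lit 530) (nat_lit 362) (nat_lit 308)) (XT.lf (nat_lit 0) (nat_lit 101688125522) (nat_lit 152) (nat_lit 215167529722) (nat_lit 0) (nat_lit 99647846785) (nat_lit 1) (nat_lit 5) (nat_lit 3) (nat_lit 4) (nat_lit 1) (nat_lit 4) (nat_lit 531) (nat_lit 362) (nat_lit 307)))) (XT.nd (nat_lit 156) (nat_lit 0) (nat_lit 0) (XT.nd (nat_lit 78) (nat_lit 0) (nat_lit 0) (XT.lf (nat_lit 0) (nat_lit 110736584475) (nat_lit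 152) (nat_lit 217699171684) (nat_lit 0) (nat_lit 108689180573) (nat_lit 1) (nat_lit 5) (nat_lit 3) (nat_lit 4) (nat_lit 1) (nat_lit 4) (nat_lit 532) (nat_lit 362) (nat_lit 306)) (XT.lf (nat_lit 0) (nat_lit 120214635438) (nat_lit 152) (nat_lit 220403503970) (nat_lit 0) (nat_lit 118160445663) (nat_lit 1) (nat_lit 5) (nat_lit 3) (nat_lit 4) (nat_lit 1) (nat_lit 4) (nat_lit 533) (nat_lit 362) (nat_lit 305))) (XT.nd (nat_lit 78) (nat_lit 0) (nat_lit 0) (XT.lf (nat_lit 0) (nat_lit 130144845197) (nat_lit 152) (nat_lit 223286965466) (nat_lit 0) (nat_lit 128084192687) (nat_lit 1) (nat_lit 5) (nat_lit 3) (nat_lit 4) (nat_lit 1) (nat_lit 4) (nat_lit 534) (nat_lit 362) (nat_lit 304)) (XT.lf (nat_lit 0) (nat_lit 140550857110) (nat_lit 152) (nat_lit 226356421557) (nat_lit 0) (nat_lit 138484049614) (nat_lit 1) (nat_lit 5) (nat_lit 3) (nat_lit 4) (nat_lit 1) (nat_lit 4) (nat_lit 535) (nat_lit 362) (nat_lit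 303))))) (XT.nd (nat_lit 312) (nat_lit 0) (nat_lit 0) (XT.nd (nat_lit 156) (nat_lit 0) (nat_lit 0) (XT.nd (nat_lit 78) (nat_lit 0) (nat_lit 0) (XT.lf (nat_lit 0) (nat_lit 151457447395) (nat_lit 152) (nat_lit 229619180472) (nat_lit 0) (nat_lit 149384778007) (nat_lit 1) (nat_lit 5) (nat_lit 3) (nat_lit 4) (nat_lit 1) (nat_lit 4) (nat_lit 536) (nat_lit 362) (nat_lit 302)) (XT.lf (nat_lit 0) (nat_lit 162890584124) (nat_lit 152) (nat_lit 233083010684) (nat_lit 0) (nat_lit 160812331983) (nat_lit 1) (nat_lit 5) (nat_lit 3) (nat_lit 4) (nat_lit 1) (nat_lit 4) (nat_lit 537) (nat_lit 362) (nat_lit 301))) (XT.nd (nat_lit 78) (nat_lit 0) (nat_lit 0) (XT.lf (nat_lit 0) (nat_lit 174877489052) (nat_lit 152) (nat_lit 236756159409) (nat_lit 0) (nat_lit 172793920002) (nat_lit 1) (nat_lit 5) (nat_lit 3) (nat_lit 4) (nat_lit 1) (nat_lit 4) (nat_lit 538) (nat_lit 362) (nat_lit 300)) (XT.lf (nat_lit 0) (nat_lit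 187446702428) (nat_lit 152) (nat_lit 240647372238) (nat_lit 0) (nat_lit 185358069655) (nat_lit 1) (nat_lit 5) (nat_lit 3) (nat_lit 4) (nat_lit 1) (nat_lit 4) (nat_lit 539) (nat_lit 362) (nat_lit 299)))) (XT.nd (nat_lit 156) (nat_lit 0) (nat_lit 0) (XT.nd (nat_lit 78) (nat_lit 0) (nat_lit 0) (XT.lf (nat_lit 0) (nat_lit 200628150950) (nat_lit 152) (nat_lit 244765913963) (nat_lit 0) (nat_lit 198534695585) (nat_lit 1) (nat_lit 5) (nat_lit 3) (nat_lit 4) (nat_lit 1) (nat_lit 4) (nat_lit 540) (nat_lit 362) (nat_lit 298)) (XT.lf (nat_lit 0) (nat_lit 214453219021) (nat_lit 152) (nat_lit 249121590637) (nat_lit 0) (nat_lit 212355170711) (nat_lit 1) (nat_lit 5) (nat_lit 3) (nat_lit 4) (nat_lit 1) (nat_lit 4) (nat_lit 541) (nat_lit 362) (nat_lit 297))) (XT.nd (nat_lit 78) (nat_lit 0) (nat_lit 0) (XT.lf (nat_lit 0) (nat_lit 228954823468) (nat_lit 152) (nat_lit 253724772919) (nat_lit 0) (nat_lit 226852400924)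 (nat_lit 1) (nat_lit 5) (nat_lit 3) (nat_lit 4) (nat_lit 1) (nat_lit 4) (nat_lit 542) (nat_lit 362) (nat_lit 296)) (XT.lf (nat_lit 0) (nat_lit 244167491922) (nat_lit 152) (nat_lit 258586420765) (nat_lit 0) (nat_lit 242060903441) (nat_lit 1) (nat_lit 5) (nat_lit 3) (nat_lit 4) (nat_lit 1) (nat_lit 4) (nat_lit 543) (nat_lit 362) (nat_lit 295))))))))
noncomputable def xc23 : XT := (XT.nd (nat_lit 58968) (nat_lit 0) (nat_lit 0) (XT.nd (nat_lit 57876) (nat_lit 0) (nat_lit 228) (XT.nd (nat_lit 57330) (nat_lit 0) (nat_lit 608) (XT.nd (nat_lit 57018) (nat_lit 0) (nat_lit 836) (XT.nd (nat_lit 78) (nat_lit 0) (nat_lit 0) (XT.lf (nat_lit 0) (nat_lit 260127445021) (nat_lit 152) (nat_lit 263718109529) (nat_lit 0) (nat_lit 258016888982) (nat_lit 1) (nat_lit 5) (nat_lit 3) (nat_lit 4) (nat_lit 1) (nat_lit 4) (nat_lit 544) (nat_lit 362) (nat_lit 294)) (XT.nd (nat_lit 78) (nat_lit 0) (nat_lit 0) (XT.lf (nat_lit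 0) (nat_lit 276872682654) (nat_lit 152) (nat_lit 269132057516) (nat_lit 0) (nat_lit 274758347987) (nat_lit 1) (nat_lit 5) (nat_lit 3) (nat_lit 4) (nat_lit 1) (nat_lit 4) (nat_lit 545) (nat_lit 362) (nat_lit 293)) (XT.lf (nat_lit 0) (nat_lit 294443074435) (nat_lit 152) (nat_lit 274841155079) (nat_lit 0) (nat_lit 292325141075) (nat_lit 1) (nat_lit 5) (nat_lit 3) (nat_lit 4) (nat_lit 1) (nat_lit 4) (nat_lit 546) (nat_lit 362) (nat_lit 292)))) (XT.nd (nat_lit 156) (nat_lit 76) (nat_lit 0) (XT.nd (nat_lit 78) (nat_lit 0) (nat_lit 0) (XT.lf (nat_lit 0) (nat_lit 2046779014) (nat_lit 152) (nat_lit 11750305012) (nat_lit 0) (nat_lit 2046779014) (nat_lit 13) (nat_lit 5) (nat_lit 15) (nat_lit 4) (nat_lit 13) (nat_lit 4) (nat_lit 474) (nat_lit 363) (nat_lit 363)) (XT.lf (nat_lit 0) (nat_lit 11758942778) (nat_lit 152) (nat_lit 9507087005) (nat_lit 0) (nat_lit 11625850482) (nat_lit 13) (nat_lit 5) (nat_lit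 15) (nat_lit 4) (nat_lit 13) (nat_lit 4) (nat_lit 475) (nat_lit 363) (nat_lit 362))) (XT.nd (nat_lit 78) (nat_lit 0) (nat_lit 0) (XT.lf (nat_lit 0) (nat_lit 4864136941) (nat_lit 76) (nat_lit 14780064226) (nat_lit 76) (nat_lit 14520217364) (nat_lit 12) (nat_lit 4) (nat_lit 13) (nat_lit 5) (nat_lit 13) (nat_lit 4) (nat_lit 476) (nat_lit 363) (nat_lit 361)) (XT.lf (nat_lit 0) (nat_lit 19814032856) (nat_lit 76) (nat_lit 8035418104) (nat_lit 76) (nat_lit 7654852606) (nat_lit 12) (nat_lit 4) (nat_lit 13) (nat_lit 5) (nat_lit 13) (nat_lit 4) (nat_lit 477) (nat_lit 363) (nat_lit 360))))) (XT.nd (nat_lit 234) (nat_lit 76) (nat_lit 0) (XT.nd (nat_lit 78) (nat_lit 152) (nat_lit 0) (XT.lf (nat_lit 0) (nat_lit 35063848498) (nat_lit 76) (nat_lit 1177039855) (nat_lit 76) (nat_lit 681504228) (nat_lit 12) (nat_lit 4) (nat_lit 13) (nat_lit 5) (nat_lit 13) (nat_lit 4) (nat_lit 478) (nat_lit 363) (nat_lit 359))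 (XT.nd (nat_lit 78) (nat_lit 0) (nat_lit 0) (XT.lf (nat_lit 0) (nat_lit 6502253604) (nat_lit 152) (nat_lit 25974206408) (nat_lit 0) (nat_lit 5926033616) (nat_lit 10) (nat_lit 5) (nat_lit 12) (nat_lit 4) (nat_lit 10) (nat_lit 4) (nat_lit 479) (nat_lit 363) (nat_lit 358)) (XT.lf (nat_lit 0) (nat_lit 13857016886) (nat_lit 152) (nat_lit 12925811993) (nat_lit 0) (nat_lit 13181481378) (nat_lit 10) (nat_lit 5) (nat_lit 12) (nat_lit 4) (nat_lit 10) (nat_lit 4) (nat_lit 480) (nat_lit 363) (nat_lit 357)))) (XT.nd (nat_lit 156) (nat_lit 0) (nat_lit 0) (XT.nd (nat_lit 78) (nat_lit 0) (nat_lit 0) (XT.lf (nat_lit 0) (nat_lit 373837120) (nat_lit 76) (nat_lit 21005264047) (nat_lit 76) (nat_lit 20235142329) (nat_lit 9) (nat_lit 4) (nat_lit 10) (nat_lit 5) (nat_lit 10) (nat_lit 4) (nat_lit 481) (nat_lit 363) (nat_lit 356)) (XT.lf (nat_lit 0) (nat_lit 14380756941) (nat_lit 76) (nat_lit 14912659318) (nat_lit 76)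 (nat_lit 14052455496) (nat_lit 9) (nat_lit 4) (nat_lit 10) (nat_lit 5) (nat_lit 10) (nat_lit 4) (nat_lit 482) (nat_lit 363) (nat_lit 355))) (XT.nd (nat_lit 78) (nat_lit 0) (nat_lit 0) (XT.lf (nat_lit 0) (nat_lit 28700911557) (nat_lit 76) (nat_lit 8709413372) (nat_lit 76) (nat_lit 7763417069) (nat_lit 9) (nat_lit 4) (nat_lit 10) (nat_lit 5) (nat_lit 10) (nat_lit 4) (nat_lit 483) (nat_lit 363) (nat_lit 354)) (XT.lf (nat_lit 0) (nat_lit 43368396576) (nat_lit 76) (nat_lit 2380756576) (nat_lit 76) (nat_lit 1353053149) (nat_lit 9) (nat_lit 4) (nat_lit 10) (nat_lit 5) (nat_lit 10) (nat_lit 4) (nat_lit 484) (nat_lit 363) (nat_lit 353)))))) (XT.nd (nat_lit 546) (nat_lit 152) (nat_lit 0) (XT.nd (nat_lit 234) (nat_lit 76) (nat_lit 0) (XT.nd (nat_lit 78) (nat_lit 0) (nat_lit 0) (XT.lf (nat_lit 0) (nat_lit 5243661387) (nat_lit 152) (nat_lit 39686554862) (nat_lit 0) (nat_lit 4190785448) (nat_lit 7) (nat_lit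 5) (nat_lit 9) (nat_lit 4) (nat_lit 7) (nat_lit 4) (nat_lit 485) (nat_lit 363) (nat_lit 352)) (XT.nd (nat_lit 78) (nat_lit 0) (nat_lit 0) (XT.lf (nat_lit 0) (nat_lit 12050239590) (nat_lit 152) (nat_lit 28266334951) (nat_lit 0) (nat_lit 10926781965) (nat_lit 7) (nat_lit 5) (nat_lit 9) (nat_lit 4) (nat_lit 7) (nat_lit 4) (nat_lit 486) (nat_lit 363) (nat_lit 351)) (XT.lf (nat_lit 0) (nat_lit 19027813472) (nat_lit 152) (nat_lit 16615350550) (nat_lit 0) (nat_lit 17837135194) (nat_lit 7) (nat_lit 5) (nat_lit 9) (nat_lit 4) (nat_lit 7) (nat_lit 4) (nat_lit 487) (nat_lit 363) (nat_lit 350)))) (XT.nd (nat_lit 156) (nat_lit 0) (nat_lit 0) (XT.nd (nat_lit 78) (nat_lit 76) (nat_lit 0) (XT.lf (nat_lit 0) (nat_lit 26192996303) (nat_lit 152) (nat_lit 4705861220) (nat_lit 0) (nat_lit 24938298356) (nat_lit 7) (nat_lit 5) (nat_lit 9) (nat_lit 4) (nat_lit 7) (nat_lit 4) (nat_lit 488) (nat_lit 363) (nat_lit 349))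 (XT.lf (nat_lit 0) (nat_lit 7738158358) (nat_lit 76) (nat_lit 25945504023) (nat_lit 76) (nat_lit 24629834961) (nat_lit 6) (nat_lit 4) (nat_lit 7) (nat_lit 5) (nat_lit 7) (nat_lit 4) (nat_lit 489) (nat_lit 363) (nat_lit 348))) (XT.nd (nat_lit 78) (nat_lit 0) (nat_lit 0) (XT.lf (nat_lit 0) (nat_lit 20664119820) (nat_lit 76) (nat_lit 20813420959) (nat_lit 76) (nat_lit 19439684169) (nat_lit 6) (nat_lit 4) (nat_lit 7) (nat_lit 5) (nat_lit 7) (nat_lit 4) (nat_lit 490) (nat_lit 363) (nat_lit 347)) (XT.lf (nat_lit 0) (nat_lit 33947202240) (nat_lit 76) (nat_lit 15570085123) (nat_lit 76) (nat_lit 14141045736) (nat_lit 6) (nat_lit 4) (nat_lit 7) (nat_lit 5) (nat_lit 7) (nat_lit 4) (nat_lit 491) (nat_lit 363) (nat_lit 346))))) (XT.nd (nat_lit 234) (nat_lit 0) (nat_lit 0) (XT.nd (nat_lit 78) (nat_lit 152) (nat_lit 0) (XT.lf (nat_lit 0) (nat_lit 47619032003) (nat_lit 76) (nat_lit 10203012384) (nat_lit 76)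 (nat_lit 8721303856) (nat_lit 6) (nat_lit 4) (nat_lit 7) (nat_lit 5) (nat_lit 7) (nat_lit 4) (nat_lit 492) (nat_lit 363) (nat_lit 345)) (XT.nd (nat_lit 78) (nat_lit 152) (nat_lit 0) (XT.lf (nat_lit 0) (nat_lit 61712161087) (nat_lit 76) (nat_lit 4699423995) (nat_lit 76) (nat_lit 3167554381) (nat_lit 6) (nat_lit 4) (nat_lit 7) (nat_lit 5) (nat_lit 7) (nat_lit 4) (nat_lit 493) (nat_lit 363) (nat_lit 344)) (XT.lf (nat_lit 0) (nat_lit 2524399061) (nat_lit 152) (nat_lit 69222977112) (nat_lit 0) (nat_lit 1019978035) (nat_lit 4) (nat_lit 5) (nat_lit 6) (nat_lit 4) (nat_lit 4) (nat_lit 4) (nat_lit 494) (nat_lit 363) (nat_lit 343)))) (XT.nd (nat_lit 156) (nat_lit 0) (nat_lit 0) (XT.nd (nat_lit 78) (nat_lit 0) (nat_lit 0) (XT.lf (nat_lit 0) (nat_lit 8480822541) (nat_lit 152) (nat_lit 60694176418) (nat_lit 0) (nat_lit 6933070482) (nat_lit 4) (nat_lit 5) (nat_lit 6) (nat_lit 4) (nat_lit 4) (nat_lit 4) (nat_lit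 495) (nat_lit 363) (nat_lit 342)) (XT.lf (nat_lit 0) (nat_lit 14614941503) (nat_lit 152) (nat_lit 51980965572) (nat_lit 0) (nat_lit 13025921794) (nat_lit 4) (nat_lit 5) (nat_lit 6) (nat_lit 4) (nat_lit 4) (nat_lit 4) (nat_lit 496) (nat_lit 363) (nat_lit 341))) (XT.nd (nat_lit 78) (nat_lit 0) (nat_lit 0) (XT.lf (nat_lit 0) (nat_lit 20941360991) (nat_lit 152) (nat_lit 43062598833) (nat_lit 0) (nat_lit 19313038758) (nat_lit 4) (nat_lit 5) (nat_lit 6) (nat_lit 4) (nat_lit 4) (nat_lit 4) (nat_lit 497) (nat_lit 363) (nat_lit 340)) (XT.lf (nat_lit 0) (nat_lit 27475143910) (nat_lit 152) (nat_lit 33917841995) (nat_lit 0) (nat_lit 25809390702) (nat_lit 4) (nat_lit 5) (nat_lit 6) (nat_lit 4) (nat_lit 4) (nat_lit 4) (nat_lit 498) (nat_lit 363) (nat_lit 339))))))) (XT.nd (nat_lit 1092) (nat_lit 152) (nat_lit 0) (XT.nd (nat_lit 546) (nat_lit 0) (nat_lit 0) (XT.nd (nat_lit 234) (nat_lit 76) (nat_lit 0) (XT.nd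 (nat_lit 78) (nat_lit 0) (nat_lit 0) (XT.lf (nat_lit 0) (nat_lit 34231846885) (nat_lit 152) (nat_lit 24524921827) (nat_lit 0) (nat_lit 32530445130) (nat_lit 4) (nat_lit 5) (nat_lit 6) (nat_lit 4) (nat_lit 4) (nat_lit 4) (nat_lit 499) (nat_lit 363) (nat_lit 338)) (XT.nd (nat_lit 78) (nat_lit 0) (nat_lit 0) (XT.lf (nat_lit 0) (nat_lit 41227557304) (nat_lit 152) (nat_lit 14861474234) (nat_lit 0) (nat_lit 39492204551) (nat_lit 4) (nat_lit 5) (nat_lit 6) (nat_lit 4) (nat_lit 4) (nat_lit 4) (nat_lit 500) (nat_lit 363) (nat_lit 337)) (XT.lf (nat_lit 0) (nat_lit 48478931622) (nat_lit 152) (nat_lit 4904491007) (nat_lit 0) (nat_lit 46711244585) (nat_lit 4) (nat_lit 5) (nat_lit 6) (nat_lit 4) (nat_lit 4) (nat_lit 4) (nat_lit 501) (nat_lit 363) (nat_lit 336)))) (XT.nd (nat_lit 156) (nat_lit 0) (nat_lit 0) (XT.nd (nat_lit 78) (nat_lit 0) (nat_lit 0) (XT.lf (nat_lit 0) (nat_lit 5547282644) (nat_lit 76) (nat_lit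 50542560998) (nat_lit 76) (nat_lit 48744079406) (nat_lit 3) (nat_lit 4) (nat_lit 4) (nat_lit 5) (nat_lit 4) (nat_lit 4) (nat_lit 502) (nat_lit 363) (nat_lit 335)) (XT.lf (nat_lit 0) (nat_lit 16514224413) (nat_lit 76) (nat_lit 47561991399) (nat_lit 76) (nat_lit 45734181659) (nat_lit 3) (nat_lit 4) (nat_lit 4) (nat_lit 5) (nat_lit 4) (nat_lit 4) (nat_lit 503) (nat_lit 363) (nat_lit 334))) (XT.nd (nat_lit 78) (nat_lit 0) (nat_lit 0) (XT.lf (nat_lit 0) (nat_lit 27860281445) (nat_lit 76) (nat_lit 44517677167) (nat_lit 76) (nat_lit 42661935856) (nat_lit 3) (nat_lit 4) (nat_lit 4) (nat_lit 5) (nat_lit 4) (nat_lit 4) (nat_lit 504) (nat_lit 363) (nat_lit 333)) (XT.lf (nat_lit 0) (nat_lit 39612468161) (nat_lit 76) (nat_lit 41402369933) (nat_lit 76) (nat_lit 39520027128) (nat_lit 3) (nat_lit 4) (nat_lit 4) (nat_lit 5) (nat_lit 4) (nat_lit 4) (nat_lit 505) (nat_lit 363) (nat_lit 332))))) (XT.nd (nat_lit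 234) (nat_lit 0) (nat_lit 0) (XT.nd (nat_lit 78) (nat_lit 0) (nat_lit 0) (XT.lf (nat_lit 0) (nat_lit 51798765957) (nat_lit 76) (nat_lit 38208652301) (nat_lit 76) (nat_lit 36300974739) (nat_lit 3) (nat_lit 4) (nat_lit 4) (nat_lit 5) (nat_lit 4) (nat_lit 4) (nat_lit 506) (nat_lit 363) (nat_lit 331)) (XT.nd (nat_lit 78) (nat_lit 0) (nat_lit 0) (XT.lf (nat_lit 0) (nat_lit 64448189828) (nat_lit 76) (nat_lit 34928920180) (nat_lit 76) (nat_lit 32997114278) (nat_lit 3) (nat_lit 4) (nat_lit 4) (nat_lit 5) (nat_lit 4) (nat_lit 4) (nat_lit 507) (nat_lit 363) (nat_lit 330)) (XT.lf (nat_lit 0) (nat_lit 77590857451) (nat_lit 76) (nat_lit 31555364685) (nat_lit 76) (nat_lit 29600579410) (nat_lit 3) (nat_lit 4) (nat_lit 4) (nat_lit 5) (nat_lit 4) (nat_lit 4) (nat_lit 508) (nat_lit 363) (nat_lit 329)))) (XT.nd (nat_lit 156) (nat_lit 0) (nat_lit 0) (XT.nd (nat_lit 78) (nat_lit 0) (nat_lit 0) (XT.lf (nat_lit 0)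 (nat_lit 91258060891) (nat_lit 76) (nat_lit 28079953540) (nat_lit 76) (nat_lit 26103283150) (nat_lit 3) (nat_lit 4) (nat_lit 4) (nat_lit 5) (nat_lit 4) (nat_lit 4) (nat_lit 509) (nat_lit 363) (nat_lit 328)) (XT.lf (nat_lit 0) (nat_lit 105482341108) (nat_lit 76) (nat_lit 24494411957) (nat_lit 76) (nat_lit 22496898599) (nat_lit 3) (nat_lit 4) (nat_lit 4) (nat_lit 5) (nat_lit 4) (nat_lit 4) (nat_lit 510) (nat_lit 363) (nat_lit 327))) (XT.nd (nat_lit 78) (nat_lit 0) (nat_lit 0) (XT.lf (nat_lit 0) (nat_lit 120297565436) (nat_lit 76) (nat_lit 20790202932) (nat_lit 76) (nat_lit 18772839129) (nat_lit 3) (nat_lit 4) (nat_lit 4) (nat_lit 5) (nat_lit 4) (nat_lit 4) (nat_lit 511) (nat_lit 363) (nat_lit 326)) (XT.lf (nat_lit 0) (nat_lit 135739008220) (nat_lit 76) (nat_lit 16958506921) (nat_lit 76) (nat_lit 14922237932) (nat_lit 3) (nat_lit 4) (nat_lit 4) (nat_lit 5) (nat_lit 4) (nat_lit 4) (nat_lit 512)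 (nat_lit 363) (nat_lit 325)))))) (XT.nd (nat_lit 546) (nat_lit 0) (nat_lit 0) (XT.nd (nat_lit 234) (nat_lit 152) (nat_lit 0) (XT.nd (nat_lit 78) (nat_lit 0) (nat_lit 0) (XT.lf (nat_lit 0) (nat_lit 151843434799) (nat_lit 76) (nat_lit 12990200836) (nat_lit 76) (nat_lit 10935926908) (nat_lit 3) (nat_lit 4) (nat_lit 4) (nat_lit 5) (nat_lit 4) (nat_lit 4) (nat_lit 513) (nat_lit 363) (nat_lit 324)) (XT.nd (nat_lit 78) (nat_lit 0) (nat_lit 0) (XT.lf (nat_lit 0) (nat_lit 168649189045) (nat_lit 76) (nat_lit 8875836331) (nat_lit 76) (nat_lit 6804414842) (nat_lit 3) (nat_lit 4) (nat_lit 4) (nat_lit 5) (nat_lit 4) (nat_lit 4) (nat_lit 514) (nat_lit 363) (nat_lit 323)) (XT.lf (nat_lit 0) (nat_lit 186196284660) (nat_lit 76) (nat_lit 4605617299) (nat_lit 76) (nat_lit 2517864800) (nat_lit 3) (nat_lit 4) (nat_lit 4) (nat_lit 5) (nat_lit 4) (nat_lit 4) (nat_lit 515) (nat_lit 363) (nat_lit 322)))) (XT.nd (nat_lit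 156) (nat_lit 0) (nat_lit 0) (XT.nd (nat_lit 78) (nat_lit 0) (nat_lit 0) (XT.lf (nat_lit 0) (nat_lit 1791704410) (nat_lit 76) (nat_lit 108300590) (nat_lit 152) (nat_lit 200859034325) (nat_lit 1) (nat_lit 5) (nat_lit 2) (nat_lit 5) (nat_lit 3) (nat_lit 4) (nat_lit 516) (nat_lit 363) (nat_lit 321)) (XT.lf (nat_lit 0) (nat_lit 6601340586) (nat_lit 152) (nat_lit 201475427569) (nat_lit 0) (nat_lit 4584084823) (nat_lit 1) (nat_lit 5) (nat_lit 3) (nat_lit 4) (nat_lit 1) (nat_lit 4) (nat_lit 517) (nat_lit 363) (nat_lit 320))) (XT.nd (nat_lit 78) (nat_lit 0) (nat_lit 0) (XT.lf (nat_lit 0) (nat_lit 11494314672) (nat_lit 152) (nat_lit 202101991408) (nat_lit 0) (nat_lit 9463623347) (nat_lit 1) (nat_lit 5) (nat_lit 3) (nat_lit 4) (nat_lit 1) (nat_lit 4) (nat_lit 518) (nat_lit 363) (nat_lit 319)) (XT.lf (nat_lit 0) (nat_lit 16588886321) (nat_lit 152) (nat_lit 202846827375) (nat_lit 0) (nat_lit 14545399222)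 (nat_lit 1) (nat_lit 5) (nat_lit 3) (nat_lit 4) (nat_lit 1) (nat_lit 4) (nat_lit 519) (nat_lit 363) (nat_lit 318))))) (XT.nd (nat_lit 312) (nat_lit 0) (nat_lit 0) (XT.nd (nat_lit 156) (nat_lit 0) (nat_lit 0) (XT.nd (nat_lit 78) (nat_lit 0) (nat_lit 0) (XT.lf (nat_lit 0) (nat_lit 21897185467) (nat_lit 152) (nat_lit 203711708891) (nat_lit 0) (nat_lit 19841511917) (nat_lit 1) (nat_lit 5) (nat_lit 3) (nat_lit 4) (nat_lit 1) (nat_lit 4) (nat_lit 520) (nat_lit 363) (nat_lit 317)) (XT.lf (nat_lit 0) (nat_lit 27431850918) (nat_lit 152) (nat_lit 204698695196) (nat_lit 0) (nat_lit 25364571223) (nat_lit 1) (nat_lit 5) (nat_lit 3) (nat_lit 4) (nat_lit 1) (nat_lit 4) (nat_lit 521) (nat_lit 363) (nat_lit 316))) (XT.nd (nat_lit 78) (nat_lit 0) (nat_lit 0) (XT.lf (nat_lit 0) (nat_lit 33206060446) (nat_lit 152) (nat_lit 205810136257) (nat_lit 0) (nat_lit 31127727281) (nat_lit 1) (nat_lit 5) (nat_lit 3) (nat_lit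 4) (nat_lit 1) (nat_lit 4) (nat_lit 522) (nat_lit 363) (nat_lit 315)) (XT.lf (nat_lit 0) (nat_lit 39233562172) (nat_lit 152) (nat_lit 207048678363) (nat_lit 0) (nat_lit 37144701892) (nat_lit 1) (nat_lit 5) (nat_lit 3) (nat_lit 4) (nat_lit 1) (nat_lit 4) (nat_lit 523) (nat_lit 363) (nat_lit 314)))) (XT.nd (nat_lit 156) (nat_lit 0) (nat_lit 0) (XT.nd (nat_lit 78) (nat_lit 0) (nat_lit 0) (XT.lf (nat_lit 0) (nat_lit 45528707289) (nat_lit 152) (nat_lit 208417270425) (nat_lit 0) (nat_lit 43429821185) (nat_lit 1) (nat_lit 5) (nat_lit 3) (nat_lit 4) (nat_lit 1) (nat_lit 4) (nat_lit 524) (nat_lit 363) (nat_lit 313)) (XT.lf (nat_lit 0) (nat_lit 52106484238) (nat_lit 152) (nat_lit 209919170993) (nat_lit 0) (nat_lit 49998049730) (nat_lit 1) (nat_lit 5) (nat_lit 3) (nat_lit 4) (nat_lit 1) (nat_lit 4) (nat_lit 525) (nat_lit 363) (nat_lit 312))) (XT.nd (nat_lit 78) (nat_lit 0) (nat_lit 0) (XT.lf (nat_lit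 0) (nat_lit 58982554392) (nat_lit 152) (nat_lit 211557956023) (nat_lit 0) (nat_lit 56865026167) (nat_lit 1) (nat_lit 5) (nat_lit 3) (nat_lit 4) (nat_lit 1) (nat_lit 4) (nat_lit 526) (nat_lit 363) (nat_lit 311)) (XT.lf (nat_lit 0) (nat_lit 66173289348) (nat_lit 152) (nat_lit 213337527382) (nat_lit 0) (nat_lit 64047100440) (nat_lit 1) (nat_lit 5) (nat_lit 3) (nat_lit 4) (nat_lit 1) (nat_lit 4) (nat_lit 527) (nat_lit 363) (nat_lit 310))))))))
noncomputable def xc24 : XT := (XT.nd (nat_lit 58812) (nat_lit 0) (nat_lit 152) (XT.nd (nat_lit 1092) (nat_lit 0) (nat_lit 0) (XT.nd (nat_lit 546) (nat_lit 0) (nat_lit 0) (XT.nd (nat_lit 234) (nat_lit 0) (nat_lit 0) (XT.nd (nat_lit 78) (nat_lit 0) (nat_lit 0) (XT.lf (nat_lit 0) (nat_lit 73695809903) (nat_lit 152) (nat_lit 215262122147) (nat_lit 0) (nat_lit 71561372724) (nat_lit 1) (nat_lit 5) (nat_lit 3) (nat_lit 4) (nat_lit 1) (nat_lit 4) (nat_lit 528) (nat_lit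 363) (nat_lit 309)) (XT.nd (nat_lit 78) (nat_lit 0) (nat_lit 0) (XT.lf (nat_lit 0) (nat_lit 81568026820) (nat_lit 152) (nat_lit 217336322684) (nat_lit 0) (nat_lit 79425734146) (nat_lit 1) (nat_lit 5) (nat_lit 3) (nat_lit 4) (nat_lit 1) (nat_lit 4) (nat_lit 529) (nat_lit 363) (nat_lit 308)) (XT.lf (nat_lit 0) (nat_lit 89808683473) (nat_lit 152) (nat_lit 219565067568) (nat_lit 0) (nat_lit 87658909375) (nat_lit 1) (nat_lit 5) (nat_lit 3) (nat_lit 4) (nat_lit 1) (nat_lit 4) (nat_lit 530) (nat_lit 363) (nat_lit 307)))) (XT.nd (nat_lit 156) (nat_lit 0) (nat_lit 0) (XT.nd (nat_lit 78) (nat_lit 0) (nat_lit 0) (XT.lf (nat_lit 0) (nat_lit 98437400472) (nat_lit 152) (nat_lit 221953663333) (nat_lit 0) (nat_lit 96280501208) (nat_lit 1) (nat_lit 5) (nat_lit 3) (nat_lit 4) (nat_lit 1) (nat_lit 4) (nat_lit 531) (nat_lit 363) (nat_lit 306)) (XT.lf (nat_lit 0) (nat_lit 107474722382) (nat_lit 152) (nat_lit 224507797112)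 (nat_lit 0) (nat_lit 105311037247) (nat_lit 1) (nat_lit 5) (nat_lit 3) (nat_lit 4) (nat_lit 1) (nat_lit 4) (nat_lit 532) (nat_lit 363) (nat_lit 305))) (XT.nd (nat_lit 78) (nat_lit 0) (nat_lit 0) (XT.lf (nat_lit 0) (nat_lit 116942166637) (nat_lit 152) (nat_lit 227233550177) (nat_lit 0) (nat_lit 114772018766) (nat_lit 1) (nat_lit 5) (nat_lit 3) (nat_lit 4) (nat_lit 1) (nat_lit 4) (nat_lit 533) (nat_lit 363) (nat_lit 304)) (XT.lf (nat_lit 0) (nat_lit 126862274770) (nat_lit 152) (nat_lit 230137412415) (nat_lit 0) (nat_lit 124685971912) (nat_lit 1) (nat_lit 5) (nat_lit 3) (nat_lit 4) (nat_lit 1) (nat_lit 4) (nat_lit 534) (nat_lit 363) (nat_lit 303))))) (XT.nd (nat_lit 234) (nat_lit 0) (nat_lit 0) (XT.nd (nat_lit 78) (nat_lit 0) (nat_lit 0) (XT.lf (nat_lit 0) (nat_lit 137258666086) (nat_lit 152) (nat_lit 233226297784) (nat_lit 0) (nat_lit 135076501337) (nat_lit 1) (nat_lit 5) (nat_lit 3) (nat_lit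 4) (nat_lit 1) (nat_lit 4) (nat_lit 535) (nat_lit 363) (nat_lit 302)) (XT.nd (nat_lit 78) (nat_lit 0) (nat_lit 0) (XT.lf (nat_lit 0) (nat_lit 148156093897) (nat_lit 152) (nat_lit 236507560773) (nat_lit 0) (nat_lit 145968346395) (nat_lit 1) (nat_lit 5) (nat_lit 3) (nat_lit 4) (nat_lit 1) (nat_lit 4) (nat_lit 536) (nat_lit 363) (nat_lit 301)) (XT.lf (nat_lit 0) (nat_lit 159580504462) (nat_lit 152) (nat_lit 239989013912) (nat_lit 0) (nat_lit 157387440051) (nat_lit 1) (nat_lit 5) (nat_lit 3) (nat_lit 4) (nat_lit 1) (nat_lit 4) (nat_lit 537) (nat_lit 363) (nat_lit 300)))) (XT.nd (nat_lit 156) (nat_lit 0) (nat_lit 0) (XT.nd (nat_lit 78) (nat_lit 0) (nat_lit 0) (XT.lf (nat_lit 0) (nat_lit 171559098756) (nat_lit 152) (nat_lit 243678946377) (nat_lit 0) (nat_lit 169360970623) (nat_lit 1) (nat_lit 5) (nat_lit 3) (nat_lit 4) (nat_lit 1) (nat_lit 4) (nat_lit 538) (nat_lit 363) (nat_lit 299)) (XT.lf (nat_lit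 0) (nat_lit 184120397243) (nat_lit 152) (nat_lit 247586143721) (nat_lit 0) (nat_lit 181917446517) (nat_lit 1) (nat_lit 5) (nat_lit 3) (nat_lit 4) (nat_lit 1) (nat_lit 4) (nat_lit 539) (nat_lit 363) (nat_lit 298))) (XT.nd (nat_lit 78) (nat_lit 0) (nat_lit 0) (XT.lf (nat_lit 0) (nat_lit 197294307776) (nat_lit 152) (nat_lit 251719908794) (nat_lit 0) (nat_lit 195086764105) (nat_lit 1) (nat_lit 5) (nat_lit 3) (nat_lit 4) (nat_lit 1) (nat_lit 4) (nat_lit 540) (nat_lit 363) (nat_lit 297)) (XT.lf (nat_lit 0) (nat_lit 211112196810) (nat_lit 152) (nat_lit 256090083894) (nat_lit 0) (nat_lit 208900278905) (nat_lit 1) (nat_lit 5) (nat_lit 3) (nat_lit 4) (nat_lit 1) (nat_lit 4) (nat_lit 541) (nat_lit 363) (nat_lit 296)))))) (XT.nd (nat_lit 57174) (nat_lit 0) (nat_lit 684) (XT.nd (nat_lit 234) (nat_lit 0) (nat_lit 0) (XT.nd (nat_lit 78) (nat_lit 0) (nat_lit 0) (XT.lf (nat_lit 0) (nat_lit 225606964078) (nat_lit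 152) (nat_lit 260707074200) (nat_lit 0) (nat_lit 223390880237) (nat_lit 1) (nat_lit 5) (nat_lit 3) (nat_lit 4) (nat_lit 1) (nat_lit 4) (nat_lit 542) (nat_lit 363) (nat_lit 295)) (XT.nd (nat_lit 78) (nat_lit 0) (nat_lit 0) (XT.lf (nat_lit 0) (nat_lit 240813120934) (nat_lit 152) (nat_lit 265581872547) (nat_lit 0) (nat_lit 238593069533) (nat_lit 1) (nat_lit 5) (nat_lit 3) (nat_lit 4) (nat_lit 1) (nat_lit 4) (nat_lit 543) (nat_lit 363) (nat_lit 294)) (XT.lf (nat_lit 0) (nat_lit 256766872510) (nat_lit 152) (nat_lit 270726085596) (nat_lit 0) (nat_lit 254543042482) (nat_lit 1) (nat_lit 5) (nat_lit 3) (nat_lit 4) (nat_lit 1) (nat_lit 4) (nat_lit 544) (nat_lit 363) (nat_lit 293)))) (XT.nd (nat_lit 56784) (nat_lit 0) (nat_lit 1064) (XT.nd (nat_lit 78) (nat_lit 0) (nat_lit 0) (XT.lf (nat_lit 0) (nat_lit 273506203932) (nat_lit 152) (nat_lit 276151961474) (nat_lit 0) (nat_lit 271278775211) (nat_lit 1) (nat_lit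 5) (nat_lit 3) (nat_lit 4) (nat_lit 1) (nat_lit 4) (nat_lit 545) (nat_lit 363) (nat_lit 292)) (XT.lf (nat_lit 0) (nat_lit 291070970748) (nat_lit 152) (nat_lit 281872418934) (nat_lit 0) (nat_lit 288840114701) (nat_lit 1) (nat_lit 5) (nat_lit 3) (nat_lit 4) (nat_lit 1) (nat_lit 4) (nat_lit 546) (nat_lit 363) (nat_lit 291))) (XT.nd (nat_lit 78) (nat_lit 0) (nat_lit 0) (XT.lf (nat_lit 0) (nat_lit 4283868930) (nat_lit 76) (nat_lit 5219267796) (nat_lit 76) (nat_lit 5219267796) (nat_lit 15) (nat_lit 4) (nat_lit 16) (nat_lit 5) (nat_lit 16) (nat_lit 4) (nat_lit 472) (nat_lit 364) (nat_lit 364)) (XT.lf (nat_lit 0) (nat_lit 23898619550) (nat_lit 76) (nat_lit 3395184454) (nat_lit 76) (nat_lit 3248450198) (nat_lit 15) (nat_lit 4) (nat_lit 16) (nat_lit 5) (nat_lit 16) (nat_lit 4) (nat_lit 473) (nat_lit 364) (nat_lit 363))))) (XT.nd (nat_lit 234) (nat_lit 152) (nat_lit 0) (XT.nd (nat_lit 78) (nat_lit 76)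 (nat_lit 0) (XT.lf (nat_lit 0) (nat_lit 4110716975) (nat_lit 152) (nat_lit 23745264114) (nat_lit 0) (nat_lit 3837877770) (nat_lit 13) (nat_lit 5) (nat_lit 15) (nat_lit 4) (nat_lit 13) (nat_lit 4) (nat_lit 474) (nat_lit 364) (nat_lit 362)) (XT.nd (nat_lit 78) (nat_lit 76) (nat_lit 0) (XT.lf (nat_lit 0) (nat_lit 11659351282) (nat_lit 152) (nat_lit 9984744988) (nat_lit 0) (nat_lit 11259757509) (nat_lit 13) (nat_lit 5) (nat_lit 15) (nat_lit 4) (nat_lit 13) (nat_lit 4) (nat_lit 475) (nat_lit 364) (nat_lit 361)) (XT.lf (nat_lit 0) (nat_lit 4141439661) (nat_lit 76) (nat_lit 15280695785) (nat_lit 76) (nat_lit 14760383376) (nat_lit 12) (nat_lit 4) (nat_lit 13) (nat_lit 5) (nat_lit 13) (nat_lit 4) (nat_lit 476) (nat_lit 364) (nat_lit 360)))) (XT.nd (nat_lit 156) (nat_lit 152) (nat_lit 0) (XT.nd (nat_lit 78) (nat_lit 0) (nat_lit 0) (XT.lf (nat_lit 0) (nat_lit 18873006274) (nat_lit 76) (nat_lit 8645074140)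 (nat_lit 76) (nat_lit 8009791603) (nat_lit 12) (nat_lit 4) (nat_lit 13) (nat_lit 5) (nat_lit 13) (nat_lit 4) (nat_lit 477) (nat_lit 364) (nat_lit 359)) (XT.lf (nat_lit 0) (nat_lit 33914889248) (nat_lit 76) (nat_lit 1890528726) (nat_lit 76) (nat_lit 1145750828) (nat_lit 12) (nat_lit 4) (nat_lit 13) (nat_lit 5) (nat_lit 13) (nat_lit 4) (nat_lit 478) (nat_lit 364) (nat_lit 358))) (XT.nd (nat_lit 78) (nat_lit 0) (nat_lit 0) (XT.lf (nat_lit 0) (nat_lit 5916776900) (nat_lit 152) (nat_lit 27413513228) (nat_lit 0) (nat_lit 5108149096) (nat_lit 10) (nat_lit 5) (nat_lit 12) (nat_lit 4) (nat_lit 10) (nat_lit 4) (nat_lit 479) (nat_lit 364) (nat_lit 357)) (XT.lf (nat_lit 0) (nat_lit 13170928567) (nat_lit 152) (nat_lit 14566645712) (nat_lit 0) (nat_lit 12267714554) (nat_lit 10) (nat_lit 5) (nat_lit 12) (nat_lit 4) (nat_lit 10) (nat_lit 4) (nat_lit 480) (nat_lit 364) (nat_lit 356))))))) (XT.nd (nat_lit 1092)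 (nat_lit 152) (nat_lit 0) (XT.nd (nat_lit 546) (nat_lit 152) (nat_lit 0) (XT.nd (nat_lit 234) (nat_lit 152) (nat_lit 0) (XT.nd (nat_lit 78) (nat_lit 76) (nat_lit 0) (XT.lf (nat_lit 0) (nat_lit 20591355619) (nat_lit 152) (nat_lit 1470892101) (nat_lit 0) (nat_lit 19598059501) (nat_lit 10) (nat_lit 5) (nat_lit 12) (nat_lit 4) (nat_lit 10) (nat_lit 4) (nat_lit 481) (nat_lit 364) (nat_lit 355)) (XT.nd (nat_lit 78) (nat_lit 0) (nat_lit 0) (XT.lf (nat_lit 0) (nat_lit 12298558653) (nat_lit 76) (nat_lit 16089182051) (nat_lit 76) (nat_lit 15010093453) (nat_lit 9) (nat_lit 4) (nat_lit 10) (nat_lit 5) (nat_lit 10) (nat_lit 4) (nat_lit 482) (nat_lit 364) (nat_lit 354)) (XT.lf (nat_lit 0) (nat_lit 26438870671) (nat_lit 76) (nat_lit 9976058762) (nat_lit 76) (nat_lit 8815263039) (nat_lit 9) (nat_lit 4) (nat_lit 10) (nat_lit 5) (nat_lit 10) (nat_lit 4) (nat_lit 483) (nat_lit 364) (nat_lit 353)))) (XT.nd (nat_lit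 156) (nat_lit 0) (nat_lit 0) (XT.nd (nat_lit 78) (nat_lit 152) (nat_lit 0) (XT.lf (nat_lit 0) (nat_lit 40935077024) (nat_lit 76) (nat_lit 3733233067) (nat_lit 76) (nat_lit 2494621036) (nat_lit 9) (nat_lit 4) (nat_lit 10) (nat_lit 5) (nat_lit 10) (nat_lit 4) (nat_lit 484) (nat_lit 364) (nat_lit 352)) (XT.lf (nat_lit 0) (nat_lit 3989897224) (nat_lit 152) (nat_lit 42460473892) (nat_lit 0) (nat_lit 2739685032) (nat_lit 7) (nat_lit 5) (nat_lit 9) (nat_lit 4) (nat_lit 7) (nat_lit 4) (nat_lit 485) (nat_lit 364) (nat_lit 351))) (XT.nd (nat_lit 78) (nat_lit 0) (nat_lit 0) (XT.lf (nat_lit 0) (nat_lit 10713873851) (nat_lit 152) (nat_lit 31206227886) (nat_lit 0) (nat_lit 9396441006) (nat_lit 7) (nat_lit 5) (nat_lit 9) (nat_lit 4) (nat_lit 7) (nat_lit 4) (nat_lit 486) (nat_lit 364) (nat_lit 350)) (XT.lf (nat_lit 0) (nat_lit 17612779564) (nat_lit 152) (nat_lit 19713313871) (nat_lit 0) (nat_lit 16231327050)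 (nat_lit 7) (nat_lit 5) (nat_lit 9) (nat_lit 4) (nat_lit 7) (nat_lit 4) (nat_lit 487) (nat_lit 364) (nat_lit 349))))) (XT.nd (nat_lit 234) (nat_lit 76) (nat_lit 0) (XT.nd (nat_lit 78) (nat_lit 76) (nat_lit 0) (XT.lf (nat_lit 0) (nat_lit 24703040331) (nat_lit 152) (nat_lit 7954367765) (nat_lit 0) (nat_lit 23260616702) (nat_lit 7) (nat_lit 5) (nat_lit 9) (nat_lit 4) (nat_lit 7) (nat_lit 4) (nat_lit 488) (nat_lit 364) (nat_lit 348)) (XT.nd (nat_lit 78) (nat_lit 0) (nat_lit 0) (XT.lf (nat_lit 0) (nat_lit 4234126408) (nat_lit 76) (nat_lit 27833517895) (nat_lit 76) (nat_lit 26333026538) (nat_lit 6) (nat_lit 4) (nat_lit 7) (nat_lit 5) (nat_lit 7) (nat_lit 4) (nat_lit 489) (nat_lit 364) (nat_lit 347)) (XT.lf (nat_lit 0) (nat_lit 17019025862) (nat_lit 76) (nat_lit 22772337944) (nat_lit 76) (nat_lit 21216543989) (nat_lit 6) (nat_lit 4) (nat_lit 7) (nat_lit 5) (nat_lit 7) (nat_lit 4) (nat_lit 490) (nat_lit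 364) (nat_lit 346)))) (XT.nd (nat_lit 156) (nat_lit 76) (nat_lit 0) (XT.nd (nat_lit 78) (nat_lit 0) (nat_lit 0) (XT.lf (nat_lit 0) (nat_lit 30167763513) (nat_lit 76) (nat_lit 17596528883) (nat_lit 76) (nat_lit 15988065788) (nat_lit 6) (nat_lit 4) (nat_lit 7) (nat_lit 5) (nat_lit 7) (nat_lit 4) (nat_lit 491) (nat_lit 364) (nat_lit 345)) (XT.lf (nat_lit 0) (nat_lit 43711645877) (nat_lit 76) (nat_lit 12293767357) (nat_lit 76) (nat_lit 10635143175) (nat_lit 6) (nat_lit 4) (nat_lit 7) (nat_lit 5) (nat_lit 7) (nat_lit 4) (nat_lit 492) (nat_lit 364) (nat_lit 344))) (XT.nd (nat_lit 78) (nat_lit 76) (nat_lit 0) (XT.lf (nat_lit 0) (nat_lit 57682920294) (nat_lit 76) (nat_lit 6851427743) (nat_lit 76) (nat_lit 5145031098) (nat_lit 6) (nat_lit 4) (nat_lit 7) (nat_lit 5) (nat_lit 7) (nat_lit 4) (nat_lit 493) (nat_lit 364) (nat_lit 343)) (XT.lf (nat_lit 0) (nat_lit 479488096) (nat_lit 152) (nat_lit 768943631)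 (nat_lit 76) (nat_lit 71627243244) (nat_lit 5) (nat_lit 5) (nat_lit 7) (nat_lit 5) (nat_lit 6) (nat_lit 4) (nat_lit 494) (nat_lit 364) (nat_lit 342)))))) (XT.nd (nat_lit 546) (nat_lit 76) (nat_lit 0) (XT.nd (nat_lit 234) (nat_lit 0) (nat_lit 0) (XT.nd (nat_lit 78) (nat_lit 0) (nat_lit 0) (XT.lf (nat_lit 0) (nat_lit 6345216525) (nat_lit 152) (nat_lit 65240231298) (nat_lit 0) (nat_lit 4635478181) (nat_lit 4) (nat_lit 5) (nat_lit 6) (nat_lit 4) (nat_lit 4) (nat_lit 4) (nat_lit 495) (nat_lit 364) (nat_lit 341)) (XT.nd (nat_lit 78) (nat_lit 0) (nat_lit 0) (XT.lf (nat_lit 0) (nat_lit 12423527964) (nat_lit 152) (nat_lit 56639461744) (nat_lit 0) (nat_lit 10674487096) (nat_lit 4) (nat_lit 5) (nat_lit 6) (nat_lit 4) (nat_lit 4) (nat_lit 4) (nat_lit 496) (nat_lit 364) (nat_lit 340)) (XT.lf (nat_lit 0) (nat_lit 18696797431) (nat_lit 152) (nat_lit 47828181951) (nat_lit 0) (nat_lit 16910325588) (nat_lit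 4) (nat_lit 5) (nat_lit 6) (nat_lit 4) (nat_lit 4) (nat_lit 4) (nat_lit 497) (nat_lit 364) (nat_lit 339)))) (XT.nd (nat_lit 156) (nat_lit 0) (nat_lit 0) (XT.nd (nat_lit 78) (nat_lit 0) (nat_lit 0) (XT.lf (nat_lit 0) (nat_lit 25179961282) (nat_lit 152) (nat_lit 38785412680) (nat_lit 0) (nat_lit 23357840891) (nat_lit 4) (nat_lit 5) (nat_lit 6) (nat_lit 4) (nat_lit 4) (nat_lit 4) (nat_lit 498) (nat_lit 364) (nat_lit 338)) (XT.lf (nat_lit 0) (nat_lit 31888455620) (nat_lit 152) (nat_lit 29489623528) (nat_lit 0) (nat_lit 30032384232) (nat_lit 4) (nat_lit 5) (nat_lit 6) (nat_lit 4) (nat_lit 4) (nat_lit 4) (nat_lit 499) (nat_lit 364) (nat_lit 337))) (XT.nd (nat_lit 78) (nat_lit 0) (nat_lit 0) (XT.lf (nat_lit 0) (nat_lit 38838253053) (nat_lit 152) (nat_lit 19918681665) (nat_lit 0) (nat_lit 36949847381) (nat_lit 4) (nat_lit 5) (nat_lit 6) (nat_lit 4) (nat_lit 4) (nat_lit 4) (nat_lit 500) (nat_lit 364)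 (nat_lit 336)) (XT.lf (nat_lit 0) (nat_lit 46045900716) (nat_lit 152) (nat_lit 10049799133) (nat_lit 0) (nat_lit 44126700489) (nat_lit 4) (nat_lit 5) (nat_lit 6) (nat_lit 4) (nat_lit 4) (nat_lit 4) (nat_lit 501) (nat_lit 364) (nat_lit 335))))) (XT.nd (nat_lit 234) (nat_lit 0) (nat_lit 0) (XT.nd (nat_lit 78) (nat_lit 0) (nat_lit 0) (XT.lf (nat_lit 0) (nat_lit 145167678) (nat_lit 76) (nat_lit 53385658471) (nat_lit 76) (nat_lit 51437130095) (nat_lit 3) (nat_lit 4) (nat_lit 4) (nat_lit 5) (nat_lit 4) (nat_lit 4) (nat_lit 502) (nat_lit 364) (nat_lit 334)) (XT.nd (nat_lit 78) (nat_lit 0) (nat_lit 0) (XT.lf (nat_lit 0) (nat_lit 11029557338) (nat_lit 76) (nat_lit 50446690749) (nat_lit 76) (nat_lit 48470230803) (nat_lit 3) (nat_lit 4) (nat_lit 4) (nat_lit 5) (nat_lit 4) (nat_lit 4) (nat_lit 503) (nat_lit 364) (nat_lit 333)) (XT.lf (nat_lit 0) (nat_lit 22296993312) (nat_lit 76) (nat_lit 47441997351)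 (nat_lit 76) (nat_lit 45438935910) (nat_lit 3) (nat_lit 4) (nat_lit 4) (nat_lit 5) (nat_lit 4) (nat_lit 4) (nat_lit 504) (nat_lit 364) (nat_lit 332)))) (XT.nd (nat_lit 156) (nat_lit 0) (nat_lit 0) (XT.nd (nat_lit 78) (nat_lit 0) (nat_lit 0) (XT.lf (nat_lit 0) (nat_lit 33974302830) (nat_lit 76) (nat_lit 44364424246) (nat_lit 76) (nat_lit 42336028048) (nat_lit 3) (nat_lit 4) (nat_lit 4) (nat_lit 5) (nat_lit 4) (nat_lit 4) (nat_lit 505) (nat_lit 364) (nat_lit 331)) (XT.lf (nat_lit 0) (nat_lit 46089289009) (nat_lit 76) (nat_lit 41206643878) (nat_lit 76) (nat_lit 39154119340) (nat_lit 3) (nat_lit 4) (nat_lit 4) (nat_lit 5) (nat_lit 4) (nat_lit 4) (nat_lit 506) (nat_lit 364) (nat_lit 330))) (XT.nd (nat_lit 78) (nat_lit 0) (nat_lit 0) (XT.lf (nat_lit 0) (nat_lit 58670797055) (nat_lit 76) (nat_lit 37961137724) (nat_lit 76) (nat_lit 35885633814) (nat_lit 3) (nat_lit 4) (nat_lit 4) (nat_lit 5) (nat_lit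 4) (nat_lit 4) (nat_lit 507) (nat_lit 364) (nat_lit 329)) (XT.lf (nat_lit 0) (nat_lit 71748782939) (nat_lit 76) (nat_lit 34620178387) (nat_lit 76) (nat_lit 32522789361) (nat_lit 3) (nat_lit 4) (nat_lit 4) (nat_lit 5) (nat_lit 4) (nat_lit 4) (nat_lit 508) (nat_lit 364) (nat_lit 328))))))))
noncomputable def xc25 : XT := (XT.nd (nat_lit 2184) (nat_lit 0) (nat_lit 0) (XT.nd (nat_lit 1092) (nat_lit 0) (nat_lit 0) (XT.nd (nat_lit 546) (nat_lit 152) (nat_lit 0) (XT.nd (nat_lit 234) (nat_lit 0) (nat_lit 0) (XT.nd (nat_lit 78) (nat_lit 0) (nat_lit 0) (XT.lf (nat_lit 0) (nat_lit 85354384723) (nat_lit 76) (nat_lit 31175811203) (nat_lit 76) (nat_lit 29057579210) (nat_lit 3) (nat_lit 4) (nat_lit 4) (nat_lit 5) (nat_lit 4) (nat_lit 4) (nat_lit 509) (nat_lit 364) (nat_lit 327)) (XT.nd (nat_lit 78) (nat_lit 0) (nat_lit 0) (XT.lf (nat_lit 0) (nat_lit 99519996697) (nat_lit 76) (nat_lit 27619835297) (nat_lit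 76) (nat_lit 25481752858) (nat_lit 3) (nat_lit 4) (nat_lit 4) (nat_lit 5) (nat_lit 4) (nat_lit 4) (nat_lit 510) (nat_lit 364) (nat_lit 326)) (XT.lf (nat_lit 0) (nat_lit 114279346507) (nat_lit 76) (nat_lit 23943784059) (nat_lit 76) (nat_lit 21786796435) (nat_lit 3) (nat_lit 4) (nat_lit 4) (nat_lit 5) (nat_lit 4) (nat_lit 4) (nat_lit 511) (nat_lit 364) (nat_lit 325)))) (XT.nd (nat_lit 156) (nat_lit 0) (nat_lit 0) (XT.nd (nat_lit 78) (nat_lit 0) (nat_lit 0) (XT.lf (nat_lit 0) (nat_lit 129667575465) (nat_lit 76) (nat_lit 20138904988) (nat_lit 76) (nat_lit 17963912425) (nat_lit 3) (nat_lit 4) (nat_lit 4) (nat_lit 5) (nat_lit 4) (nat_lit 4) (nat_lit 512) (nat_lit 364) (nat_lit 324)) (XT.lf (nat_lit 0) (nat_lit 145721322209) (nat_lit 76) (nat_lit 16196138847) (nat_lit 76) (nat_lit 14003998722) (nat_lit 3) (nat_lit 4) (nat_lit 4) (nat_lit 5) (nat_lit 4) (nat_lit 4) (nat_lit 513) (nat_lit 364) (nat_lit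 323))) (XT.nd (nat_lit 78) (nat_lit 0) (nat_lit 0) (XT.lf (nat_lit 0) (nat_lit 162478809946) (nat_lit 76) (nat_lit 12106098097) (nat_lit 76) (nat_lit 9897626962) (nat_lit 3) (nat_lit 4) (nat_lit 4) (nat_lit 5) (nat_lit 4) (nat_lit 4) (nat_lit 514) (nat_lit 364) (nat_lit 322)) (XT.lf (nat_lit 0) (nat_lit 179979937456) (nat_lit 76) (nat_lit 7859044547) (nat_lit 76) (nat_lit 5635020069) (nat_lit 3) (nat_lit 4) (nat_lit 4) (nat_lit 5) (nat_lit 4) (nat_lit 4) (nat_lit 515) (nat_lit 364) (nat_lit 321))))) (XT.nd (nat_lit 234) (nat_lit 0) (nat_lit 0) (XT.nd (nat_lit 78) (nat_lit 152) (nat_lit 0) (XT.lf (nat_lit 0) (nat_lit 198266374092) (nat_lit 76) (nat_lit 3444866163) (nat_lit 76) (nat_lit 1206028977) (nat_lit 3) (nat_lit 4) (nat_lit 4) (nat_lit 5) (nat_lit 4) (nat_lit 4) (nat_lit 516) (nat_lit 364) (nat_lit 320)) (XT.nd (nat_lit 78) (nat_lit 0) (nat_lit 0) (XT.lf (nat_lit 0) (nat_lit 3383519159)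 (nat_lit 152) (nat_lit 208206167232) (nat_lit 0) (nat_lit 1237857705) (nat_lit 1) (nat_lit 5) (nat_lit 3) (nat_lit 4) (nat_lit 1) (nat_lit 4) (nat_lit 517) (nat_lit 364) (nat_lit 319)) (XT.lf (nat_lit 0) (nat_lit 8255492689) (nat_lit 152) (nat_lit 208875142747) (nat_lit 0) (nat_lit 6097035461) (nat_lit 1) (nat_lit 5) (nat_lit 3) (nat_lit 4) (nat_lit 1) (nat_lit 4) (nat_lit 518) (nat_lit 364) (nat_lit 318)))) (XT.nd (nat_lit 156) (nat_lit 0) (nat_lit 0) (XT.nd (nat_lit 78) (nat_lit 0) (nat_lit 0) (XT.lf (nat_lit 0) (nat_lit 13330063809) (nat_lit 152) (nat_lit 209660370788) (nat_lit 0) (nat_lit 11159420129) (nat_lit 1) (nat_lit 5) (nat_lit 3) (nat_lit 4) (nat_lit 1) (nat_lit 4) (nat_lit 519) (nat_lit 364) (nat_lit 317)) (XT.lf (nat_lit 0) (nat_lit 18619314831) (nat_lit 152) (nat_lit 210563720944) (nat_lit 0) (nat_lit 16437065008) (nat_lit 1) (nat_lit 5) (nat_lit 3) (nat_lit 4) (nat_lit 1) (nat_lit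 4) (nat_lit 520) (nat_lit 364) (nat_lit 316))) (XT.nd (nat_lit 78) (nat_lit 0) (nat_lit 0) (XT.lf (nat_lit 0) (nat_lit 24135839211) (nat_lit 152) (nat_lit 211587344049) (nat_lit 0) (nat_lit 21942535917) (nat_lit 1) (nat_lit 5) (nat_lit 3) (nat_lit 4) (nat_lit 1) (nat_lit 4) (nat_lit 521) (nat_lit 364) (nat_lit 315)) (XT.lf (nat_lit 0) (nat_lit 29892771530) (nat_lit 152) (nat_lit 212733677302) (nat_lit 0) (nat_lit 27688941121) (nat_lit 1) (nat_lit 5) (nat_lit 3) (nat_lit 4) (nat_lit 1) (nat_lit 4) (nat_lit 522) (nat_lit 364) (nat_lit 314)))))) (XT.nd (nat_lit 546) (nat_lit 0) (nat_lit 0) (XT.nd (nat_lit 234) (nat_lit 0) (nat_lit 0) (XT.nd (nat_lit 78) (nat_lit 0) (nat_lit 0) (XT.lf (nat_lit 0) (nat_lit 35903818771) (nat_lit 152) (nat_lit 214005450067) (nat_lit 0) (nat_lit 33689962538) (nat_lit 1) (nat_lit 5) (nat_lit 3) (nat_lit 4) (nat_lit 1) (nat_lit 4) (nat_lit 523) (nat_lit 364) (nat_lit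 313)) (XT.nd (nat_lit 78) (nat_lit 0) (nat_lit 0) (XT.lf (nat_lit 0) (nat_lit 42183292949) (nat_lit 152) (nat_lit 215405690374) (nat_lit 0) (nat_lit 39959888313) (nat_lit 1) (nat_lit 5) (nat_lit 3) (nat_lit 4) (nat_lit 1) (nat_lit 4) (nat_lit 524) (nat_lit 364) (nat_lit 312)) (XT.lf (nat_lit 0) (nat_lit 48746145195) (nat_lit 152) (nat_lit 216937732129) (nat_lit 0) (nat_lit 46513646841) (nat_lit 1) (nat_lit 5) (nat_lit 3) (nat_lit 4) (nat_lit 1) (nat_lit 4) (nat_lit 525) (nat_lit 364) (nat_lit 311)))) (XT.nd (nat_lit 156) (nat_lit 0) (nat_lit 0) (XT.nd (nat_lit 78) (nat_lit 0) (nat_lit 0) (XT.lf (nat_lit 0) (nat_lit 55608001346) (nat_lit 152) (nat_lit 218605223050) (nat_lit 0) (nat_lit 53366842309) (nat_lit 1) (nat_lit 5) (nat_lit 3) (nat_lit 4) (nat_lit 1) (nat_lit 4) (nat_lit 526) (nat_lit 364) (nat_lit 310)) (XT.lf (nat_lit 0) (nat_lit 62785199156) (nat_lit 152) (nat_lit 220412133355) (nat_lit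 0) (nat_lit 60535791849) (nat_lit 1) (nat_lit 5) (nat_lit 3) (nat_lit 4) (nat_lit 1) (nat_lit 4) (nat_lit 527) (nat_lit 364) (nat_lit 309))) (XT.nd (nat_lit 78) (nat_lit 0) (nat_lit 0) (XT.lf (nat_lit 0) (nat_lit 70294827191) (nat_lit 152) (nat_lit 222362765209) (nat_lit 0) (nat_lit 68037564388) (nat_lit 1) (nat_lit 5) (nat_lit 3) (nat_lit 4) (nat_lit 1) (nat_lit 4) (nat_lit 528) (nat_lit 364) (nat_lit 308)) (XT.lf (nat_lit 0) (nat_lit 78154765518) (nat_lit 152) (nat_lit 224461762976) (nat_lit 0) (nat_lit 75890021291) (nat_lit 1) (nat_lit 5) (nat_lit 3) (nat_lit 4) (nat_lit 1) (nat_lit 4) (nat_lit 529) (nat_lit 364) (nat_lit 307))))) (XT.nd (nat_lit 234) (nat_lit 0) (nat_lit 0) (XT.nd (nat_lit 78) (nat_lit 0) (nat_lit 0) (XT.lf (nat_lit 0) (nat_lit 86383728275) (nat_lit 152) (nat_lit 226714124268) (nat_lit 0) (nat_lit 84111858882) (nat_lit 1) (nat_lit 5) (nat_lit 3) (nat_lit 4) (nat_lit 1)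 (nat_lit 4) (nat_lit 530) (nat_lit 364) (nat_lit 306)) (XT.nd (nat_lit 78) (nat_lit 0) (nat_lit 0) (XT.lf (nat_lit 0) (nat_lit 95001308231) (nat_lit 152) (nat_lit 229125211851) (nat_lit 0) (nat_lit 92722652966) (nat_lit 1) (nat_lit 5) (nat_lit 3) (nat_lit 4) (nat_lit 1) (nat_lit 4) (nat_lit 531) (nat_lit 364) (nat_lit 305)) (XT.lf (nat_lit 0) (nat_lit 104028023433) (nat_lit 152) (nat_lit 231700766409) (nat_lit 0) (nat_lit 101742905433) (nat_lit 1) (nat_lit 5) (nat_lit 3) (nat_lit 4) (nat_lit 1) (nat_lit 4) (nat_lit 532) (nat_lit 364) (nat_lit 304)))) (XT.nd (nat_lit 156) (nat_lit 0) (nat_lit 0) (XT.nd (nat_lit 78) (nat_lit 0) (nat_lit 0) (XT.lf (nat_lit 0) (nat_lit 113485366061) (nat_lit 152) (nat_lit 234446920215) (nat_lit 0) (nat_lit 111194093075) (nat_lit 1) (nat_lit 5) (nat_lit 3) (nat_lit 4) (nat_lit 1) (nat_lit 4) (nat_lit 533) (nat_lit 364) (nat_lit 303)) (XT.lf (nat_lit 0) (nat_lit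 123395853597) (nat_lit 152) (nat_lit 237370211730) (nat_lit 0) (nat_lit 121098718720) (nat_lit 1) (nat_lit 5) (nat_lit 3) (nat_lit 4) (nat_lit 1) (nat_lit 4) (nat_lit 534) (nat_lit 364) (nat_lit 302))) (XT.nd (nat_lit 78) (nat_lit 0) (nat_lit 0) (XT.lf (nat_lit 0) (nat_lit 133783082440) (nat_lit 152) (nat_lit 240477601173) (nat_lit 0) (nat_lit 131480364809) (nat_lit 1) (nat_lit 5) (nat_lit 3) (nat_lit 4) (nat_lit 1) (nat_lit 4) (nat_lit 535) (nat_lit 364) (nat_lit 301)) (XT.lf (nat_lit 0) (nat_lit 144671784087) (nat_lit 152) (nat_lit 243776487089) (nat_lit 0) (nat_lit 142363749547) (nat_lit 1) (nat_lit 5) (nat_lit 3) (nat_lit 4) (nat_lit 1) (nat_lit 4) (nat_lit 536) (nat_lit 364) (nat_lit 300))))))) (XT.nd (nat_lit 57564) (nat_lit 0) (nat_lit 456) (XT.nd (nat_lit 546) (nat_lit 0) (nat_lit 0) (XT.nd (nat_lit 234) (nat_lit 0) (nat_lit 0) (XT.nd (nat_lit 78) (nat_lit 0) (nat_lit 0) (XT.lf (nat_lit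 0) (nat_lit 156087884018) (nat_lit 152) (nat_lit 247274723970) (nat_lit 0) (nat_lit 153774785756) (nat_lit 1) (nat_lit 5) (nat_lit 3) (nat_lit 4) (nat_lit 1) (nat_lit 4) (nat_lit 537) (nat_lit 364) (nat_lit 299)) (XT.nd (nat_lit 78) (nat_lit 0) (nat_lit 0) (XT.lf (nat_lit 0) (nat_lit 168058563423) (nat_lit 152) (nat_lit 250980640950) (nat_lit 0) (nat_lit 165740642569) (nat_lit 1) (nat_lit 5) (nat_lit 3) (nat_lit 4) (nat_lit 1) (nat_lit 4) (nat_lit 538) (nat_lit 364) (nat_lit 298)) (XT.lf (nat_lit 0) (nat_lit 180612323921) (nat_lit 152) (nat_lit 254903061641) (nat_lit 0) (nat_lit 178289810121) (nat_lit 1) (nat_lit 5) (nat_lit 3) (nat_lit 4) (nat_lit 1) (nat_lit 4) (nat_lit 539) (nat_lit 364) (nat_lit 297)))) (XT.nd (nat_lit 156) (nat_lit 0) (nat_lit 0) (XT.nd (nat_lit 78) (nat_lit 0) (nat_lit 0) (XT.lf (nat_lit 0) (nat_lit 193779055417) (nat_lit 152) (nat_lit 259051325140) (nat_lit 0) (nat_lit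 191452167383) (nat_lit 1) (nat_lit 5) (nat_lit 3) (nat_lit 4) (nat_lit 1) (nat_lit 4) (nat_lit 540) (nat_lit 364) (nat_lit 296)) (XT.lf (nat_lit 0) (nat_lit 207590107272) (nat_lit 152) (nat_lit 263435308265) (nat_lit 0) (nat_lit 205259053301) (nat_lit 1) (nat_lit 5) (nat_lit 3) (nat_lit 4) (nat_lit 1) (nat_lit 4) (nat_lit 541) (nat_lit 364) (nat_lit 295))) (XT.nd (nat_lit 78) (nat_lit 0) (nat_lit 0) (XT.lf (nat_lit 0) (nat_lit 222078362942) (nat_lit 152) (nat_lit 268065449071) (nat_lit 0) (nat_lit 219743341412) (nat_lit 1) (nat_lit 5) (nat_lit 3) (nat_lit 4) (nat_lit 1) (nat_lit 4) (nat_lit 542) (nat_lit 364) (nat_lit 294)) (XT.lf (nat_lit 0) (nat_lit 237278318275) (nat_lit 152) (nat_lit 272952771703) (nat_lit 0) (nat_lit 234939518118) (nat_lit 1) (nat_lit 5) (nat_lit 3) (nat_lit 4) (nat_lit 1) (nat_lit 4) (nat_lit 543) (nat_lit 364) (nat_lit 293))))) (XT.nd (nat_lit 56706) (nat_lit 0) (nat_lit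 1064) (XT.nd (nat_lit 78) (nat_lit 0) (nat_lit 0) (XT.lf (nat_lit 0) (nat_lit 253226163639) (nat_lit 152) (nat_lit 278108912643) (nat_lit 0) (nat_lit 250883764790) (nat_lit 1) (nat_lit 5) (nat_lit 3) (nat_lit 4) (nat_lit 1) (nat_lit 4) (nat_lit 544) (nat_lit 364) (nat_lit 292)) (XT.nd (nat_lit 78) (nat_lit 0) (nat_lit 0) (XT.lf (nat_lit 0) (nat_lit 269959870097) (nat_lit 152) (nat_lit 283546148418) (nat_lit 0) (nat_lit 267614043921) (nat_lit 1) (nat_lit 5) (nat_lit 3) (nat_lit 4) (nat_lit 1) (nat_lit 4) (nat_lit 545) (nat_lit 364) (nat_lit 291)) (XT.lf (nat_lit 0) (nat_lit 287519279806) (nat_lit 152) (nat_lit 289277424826) (nat_lit 0) (nat_lit 285170189509) (nat_lit 1) (nat_lit 5) (nat_lit 3) (nat_lit 4) (nat_lit 1) (nat_lit 4) (nat_lit 546) (nat_lit 364) (nat_lit 290)))) (XT.nd (nat_lit 156) (nat_lit 76) (nat_lit 0) (XT.nd (nat_lit 78) (nat_lit 0) (nat_lit 0) (XT.lf (nat_lit 0) (nat_lit 1749192039)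 (nat_lit 152) (nat_lit 10210029906) (nat_lit 0) (nat_lit 1749192039) (nat_lit 16) (nat_lit 5) (nat_lit 18) (nat_lit 4) (nat_lit 16) (nat_lit 4) (nat_lit 470) (nat_lit 365) (nat_lit 365)) (XT.lf (nat_lit 0) (nat_lit 11133077812) (nat_lit 152) (nat_lit 6294264813) (nat_lit 0) (nat_lit 10979006844) (nat_lit 16) (nat_lit 5) (nat_lit 18) (nat_lit 4) (nat_lit 16) (nat_lit 4) (nat_lit 471) (nat_lit 365) (nat_lit 364))) (XT.nd (nat_lit 78) (nat_lit 0) (nat_lit 0) (XT.lf (nat_lit 0) (nat_lit 8327375041) (nat_lit 76) (nat_lit 10712142156) (nat_lit 76) (nat_lit 10411336932) (nat_lit 15) (nat_lit 4) (nat_lit 16) (nat_lit 5) (nat_lit 16) (nat_lit 4) (nat_lit 472) (nat_lit 365) (nat_lit 363)) (XT.lf (nat_lit 0) (nat_lit 23429339760) (nat_lit 76) (nat_lit 3782634443) (nat_lit 76) (nat_lit 3342082309) (nat_lit 15) (nat_lit 4) (nat_lit 16) (nat_lit 5) (nat_lit 16) (nat_lit 4) (nat_lit 473) (nat_lit 365) (nat_lit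 362)))))) (XT.nd (nat_lit 546) (nat_lit 228) (nat_lit 0) (XT.nd (nat_lit 234) (nat_lit 152) (nat_lit 0) (XT.nd (nat_lit 78) (nat_lit 76) (nat_lit 0) (XT.lf (nat_lit 0) (nat_lit 3889395464) (nat_lit 152) (nat_lit 24479808891) (nat_lit 0) (nat_lit 3343067435) (nat_lit 13) (nat_lit 5) (nat_lit 15) (nat_lit 4) (nat_lit 13) (nat_lit 4) (nat_lit 474) (nat_lit 365) (nat_lit 361)) (XT.nd (nat_lit 78) (nat_lit 76) (nat_lit 0) (XT.lf (nat_lit 0) (nat_lit 11326838874) (nat_lit 152) (nat_lit 10941198236) (nat_lit 0) (nat_lit 10659792210) (nat_lit 13) (nat_lit 5) (nat_lit 15) (nat_lit 4) (nat_lit 13) (nat_lit 4) (nat_lit 475) (nat_lit 365) (nat_lit 360)) (XT.lf (nat_lit 0) (nat_lit 2935032447) (nat_lit 76) (nat_lit 16029859099) (nat_lit 76) (nat_lit 15247842306) (nat_lit 12) (nat_lit 4) (nat_lit 13) (nat_lit 5) (nat_lit 13) (nat_lit 4) (nat_lit 476) (nat_lit 365) (nat_lit 359)))) (XT.nd (nat_lit 156) (nat_lit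 152) (nat_lit 0) (XT.nd (nat_lit 78) (nat_lit 0) (nat_lit 0) (XT.lf (nat_lit 0) (nat_lit 17458666392) (nat_lit 76) (nat_lit 9498070290) (nat_lit 76) (nat_lit 8606558137) (nat_lit 12) (nat_lit 4) (nat_lit 13) (nat_lit 5) (nat_lit 13) (nat_lit 4) (nat_lit 477) (nat_lit 365) (nat_lit 358)) (XT.lf (nat_lit 0) (nat_lit 32302518253) (nat_lit 76) (nat_lit 2842413291) (nat_lit 76) (nat_lit 1846619841) (nat_lit 12) (nat_lit 4) (nat_lit 13) (nat_lit 5) (nat_lit 13) (nat_lit 4) (nat_lit 478) (nat_lit 365) (nat_lit 357))) (XT.nd (nat_lit 78) (nat_lit 0) (nat_lit 0) (XT.lf (nat_lit 0) (nat_lit 5095772551) (nat_lit 152) (nat_lit 29337915533) (nat_lit 0) (nat_lit 4052811627) (nat_lit 10) (nat_lit 5) (nat_lit 12) (nat_lit 4) (nat_lit 10) (nat_lit 4) (nat_lit 479) (nat_lit 365) (nat_lit 356)) (XT.lf (nat_lit 0) (nat_lit 12254103633) (nat_lit 152) (nat_lit 16682978398) (nat_lit 0) (nat_lit 11121060605) (nat_lit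 10) (nat_lit 5) (nat_lit 12) (nat_lit 4) (nat_lit 10) (nat_lit 4) (nat_lit 480) (nat_lit 365) (nat_lit 355))))) (XT.nd (nat_lit 312) (nat_lit 152) (nat_lit 0) (XT.nd (nat_lit 156) (nat_lit 0) (nat_lit 0) (XT.nd (nat_lit 78) (nat_lit 76) (nat_lit 0) (XT.lf (nat_lit 0) (nat_lit 19583272985) (nat_lit 152) (nat_lit 3770015625) (nat_lit 0) (nat_lit 18364437476) (nat_lit 10) (nat_lit 5) (nat_lit 12) (nat_lit 4) (nat_lit 10) (nat_lit 4) (nat_lit 481) (nat_lit 365) (nat_lit 354)) (XT.lf (nat_lit 0) (nat_lit 9743573123) (nat_lit 76) (nat_lit 17509282367) (nat_lit 76) (nat_lit 16208739735) (nat_lit 9) (nat_lit 4) (nat_lit 10) (nat_lit 5) (nat_lit 10) (nat_lit 4) (nat_lit 482) (nat_lit 365) (nat_lit 353))) (XT.nd (nat_lit 78) (nat_lit 0) (nat_lit 0) (XT.lf (nat_lit 0) (nat_lit 23712606474) (nat_lit 76) (nat_lit 11481990180) (nat_lit 76) (nat_lit 10103631239) (nat_lit 9) (nat_lit 4) (nat_lit 10) (nat_lit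 5) (nat_lit 10) (nat_lit 4) (nat_lit 483) (nat_lit 365) (nat_lit 352)) (XT.lf (nat_lit 0) (nat_lit 38045690288) (nat_lit 76) (nat_lit 5320908392) (nat_lit 76) (nat_lit 3868438680) (nat_lit 9) (nat_lit 4) (nat_lit 10) (nat_lit 5) (nat_lit 10) (nat_lit 4) (nat_lit 484) (nat_lit 365) (nat_lit 351)))) (XT.nd (nat_lit 156) (nat_lit 0) (nat_lit 0) (XT.nd (nat_lit 78) (nat_lit 0) (nat_lit 0) (XT.lf (nat_lit 0) (nat_lit 2504111621) (nat_lit 152) (nat_lit 45713335379) (nat_lit 0) (nat_lit 1053586481) (nat_lit 7) (nat_lit 5) (nat_lit 9) (nat_lit 4) (nat_lit 7) (nat_lit 4) (nat_lit 485) (nat_lit 365) (nat_lit 350)) (XT.lf (nat_lit 0) (nat_lit 9149420080) (nat_lit 152) (nat_lit 34617159759) (nat_lit 0) (nat_lit 7634875270) (nat_lit 7) (nat_lit 5) (nat_lit 9) (nat_lit 4) (nat_lit 7) (nat_lit 4) (nat_lit 486) (nat_lit 365) (nat_lit 349))) (XT.nd (nat_lit 78) (nat_lit 0) (nat_lit 0) (XT.lf (nat_lit 0) (nat_lit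 15973403729) (nat_lit 152) (nat_lit 23274788968) (nat_lit 0) (nat_lit 14397887804) (nat_lit 7) (nat_lit 5) (nat_lit 9) (nat_lit 4) (nat_lit 7) (nat_lit 4) (nat_lit 487) (nat_lit 365) (nat_lit 348)) (XT.lf (nat_lit 0) (nat_lit 22992310148) (nat_lit 152) (nat_lit 11659217362) (nat_lit 0) (nat_lit 21358726496) (nat_lit 7) (nat_lit 5) (nat_lit 9) (nat_lit 4) (nat_lit 7) (nat_lit 4) (nat_lit 488) (nat_lit 365) (nat_lit 347))))))))
noncomputable def xc26 : XT := (XT.nd (nat_lit 2184) (nat_lit 152) (nat_lit 0) (XT.nd (nat_lit 1092) (nat_lit 76) (nat_lit 0) (XT.nd (nat_lit 546) (nat_lit 0) (nat_lit 0) (XT.nd (nat_lit 234) (nat_lit 152) (nat_lit 0) (XT.nd (nat_lit 78) (nat_lit 0) (nat_lit 0) (XT.lf (nat_lit 0) (nat_lit 265715744) (nat_lit 76) (nat_lit 29961283842) (nat_lit 76) (nat_lit 28272397592) (nat_lit 6) (nat_lit 4) (nat_lit 7) (nat_lit 5) (nat_lit 7) (nat_lit 4) (nat_lit 489) (nat_lit 365) (nat_lit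 346)) (XT.nd (nat_lit 78) (nat_lit 0) (nat_lit 0) (XT.lf (nat_lit 0) (nat_lit 12916270429) (nat_lit 76) (nat_lit 24967630665) (nat_lit 76) (nat_lit 23226075275) (nat_lit 6) (nat_lit 4) (nat_lit 7) (nat_lit 5) (nat_lit 7) (nat_lit 4) (nat_lit 490) (nat_lit 365) (nat_lit 345)) (XT.lf (nat_lit 0) (nat_lit 25937060680) (nat_lit 76) (nat_lit 19856132818) (nat_lit 76) (nat_lit 18064416341) (nat_lit 6) (nat_lit 4) (nat_lit 7) (nat_lit 5) (nat_lit 7) (nat_lit 4) (nat_lit 491) (nat_lit 365) (nat_lit 344)))) (XT.nd (nat_lit 156) (nat_lit 152) (nat_lit 0) (XT.nd (nat_lit 78) (nat_lit 0) (nat_lit 0) (XT.lf (nat_lit 0) (nat_lit 39359088379) (nat_lit 76) (nat_lit 14614620067) (nat_lit 76) (nat_lit 12775131127) (nat_lit 6) (nat_lit 4) (nat_lit 7) (nat_lit 5) (nat_lit 7) (nat_lit 4) (nat_lit 492) (nat_lit 365) (nat_lit 343)) (XT.lf (nat_lit 0) (nat_lit 53214310733) (nat_lit 76) (nat_lit 9230612620) (nat_lit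 76) (nat_lit 7345626096) (nat_lit 6) (nat_lit 4) (nat_lit 7) (nat_lit 5) (nat_lit 7) (nat_lit 4) (nat_lit 493) (nat_lit 365) (nat_lit 342))) (XT.nd (nat_lit 78) (nat_lit 152) (nat_lit 0) (XT.lf (nat_lit 0) (nat_lit 67535716368) (nat_lit 76) (nat_lit 3691291412) (nat_lit 76) (nat_lit 1762973855) (nat_lit 6) (nat_lit 4) (nat_lit 7) (nat_lit 5) (nat_lit 7) (nat_lit 4) (nat_lit 494) (nat_lit 365) (nat_lit 341)) (XT.lf (nat_lit 0) (nat_lit 3988424787) (nat_lit 152) (nat_lit 70244093572) (nat_lit 0) (nat_lit 2112629352) (nat_lit 4) (nat_lit 5) (nat_lit 6) (nat_lit 4) (nat_lit 4) (nat_lit 4) (nat_lit 495) (nat_lit 365) (nat_lit 340))))) (XT.nd (nat_lit 234) (nat_lit 0) (nat_lit 0) (XT.nd (nat_lit 78) (nat_lit 0) (nat_lit 0) (XT.lf (nat_lit 0) (nat_lit 10013586205) (nat_lit 152) (nat_lit 61750410963) (nat_lit 0) (nat_lit 8100359795) (nat_lit 4) (nat_lit 5) (nat_lit 6) (nat_lit 4) (nat_lit 4) (nat_lit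 4) (nat_lit 496) (nat_lit 365) (nat_lit 339)) (XT.nd (nat_lit 78) (nat_lit 0) (nat_lit 0) (XT.lf (nat_lit 0) (nat_lit 16236236603) (nat_lit 152) (nat_lit 53041118737) (nat_lit 0) (nat_lit 14287361646) (nat_lit 4) (nat_lit 5) (nat_lit 6) (nat_lit 4) (nat_lit 4) (nat_lit 4) (nat_lit 497) (nat_lit 365) (nat_lit 338)) (XT.lf (nat_lit 0) (nat_lit 22671191818) (nat_lit 152) (nat_lit 44095480482) (nat_lit 0) (nat_lit 20688365863) (nat_lit 4) (nat_lit 5) (nat_lit 6) (nat_lit 4) (nat_lit 4) (nat_lit 4) (nat_lit 498) (nat_lit 365) (nat_lit 337)))) (XT.nd (nat_lit 156) (nat_lit 0) (nat_lit 0) (XT.nd (nat_lit 78) (nat_lit 0) (nat_lit 0) (XT.lf (nat_lit 0) (nat_lit 29333773170) (nat_lit 152) (nat_lit 34892197060) (nat_lit 0) (nat_lit 27318612931) (nat_lit 4) (nat_lit 5) (nat_lit 6) (nat_lit 4) (nat_lit 4) (nat_lit 4) (nat_lit 499) (nat_lit 365) (nat_lit 336)) (XT.lf (nat_lit 0) (nat_lit 36239843948) (nat_lit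 152) (nat_lit 25409355892) (nat_lit 0) (nat_lit 34193889154) (nat_lit 4) (nat_lit 5) (nat_lit 6) (nat_lit 4) (nat_lit 4) (nat_lit 4) (nat_lit 500) (nat_lit 365) (nat_lit 335))) (XT.nd (nat_lit 78) (nat_lit 0) (nat_lit 0) (XT.lf (nat_lit 0) (nat_lit 43405847179) (nat_lit 152) (nat_lit 15624378783) (nat_lit 0) (nat_lit 41330564236) (nat_lit 4) (nat_lit 5) (nat_lit 6) (nat_lit 4) (nat_lit 4) (nat_lit 4) (nat_lit 501) (nat_lit 365) (nat_lit 334)) (XT.lf (nat_lit 0) (nat_lit 50848844774) (nat_lit 152) (nat_lit 5513968171) (nat_lit 0) (nat_lit 48745630261) (nat_lit 4) (nat_lit 5) (nat_lit 6) (nat_lit 4) (nat_lit 4) (nat_lit 4) (nat_lit 502) (nat_lit 365) (nat_lit 333)))))) (XT.nd (nat_lit 546) (nat_lit 0) (nat_lit 0) (XT.nd (nat_lit 234) (nat_lit 0) (nat_lit 0) (XT.nd (nat_lit 78) (nat_lit 0) (nat_lit 0) (XT.lf (nat_lit 0) (nat_lit 5109483741) (nat_lit 76) (nat_lit 53556847776) (nat_lit 76) (nat_lit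 51427031768) (nat_lit 3) (nat_lit 4) (nat_lit 4) (nat_lit 5) (nat_lit 4) (nat_lit 4) (nat_lit 503) (nat_lit 365) (nat_lit 332)) (XT.nd (nat_lit 78) (nat_lit 0) (nat_lit 0) (XT.lf (nat_lit 0) (nat_lit 16302042517) (nat_lit 76) (nat_lit 50589888507) (nat_lit 76) (nat_lit 48434737741) (nat_lit 3) (nat_lit 4) (nat_lit 4) (nat_lit 5) (nat_lit 4) (nat_lit 4) (nat_lit 504) (nat_lit 365) (nat_lit 331)) (XT.lf (nat_lit 0) (nat_lit 27908040418) (nat_lit 76) (nat_lit 47548252666) (nat_lit 76) (nat_lit 45368973561) (nat_lit 3) (nat_lit 4) (nat_lit 4) (nat_lit 5) (nat_lit 4) (nat_lit 4) (nat_lit 505) (nat_lit 365) (nat_lit 330)))) (XT.nd (nat_lit 156) (nat_lit 0) (nat_lit 0) (XT.nd (nat_lit 78) (nat_lit 0) (nat_lit 0) (XT.lf (nat_lit 0) (nat_lit 39955110772) (nat_lit 76) (nat_lit 44424698265) (nat_lit 76) (nat_lit 42222439788) (nat_lit 3) (nat_lit 4) (nat_lit 4) (nat_lit 5) (nat_lit 4) (nat_lit 4) (nat_lit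 506) (nat_lit 365) (nat_lit 329)) (XT.lf (nat_lit 0) (nat_lit 52471937080) (nat_lit 76) (nat_lit 41211788270) (nat_lit 76) (nat_lit 38987644677) (nat_lit 3) (nat_lit 4) (nat_lit 4) (nat_lit 5) (nat_lit 4) (nat_lit 4) (nat_lit 507) (nat_lit 365) (nat_lit 328))) (XT.nd (nat_lit 78) (nat_lit 0) (nat_lit 0) (XT.lf (nat_lit 0) (nat_lit 65488321308) (nat_lit 76) (nat_lit 37901872894) (nat_lit 76) (nat_lit 35656886333) (nat_lit 3) (nat_lit 4) (nat_lit 4) (nat_lit 5) (nat_lit 4) (nat_lit 4) (nat_lit 508) (nat_lit 365) (nat_lit 327)) (XT.lf (nat_lit 0) (nat_lit 79035254848) (nat_lit 76) (nat_lit 34487071386) (nat_lit 76) (nat_lit 32222234381) (nat_lit 3) (nat_lit 4) (nat_lit 4) (nat_lit 5) (nat_lit 4) (nat_lit 4) (nat_lit 509) (nat_lit 365) (nat_lit 326))))) (XT.nd (nat_lit 234) (nat_lit 0) (nat_lit 0) (XT.nd (nat_lit 78) (nat_lit 0) (nat_lit 0) (XT.lf (nat_lit 0) (nat_lit 93144992304) (nat_lit 76)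 (nat_lit 30959253267) (nat_lit 76) (nat_lit 28675511076) (nat_lit 3) (nat_lit 4) (nat_lit 4) (nat_lit 5) (nat_lit 4) (nat_lit 4) (nat_lit 510) (nat_lit 365) (nat_lit 325)) (XT.nd (nat_lit 78) (nat_lit 0) (nat_lit 0) (XT.lf (nat_lit 0) (nat_lit 107851128288) (nat_lit 76) (nat_lit 27310018971) (nat_lit 76) (nat_lit 25008271840) (nat_lit 3) (nat_lit 4) (nat_lit 4) (nat_lit 5) (nat_lit 4) (nat_lit 4) (nat_lit 511) (nat_lit 365) (nat_lit 324)) (XT.lf (nat_lit 0) (nat_lit 123188677411) (nat_lit 76) (nat_lit 23530679842) (nat_lit 76) (nat_lit 21211785151) (nat_lit 3) (nat_lit 4) (nat_lit 4) (nat_lit 5) (nat_lit 4) (nat_lit 4) (nat_lit 512) (nat_lit 365) (nat_lit 323)))) (XT.nd (nat_lit 156) (nat_lit 0) (nat_lit 0) (XT.nd (nat_lit 78) (nat_lit 0) (nat_lit 0) (XT.lf (nat_lit 0) (nat_lit 139194157645) (nat_lit 76) (nat_lit 19612237456) (nat_lit 76) (nat_lit 17277011755) (nat_lit 3) (nat_lit 4) (nat_lit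 4) (nat_lit 5) (nat_lit 4) (nat_lit 4) (nat_lit 513) (nat_lit 365) (nat_lit 322)) (XT.lf (nat_lit 0) (nat_lit 155905677278) (nat_lit 76) (nat_lit 15545362188) (nat_lit 76) (nat_lit 13194583143) (nat_lit 3) (nat_lit 4) (nat_lit 4) (nat_lit 5) (nat_lit 4) (nat_lit 4) (nat_lit 514) (nat_lit 365) (nat_lit 321))) (XT.nd (nat_lit 78) (nat_lit 0) (nat_lit 0) (XT.lf (nat_lit 0) (nat_lit 173363025642) (nat_lit 76) (nat_lit 11320371001) (nat_lit 76) (nat_lit 8954779248) (nat_lit 3) (nat_lit 4) (nat_lit 4) (nat_lit 5) (nat_lit 4) (nat_lit 4) (nat_lit 515) (nat_lit 365) (nat_lit 320)) (XT.lf (nat_lit 0) (nat_lit 191607767852) (nat_lit 76) (nat_lit 6927204392) (nat_lit 76) (nat_lit 4547505298) (nat_lit 3) (nat_lit 4) (nat_lit 4) (nat_lit 5) (nat_lit 4) (nat_lit 4) (nat_lit 516) (nat_lit 365) (nat_lit 319))))))) (XT.nd (nat_lit 1092) (nat_lit 0) (nat_lit 0) (XT.nd (nat_lit 546) (nat_lit 0) (nat_lit 0) (XT.nd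 (nat_lit 234) (nat_lit 0) (nat_lit 0) (XT.nd (nat_lit 78) (nat_lit 76) (nat_lit 0) (XT.lf (nat_lit 0) (nat_lit 36524548) (nat_lit 152) (nat_lit 2318259332) (nat_lit 76) (nat_lit 210646200662) (nat_lit 2) (nat_lit 5) (nat_lit 4) (nat_lit 5) (nat_lit 3) (nat_lit 4) (nat_lit 517) (nat_lit 365) (nat_lit 318)) (XT.nd (nat_lit 78) (nat_lit 0) (nat_lit 0) (XT.lf (nat_lit 0) (nat_lit 4813728521) (nat_lit 152) (nat_lit 216069755403) (nat_lit 0) (nat_lit 2522366206) (nat_lit 1) (nat_lit 5) (nat_lit 3) (nat_lit 4) (nat_lit 1) (nat_lit 4) (nat_lit 518) (nat_lit 365) (nat_lit 317)) (XT.lf (nat_lit 0) (nat_lit 9869251517) (nat_lit 152) (nat_lit 216893452084) (nat_lit 0) (nat_lit 7566283058) (nat_lit 1) (nat_lit 5) (nat_lit 3) (nat_lit 4) (nat_lit 1) (nat_lit 4) (nat_lit 519) (nat_lit 365) (nat_lit 316)))) (XT.nd (nat_lit 156) (nat_lit 0) (nat_lit 0) (XT.nd (nat_lit 78) (nat_lit 0) (nat_lit 0) (XT.lf (nat_lit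 0) (nat_lit 15140361469) (nat_lit 152) (nat_lit 217833439041) (nat_lit 0) (nat_lit 12826339540) (nat_lit 1) (nat_lit 5) (nat_lit 3) (nat_lit 4) (nat_lit 1) (nat_lit 4) (nat_lit 520) (nat_lit 365) (nat_lit 315)) (XT.lf (nat_lit 0) (nat_lit 20639608640) (nat_lit 152) (nat_lit 218891954338) (nat_lit 0) (nat_lit 18315059595) (nat_lit 1) (nat_lit 5) (nat_lit 3) (nat_lit 4) (nat_lit 1) (nat_lit 4) (nat_lit 521) (nat_lit 365) (nat_lit 314))) (XT.nd (nat_lit 78) (nat_lit 0) (nat_lit 0) (XT.lf (nat_lit 0) (nat_lit 26380086474) (nat_lit 152) (nat_lit 220071518248) (nat_lit 0) (nat_lit 24045511605) (nat_lit 1) (nat_lit 5) (nat_lit 3) (nat_lit 4) (nat_lit 1) (nat_lit 4) (nat_lit 522) (nat_lit 365) (nat_lit 313)) (XT.lf (nat_lit 0) (nat_lit 32375462775) (nat_lit 152) (nat_lit 221374939259) (nat_lit 0) (nat_lit 30031339504) (nat_lit 1) (nat_lit 5) (nat_lit 3) (nat_lit 4) (nat_lit 1) (nat_lit 4) (nat_lit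 523) (nat_lit 365) (nat_lit 312))))) (XT.nd (nat_lit 234) (nat_lit 0) (nat_lit 0) (XT.nd (nat_lit 78) (nat_lit 0) (nat_lit 0) (XT.lf (nat_lit 0) (nat_lit 38640012250) (nat_lit 152) (nat_lit 222805320753) (nat_lit 0) (nat_lit 36286795261) (nat_lit 1) (nat_lit 5) (nat_lit 3) (nat_lit 4) (nat_lit 1) (nat_lit 4) (nat_lit 524) (nat_lit 365) (nat_lit 311)) (XT.nd (nat_lit 78) (nat_lit 0) (nat_lit 0) (XT.lf (nat_lit 0) (nat_lit 45188650493) (nat_lit 152) (nat_lit 224366068400) (nat_lit 0) (nat_lit 42826772820) (nat_lit 1) (nat_lit 5) (nat_lit 3) (nat_lit 4) (nat_lit 1) (nat_lit 4) (nat_lit 525) (nat_lit 365) (nat_lit 310)) (XT.lf (nat_lit 0) (nat_lit 52036969499) (nat_lit 152) (nat_lit 226060898266) (nat_lit 0) (nat_lit 49666843556) (nat_lit 1) (nat_lit 5) (nat_lit 3) (nat_lit 4) (nat_lit 1) (nat_lit 4) (nat_lit 526) (nat_lit 365) (nat_lit 309)))) (XT.nd (nat_lit 156) (nat_lit 0) (nat_lit 0) (XT.nd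 (nat_lit 78) (nat_lit 0) (nat_lit 0) (XT.lf (nat_lit 0) (nat_lit 59201274789) (nat_lit 152) (nat_lit 227893845661) (nat_lit 0) (nat_lit 56823293351) (nat_lit 1) (nat_lit 5) (nat_lit 3) (nat_lit 4) (nat_lit 1) (nat_lit 4) (nat_lit 527) (nat_lit 365) (nat_lit 308)) (XT.lf (nat_lit 0) (nat_lit 66698624234) (nat_lit 152) (nat_lit 229869274744) (nat_lit 0) (nat_lit 64313161371) (nat_lit 1) (nat_lit 5) (nat_lit 3) (nat_lit 4) (nat_lit 1) (nat_lit 4) (nat_lit 528) (nat_lit 365) (nat_lit 307))) (XT.nd (nat_lit 78) (nat_lit 0) (nat_lit 0) (XT.lf (nat_lit 0) (nat_lit 74546868665) (nat_lit 152) (nat_lit 231991888919) (nat_lit 0) (nat_lit 72154280637) (nat_lit 1) (nat_lit 5) (nat_lit 3) (nat_lit 4) (nat_lit 1) (nat_lit 4) (nat_lit 529) (nat_lit 365) (nat_lit 306)) (XT.lf (nat_lit 0) (nat_lit 82764694378) (nat_lit 152) (nat_lit 234266742029) (nat_lit 0) (nat_lit 80365320478) (nat_lit 1) (nat_lit 5) (nat_lit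 3) (nat_lit 4) (nat_lit 1) (nat_lit 4) (nat_lit 530) (nat_lit 365) (nat_lit 305)))))) (XT.nd (nat_lit 546) (nat_lit 0) (nat_lit 0) (XT.nd (nat_lit 234) (nat_lit 0) (nat_lit 0) (XT.nd (nat_lit 78) (nat_lit 0) (nat_lit 0) (XT.lf (nat_lit 0) (nat_lit 91371667626) (nat_lit 152) (nat_lit 236699250390) (nat_lit 0) (nat_lit 88965830991) (nat_lit 1) (nat_lit 5) (nat_lit 3) (nat_lit 4) (nat_lit 1) (nat_lit 4) (nat_lit 531) (nat_lit 365) (nat_lit 304)) (XT.nd (nat_lit 78) (nat_lit 0) (nat_lit 0) (XT.lf (nat_lit 0) (nat_lit 100388281202) (nat_lit 152) (nat_lit 239295205690) (nat_lit 0) (nat_lit 97976289581) (nat_lit 1) (nat_lit 5) (nat_lit 3) (nat_lit 4) (nat_lit 1) (nat_lit 4) (nat_lit 532) (nat_lit 365) (nat_lit 303)) (XT.lf (nat_lit 0) (nat_lit 109836003233) (nat_lit 152) (nat_lit 242060788773) (nat_lit 0) (nat_lit 107418149720) (nat_lit 1) (nat_lit 5) (nat_lit 3) (nat_lit 4) (nat_lit 1) (nat_lit 4)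 (nat_lit 533) (nat_lit 365) (nat_lit 302)))) (XT.nd (nat_lit 156) (nat_lit 0) (nat_lit 0) (XT.nd (nat_lit 78) (nat_lit 0) (nat_lit 0) (XT.lf (nat_lit 0) (nat_lit 119737328296) (nat_lit 152) (nat_lit 245002584363) (nat_lit 0) (nat_lit 117313892029) (nat_lit 1) (nat_lit 5) (nat_lit 3) (nat_lit 4) (nat_lit 1) (nat_lit 4) (nat_lit 534) (nat_lit 365) (nat_lit 301)) (XT.lf (nat_lit 0) (nat_lit 130115830974) (nat_lit 152) (nat_lit 248127596733) (nat_lit 0) (nat_lit 127687077799) (nat_lit 1) (nat_lit 5) (nat_lit 3) (nat_lit 4) (nat_lit 1) (nat_lit 4) (nat_lit 535) (nat_lit 365) (nat_lit 300))) (XT.nd (nat_lit 78) (nat_lit 0) (nat_lit 0) (XT.lf (nat_lit 0) (nat_lit 140996221988) (nat_lit 152) (nat_lit 251443266390) (nat_lit 0) (nat_lit 138562405090) (nat_lit 1) (nat_lit 5) (nat_lit 3) (nat_lit 4) (nat_lit 1) (nat_lit 4) (nat_lit 536) (nat_lit 365) (nat_lit 299)) (XT.lf (nat_lit 0) (nat_lit 152404407030)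 (nat_lit 152) (nat_lit 254957487786) (nat_lit 0) (nat_lit 149965767540) (nat_lit 1) (nat_lit 5) (nat_lit 3) (nat_lit 4) (nat_lit 1) (nat_lit 4) (nat_lit 537) (nat_lit 365) (nat_lit 298))))) (XT.nd (nat_lit 312) (nat_lit 0) (nat_lit 0) (XT.nd (nat_lit 156) (nat_lit 0) (nat_lit 0) (XT.nd (nat_lit 78) (nat_lit 0) (nat_lit 0) (XT.lf (nat_lit 0) (nat_lit 164367548446) (nat_lit 152) (nat_lit 258678628113) (nat_lit 0) (nat_lit 161924316011) (nat_lit 1) (nat_lit 5) (nat_lit 3) (nat_lit 4) (nat_lit 1) (nat_lit 4) (nat_lit 538) (nat_lit 365) (nat_lit 297)) (XT.lf (nat_lit 0) (nat_lit 176914129906) (nat_lit 152) (nat_lit 262615547230) (nat_lit 0) (nat_lit 174466523237) (nat_lit 1) (nat_lit 5) (nat_lit 3) (nat_lit 4) (nat_lit 1) (nat_lit 4) (nat_lit 539) (nat_lit 365) (nat_lit 296))) (XT.nd (nat_lit 78) (nat_lit 0) (nat_lit 0) (XT.lf (nat_lit 0) (nat_lit 190074024224) (nat_lit 152) (nat_lit 266777618754)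 (nat_lit 0) (nat_lit 187622251618) (nat_lit 1) (nat_lit 5) (nat_lit 3) (nat_lit 4) (nat_lit 1) (nat_lit 4) (nat_lit 540) (nat_lit 365) (nat_lit 295)) (XT.lf (nat_lit 0) (nat_lit 203878564480) (nat_lit 152) (nat_lit 271174752379) (nat_lit 0) (nat_lit 201422824315) (nat_lit 1) (nat_lit 5) (nat_lit 3) (nat_lit 4) (nat_lit 1) (nat_lit 4) (nat_lit 541) (nat_lit 365) (nat_lit 294)))) (XT.nd (nat_lit 156) (nat_lit 0) (nat_lit 0) (XT.nd (nat_lit 78) (nat_lit 0) (nat_lit 0) (XT.lf (nat_lit 0) (nat_lit 218360618627) (nat_lit 152) (nat_lit 275817417471) (nat_lit 0) (nat_lit 215901099835) (nat_lit 1) (nat_lit 5) (nat_lit 3) (nat_lit 4) (nat_lit 1) (nat_lit 4) (nat_lit 542) (nat_lit 365) (nat_lit 293)) (XT.lf (nat_lit 0) (nat_lit 233554667748) (nat_lit 152) (nat_lit 280716667994) (nat_lit 0) (nat_lit 231091550263) (nat_lit 1) (nat_lit 5) (nat_lit 3) (nat_lit 4) (nat_lit 1) (nat_lit 4) (nat_lit 543) (nat_lit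 365) (nat_lit 292))) (XT.nd (nat_lit 78) (nat_lit 0) (nat_lit 0) (XT.lf (nat_lit 0) (nat_lit 249496888149) (nat_lit 152) (nat_lit 285884168830) (nat_lit 0) (nat_lit 247030343338) (nat_lit 1) (nat_lit 5) (nat_lit 3) (nat_lit 4) (nat_lit 1) (nat_lit 4) (nat_lit 544) (nat_lit 365) (nat_lit 291)) (XT.lf (nat_lit 0) (nat_lit 266225237499) (nat_lit 152) (nat_lit 291332223553) (nat_lit 0) (nat_lit 263755428566) (nat_lit 1) (nat_lit 5) (nat_lit 3) (nat_lit 4) (nat_lit 1) (nat_lit 4) (nat_lit 545) (nat_lit 365) (nat_lit 290))))))))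
noncomputable def xc27 : XT := (XT.nd (nat_lit 58500) (nat_lit 0) (nat_lit 0) (XT.nd (nat_lit 57408) (nat_lit 0) (nat_lit 380) (XT.nd (nat_lit 56862) (nat_lit 0) (nat_lit 684) (XT.nd (nat_lit 56550) (nat_lit 0) (nat_lit 1064) (XT.nd (nat_lit 56394) (nat_lit 0) (nat_lit 1292) (XT.lf (nat_lit 0) (nat_lit 283779545199) (nat_lit 152) (nat_lit 297073803722) (nat_lit 0) (nat_lit 281306627581) (nat_lit 1) (nat_lit 5) (nat_lit 3) (nat_lit 4) (nat_lit 1) (nat_lit 4) (nat_lit 546) (nat_lit 365) (nat_lit 289)) (XT.nd (nat_lit 78) (nat_lit 0) (nat_lit 0) (XT.lf (nat_lit 0) (nat_lit 1837825981) (nat_lit 76) (nat_lit 5473950837) (nat_lit 76) (nat_lit 5473950837) (nat_lit 18) (nat_lit 4) (nat_lit 19) (nat_lit 5) (nat_lit 19) (nat_lit 4) (nat_lit 468) (nat_lit 366) (nat_lit 366)) (XT.lf (nat_lit 0) (nat_lit 18737150815) (nat_lit 76) (nat_lit 3953382639) (nat_lit 76) (nat_lit 3783519396) (nat_lit 18) (nat_lit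 4) (nat_lit 19) (nat_lit 5) (nat_lit 19) (nat_lit 4) (nat_lit 469) (nat_lit 366) (nat_lit 365)))) (XT.nd (nat_lit 156) (nat_lit 76) (nat_lit 0) (XT.nd (nat_lit 78) (nat_lit 0) (nat_lit 0) (XT.lf (nat_lit 0) (nat_lit 3537230385) (nat_lit 152) (nat_lit 20664363005) (nat_lit 0) (nat_lit 3221384900) (nat_lit 16) (nat_lit 5) (nat_lit 18) (nat_lit 4) (nat_lit 16) (nat_lit 4) (nat_lit 470) (nat_lit 366) (nat_lit 364)) (XT.lf (nat_lit 0) (nat_lit 11054849633) (nat_lit 152) (nat_lit 6771237714) (nat_lit 0) (nat_lit 10592269891) (nat_lit 16) (nat_lit 5) (nat_lit 18) (nat_lit 4) (nat_lit 16) (nat_lit 4) (nat_lit 471) (nat_lit 366) (nat_lit 363))) (XT.nd (nat_lit 78) (nat_lit 0) (nat_lit 0) (XT.lf (nat_lit 0) (nat_lit 7605714291) (nat_lit 76) (nat_lit 11232808070) (nat_lit 76) (nat_lit 10630481418) (nat_lit 15) (nat_lit 4) (nat_lit 16) (nat_lit 5) (nat_lit 16) (nat_lit 4) (nat_lit 472) (nat_lit 366) (nat_lit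 362)) (XT.lf (nat_lit 0) (nat_lit 22489662847) (nat_lit 76) (nat_lit 4411722666) (nat_lit 76) (nat_lit 3676303719) (nat_lit 15) (nat_lit 4) (nat_lit 16) (nat_lit 5) (nat_lit 16) (nat_lit 4) (nat_lit 473) (nat_lit 366) (nat_lit 361))))) (XT.nd (nat_lit 234) (nat_lit 152) (nat_lit 0) (XT.nd (nat_lit 78) (nat_lit 76) (nat_lit 0) (XT.lf (nat_lit 0) (nat_lit 3429066538) (nat_lit 152) (nat_lit 25705993272) (nat_lit 0) (nat_lit 2607948905) (nat_lit 13) (nat_lit 5) (nat_lit 15) (nat_lit 4) (nat_lit 13) (nat_lit 4) (nat_lit 474) (nat_lit 366) (nat_lit 360)) (XT.nd (nat_lit 78) (nat_lit 76) (nat_lit 0) (XT.lf (nat_lit 0) (nat_lit 10760613855) (nat_lit 152) (nat_lit 12378724018) (nat_lit 0) (nat_lit 9824526094) (nat_lit 13) (nat_lit 5) (nat_lit 15) (nat_lit 4) (nat_lit 13) (nat_lit 4) (nat_lit 475) (nat_lit 366) (nat_lit 359)) (XT.lf (nat_lit 0) (nat_lit 1242042903) (nat_lit 76) (nat_lit 17029337893)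 (nat_lit 76) (nat_lit 15983754771) (nat_lit 12) (nat_lit 4) (nat_lit 13) (nat_lit 5) (nat_lit 13) (nat_lit 4) (nat_lit 476) (nat_lit 366) (nat_lit 358)))) (XT.nd (nat_lit 156) (nat_lit 152) (nat_lit 0) (XT.nd (nat_lit 78) (nat_lit 0) (nat_lit 0) (XT.lf (nat_lit 0) (nat_lit 15567645735) (nat_lit 76) (nat_lit 10596437499) (nat_lit 76) (nat_lit 9446573080) (nat_lit 12) (nat_lit 4) (nat_lit 13) (nat_lit 5) (nat_lit 13) (nat_lit 4) (nat_lit 477) (nat_lit 366) (nat_lit 357)) (XT.lf (nat_lit 0) (nat_lit 30222896535) (nat_lit 76) (nat_lit 4034959942) (nat_lit 76) (nat_lit 2785780004) (nat_lit 12) (nat_lit 4) (nat_lit 13) (nat_lit 5) (nat_lit 13) (nat_lit 4) (nat_lit 478) (nat_lit 366) (nat_lit 356))) (XT.nd (nat_lit 78) (nat_lit 0) (nat_lit 0) (XT.lf (nat_lit 0) (nat_lit 4037285785) (nat_lit 152) (nat_lit 31751995233) (nat_lit 0) (nat_lit 2757508501) (nat_lit 10) (nat_lit 5) (nat_lit 12) (nat_lit 4)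 (nat_lit 10) (nat_lit 4) (nat_lit 479) (nat_lit 366) (nat_lit 355)) (XT.lf (nat_lit 0) (nat_lit 11104359167) (nat_lit 152) (nat_lit 19279848937) (nat_lit 0) (nat_lit 9738789403) (nat_lit 10) (nat_lit 5) (nat_lit 12) (nat_lit 4) (nat_lit 10) (nat_lit 4) (nat_lit 480) (nat_lit 366) (nat_lit 354)))))) (XT.nd (nat_lit 546) (nat_lit 76) (nat_lit 0) (XT.nd (nat_lit 234) (nat_lit 152) (nat_lit 0) (XT.nd (nat_lit 78) (nat_lit 76) (nat_lit 0) (XT.lf (nat_lit 0) (nat_lit 18346616423) (nat_lit 152) (nat_lit 6540972677) (nat_lit 0) (nat_lit 16899339535) (nat_lit 10) (nat_lit 5) (nat_lit 12) (nat_lit 4) (nat_lit 10) (nat_lit 4) (nat_lit 481) (nat_lit 366) (nat_lit 353)) (XT.nd (nat_lit 78) (nat_lit 0) (nat_lit 0) (XT.lf (nat_lit 0) (nat_lit 6709717051) (nat_lit 76) (nat_lit 19176341458) (nat_lit 76) (nat_lit 17651248261) (nat_lit 9) (nat_lit 4) (nat_lit 10) (nat_lit 5) (nat_lit 10) (nat_lit 4) (nat_lit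 482) (nat_lit 366) (nat_lit 352)) (XT.lf (nat_lit 0) (nat_lit 20515627863) (nat_lit 76) (nat_lit 13230793178) (nat_lit 76) (nat_lit 11631589210) (nat_lit 9) (nat_lit 4) (nat_lit 10) (nat_lit 5) (nat_lit 10) (nat_lit 4) (nat_lit 483) (nat_lit 366) (nat_lit 351)))) (XT.nd (nat_lit 156) (nat_lit 76) (nat_lit 0) (XT.nd (nat_lit 78) (nat_lit 76) (nat_lit 0) (XT.lf (nat_lit 0) (nat_lit 34693356878) (nat_lit 76) (nat_lit 7147562729) (nat_lit 76) (nat_lit 5477777076) (nat_lit 9) (nat_lit 4) (nat_lit 10) (nat_lit 5) (nat_lit 10) (nat_lit 4) (nat_lit 484) (nat_lit 366) (nat_lit 350)) (XT.lf (nat_lit 0) (nat_lit 798440041) (nat_lit 152) (nat_lit 100204221) (nat_lit 76) (nat_lit 48464698583) (nat_lit 8) (nat_lit 5) (nat_lit 10) (nat_lit 5) (nat_lit 9) (nat_lit 4) (nat_lit 485) (nat_lit 366) (nat_lit 349))) (XT.nd (nat_lit 78) (nat_lit 0) (nat_lit 0) (XT.lf (nat_lit 0) (nat_lit 7353153388) (nat_lit 152)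 (nat_lit 38507251835) (nat_lit 0) (nat_lit 5637890553) (nat_lit 7) (nat_lit 5) (nat_lit 9) (nat_lit 4) (nat_lit 7) (nat_lit 4) (nat_lit 486) (nat_lit 366) (nat_lit 348)) (XT.lf (nat_lit 0) (nat_lit 14105782689) (nat_lit 152) (nat_lit 27308255544) (nat_lit 0) (nat_lit 12332452127) (nat_lit 7) (nat_lit 5) (nat_lit 9) (nat_lit 4) (nat_lit 7) (nat_lit 4) (nat_lit 487) (nat_lit 366) (nat_lit 347))))) (XT.nd (nat_lit 234) (nat_lit 0) (nat_lit 0) (XT.nd (nat_lit 78) (nat_lit 76) (nat_lit 0) (XT.lf (nat_lit 0) (nat_lit 21056732587) (nat_lit 152) (nat_lit 15829231081) (nat_lit 0) (nat_lit 19228099427) (nat_lit 7) (nat_lit 5) (nat_lit 9) (nat_lit 4) (nat_lit 7) (nat_lit 4) (nat_lit 488) (nat_lit 366) (nat_lit 346)) (XT.nd (nat_lit 78) (nat_lit 76) (nat_lit 0) (XT.lf (nat_lit 0) (nat_lit 28222552962) (nat_lit 152) (nat_lit 4042847435) (nat_lit 0) (nat_lit 26341250661) (nat_lit 7) (nat_lit 5) (nat_lit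 9) (nat_lit 4) (nat_lit 7) (nat_lit 4) (nat_lit 489) (nat_lit 366) (nat_lit 345)) (XT.lf (nat_lit 0) (nat_lit 8346085056) (nat_lit 76) (nat_lit 27404526011) (nat_lit 76) (nat_lit 25473062624) (nat_lit 6) (nat_lit 4) (nat_lit 7) (nat_lit 5) (nat_lit 7) (nat_lit 4) (nat_lit 490) (nat_lit 366) (nat_lit 344)))) (XT.nd (nat_lit 156) (nat_lit 0) (nat_lit 0) (XT.nd (nat_lit 78) (nat_lit 0) (nat_lit 0) (XT.lf (nat_lit 0) (nat_lit 21245020641) (nat_lit 76) (nat_lit 22354276939) (nat_lit 76) (nat_lit 20375041089) (nat_lit 6) (nat_lit 4) (nat_lit 7) (nat_lit 5) (nat_lit 7) (nat_lit 4) (nat_lit 491) (nat_lit 366) (nat_lit 343)) (XT.lf (nat_lit 0) (nat_lit 34550996277) (nat_lit 76) (nat_lit 17171096355) (nat_lit 76) (nat_lit 15146362920) (nat_lit 6) (nat_lit 4) (nat_lit 7) (nat_lit 5) (nat_lit 7) (nat_lit 4) (nat_lit 492) (nat_lit 366) (nat_lit 342))) (XT.nd (nat_lit 78) (nat_lit 0) (nat_lit 0) (XT.lf (nat_lit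 0) (nat_lit 48295692857) (nat_lit 76) (nat_lit 11842643352) (nat_lit 76) (nat_lit 9774578885) (nat_lit 6) (nat_lit 4) (nat_lit 7) (nat_lit 5) (nat_lit 7) (nat_lit 4) (nat_lit 493) (nat_lit 366) (nat_lit 341)) (XT.lf (nat_lit 0) (nat_lit 62511835850) (nat_lit 76) (nat_lit 6356231138) (nat_lit 76) (nat_lit 4246899021) (nat_lit 6) (nat_lit 4) (nat_lit 7) (nat_lit 5) (nat_lit 7) (nat_lit 4) (nat_lit 494) (nat_lit 366) (nat_lit 340))))))) (XT.nd (nat_lit 1092) (nat_lit 152) (nat_lit 0) (XT.nd (nat_lit 546) (nat_lit 76) (nat_lit 0) (XT.nd (nat_lit 234) (nat_lit 0) (nat_lit 0) (XT.nd (nat_lit 78) (nat_lit 0) (nat_lit 0) (XT.lf (nat_lit 0) (nat_lit 752489311) (nat_lit 76) (nat_lit 662693104) (nat_lit 152) (nat_lit 75065330589) (nat_lit 4) (nat_lit 5) (nat_lit 5) (nat_lit 5) (nat_lit 6) (nat_lit 4) (nat_lit 495) (nat_lit 366) (nat_lit 339)) (XT.nd (nat_lit 78) (nat_lit 0) (nat_lit 0) (XT.lf (nat_lit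 0) (nat_lit 7379378268) (nat_lit 152) (nat_lit 67325982156) (nat_lit 0) (nat_lit 5297411015) (nat_lit 4) (nat_lit 5) (nat_lit 6) (nat_lit 4) (nat_lit 4) (nat_lit 4) (nat_lit 496) (nat_lit 366) (nat_lit 338)) (XT.lf (nat_lit 0) (nat_lit 13553820030) (nat_lit 152) (nat_lit 58713820945) (nat_lit 0) (nat_lit 11437901780) (nat_lit 4) (nat_lit 5) (nat_lit 6) (nat_lit 4) (nat_lit 4) (nat_lit 4) (nat_lit 497) (nat_lit 366) (nat_lit 337)))) (XT.nd (nat_lit 156) (nat_lit 0) (nat_lit 0) (XT.nd (nat_lit 78) (nat_lit 0) (nat_lit 0) (XT.lf (nat_lit 0) (nat_lit 19942862258) (nat_lit 152) (nat_lit 49860688420) (nat_lit 0) (nat_lit 17794609724) (nat_lit 4) (nat_lit 5) (nat_lit 6) (nat_lit 4) (nat_lit 4) (nat_lit 4) (nat_lit 498) (nat_lit 366) (nat_lit 336)) (XT.lf (nat_lit 0) (nat_lit 26561716956) (nat_lit 152) (nat_lit 40745505693) (nat_lit 0) (nat_lit 24382669866) (nat_lit 4) (nat_lit 5) (nat_lit 6) (nat_lit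 4) (nat_lit 4) (nat_lit 4) (nat_lit 499) (nat_lit 366) (nat_lit 335))) (XT.nd (nat_lit 78) (nat_lit 0) (nat_lit 0) (XT.lf (nat_lit 0) (nat_lit 33426143302) (nat_lit 152) (nat_lit 31346569948) (nat_lit 0) (nat_lit 31217768063) (nat_lit 4) (nat_lit 5) (nat_lit 6) (nat_lit 4) (nat_lit 4) (nat_lit 4) (nat_lit 500) (nat_lit 366) (nat_lit 334)) (XT.lf (nat_lit 0) (nat_lit 40552485168) (nat_lit 152) (nat_lit 21641502767) (nat_lit 0) (nat_lit 38316178360) (nat_lit 4) (nat_lit 5) (nat_lit 6) (nat_lit 4) (nat_lit 4) (nat_lit 4) (nat_lit 501) (nat_lit 366) (nat_lit 333))))) (XT.nd (nat_lit 234) (nat_lit 0) (nat_lit 0) (XT.nd (nat_lit 78) (nat_lit 76) (nat_lit 0) (XT.lf (nat_lit 0) (nat_lit 47957710035) (nat_lit 152) (nat_lit 11607196847) (nat_lit 0) (nat_lit 45694801732) (nat_lit 4) (nat_lit 5) (nat_lit 6) (nat_lit 4) (nat_lit 4) (nat_lit 4) (nat_lit 502) (nat_lit 366) (nat_lit 332)) (XT.nd (nat_lit 78)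 (nat_lit 76) (nat_lit 0) (XT.lf (nat_lit 0) (nat_lit 55659449391) (nat_lit 152) (nat_lit 1219760984) (nat_lit 0) (nat_lit 53371206331) (nat_lit 4) (nat_lit 5) (nat_lit 6) (nat_lit 4) (nat_lit 4) (nat_lit 4) (nat_lit 503) (nat_lit 366) (nat_lit 331)) (XT.lf (nat_lit 0) (nat_lit 9861155368) (nat_lit 76) (nat_lit 53968845613) (nat_lit 76) (nat_lit 51656474212) (nat_lit 3) (nat_lit 4) (nat_lit 4) (nat_lit 5) (nat_lit 4) (nat_lit 4) (nat_lit 504) (nat_lit 366) (nat_lit 330)))) (XT.nd (nat_lit 156) (nat_lit 0) (nat_lit 0) (XT.nd (nat_lit 78) (nat_lit 0) (nat_lit 0) (XT.lf (nat_lit 0) (nat_lit 21399237444) (nat_lit 76) (nat_lit 50961435740) (nat_lit 76) (nat_lit 48626084967) (nat_lit 3) (nat_lit 4) (nat_lit 4) (nat_lit 5) (nat_lit 4) (nat_lit 4) (nat_lit 505) (nat_lit 366) (nat_lit 329)) (XT.lf (nat_lit 0) (nat_lit 33381626059) (nat_lit 76) (nat_lit 47870477497) (nat_lit 76) (nat_lit 45513241609)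 (nat_lit 3) (nat_lit 4) (nat_lit 4) (nat_lit 5) (nat_lit 4) (nat_lit 4) (nat_lit 506) (nat_lit 366) (nat_lit 328))) (XT.nd (nat_lit 78) (nat_lit 0) (nat_lit 0) (XT.lf (nat_lit 0) (nat_lit 45836850710) (nat_lit 76) (nat_lit 44688611462) (nat_lit 76) (nat_lit 42310532607) (nat_lit 3) (nat_lit 4) (nat_lit 4) (nat_lit 5) (nat_lit 4) (nat_lit 4) (nat_lit 507) (nat_lit 366) (nat_lit 327)) (XT.lf (nat_lit 0) (nat_lit 58794566695) (nat_lit 76) (nat_lit 41408261763) (nat_lit 76) (nat_lit 39010332462) (nat_lit 3) (nat_lit 4) (nat_lit 4) (nat_lit 5) (nat_lit 4) (nat_lit 4) (nat_lit 508) (nat_lit 366) (nat_lit 326)))))) (XT.nd (nat_lit 546) (nat_lit 152) (nat_lit 0) (XT.nd (nat_lit 234) (nat_lit 0) (nat_lit 0) (XT.nd (nat_lit 78) (nat_lit 0) (nat_lit 0) (XT.lf (nat_lit 0) (nat_lit 72285625717) (nat_lit 76) (nat_lit 38021618043) (nat_lit 76) (nat_lit 35604783556) (nat_lit 3) (nat_lit 4) (nat_lit 4) (nat_lit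 5) (nat_lit 4) (nat_lit 4) (nat_lit 509) (nat_lit 366) (nat_lit 325)) (XT.nd (nat_lit 78) (nat_lit 0) (nat_lit 0) (XT.lf (nat_lit 0) (nat_lit 86342149347) (nat_lit 76) (nat_lit 34520616864) (nat_lit 76) (nat_lit 32085777438) (nat_lit 3) (nat_lit 4) (nat_lit 4) (nat_lit 5) (nat_lit 4) (nat_lit 4) (nat_lit 510) (nat_lit 366) (nat_lit 324)) (XT.lf (nat_lit 0) (nat_lit 100997605496) (nat_lit 76) (nat_lit 30896922511) (nat_lit 76) (nat_lit 28444935524) (nat_lit 3) (nat_lit 4) (nat_lit 4) (nat_lit 5) (nat_lit 4) (nat_lit 4) (nat_lit 511) (nat_lit 366) (nat_lit 323)))) (XT.nd (nat_lit 156) (nat_lit 0) (nat_lit 0) (XT.nd (nat_lit 78) (nat_lit 0) (nat_lit 0) (XT.lf (nat_lit 0) (nat_lit 116286888110) (nat_lit 76) (nat_lit 27141907138) (nat_lit 76) (nat_lit 24673589141) (nat_lit 3) (nat_lit 4) (nat_lit 4) (nat_lit 5) (nat_lit 4) (nat_lit 4) (nat_lit 512) (nat_lit 366) (nat_lit 322)) (XT.lf (nat_lit 0)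 (nat_lit 132246400240) (nat_lit 76) (nat_lit 23246630234) (nat_lit 76) (nat_lit 20762758893) (nat_lit 3) (nat_lit 4) (nat_lit 4) (nat_lit 5) (nat_lit 4) (nat_lit 4) (nat_lit 513) (nat_lit 366) (nat_lit 321))) (XT.nd (nat_lit 78) (nat_lit 0) (nat_lit 0) (XT.lf (nat_lit 0) (nat_lit 148914140727) (nat_lit 76) (nat_lit 19201817328) (nat_lit 76) (nat_lit 16703133280) (nat_lit 3) (nat_lit 4) (nat_lit 4) (nat_lit 5) (nat_lit 4) (nat_lit 4) (nat_lit 514) (nat_lit 366) (nat_lit 320)) (XT.lf (nat_lit 0) (nat_lit 166329794665) (nat_lit 76) (nat_lit 14997837916) (nat_lit 76) (nat_lit 12485046526) (nat_lit 3) (nat_lit 4) (nat_lit 4) (nat_lit 5) (nat_lit 4) (nat_lit 4) (nat_lit 515) (nat_lit 366) (nat_lit 319))))) (XT.nd (nat_lit 312) (nat_lit 0) (nat_lit 0) (XT.nd (nat_lit 156) (nat_lit 152) (nat_lit 0) (XT.nd (nat_lit 78) (nat_lit 0) (nat_lit 0) (XT.lf (nat_lit 0) (nat_lit 184534827899) (nat_lit 76) (nat_lit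 10624682521) (nat_lit 76) (nat_lit 8098455569) (nat_lit 3) (nat_lit 4) (nat_lit 4) (nat_lit 5) (nat_lit 4) (nat_lit 4) (nat_lit 516) (nat_lit 366) (nat_lit 318)) (XT.lf (nat_lit 0) (nat_lit 203572585745) (nat_lit 76) (nat_lit 6071938869) (nat_lit 76) (nat_lit 3532916143) (nat_lit 3) (nat_lit 4) (nat_lit 4) (nat_lit 5) (nat_lit 4) (nat_lit 4) (nat_lit 517) (nat_lit 366) (nat_lit 317))) (XT.nd (nat_lit 78) (nat_lit 76) (nat_lit 0) (XT.lf (nat_lit 0) (nat_lit 1183316302) (nat_lit 152) (nat_lit 125410757) (nat_lit 76) (nat_lit 222285039861) (nat_lit 2) (nat_lit 5) (nat_lit 4) (nat_lit 5) (nat_lit 3) (nat_lit 4) (nat_lit 518) (nat_lit 366) (nat_lit 316)) (XT.lf (nat_lit 0) (nat_lit 6198209417) (nat_lit 152) (nat_lit 224563292887) (nat_lit 0) (nat_lit 3757432920) (nat_lit 1) (nat_lit 5) (nat_lit 3) (nat_lit 4) (nat_lit 1) (nat_lit 4) (nat_lit 519) (nat_lit 366) (nat_lit 315)))) (XT.nd (nat_lit 156)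 (nat_lit 0) (nat_lit 0) (XT.nd (nat_lit 78) (nat_lit 0) (nat_lit 0) (XT.lf (nat_lit 0) (nat_lit 11452042160) (nat_lit 152) (nat_lit 225538172035) (nat_lit 0) (nat_lit 9000738548) (nat_lit 1) (nat_lit 5) (nat_lit 3) (nat_lit 4) (nat_lit 1) (nat_lit 4) (nat_lit 520) (nat_lit 366) (nat_lit 314)) (XT.lf (nat_lit 0) (nat_lit 16934834845) (nat_lit 152) (nat_lit 226629917990) (nat_lit 0) (nat_lit 14473505409) (nat_lit 1) (nat_lit 5) (nat_lit 3) (nat_lit 4) (nat_lit 1) (nat_lit 4) (nat_lit 521) (nat_lit 366) (nat_lit 313))) (XT.nd (nat_lit 78) (nat_lit 0) (nat_lit 0) (XT.lf (nat_lit 0) (nat_lit 22659641740) (nat_lit 152) (nat_lit 227841130147) (nat_lit 0) (nat_lit 20188763901) (nat_lit 1) (nat_lit 5) (nat_lit 3) (nat_lit 4) (nat_lit 1) (nat_lit 4) (nat_lit 522) (nat_lit 366) (nat_lit 312)) (XT.lf (nat_lit 0) (nat_lit 28640093339) (nat_lit 152) (nat_lit 229174692344) (nat_lit 0) (nat_lit 26160121782)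 (nat_lit 1) (nat_lit 5) (nat_lit 3) (nat_lit 4) (nat_lit 1) (nat_lit 4) (nat_lit 523) (nat_lit 366) (nat_lit 311))))))))
noncomputable def xc28 : XT := (XT.nd (nat_lit 58344) (nat_lit 0) (nat_lit 228) (XT.nd (nat_lit 1092) (nat_lit 0) (nat_lit 0) (XT.nd (nat_lit 546) (nat_lit 0) (nat_lit 0) (XT.nd (nat_lit 234) (nat_lit 0) (nat_lit 0) (XT.nd (nat_lit 78) (nat_lit 0) (nat_lit 0) (XT.lf (nat_lit 0) (nat_lit 34890428811) (nat_lit 152) (nat_lit 230633779730) (nat_lit 0) (nat_lit 32401796571) (nat_lit 1) (nat_lit 5) (nat_lit 3) (nat_lit 4) (nat_lit 1) (nat_lit 4) (nat_lit 524) (nat_lit 366) (nat_lit 310)) (XT.nd (nat_lit 78) (nat_lit 0) (nat_lit 0) (XT.lf (nat_lit 0) (nat_lit 41425529907) (nat_lit 152) (nat_lit 232221866322) (nat_lit 0) (nat_lit 38928649397) (nat_lit 1) (nat_lit 5) (nat_lit 3) (nat_lit 4) (nat_lit 1) (nat_lit 4) (nat_lit 525) (nat_lit 366) (nat_lit 309)) (XT.lf (nat_lit 0) (nat_lit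 48260956393) (nat_lit 152) (nat_lit 233942733278) (nat_lit 0) (nat_lit 45756220388) (nat_lit 1) (nat_lit 5) (nat_lit 3) (nat_lit 4) (nat_lit 1) (nat_lit 4) (nat_lit 526) (nat_lit 366) (nat_lit 308)))) (XT.nd (nat_lit 156) (nat_lit 0) (nat_lit 0) (XT.nd (nat_lit 78) (nat_lit 0) (nat_lit 0) (XT.lf (nat_lit 0) (nat_lit 55412983093) (nat_lit 152) (nat_lit 235800477902) (nat_lit 0) (nat_lit 52900765664) (nat_lit 1) (nat_lit 5) (nat_lit 3) (nat_lit 4) (nat_lit 1) (nat_lit 4) (nat_lit 527) (nat_lit 366) (nat_lit 307)) (XT.lf (nat_lit 0) (nat_lit 62898638642) (nat_lit 152) (nat_lit 237799523394) (nat_lit 0) (nat_lit 60379296047) (nat_lit 1) (nat_lit 5) (nat_lit 3) (nat_lit 4) (nat_lit 1) (nat_lit 4) (nat_lit 528) (nat_lit 366) (nat_lit 306))) (XT.nd (nat_lit 78) (nat_lit 0) (nat_lit 0) (XT.lf (nat_lit 0) (nat_lit 70735746030) (nat_lit 152) (nat_lit 239944629386) (nat_lit 0) (nat_lit 68209617563) (nat_lit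 1) (nat_lit 5) (nat_lit 3) (nat_lit 4) (nat_lit 1) (nat_lit 4) (nat_lit 529) (nat_lit 366) (nat_lit 305)) (XT.lf (nat_lit 0) (nat_lit 78942965036) (nat_lit 152) (nat_lit 242240903274) (nat_lit 0) (nat_lit 76410373833) (nat_lit 1) (nat_lit 5) (nat_lit 3) (nat_lit 4) (nat_lit 1) (nat_lit 4) (nat_lit 530) (nat_lit 366) (nat_lit 304))))) (XT.nd (nat_lit 234) (nat_lit 0) (nat_lit 0) (XT.nd (nat_lit 78) (nat_lit 0) (nat_lit 0) (XT.lf (nat_lit 0) (nat_lit 87539836657) (nat_lit 152) (nat_lit 244693812377) (nat_lit 0) (nat_lit 85001090468) (nat_lit 1) (nat_lit 5) (nat_lit 3) (nat_lit 4) (nat_lit 1) (nat_lit 4) (nat_lit 531) (nat_lit 366) (nat_lit 303)) (XT.nd (nat_lit 78) (nat_lit 0) (nat_lit 0) (XT.lf (nat_lit 0) (nat_lit 96546829636) (nat_lit 152) (nat_lit 247309196954) (nat_lit 0) (nat_lit 94002221556) (nat_lit 1) (nat_lit 5) (nat_lit 3) (nat_lit 4) (nat_lit 1) (nat_lit 4) (nat_lit 532) (nat_lit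 366) (nat_lit 302)) (XT.lf (nat_lit 0) (nat_lit 105985389194) (nat_lit 152) (nat_lit 250093284112) (nat_lit 0) (nat_lit 103435198360) (nat_lit 1) (nat_lit 5) (nat_lit 3) (nat_lit 4) (nat_lit 1) (nat_lit 4) (nat_lit 533) (nat_lit 366) (nat_lit 301)))) (XT.nd (nat_lit 156) (nat_lit 0) (nat_lit 0) (XT.nd (nat_lit 78) (nat_lit 0) (nat_lit 0) (XT.lf (nat_lit 0) (nat_lit 115877988092) (nat_lit 152) (nat_lit 253052702629) (nat_lit 0) (nat_lit 113322480350) (nat_lit 1) (nat_lit 5) (nat_lit 3) (nat_lit 4) (nat_lit 1) (nat_lit 4) (nat_lit 534) (nat_lit 366) (nat_lit 300)) (XT.lf (nat_lit 0) (nat_lit 126248180137) (nat_lit 152) (nat_lit 256194498740) (nat_lit 0) (nat_lit 123687608672) (nat_lit 1) (nat_lit 5) (nat_lit 3) (nat_lit 4) (nat_lit 1) (nat_lit 4) (nat_lit 535) (nat_lit 366) (nat_lit 299))) (XT.nd (nat_lit 78) (nat_lit 0) (nat_lit 0) (XT.lf (nat_lit 0) (nat_lit 137120656261) (nat_lit 152) (nat_lit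 259526152912) (nat_lit 0) (nat_lit 134555262204) (nat_lit 1) (nat_lit 5) (nat_lit 3) (nat_lit 4) (nat_lit 1) (nat_lit 4) (nat_lit 536) (nat_lit 366) (nat_lit 298)) (XT.lf (nat_lit 0) (nat_lit 148521303314) (nat_lit 152) (nat_lit 263055597654) (nat_lit 0) (nat_lit 145951316312) (nat_lit 1) (nat_lit 5) (nat_lit 3) (nat_lit 4) (nat_lit 1) (nat_lit 4) (nat_lit 537) (nat_lit 366) (nat_lit 297)))))) (XT.nd (nat_lit 546) (nat_lit 0) (nat_lit 0) (XT.nd (nat_lit 234) (nat_lit 0) (nat_lit 0) (XT.nd (nat_lit 78) (nat_lit 0) (nat_lit 0) (XT.lf (nat_lit 0) (nat_lit 160477265693) (nat_lit 152) (nat_lit 266791236408) (nat_lit 0) (nat_lit 157902904457) (nat_lit 1) (nat_lit 5) (nat_lit 3) (nat_lit 4) (nat_lit 1) (nat_lit 4) (nat_lit 538) (nat_lit 366) (nat_lit 296)) (XT.nd (nat_lit 78) (nat_lit 0) (nat_lit 0) (XT.lf (nat_lit 0) (nat_lit 173017009975) (nat_lit 152) (nat_lit 270741963550) (nat_lit 0) (nat_lit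 170438482802) (nat_lit 1) (nat_lit 5) (nat_lit 3) (nat_lit 4) (nat_lit 1) (nat_lit 4) (nat_lit 539) (nat_lit 366) (nat_lit 295)) (XT.lf (nat_lit 0) (nat_lit 186170392694) (nat_lit 152) (nat_lit 274917185573) (nat_lit 0) (nat_lit 183587897962) (nat_lit 1) (nat_lit 5) (nat_lit 3) (nat_lit 4) (nat_lit 1) (nat_lit 4) (nat_lit 540) (nat_lit 366) (nat_lit 294)))) (XT.nd (nat_lit 156) (nat_lit 0) (nat_lit 0) (XT.nd (nat_lit 78) (nat_lit 0) (nat_lit 0) (XT.lf (nat_lit 0) (nat_lit 199968731427) (nat_lit 152) (nat_lit 279326843484) (nat_lit 0) (nat_lit 197382458068) (nat_lit 1) (nat_lit 5) (nat_lit 3) (nat_lit 4) (nat_lit 1) (nat_lit 4) (nat_lit 541) (nat_lit 366) (nat_lit 293)) (XT.lf (nat_lit 0) (nat_lit 214444879363) (nat_lit 152) (nat_lit 283981436467) (nat_lit 0) (nat_lit 211855007311) (nat_lit 1) (nat_lit 5) (nat_lit 3) (nat_lit 4) (nat_lit 1) (nat_lit 4) (nat_lit 542) (nat_lit 366) (nat_lit 292)))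 (XT.nd (nat_lit 78) (nat_lit 0) (nat_lit 0) (XT.lf (nat_lit 0) (nat_lit 229633303520) (nat_lit 152) (nat_lit 288892046886) (nat_lit 0) (nat_lit 227040004141) (nat_lit 1) (nat_lit 5) (nat_lit 3) (nat_lit 4) (nat_lit 1) (nat_lit 4) (nat_lit 543) (nat_lit 366) (nat_lit 291)) (XT.lf (nat_lit 0) (nat_lit 245570166813) (nat_lit 152) (nat_lit 294070366671) (nat_lit 0) (nat_lit 242973603314) (nat_lit 1) (nat_lit 5) (nat_lit 3) (nat_lit 4) (nat_lit 1) (nat_lit 4) (nat_lit 544) (nat_lit 366) (nat_lit 290))))) (XT.nd (nat_lit 56394) (nat_lit 0) (nat_lit 1140) (XT.nd (nat_lit 78) (nat_lit 0) (nat_lit 0) (XT.lf (nat_lit 0) (nat_lit 262293414154) (nat_lit 152) (nat_lit 299528725155) (nat_lit 0) (nat_lit 259693741969) (nat_lit 1) (nat_lit 5) (nat_lit 3) (nat_lit 4) (nat_lit 1) (nat_lit 4) (nat_lit 545) (nat_lit 366) (nat_lit 289)) (XT.nd (nat_lit 56238) (nat_lit 0) (nat_lit 1520) (XT.lf (nat_lit 0) (nat_lit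 279842862800) (nat_lit 152) (nat_lit 305280118430) (nat_lit 0) (nat_lit 277240229961) (nat_lit 1) (nat_lit 5) (nat_lit 3) (nat_lit 4) (nat_lit 1) (nat_lit 4) (nat_lit 546) (nat_lit 366) (nat_lit 288)) (XT.lf (nat_lit 0) (nat_lit 11573595708) (nat_lit 76) (nat_lit 188510735) (nat_lit 76) (nat_lit 188510735) (nat_lit 21) (nat_lit 4) (nat_lit 22) (nat_lit 5) (nat_lit 22) (nat_lit 4) (nat_lit 466) (nat_lit 367) (nat_lit 367)))) (XT.nd (nat_lit 156) (nat_lit 152) (nat_lit 0) (XT.nd (nat_lit 78) (nat_lit 76) (nat_lit 0) (XT.lf (nat_lit 0) (nat_lit 7056332997) (nat_lit 152) (nat_lit 10780674389) (nat_lit 0) (nat_lit 6877976592) (nat_lit 19) (nat_lit 5) (nat_lit 21) (nat_lit 4) (nat_lit 19) (nat_lit 4) (nat_lit 467) (nat_lit 367) (nat_lit 366)) (XT.lf (nat_lit 0) (nat_lit 3435688797) (nat_lit 76) (nat_lit 11245025139) (nat_lit 76) (nat_lit 10896805491) (nat_lit 18) (nat_lit 4) (nat_lit 19) (nat_lit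 5) (nat_lit 19) (nat_lit 4) (nat_lit 468) (nat_lit 367) (nat_lit 365))) (XT.nd (nat_lit 78) (nat_lit 152) (nat_lit 0) (XT.lf (nat_lit 0) (nat_lit 18268651302) (nat_lit 76) (nat_lit 4363617590) (nat_lit 76) (nat_lit 3853623425) (nat_lit 18) (nat_lit 4) (nat_lit 19) (nat_lit 5) (nat_lit 19) (nat_lit 4) (nat_lit 469) (nat_lit 367) (nat_lit 364)) (XT.lf (nat_lit 0) (nat_lit 3338016310) (nat_lit 152) (nat_lit 21397854260) (nat_lit 0) (nat_lit 2705573326) (nat_lit 16) (nat_lit 5) (nat_lit 18) (nat_lit 4) (nat_lit 16) (nat_lit 4) (nat_lit 470) (nat_lit 367) (nat_lit 363))))))) (XT.nd (nat_lit 1092) (nat_lit 380) (nat_lit 0) (XT.nd (nat_lit 546) (nat_lit 228) (nat_lit 0) (XT.nd (nat_lit 234) (nat_lit 228) (nat_lit 0) (XT.nd (nat_lit 78) (nat_lit 76) (nat_lit 0) (XT.lf (nat_lit 0) (nat_lit 10744136047) (nat_lit 152) (nat_lit 7726319166) (nat_lit 0) (nat_lit 9971946153) (nat_lit 16) (nat_lit 5) (nat_lit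 18) (nat_lit 4) (nat_lit 16) (nat_lit 4) (nat_lit 471) (nat_lit 367) (nat_lit 362)) (XT.nd (nat_lit 78) (nat_lit 0) (nat_lit 0) (XT.lf (nat_lit 0) (nat_lit 6401037369) (nat_lit 76) (nat_lit 12001773013) (nat_lit 76) (nat_lit 11096490823) (nat_lit 15) (nat_lit 4) (nat_lit 16) (nat_lit 5) (nat_lit 16) (nat_lit 4) (nat_lit 472) (nat_lit 367) (nat_lit 361)) (XT.lf (nat_lit 0) (nat_lit 21077351485) (nat_lit 76) (nat_lit 5283946951) (nat_lit 76) (nat_lit 4251910194) (nat_lit 15) (nat_lit 4) (nat_lit 16) (nat_lit 5) (nat_lit 16) (nat_lit 4) (nat_lit 473) (nat_lit 367) (nat_lit 360)))) (XT.nd (nat_lit 156) (nat_lit 76) (nat_lit 0) (XT.nd (nat_lit 78) (nat_lit 0) (nat_lit 0) (XT.lf (nat_lit 0) (nat_lit 2728634176) (nat_lit 152) (nat_lit 27426736744) (nat_lit 0) (nat_lit 1630771897) (nat_lit 13) (nat_lit 5) (nat_lit 15) (nat_lit 4) (nat_lit 13) (nat_lit 4) (nat_lit 474) (nat_lit 367) (nat_lit 359)) (XT.lf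 (nat_lit 0) (nat_lit 9959328073) (nat_lit 152) (nat_lit 14300745014) (nat_lit 0) (nat_lit 8751970433) (nat_lit 13) (nat_lit 5) (nat_lit 15) (nat_lit 4) (nat_lit 13) (nat_lit 4) (nat_lit 475) (nat_lit 367) (nat_lit 358))) (XT.nd (nat_lit 78) (nat_lit 76) (nat_lit 0) (XT.lf (nat_lit 0) (nat_lit 17354652365) (nat_lit 152) (nat_lit 911424103) (nat_lit 0) (nat_lit 16043013430) (nat_lit 13) (nat_lit 5) (nat_lit 15) (nat_lit 4) (nat_lit 13) (nat_lit 4) (nat_lit 476) (nat_lit 367) (nat_lit 357)) (XT.lf (nat_lit 0) (nat_lit 13195441872) (nat_lit 76) (nat_lit 11942790925) (nat_lit 76) (nat_lit 10531836470) (nat_lit 12) (nat_lit 4) (nat_lit 13) (nat_lit 5) (nat_lit 13) (nat_lit 4) (nat_lit 477) (nat_lit 367) (nat_lit 356))))) (XT.nd (nat_lit 234) (nat_lit 76) (nat_lit 0) (XT.nd (nat_lit 78) (nat_lit 152) (nat_lit 0) (XT.lf (nat_lit 0) (nat_lit 27671072616) (nat_lit 76) (nat_lit 5471008076) (nat_lit 76)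 (nat_lit 3965467411) (nat_lit 12) (nat_lit 4) (nat_lit 13) (nat_lit 5) (nat_lit 13) (nat_lit 4) (nat_lit 478) (nat_lit 367) (nat_lit 355)) (XT.nd (nat_lit 78) (nat_lit 0) (nat_lit 0) (XT.lf (nat_lit 0) (nat_lit 2738796396) (nat_lit 152) (nat_lit 34661500138) (nat_lit 0) (nat_lit 1219155663) (nat_lit 10) (nat_lit 5) (nat_lit 12) (nat_lit 4) (nat_lit 10) (nat_lit 4) (nat_lit 479) (nat_lit 367) (nat_lit 354)) (XT.lf (nat_lit 0) (nat_lit 9718957683) (nat_lit 152) (nat_lit 22363440354) (nat_lit 0) (nat_lit 8117609826) (nat_lit 10) (nat_lit 5) (nat_lit 12) (nat_lit 4) (nat_lit 10) (nat_lit 4) (nat_lit 480) (nat_lit 367) (nat_lit 353)))) (XT.nd (nat_lit 156) (nat_lit 0) (nat_lit 0) (XT.nd (nat_lit 78) (nat_lit 76) (nat_lit 0) (XT.lf (nat_lit 0) (nat_lit 16878441515) (nat_lit 152) (nat_lit 9790360774) (nat_lit 0) (nat_lit 15199277349) (nat_lit 10) (nat_lit 5) (nat_lit 12) (nat_lit 4) (nat_lit 10) (nat_lit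 4) (nat_lit 481) (nat_lit 367) (nat_lit 352)) (XT.lf (nat_lit 0) (nat_lit 3189766971) (nat_lit 76) (nat_lit 21094328512) (nat_lit 76) (nat_lit 19341053576) (nat_lit 9) (nat_lit 4) (nat_lit 10) (nat_lit 5) (nat_lit 10) (nat_lit 4) (nat_lit 482) (nat_lit 367) (nat_lit 351))) (XT.nd (nat_lit 78) (nat_lit 0) (nat_lit 0) (XT.lf (nat_lit 0) (nat_lit 16840322984) (nat_lit 76) (nat_lit 15226631571) (nat_lit 76) (nat_lit 13402774949) (nat_lit 9) (nat_lit 4) (nat_lit 10) (nat_lit 5) (nat_lit 10) (nat_lit 4) (nat_lit 483) (nat_lit 367) (nat_lit 350)) (XT.lf (nat_lit 0) (nat_lit 30870095047) (nat_lit 76) (nat_lit 9217545256) (nat_lit 76) (nat_lit 7326467981) (nat_lit 9) (nat_lit 4) (nat_lit 10) (nat_lit 5) (nat_lit 10) (nat_lit 4) (nat_lit 484) (nat_lit 367) (nat_lit 349)))))) (XT.nd (nat_lit 546) (nat_lit 152) (nat_lit 0) (XT.nd (nat_lit 234) (nat_lit 76) (nat_lit 0) (XT.nd (nat_lit 78) (nat_lit 152)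 (nat_lit 0) (XT.lf (nat_lit 0) (nat_lit 45312487380) (nat_lit 76) (nat_lit 3052762217) (nat_lit 76) (nat_lit 1097665272) (nat_lit 9) (nat_lit 4) (nat_lit 10) (nat_lit 5) (nat_lit 10) (nat_lit 4) (nat_lit 485) (nat_lit 367) (nat_lit 348)) (XT.nd (nat_lit 78) (nat_lit 0) (nat_lit 0) (XT.lf (nat_lit 0) (nat_lit 5320796949) (nat_lit 152) (nat_lit 42885766240) (nat_lit 0) (nat_lit 3400732130) (nat_lit 7) (nat_lit 5) (nat_lit 9) (nat_lit 4) (nat_lit 7) (nat_lit 4) (nat_lit 486) (nat_lit 367) (nat_lit 347)) (XT.lf (nat_lit 0) (nat_lit 12005469729) (nat_lit 152) (nat_lit 31823317092) (nat_lit 0) (nat_lit 10030102313) (nat_lit 7) (nat_lit 5) (nat_lit 9) (nat_lit 4) (nat_lit 7) (nat_lit 4) (nat_lit 487) (nat_lit 367) (nat_lit 346)))) (XT.nd (nat_lit 156) (nat_lit 76) (nat_lit 0) (XT.nd (nat_lit 78) (nat_lit 0) (nat_lit 0) (XT.lf (nat_lit 0) (nat_lit 18891699130) (nat_lit 152) (nat_lit 20474337526) (nat_lit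 0) (nat_lit 16863662573) (nat_lit 7) (nat_lit 5) (nat_lit 9) (nat_lit 4) (nat_lit 7) (nat_lit 4) (nat_lit 488) (nat_lit 367) (nat_lit 345)) (XT.lf (nat_lit 0) (nat_lit 25995880936) (nat_lit 152) (nat_lit 8811806163) (nat_lit 0) (nat_lit 23917683293) (nat_lit 7) (nat_lit 5) (nat_lit 9) (nat_lit 4) (nat_lit 7) (nat_lit 4) (nat_lit 489) (nat_lit 367) (nat_lit 344))) (XT.nd (nat_lit 78) (nat_lit 0) (nat_lit 0) (XT.lf (nat_lit 0) (nat_lit 3297588349) (nat_lit 76) (nat_lit 30088826113) (nat_lit 76) (nat_lit 27962856007) (nat_lit 6) (nat_lit 4) (nat_lit 7) (nat_lit 5) (nat_lit 7) (nat_lit 4) (nat_lit 490) (nat_lit 367) (nat_lit 343)) (XT.lf (nat_lit 0) (nat_lit 16080471871) (nat_lit 76) (nat_lit 25096909207) (nat_lit 76) (nat_lit 22925441517) (nat_lit 6) (nat_lit 4) (nat_lit 7) (nat_lit 5) (nat_lit 7) (nat_lit 4) (nat_lit 491) (nat_lit 367) (nat_lit 342))))) (XT.nd (nat_lit 312) (nat_lit 152) (nat_lit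 0) (XT.nd (nat_lit 156) (nat_lit 0) (nat_lit 0) (XT.nd (nat_lit 78) (nat_lit 0) (nat_lit 0) (XT.lf (nat_lit 0) (nat_lit 29275921732) (nat_lit 76) (nat_lit 19969283067) (nat_lit 76) (nat_lit 17754484345) (nat_lit 6) (nat_lit 4) (nat_lit 7) (nat_lit 5) (nat_lit 7) (nat_lit 4) (nat_lit 492) (nat_lit 367) (nat_lit 341)) (XT.lf (nat_lit 0) (nat_lit 42915355671) (nat_lit 76) (nat_lit 14693739059) (nat_lit 76) (nat_lit 12437672687) (nat_lit 6) (nat_lit 4) (nat_lit 7) (nat_lit 5) (nat_lit 7) (nat_lit 4) (nat_lit 493) (nat_lit 367) (nat_lit 340))) (XT.nd (nat_lit 78) (nat_lit 0) (nat_lit 0) (XT.lf (nat_lit 0) (nat_lit 57031248528) (nat_lit 76) (nat_lit 9257716364) (nat_lit 76) (nat_lit 6962347468) (nat_lit 6) (nat_lit 4) (nat_lit 7) (nat_lit 5) (nat_lit 7) (nat_lit 4) (nat_lit 494) (nat_lit 367) (nat_lit 339)) (XT.lf (nat_lit 0) (nat_lit 71657209574) (nat_lit 76) (nat_lit 3648272071) (nat_lit 76) (nat_lit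 1315472200) (nat_lit 6) (nat_lit 4) (nat_lit 7) (nat_lit 5) (nat_lit 7) (nat_lit 4) (nat_lit 495) (nat_lit 367) (nat_lit 338)))) (XT.nd (nat_lit 156) (nat_lit 0) (nat_lit 0) (XT.nd (nat_lit 78) (nat_lit 0) (nat_lit 0) (XT.lf (nat_lit 0) (nat_lit 4514632230) (nat_lit 152) (nat_lit 73379450491) (nat_lit 0) (nat_lit 2258967069) (nat_lit 4) (nat_lit 5) (nat_lit 6) (nat_lit 4) (nat_lit 4) (nat_lit 4) (nat_lit 496) (nat_lit 367) (nat_lit 337)) (XT.lf (nat_lit 0) (nat_lit 10643161005) (nat_lit 152) (nat_lit 64859795010) (nat_lit 0) (nat_lit 8355161561) (nat_lit 4) (nat_lit 5) (nat_lit 6) (nat_lit 4) (nat_lit 4) (nat_lit 4) (nat_lit 497) (nat_lit 367) (nat_lit 336))) (XT.nd (nat_lit 78) (nat_lit 0) (nat_lit 0) (XT.lf (nat_lit 0) (nat_lit 16988476579) (nat_lit 152) (nat_lit 56094763180) (nat_lit 0) (nat_lit 14669682578) (nat_lit 4) (nat_lit 5) (nat_lit 6) (nat_lit 4) (nat_lit 4) (nat_lit 4) (nat_lit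 498) (nat_lit 367) (nat_lit 335)) (XT.lf (nat_lit 0) (nat_lit 23565686844) (nat_lit 152) (nat_lit 47063485876) (nat_lit 0) (nat_lit 21217564695) (nat_lit 4) (nat_lit 5) (nat_lit 6) (nat_lit 4) (nat_lit 4) (nat_lit 4) (nat_lit 499) (nat_lit 367) (nat_lit 334))))))))
noncomputable def xc29 : XT := (XT.nd (nat_lit 2184) (nat_lit 0) (nat_lit 0) (XT.nd (nat_lit 1092) (nat_lit 152) (nat_lit 0) (XT.nd (nat_lit 546) (nat_lit 0) (nat_lit 0) (XT.nd (nat_lit 234) (nat_lit 76) (nat_lit 0) (XT.nd (nat_lit 78) (nat_lit 0) (nat_lit 0) (XT.lf (nat_lit 0) (nat_lit 30390451826) (nat_lit 152) (nat_lit 37744460059) (nat_lit 0) (nat_lit 28014398107) (nat_lit 4) (nat_lit 5) (nat_lit 6) (nat_lit 4) (nat_lit 4) (nat_lit 4) (nat_lit 500) (nat_lit 367) (nat_lit 333)) (XT.nd (nat_lit 78) (nat_lit 0) (nat_lit 0) (XT.lf (nat_lit 0) (nat_lit 37479020964) (nat_lit 152) (nat_lit 28115497571) (nat_lit 0) (nat_lit 35076365750)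 (nat_lit 4) (nat_lit 5) (nat_lit 6) (nat_lit 4) (nat_lit 4) (nat_lit 4) (nat_lit 501) (nat_lit 367) (nat_lit 332)) (XT.lf (nat_lit 0) (nat_lit 44848271805) (nat_lit 152) (nat_lit 18153672310) (nat_lit 0) (nat_lit 42420281834) (nat_lit 4) (nat_lit 5) (nat_lit 6) (nat_lit 4) (nat_lit 4) (nat_lit 4) (nat_lit 502) (nat_lit 367) (nat_lit 331)))) (XT.nd (nat_lit 156) (nat_lit 0) (nat_lit 0) (XT.nd (nat_lit 78) (nat_lit 76) (nat_lit 0) (XT.lf (nat_lit 0) (nat_lit 52515750183) (nat_lit 152) (nat_lit 7835265647) (nat_lit 0) (nat_lit 50063631872) (nat_lit 4) (nat_lit 5) (nat_lit 6) (nat_lit 4) (nat_lit 4) (nat_lit 4) (nat_lit 503) (nat_lit 367) (nat_lit 330)) (XT.lf (nat_lit 0) (nat_lit 2958996419) (nat_lit 76) (nat_lit 57586913807) (nat_lit 76) (nat_lit 55111816124) (nat_lit 3) (nat_lit 4) (nat_lit 4) (nat_lit 5) (nat_lit 4) (nat_lit 4) (nat_lit 504) (nat_lit 367) (nat_lit 329))) (XT.nd (nat_lit 78)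 (nat_lit 0) (nat_lit 0) (XT.lf (nat_lit 0) (nat_lit 14432396756) (nat_lit 76) (nat_lit 54612100092) (nat_lit 76) (nat_lit 52115117293) (nat_lit 3) (nat_lit 4) (nat_lit 4) (nat_lit 5) (nat_lit 4) (nat_lit 4) (nat_lit 505) (nat_lit 367) (nat_lit 328)) (XT.lf (nat_lit 0) (nat_lit 26353183716) (nat_lit 76) (nat_lit 51552185810) (nat_lit 76) (nat_lit 49034360044) (nat_lit 3) (nat_lit 4) (nat_lit 4) (nat_lit 5) (nat_lit 4) (nat_lit 4) (nat_lit 506) (nat_lit 367) (nat_lit 327))))) (XT.nd (nat_lit 234) (nat_lit 0) (nat_lit 0) (XT.nd (nat_lit 78) (nat_lit 0) (nat_lit 0) (XT.lf (nat_lit 0) (nat_lit 38749740123) (nat_lit 76) (nat_lit 48399885452) (nat_lit 76) (nat_lit 45862209241) (nat_lit 3) (nat_lit 4) (nat_lit 4) (nat_lit 5) (nat_lit 4) (nat_lit 4) (nat_lit 507) (nat_lit 367) (nat_lit 326)) (XT.nd (nat_lit 78) (nat_lit 0) (nat_lit 0) (XT.lf (nat_lit 0) (nat_lit 51651581590) (nat_lit 76) (nat_lit 45147693540)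 (nat_lit 76) (nat_lit 42591112143) (nat_lit 3) (nat_lit 4) (nat_lit 4) (nat_lit 5) (nat_lit 4) (nat_lit 4) (nat_lit 508) (nat_lit 367) (nat_lit 325)) (XT.lf (nat_lit 0) (nat_lit 65089426786) (nat_lit 76) (nat_lit 41787866760) (nat_lit 76) (nat_lit 39213280424) (nat_lit 3) (nat_lit 4) (nat_lit 4) (nat_lit 5) (nat_lit 4) (nat_lit 4) (nat_lit 509) (nat_lit 367) (nat_lit 324)))) (XT.nd (nat_lit 156) (nat_lit 0) (nat_lit 0) (XT.nd (nat_lit 78) (nat_lit 0) (nat_lit 0) (XT.lf (nat_lit 0) (nat_lit 79095270581) (nat_lit 76) (nat_lit 38312405525) (nat_lit 76) (nat_lit 35720671628) (nat_lit 3) (nat_lit 4) (nat_lit 4) (nat_lit 5) (nat_lit 4) (nat_lit 4) (nat_lit 510) (nat_lit 367) (nat_lit 323)) (XT.lf (nat_lit 0) (nat_lit 93702460221) (nat_lit 76) (nat_lit 34713034927) (nat_lit 76) (nat_lit 32104970019) (nat_lit 3) (nat_lit 4) (nat_lit 4) (nat_lit 5) (nat_lit 4) (nat_lit 4) (nat_lit 511) (nat_lit 367)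 (nat_lit 322))) (XT.nd (nat_lit 78) (nat_lit 0) (nat_lit 0) (XT.lf (nat_lit 0) (nat_lit 108945774731) (nat_lit 76) (nat_lit 30981185035) (nat_lit 76) (nat_lit 28357566785) (nat_lit 3) (nat_lit 4) (nat_lit 4) (nat_lit 5) (nat_lit 4) (nat_lit 4) (nat_lit 512) (nat_lit 367) (nat_lit 321)) (XT.lf (nat_lit 0) (nat_lit 124861507715) (nat_lit 76) (nat_lit 27107970494) (nat_lit 76) (nat_lit 24469539535) (nat_lit 3) (nat_lit 4) (nat_lit 4) (nat_lit 5) (nat_lit 4) (nat_lit 4) (nat_lit 513) (nat_lit 367) (nat_lit 320)))))) (XT.nd (nat_lit 546) (nat_lit 0) (nat_lit 0) (XT.nd (nat_lit 234) (nat_lit 152) (nat_lit 0) (XT.nd (nat_lit 78) (nat_lit 0) (nat_lit 0) (XT.lf (nat_lit 0) (nat_lit 141487553776) (nat_lit 76) (nat_lit 23084169363) (nat_lit 76) (nat_lit 20431631064) (nat_lit 3) (nat_lit 4) (nat_lit 4) (nat_lit 5) (nat_lit 4) (nat_lit 4) (nat_lit 514) (nat_lit 367) (nat_lit 319)) (XT.nd (nat_lit 78) (nat_lit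 0) (nat_lit 0) (XT.lf (nat_lit 0) (nat_lit 158863498738) (nat_lit 76) (nat_lit 18900201165) (nat_lit 76) (nat_lit 16234227302) (nat_lit 3) (nat_lit 4) (nat_lit 4) (nat_lit 5) (nat_lit 4) (nat_lit 4) (nat_lit 515) (nat_lit 367) (nat_lit 318)) (XT.lf (nat_lit 0) (nat_lit 177030713898) (nat_lit 76) (nat_lit 14546104068) (nat_lit 76) (nat_lit 11867334432) (nat_lit 3) (nat_lit 4) (nat_lit 4) (nat_lit 5) (nat_lit 4) (nat_lit 4) (nat_lit 516) (nat_lit 367) (nat_lit 317)))) (XT.nd (nat_lit 156) (nat_lit 152) (nat_lit 0) (XT.nd (nat_lit 78) (nat_lit 0) (nat_lit 0) (XT.lf (nat_lit 0) (nat_lit 196032454531) (nat_lit 76) (nat_lit 10011511177) (nat_lit 76) (nat_lit 7320555089) (nat_lit 3) (nat_lit 4) (nat_lit 4) (nat_lit 5) (nat_lit 4) (nat_lit 4) (nat_lit 517) (nat_lit 367) (nat_lit 316)) (XT.lf (nat_lit 0) (nat_lit 215913962877) (nat_lit 76) (nat_lit 5285625841) (nat_lit 76) (nat_lit 2583063609) (nat_lit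 3) (nat_lit 4) (nat_lit 4) (nat_lit 5) (nat_lit 4) (nat_lit 4) (nat_lit 518) (nat_lit 367) (nat_lit 315))) (XT.nd (nat_lit 78) (nat_lit 0) (nat_lit 0) (XT.lf (nat_lit 0) (nat_lit 2027320395) (nat_lit 76) (nat_lit 285331359) (nat_lit 152) (nat_lit 232407278184) (nat_lit 1) (nat_lit 5) (nat_lit 2) (nat_lit 5) (nat_lit 3) (nat_lit 4) (nat_lit 519) (nat_lit 367) (nat_lit 314)) (XT.lf (nat_lit 0) (nat_lit 7545575190) (nat_lit 152) (nat_lit 233696264528) (nat_lit 0) (nat_lit 4951153459) (nat_lit 1) (nat_lit 5) (nat_lit 3) (nat_lit 4) (nat_lit 1) (nat_lit 4) (nat_lit 520) (nat_lit 367) (nat_lit 313))))) (XT.nd (nat_lit 234) (nat_lit 0) (nat_lit 0) (XT.nd (nat_lit 78) (nat_lit 0) (nat_lit 0) (XT.lf (nat_lit 0) (nat_lit 13012696936) (nat_lit 152) (nat_lit 234819658729) (nat_lit 0) (nat_lit 10408726802) (nat_lit 1) (nat_lit 5) (nat_lit 3) (nat_lit 4) (nat_lit 1) (nat_lit 4) (nat_lit 521) (nat_lit 367)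 (nat_lit 312)) (XT.nd (nat_lit 78) (nat_lit 0) (nat_lit 0) (XT.lf (nat_lit 0) (nat_lit 18722579128) (nat_lit 152) (nat_lit 236061012072) (nat_lit 0) (nat_lit 16109515276) (nat_lit 1) (nat_lit 5) (nat_lit 3) (nat_lit 4) (nat_lit 1) (nat_lit 4) (nat_lit 522) (nat_lit 367) (nat_lit 311)) (XT.lf (nat_lit 0) (nat_lit 24688816724) (nat_lit 152) (nat_lit 237423280161) (nat_lit 0) (nat_lit 22067092188) (nat_lit 1) (nat_lit 5) (nat_lit 3) (nat_lit 4) (nat_lit 1) (nat_lit 4) (nat_lit 523) (nat_lit 367) (nat_lit 310)))) (XT.nd (nat_lit 156) (nat_lit 0) (nat_lit 0) (XT.nd (nat_lit 78) (nat_lit 0) (nat_lit 0) (XT.lf (nat_lit 0) (nat_lit 30925615050) (nat_lit 152) (nat_lit 238909706492) (nat_lit 0) (nat_lit 28295642244) (nat_lit 1) (nat_lit 5) (nat_lit 3) (nat_lit 4) (nat_lit 1) (nat_lit 4) (nat_lit 524) (nat_lit 367) (nat_lit 309)) (XT.lf (nat_lit 0) (nat_lit 37447823627) (nat_lit 152) (nat_lit 240523830174)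 (nat_lit 0) (nat_lit 34809995326) (nat_lit 1) (nat_lit 5) (nat_lit 3) (nat_lit 4) (nat_lit 1) (nat_lit 4) (nat_lit 525) (nat_lit 367) (nat_lit 308))) (XT.nd (nat_lit 78) (nat_lit 0) (nat_lit 0) (XT.lf (nat_lit 0) (nat_lit 44270971522) (nat_lit 152) (nat_lit 242269494360) (nat_lit 0) (nat_lit 41625661797) (nat_lit 1) (nat_lit 5) (nat_lit 3) (nat_lit 4) (nat_lit 1) (nat_lit 4) (nat_lit 526) (nat_lit 367) (nat_lit 307)) (XT.lf (nat_lit 0) (nat_lit 51411304327) (nat_lit 152) (nat_lit 244150855392) (nat_lit 0) (nat_lit 48758869436) (nat_lit 1) (nat_lit 5) (nat_lit 3) (nat_lit 4) (nat_lit 1) (nat_lit 4) (nat_lit 527) (nat_lit 367) (nat_lit 306))))))) (XT.nd (nat_lit 1092) (nat_lit 0) (nat_lit 0) (XT.nd (nat_lit 546) (nat_lit 0) (nat_lit 0) (XT.nd (nat_lit 234) (nat_lit 0) (nat_lit 0) (XT.nd (nat_lit 78) (nat_lit 0) (nat_lit 0) (XT.lf (nat_lit 0) (nat_lit 58885822832) (nat_lit 152) (nat_lit 246172392701)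 (nat_lit 0) (nat_lit 56226602070) (nat_lit 1) (nat_lit 5) (nat_lit 3) (nat_lit 4) (nat_lit 1) (nat_lit 4) (nat_lit 528) (nat_lit 367) (nat_lit 305)) (XT.nd (nat_lit 78) (nat_lit 0) (nat_lit 0) (XT.lf (nat_lit 0) (nat_lit 66712323512) (nat_lit 152) (nat_lit 248338919472) (nat_lit 0) (nat_lit 64046640014) (nat_lit 1) (nat_lit 5) (nat_lit 3) (nat_lit 4) (nat_lit 1) (nat_lit 4) (nat_lit 529) (nat_lit 367) (nat_lit 304)) (XT.lf (nat_lit 0) (nat_lit 74909440891) (nat_lit 152) (nat_lit 250655594102) (nat_lit 0) (nat_lit 72237602407) (nat_lit 1) (nat_lit 5) (nat_lit 3) (nat_lit 4) (nat_lit 1) (nat_lit 4) (nat_lit 530) (nat_lit 367) (nat_lit 303)))) (XT.nd (nat_lit 156) (nat_lit 0) (nat_lit 0) (XT.nd (nat_lit 78) (nat_lit 0) (nat_lit 0) (XT.lf (nat_lit 0) (nat_lit 83496691916) (nat_lit 152) (nat_lit 253127932482) (nat_lit 0) (nat_lit 80818991540) (nat_lit 1) (nat_lit 5) (nat_lit 3) (nat_lit 4) (nat_lit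 1) (nat_lit 4) (nat_lit 531) (nat_lit 367) (nat_lit 302)) (XT.lf (nat_lit 0) (nat_lit 92494522422) (nat_lit 152) (nat_lit 255761821133) (nat_lit 0) (nat_lit 89811239292) (nat_lit 1) (nat_lit 5) (nat_lit 3) (nat_lit 4) (nat_lit 1) (nat_lit 4) (nat_lit 532) (nat_lit 367) (nat_lit 301))) (XT.nd (nat_lit 78) (nat_lit 0) (nat_lit 0) (XT.lf (nat_lit 0) (nat_lit 101924355815) (nat_lit 152) (nat_lit 258563531219) (nat_lit 0) (nat_lit 99235755777) (nat_lit 1) (nat_lit 5) (nat_lit 3) (nat_lit 4) (nat_lit 1) (nat_lit 4) (nat_lit 533) (nat_lit 367) (nat_lit 300)) (XT.lf (nat_lit 0) (nat_lit 111808644079) (nat_lit 152) (nat_lit 261539733476) (nat_lit 0) (nat_lit 109114980319) (nat_lit 1) (nat_lit 5) (nat_lit 3) (nat_lit 4) (nat_lit 1) (nat_lit 4) (nat_lit 534) (nat_lit 367) (nat_lit 299))))) (XT.nd (nat_lit 234) (nat_lit 0) (nat_lit 0) (XT.nd (nat_lit 78) (nat_lit 0) (nat_lit 0) (XT.lf (nat_lit 0) (nat_lit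 122170921235) (nat_lit 152) (nat_lit 264697514102) (nat_lit 0) (nat_lit 119472434883) (nat_lit 1) (nat_lit 5) (nat_lit 3) (nat_lit 4) (nat_lit 1) (nat_lit 4) (nat_lit 535) (nat_lit 367) (nat_lit 298)) (XT.nd (nat_lit 78) (nat_lit 0) (nat_lit 0) (XT.lf (nat_lit 0) (nat_lit 133035859371) (nat_lit 152) (nat_lit 268044391621) (nat_lit 0) (nat_lit 130332780073) (nat_lit 1) (nat_lit 5) (nat_lit 3) (nat_lit 4) (nat_lit 1) (nat_lit 4) (nat_lit 536) (nat_lit 367) (nat_lit 297)) (XT.lf (nat_lit 0) (nat_lit 144429327386) (nat_lit 152) (nat_lit 271588334790) (nat_lit 0) (nat_lit 141721873854) (nat_lit 1) (nat_lit 5) (nat_lit 3) (nat_lit 4) (nat_lit 1) (nat_lit 4) (nat_lit 537) (nat_lit 367) (nat_lit 296)))) (XT.nd (nat_lit 156) (nat_lit 0) (nat_lit 0) (XT.nd (nat_lit 78) (nat_lit 0) (nat_lit 0) (XT.lf (nat_lit 0) (nat_lit 156378452586) (nat_lit 152) (nat_lit 275337781568) (nat_lit 0) (nat_lit 153666833118)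 (nat_lit 1) (nat_lit 5) (nat_lit 3) (nat_lit 4) (nat_lit 1) (nat_lit 4) (nat_lit 538) (nat_lit 367) (nat_lit 295)) (XT.lf (nat_lit 0) (nat_lit 168911685270) (nat_lit 152) (nat_lit 279301659210) (nat_lit 0) (nat_lit 166196098242) (nat_lit 1) (nat_lit 5) (nat_lit 3) (nat_lit 4) (nat_lit 1) (nat_lit 4) (nat_lit 539) (nat_lit 367) (nat_lit 294))) (XT.nd (nat_lit 78) (nat_lit 0) (nat_lit 0) (XT.lf (nat_lit 0) (nat_lit 182058866466) (nat_lit 152) (nat_lit 283489405520) (nat_lit 0) (nat_lit 179339500811) (nat_lit 1) (nat_lit 5) (nat_lit 3) (nat_lit 4) (nat_lit 1) (nat_lit 4) (nat_lit 540) (nat_lit 367) (nat_lit 293)) (XT.lf (nat_lit 0) (nat_lit 195851298988) (nat_lit 152) (nat_lit 287910991321) (nat_lit 0) (nat_lit 193128334640) (nat_lit 1) (nat_lit 5) (nat_lit 3) (nat_lit 4) (nat_lit 1) (nat_lit 4) (nat_lit 541) (nat_lit 367) (nat_lit 292)))))) (XT.nd (nat_lit 56550) (nat_lit 0) (nat_lit 1064) (XT.nd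 (nat_lit 234) (nat_lit 0) (nat_lit 0) (XT.nd (nat_lit 78) (nat_lit 0) (nat_lit 0) (XT.lf (nat_lit 0) (nat_lit 210321821960) (nat_lit 152) (nat_lit 292576944200) (nat_lit 0) (nat_lit 207595430285) (nat_lit 1) (nat_lit 5) (nat_lit 3) (nat_lit 4) (nat_lit 1) (nat_lit 4) (nat_lit 542) (nat_lit 367) (nat_lit 291)) (XT.nd (nat_lit 78) (nat_lit 0) (nat_lit 0) (XT.lf (nat_lit 0) (nat_lit 225504889008) (nat_lit 152) (nat_lit 297498373568) (nat_lit 0) (nat_lit 222775233213) (nat_lit 1) (nat_lit 5) (nat_lit 3) (nat_lit 4) (nat_lit 1) (nat_lit 4) (nat_lit 543) (nat_lit 367) (nat_lit 290)) (XT.lf (nat_lit 0) (nat_lit 241436650294) (nat_lit 152) (nat_lit 302686997114) (nat_lit 0) (nat_lit 238703885812) (nat_lit 1) (nat_lit 5) (nat_lit 3) (nat_lit 4) (nat_lit 1) (nat_lit 4) (nat_lit 544) (nat_lit 367) (nat_lit 289)))) (XT.nd (nat_lit 56160) (nat_lit 0) (nat_lit 1520) (XT.nd (nat_lit 78) (nat_lit 0) (nat_lit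 0) (XT.lf (nat_lit 0) (nat_lit 258155038580) (nat_lit 152) (nat_lit 308155168704) (nat_lit 0) (nat_lit 255419313445) (nat_lit 1) (nat_lit 5) (nat_lit 3) (nat_lit 4) (nat_lit 1) (nat_lit 4) (nat_lit 545) (nat_lit 367) (nat_lit 288)) (XT.lf (nat_lit 0) (nat_lit 275699859554) (nat_lit 152) (nat_lit 313915907793) (nat_lit 0) (nat_lit 272961314749) (nat_lit 1) (nat_lit 5) (nat_lit 3) (nat_lit 4) (nat_lit 1) (nat_lit 4) (nat_lit 546) (nat_lit 367) (nat_lit 287))) (XT.nd (nat_lit 78) (nat_lit 76) (nat_lit 0) (XT.lf (nat_lit 0) (nat_lit 4044248028) (nat_lit 152) (nat_lit 3096624602) (nat_lit 0) (nat_lit 4044248028) (nat_lit 22) (nat_lit 5) (nat_lit 24) (nat_lit 4) (nat_lit 22) (nat_lit 4) (nat_lit 464) (nat_lit 368) (nat_lit 368)) (XT.lf (nat_lit 0) (nat_lit 8131104701) (nat_lit 76) (nat_lit 7591094880) (nat_lit 76) (nat_lit 7394456943) (nat_lit 21) (nat_lit 4) (nat_lit 22) (nat_lit 5) (nat_lit 22)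 (nat_lit 4) (nat_lit 465) (nat_lit 368) (nat_lit 367))))) (XT.nd (nat_lit 312) (nat_lit 228) (nat_lit 0) (XT.nd (nat_lit 156) (nat_lit 76) (nat_lit 0) (XT.nd (nat_lit 78) (nat_lit 152) (nat_lit 0) (XT.lf (nat_lit 0) (nat_lit 22919095686) (nat_lit 76) (nat_lit 685923582) (nat_lit 76) (nat_lit 302011420) (nat_lit 21) (nat_lit 4) (nat_lit 22) (nat_lit 5) (nat_lit 22) (nat_lit 4) (nat_lit 466) (nat_lit 368) (nat_lit 366)) (XT.lf (nat_lit 0) (nat_lit 7002835525) (nat_lit 152) (nat_lit 11256854223) (nat_lit 0) (nat_lit 6467341652) (nat_lit 19) (nat_lit 5) (nat_lit 21) (nat_lit 4) (nat_lit 19) (nat_lit 4) (nat_lit 467) (nat_lit 368) (nat_lit 365))) (XT.nd (nat_lit 78) (nat_lit 0) (nat_lit 0) (XT.lf (nat_lit 0) (nat_lit 2715227960) (nat_lit 76) (nat_lit 11788883322) (nat_lit 76) (nat_lit 11091614932) (nat_lit 18) (nat_lit 4) (nat_lit 19) (nat_lit 5) (nat_lit 19) (nat_lit 4) (nat_lit 468) (nat_lit 368)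 (nat_lit 364)) (XT.lf (nat_lit 0) (nat_lit 17330536800) (nat_lit 76) (nat_lit 5015200998) (nat_lit 76) (nat_lit 4163861639) (nat_lit 18) (nat_lit 4) (nat_lit 19) (nat_lit 5) (nat_lit 19) (nat_lit 4) (nat_lit 469) (nat_lit 368) (nat_lit 363)))) (XT.nd (nat_lit 156) (nat_lit 76) (nat_lit 0) (XT.nd (nat_lit 78) (nat_lit 0) (nat_lit 0) (XT.lf (nat_lit 0) (nat_lit 2900267535) (nat_lit 152) (nat_lit 22622279983) (nat_lit 0) (nat_lit 1949721236) (nat_lit 16) (nat_lit 5) (nat_lit 18) (nat_lit 4) (nat_lit 16) (nat_lit 4) (nat_lit 470) (nat_lit 368) (nat_lit 362)) (XT.lf (nat_lit 0) (nat_lit 10200197262) (nat_lit 152) (nat_lit 9161783174) (nat_lit 0) (nat_lit 9116558667) (nat_lit 16) (nat_lit 5) (nat_lit 18) (nat_lit 4) (nat_lit 16) (nat_lit 4) (nat_lit 471) (nat_lit 368) (nat_lit 361))) (XT.nd (nat_lit 78) (nat_lit 0) (nat_lit 0) (XT.lf (nat_lit 0) (nat_lit 4710475999) (nat_lit 76) (nat_lit 13020867854)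 (nat_lit 76) (nat_lit 11810474692) (nat_lit 15) (nat_lit 4) (nat_lit 16) (nat_lit 5) (nat_lit 16) (nat_lit 4) (nat_lit 472) (nat_lit 368) (nat_lit 360)) (XT.lf (nat_lit 0) (nat_lit 19189043028) (nat_lit 76) (nat_lit 6401384023) (nat_lit 76) (nat_lit 5070272226) (nat_lit 15) (nat_lit 4) (nat_lit 16) (nat_lit 5) (nat_lit 16) (nat_lit 4) (nat_lit 473) (nat_lit 368) (nat_lit 359))))))))
noncomputable def xc30 : XT := (XT.nd (nat_lit 2184) (nat_lit 228) (nat_lit 0) (XT.nd (nat_lit 1092) (nat_lit 228) (nat_lit 0) (XT.nd (nat_lit 546) (nat_lit 228) (nat_lit 0) (XT.nd (nat_lit 234) (nat_lit 228) (nat_lit 0) (XT.nd (nat_lit 78) (nat_lit 0) (nat_lit 0) (XT.lf (nat_lit 0) (nat_lit 1786430683) (nat_lit 152) (nat_lit 29646136314) (nat_lit 0) (nat_lit 409209801) (nat_lit 13) (nat_lit 5) (nat_lit 15) (nat_lit 4) (nat_lit 13) (nat_lit 4) (nat_lit 474) (nat_lit 368) (nat_lit 358)) (XT.nd (nat_lit 78) (nat_lit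 0) (nat_lit 0) (XT.lf (nat_lit 0) (nat_lit 8921073702) (nat_lit 152) (nat_lit 16711837465) (nat_lit 0) (nat_lit 7439571524) (nat_lit 13) (nat_lit 5) (nat_lit 15) (nat_lit 4) (nat_lit 13) (nat_lit 4) (nat_lit 475) (nat_lit 368) (nat_lit 357)) (XT.lf (nat_lit 0) (nat_lit 16224920969) (nat_lit 152) (nat_lit 3505081202) (nat_lit 0) (nat_lit 14644103270) (nat_lit 13) (nat_lit 5) (nat_lit 15) (nat_lit 4) (nat_lit 13) (nat_lit 4) (nat_lit 476) (nat_lit 368) (nat_lit 356)))) (XT.nd (nat_lit 156) (nat_lit 152) (nat_lit 0) (XT.nd (nat_lit 78) (nat_lit 0) (nat_lit 0) (XT.lf (nat_lit 0) (nat_lit 10336406699) (nat_lit 76) (nat_lit 13540336173) (nat_lit 76) (nat_lit 11864932265) (nat_lit 12) (nat_lit 4) (nat_lit 13) (nat_lit 5) (nat_lit 13) (nat_lit 4) (nat_lit 477) (nat_lit 368) (nat_lit 355)) (XT.lf (nat_lit 0) (nat_lit 24640970722) (nat_lit 76) (nat_lit 7153976855) (nat_lit 76) (nat_lit 5388490842) (nat_lit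 12) (nat_lit 4) (nat_lit 13) (nat_lit 5) (nat_lit 13) (nat_lit 4) (nat_lit 478) (nat_lit 368) (nat_lit 354))) (XT.nd (nat_lit 78) (nat_lit 0) (nat_lit 0) (XT.lf (nat_lit 0) (nat_lit 621719156) (nat_lit 76) (nat_lit 584621160) (nat_lit 152) (nat_lit 37497864054) (nat_lit 10) (nat_lit 5) (nat_lit 11) (nat_lit 5) (nat_lit 12) (nat_lit 4) (nat_lit 479) (nat_lit 368) (nat_lit 353)) (XT.lf (nat_lit 0) (nat_lit 8094600604) (nat_lit 152) (nat_lit 25941094535) (nat_lit 0) (nat_lit 6253661922) (nat_lit 10) (nat_lit 5) (nat_lit 12) (nat_lit 4) (nat_lit 10) (nat_lit 4) (nat_lit 480) (nat_lit 368) (nat_lit 352))))) (XT.nd (nat_lit 234) (nat_lit 152) (nat_lit 0) (XT.nd (nat_lit 78) (nat_lit 76) (nat_lit 0) (XT.lf (nat_lit 0) (nat_lit 15175252604) (nat_lit 152) (nat_lit 13525916553) (nat_lit 0) (nat_lit 13260203151) (nat_lit 10) (nat_lit 5) (nat_lit 12) (nat_lit 4) (nat_lit 10) (nat_lit 4) (nat_lit 481) (nat_lit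 368) (nat_lit 351)) (XT.nd (nat_lit 78) (nat_lit 76) (nat_lit 0) (XT.lf (nat_lit 0) (nat_lit 22456027435) (nat_lit 152) (nat_lit 798263747) (nat_lit 0) (nat_lit 20470396296) (nat_lit 10) (nat_lit 5) (nat_lit 12) (nat_lit 4) (nat_lit 10) (nat_lit 4) (nat_lit 482) (nat_lit 368) (nat_lit 350)) (XT.lf (nat_lit 0) (nat_lit 12677941110) (nat_lit 76) (nat_lit 17474257357) (nat_lit 76) (nat_lit 15421405565) (nat_lit 9) (nat_lit 4) (nat_lit 10) (nat_lit 5) (nat_lit 10) (nat_lit 4) (nat_lit 483) (nat_lit 368) (nat_lit 349)))) (XT.nd (nat_lit 156) (nat_lit 152) (nat_lit 0) (XT.nd (nat_lit 78) (nat_lit 0) (nat_lit 0) (XT.lf (nat_lit 0) (nat_lit 26566801791) (nat_lit 76) (nat_lit 11535784501) (nat_lit 76) (nat_lit 9418913039) (nat_lit 9) (nat_lit 4) (nat_lit 10) (nat_lit 5) (nat_lit 10) (nat_lit 4) (nat_lit 484) (nat_lit 368) (nat_lit 348)) (XT.lf (nat_lit 0) (nat_lit 40874992807) (nat_lit 76) (nat_lit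 5438252377) (nat_lit 76) (nat_lit 3260409801) (nat_lit 9) (nat_lit 4) (nat_lit 10) (nat_lit 5) (nat_lit 10) (nat_lit 4) (nat_lit 485) (nat_lit 368) (nat_lit 347))) (XT.nd (nat_lit 78) (nat_lit 0) (nat_lit 0) (XT.lf (nat_lit 0) (nat_lit 3047511819) (nat_lit 152) (nat_lit 47763128007) (nat_lit 0) (nat_lit 918073434) (nat_lit 7) (nat_lit 5) (nat_lit 9) (nat_lit 4) (nat_lit 7) (nat_lit 4) (nat_lit 486) (nat_lit 368) (nat_lit 346)) (XT.lf (nat_lit 0) (nat_lit 9667464102) (nat_lit 152) (nat_lit 36830723756) (nat_lit 0) (nat_lit 7485356577) (nat_lit 7) (nat_lit 5) (nat_lit 9) (nat_lit 4) (nat_lit 7) (nat_lit 4) (nat_lit 487) (nat_lit 368) (nat_lit 345)))))) (XT.nd (nat_lit 546) (nat_lit 152) (nat_lit 0) (XT.nd (nat_lit 234) (nat_lit 76) (nat_lit 0) (XT.nd (nat_lit 78) (nat_lit 0) (nat_lit 0) (XT.lf (nat_lit 0) (nat_lit 16492054935) (nat_lit 152) (nat_lit 25605596474) (nat_lit 0) (nat_lit 14259786324)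 (nat_lit 7) (nat_lit 5) (nat_lit 9) (nat_lit 4) (nat_lit 7) (nat_lit 4) (nat_lit 488) (nat_lit 368) (nat_lit 344)) (XT.nd (nat_lit 78) (nat_lit 0) (nat_lit 0) (XT.lf (nat_lit 0) (nat_lit 23537533344) (nat_lit 152) (nat_lit 14061019667) (nat_lit 0) (nat_lit 21257492269) (nat_lit 7) (nat_lit 5) (nat_lit 9) (nat_lit 4) (nat_lit 7) (nat_lit 4) (nat_lit 489) (nat_lit 368) (nat_lit 343)) (XT.lf (nat_lit 0) (nat_lit 30820674276) (nat_lit 152) (nat_lit 2169506247) (nat_lit 0) (nat_lit 28495135617) (nat_lit 7) (nat_lit 5) (nat_lit 9) (nat_lit 4) (nat_lit 7) (nat_lit 4) (nat_lit 490) (nat_lit 368) (nat_lit 342)))) (XT.nd (nat_lit 156) (nat_lit 0) (nat_lit 0) (XT.nd (nat_lit 78) (nat_lit 0) (nat_lit 0) (XT.lf (nat_lit 0) (nat_lit 10431117826) (nat_lit 76) (nat_lit 28090559700) (nat_lit 76) (nat_lit 25721690009) (nat_lit 6) (nat_lit 4) (nat_lit 7) (nat_lit 5) (nat_lit 7) (nat_lit 4) (nat_lit 491) (nat_lit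 368) (nat_lit 341)) (XT.lf (nat_lit 0) (nat_lit 23521305045) (nat_lit 76) (nat_lit 23015842555) (nat_lit 76) (nat_lit 20605705214) (nat_lit 6) (nat_lit 4) (nat_lit 7) (nat_lit 5) (nat_lit 7) (nat_lit 4) (nat_lit 492) (nat_lit 368) (nat_lit 340))) (XT.nd (nat_lit 78) (nat_lit 0) (nat_lit 0) (XT.lf (nat_lit 0) (nat_lit 37060488848) (nat_lit 76) (nat_lit 17790688066) (nat_lit 76) (nat_lit 15341248201) (nat_lit 6) (nat_lit 4) (nat_lit 7) (nat_lit 5) (nat_lit 7) (nat_lit 4) (nat_lit 493) (nat_lit 368) (nat_lit 339)) (XT.lf (nat_lit 0) (nat_lit 51080905386) (nat_lit 76) (nat_lit 12402655388) (nat_lit 76) (nat_lit 9915784548) (nat_lit 6) (nat_lit 4) (nat_lit 7) (nat_lit 5) (nat_lit 7) (nat_lit 4) (nat_lit 494) (nat_lit 368) (nat_lit 338))))) (XT.nd (nat_lit 234) (nat_lit 0) (nat_lit 0) (XT.nd (nat_lit 78) (nat_lit 152) (nat_lit 0) (XT.lf (nat_lit 0) (nat_lit 65615936605) (nat_lit 76) (nat_lit 6838915874)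 (nat_lit 76) (nat_lit 4316396486) (nat_lit 6) (nat_lit 4) (nat_lit 7) (nat_lit 5) (nat_lit 7) (nat_lit 4) (nat_lit 495) (nat_lit 368) (nat_lit 337)) (XT.nd (nat_lit 78) (nat_lit 0) (nat_lit 0) (XT.lf (nat_lit 0) (nat_lit 373009273) (nat_lit 76) (nat_lit 1056005194) (nat_lit 152) (nat_lit 78885710995) (nat_lit 4) (nat_lit 5) (nat_lit 5) (nat_lit 5) (nat_lit 6) (nat_lit 4) (nat_lit 496) (nat_lit 368) (nat_lit 336)) (XT.lf (nat_lit 0) (nat_lit 7497329388) (nat_lit 152) (nat_lit 71493674202) (nat_lit 0) (nat_lit 5031801132) (nat_lit 4) (nat_lit 5) (nat_lit 6) (nat_lit 4) (nat_lit 4) (nat_lit 4) (nat_lit 497) (nat_lit 368) (nat_lit 335)))) (XT.nd (nat_lit 156) (nat_lit 0) (nat_lit 0) (XT.nd (nat_lit 78) (nat_lit 0) (nat_lit 0) (XT.lf (nat_lit 0) (nat_lit 13801000529) (nat_lit 152) (nat_lit 62812547796) (nat_lit 0) (nat_lit 11306144124) (nat_lit 4) (nat_lit 5) (nat_lit 6) (nat_lit 4) (nat_lit 4)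 (nat_lit 4) (nat_lit 498) (nat_lit 368) (nat_lit 334)) (XT.lf (nat_lit 0) (nat_lit 20338549430) (nat_lit 152) (nat_lit 53861180420) (nat_lit 0) (nat_lit 17815761455) (nat_lit 4) (nat_lit 5) (nat_lit 6) (nat_lit 4) (nat_lit 4) (nat_lit 4) (nat_lit 499) (nat_lit 368) (nat_lit 333))) (XT.nd (nat_lit 78) (nat_lit 0) (nat_lit 0) (XT.lf (nat_lit 0) (nat_lit 27125541683) (nat_lit 152) (nat_lit 44618259295) (nat_lit 0) (nat_lit 24576152214) (nat_lit 4) (nat_lit 5) (nat_lit 6) (nat_lit 4) (nat_lit 4) (nat_lit 4) (nat_lit 500) (nat_lit 368) (nat_lit 332)) (XT.lf (nat_lit 0) (nat_lit 34178136795) (nat_lit 152) (nat_lit 35061777466) (nat_lit 0) (nat_lit 31603412568) (nat_lit 4) (nat_lit 5) (nat_lit 6) (nat_lit 4) (nat_lit 4) (nat_lit 4) (nat_lit 501) (nat_lit 368) (nat_lit 331))))))) (XT.nd (nat_lit 1092) (nat_lit 152) (nat_lit 0) (XT.nd (nat_lit 546) (nat_lit 0) (nat_lit 0) (XT.nd (nat_lit 234) (nat_lit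 76) (nat_lit 0) (XT.nd (nat_lit 78) (nat_lit 0) (nat_lit 0) (XT.lf (nat_lit 0) (nat_lit 41513126658) (nat_lit 152) (nat_lit 25168981406) (nat_lit 0) (nat_lit 38914274091) (nat_lit 4) (nat_lit 5) (nat_lit 6) (nat_lit 4) (nat_lit 4) (nat_lit 4) (nat_lit 502) (nat_lit 368) (nat_lit 330)) (XT.nd (nat_lit 78) (nat_lit 0) (nat_lit 0) (XT.lf (nat_lit 0) (nat_lit 49147975534) (nat_lit 152) (nat_lit 14916316837) (nat_lit 0) (nat_lit 46526143595) (nat_lit 4) (nat_lit 5) (nat_lit 6) (nat_lit 4) (nat_lit 4) (nat_lit 4) (nat_lit 503) (nat_lit 368) (nat_lit 329)) (XT.lf (nat_lit 0) (nat_lit 57100861634) (nat_lit 152) (nat_lit 4279372654) (nat_lit 0) (nat_lit 54457144580) (nat_lit 4) (nat_lit 5) (nat_lit 6) (nat_lit 4) (nat_lit 4) (nat_lit 4) (nat_lit 504) (nat_lit 368) (nat_lit 328)))) (XT.nd (nat_lit 156) (nat_lit 0) (nat_lit 0) (XT.nd (nat_lit 78) (nat_lit 0) (nat_lit 0) (XT.lf (nat_lit 0) (nat_lit 6990930640)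 (nat_lit 76) (nat_lit 58508937781) (nat_lit 76) (nat_lit 55844377759) (nat_lit 3) (nat_lit 4) (nat_lit 4) (nat_lit 5) (nat_lit 4) (nat_lit 4) (nat_lit 505) (nat_lit 368) (nat_lit 327)) (XT.lf (nat_lit 0) (nat_lit 18853049356) (nat_lit 76) (nat_lit 55478589176) (nat_lit 76) (nat_lit 52794178709) (nat_lit 3) (nat_lit 4) (nat_lit 4) (nat_lit 5) (nat_lit 4) (nat_lit 4) (nat_lit 506) (nat_lit 368) (nat_lit 326))) (XT.nd (nat_lit 78) (nat_lit 0) (nat_lit 0) (XT.lf (nat_lit 0) (nat_lit 31193731246) (nat_lit 76) (nat_lit 52354446605) (nat_lit 76) (nat_lit 49651130952) (nat_lit 3) (nat_lit 4) (nat_lit 4) (nat_lit 5) (nat_lit 4) (nat_lit 4) (nat_lit 507) (nat_lit 368) (nat_lit 325)) (XT.lf (nat_lit 0) (nat_lit 44042358886) (nat_lit 76) (nat_lit 49129071633) (nat_lit 76) (nat_lit 46407751041) (nat_lit 3) (nat_lit 4) (nat_lit 4) (nat_lit 5) (nat_lit 4) (nat_lit 4) (nat_lit 508) (nat_lit 368) (nat_lit 324)))))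 (XT.nd (nat_lit 234) (nat_lit 0) (nat_lit 0) (XT.nd (nat_lit 78) (nat_lit 0) (nat_lit 0) (XT.lf (nat_lit 0) (nat_lit 57429524247) (nat_lit 76) (nat_lit 45794784797) (nat_lit 76) (nat_lit 43056316644) (nat_lit 3) (nat_lit 4) (nat_lit 4) (nat_lit 5) (nat_lit 4) (nat_lit 4) (nat_lit 509) (nat_lit 368) (nat_lit 323)) (XT.nd (nat_lit 78) (nat_lit 0) (nat_lit 0) (XT.lf (nat_lit 0) (nat_lit 71387101533) (nat_lit 76) (nat_lit 42343647317) (nat_lit 76) (nat_lit 39588848154) (nat_lit 3) (nat_lit 4) (nat_lit 4) (nat_lit 5) (nat_lit 4) (nat_lit 4) (nat_lit 510) (nat_lit 368) (nat_lit 322)) (XT.lf (nat_lit 0) (nat_lit 85948323069) (nat_lit 76) (nat_lit 38767442200) (nat_lit 76) (nat_lit 35997089694) (nat_lit 3) (nat_lit 4) (nat_lit 4) (nat_lit 5) (nat_lit 4) (nat_lit 4) (nat_lit 511) (nat_lit 368) (nat_lit 321)))) (XT.nd (nat_lit 156) (nat_lit 0) (nat_lit 0) (XT.nd (nat_lit 78) (nat_lit 0) (nat_lit 0) (XT.lf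 (nat_lit 0) (nat_lit 101147858432) (nat_lit 76) (nat_lit 35057654672) (nat_lit 76) (nat_lit 32272489458) (nat_lit 3) (nat_lit 4) (nat_lit 4) (nat_lit 5) (nat_lit 4) (nat_lit 4) (nat_lit 512) (nat_lit 368) (nat_lit 320)) (XT.lf (nat_lit 0) (nat_lit 117021896990) (nat_lit 76) (nat_lit 31205451905) (nat_lit 76) (nat_lit 28406179350) (nat_lit 3) (nat_lit 4) (nat_lit 4) (nat_lit 5) (nat_lit 4) (nat_lit 4) (nat_lit 513) (nat_lit 368) (nat_lit 319))) (XT.nd (nat_lit 78) (nat_lit 0) (nat_lit 0) (XT.lf (nat_lit 0) (nat_lit 133608234075) (nat_lit 76) (nat_lit 27201661989) (nat_lit 76) (nat_lit 24388953871) (nat_lit 3) (nat_lit 4) (nat_lit 4) (nat_lit 5) (nat_lit 4) (nat_lit 4) (nat_lit 514) (nat_lit 368) (nat_lit 318)) (XT.lf (nat_lit 0) (nat_lit 150946360964) (nat_lit 76) (nat_lit 23036752088) (nat_lit 76) (nat_lit 20211248197) (nat_lit 3) (nat_lit 4) (nat_lit 4) (nat_lit 5) (nat_lit 4) (nat_lit 4)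 (nat_lit 515) (nat_lit 368) (nat_lit 317)))))) (XT.nd (nat_lit 546) (nat_lit 0) (nat_lit 0) (XT.nd (nat_lit 234) (nat_lit 152) (nat_lit 0) (XT.nd (nat_lit 78) (nat_lit 0) (nat_lit 0) (XT.lf (nat_lit 0) (nat_lit 169077558912) (nat_lit 76) (nat_lit 18700805753) (nat_lit 76) (nat_lit 15863115410) (nat_lit 3) (nat_lit 4) (nat_lit 4) (nat_lit 5) (nat_lit 4) (nat_lit 4) (nat_lit 516) (nat_lit 368) (nat_lit 316)) (XT.nd (nat_lit 78) (nat_lit 0) (nat_lit 0) (XT.lf (nat_lit 0) (nat_lit 188044997438) (nat_lit 76) (nat_lit 14183499301) (nat_lit 76) (nat_lit 11334202813) (nat_lit 3) (nat_lit 4) (nat_lit 4) (nat_lit 5) (nat_lit 4) (nat_lit 4) (nat_lit 517) (nat_lit 368) (nat_lit 315)) (XT.lf (nat_lit 0) (nat_lit 207893837111) (nat_lit 76) (nat_lit 9474077240) (nat_lit 76) (nat_lit 6613727281) (nat_lit 3) (nat_lit 4) (nat_lit 4) (nat_lit 5) (nat_lit 4) (nat_lit 4) (nat_lit 518) (nat_lit 368) (nat_lit 314))))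 (XT.nd (nat_lit 156) (nat_lit 0) (nat_lit 0) (XT.nd (nat_lit 78) (nat_lit 152) (nat_lit 0) (XT.lf (nat_lit 0) (nat_lit 228671337071) (nat_lit 76) (nat_lit 4561326660) (nat_lit 76) (nat_lit 1690449587) (nat_lit 3) (nat_lit 4) (nat_lit 4) (nat_lit 5) (nat_lit 4) (nat_lit 4) (nat_lit 519) (nat_lit 368) (nat_lit 313)) (XT.lf (nat_lit 0) (nat_lit 3411659447) (nat_lit 152) (nat_lit 242327140550) (nat_lit 0) (nat_lit 667942403) (nat_lit 1) (nat_lit 5) (nat_lit 3) (nat_lit 4) (nat_lit 1) (nat_lit 4) (nat_lit 520) (nat_lit 368) (nat_lit 312))) (XT.nd (nat_lit 78) (nat_lit 0) (nat_lit 0) (XT.lf (nat_lit 0) (nat_lit 8863856491) (nat_lit 152) (nat_lit 243480675937) (nat_lit 0) (nat_lit 6111045728) (nat_lit 1) (nat_lit 5) (nat_lit 3) (nat_lit 4) (nat_lit 1) (nat_lit 4) (nat_lit 521) (nat_lit 368) (nat_lit 311)) (XT.lf (nat_lit 0) (nat_lit 14559524680) (nat_lit 152) (nat_lit 244750735173) (nat_lit 0) (nat_lit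 11798053234) (nat_lit 1) (nat_lit 5) (nat_lit 3) (nat_lit 4) (nat_lit 1) (nat_lit 4) (nat_lit 522) (nat_lit 368) (nat_lit 310))))) (XT.nd (nat_lit 312) (nat_lit 0) (nat_lit 0) (XT.nd (nat_lit 156) (nat_lit 0) (nat_lit 0) (XT.nd (nat_lit 78) (nat_lit 0) (nat_lit 0) (XT.lf (nat_lit 0) (nat_lit 20512225129) (nat_lit 152) (nat_lit 246140342207) (nat_lit 0) (nat_lit 17742505413) (nat_lit 1) (nat_lit 5) (nat_lit 3) (nat_lit 4) (nat_lit 1) (nat_lit 4) (nat_lit 523) (nat_lit 368) (nat_lit 309)) (XT.lf (nat_lit 0) (nat_lit 26736130935) (nat_lit 152) (nat_lit 247652805628) (nat_lit 0) (nat_lit 23958555724) (nat_lit 1) (nat_lit 5) (nat_lit 3) (nat_lit 4) (nat_lit 1) (nat_lit 4) (nat_lit 524) (nat_lit 368) (nat_lit 308))) (XT.nd (nat_lit 78) (nat_lit 0) (nat_lit 0) (XT.lf (nat_lit 0) (nat_lit 33246060922) (nat_lit 152) (nat_lit 249291726539) (nat_lit 0) (nat_lit 30461004287) (nat_lit 1) (nat_lit 5) (nat_lit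 3) (nat_lit 4) (nat_lit 1) (nat_lit 4) (nat_lit 525) (nat_lit 368) (nat_lit 307)) (XT.lf (nat_lit 0) (nat_lit 40057514922) (nat_lit 152) (nat_lit 251061007132) (nat_lit 0) (nat_lit 37265333121) (nat_lit 1) (nat_lit 5) (nat_lit 3) (nat_lit 4) (nat_lit 1) (nat_lit 4) (nat_lit 526) (nat_lit 368) (nat_lit 306)))) (XT.nd (nat_lit 156) (nat_lit 0) (nat_lit 0) (XT.nd (nat_lit 78) (nat_lit 0) (nat_lit 0) (XT.lf (nat_lit 0) (nat_lit 47186710683) (nat_lit 152) (nat_lit 252964859982) (nat_lit 0) (nat_lit 44387743010) (nat_lit 1) (nat_lit 5) (nat_lit 3) (nat_lit 4) (nat_lit 1) (nat_lit 4) (nat_lit 527) (nat_lit 368) (nat_lit 305)) (XT.lf (nat_lit 0) (nat_lit 54650622481) (nat_lit 152) (nat_lit 255007818070) (nat_lit 0) (nat_lit 51845192072) (nat_lit 1) (nat_lit 5) (nat_lit 3) (nat_lit 4) (nat_lit 1) (nat_lit 4) (nat_lit 528) (nat_lit 368) (nat_lit 304))) (XT.nd (nat_lit 78) (nat_lit 0) (nat_lit 0) (XT.lf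 (nat_lit 0) (nat_lit 62467021534) (nat_lit 152) (nat_lit 257194745583) (nat_lit 0) (nat_lit 59655436139) (nat_lit 1) (nat_lit 5) (nat_lit 3) (nat_lit 4) (nat_lit 1) (nat_lit 4) (nat_lit 529) (nat_lit 368) (nat_lit 303)) (XT.lf (nat_lit 0) (nat_lit 70654518316) (nat_lit 152) (nat_lit 259530849490) (nat_lit 0) (nat_lit 67837071030) (nat_lit 1) (nat_lit 5) (nat_lit 3) (nat_lit 4) (nat_lit 1) (nat_lit 4) (nat_lit 530) (nat_lit 368) (nat_lit 302))))))))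
noncomputable def xc31 : XT := (XT.nd (nat_lit 58032) (nat_lit 0) (nat_lit 228) (XT.nd (nat_lit 1092) (nat_lit 0) (nat_lit 0) (XT.nd (nat_lit 546) (nat_lit 0) (nat_lit 0) (XT.nd (nat_lit 234) (nat_lit 0) (nat_lit 0) (XT.nd (nat_lit 78) (nat_lit 0) (nat_lit 0) (XT.lf (nat_lit 0) (nat_lit 79232606868) (nat_lit 152) (nat_lit 262021691944) (nat_lit 0) (nat_lit 76409576828) (nat_lit 1) (nat_lit 5) (nat_lit 3) (nat_lit 4) (nat_lit 1) (nat_lit 4) (nat_lit 531) (nat_lit 368) (nat_lit 301)) (XT.nd (nat_lit 78) (nat_lit 0) (nat_lit 0) (XT.lf (nat_lit 0) (nat_lit 88221711209) (nat_lit 152) (nat_lit 264673203523) (nat_lit 0) (nat_lit 85393364260) (nat_lit 1) (nat_lit 5) (nat_lit 3) (nat_lit 4) (nat_lit 1) (nat_lit 4) (nat_lit 532) (nat_lit 368) (nat_lit 300)) (XT.lf (nat_lit 0) (nat_lit 97643233968) (nat_lit 152) (nat_lit 267491697349) (nat_lit 0) (nat_lit 94809823298) (nat_lit 1) (nat_lit 5) (nat_lit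 3) (nat_lit 4) (nat_lit 1) (nat_lit 4) (nat_lit 533) (nat_lit 368) (nat_lit 299)))) (XT.nd (nat_lit 156) (nat_lit 0) (nat_lit 0) (XT.nd (nat_lit 78) (nat_lit 0) (nat_lit 0) (XT.lf (nat_lit 0) (nat_lit 107519607344) (nat_lit 152) (nat_lit 270483884121) (nat_lit 0) (nat_lit 104681374081) (nat_lit 1) (nat_lit 5) (nat_lit 3) (nat_lit 4) (nat_lit 1) (nat_lit 4) (nat_lit 534) (nat_lit 368) (nat_lit 298)) (XT.lf (nat_lit 0) (nat_lit 117874346511) (nat_lit 152) (nat_lit 273656888094) (nat_lit 0) (nat_lit 115031520302) (nat_lit 1) (nat_lit 5) (nat_lit 3) (nat_lit 4) (nat_lit 1) (nat_lit 4) (nat_lit 535) (nat_lit 368) (nat_lit 297))) (XT.nd (nat_lit 78) (nat_lit 0) (nat_lit 0) (XT.lf (nat_lit 0) (nat_lit 128732105609) (nat_lit 152) (nat_lit 277018264040) (nat_lit 0) (nat_lit 125884905167) (nat_lit 1) (nat_lit 5) (nat_lit 3) (nat_lit 4) (nat_lit 1) (nat_lit 4) (nat_lit 536) (nat_lit 368) (nat_lit 296))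 (XT.lf (nat_lit 0) (nat_lit 140118736446) (nat_lit 152) (nat_lit 280576015233) (nat_lit 0) (nat_lit 137267370067) (nat_lit 1) (nat_lit 5) (nat_lit 3) (nat_lit 4) (nat_lit 1) (nat_lit 4) (nat_lit 537) (nat_lit 368) (nat_lit 295))))) (XT.nd (nat_lit 234) (nat_lit 0) (nat_lit 0) (XT.nd (nat_lit 78) (nat_lit 0) (nat_lit 0) (XT.lf (nat_lit 0) (nat_lit 152061350047) (nat_lit 152) (nat_lit 284338612511) (nat_lit 0) (nat_lit 149206016110) (nat_lit 1) (nat_lit 5) (nat_lit 3) (nat_lit 4) (nat_lit 1) (nat_lit 4) (nat_lit 538) (nat_lit 368) (nat_lit 294)) (XT.nd (nat_lit 78) (nat_lit 0) (nat_lit 0) (XT.lf (nat_lit 0) (nat_lit 164588381208) (nat_lit 152) (nat_lit 288315014439) (nat_lit 0) (nat_lit 161729268643) (nat_lit 1) (nat_lit 5) (nat_lit 3) (nat_lit 4) (nat_lit 1) (nat_lit 4) (nat_lit 539) (nat_lit 368) (nat_lit 293)) (XT.lf (nat_lit 0) (nat_lit 177729656192) (nat_lit 152) (nat_lit 292514688640) (nat_lit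 0) (nat_lit 174866944934) (nat_lit 1) (nat_lit 5) (nat_lit 3) (nat_lit 4) (nat_lit 1) (nat_lit 4) (nat_lit 540) (nat_lit 368) (nat_lit 292)))) (XT.nd (nat_lit 156) (nat_lit 0) (nat_lit 0) (XT.nd (nat_lit 78) (nat_lit 0) (nat_lit 0) (XT.lf (nat_lit 0) (nat_lit 191516463750) (nat_lit 152) (nat_lit 296947634337) (nat_lit 0) (nat_lit 188650325166) (nat_lit 1) (nat_lit 5) (nat_lit 3) (nat_lit 4) (nat_lit 1) (nat_lit 4) (nat_lit 541) (nat_lit 368) (nat_lit 291)) (XT.lf (nat_lit 0) (nat_lit 205981629614) (nat_lit 152) (nat_lit 301624406165) (nat_lit 0) (nat_lit 203112226909) (nat_lit 1) (nat_lit 5) (nat_lit 3) (nat_lit 4) (nat_lit 1) (nat_lit 4) (nat_lit 542) (nat_lit 368) (nat_lit 290))) (XT.nd (nat_lit 78) (nat_lit 0) (nat_lit 0) (XT.lf (nat_lit 0) (nat_lit 221159594655) (nat_lit 152) (nat_lit 306556139294) (nat_lit 0) (nat_lit 218287083264) (nat_lit 1) (nat_lit 5) (nat_lit 3) (nat_lit 4) (nat_lit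 1) (nat_lit 4) (nat_lit 543) (nat_lit 368) (nat_lit 289)) (XT.lf (nat_lit 0) (nat_lit 237086496885) (nat_lit 152) (nat_lit 311754575946) (nat_lit 0) (nat_lit 234211024840) (nat_lit 1) (nat_lit 5) (nat_lit 3) (nat_lit 4) (nat_lit 1) (nat_lit 4) (nat_lit 544) (nat_lit 368) (nat_lit 288)))))) (XT.nd (nat_lit 56394) (nat_lit 0) (nat_lit 1064) (XT.nd (nat_lit 56082) (nat_lit 0) (nat_lit 1520) (XT.nd (nat_lit 78) (nat_lit 0) (nat_lit 0) (XT.lf (nat_lit 0) (nat_lit 253800257500) (nat_lit 152) (nat_lit 317232093350) (nat_lit 0) (nat_lit 250921965785) (nat_lit 1) (nat_lit 5) (nat_lit 3) (nat_lit 4) (nat_lit 1) (nat_lit 4) (nat_lit 545) (nat_lit 368) (nat_lit 287)) (XT.nd (nat_lit 55926) (nat_lit 0) (nat_lit 1748) (XT.lf (nat_lit 0) (nat_lit 271340671167) (nat_lit 152) (nat_lit 323001733215) (nat_lit 0) (nat_lit 268459694052) (nat_lit 1) (nat_lit 5) (nat_lit 3) (nat_lit 4) (nat_lit 1) (nat_lit 4) (nat_lit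 546) (nat_lit 368) (nat_lit 286)) (XT.lf (nat_lit 0) (nat_lit 4359743007) (nat_lit 76) (nat_lit 3064956656) (nat_lit 76) (nat_lit 3064956656) (nat_lit 24) (nat_lit 4) (nat_lit 25) (nat_lit 5) (nat_lit 25) (nat_lit 4) (nat_lit 462) (nat_lit 369) (nat_lit 369)))) (XT.nd (nat_lit 156) (nat_lit 76) (nat_lit 0) (XT.nd (nat_lit 78) (nat_lit 0) (nat_lit 0) (XT.lf (nat_lit 0) (nat_lit 915521981) (nat_lit 152) (nat_lit 20040267810) (nat_lit 0) (nat_lit 709052147) (nat_lit 22) (nat_lit 5) (nat_lit 24) (nat_lit 4) (nat_lit 22) (nat_lit 4) (nat_lit 463) (nat_lit 369) (nat_lit 368)) (XT.lf (nat_lit 0) (nat_lit 8177082031) (nat_lit 152) (nat_lit 6425084209) (nat_lit 0) (nat_lit 7773974261) (nat_lit 22) (nat_lit 5) (nat_lit 24) (nat_lit 4) (nat_lit 22) (nat_lit 4) (nat_lit 464) (nat_lit 369) (nat_lit 367))) (XT.nd (nat_lit 78) (nat_lit 0) (nat_lit 0) (XT.lf (nat_lit 0) (nat_lit 7663508456) (nat_lit 76) (nat_lit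 8027706271) (nat_lit 76) (nat_lit 7437324276) (nat_lit 21) (nat_lit 4) (nat_lit 22) (nat_lit 5) (nat_lit 22) (nat_lit 4) (nat_lit 465) (nat_lit 369) (nat_lit 366)) (XT.lf (nat_lit 0) (nat_lit 22234265412) (nat_lit 76) (nat_lit 1229453234) (nat_lit 76) (nat_lit 460714834) (nat_lit 21) (nat_lit 4) (nat_lit 22) (nat_lit 5) (nat_lit 22) (nat_lit 4) (nat_lit 466) (nat_lit 369) (nat_lit 365))))) (XT.nd (nat_lit 234) (nat_lit 228) (nat_lit 0) (XT.nd (nat_lit 78) (nat_lit 76) (nat_lit 0) (XT.lf (nat_lit 0) (nat_lit 6717356803) (nat_lit 152) (nat_lit 12210347651) (nat_lit 0) (nat_lit 5823450477) (nat_lit 19) (nat_lit 5) (nat_lit 21) (nat_lit 4) (nat_lit 19) (nat_lit 4) (nat_lit 467) (nat_lit 369) (nat_lit 364)) (XT.nd (nat_lit 78) (nat_lit 0) (nat_lit 0) (XT.lf (nat_lit 0) (nat_lit 1512554068) (nat_lit 76) (nat_lit 12580771125) (nat_lit 76) (nat_lit 11532793830) (nat_lit 18) (nat_lit 4) (nat_lit 19)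 (nat_lit 5) (nat_lit 19) (nat_lit 4) (nat_lit 468) (nat_lit 369) (nat_lit 363)) (XT.lf (nat_lit 0) (nat_lit 15920573704) (nat_lit 76) (nat_lit 5909684252) (nat_lit 76) (nat_lit 4714972701) (nat_lit 18) (nat_lit 4) (nat_lit 19) (nat_lit 5) (nat_lit 19) (nat_lit 4) (nat_lit 469) (nat_lit 369) (nat_lit 362)))) (XT.nd (nat_lit 156) (nat_lit 76) (nat_lit 0) (XT.nd (nat_lit 78) (nat_lit 0) (nat_lit 0) (XT.lf (nat_lit 0) (nat_lit 2222941801) (nat_lit 152) (nat_lit 24340555474) (nat_lit 0) (nat_lit 952028981) (nat_lit 16) (nat_lit 5) (nat_lit 18) (nat_lit 4) (nat_lit 16) (nat_lit 4) (nat_lit 470) (nat_lit 369) (nat_lit 361)) (XT.lf (nat_lit 0) (nat_lit 9421738185) (nat_lit 152) (nat_lit 11081047507) (nat_lit 0) (nat_lit 8024070797) (nat_lit 16) (nat_lit 5) (nat_lit 18) (nat_lit 4) (nat_lit 16) (nat_lit 4) (nat_lit 471) (nat_lit 369) (nat_lit 360))) (XT.nd (nat_lit 78) (nat_lit 0) (nat_lit 0) (XT.lf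 (nat_lit 0) (nat_lit 2530005033) (nat_lit 76) (nat_lit 14292519011) (nat_lit 76) (nat_lit 12774132988) (nat_lit 15) (nat_lit 4) (nat_lit 16) (nat_lit 5) (nat_lit 16) (nat_lit 4) (nat_lit 472) (nat_lit 369) (nat_lit 359)) (XT.lf (nat_lit 0) (nat_lit 16820241504) (nat_lit 76) (nat_lit 7766694447) (nat_lit 76) (nat_lit 6133338295) (nat_lit 15) (nat_lit 4) (nat_lit 16) (nat_lit 5) (nat_lit 16) (nat_lit 4) (nat_lit 473) (nat_lit 369) (nat_lit 358))))))) (XT.nd (nat_lit 1092) (nat_lit 228) (nat_lit 0) (XT.nd (nat_lit 546) (nat_lit 228) (nat_lit 0) (XT.nd (nat_lit 234) (nat_lit 228) (nat_lit 0) (XT.nd (nat_lit 78) (nat_lit 76) (nat_lit 0) (XT.lf (nat_lit 0) (nat_lit 624756999) (nat_lit 152) (nat_lit 462099663) (nat_lit 76) (nat_lit 30821959242) (nat_lit 14) (nat_lit 5) (nat_lit 16) (nat_lit 5) (nat_lit 15) (nat_lit 4) (nat_lit 474) (nat_lit 369) (nat_lit 357)) (XT.nd (nat_lit 78) (nat_lit 0) (nat_lit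 0) (XT.lf (nat_lit 0) (nat_lit 7643378710) (nat_lit 152) (nat_lit 19617742067) (nat_lit 0) (nat_lit 5884204606) (nat_lit 13) (nat_lit 5) (nat_lit 15) (nat_lit 4) (nat_lit 13) (nat_lit 4) (nat_lit 475) (nat_lit 369) (nat_lit 356)) (XT.lf (nat_lit 0) (nat_lit 14860104999) (nat_lit 152) (nat_lit 6584856897) (nat_lit 0) (nat_lit 13006344686) (nat_lit 13) (nat_lit 5) (nat_lit 15) (nat_lit 4) (nat_lit 13) (nat_lit 4) (nat_lit 476) (nat_lit 369) (nat_lit 355)))) (XT.nd (nat_lit 156) (nat_lit 152) (nat_lit 0) (XT.nd (nat_lit 78) (nat_lit 0) (nat_lit 0) (XT.lf (nat_lit 0) (nat_lit 6983732989) (nat_lit 76) (nat_lit 15392876921) (nat_lit 76) (nat_lit 13449034504) (nat_lit 12) (nat_lit 4) (nat_lit 13) (nat_lit 5) (nat_lit 13) (nat_lit 4) (nat_lit 477) (nat_lit 369) (nat_lit 354)) (XT.lf (nat_lit 0) (nat_lit 21125376325) (nat_lit 76) (nat_lit 9087873347) (nat_lit 76) (nat_lit 7058238449) (nat_lit 12) (nat_lit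 4) (nat_lit 13) (nat_lit 5) (nat_lit 13) (nat_lit 4) (nat_lit 478) (nat_lit 369) (nat_lit 353))) (XT.nd (nat_lit 78) (nat_lit 152) (nat_lit 0) (XT.lf (nat_lit 0) (nat_lit 35656018583) (nat_lit 76) (nat_lit 2626456997) (nat_lit 76) (nat_lit 515114976) (nat_lit 12) (nat_lit 4) (nat_lit 13) (nat_lit 5) (nat_lit 13) (nat_lit 4) (nat_lit 479) (nat_lit 369) (nat_lit 352)) (XT.lf (nat_lit 0) (nat_lit 6227420416) (nat_lit 152) (nat_lit 30021329702) (nat_lit 0) (nat_lit 4142507720) (nat_lit 10) (nat_lit 5) (nat_lit 12) (nat_lit 4) (nat_lit 10) (nat_lit 4) (nat_lit 480) (nat_lit 369) (nat_lit 351))))) (XT.nd (nat_lit 234) (nat_lit 152) (nat_lit 0) (XT.nd (nat_lit 78) (nat_lit 76) (nat_lit 0) (XT.lf (nat_lit 0) (nat_lit 13232994480) (nat_lit 152) (nat_lit 17756534196) (nat_lit 0) (nat_lit 11077500098) (nat_lit 10) (nat_lit 5) (nat_lit 12) (nat_lit 4) (nat_lit 10) (nat_lit 4) (nat_lit 481) (nat_lit 369)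 (nat_lit 350)) (XT.nd (nat_lit 78) (nat_lit 76) (nat_lit 0) (XT.lf (nat_lit 0) (nat_lit 20442266515) (nat_lit 152) (nat_lit 5172102794) (nat_lit 0) (nat_lit 18219551480) (nat_lit 10) (nat_lit 5) (nat_lit 12) (nat_lit 4) (nat_lit 10) (nat_lit 4) (nat_lit 482) (nat_lit 369) (nat_lit 349)) (XT.lf (nat_lit 0) (nat_lit 8018571808) (nat_lit 76) (nat_lit 19979022025) (nat_lit 76) (nat_lit 17692287320) (nat_lit 9) (nat_lit 4) (nat_lit 10) (nat_lit 5) (nat_lit 10) (nat_lit 4) (nat_lit 483) (nat_lit 369) (nat_lit 348)))) (XT.nd (nat_lit 156) (nat_lit 152) (nat_lit 0) (XT.nd (nat_lit 78) (nat_lit 0) (nat_lit 0) (XT.lf (nat_lit 0) (nat_lit 21773231173) (nat_lit 76) (nat_lit 14107800084) (nat_lit 76) (nat_lit 11760094265) (nat_lit 9) (nat_lit 4) (nat_lit 10) (nat_lit 5) (nat_lit 10) (nat_lit 4) (nat_lit 484) (nat_lit 369) (nat_lit 347)) (XT.lf (nat_lit 0) (nat_lit 35953611411) (nat_lit 76) (nat_lit 8074316449)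 (nat_lit 76) (nat_lit 5668542902) (nat_lit 9) (nat_lit 4) (nat_lit 10) (nat_lit 5) (nat_lit 10) (nat_lit 4) (nat_lit 485) (nat_lit 369) (nat_lit 346))) (XT.nd (nat_lit 78) (nat_lit 76) (nat_lit 0) (XT.lf (nat_lit 0) (nat_lit 577766877) (nat_lit 152) (nat_lit 1276654045) (nat_lit 76) (nat_lit 50005923695) (nat_lit 8) (nat_lit 5) (nat_lit 10) (nat_lit 5) (nat_lit 9) (nat_lit 4) (nat_lit 486) (nat_lit 369) (nat_lit 345)) (XT.lf (nat_lit 0) (nat_lit 7086199130) (nat_lit 152) (nat_lit 42342397935) (nat_lit 0) (nat_lit 4692156001) (nat_lit 7) (nat_lit 5) (nat_lit 9) (nat_lit 4) (nat_lit 7) (nat_lit 4) (nat_lit 487) (nat_lit 369) (nat_lit 344)))))) (XT.nd (nat_lit 546) (nat_lit 152) (nat_lit 0) (XT.nd (nat_lit 234) (nat_lit 76) (nat_lit 0) (XT.nd (nat_lit 78) (nat_lit 0) (nat_lit 0) (XT.lf (nat_lit 0) (nat_lit 13852086565) (nat_lit 152) (nat_lit 31235225209) (nat_lit 0) (nat_lit 11410270973) (nat_lit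 7) (nat_lit 5) (nat_lit 9) (nat_lit 4) (nat_lit 7) (nat_lit 4) (nat_lit 488) (nat_lit 369) (nat_lit 343)) (XT.nd (nat_lit 78) (nat_lit 0) (nat_lit 0) (XT.lf (nat_lit 0) (nat_lit 20841656975) (nat_lit 152) (nat_lit 19802986074) (nat_lit 0) (nat_lit 18354343799) (nat_lit 7) (nat_lit 5) (nat_lit 9) (nat_lit 4) (nat_lit 7) (nat_lit 4) (nat_lit 489) (nat_lit 369) (nat_lit 342)) (XT.lf (nat_lit 0) (nat_lit 28071552195) (nat_lit 152) (nat_lit 8018460913) (nat_lit 0) (nat_lit 25540907986) (nat_lit 7) (nat_lit 5) (nat_lit 9) (nat_lit 4) (nat_lit 7) (nat_lit 4) (nat_lit 490) (nat_lit 369) (nat_lit 341)))) (XT.nd (nat_lit 156) (nat_lit 0) (nat_lit 0) (XT.nd (nat_lit 78) (nat_lit 0) (nat_lit 0) (XT.lf (nat_lit 0) (nat_lit 4283507662) (nat_lit 76) (nat_lit 31342356157) (nat_lit 76) (nat_lit 28770444299) (nat_lit 6) (nat_lit 4) (nat_lit 7) (nat_lit 5) (nat_lit 7) (nat_lit 4) (nat_lit 491) (nat_lit 369) (nat_lit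 340)) (XT.lf (nat_lit 0) (nat_lit 17273444746) (nat_lit 76) (nat_lit 26318028530) (nat_lit 76) (nat_lit 23706814148) (nat_lit 6) (nat_lit 4) (nat_lit 7) (nat_lit 5) (nat_lit 7) (nat_lit 4) (nat_lit 492) (nat_lit 369) (nat_lit 339))) (XT.nd (nat_lit 78) (nat_lit 0) (nat_lit 0) (XT.lf (nat_lit 0) (nat_lit 30717152229) (nat_lit 76) (nat_lit 21140864059) (nat_lit 76) (nat_lit 18492218702) (nat_lit 6) (nat_lit 4) (nat_lit 7) (nat_lit 5) (nat_lit 7) (nat_lit 4) (nat_lit 493) (nat_lit 369) (nat_lit 338)) (XT.lf (nat_lit 0) (nat_lit 44646638940) (nat_lit 76) (nat_lit 15798536160) (nat_lit 76) (nat_lit 13114242256) (nat_lit 6) (nat_lit 4) (nat_lit 7) (nat_lit 5) (nat_lit 7) (nat_lit 4) (nat_lit 494) (nat_lit 369) (nat_lit 337))))) (XT.nd (nat_lit 312) (nat_lit 0) (nat_lit 0) (XT.nd (nat_lit 156) (nat_lit 152) (nat_lit 0) (XT.nd (nat_lit 78) (nat_lit 0) (nat_lit 0) (XT.lf (nat_lit 0) (nat_lit 59095070322)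 (nat_lit 76) (nat_lit 10278325007) (nat_lit 76) (nat_lit 7560080105) (nat_lit 6) (nat_lit 4) (nat_lit 7) (nat_lit 5) (nat_lit 7) (nat_lit 4) (nat_lit 495) (nat_lit 369) (nat_lit 336)) (XT.lf (nat_lit 0) (nat_lit 74096847403) (nat_lit 76) (nat_lit 4567087238) (nat_lit 76) (nat_lit 1816508052) (nat_lit 6) (nat_lit 4) (nat_lit 7) (nat_lit 5) (nat_lit 7) (nat_lit 4) (nat_lit 496) (nat_lit 369) (nat_lit 335))) (XT.nd (nat_lit 78) (nat_lit 0) (nat_lit 0) (XT.lf (nat_lit 0) (nat_lit 4108835103) (nat_lit 152) (nat_lit 78631253473) (nat_lit 0) (nat_lit 1459907730) (nat_lit 4) (nat_lit 5) (nat_lit 6) (nat_lit 4) (nat_lit 4) (nat_lit 4) (nat_lit 497) (nat_lit 369) (nat_lit 334)) (XT.lf (nat_lit 0) (nat_lit 10372844880) (nat_lit 152) (nat_lit 70030036994) (nat_lit 0) (nat_lit 7695985937) (nat_lit 4) (nat_lit 5) (nat_lit 6) (nat_lit 4) (nat_lit 4) (nat_lit 4) (nat_lit 498) (nat_lit 369) (nat_lit 333))))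 (XT.nd (nat_lit 156) (nat_lit 0) (nat_lit 0) (XT.nd (nat_lit 78) (nat_lit 0) (nat_lit 0) (XT.lf (nat_lit 0) (nat_lit 16872621053) (nat_lit 152) (nat_lit 61154774310) (nat_lit 0) (nat_lit 14169160615) (nat_lit 4) (nat_lit 5) (nat_lit 6) (nat_lit 4) (nat_lit 4) (nat_lit 4) (nat_lit 499) (nat_lit 369) (nat_lit 332)) (XT.lf (nat_lit 0) (nat_lit 23623639280) (nat_lit 152) (nat_lit 51984333845) (nat_lit 0) (nat_lit 20894844084) (nat_lit 4) (nat_lit 5) (nat_lit 6) (nat_lit 4) (nat_lit 4) (nat_lit 4) (nat_lit 500) (nat_lit 369) (nat_lit 331))) (XT.nd (nat_lit 78) (nat_lit 0) (nat_lit 0) (XT.lf (nat_lit 0) (nat_lit 30641973414) (nat_lit 152) (nat_lit 42496881217) (nat_lit 0) (nat_lit 27889049878) (nat_lit 4) (nat_lit 5) (nat_lit 6) (nat_lit 4) (nat_lit 4) (nat_lit 4) (nat_lit 501) (nat_lit 369) (nat_lit 330)) (XT.lf (nat_lit 0) (nat_lit 37944333774) (nat_lit 152) (nat_lit 32669827251) (nat_lit 0) (nat_lit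 35168430867) (nat_lit 4) (nat_lit 5) (nat_lit 6) (nat_lit 4) (nat_lit 4) (nat_lit 4) (nat_lit 502) (nat_lit 369) (nat_lit 329))))))))
noncomputable def xc32 : XT := (XT.nd (nat_lit 2184) (nat_lit 0) (nat_lit 0) (XT.nd (nat_lit 1092) (nat_lit 152) (nat_lit 0) (XT.nd (nat_lit 546) (nat_lit 0) (nat_lit 0) (XT.nd (nat_lit 234) (nat_lit 76) (nat_lit 0) (XT.nd (nat_lit 78) (nat_lit 0) (nat_lit 0) (XT.lf (nat_lit 0) (nat_lit 45548106933) (nat_lit 152) (nat_lit 22479774201) (nat_lit 0) (nat_lit 42750318910) (nat_lit 4) (nat_lit 5) (nat_lit 6) (nat_lit 4) (nat_lit 4) (nat_lit 4) (nat_lit 503) (nat_lit 369) (nat_lit 328)) (XT.nd (nat_lit 78) (nat_lit 0) (nat_lit 0) (XT.lf (nat_lit 0) (nat_lit 53471397112) (nat_lit 152) (nat_lit 11902460036) (nat_lit 0) (nat_lit 50652766122) (nat_lit 4) (nat_lit 5) (nat_lit 6) (nat_lit 4) (nat_lit 4) (nat_lit 4) (nat_lit 504) (nat_lit 369) (nat_lit 327)) (XT.lf (nat_lit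 0) (nat_lit 61733069289) (nat_lit 152) (nat_lit 912700674) (nat_lit 0) (nat_lit 58894587853) (nat_lit 4) (nat_lit 5) (nat_lit 6) (nat_lit 4) (nat_lit 4) (nat_lit 4) (nat_lit 505) (nat_lit 369) (nat_lit 326)))) (XT.nd (nat_lit 156) (nat_lit 0) (nat_lit 0) (XT.nd (nat_lit 78) (nat_lit 0) (nat_lit 0) (XT.lf (nat_lit 0) (nat_lit 10863365516) (nat_lit 76) (nat_lit 59659036174) (nat_lit 76) (nat_lit 56801649552) (nat_lit 3) (nat_lit 4) (nat_lit 4) (nat_lit 5) (nat_lit 4) (nat_lit 4) (nat_lit 506) (nat_lit 369) (nat_lit 325)) (XT.lf (nat_lit 0) (nat_lit 23150833580) (nat_lit 76) (nat_lit 56561710544) (nat_lit 76) (nat_lit 53686318983) (nat_lit 3) (nat_lit 4) (nat_lit 4) (nat_lit 5) (nat_lit 4) (nat_lit 4) (nat_lit 507) (nat_lit 369) (nat_lit 324))) (XT.nd (nat_lit 78) (nat_lit 0) (nat_lit 0) (XT.lf (nat_lit 0) (nat_lit 35948781386) (nat_lit 76) (nat_lit 53361875515) (nat_lit 76) (nat_lit 50469336394)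 (nat_lit 3) (nat_lit 4) (nat_lit 4) (nat_lit 5) (nat_lit 4) (nat_lit 4) (nat_lit 508) (nat_lit 369) (nat_lit 323)) (XT.lf (nat_lit 0) (nat_lit 49287680238) (nat_lit 76) (nat_lit 50051912434) (nat_lit 76) (nat_lit 47143042302) (nat_lit 3) (nat_lit 4) (nat_lit 4) (nat_lit 5) (nat_lit 4) (nat_lit 4) (nat_lit 509) (nat_lit 369) (nat_lit 322))))) (XT.nd (nat_lit 234) (nat_lit 0) (nat_lit 0) (XT.nd (nat_lit 78) (nat_lit 0) (nat_lit 0) (XT.lf (nat_lit 0) (nat_lit 63199289419) (nat_lit 76) (nat_lit 46623940436) (nat_lit 76) (nat_lit 43699516961) (nat_lit 3) (nat_lit 4) (nat_lit 4) (nat_lit 5) (nat_lit 4) (nat_lit 4) (nat_lit 510) (nat_lit 369) (nat_lit 321)) (XT.nd (nat_lit 78) (nat_lit 0) (nat_lit 0) (XT.lf (nat_lit 0) (nat_lit 77716731809) (nat_lit 76) (nat_lit 43069797682) (nat_lit 76) (nat_lit 40130561499) (nat_lit 3) (nat_lit 4) (nat_lit 4) (nat_lit 5) (nat_lit 4) (nat_lit 4) (nat_lit 511) (nat_lit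 369) (nat_lit 320)) (XT.lf (nat_lit 0) (nat_lit 92874572746) (nat_lit 76) (nat_lit 39381021929) (nat_lit 76) (nat_lit 36427678405) (nat_lit 3) (nat_lit 4) (nat_lit 4) (nat_lit 5) (nat_lit 4) (nat_lit 4) (nat_lit 512) (nat_lit 369) (nat_lit 319)))) (XT.nd (nat_lit 156) (nat_lit 0) (nat_lit 0) (XT.nd (nat_lit 78) (nat_lit 0) (nat_lit 0) (XT.lf (nat_lit 0) (nat_lit 108708902328) (nat_lit 76) (nat_lit 35548830376) (nat_lit 76) (nat_lit 32582051289) (nat_lit 3) (nat_lit 4) (nat_lit 4) (nat_lit 5) (nat_lit 4) (nat_lit 4) (nat_lit 513) (nat_lit 369) (nat_lit 318)) (XT.lf (nat_lit 0) (nat_lit 125257421339) (nat_lit 76) (nat_lit 31564098758) (nat_lit 76) (nat_lit 28584523897) (nat_lit 3) (nat_lit 4) (nat_lit 4) (nat_lit 5) (nat_lit 4) (nat_lit 4) (nat_lit 514) (nat_lit 369) (nat_lit 317))) (XT.nd (nat_lit 78) (nat_lit 0) (nat_lit 0) (XT.lf (nat_lit 0) (nat_lit 142559531016) (nat_lit 76) (nat_lit 27417339618)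 (nat_lit 76) (nat_lit 24425578306) (nat_lit 3) (nat_lit 4) (nat_lit 4) (nat_lit 5) (nat_lit 4) (nat_lit 4) (nat_lit 515) (nat_lit 369) (nat_lit 316)) (XT.lf (nat_lit 0) (nat_lit 160656426857) (nat_lit 76) (nat_lit 23098679722) (nat_lit 76) (nat_lit 20095312266) (nat_lit 3) (nat_lit 4) (nat_lit 4) (nat_lit 5) (nat_lit 4) (nat_lit 4) (nat_lit 516) (nat_lit 369) (nat_lit 315)))))) (XT.nd (nat_lit 546) (nat_lit 0) (nat_lit 0) (XT.nd (nat_lit 234) (nat_lit 152) (nat_lit 0) (XT.nd (nat_lit 78) (nat_lit 0) (nat_lit 0) (XT.lf (nat_lit 0) (nat_lit 179591196710) (nat_lit 76) (nat_lit 18597836545) (nat_lit 76) (nat_lit 15583415618) (nat_lit 3) (nat_lit 4) (nat_lit 4) (nat_lit 5) (nat_lit 4) (nat_lit 4) (nat_lit 517) (nat_lit 369) (nat_lit 314)) (XT.nd (nat_lit 78) (nat_lit 0) (nat_lit 0) (XT.lf (nat_lit 0) (nat_lit 199408923361) (nat_lit 76) (nat_lit 13904093793) (nat_lit 76) (nat_lit 10879145751) (nat_lit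 3) (nat_lit 4) (nat_lit 4) (nat_lit 5) (nat_lit 4) (nat_lit 4) (nat_lit 518) (nat_lit 369) (nat_lit 313)) (XT.lf (nat_lit 0) (nat_lit 220156791871) (nat_lit 76) (nat_lit 9006275890) (nat_lit 76) (nat_lit 5971302024) (nat_lit 3) (nat_lit 4) (nat_lit 4) (nat_lit 5) (nat_lit 4) (nat_lit 4) (nat_lit 519) (nat_lit 369) (nat_lit 312)))) (XT.nd (nat_lit 156) (nat_lit 0) (nat_lit 0) (XT.nd (nat_lit 78) (nat_lit 152) (nat_lit 0) (XT.lf (nat_lit 0) (nat_lit 241884201929) (nat_lit 76) (nat_lit 3892721363) (nat_lit 76) (nat_lit 848199094) (nat_lit 3) (nat_lit 4) (nat_lit 4) (nat_lit 5) (nat_lit 4) (nat_lit 4) (nat_lit 520) (nat_lit 369) (nat_lit 311)) (XT.lf (nat_lit 0) (nat_lit 4478435316) (nat_lit 152) (nat_lit 252633591085) (nat_lit 0) (nat_lit 1570229615) (nat_lit 1) (nat_lit 5) (nat_lit 3) (nat_lit 4) (nat_lit 1) (nat_lit 4) (nat_lit 521) (nat_lit 369) (nat_lit 310))) (XT.nd (nat_lit 78) (nat_lit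 0) (nat_lit 0) (XT.lf (nat_lit 0) (nat_lit 10160566359) (nat_lit 152) (nat_lit 253930989265) (nat_lit 0) (nat_lit 7244112388) (nat_lit 1) (nat_lit 5) (nat_lit 3) (nat_lit 4) (nat_lit 1) (nat_lit 4) (nat_lit 522) (nat_lit 369) (nat_lit 309)) (XT.lf (nat_lit 0) (nat_lit 16100374289) (nat_lit 152) (nat_lit 255346633389) (nat_lit 0) (nat_lit 13176064822) (nat_lit 1) (nat_lit 5) (nat_lit 3) (nat_lit 4) (nat_lit 1) (nat_lit 4) (nat_lit 523) (nat_lit 369) (nat_lit 308))))) (XT.nd (nat_lit 234) (nat_lit 0) (nat_lit 0) (XT.nd (nat_lit 78) (nat_lit 0) (nat_lit 0) (XT.lf (nat_lit 0) (nat_lit 22312001505) (nat_lit 152) (nat_lit 256883894039) (nat_lit 0) (nat_lit 19380210614) (nat_lit 1) (nat_lit 5) (nat_lit 3) (nat_lit 4) (nat_lit 1) (nat_lit 4) (nat_lit 524) (nat_lit 369) (nat_lit 307)) (XT.nd (nat_lit 78) (nat_lit 0) (nat_lit 0) (XT.lf (nat_lit 0) (nat_lit 28810237596) (nat_lit 152) (nat_lit 258546431359)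 (nat_lit 0) (nat_lit 25871321539) (nat_lit 1) (nat_lit 5) (nat_lit 3) (nat_lit 4) (nat_lit 1) (nat_lit 4) (nat_lit 525) (nat_lit 369) (nat_lit 306)) (XT.lf (nat_lit 0) (nat_lit 35610554553) (nat_lit 152) (nat_lit 260338203770) (nat_lit 0) (nat_lit 32664852624) (nat_lit 1) (nat_lit 5) (nat_lit 3) (nat_lit 4) (nat_lit 1) (nat_lit 4) (nat_lit 526) (nat_lit 369) (nat_lit 305)))) (XT.nd (nat_lit 156) (nat_lit 0) (nat_lit 0) (XT.nd (nat_lit 78) (nat_lit 0) (nat_lit 0) (XT.lf (nat_lit 0) (nat_lit 42729143606) (nat_lit 152) (nat_lit 262263477398) (nat_lit 0) (nat_lit 39776978942) (nat_lit 1) (nat_lit 5) (nat_lit 3) (nat_lit 4) (nat_lit 1) (nat_lit 4) (nat_lit 527) (nat_lit 369) (nat_lit 304)) (XT.lf (nat_lit 0) (nat_lit 50182953777) (nat_lit 152) (nat_lit 264326836228) (nat_lit 0) (nat_lit 47224634127) (nat_lit 1) (nat_lit 5) (nat_lit 3) (nat_lit 4) (nat_lit 1) (nat_lit 4) (nat_lit 528) (nat_lit 369)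 (nat_lit 303))) (XT.nd (nat_lit 78) (nat_lit 0) (nat_lit 0) (XT.lf (nat_lit 0) (nat_lit 57989732233) (nat_lit 152) (nat_lit 266533193018) (nat_lit 0) (nat_lit 55025550692) (nat_lit 1) (nat_lit 5) (nat_lit 3) (nat_lit 4) (nat_lit 1) (nat_lit 4) (nat_lit 529) (nat_lit 369) (nat_lit 302)) (XT.lf (nat_lit 0) (nat_lit 66168066542) (nat_lit 152) (nat_lit 268887800999) (nat_lit 0) (nat_lit 63198302247) (nat_lit 1) (nat_lit 5) (nat_lit 3) (nat_lit 4) (nat_lit 1) (nat_lit 4) (nat_lit 530) (nat_lit 369) (nat_lit 301))))))) (XT.nd (nat_lit 1092) (nat_lit 0) (nat_lit 0) (XT.nd (nat_lit 546) (nat_lit 0) (nat_lit 0) (XT.nd (nat_lit 234) (nat_lit 0) (nat_lit 0) (XT.nd (nat_lit 78) (nat_lit 0) (nat_lit 0) (XT.lf (nat_lit 0) (nat_lit 74737428929) (nat_lit 152) (nat_lit 271396266381) (nat_lit 0) (nat_lit 71762347725) (nat_lit 1) (nat_lit 5) (nat_lit 3) (nat_lit 4) (nat_lit 1) (nat_lit 4) (nat_lit 531) (nat_lit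 369) (nat_lit 300)) (XT.nd (nat_lit 78) (nat_lit 0) (nat_lit 0) (XT.lf (nat_lit 0) (nat_lit 83718222637) (nat_lit 152) (nat_lit 274064561700) (nat_lit 0) (nat_lit 80738077710) (nat_lit 1) (nat_lit 5) (nat_lit 3) (nat_lit 4) (nat_lit 1) (nat_lit 4) (nat_lit 532) (nat_lit 369) (nat_lit 299)) (XT.lf (nat_lit 0) (nat_lit 93131830508) (nat_lit 152) (nat_lit 276899040041) (nat_lit 0) (nat_lit 90146862989) (nat_lit 1) (nat_lit 5) (nat_lit 3) (nat_lit 4) (nat_lit 1) (nat_lit 4) (nat_lit 533) (nat_lit 369) (nat_lit 298)))) (XT.nd (nat_lit 156) (nat_lit 0) (nat_lit 0) (XT.nd (nat_lit 78) (nat_lit 0) (nat_lit 0) (XT.lf (nat_lit 0) (nat_lit 103000665894) (nat_lit 152) (nat_lit 279906450161) (nat_lit 0) (nat_lit 100011105430) (nat_lit 1) (nat_lit 5) (nat_lit 3) (nat_lit 4) (nat_lit 1) (nat_lit 4) (nat_lit 534) (nat_lit 369) (nat_lit 297)) (XT.lf (nat_lit 0) (nat_lit 113348226023) (nat_lit 152) (nat_lit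 283093952560) (nat_lit 0) (nat_lit 110354291325) (nat_lit 1) (nat_lit 5) (nat_lit 3) (nat_lit 4) (nat_lit 1) (nat_lit 4) (nat_lit 535) (nat_lit 369) (nat_lit 296))) (XT.nd (nat_lit 78) (nat_lit 0) (nat_lit 0) (XT.lf (nat_lit 0) (nat_lit 124199147943) (nat_lit 152) (nat_lit 286469136530) (nat_lit 0) (nat_lit 121201047308) (nat_lit 1) (nat_lit 5) (nat_lit 3) (nat_lit 4) (nat_lit 1) (nat_lit 4) (nat_lit 536) (nat_lit 369) (nat_lit 295)) (XT.lf (nat_lit 0) (nat_lit 135579267181) (nat_lit 152) (nat_lit 290040038224) (nat_lit 0) (nat_lit 132577198988) (nat_lit 1) (nat_lit 5) (nat_lit 3) (nat_lit 4) (nat_lit 1) (nat_lit 4) (nat_lit 537) (nat_lit 369) (nat_lit 294))))) (XT.nd (nat_lit 234) (nat_lit 0) (nat_lit 0) (XT.nd (nat_lit 78) (nat_lit 0) (nat_lit 0) (XT.lf (nat_lit 0) (nat_lit 147515679260) (nat_lit 152) (nat_lit 293815159788) (nat_lit 0) (nat_lit 144509832439) (nat_lit 1) (nat_lit 5) (nat_lit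 3) (nat_lit 4) (nat_lit 1) (nat_lit 4) (nat_lit 538) (nat_lit 369) (nat_lit 293)) (XT.nd (nat_lit 78) (nat_lit 0) (nat_lit 0) (XT.lf (nat_lit 0) (nat_lit 160036804209) (nat_lit 152) (nat_lit 297803489606) (nat_lit 0) (nat_lit 157027358695) (nat_lit 1) (nat_lit 5) (nat_lit 3) (nat_lit 4) (nat_lit 1) (nat_lit 4) (nat_lit 539) (nat_lit 369) (nat_lit 292)) (XT.lf (nat_lit 0) (nat_lit 173172454230) (nat_lit 152) (nat_lit 302014523703) (nat_lit 0) (nat_lit 170159581389) (nat_lit 1) (nat_lit 5) (nat_lit 3) (nat_lit 4) (nat_lit 1) (nat_lit 4) (nat_lit 540) (nat_lit 369) (nat_lit 291)))) (XT.nd (nat_lit 156) (nat_lit 0) (nat_lit 0) (XT.nd (nat_lit 78) (nat_lit 0) (nat_lit 0) (XT.lf (nat_lit 0) (nat_lit 186953904679) (nat_lit 152) (nat_lit 306458288350) (nat_lit 0) (nat_lit 183937767718) (nat_lit 1) (nat_lit 5) (nat_lit 3) (nat_lit 4) (nat_lit 1) (nat_lit 4) (nat_lit 541) (nat_lit 369) (nat_lit 290))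 (XT.lf (nat_lit 0) (nat_lit 201413968535) (nat_lit 152) (nat_lit 311145363938) (nat_lit 0) (nat_lit 198394722888) (nat_lit 1) (nat_lit 5) (nat_lit 3) (nat_lit 4) (nat_lit 1) (nat_lit 4) (nat_lit 542) (nat_lit 369) (nat_lit 289))) (XT.nd (nat_lit 78) (nat_lit 0) (nat_lit 0) (XT.lf (nat_lit 0) (nat_lit 216587074521) (nat_lit 152) (nat_lit 316086910172) (nat_lit 0) (nat_lit 213564868220) (nat_lit 1) (nat_lit 5) (nat_lit 3) (nat_lit 4) (nat_lit 1) (nat_lit 4) (nat_lit 543) (nat_lit 369) (nat_lit 288)) (XT.lf (nat_lit 0) (nat_lit 232509349079) (nat_lit 152) (nat_lit 321294692639) (nat_lit 0) (nat_lit 229484323109) (nat_lit 1) (nat_lit 5) (nat_lit 3) (nat_lit 4) (nat_lit 1) (nat_lit 4) (nat_lit 544) (nat_lit 369) (nat_lit 287)))))) (XT.nd (nat_lit 56238) (nat_lit 0) (nat_lit 1140) (XT.nd (nat_lit 55926) (nat_lit 0) (nat_lit 1596) (XT.nd (nat_lit 78) (nat_lit 0) (nat_lit 0) (XT.lf (nat_lit 0) (nat_lit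 249218702388) (nat_lit 152) (nat_lit 326781110819) (nat_lit 0) (nat_lit 246190991017) (nat_lit 1) (nat_lit 5) (nat_lit 3) (nat_lit 4) (nat_lit 1) (nat_lit 4) (nat_lit 545) (nat_lit 369) (nat_lit 286)) (XT.nd (nat_lit 55770) (nat_lit 0) (nat_lit 1824) (XT.lf (nat_lit 0) (nat_lit 266754918621) (nat_lit 152) (nat_lit 332559227614) (nat_lit 0) (nat_lit 263724649726) (nat_lit 1) (nat_lit 5) (nat_lit 3) (nat_lit 4) (nat_lit 1) (nat_lit 4) (nat_lit 546) (nat_lit 369) (nat_lit 285)) (XT.lf (nat_lit 0) (nat_lit 227814875) (nat_lit 152) (nat_lit 9400730888) (nat_lit 0) (nat_lit 227814875) (nat_lit 25) (nat_lit 5) (nat_lit 27) (nat_lit 4) (nat_lit 25) (nat_lit 4) (nat_lit 460) (nat_lit 370) (nat_lit 370)))) (XT.nd (nat_lit 156) (nat_lit 152) (nat_lit 0) (XT.nd (nat_lit 78) (nat_lit 76) (nat_lit 0) (XT.lf (nat_lit 0) (nat_lit 7579363171) (nat_lit 152) (nat_lit 5399907456) (nat_lit 0) (nat_lit 7351730180)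 (nat_lit 25) (nat_lit 5) (nat_lit 27) (nat_lit 4) (nat_lit 25) (nat_lit 4) (nat_lit 461) (nat_lit 370) (nat_lit 369)) (XT.lf (nat_lit 0) (nat_lit 8491900356) (nat_lit 76) (nat_lit 6468829610) (nat_lit 76) (nat_lit 6024403293) (nat_lit 24) (nat_lit 4) (nat_lit 25) (nat_lit 5) (nat_lit 25) (nat_lit 4) (nat_lit 462) (nat_lit 370) (nat_lit 368))) (XT.nd (nat_lit 78) (nat_lit 0) (nat_lit 0) (XT.lf (nat_lit 0) (nat_lit 890653396) (nat_lit 152) (nat_lit 20515529568) (nat_lit 0) (nat_lit 270752301) (nat_lit 22) (nat_lit 5) (nat_lit 24) (nat_lit 4) (nat_lit 22) (nat_lit 4) (nat_lit 463) (nat_lit 370) (nat_lit 367)) (XT.lf (nat_lit 0) (nat_lit 8039943105) (nat_lit 152) (nat_lit 7121141208) (nat_lit 0) (nat_lit 7232767785) (nat_lit 22) (nat_lit 5) (nat_lit 24) (nat_lit 4) (nat_lit 22) (nat_lit 4) (nat_lit 464) (nat_lit 370) (nat_lit 366))))) (XT.nd (nat_lit 234) (nat_lit 228) (nat_lit 0) (XT.nd (nat_lit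 78) (nat_lit 152) (nat_lit 0) (XT.lf (nat_lit 0) (nat_lit 6727202640) (nat_lit 76) (nat_lit 8705330668) (nat_lit 76) (nat_lit 7719798943) (nat_lit 21) (nat_lit 4) (nat_lit 22) (nat_lit 5) (nat_lit 22) (nat_lit 4) (nat_lit 465) (nat_lit 370) (nat_lit 365)) (XT.nd (nat_lit 78) (nat_lit 152) (nat_lit 0) (XT.lf (nat_lit 0) (nat_lit 21091070046) (nat_lit 76) (nat_lit 2008904547) (nat_lit 76) (nat_lit 853509579) (nat_lit 21) (nat_lit 4) (nat_lit 22) (nat_lit 5) (nat_lit 22) (nat_lit 4) (nat_lit 466) (nat_lit 370) (nat_lit 364)) (XT.lf (nat_lit 0) (nat_lit 6199217119) (nat_lit 152) (nat_lit 13643424896) (nat_lit 0) (nat_lit 4944769990) (nat_lit 19) (nat_lit 5) (nat_lit 21) (nat_lit 4) (nat_lit 19) (nat_lit 4) (nat_lit 467) (nat_lit 370) (nat_lit 363)))) (XT.nd (nat_lit 156) (nat_lit 152) (nat_lit 0) (XT.nd (nat_lit 78) (nat_lit 76) (nat_lit 0) (XT.lf (nat_lit 0) (nat_lit 13450112914) (nat_lit 152)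 (nat_lit 169589008) (nat_lit 0) (nat_lit 12048931530) (nat_lit 19) (nat_lit 5) (nat_lit 21) (nat_lit 4) (nat_lit 19) (nat_lit 4) (nat_lit 468) (nat_lit 370) (nat_lit 362)) (XT.lf (nat_lit 0) (nat_lit 14035404958) (nat_lit 76) (nat_lit 7049197076) (nat_lit 76) (nat_lit 5508268781) (nat_lit 18) (nat_lit 4) (nat_lit 19) (nat_lit 5) (nat_lit 19) (nat_lit 4) (nat_lit 469) (nat_lit 370) (nat_lit 361))) (XT.nd (nat_lit 78) (nat_lit 0) (nat_lit 0) (XT.lf (nat_lit 0) (nat_lit 1009638290) (nat_lit 76) (nat_lit 299463602) (nat_lit 152) (nat_lit 26261983730) (nat_lit 16) (nat_lit 5) (nat_lit 17) (nat_lit 5) (nat_lit 18) (nat_lit 4) (nat_lit 470) (nat_lit 370) (nat_lit 360)) (XT.lf (nat_lit 0) (nat_lit 8406905341) (nat_lit 152) (nat_lit 13488681843) (nat_lit 0) (nat_lit 6691881382) (nat_lit 16) (nat_lit 5) (nat_lit 18) (nat_lit 4) (nat_lit 16) (nat_lit 4) (nat_lit 471) (nat_lit 370) (nat_lit 359))))))))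
noncomputable def xc33 : XT := (XT.nd (nat_lit 2184) (nat_lit 228) (nat_lit 0) (XT.nd (nat_lit 1092) (nat_lit 380) (nat_lit 0) (XT.nd (nat_lit 546) (nat_lit 228) (nat_lit 0) (XT.nd (nat_lit 234) (nat_lit 228) (nat_lit 0) (XT.nd (nat_lit 78) (nat_lit 76) (nat_lit 0) (XT.lf (nat_lit 0) (nat_lit 15676459808) (nat_lit 152) (nat_lit 140908068) (nat_lit 0) (nat_lit 13846465720) (nat_lit 16) (nat_lit 5) (nat_lit 18) (nat_lit 4) (nat_lit 16) (nat_lit 4) (nat_lit 472) (nat_lit 370) (nat_lit 358)) (XT.nd (nat_lit 78) (nat_lit 0) (nat_lit 0) (XT.lf (nat_lit 0) (nat_lit 13965306909) (nat_lit 76) (nat_lit 9383128961) (nat_lit 76) (nat_lit 7443639512) (nat_lit 15) (nat_lit 4) (nat_lit 16) (nat_lit 5) (nat_lit 16) (nat_lit 4) (nat_lit 473) (nat_lit 370) (nat_lit 357)) (XT.lf (nat_lit 0) (nat_lit 28431540840) (nat_lit 76) (nat_lit 2798823455) (nat_lit 76) (nat_lit 755052710) (nat_lit 15) (nat_lit 4) (nat_lit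 16) (nat_lit 5) (nat_lit 16) (nat_lit 4) (nat_lit 474) (nat_lit 370) (nat_lit 356)))) (XT.nd (nat_lit 156) (nat_lit 76) (nat_lit 0) (XT.nd (nat_lit 78) (nat_lit 0) (nat_lit 0) (XT.lf (nat_lit 0) (nat_lit 6123200964) (nat_lit 152) (nat_lit 23025377640) (nat_lit 0) (nat_lit 4082166426) (nat_lit 13) (nat_lit 5) (nat_lit 15) (nat_lit 4) (nat_lit 13) (nat_lit 4) (nat_lit 475) (nat_lit 370) (nat_lit 355)) (XT.lf (nat_lit 0) (nat_lit 13256954895) (nat_lit 152) (nat_lit 10158083988) (nat_lit 0) (nat_lit 11125838252) (nat_lit 13) (nat_lit 5) (nat_lit 15) (nat_lit 4) (nat_lit 13) (nat_lit 4) (nat_lit 476) (nat_lit 370) (nat_lit 354))) (XT.nd (nat_lit 78) (nat_lit 0) (nat_lit 0) (XT.lf (nat_lit 0) (nat_lit 3129438186) (nat_lit 76) (nat_lit 17504823981) (nat_lit 76) (nat_lit 15287914858) (nat_lit 12) (nat_lit 4) (nat_lit 13) (nat_lit 5) (nat_lit 13) (nat_lit 4) (nat_lit 477) (nat_lit 370) (nat_lit 353))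 (XT.lf (nat_lit 0) (nat_lit 17115918964) (nat_lit 76) (nat_lit 11277302067) (nat_lit 76) (nat_lit 8978685820) (nat_lit 12) (nat_lit 4) (nat_lit 13) (nat_lit 5) (nat_lit 13) (nat_lit 4) (nat_lit 478) (nat_lit 370) (nat_lit 352))))) (XT.nd (nat_lit 234) (nat_lit 76) (nat_lit 0) (XT.nd (nat_lit 78) (nat_lit 152) (nat_lit 0) (XT.lf (nat_lit 0) (nat_lit 31498787356) (nat_lit 76) (nat_lit 4889677776) (nat_lit 76) (nat_lit 2513245220) (nat_lit 12) (nat_lit 4) (nat_lit 13) (nat_lit 5) (nat_lit 13) (nat_lit 4) (nat_lit 479) (nat_lit 370) (nat_lit 351)) (XT.nd (nat_lit 78) (nat_lit 0) (nat_lit 0) (XT.lf (nat_lit 0) (nat_lit 4112971450) (nat_lit 152) (nat_lit 34613860702) (nat_lit 0) (nat_lit 1779120663) (nat_lit 10) (nat_lit 5) (nat_lit 12) (nat_lit 4) (nat_lit 10) (nat_lit 4) (nat_lit 480) (nat_lit 370) (nat_lit 350)) (XT.lf (nat_lit 0) (nat_lit 11047042718) (nat_lit 152) (nat_lit 22492286600) (nat_lit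 0) (nat_lit 8645971277) (nat_lit 10) (nat_lit 5) (nat_lit 12) (nat_lit 4) (nat_lit 10) (nat_lit 4) (nat_lit 481) (nat_lit 370) (nat_lit 349)))) (XT.nd (nat_lit 156) (nat_lit 0) (nat_lit 0) (XT.nd (nat_lit 78) (nat_lit 76) (nat_lit 0) (XT.lf (nat_lit 0) (nat_lit 18188216852) (nat_lit 152) (nat_lit 10044256537) (nat_lit 0) (nat_lit 15723125742) (nat_lit 10) (nat_lit 5) (nat_lit 12) (nat_lit 4) (nat_lit 10) (nat_lit 4) (nat_lit 482) (nat_lit 370) (nat_lit 348)) (XT.lf (nat_lit 0) (nat_lit 2851121342) (nat_lit 76) (nat_lit 22746889300) (nat_lit 76) (nat_lit 20220827077) (nat_lit 9) (nat_lit 4) (nat_lit 10) (nat_lit 5) (nat_lit 10) (nat_lit 4) (nat_lit 483) (nat_lit 370) (nat_lit 347))) (XT.nd (nat_lit 78) (nat_lit 0) (nat_lit 0) (XT.lf (nat_lit 0) (nat_lit 16477969929) (nat_lit 76) (nat_lit 16939715849) (nat_lit 76) (nat_lit 14355585897) (nat_lit 9) (nat_lit 4) (nat_lit 10) (nat_lit 5) (nat_lit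 10) (nat_lit 4) (nat_lit 484) (nat_lit 370) (nat_lit 346)) (XT.lf (nat_lit 0) (nat_lit 30536625618) (nat_lit 76) (nat_lit 10967230776) (nat_lit 76) (nat_lit 8327798226) (nat_lit 9) (nat_lit 4) (nat_lit 10) (nat_lit 5) (nat_lit 10) (nat_lit 4) (nat_lit 485) (nat_lit 370) (nat_lit 345)))))) (XT.nd (nat_lit 546) (nat_lit 152) (nat_lit 0) (XT.nd (nat_lit 234) (nat_lit 76) (nat_lit 0) (XT.nd (nat_lit 78) (nat_lit 152) (nat_lit 0) (XT.lf (nat_lit 0) (nat_lit 45060561397) (nat_lit 76) (nat_lit 4815213879) (nat_lit 76) (nat_lit 2123112189) (nat_lit 9) (nat_lit 4) (nat_lit 10) (nat_lit 5) (nat_lit 10) (nat_lit 4) (nat_lit 486) (nat_lit 370) (nat_lit 344)) (XT.nd (nat_lit 78) (nat_lit 0) (nat_lit 0) (XT.lf (nat_lit 0) (nat_lit 4255528943) (nat_lit 152) (nat_lit 48371462663) (nat_lit 0) (nat_lit 1643850108) (nat_lit 7) (nat_lit 5) (nat_lit 9) (nat_lit 4) (nat_lit 7) (nat_lit 4) (nat_lit 487) (nat_lit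 370) (nat_lit 343)) (XT.lf (nat_lit 0) (nat_lit 10965508379) (nat_lit 152) (nat_lit 37376627608) (nat_lit 0) (nat_lit 8308331960) (nat_lit 7) (nat_lit 5) (nat_lit 9) (nat_lit 4) (nat_lit 7) (nat_lit 4) (nat_lit 488) (nat_lit 370) (nat_lit 342)))) (XT.nd (nat_lit 156) (nat_lit 76) (nat_lit 0) (XT.nd (nat_lit 78) (nat_lit 0) (nat_lit 0) (XT.lf (nat_lit 0) (nat_lit 17901833077) (nat_lit 152) (nat_lit 26051376732) (nat_lit 0) (nat_lit 15201325626) (nat_lit 7) (nat_lit 5) (nat_lit 9) (nat_lit 4) (nat_lit 7) (nat_lit 4) (nat_lit 489) (nat_lit 370) (nat_lit 341)) (XT.lf (nat_lit 0) (nat_lit 25081018094) (nat_lit 152) (nat_lit 14368745151) (nat_lit 0) (nat_lit 22339242993) (nat_lit 7) (nat_lit 5) (nat_lit 9) (nat_lit 4) (nat_lit 7) (nat_lit 4) (nat_lit 490) (nat_lit 370) (nat_lit 340))) (XT.nd (nat_lit 78) (nat_lit 76) (nat_lit 0) (XT.lf (nat_lit 0) (nat_lit 32520156728) (nat_lit 152) (nat_lit 2300917077)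 (nat_lit 0) (nat_lit 29739079103) (nat_lit 7) (nat_lit 5) (nat_lit 9) (nat_lit 4) (nat_lit 7) (nat_lit 4) (nat_lit 491) (nat_lit 370) (nat_lit 339)) (XT.lf (nat_lit 0) (nat_lit 10517464977) (nat_lit 76) (nat_lit 29883703341) (nat_lit 76) (nat_lit 27065194741) (nat_lit 6) (nat_lit 4) (nat_lit 7) (nat_lit 5) (nat_lit 7) (nat_lit 4) (nat_lit 492) (nat_lit 370) (nat_lit 338))))) (XT.nd (nat_lit 234) (nat_lit 152) (nat_lit 0) (XT.nd (nat_lit 78) (nat_lit 0) (nat_lit 0) (XT.lf (nat_lit 0) (nat_lit 23870242633) (nat_lit 76) (nat_lit 24752243648) (nat_lit 76) (nat_lit 21898086501) (nat_lit 6) (nat_lit 4) (nat_lit 7) (nat_lit 5) (nat_lit 7) (nat_lit 4) (nat_lit 493) (nat_lit 370) (nat_lit 337)) (XT.nd (nat_lit 78) (nat_lit 0) (nat_lit 0) (XT.lf (nat_lit 0) (nat_lit 37713129507) (nat_lit 76) (nat_lit 19453444111) (nat_lit 76) (nat_lit 16565335965) (nat_lit 6) (nat_lit 4) (nat_lit 7) (nat_lit 5) (nat_lit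 7) (nat_lit 4) (nat_lit 494) (nat_lit 370) (nat_lit 336)) (XT.lf (nat_lit 0) (nat_lit 52079084855) (nat_lit 76) (nat_lit 13974688539) (nat_lit 76) (nat_lit 11054246110) (nat_lit 6) (nat_lit 4) (nat_lit 7) (nat_lit 5) (nat_lit 7) (nat_lit 4) (nat_lit 495) (nat_lit 370) (nat_lit 335)))) (XT.nd (nat_lit 156) (nat_lit 76) (nat_lit 0) (XT.nd (nat_lit 78) (nat_lit 76) (nat_lit 0) (XT.lf (nat_lit 0) (nat_lit 67002313331) (nat_lit 76) (nat_lit 8302932277) (nat_lit 76) (nat_lit 5351695292) (nat_lit 6) (nat_lit 4) (nat_lit 7) (nat_lit 5) (nat_lit 7) (nat_lit 4) (nat_lit 496) (nat_lit 370) (nat_lit 334)) (XT.lf (nat_lit 0) (nat_lit 538101910) (nat_lit 152) (nat_lit 1877456216) (nat_lit 76) (nat_lit 81971131507) (nat_lit 5) (nat_lit 5) (nat_lit 7) (nat_lit 5) (nat_lit 6) (nat_lit 4) (nat_lit 497) (nat_lit 370) (nat_lit 333))) (XT.nd (nat_lit 78) (nat_lit 0) (nat_lit 0) (XT.lf (nat_lit 0) (nat_lit 6695847356)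 (nat_lit 152) (nat_lit 77764415271) (nat_lit 0) (nat_lit 3830612401) (nat_lit 4) (nat_lit 5) (nat_lit 6) (nat_lit 4) (nat_lit 4) (nat_lit 4) (nat_lit 498) (nat_lit 370) (nat_lit 332)) (XT.lf (nat_lit 0) (nat_lit 13159649502) (nat_lit 152) (nat_lit 68961633248) (nat_lit 0) (nat_lit 10269079790) (nat_lit 4) (nat_lit 5) (nat_lit 6) (nat_lit 4) (nat_lit 4) (nat_lit 4) (nat_lit 499) (nat_lit 370) (nat_lit 331))))))) (XT.nd (nat_lit 1092) (nat_lit 152) (nat_lit 0) (XT.nd (nat_lit 546) (nat_lit 0) (nat_lit 0) (XT.nd (nat_lit 234) (nat_lit 76) (nat_lit 0) (XT.nd (nat_lit 78) (nat_lit 0) (nat_lit 0) (XT.lf (nat_lit 0) (nat_lit 19876406751) (nat_lit 152) (nat_lit 59860221983) (nat_lit 0) (nat_lit 16961708699) (nat_lit 4) (nat_lit 5) (nat_lit 6) (nat_lit 4) (nat_lit 4) (nat_lit 4) (nat_lit 500) (nat_lit 370) (nat_lit 330)) (XT.nd (nat_lit 78) (nat_lit 0) (nat_lit 0) (XT.lf (nat_lit 0) (nat_lit 26862111383)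 (nat_lit 152) (nat_lit 50438511449) (nat_lit 0) (nat_lit 23924433958) (nat_lit 4) (nat_lit 5) (nat_lit 6) (nat_lit 4) (nat_lit 4) (nat_lit 4) (nat_lit 501) (nat_lit 370) (nat_lit 329)) (XT.lf (nat_lit 0) (nat_lit 34133396026) (nat_lit 152) (nat_lit 40674069002) (nat_lit 0) (nat_lit 31173833486) (nat_lit 4) (nat_lit 5) (nat_lit 6) (nat_lit 4) (nat_lit 4) (nat_lit 4) (nat_lit 502) (nat_lit 370) (nat_lit 328)))) (XT.nd (nat_lit 156) (nat_lit 76) (nat_lit 0) (XT.nd (nat_lit 78) (nat_lit 0) (nat_lit 0) (XT.lf (nat_lit 0) (nat_lit 41707573265) (nat_lit 152) (nat_lit 30543645971) (nat_lit 0) (nat_lit 38727167757) (nat_lit 4) (nat_lit 5) (nat_lit 6) (nat_lit 4) (nat_lit 4) (nat_lit 4) (nat_lit 503) (nat_lit 370) (nat_lit 327)) (XT.lf (nat_lit 0) (nat_lit 49602676853) (nat_lit 152) (nat_lit 20023122299) (nat_lit 0) (nat_lit 46602420900) (nat_lit 4) (nat_lit 5) (nat_lit 6) (nat_lit 4) (nat_lit 4) (nat_lit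 4) (nat_lit 504) (nat_lit 370) (nat_lit 326))) (XT.nd (nat_lit 78) (nat_lit 76) (nat_lit 0) (XT.lf (nat_lit 0) (nat_lit 57837504657) (nat_lit 152) (nat_lit 9087449122) (nat_lit 0) (nat_lit 54818343518) (nat_lit 4) (nat_lit 5) (nat_lit 6) (nat_lit 4) (nat_lit 4) (nat_lit 4) (nat_lit 505) (nat_lit 370) (nat_lit 325)) (XT.lf (nat_lit 0) (nat_lit 2365109141) (nat_lit 76) (nat_lit 64103480250) (nat_lit 76) (nat_lit 61066314172) (nat_lit 3) (nat_lit 4) (nat_lit 4) (nat_lit 5) (nat_lit 4) (nat_lit 4) (nat_lit 506) (nat_lit 370) (nat_lit 324))))) (XT.nd (nat_lit 234) (nat_lit 0) (nat_lit 0) (XT.nd (nat_lit 78) (nat_lit 0) (nat_lit 0) (XT.lf (nat_lit 0) (nat_lit 14601897370) (nat_lit 76) (nat_lit 61031694563) (nat_lit 76) (nat_lit 57977380924) (nat_lit 3) (nat_lit 4) (nat_lit 4) (nat_lit 5) (nat_lit 4) (nat_lit 4) (nat_lit 507) (nat_lit 370) (nat_lit 323)) (XT.nd (nat_lit 78) (nat_lit 0) (nat_lit 0)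 (XT.lf (nat_lit 0) (nat_lit 27351578666) (nat_lit 76) (nat_lit 57856183290) (nat_lit 76) (nat_lit 54785538641) (nat_lit 3) (nat_lit 4) (nat_lit 4) (nat_lit 5) (nat_lit 4) (nat_lit 4) (nat_lit 508) (nat_lit 370) (nat_lit 322)) (XT.lf (nat_lit 0) (nat_lit 40644509414) (nat_lit 76) (nat_lit 54569385690) (nat_lit 76) (nat_lit 51483187698) (nat_lit 3) (nat_lit 4) (nat_lit 4) (nat_lit 5) (nat_lit 4) (nat_lit 4) (nat_lit 509) (nat_lit 370) (nat_lit 321)))) (XT.nd (nat_lit 156) (nat_lit 0) (nat_lit 0) (XT.nd (nat_lit 78) (nat_lit 0) (nat_lit 0) (XT.lf (nat_lit 0) (nat_lit 54512339449) (nat_lit 76) (nat_lit 51163476055) (nat_lit 76) (nat_lit 48062465355) (nat_lit 3) (nat_lit 4) (nat_lit 4) (nat_lit 5) (nat_lit 4) (nat_lit 4) (nat_lit 510) (nat_lit 370) (nat_lit 320)) (XT.lf (nat_lit 0) (nat_lit 68988087413) (nat_lit 76) (nat_lit 47630345076) (nat_lit 76) (nat_lit 44515227035) (nat_lit 3) (nat_lit 4)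 (nat_lit 4) (nat_lit 5) (nat_lit 4) (nat_lit 4) (nat_lit 511) (nat_lit 370) (nat_lit 319))) (XT.nd (nat_lit 78) (nat_lit 0) (nat_lit 0) (XT.lf (nat_lit 0) (nat_lit 84106219374) (nat_lit 76) (nat_lit 43961580536) (nat_lit 76) (nat_lit 40833026932) (nat_lit 3) (nat_lit 4) (nat_lit 4) (nat_lit 5) (nat_lit 4) (nat_lit 4) (nat_lit 512) (nat_lit 370) (nat_lit 318)) (XT.lf (nat_lit 0) (nat_lit 99902730883) (nat_lit 76) (nat_lit 40148447282) (nat_lit 76) (nat_lit 37007097904) (nat_lit 3) (nat_lit 4) (nat_lit 4) (nat_lit 5) (nat_lit 4) (nat_lit 4) (nat_lit 513) (nat_lit 370) (nat_lit 317)))))) (XT.nd (nat_lit 546) (nat_lit 152) (nat_lit 0) (XT.nd (nat_lit 234) (nat_lit 0) (nat_lit 0) (XT.nd (nat_lit 78) (nat_lit 0) (nat_lit 0) (XT.lf (nat_lit 0) (nat_lit 116415232682) (nat_lit 76) (nat_lit 36181866425) (nat_lit 76) (nat_lit 33028330596) (nat_lit 3) (nat_lit 4) (nat_lit 4) (nat_lit 5) (nat_lit 4) (nat_lit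 4) (nat_lit 514) (nat_lit 370) (nat_lit 316)) (XT.nd (nat_lit 78) (nat_lit 0) (nat_lit 0) (XT.lf (nat_lit 0) (nat_lit 133683040252) (nat_lit 76) (nat_lit 32052393724) (nat_lit 76) (nat_lit 28887251751) (nat_lit 3) (nat_lit 4) (nat_lit 4) (nat_lit 5) (nat_lit 4) (nat_lit 4) (nat_lit 515) (nat_lit 370) (nat_lit 315)) (XT.lf (nat_lit 0) (nat_lit 151747267420) (nat_lit 76) (nat_lit 27750197103) (nat_lit 76) (nat_lit 24574001659) (nat_lit 3) (nat_lit 4) (nat_lit 4) (nat_lit 5) (nat_lit 4) (nat_lit 4) (nat_lit 516) (nat_lit 370) (nat_lit 314)))) (XT.nd (nat_lit 156) (nat_lit 0) (nat_lit 0) (XT.nd (nat_lit 78) (nat_lit 0) (nat_lit 0) (XT.lf (nat_lit 0) (nat_lit 170650924250) (nat_lit 76) (nat_lit 23265033235) (nat_lit 76) (nat_lit 20078310677) (nat_lit 3) (nat_lit 4) (nat_lit 4) (nat_lit 5) (nat_lit 4) (nat_lit 4) (nat_lit 517) (nat_lit 370) (nat_lit 313)) (XT.lf (nat_lit 0) (nat_lit 190439019451)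 (nat_lit 76) (nat_lit 18586223160) (nat_lit 76) (nat_lit 15389474777) (nat_lit 3) (nat_lit 4) (nat_lit 4) (nat_lit 5) (nat_lit 4) (nat_lit 4) (nat_lit 518) (nat_lit 370) (nat_lit 312))) (XT.nd (nat_lit 78) (nat_lit 0) (nat_lit 0) (XT.lf (nat_lit 0) (nat_lit 211158667533) (nat_lit 76) (nat_lit 13702626852) (nat_lit 76) (nat_lit 10496330066) (nat_lit 3) (nat_lit 4) (nat_lit 4) (nat_lit 5) (nat_lit 4) (nat_lit 4) (nat_lit 519) (nat_lit 370) (nat_lit 311)) (XT.lf (nat_lit 0) (nat_lit 232859200993) (nat_lit 76) (nat_lit 8602616703) (nat_lit 76) (nat_lit 5387226199) (nat_lit 3) (nat_lit 4) (nat_lit 4) (nat_lit 5) (nat_lit 4) (nat_lit 4) (nat_lit 520) (nat_lit 370) (nat_lit 310))))) (XT.nd (nat_lit 312) (nat_lit 0) (nat_lit 0) (XT.nd (nat_lit 156) (nat_lit 0) (nat_lit 0) (XT.nd (nat_lit 78) (nat_lit 152) (nat_lit 0) (XT.lf (nat_lit 0) (nat_lit 255592287767) (nat_lit 76) (nat_lit 3274049830) (nat_lit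 76) (nat_lit 49998642) (nat_lit 3) (nat_lit 4) (nat_lit 4) (nat_lit 5) (nat_lit 4) (nat_lit 4) (nat_lit 521) (nat_lit 370) (nat_lit 309)) (XT.lf (nat_lit 0) (nat_lit 5515230458) (nat_lit 152) (nat_lit 263623632097) (nat_lit 0) (nat_lit 2436850022) (nat_lit 1) (nat_lit 5) (nat_lit 3) (nat_lit 4) (nat_lit 1) (nat_lit 4) (nat_lit 522) (nat_lit 370) (nat_lit 308))) (XT.nd (nat_lit 78) (nat_lit 0) (nat_lit 0) (XT.lf (nat_lit 0) (nat_lit 11442759797) (nat_lit 152) (nat_lit 265064073450) (nat_lit 0) (nat_lit 8356897937) (nat_lit 1) (nat_lit 5) (nat_lit 3) (nat_lit 4) (nat_lit 1) (nat_lit 4) (nat_lit 523) (nat_lit 370) (nat_lit 307)) (XT.lf (nat_lit 0) (nat_lit 17642693117) (nat_lit 152) (nat_lit 266624950508) (nat_lit 0) (nat_lit 14549706092) (nat_lit 1) (nat_lit 5) (nat_lit 3) (nat_lit 4) (nat_lit 1) (nat_lit 4) (nat_lit 524) (nat_lit 370) (nat_lit 306)))) (XT.nd (nat_lit 156) (nat_lit 0) (nat_lit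 0) (XT.nd (nat_lit 78) (nat_lit 0) (nat_lit 0) (XT.lf (nat_lit 0) (nat_lit 24129792165) (nat_lit 152) (nat_lit 268309979645) (nat_lit 0) (nat_lit 21030019268) (nat_lit 1) (nat_lit 5) (nat_lit 3) (nat_lit 4) (nat_lit 1) (nat_lit 4) (nat_lit 525) (nat_lit 370) (nat_lit 305)) (XT.lf (nat_lit 0) (nat_lit 30919502414) (nat_lit 152) (nat_lit 270123172835) (nat_lit 0) (nat_lit 27813266781) (nat_lit 1) (nat_lit 5) (nat_lit 3) (nat_lit 4) (nat_lit 1) (nat_lit 4) (nat_lit 526) (nat_lit 370) (nat_lit 304))) (XT.nd (nat_lit 78) (nat_lit 0) (nat_lit 0) (XT.lf (nat_lit 0) (nat_lit 38027989840) (nat_lit 152) (nat_lit 272068847205) (nat_lit 0) (nat_lit 34915599221) (nat_lit 1) (nat_lit 5) (nat_lit 3) (nat_lit 4) (nat_lit 1) (nat_lit 4) (nat_lit 527) (nat_lit 370) (nat_lit 303)) (XT.lf (nat_lit 0) (nat_lit 45472179414) (nat_lit 152) (nat_lit 274151635312) (nat_lit 0) (nat_lit 42353926904) (nat_lit 1) (nat_lit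 5) (nat_lit 3) (nat_lit 4) (nat_lit 1) (nat_lit 4) (nat_lit 528) (nat_lit 370) (nat_lit 302))))))))
noncomputable def xc34 : XT := (XT.nd (nat_lit 57720) (nat_lit 0) (nat_lit 380) (XT.nd (nat_lit 1092) (nat_lit 0) (nat_lit 0) (XT.nd (nat_lit 546) (nat_lit 0) (nat_lit 0) (XT.nd (nat_lit 234) (nat_lit 0) (nat_lit 0) (XT.nd (nat_lit 78) (nat_lit 0) (nat_lit 0) (XT.lf (nat_lit 0) (nat_lit 53269795398) (nat_lit 152) (nat_lit 276376496176) (nat_lit 0) (nat_lit 50145960134) (nat_lit 1) (nat_lit 5) (nat_lit 3) (nat_lit 4) (nat_lit 1) (nat_lit 4) (nat_lit 529) (nat_lit 370) (nat_lit 301)) (XT.nd (nat_lit 78) (nat_lit 0) (nat_lit 0) (XT.lf (nat_lit 0) (nat_lit 61439403542) (nat_lit 152) (nat_lit 278748727085) (nat_lit 0) (nat_lit 58310251369) (nat_lit 1) (nat_lit 5) (nat_lit 3) (nat_lit 4) (nat_lit 1) (nat_lit 4) (nat_lit 530) (nat_lit 370) (nat_lit 300)) (XT.lf (nat_lit 0) (nat_lit 70000455295) (nat_lit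 152) (nat_lit 281273976208) (nat_lit 0) (nat_lit 66866239400) (nat_lit 1) (nat_lit 5) (nat_lit 3) (nat_lit 4) (nat_lit 1) (nat_lit 4) (nat_lit 531) (nat_lit 370) (nat_lit 299)))) (XT.nd (nat_lit 156) (nat_lit 0) (nat_lit 0) (XT.nd (nat_lit 78) (nat_lit 0) (nat_lit 0) (XT.lf (nat_lit 0) (nat_lit 78973334114) (nat_lit 152) (nat_lit 283958256042) (nat_lit 0) (nat_lit 75834295627) (nat_lit 1) (nat_lit 5) (nat_lit 3) (nat_lit 4) (nat_lit 1) (nat_lit 4) (nat_lit 532) (nat_lit 370) (nat_lit 298)) (XT.lf (nat_lit 0) (nat_lit 88379403996) (nat_lit 152) (nat_lit 286807957730) (nat_lit 0) (nat_lit 85235772563) (nat_lit 1) (nat_lit 5) (nat_lit 3) (nat_lit 4) (nat_lit 1) (nat_lit 4) (nat_lit 533) (nat_lit 370) (nat_lit 297))) (XT.nd (nat_lit 78) (nat_lit 0) (nat_lit 0) (XT.lf (nat_lit 0) (nat_lit 98241060345) (nat_lit 152) (nat_lit 289829866276) (nat_lit 0) (nat_lit 95093054678) (nat_lit 1) (nat_lit 5)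 (nat_lit 3) (nat_lit 4) (nat_lit 1) (nat_lit 4) (nat_lit 534) (nat_lit 370) (nat_lit 296)) (XT.lf (nat_lit 0) (nat_lit 108581783295) (nat_lit 152) (nat_lit 293031176700) (nat_lit 0) (nat_lit 105429611692) (nat_lit 1) (nat_lit 5) (nat_lit 3) (nat_lit 4) (nat_lit 1) (nat_lit 4) (nat_lit 535) (nat_lit 370) (nat_lit 295))))) (XT.nd (nat_lit 234) (nat_lit 0) (nat_lit 0) (XT.nd (nat_lit 78) (nat_lit 0) (nat_lit 0) (XT.lf (nat_lit 0) (nat_lit 119426193616) (nat_lit 152) (nat_lit 296419511170) (nat_lit 0) (nat_lit 116270054454) (nat_lit 1) (nat_lit 5) (nat_lit 3) (nat_lit 4) (nat_lit 1) (nat_lit 4) (nat_lit 536) (nat_lit 370) (nat_lit 294)) (XT.nd (nat_lit 78) (nat_lit 0) (nat_lit 0) (XT.lf (nat_lit 0) (nat_lit 130800111332) (nat_lit 152) (nat_lit 300002937149) (nat_lit 0) (nat_lit 127640193542) (nat_lit 1) (nat_lit 5) (nat_lit 3) (nat_lit 4) (nat_lit 1) (nat_lit 4) (nat_lit 537) (nat_lit 370) (nat_lit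 293)) (XT.lf (nat_lit 0) (nat_lit 142730617199) (nat_lit 152) (nat_lit 303789986604) (nat_lit 0) (nat_lit 139567100717) (nat_lit 1) (nat_lit 5) (nat_lit 3) (nat_lit 4) (nat_lit 1) (nat_lit 4) (nat_lit 538) (nat_lit 370) (nat_lit 292)))) (XT.nd (nat_lit 156) (nat_lit 0) (nat_lit 0) (XT.nd (nat_lit 78) (nat_lit 0) (nat_lit 0) (XT.lf (nat_lit 0) (nat_lit 155246117184) (nat_lit 152) (nat_lit 307789676319) (nat_lit 0) (nat_lit 152079173375) (nat_lit 1) (nat_lit 5) (nat_lit 3) (nat_lit 4) (nat_lit 1) (nat_lit 4) (nat_lit 539) (nat_lit 370) (nat_lit 291)) (XT.lf (nat_lit 0) (nat_lit 168376410097) (nat_lit 152) (nat_lit 312011529364) (nat_lit 0) (nat_lit 165206202167) (nat_lit 1) (nat_lit 5) (nat_lit 3) (nat_lit 4) (nat_lit 1) (nat_lit 4) (nat_lit 540) (nat_lit 370) (nat_lit 290))) (XT.nd (nat_lit 78) (nat_lit 0) (nat_lit 0) (XT.lf (nat_lit 0) (nat_lit 182152758539) (nat_lit 152) (nat_lit 316465597772)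 (nat_lit 0) (nat_lit 178979441923) (nat_lit 1) (nat_lit 5) (nat_lit 3) (nat_lit 4) (nat_lit 1) (nat_lit 4) (nat_lit 541) (nat_lit 370) (nat_lit 289)) (XT.lf (nat_lit 0) (nat_lit 196607963339) (nat_lit 152) (nat_lit 321162486466) (nat_lit 0) (nat_lit 193431686070) (nat_lit 1) (nat_lit 5) (nat_lit 3) (nat_lit 4) (nat_lit 1) (nat_lit 4) (nat_lit 542) (nat_lit 370) (nat_lit 288)))))) (XT.nd (nat_lit 56082) (nat_lit 0) (nat_lit 1368) (XT.nd (nat_lit 234) (nat_lit 0) (nat_lit 0) (XT.nd (nat_lit 78) (nat_lit 0) (nat_lit 0) (XT.lf (nat_lit 0) (nat_lit 211776441654) (nat_lit 152) (nat_lit 326113378515) (nat_lit 0) (nat_lit 208597344714) (nat_lit 1) (nat_lit 5) (nat_lit 3) (nat_lit 4) (nat_lit 1) (nat_lit 4) (nat_lit 543) (nat_lit 370) (nat_lit 287)) (XT.nd (nat_lit 78) (nat_lit 0) (nat_lit 0) (XT.lf (nat_lit 0) (nat_lit 227694308906) (nat_lit 152) (nat_lit 331330061757) (nat_lit 0) (nat_lit 224512526566)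 (nat_lit 1) (nat_lit 5) (nat_lit 3) (nat_lit 4) (nat_lit 1) (nat_lit 4) (nat_lit 544) (nat_lit 370) (nat_lit 286)) (XT.lf (nat_lit 0) (nat_lit 244399464780) (nat_lit 152) (nat_lit 336824956867) (nat_lit 0) (nat_lit 241215124917) (nat_lit 1) (nat_lit 5) (nat_lit 3) (nat_lit 4) (nat_lit 1) (nat_lit 4) (nat_lit 545) (nat_lit 370) (nat_lit 285)))) (XT.nd (nat_lit 55692) (nat_lit 0) (nat_lit 1824) (XT.nd (nat_lit 55614) (nat_lit 0) (nat_lit 2052) (XT.lf (nat_lit 0) (nat_lit 261931683456) (nat_lit 152) (nat_lit 342611146928) (nat_lit 0) (nat_lit 258744907856) (nat_lit 1) (nat_lit 5) (nat_lit 3) (nat_lit 4) (nat_lit 1) (nat_lit 4) (nat_lit 546) (nat_lit 370) (nat_lit 284)) (XT.lf (nat_lit 0) (nat_lit 2877217460) (nat_lit 152) (nat_lit 3517867260) (nat_lit 0) (nat_lit 2877217460) (nat_lit 28) (nat_lit 5) (nat_lit 30) (nat_lit 4) (nat_lit 28) (nat_lit 4) (nat_lit 458) (nat_lit 371) (nat_lit 371))) (XT.nd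 (nat_lit 78) (nat_lit 152) (nat_lit 0) (XT.lf (nat_lit 0) (nat_lit 6441915584) (nat_lit 76) (nat_lit 6462110157) (nat_lit 76) (nat_lit 6211144784) (nat_lit 27) (nat_lit 4) (nat_lit 28) (nat_lit 5) (nat_lit 28) (nat_lit 4) (nat_lit 459) (nat_lit 371) (nat_lit 370)) (XT.lf (nat_lit 0) (nat_lit 576257833) (nat_lit 152) (nat_lit 19032778347) (nat_lit 0) (nat_lit 109610201) (nat_lit 25) (nat_lit 5) (nat_lit 27) (nat_lit 4) (nat_lit 25) (nat_lit 4) (nat_lit 460) (nat_lit 371) (nat_lit 369))))) (XT.nd (nat_lit 234) (nat_lit 228) (nat_lit 0) (XT.nd (nat_lit 78) (nat_lit 228) (nat_lit 0) (XT.lf (nat_lit 0) (nat_lit 7587242152) (nat_lit 152) (nat_lit 5851525523) (nat_lit 0) (nat_lit 6903801194) (nat_lit 25) (nat_lit 5) (nat_lit 27) (nat_lit 4) (nat_lit 25) (nat_lit 4) (nat_lit 461) (nat_lit 371) (nat_lit 368)) (XT.nd (nat_lit 78) (nat_lit 152) (nat_lit 0) (XT.lf (nat_lit 0) (nat_lit 7808601509) (nat_lit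 76) (nat_lit 7041959129) (nat_lit 76) (nat_lit 6152048339) (nat_lit 24) (nat_lit 4) (nat_lit 25) (nat_lit 5) (nat_lit 25) (nat_lit 4) (nat_lit 462) (nat_lit 371) (nat_lit 367)) (XT.lf (nat_lit 0) (nat_lit 227184728) (nat_lit 76) (nat_lit 413660859) (nat_lit 152) (nat_lit 21059982205) (nat_lit 22) (nat_lit 5) (nat_lit 23) (nat_lit 5) (nat_lit 24) (nat_lit 4) (nat_lit 463) (nat_lit 371) (nat_lit 366)))) (XT.nd (nat_lit 156) (nat_lit 152) (nat_lit 0) (XT.nd (nat_lit 78) (nat_lit 76) (nat_lit 0) (XT.lf (nat_lit 0) (nat_lit 7676752756) (nat_lit 152) (nat_lit 8283077482) (nat_lit 0) (nat_lit 6463588040) (nat_lit 22) (nat_lit 5) (nat_lit 24) (nat_lit 4) (nat_lit 22) (nat_lit 4) (nat_lit 464) (nat_lit 371) (nat_lit 365)) (XT.lf (nat_lit 0) (nat_lit 5319957955) (nat_lit 76) (nat_lit 9625581462) (nat_lit 76) (nat_lit 8242553503) (nat_lit 21) (nat_lit 4) (nat_lit 22) (nat_lit 5) (nat_lit 22) (nat_lit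 4) (nat_lit 465) (nat_lit 371) (nat_lit 364))) (XT.nd (nat_lit 78) (nat_lit 152) (nat_lit 0) (XT.lf (nat_lit 0) (nat_lit 19486787694) (nat_lit 76) (nat_lit 3026133356) (nat_lit 76) (nat_lit 1481330880) (nat_lit 21) (nat_lit 4) (nat_lit 22) (nat_lit 5) (nat_lit 22) (nat_lit 4) (nat_lit 466) (nat_lit 371) (nat_lit 363)) (XT.lf (nat_lit 0) (nat_lit 5447182806) (nat_lit 152) (nat_lit 15559498047) (nat_lit 0) (nat_lit 3829208097) (nat_lit 19) (nat_lit 5) (nat_lit 21) (nat_lit 4) (nat_lit 19) (nat_lit 4) (nat_lit 467) (nat_lit 371) (nat_lit 362))))))) (XT.nd (nat_lit 1092) (nat_lit 304) (nat_lit 0) (XT.nd (nat_lit 546) (nat_lit 380) (nat_lit 0) (XT.nd (nat_lit 234) (nat_lit 152) (nat_lit 0) (XT.nd (nat_lit 78) (nat_lit 152) (nat_lit 0) (XT.lf (nat_lit 0) (nat_lit 12601452518) (nat_lit 152) (nat_lit 2276761831) (nat_lit 0) (nat_lit 10843730899) (nat_lit 19) (nat_lit 5) (nat_lit 21) (nat_lit 4) (nat_lit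 19) (nat_lit 4) (nat_lit 468) (nat_lit 371) (nat_lit 361)) (XT.nd (nat_lit 78) (nat_lit 76) (nat_lit 0) (XT.lf (nat_lit 0) (nat_lit 11670542066) (nat_lit 76) (nat_lit 8436452593) (nat_lit 76) (nat_lit 6545638678) (nat_lit 18) (nat_lit 4) (nat_lit 19) (nat_lit 5) (nat_lit 19) (nat_lit 4) (nat_lit 469) (nat_lit 371) (nat_lit 360)) (XT.lf (nat_lit 0) (nat_lit 197246917) (nat_lit 152) (nat_lit 1613212302) (nat_lit 76) (nat_lit 25826586172) (nat_lit 17) (nat_lit 5) (nat_lit 19) (nat_lit 5) (nat_lit 18) (nat_lit 4) (nat_lit 470) (nat_lit 371) (nat_lit 359)))) (XT.nd (nat_lit 156) (nat_lit 76) (nat_lit 0) (XT.nd (nat_lit 78) (nat_lit 0) (nat_lit 0) (XT.lf (nat_lit 0) (nat_lit 7153282462) (nat_lit 152) (nat_lit 16390418645) (nat_lit 0) (nat_lit 5116818541) (nat_lit 16) (nat_lit 5) (nat_lit 18) (nat_lit 4) (nat_lit 16) (nat_lit 4) (nat_lit 471) (nat_lit 371) (nat_lit 358)) (XT.lf (nat_lit 0) (nat_lit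 14335474145) (nat_lit 152) (nat_lit 3216266588) (nat_lit 0) (nat_lit 12189514863) (nat_lit 16) (nat_lit 5) (nat_lit 18) (nat_lit 4) (nat_lit 16) (nat_lit 4) (nat_lit 472) (nat_lit 371) (nat_lit 357))) (XT.nd (nat_lit 78) (nat_lit 0) (nat_lit 0) (XT.lf (nat_lit 0) (nat_lit 10617441779) (nat_lit 76) (nat_lit 11254536220) (nat_lit 76) (nat_lit 9004295641) (nat_lit 15) (nat_lit 4) (nat_lit 16) (nat_lit 5) (nat_lit 16) (nat_lit 4) (nat_lit 473) (nat_lit 371) (nat_lit 356)) (XT.lf (nat_lit 0) (nat_lit 24920988693) (nat_lit 76) (nat_lit 4751137110) (nat_lit 76) (nat_lit 2401581011) (nat_lit 15) (nat_lit 4) (nat_lit 16) (nat_lit 5) (nat_lit 16) (nat_lit 4) (nat_lit 474) (nat_lit 371) (nat_lit 355))))) (XT.nd (nat_lit 234) (nat_lit 228) (nat_lit 0) (XT.nd (nat_lit 78) (nat_lit 0) (nat_lit 0) (XT.lf (nat_lit 0) (nat_lit 4356920995) (nat_lit 152) (nat_lit 26942857604) (nat_lit 0) (nat_lit 2029166416)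 (nat_lit 13) (nat_lit 5) (nat_lit 15) (nat_lit 4) (nat_lit 13) (nat_lit 4) (nat_lit 475) (nat_lit 371) (nat_lit 354)) (XT.nd (nat_lit 78) (nat_lit 0) (nat_lit 0) (XT.lf (nat_lit 0) (nat_lit 11411653631) (nat_lit 152) (nat_lit 14233270159) (nat_lit 0) (nat_lit 8998106572) (nat_lit 13) (nat_lit 5) (nat_lit 15) (nat_lit 4) (nat_lit 13) (nat_lit 4) (nat_lit 476) (nat_lit 371) (nat_lit 353)) (XT.lf (nat_lit 0) (nat_lit 18664843229) (nat_lit 152) (nat_lit 1196105937) (nat_lit 0) (nat_lit 16169589045) (nat_lit 13) (nat_lit 5) (nat_lit 15) (nat_lit 4) (nat_lit 13) (nat_lit 4) (nat_lit 477) (nat_lit 371) (nat_lit 352)))) (XT.nd (nat_lit 156) (nat_lit 152) (nat_lit 0) (XT.nd (nat_lit 78) (nat_lit 0) (nat_lit 0) (XT.lf (nat_lit 0) (nat_lit 12603052311) (nat_lit 76) (nat_lit 13727475942) (nat_lit 76) (nat_lit 11154405450) (nat_lit 12) (nat_lit 4) (nat_lit 13) (nat_lit 5) (nat_lit 13) (nat_lit 4) (nat_lit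 478) (nat_lit 371) (nat_lit 351)) (XT.lf (nat_lit 0) (nat_lit 26845183688) (nat_lit 76) (nat_lit 7410129801) (nat_lit 76) (nat_lit 4762948538) (nat_lit 12) (nat_lit 4) (nat_lit 13) (nat_lit 5) (nat_lit 13) (nat_lit 4) (nat_lit 479) (nat_lit 371) (nat_lit 350))) (XT.nd (nat_lit 78) (nat_lit 0) (nat_lit 0) (XT.lf (nat_lit 0) (nat_lit 889831125) (nat_lit 76) (nat_lit 869970861) (nat_lit 152) (nat_lit 38873233953) (nat_lit 10) (nat_lit 5) (nat_lit 11) (nat_lit 5) (nat_lit 12) (nat_lit 4) (nat_lit 480) (nat_lit 371) (nat_lit 349)) (XT.lf (nat_lit 0) (nat_lit 8612192671) (nat_lit 152) (nat_lit 27744449369) (nat_lit 0) (nat_lit 5959827335) (nat_lit 10) (nat_lit 5) (nat_lit 12) (nat_lit 4) (nat_lit 10) (nat_lit 4) (nat_lit 481) (nat_lit 371) (nat_lit 348)))))) (XT.nd (nat_lit 546) (nat_lit 76) (nat_lit 0) (XT.nd (nat_lit 234) (nat_lit 152) (nat_lit 0) (XT.nd (nat_lit 78) (nat_lit 76) (nat_lit 0) (XT.lf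 (nat_lit 0) (nat_lit 15688511661) (nat_lit 152) (nat_lit 15426325342) (nat_lit 0) (nat_lit 12975175212) (nat_lit 10) (nat_lit 5) (nat_lit 12) (nat_lit 4) (nat_lit 10) (nat_lit 4) (nat_lit 482) (nat_lit 371) (nat_lit 347)) (XT.nd (nat_lit 78) (nat_lit 76) (nat_lit 0) (XT.lf (nat_lit 0) (nat_lit 22992024655) (nat_lit 152) (nat_lit 2745921184) (nat_lit 0) (nat_lit 20220620478) (nat_lit 10) (nat_lit 5) (nat_lit 12) (nat_lit 4) (nat_lit 10) (nat_lit 4) (nat_lit 483) (nat_lit 371) (nat_lit 346)) (XT.lf (nat_lit 0) (nat_lit 10668410296) (nat_lit 76) (nat_lit 20038274454) (nat_lit 76) (nat_lit 17211567679) (nat_lit 9) (nat_lit 4) (nat_lit 10) (nat_lit 5) (nat_lit 10) (nat_lit 4) (nat_lit 484) (nat_lit 371) (nat_lit 345)))) (XT.nd (nat_lit 156) (nat_lit 152) (nat_lit 0) (XT.nd (nat_lit 78) (nat_lit 0) (nat_lit 0) (XT.lf (nat_lit 0) (nat_lit 24611137841) (nat_lit 76) (nat_lit 14123883249) (nat_lit 76)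 (nat_lit 11244507334) (nat_lit 9) (nat_lit 4) (nat_lit 10) (nat_lit 5) (nat_lit 10) (nat_lit 4) (nat_lit 485) (nat_lit 371) (nat_lit 344)) (XT.lf (nat_lit 0) (nat_lit 39024665866) (nat_lit 76) (nat_lit 8027193846) (nat_lit 76) (nat_lit 5097656844) (nat_lit 9) (nat_lit 4) (nat_lit 10) (nat_lit 5) (nat_lit 10) (nat_lit 4) (nat_lit 486) (nat_lit 371) (nat_lit 343))) (XT.nd (nat_lit 78) (nat_lit 76) (nat_lit 0) (XT.lf (nat_lit 0) (nat_lit 1203815568) (nat_lit 152) (nat_lit 509487550) (nat_lit 76) (nat_lit 52719109526) (nat_lit 8) (nat_lit 5) (nat_lit 10) (nat_lit 5) (nat_lit 9) (nat_lit 4) (nat_lit 487) (nat_lit 371) (nat_lit 342)) (XT.lf (nat_lit 0) (nat_lit 7825447573) (nat_lit 152) (nat_lit 44044426059) (nat_lit 0) (nat_lit 4946583717) (nat_lit 7) (nat_lit 5) (nat_lit 9) (nat_lit 4) (nat_lit 7) (nat_lit 4) (nat_lit 488) (nat_lit 371) (nat_lit 341))))) (XT.nd (nat_lit 312) (nat_lit 0) (nat_lit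 0) (XT.nd (nat_lit 156) (nat_lit 76) (nat_lit 0) (XT.nd (nat_lit 78) (nat_lit 0) (nat_lit 0) (XT.lf (nat_lit 0) (nat_lit 14711062068) (nat_lit 152) (nat_lit 32821068763) (nat_lit 0) (nat_lit 11790930562) (nat_lit 7) (nat_lit 5) (nat_lit 9) (nat_lit 4) (nat_lit 7) (nat_lit 4) (nat_lit 489) (nat_lit 371) (nat_lit 340)) (XT.lf (nat_lit 0) (nat_lit 21841951655) (nat_lit 152) (nat_lit 21235478687) (nat_lit 0) (nat_lit 18882517625) (nat_lit 7) (nat_lit 5) (nat_lit 9) (nat_lit 4) (nat_lit 7) (nat_lit 4) (nat_lit 490) (nat_lit 371) (nat_lit 339))) (XT.nd (nat_lit 78) (nat_lit 76) (nat_lit 0) (XT.lf (nat_lit 0) (nat_lit 29235094640) (nat_lit 152) (nat_lit 9260071093) (nat_lit 0) (nat_lit 26238229635) (nat_lit 7) (nat_lit 5) (nat_lit 9) (nat_lit 4) (nat_lit 7) (nat_lit 4) (nat_lit 491) (nat_lit 371) (nat_lit 338)) (XT.lf (nat_lit 0) (nat_lit 3237280073) (nat_lit 76) (nat_lit 33721356689) (nat_lit 76)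 (nat_lit 30688843136) (nat_lit 6) (nat_lit 4) (nat_lit 7) (nat_lit 5) (nat_lit 7) (nat_lit 4) (nat_lit 492) (nat_lit 371) (nat_lit 337)))) (XT.nd (nat_lit 156) (nat_lit 0) (nat_lit 0) (XT.nd (nat_lit 78) (nat_lit 0) (nat_lit 0) (XT.lf (nat_lit 0) (nat_lit 16503457892) (nat_lit 76) (nat_lit 28633425357) (nat_lit 76) (nat_lit 25566960807) (nat_lit 6) (nat_lit 4) (nat_lit 7) (nat_lit 5) (nat_lit 7) (nat_lit 4) (nat_lit 493) (nat_lit 371) (nat_lit 336)) (XT.lf (nat_lit 0) (nat_lit 30263868732) (nat_lit 76) (nat_lit 23376081401) (nat_lit 76) (nat_lit 20277282567) (nat_lit 6) (nat_lit 4) (nat_lit 7) (nat_lit 5) (nat_lit 7) (nat_lit 4) (nat_lit 494) (nat_lit 371) (nat_lit 335))) (XT.nd (nat_lit 78) (nat_lit 0) (nat_lit 0) (XT.lf (nat_lit 0) (nat_lit 44551275476) (nat_lit 76) (nat_lit 17936807336) (nat_lit 76) (nat_lit 14807213946) (nat_lit 6) (nat_lit 4) (nat_lit 7) (nat_lit 5) (nat_lit 7) (nat_lit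 4) (nat_lit 495) (nat_lit 371) (nat_lit 334)) (XT.lf (nat_lit 0) (nat_lit 59399695758) (nat_lit 76) (nat_lit 12302652508) (nat_lit 76) (nat_lit 9143730970) (nat_lit 6) (nat_lit 4) (nat_lit 7) (nat_lit 5) (nat_lit 7) (nat_lit 4) (nat_lit 496) (nat_lit 371) (nat_lit 333))))))))
noncomputable def xc35 : XT := (XT.nd (nat_lit 2184) (nat_lit 0) (nat_lit 0) (XT.nd (nat_lit 1092) (nat_lit 152) (nat_lit 0) (XT.nd (nat_lit 546) (nat_lit 76) (nat_lit 0) (XT.nd (nat_lit 234) (nat_lit 0) (nat_lit 0) (XT.nd (nat_lit 78) (nat_lit 152) (nat_lit 0) (XT.lf (nat_lit 0) (nat_lit 74844482960) (nat_lit 76) (nat_lit 6460202264) (nat_lit 76) (nat_lit 3273349157) (nat_lit 6) (nat_lit 4) (nat_lit 7) (nat_lit 5) (nat_lit 7) (nat_lit 4) (nat_lit 497) (nat_lit 371) (nat_lit 332)) (XT.nd (nat_lit 78) (nat_lit 0) (nat_lit 0) (XT.lf (nat_lit 0) (nat_lit 2457006693) (nat_lit 76) (nat_lit 309071987) (nat_lit 152) (nat_lit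 85729851308) (nat_lit 4) (nat_lit 5) (nat_lit 5) (nat_lit 5) (nat_lit 6) (nat_lit 4) (nat_lit 498) (nat_lit 371) (nat_lit 331)) (XT.lf (nat_lit 0) (nat_lit 9190794370) (nat_lit 152) (nat_lit 77300344992) (nat_lit 0) (nat_lit 6106233074) (nat_lit 4) (nat_lit 5) (nat_lit 6) (nat_lit 4) (nat_lit 4) (nat_lit 4) (nat_lit 499) (nat_lit 371) (nat_lit 330)))) (XT.nd (nat_lit 156) (nat_lit 0) (nat_lit 0) (XT.nd (nat_lit 78) (nat_lit 0) (nat_lit 0) (XT.lf (nat_lit 0) (nat_lit 15874922116) (nat_lit 152) (nat_lit 68264675822) (nat_lit 0) (nat_lit 12767381449) (nat_lit 4) (nat_lit 5) (nat_lit 6) (nat_lit 4) (nat_lit 4) (nat_lit 4) (nat_lit 500) (nat_lit 371) (nat_lit 329)) (XT.lf (nat_lit 0) (nat_lit 22829551031) (nat_lit 152) (nat_lit 58905576807) (nat_lit 0) (nat_lit 19700125248) (nat_lit 4) (nat_lit 5) (nat_lit 6) (nat_lit 4) (nat_lit 4) (nat_lit 4) (nat_lit 501) (nat_lit 371) (nat_lit 328))) (XT.nd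 (nat_lit 78) (nat_lit 0) (nat_lit 0) (XT.lf (nat_lit 0) (nat_lit 30071239754) (nat_lit 152) (nat_lit 49200764378) (nat_lit 0) (nat_lit 26920971003) (nat_lit 4) (nat_lit 5) (nat_lit 6) (nat_lit 4) (nat_lit 4) (nat_lit 4) (nat_lit 502) (nat_lit 371) (nat_lit 327)) (XT.lf (nat_lit 0) (nat_lit 37617230401) (nat_lit 152) (nat_lit 39127131840) (nat_lit 0) (nat_lit 34447111205) (nat_lit 4) (nat_lit 5) (nat_lit 6) (nat_lit 4) (nat_lit 4) (nat_lit 4) (nat_lit 503) (nat_lit 371) (nat_lit 326))))) (XT.nd (nat_lit 234) (nat_lit 76) (nat_lit 0) (XT.nd (nat_lit 78) (nat_lit 0) (nat_lit 0) (XT.lf (nat_lit 0) (nat_lit 45485489617) (nat_lit 152) (nat_lit 28660694353) (nat_lit 0) (nat_lit 42296465235) (nat_lit 4) (nat_lit 5) (nat_lit 6) (nat_lit 4) (nat_lit 4) (nat_lit 4) (nat_lit 504) (nat_lit 371) (nat_lit 325)) (XT.nd (nat_lit 78) (nat_lit 0) (nat_lit 0) (XT.lf (nat_lit 0) (nat_lit 53694751351) (nat_lit 152)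 (nat_lit 17776531827) (nat_lit 0) (nat_lit 50487722031) (nat_lit 4) (nat_lit 5) (nat_lit 6) (nat_lit 4) (nat_lit 4) (nat_lit 4) (nat_lit 505) (nat_lit 371) (nat_lit 324)) (XT.lf (nat_lit 0) (nat_lit 62264561467) (nat_lit 152) (nat_lit 6448729590) (nat_lit 0) (nat_lit 59040384585) (nat_lit 4) (nat_lit 5) (nat_lit 6) (nat_lit 4) (nat_lit 4) (nat_lit 4) (nat_lit 506) (nat_lit 371) (nat_lit 323)))) (XT.nd (nat_lit 156) (nat_lit 0) (nat_lit 0) (XT.nd (nat_lit 78) (nat_lit 0) (nat_lit 0) (XT.lf (nat_lit 0) (nat_lit 5526568005) (nat_lit 76) (nat_lit 65775041481) (nat_lit 76) (nat_lit 62534533590) (nat_lit 3) (nat_lit 4) (nat_lit 4) (nat_lit 5) (nat_lit 4) (nat_lit 4) (nat_lit 507) (nat_lit 371) (nat_lit 322)) (XT.lf (nat_lit 0) (nat_lit 18230281198) (nat_lit 76) (nat_lit 62622695690) (nat_lit 76) (nat_lit 59366634455) (nat_lit 3) (nat_lit 4) (nat_lit 4) (nat_lit 5) (nat_lit 4) (nat_lit 4) (nat_lit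 508) (nat_lit 371) (nat_lit 321))) (XT.nd (nat_lit 78) (nat_lit 0) (nat_lit 0) (XT.lf (nat_lit 0) (nat_lit 31479432799) (nat_lit 76) (nat_lit 59357960453) (nat_lit 76) (nat_lit 56087086510) (nat_lit 3) (nat_lit 4) (nat_lit 4) (nat_lit 5) (nat_lit 4) (nat_lit 4) (nat_lit 509) (nat_lit 371) (nat_lit 320)) (XT.lf (nat_lit 0) (nat_lit 45305568408) (nat_lit 76) (nat_lit 55973062593) (nat_lit 76) (nat_lit 52688081309) (nat_lit 3) (nat_lit 4) (nat_lit 4) (nat_lit 5) (nat_lit 4) (nat_lit 4) (nat_lit 510) (nat_lit 371) (nat_lit 319)))))) (XT.nd (nat_lit 546) (nat_lit 152) (nat_lit 0) (XT.nd (nat_lit 234) (nat_lit 0) (nat_lit 0) (XT.nd (nat_lit 78) (nat_lit 0) (nat_lit 0) (XT.lf (nat_lit 0) (nat_lit 59741607396) (nat_lit 76) (nat_lit 52459942827) (nat_lit 76) (nat_lit 49161525981) (nat_lit 3) (nat_lit 4) (nat_lit 4) (nat_lit 5) (nat_lit 4) (nat_lit 4) (nat_lit 511) (nat_lit 371) (nat_lit 318)) (XT.nd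 (nat_lit 78) (nat_lit 0) (nat_lit 0) (XT.lf (nat_lit 0) (nat_lit 74821921283) (nat_lit 76) (nat_lit 48810236586) (nat_lit 76) (nat_lit 45499023966) (nat_lit 3) (nat_lit 4) (nat_lit 4) (nat_lit 5) (nat_lit 4) (nat_lit 4) (nat_lit 512) (nat_lit 371) (nat_lit 317)) (XT.lf (nat_lit 0) (nat_lit 90582415580) (nat_lit 76) (nat_lit 45015254093) (nat_lit 76) (nat_lit 41691855021) (nat_lit 3) (nat_lit 4) (nat_lit 4) (nat_lit 5) (nat_lit 4) (nat_lit 4) (nat_lit 513) (nat_lit 371) (nat_lit 316)))) (XT.nd (nat_lit 156) (nat_lit 0) (nat_lit 0) (XT.nd (nat_lit 78) (nat_lit 0) (nat_lit 0) (XT.lf (nat_lit 0) (nat_lit 107060615272) (nat_lit 76) (nat_lit 41065959675) (nat_lit 76) (nat_lit 37730954459) (nat_lit 3) (nat_lit 4) (nat_lit 4) (nat_lit 5) (nat_lit 4) (nat_lit 4) (nat_lit 514) (nat_lit 371) (nat_lit 315)) (XT.lf (nat_lit 0) (nat_lit 124295754169) (nat_lit 76) (nat_lit 36952950250) (nat_lit 76) (nat_lit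 33606891563) (nat_lit 3) (nat_lit 4) (nat_lit 4) (nat_lit 5) (nat_lit 4) (nat_lit 4) (nat_lit 515) (nat_lit 371) (nat_lit 314))) (XT.nd (nat_lit 78) (nat_lit 0) (nat_lit 0) (XT.lf (nat_lit 0) (nat_lit 142328868314) (nat_lit 76) (nat_lit 32666432938) (nat_lit 76) (nat_lit 29309847136) (nat_lit 3) (nat_lit 4) (nat_lit 4) (nat_lit 5) (nat_lit 4) (nat_lit 4) (nat_lit 516) (nat_lit 371) (nat_lit 313)) (XT.lf (nat_lit 0) (nat_lit 161202893695) (nat_lit 76) (nat_lit 28196201746) (nat_lit 76) (nat_lit 24829590121) (nat_lit 3) (nat_lit 4) (nat_lit 4) (nat_lit 5) (nat_lit 4) (nat_lit 4) (nat_lit 517) (nat_lit 371) (nat_lit 312))))) (XT.nd (nat_lit 234) (nat_lit 152) (nat_lit 0) (XT.nd (nat_lit 78) (nat_lit 0) (nat_lit 0) (XT.lf (nat_lit 0) (nat_lit 180962768468) (nat_lit 76) (nat_lit 23531613267) (nat_lit 76) (nat_lit 20155453238) (nat_lit 3) (nat_lit 4) (nat_lit 4) (nat_lit 5) (nat_lit 4) (nat_lit 4)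 (nat_lit 518) (nat_lit 371) (nat_lit 311)) (XT.nd (nat_lit 78) (nat_lit 0) (nat_lit 0) (XT.lf (nat_lit 0) (nat_lit 201655539952) (nat_lit 76) (nat_lit 18661561336) (nat_lit 76) (nat_lit 15276307590) (nat_lit 3) (nat_lit 4) (nat_lit 4) (nat_lit 5) (nat_lit 4) (nat_lit 4) (nat_lit 519) (nat_lit 371) (nat_lit 310)) (XT.lf (nat_lit 0) (nat_lit 223330476651) (nat_lit 76) (nat_lit 13574450593) (nat_lit 76) (nat_lit 10180536163) (nat_lit 3) (nat_lit 4) (nat_lit 4) (nat_lit 5) (nat_lit 4) (nat_lit 4) (nat_lit 520) (nat_lit 371) (nat_lit 309)))) (XT.nd (nat_lit 156) (nat_lit 76) (nat_lit 0) (XT.nd (nat_lit 78) (nat_lit 76) (nat_lit 0) (XT.lf (nat_lit 0) (nat_lit 246039185558) (nat_lit 76) (nat_lit 8258168870) (nat_lit 76) (nat_lit 4856006170) (nat_lit 3) (nat_lit 4) (nat_lit 4) (nat_lit 5) (nat_lit 4) (nat_lit 4) (nat_lit 521) (nat_lit 371) (nat_lit 308)) (XT.lf (nat_lit 0) (nat_lit 687236694) (nat_lit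 152) (nat_lit 2001182971) (nat_lit 76) (nat_lit 269136859647) (nat_lit 2) (nat_lit 5) (nat_lit 4) (nat_lit 5) (nat_lit 3) (nat_lit 4) (nat_lit 522) (nat_lit 371) (nat_lit 307))) (XT.nd (nat_lit 78) (nat_lit 0) (nat_lit 0) (XT.lf (nat_lit 0) (nat_lit 6528292094) (nat_lit 152) (nat_lit 275315799151) (nat_lit 0) (nat_lit 3273530552) (nat_lit 1) (nat_lit 5) (nat_lit 3) (nat_lit 4) (nat_lit 1) (nat_lit 4) (nat_lit 523) (nat_lit 371) (nat_lit 306)) (XT.lf (nat_lit 0) (nat_lit 12717088371) (nat_lit 152) (nat_lit 276899168027) (nat_lit 0) (nat_lit 9455540957) (nat_lit 1) (nat_lit 5) (nat_lit 3) (nat_lit 4) (nat_lit 1) (nat_lit 4) (nat_lit 524) (nat_lit 371) (nat_lit 305))))))) (XT.nd (nat_lit 1092) (nat_lit 0) (nat_lit 0) (XT.nd (nat_lit 546) (nat_lit 0) (nat_lit 0) (XT.nd (nat_lit 234) (nat_lit 0) (nat_lit 0) (XT.nd (nat_lit 78) (nat_lit 0) (nat_lit 0) (XT.lf (nat_lit 0) (nat_lit 19193580711) (nat_lit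 152) (nat_lit 278605617943) (nat_lit 0) (nat_lit 15925570561) (nat_lit 1) (nat_lit 5) (nat_lit 3) (nat_lit 4) (nat_lit 1) (nat_lit 4) (nat_lit 525) (nat_lit 371) (nat_lit 304)) (XT.nd (nat_lit 78) (nat_lit 0) (nat_lit 0) (XT.lf (nat_lit 0) (nat_lit 25973189333) (nat_lit 152) (nat_lit 280439211874) (nat_lit 0) (nat_lit 22699024197) (nat_lit 1) (nat_lit 5) (nat_lit 3) (nat_lit 4) (nat_lit 1) (nat_lit 4) (nat_lit 526) (nat_lit 371) (nat_lit 303)) (XT.lf (nat_lit 0) (nat_lit 33072056163) (nat_lit 152) (nat_lit 282404315521) (nat_lit 0) (nat_lit 29792029135) (nat_lit 1) (nat_lit 5) (nat_lit 3) (nat_lit 4) (nat_lit 1) (nat_lit 4) (nat_lit 527) (nat_lit 371) (nat_lit 302)))) (XT.nd (nat_lit 156) (nat_lit 0) (nat_lit 0) (XT.nd (nat_lit 78) (nat_lit 0) (nat_lit 0) (XT.lf (nat_lit 0) (nat_lit 40507083264) (nat_lit 152) (nat_lit 284505607703) (nat_lit 0) (nat_lit 37221473483) (nat_lit 1) (nat_lit 5) (nat_lit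 3) (nat_lit 4) (nat_lit 1) (nat_lit 4) (nat_lit 528) (nat_lit 371) (nat_lit 301)) (XT.lf (nat_lit 0) (nat_lit 48295973082) (nat_lit 152) (nat_lit 286748091494) (nat_lit 0) (nat_lit 45005046393) (nat_lit 1) (nat_lit 5) (nat_lit 3) (nat_lit 4) (nat_lit 1) (nat_lit 4) (nat_lit 529) (nat_lit 371) (nat_lit 300))) (XT.nd (nat_lit 78) (nat_lit 0) (nat_lit 0) (XT.lf (nat_lit 0) (nat_lit 56457270593) (nat_lit 152) (nat_lit 289137106144) (nat_lit 0) (nat_lit 53161280181) (nat_lit 1) (nat_lit 5) (nat_lit 3) (nat_lit 4) (nat_lit 1) (nat_lit 4) (nat_lit 530) (nat_lit 371) (nat_lit 299)) (XT.lf (nat_lit 0) (nat_lit 65010407458) (nat_lit 152) (nat_lit 291678339781) (nat_lit 0) (nat_lit 61709594453) (nat_lit 1) (nat_lit 5) (nat_lit 3) (nat_lit 4) (nat_lit 1) (nat_lit 4) (nat_lit 531) (nat_lit 371) (nat_lit 298))))) (XT.nd (nat_lit 234) (nat_lit 0) (nat_lit 0) (XT.nd (nat_lit 78) (nat_lit 0) (nat_lit 0) (XT.lf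 (nat_lit 0) (nat_lit 73975748287) (nat_lit 152) (nat_lit 294377842963) (nat_lit 0) (nat_lit 70670342337) (nat_lit 1) (nat_lit 5) (nat_lit 3) (nat_lit 4) (nat_lit 1) (nat_lit 4) (nat_lit 532) (nat_lit 371) (nat_lit 297)) (XT.nd (nat_lit 78) (nat_lit 0) (nat_lit 0) (XT.lf (nat_lit 0) (nat_lit 83374639132) (nat_lit 152) (nat_lit 297242043077) (nat_lit 0) (nat_lit 80064858948) (nat_lit 1) (nat_lit 5) (nat_lit 3) (nat_lit 4) (nat_lit 1) (nat_lit 4) (nat_lit 533) (nat_lit 371) (nat_lit 296)) (XT.lf (nat_lit 0) (nat_lit 93229458302) (nat_lit 152) (nat_lit 300277759648) (nat_lit 0) (nat_lit 89915512182) (nat_lit 1) (nat_lit 5) (nat_lit 3) (nat_lit 4) (nat_lit 1) (nat_lit 4) (nat_lit 534) (nat_lit 371) (nat_lit 295)))) (XT.nd (nat_lit 156) (nat_lit 0) (nat_lit 0) (XT.nd (nat_lit 78) (nat_lit 0) (nat_lit 0) (XT.lf (nat_lit 0) (nat_lit 103563669654) (nat_lit 152) (nat_lit 303492220572) (nat_lit 0) (nat_lit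 100245755975) (nat_lit 1) (nat_lit 5) (nat_lit 3) (nat_lit 4) (nat_lit 1) (nat_lit 4) (nat_lit 535) (nat_lit 371) (nat_lit 294)) (XT.lf (nat_lit 0) (nat_lit 114401878452) (nat_lit 152) (nat_lit 306893079327) (nat_lit 0) (nat_lit 111080186146) (nat_lit 1) (nat_lit 5) (nat_lit 3) (nat_lit 4) (nat_lit 1) (nat_lit 4) (nat_lit 536) (nat_lit 371) (nat_lit 293))) (XT.nd (nat_lit 78) (nat_lit 0) (nat_lit 0) (XT.lf (nat_lit 0) (nat_lit 125769889956) (nat_lit 152) (nat_lit 310488433198) (nat_lit 0) (nat_lit 122444598957) (nat_lit 1) (nat_lit 5) (nat_lit 3) (nat_lit 4) (nat_lit 1) (nat_lit 4) (nat_lit 537) (nat_lit 371) (nat_lit 292)) (XT.lf (nat_lit 0) (nat_lit 137694770860) (nat_lit 152) (nat_lit 314286842549) (nat_lit 0) (nat_lit 134366052534) (nat_lit 1) (nat_lit 5) (nat_lit 3) (nat_lit 4) (nat_lit 1) (nat_lit 4) (nat_lit 538) (nat_lit 371) (nat_lit 291)))))) (XT.nd (nat_lit 546) (nat_lit 0) (nat_lit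 0) (XT.nd (nat_lit 234) (nat_lit 0) (nat_lit 0) (XT.nd (nat_lit 78) (nat_lit 0) (nat_lit 0) (XT.lf (nat_lit 0) (nat_lit 150204913737) (nat_lit 152) (nat_lit 318297351212) (nat_lit 0) (nat_lit 146872931290) (nat_lit 1) (nat_lit 5) (nat_lit 3) (nat_lit 4) (nat_lit 1) (nat_lit 4) (nat_lit 539) (nat_lit 371) (nat_lit 290)) (XT.nd (nat_lit 78) (nat_lit 0) (nat_lit 0) (XT.lf (nat_lit 0) (nat_lit 163330104641) (nat_lit 152) (nat_lit 322529508019) (nat_lit 0) (nat_lit 159995013508) (nat_lit 1) (nat_lit 5) (nat_lit 3) (nat_lit 4) (nat_lit 1) (nat_lit 4) (nat_lit 540) (nat_lit 371) (nat_lit 289)) (XT.lf (nat_lit 0) (nat_lit 177101594028) (nat_lit 152) (nat_lit 326993389532) (nat_lit 0) (nat_lit 173763542241) (nat_lit 1) (nat_lit 5) (nat_lit 3) (nat_lit 4) (nat_lit 1) (nat_lit 4) (nat_lit 541) (nat_lit 371) (nat_lit 288)))) (XT.nd (nat_lit 156) (nat_lit 0) (nat_lit 0) (XT.nd (nat_lit 78) (nat_lit 0) (nat_lit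 0) (XT.lf (nat_lit 0) (nat_lit 191552171157) (nat_lit 152) (nat_lit 331699624040) (nat_lit 0) (nat_lit 188211299701) (nat_lit 1) (nat_lit 5) (nat_lit 3) (nat_lit 4) (nat_lit 1) (nat_lit 4) (nat_lit 542) (nat_lit 371) (nat_lit 287)) (XT.lf (nat_lit 0) (nat_lit 206716242165) (nat_lit 152) (nat_lit 336659416865) (nat_lit 0) (nat_lit 203372685309) (nat_lit 1) (nat_lit 5) (nat_lit 3) (nat_lit 4) (nat_lit 1) (nat_lit 4) (nat_lit 543) (nat_lit 371) (nat_lit 286))) (XT.nd (nat_lit 78) (nat_lit 0) (nat_lit 0) (XT.lf (nat_lit 0) (nat_lit 222629911983) (nat_lit 152) (nat_lit 341884577037) (nat_lit 0) (nat_lit 219283797602) (nat_lit 1) (nat_lit 5) (nat_lit 3) (nat_lit 4) (nat_lit 1) (nat_lit 4) (nat_lit 544) (nat_lit 371) (nat_lit 285)) (XT.lf (nat_lit 0) (nat_lit 239331070300) (nat_lit 152) (nat_lit 347387545413) (nat_lit 0) (nat_lit 235982520183) (nat_lit 1) (nat_lit 5) (nat_lit 3) (nat_lit 4) (nat_lit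 1) (nat_lit 4) (nat_lit 545) (nat_lit 371) (nat_lit 284))))) (XT.nd (nat_lit 55692) (nat_lit 0) (nat_lit 1748) (XT.nd (nat_lit 55536) (nat_lit 0) (nat_lit 2052) (XT.nd (nat_lit 55458) (nat_lit 0) (nat_lit 2204) (XT.lf (nat_lit 0) (nat_lit 256859481780) (nat_lit 152) (nat_lit 353181424299) (nat_lit 0) (nat_lit 253508611913) (nat_lit 1) (nat_lit 5) (nat_lit 3) (nat_lit 4) (nat_lit 1) (nat_lit 4) (nat_lit 546) (nat_lit 371) (nat_lit 283)) (XT.lf (nat_lit 0) (nat_lit 1227672210) (nat_lit 76) (nat_lit 3755560650) (nat_lit 76) (nat_lit 3755560650) (nat_lit 30) (nat_lit 4) (nat_lit 31) (nat_lit 5) (nat_lit 31) (nat_lit 4) (nat_lit 456) (nat_lit 372) (nat_lit 372))) (XT.nd (nat_lit 78) (nat_lit 152) (nat_lit 0) (XT.lf (nat_lit 0) (nat_lit 15941275385) (nat_lit 76) (nat_lit 1169802149) (nat_lit 76) (nat_lit 893112825) (nat_lit 30) (nat_lit 4) (nat_lit 31) (nat_lit 5) (nat_lit 31) (nat_lit 4) (nat_lit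 457) (nat_lit 372) (nat_lit 371)) (XT.lf (nat_lit 0) (nat_lit 5904645235) (nat_lit 152) (nat_lit 7255464444) (nat_lit 0) (nat_lit 5390166220) (nat_lit 28) (nat_lit 5) (nat_lit 30) (nat_lit 4) (nat_lit 28) (nat_lit 4) (nat_lit 458) (nat_lit 372) (nat_lit 370)))) (XT.nd (nat_lit 156) (nat_lit 76) (nat_lit 0) (XT.nd (nat_lit 78) (nat_lit 152) (nat_lit 0) (XT.lf (nat_lit 0) (nat_lit 5998734503) (nat_lit 76) (nat_lit 6940674320) (nat_lit 76) (nat_lit 6187180665) (nat_lit 27) (nat_lit 4) (nat_lit 28) (nat_lit 5) (nat_lit 28) (nat_lit 4) (nat_lit 459) (nat_lit 372) (nat_lit 369)) (XT.lf (nat_lit 0) (nat_lit 1322218) (nat_lit 76) (nat_lit 477921130) (nat_lit 152) (nat_lit 19256819372) (nat_lit 25) (nat_lit 5) (nat_lit 26) (nat_lit 5) (nat_lit 27) (nat_lit 4) (nat_lit 460) (nat_lit 372) (nat_lit 368))) (XT.nd (nat_lit 78) (nat_lit 76) (nat_lit 0) (XT.lf (nat_lit 0) (nat_lit 7375385881) (nat_lit 152)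 (nat_lit 6755836939) (nat_lit 0) (nat_lit 6234509718) (nat_lit 25) (nat_lit 5) (nat_lit 27) (nat_lit 4) (nat_lit 25) (nat_lit 4) (nat_lit 461) (nat_lit 372) (nat_lit 367)) (XT.lf (nat_lit 0) (nat_lit 6667962573) (nat_lit 76) (nat_lit 7850666465) (nat_lit 76) (nat_lit 6513152366) (nat_lit 24) (nat_lit 4) (nat_lit 25) (nat_lit 5) (nat_lit 25) (nat_lit 4) (nat_lit 462) (nat_lit 372) (nat_lit 366))))))))
noncomputable def xc36 : XT := (XT.nd (nat_lit 2184) (nat_lit 304) (nat_lit 0) (XT.nd (nat_lit 1092) (nat_lit 456) (nat_lit 0) (XT.nd (nat_lit 546) (nat_lit 380) (nat_lit 0) (XT.nd (nat_lit 234) (nat_lit 228) (nat_lit 0) (XT.nd (nat_lit 78) (nat_lit 152) (nat_lit 0) (XT.lf (nat_lit 0) (nat_lit 185634219) (nat_lit 152) (nat_lit 1144238174) (nat_lit 76) (nat_lit 20405697490) (nat_lit 23) (nat_lit 5) (nat_lit 25) (nat_lit 5) (nat_lit 24) (nat_lit 4) (nat_lit 463) (nat_lit 372) (nat_lit 365)) (XT.nd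 (nat_lit 78) (nat_lit 76) (nat_lit 0) (XT.lf (nat_lit 0) (nat_lit 7086646246) (nat_lit 152) (nat_lit 9913659546) (nat_lit 0) (nat_lit 5464603646) (nat_lit 22) (nat_lit 5) (nat_lit 24) (nat_lit 4) (nat_lit 22) (nat_lit 4) (nat_lit 464) (nat_lit 372) (nat_lit 364)) (XT.lf (nat_lit 0) (nat_lit 3438423817) (nat_lit 76) (nat_lit 10790649727) (nat_lit 76) (nat_lit 9006832610) (nat_lit 21) (nat_lit 4) (nat_lit 22) (nat_lit 5) (nat_lit 22) (nat_lit 4) (nat_lit 465) (nat_lit 372) (nat_lit 363)))) (XT.nd (nat_lit 156) (nat_lit 76) (nat_lit 0) (XT.nd (nat_lit 78) (nat_lit 152) (nat_lit 0) (XT.lf (nat_lit 0) (nat_lit 17417598635) (nat_lit 76) (nat_lit 4283561635) (nat_lit 76) (nat_lit 2345673549) (nat_lit 21) (nat_lit 4) (nat_lit 22) (nat_lit 5) (nat_lit 22) (nat_lit 4) (nat_lit 466) (nat_lit 372) (nat_lit 362)) (XT.lf (nat_lit 0) (nat_lit 4459463307) (nat_lit 152) (nat_lit 17963129184) (nat_lit 0) (nat_lit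 2474108696) (nat_lit 19) (nat_lit 5) (nat_lit 21) (nat_lit 4) (nat_lit 19) (nat_lit 4) (nat_lit 467) (nat_lit 372) (nat_lit 361))) (XT.nd (nat_lit 78) (nat_lit 76) (nat_lit 0) (XT.lf (nat_lit 0) (nat_lit 11521708178) (nat_lit 152) (nat_lit 4862392654) (nat_lit 0) (nat_lit 9403261272) (nat_lit 19) (nat_lit 5) (nat_lit 21) (nat_lit 4) (nat_lit 19) (nat_lit 4) (nat_lit 468) (nat_lit 372) (nat_lit 360)) (XT.lf (nat_lit 0) (nat_lit 8820354402) (nat_lit 76) (nat_lit 10074753795) (nat_lit 76) (nat_lit 7829552321) (nat_lit 18) (nat_lit 4) (nat_lit 19) (nat_lit 5) (nat_lit 19) (nat_lit 4) (nat_lit 469) (nat_lit 372) (nat_lit 359))))) (XT.nd (nat_lit 234) (nat_lit 228) (nat_lit 0) (XT.nd (nat_lit 78) (nat_lit 152) (nat_lit 0) (XT.lf (nat_lit 0) (nat_lit 23006448556) (nat_lit 76) (nat_lit 3536506424) (nat_lit 76) (nat_lit 1170586315) (nat_lit 18) (nat_lit 4) (nat_lit 19) (nat_lit 5) (nat_lit 19) (nat_lit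 4) (nat_lit 470) (nat_lit 372) (nat_lit 358)) (XT.nd (nat_lit 78) (nat_lit 0) (nat_lit 0) (XT.lf (nat_lit 0) (nat_lit 5657884732) (nat_lit 152) (nat_lit 19793166810) (nat_lit 0) (nat_lit 3295132125) (nat_lit 16) (nat_lit 5) (nat_lit 18) (nat_lit 4) (nat_lit 16) (nat_lit 4) (nat_lit 471) (nat_lit 372) (nat_lit 357)) (XT.lf (nat_lit 0) (nat_lit 12756873764) (nat_lit 152) (nat_lit 6784368770) (nat_lit 0) (nat_lit 10289839860) (nat_lit 16) (nat_lit 5) (nat_lit 18) (nat_lit 4) (nat_lit 16) (nat_lit 4) (nat_lit 472) (nat_lit 372) (nat_lit 356)))) (XT.nd (nat_lit 156) (nat_lit 152) (nat_lit 0) (XT.nd (nat_lit 78) (nat_lit 0) (nat_lit 0) (XT.lf (nat_lit 0) (nat_lit 6768675007) (nat_lit 76) (nat_lit 13385371954) (nat_lit 76) (nat_lit 10819022530) (nat_lit 15) (nat_lit 4) (nat_lit 16) (nat_lit 5) (nat_lit 16) (nat_lit 4) (nat_lit 473) (nat_lit 372) (nat_lit 355)) (XT.lf (nat_lit 0) (nat_lit 20917281905)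 (nat_lit 76) (nat_lit 6959026555) (nat_lit 76) (nat_lit 4298090922) (nat_lit 15) (nat_lit 4) (nat_lit 16) (nat_lit 5) (nat_lit 16) (nat_lit 4) (nat_lit 474) (nat_lit 372) (nat_lit 354))) (XT.nd (nat_lit 78) (nat_lit 0) (nat_lit 0) (XT.lf (nat_lit 0) (nat_lit 2055913281) (nat_lit 76) (nat_lit 288931118) (nat_lit 152) (nat_lit 31095089196) (nat_lit 13) (nat_lit 5) (nat_lit 14) (nat_lit 5) (nat_lit 15) (nat_lit 4) (nat_lit 475) (nat_lit 372) (nat_lit 353)) (XT.lf (nat_lit 0) (nat_lit 9319807634) (nat_lit 152) (nat_lit 18820118233) (nat_lit 0) (nat_lit 6618083617) (nat_lit 13) (nat_lit 5) (nat_lit 15) (nat_lit 4) (nat_lit 13) (nat_lit 4) (nat_lit 476) (nat_lit 372) (nat_lit 352)))))) (XT.nd (nat_lit 546) (nat_lit 228) (nat_lit 0) (XT.nd (nat_lit 234) (nat_lit 152) (nat_lit 0) (XT.nd (nat_lit 78) (nat_lit 76) (nat_lit 0) (XT.lf (nat_lit 0) (nat_lit 16501322588) (nat_lit 152) (nat_lit 5925998190)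 (nat_lit 0) (nat_lit 13721782263) (nat_lit 13) (nat_lit 5) (nat_lit 15) (nat_lit 4) (nat_lit 13) (nat_lit 4) (nat_lit 477) (nat_lit 372) (nat_lit 351)) (XT.nd (nat_lit 78) (nat_lit 0) (nat_lit 0) (XT.lf (nat_lit 0) (nat_lit 7576031444) (nat_lit 76) (nat_lit 16444228719) (nat_lit 76) (nat_lit 13590577623) (nat_lit 12) (nat_lit 4) (nat_lit 13) (nat_lit 5) (nat_lit 13) (nat_lit 4) (nat_lit 478) (nat_lit 372) (nat_lit 350)) (XT.lf (nat_lit 0) (nat_lit 21684127570) (nat_lit 76) (nat_lit 10193814149) (nat_lit 76) (nat_lit 7269581368) (nat_lit 12) (nat_lit 4) (nat_lit 13) (nat_lit 5) (nat_lit 13) (nat_lit 4) (nat_lit 479) (nat_lit 372) (nat_lit 349)))) (XT.nd (nat_lit 156) (nat_lit 0) (nat_lit 0) (XT.nd (nat_lit 78) (nat_lit 152) (nat_lit 0) (XT.lf (nat_lit 0) (nat_lit 36235940629) (nat_lit 76) (nat_lit 3761554777) (nat_lit 76) (nat_lit 770101342) (nat_lit 12) (nat_lit 4) (nat_lit 13) (nat_lit 5)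 (nat_lit 13) (nat_lit 4) (nat_lit 480) (nat_lit 372) (nat_lit 348)) (XT.lf (nat_lit 0) (nat_lit 5922647077) (nat_lit 152) (nat_lit 33525527650) (nat_lit 0) (nat_lit 3012672691) (nat_lit 10) (nat_lit 5) (nat_lit 12) (nat_lit 4) (nat_lit 10) (nat_lit 4) (nat_lit 481) (nat_lit 372) (nat_lit 347))) (XT.nd (nat_lit 78) (nat_lit 0) (nat_lit 0) (XT.lf (nat_lit 0) (nat_lit 12937199264) (nat_lit 152) (nat_lit 21331123658) (nat_lit 0) (nat_lit 9969157151) (nat_lit 10) (nat_lit 5) (nat_lit 12) (nat_lit 4) (nat_lit 10) (nat_lit 4) (nat_lit 482) (nat_lit 372) (nat_lit 346)) (XT.lf (nat_lit 0) (nat_lit 20181886730) (nat_lit 152) (nat_lit 8768548104) (nat_lit 0) (nat_lit 17158542019) (nat_lit 10) (nat_lit 5) (nat_lit 12) (nat_lit 4) (nat_lit 10) (nat_lit 4) (nat_lit 483) (nat_lit 372) (nat_lit 345))))) (XT.nd (nat_lit 234) (nat_lit 152) (nat_lit 0) (XT.nd (nat_lit 78) (nat_lit 0) (nat_lit 0) (XT.lf (nat_lit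 0) (nat_lit 4330719988) (nat_lit 76) (nat_lit 23410853418) (nat_lit 76) (nat_lit 20334839567) (nat_lit 9) (nat_lit 4) (nat_lit 10) (nat_lit 5) (nat_lit 10) (nat_lit 4) (nat_lit 484) (nat_lit 372) (nat_lit 344)) (XT.nd (nat_lit 78) (nat_lit 0) (nat_lit 0) (XT.lf (nat_lit 0) (nat_lit 18163039778) (nat_lit 76) (nat_lit 17551789707) (nat_lit 76) (nat_lit 14425614769) (nat_lit 9) (nat_lit 4) (nat_lit 10) (nat_lit 5) (nat_lit 10) (nat_lit 4) (nat_lit 485) (nat_lit 372) (nat_lit 343)) (XT.lf (nat_lit 0) (nat_lit 32471417560) (nat_lit 76) (nat_lit 11507793155) (nat_lit 76) (nat_lit 8333845754) (nat_lit 9) (nat_lit 4) (nat_lit 10) (nat_lit 5) (nat_lit 10) (nat_lit 4) (nat_lit 486) (nat_lit 372) (nat_lit 342)))) (XT.nd (nat_lit 156) (nat_lit 0) (nat_lit 0) (XT.nd (nat_lit 78) (nat_lit 152) (nat_lit 0) (XT.lf (nat_lit 0) (nat_lit 47289920898) (nat_lit 76) (nat_lit 5264473294) (nat_lit 76) (nat_lit 2045028309)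 (nat_lit 9) (nat_lit 4) (nat_lit 10) (nat_lit 5) (nat_lit 10) (nat_lit 4) (nat_lit 487) (nat_lit 372) (nat_lit 341)) (XT.lf (nat_lit 0) (nat_lit 4424427812) (nat_lit 152) (nat_lit 51254496271) (nat_lit 0) (nat_lit 1317022081) (nat_lit 7) (nat_lit 5) (nat_lit 9) (nat_lit 4) (nat_lit 7) (nat_lit 4) (nat_lit 488) (nat_lit 372) (nat_lit 340))) (XT.nd (nat_lit 78) (nat_lit 0) (nat_lit 0) (XT.lf (nat_lit 0) (nat_lit 11261746876) (nat_lit 152) (nat_lit 40128180480) (nat_lit 0) (nat_lit 8115038621) (nat_lit 7) (nat_lit 5) (nat_lit 9) (nat_lit 4) (nat_lit 7) (nat_lit 4) (nat_lit 489) (nat_lit 372) (nat_lit 339)) (XT.lf (nat_lit 0) (nat_lit 18346640814) (nat_lit 152) (nat_lit 28635010885) (nat_lit 0) (nat_lit 15162501583) (nat_lit 7) (nat_lit 5) (nat_lit 9) (nat_lit 4) (nat_lit 7) (nat_lit 4) (nat_lit 490) (nat_lit 372) (nat_lit 338))))))) (XT.nd (nat_lit 1092) (nat_lit 76) (nat_lit 0) (XT.nd (nat_lit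 546) (nat_lit 152) (nat_lit 0) (XT.nd (nat_lit 234) (nat_lit 0) (nat_lit 0) (XT.nd (nat_lit 78) (nat_lit 76) (nat_lit 0) (XT.lf (nat_lit 0) (nat_lit 25695978420) (nat_lit 152) (nat_lit 16747622796) (nat_lit 0) (nat_lit 22476190642) (nat_lit 7) (nat_lit 5) (nat_lit 9) (nat_lit 4) (nat_lit 7) (nat_lit 4) (nat_lit 491) (nat_lit 372) (nat_lit 337)) (XT.nd (nat_lit 78) (nat_lit 76) (nat_lit 0) (XT.lf (nat_lit 0) (nat_lit 33327258118) (nat_lit 152) (nat_lit 4437712910) (nat_lit 0) (nat_lit 30073519342) (nat_lit 7) (nat_lit 5) (nat_lit 9) (nat_lit 4) (nat_lit 7) (nat_lit 4) (nat_lit 492) (nat_lit 372) (nat_lit 336)) (XT.lf (nat_lit 0) (nat_lit 8599258044) (nat_lit 76) (nat_lit 32793650093) (nat_lit 76) (nat_lit 29507577034) (nat_lit 6) (nat_lit 4) (nat_lit 7) (nat_lit 5) (nat_lit 7) (nat_lit 4) (nat_lit 493) (nat_lit 372) (nat_lit 335)))) (XT.nd (nat_lit 156) (nat_lit 0) (nat_lit 0) (XT.nd (nat_lit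 78) (nat_lit 0) (nat_lit 0) (XT.lf (nat_lit 0) (nat_lit 22281120280) (nat_lit 76) (nat_lit 27575787644) (nat_lit 76) (nat_lit 24258920029) (nat_lit 6) (nat_lit 4) (nat_lit 7) (nat_lit 5) (nat_lit 7) (nat_lit 4) (nat_lit 494) (nat_lit 372) (nat_lit 334)) (XT.lf (nat_lit 0) (nat_lit 36493718829) (nat_lit 76) (nat_lit 22174115014) (nat_lit 76) (nat_lit 18827919250) (nat_lit 6) (nat_lit 4) (nat_lit 7) (nat_lit 5) (nat_lit 7) (nat_lit 4) (nat_lit 495) (nat_lit 372) (nat_lit 333))) (XT.nd (nat_lit 78) (nat_lit 0) (nat_lit 0) (XT.lf (nat_lit 0) (nat_lit 51270893212) (nat_lit 76) (nat_lit 16575771076) (nat_lit 76) (nat_lit 13201643743) (nat_lit 6) (nat_lit 4) (nat_lit 7) (nat_lit 5) (nat_lit 7) (nat_lit 4) (nat_lit 496) (nat_lit 372) (nat_lit 332)) (XT.lf (nat_lit 0) (nat_lit 66647827177) (nat_lit 76) (nat_lit 10767426442) (nat_lit 76) (nat_lit 7366697614) (nat_lit 6) (nat_lit 4) (nat_lit 7) (nat_lit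 5) (nat_lit 7) (nat_lit 4) (nat_lit 497) (nat_lit 372) (nat_lit 331))))) (XT.nd (nat_lit 234) (nat_lit 0) (nat_lit 0) (XT.nd (nat_lit 78) (nat_lit 152) (nat_lit 0) (XT.lf (nat_lit 0) (nat_lit 82661132471) (nat_lit 76) (nat_lit 4735251719) (nat_lit 76) (nat_lit 1309188133) (nat_lit 6) (nat_lit 4) (nat_lit 7) (nat_lit 5) (nat_lit 7) (nat_lit 4) (nat_lit 498) (nat_lit 372) (nat_lit 330)) (XT.nd (nat_lit 78) (nat_lit 0) (nat_lit 0) (XT.lf (nat_lit 0) (nat_lit 4956606000) (nat_lit 152) (nat_lit 86190763618) (nat_lit 0) (nat_lit 1670708928) (nat_lit 4) (nat_lit 5) (nat_lit 6) (nat_lit 4) (nat_lit 4) (nat_lit 4) (nat_lit 499) (nat_lit 372) (nat_lit 329)) (XT.lf (nat_lit 0) (nat_lit 11609658030) (nat_lit 152) (nat_lit 77217705966) (nat_lit 0) (nat_lit 8301875842) (nat_lit 4) (nat_lit 5) (nat_lit 6) (nat_lit 4) (nat_lit 4) (nat_lit 4) (nat_lit 500) (nat_lit 372) (nat_lit 328)))) (XT.nd (nat_lit 156)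 (nat_lit 0) (nat_lit 0) (XT.nd (nat_lit 78) (nat_lit 0) (nat_lit 0) (XT.lf (nat_lit 0) (nat_lit 18534691024) (nat_lit 152) (nat_lit 67918236970) (nat_lit 0) (nat_lit 15206065868) (nat_lit 4) (nat_lit 5) (nat_lit 6) (nat_lit 4) (nat_lit 4) (nat_lit 4) (nat_lit 501) (nat_lit 372) (nat_lit 327)) (XT.lf (nat_lit 0) (nat_lit 25748193156) (nat_lit 152) (nat_lit 58270215035) (nat_lit 0) (nat_lit 22399717555) (nat_lit 4) (nat_lit 5) (nat_lit 6) (nat_lit 4) (nat_lit 4) (nat_lit 4) (nat_lit 502) (nat_lit 372) (nat_lit 326))) (XT.nd (nat_lit 78) (nat_lit 0) (nat_lit 0) (XT.lf (nat_lit 0) (nat_lit 33267339430) (nat_lit 152) (nat_lit 48250668681) (nat_lit 0) (nat_lit 29899958644) (nat_lit 4) (nat_lit 5) (nat_lit 6) (nat_lit 4) (nat_lit 4) (nat_lit 4) (nat_lit 503) (nat_lit 372) (nat_lit 325)) (XT.lf (nat_lit 0) (nat_lit 41110032577) (nat_lit 152) (nat_lit 37835741845) (nat_lit 0) (nat_lit 37724646851) (nat_lit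 4) (nat_lit 5) (nat_lit 6) (nat_lit 4) (nat_lit 4) (nat_lit 4) (nat_lit 504) (nat_lit 372) (nat_lit 324)))))) (XT.nd (nat_lit 546) (nat_lit 0) (nat_lit 0) (XT.nd (nat_lit 234) (nat_lit 76) (nat_lit 0) (XT.nd (nat_lit 78) (nat_lit 0) (nat_lit 0) (XT.lf (nat_lit 0) (nat_lit 49294945674) (nat_lit 152) (nat_lit 27000637083) (nat_lit 0) (nat_lit 45892412388) (nat_lit 4) (nat_lit 5) (nat_lit 6) (nat_lit 4) (nat_lit 4) (nat_lit 4) (nat_lit 505) (nat_lit 372) (nat_lit 323)) (XT.nd (nat_lit 78) (nat_lit 0) (nat_lit 0) (XT.lf (nat_lit 0) (nat_lit 57841566612) (nat_lit 152) (nat_lit 15719556525) (nat_lit 0) (nat_lit 54422702315) (nat_lit 4) (nat_lit 5) (nat_lit 6) (nat_lit 4) (nat_lit 4) (nat_lit 4) (nat_lit 506) (nat_lit 372) (nat_lit 322)) (XT.lf (nat_lit 0) (nat_lit 66770244485) (nat_lit 152) (nat_lit 3965640457) (nat_lit 0) (nat_lit 63335826845) (nat_lit 4) (nat_lit 5) (nat_lit 6) (nat_lit 4) (nat_lit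 4) (nat_lit 4) (nat_lit 507) (nat_lit 372) (nat_lit 321)))) (XT.nd (nat_lit 156) (nat_lit 0) (nat_lit 0) (XT.nd (nat_lit 78) (nat_lit 0) (nat_lit 0) (XT.lf (nat_lit 0) (nat_lit 8563171605) (nat_lit 76) (nat_lit 67672761555) (nat_lit 76) (nat_lit 64223531207) (nat_lit 3) (nat_lit 4) (nat_lit 4) (nat_lit 5) (nat_lit 4) (nat_lit 4) (nat_lit 508) (nat_lit 372) (nat_lit 320)) (XT.lf (nat_lit 0) (nat_lit 21770628781) (nat_lit 76) (nat_lit 64429038093) (nat_lit 76) (nat_lit 60965700404) (nat_lit 3) (nat_lit 4) (nat_lit 4) (nat_lit 5) (nat_lit 4) (nat_lit 4) (nat_lit 509) (nat_lit 372) (nat_lit 319))) (XT.nd (nat_lit 78) (nat_lit 0) (nat_lit 0) (XT.lf (nat_lit 0) (nat_lit 35557055413) (nat_lit 76) (nat_lit 61064151446) (nat_lit 76) (nat_lit 57587378194) (nat_lit 3) (nat_lit 4) (nat_lit 4) (nat_lit 5) (nat_lit 4) (nat_lit 4) (nat_lit 510) (nat_lit 372) (nat_lit 318)) (XT.lf (nat_lit 0) (nat_lit 49955276328)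 (nat_lit 76) (nat_lit 57570089979) (nat_lit 76) (nat_lit 54080520954) (nat_lit 3) (nat_lit 4) (nat_lit 4) (nat_lit 5) (nat_lit 4) (nat_lit 4) (nat_lit 511) (nat_lit 372) (nat_lit 317))))) (XT.nd (nat_lit 234) (nat_lit 0) (nat_lit 0) (XT.nd (nat_lit 78) (nat_lit 0) (nat_lit 0) (XT.lf (nat_lit 0) (nat_lit 64999573003) (nat_lit 76) (nat_lit 53938534499) (nat_lit 76) (nat_lit 50436779022) (nat_lit 3) (nat_lit 4) (nat_lit 4) (nat_lit 5) (nat_lit 4) (nat_lit 4) (nat_lit 512) (nat_lit 372) (nat_lit 316)) (XT.nd (nat_lit 78) (nat_lit 0) (nat_lit 0) (XT.lf (nat_lit 0) (nat_lit 80725765193) (nat_lit 76) (nat_lit 50160838445) (nat_lit 76) (nat_lit 46647476824) (nat_lit 3) (nat_lit 4) (nat_lit 4) (nat_lit 5) (nat_lit 4) (nat_lit 4) (nat_lit 513) (nat_lit 372) (nat_lit 315)) (XT.lf (nat_lit 0) (nat_lit 97171296212) (nat_lit 76) (nat_lit 46228007302) (nat_lit 76) (nat_lit 42703592210) (nat_lit 3) (nat_lit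 4) (nat_lit 4) (nat_lit 5) (nat_lit 4) (nat_lit 4) (nat_lit 514) (nat_lit 372) (nat_lit 314)))) (XT.nd (nat_lit 156) (nat_lit 0) (nat_lit 0) (XT.nd (nat_lit 78) (nat_lit 0) (nat_lit 0) (XT.lf (nat_lit 0) (nat_lit 114375322086) (nat_lit 76) (nat_lit 42130677186) (nat_lit 76) (nat_lit 38595734979) (nat_lit 3) (nat_lit 4) (nat_lit 4) (nat_lit 5) (nat_lit 4) (nat_lit 4) (nat_lit 515) (nat_lit 372) (nat_lit 313)) (XT.lf (nat_lit 0) (nat_lit 132378804782) (nat_lit 76) (nat_lit 37859092550) (nat_lit 76) (nat_lit 34314124520) (nat_lit 3) (nat_lit 4) (nat_lit 4) (nat_lit 5) (nat_lit 4) (nat_lit 4) (nat_lit 516) (nat_lit 372) (nat_lit 312))) (XT.nd (nat_lit 78) (nat_lit 0) (nat_lit 0) (XT.lf (nat_lit 0) (nat_lit 151224609735) (nat_lit 76) (nat_lit 33403082954) (nat_lit 76) (nat_lit 29848566520) (nat_lit 3) (nat_lit 4) (nat_lit 4) (nat_lit 5) (nat_lit 4) (nat_lit 4) (nat_lit 517) (nat_lit 372) (nat_lit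 311)) (XT.lf (nat_lit 0) (nat_lit 170957607909) (nat_lit 76) (nat_lit 28752038852) (nat_lit 76) (nat_lit 25188428700) (nat_lit 3) (nat_lit 4) (nat_lit 4) (nat_lit 5) (nat_lit 4) (nat_lit 4) (nat_lit 518) (nat_lit 372) (nat_lit 310))))))))
noncomputable def xc37 : XT := (XT.nd (nat_lit 57408) (nat_lit 0) (nat_lit 684) (XT.nd (nat_lit 1092) (nat_lit 0) (nat_lit 0) (XT.nd (nat_lit 546) (nat_lit 0) (nat_lit 0) (XT.nd (nat_lit 234) (nat_lit 152) (nat_lit 0) (XT.nd (nat_lit 78) (nat_lit 0) (nat_lit 0) (XT.lf (nat_lit 0) (nat_lit 191624782632) (nat_lit 76) (nat_lit 23894886328) (nat_lit 76) (nat_lit 20322615493) (nat_lit 3) (nat_lit 4) (nat_lit 4) (nat_lit 5) (nat_lit 4) (nat_lit 4) (nat_lit 519) (nat_lit 372) (nat_lit 309)) (XT.nd (nat_lit 78) (nat_lit 0) (nat_lit 0) (XT.lf (nat_lit 0) (nat_lit 213275341465) (nat_lit 76) (nat_lit 18820060735) (nat_lit 76) (nat_lit 15239541630) (nat_lit 3) (nat_lit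 4) (nat_lit 4) (nat_lit 5) (nat_lit 4) (nat_lit 4) (nat_lit 520) (nat_lit 372) (nat_lit 308)) (XT.lf (nat_lit 0) (nat_lit 235960833356) (nat_lit 76) (nat_lit 13515479154) (nat_lit 76) (nat_lit 9927104553) (nat_lit 3) (nat_lit 4) (nat_lit 4) (nat_lit 5) (nat_lit 4) (nat_lit 4) (nat_lit 521) (nat_lit 372) (nat_lit 307)))) (XT.nd (nat_lit 156) (nat_lit 76) (nat_lit 0) (XT.nd (nat_lit 78) (nat_lit 76) (nat_lit 0) (XT.lf (nat_lit 0) (nat_lit 259735271381) (nat_lit 76) (nat_lit 7968511628) (nat_lit 76) (nat_lit 4372655604) (nat_lit 3) (nat_lit 4) (nat_lit 4) (nat_lit 5) (nat_lit 4) (nat_lit 4) (nat_lit 522) (nat_lit 372) (nat_lit 306)) (XT.lf (nat_lit 0) (nat_lit 1391036159) (nat_lit 152) (nat_lit 751357063) (nat_lit 76) (nat_lit 283240667315) (nat_lit 2) (nat_lit 5) (nat_lit 4) (nat_lit 5) (nat_lit 3) (nat_lit 4) (nat_lit 523) (nat_lit 372) (nat_lit 305))) (XT.nd (nat_lit 78) (nat_lit 0) (nat_lit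 0) (XT.lf (nat_lit 0) (nat_lit 7523459637) (nat_lit 152) (nat_lit 287731009018) (nat_lit 0) (nat_lit 4085586244) (nat_lit 1) (nat_lit 5) (nat_lit 3) (nat_lit 4) (nat_lit 1) (nat_lit 4) (nat_lit 524) (nat_lit 372) (nat_lit 304)) (XT.lf (nat_lit 0) (nat_lit 13989850350) (nat_lit 152) (nat_lit 289457859675) (nat_lit 0) (nat_lit 10545821971) (nat_lit 1) (nat_lit 5) (nat_lit 3) (nat_lit 4) (nat_lit 1) (nat_lit 4) (nat_lit 525) (nat_lit 372) (nat_lit 303))))) (XT.nd (nat_lit 234) (nat_lit 0) (nat_lit 0) (XT.nd (nat_lit 78) (nat_lit 0) (nat_lit 0) (XT.lf (nat_lit 0) (nat_lit 20759838375) (nat_lit 152) (nat_lit 291310882884) (nat_lit 0) (nat_lit 17309948105) (nat_lit 1) (nat_lit 5) (nat_lit 3) (nat_lit 4) (nat_lit 1) (nat_lit 4) (nat_lit 526) (nat_lit 372) (nat_lit 302)) (XT.nd (nat_lit 78) (nat_lit 0) (nat_lit 0) (XT.lf (nat_lit 0) (nat_lit 27849542732) (nat_lit 152) (nat_lit 293294490605) (nat_lit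 0) (nat_lit 24394069708) (nat_lit 1) (nat_lit 5) (nat_lit 3) (nat_lit 4) (nat_lit 1) (nat_lit 4) (nat_lit 527) (nat_lit 372) (nat_lit 301)) (XT.lf (nat_lit 0) (nat_lit 35275843668) (nat_lit 152) (nat_lit 295413405714) (nat_lit 0) (nat_lit 31815053735) (nat_lit 1) (nat_lit 5) (nat_lit 3) (nat_lit 4) (nat_lit 1) (nat_lit 4) (nat_lit 528) (nat_lit 372) (nat_lit 300)))) (XT.nd (nat_lit 156) (nat_lit 0) (nat_lit 0) (XT.nd (nat_lit 78) (nat_lit 0) (nat_lit 0) (XT.lf (nat_lit 0) (nat_lit 43056422853) (nat_lit 152) (nat_lit 297672673246) (nat_lit 0) (nat_lit 39590569198) (nat_lit 1) (nat_lit 5) (nat_lit 3) (nat_lit 4) (nat_lit 1) (nat_lit 4) (nat_lit 529) (nat_lit 372) (nat_lit 299)) (XT.lf (nat_lit 0) (nat_lit 51209805475) (nat_lit 152) (nat_lit 300077672411) (nat_lit 0) (nat_lit 47739129228) (nat_lit 1) (nat_lit 5) (nat_lit 3) (nat_lit 4) (nat_lit 1) (nat_lit 4) (nat_lit 530) (nat_lit 372) (nat_lit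 298))) (XT.nd (nat_lit 78) (nat_lit 0) (nat_lit 0) (XT.lf (nat_lit 0) (nat_lit 59755404350) (nat_lit 152) (nat_lit 302634129396) (nat_lit 0) (nat_lit 56280135158) (nat_lit 1) (nat_lit 5) (nat_lit 3) (nat_lit 4) (nat_lit 1) (nat_lit 4) (nat_lit 531) (nat_lit 372) (nat_lit 297)) (XT.lf (nat_lit 0) (nat_lit 68713566142) (nat_lit 152) (nat_lit 305348131003) (nat_lit 0) (nat_lit 65233922716) (nat_lit 1) (nat_lit 5) (nat_lit 3) (nat_lit 4) (nat_lit 1) (nat_lit 4) (nat_lit 532) (nat_lit 372) (nat_lit 296)))))) (XT.nd (nat_lit 546) (nat_lit 0) (nat_lit 0) (XT.nd (nat_lit 234) (nat_lit 0) (nat_lit 0) (XT.nd (nat_lit 78) (nat_lit 0) (nat_lit 0) (XT.lf (nat_lit 0) (nat_lit 78105619808) (nat_lit 152) (nat_lit 308226139142) (nat_lit 0) (nat_lit 74621810445) (nat_lit 1) (nat_lit 5) (nat_lit 3) (nat_lit 4) (nat_lit 1) (nat_lit 4) (nat_lit 533) (nat_lit 372) (nat_lit 295)) (XT.nd (nat_lit 78) (nat_lit 0) (nat_lit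 0) (XT.lf (nat_lit 0) (nat_lit 87953927380) (nat_lit 152) (nat_lit 311275006213) (nat_lit 0) (nat_lit 84466150458) (nat_lit 1) (nat_lit 5) (nat_lit 3) (nat_lit 4) (nat_lit 1) (nat_lit 4) (nat_lit 534) (nat_lit 372) (nat_lit 294)) (XT.lf (nat_lit 0) (nat_lit 98281937209) (nat_lit 152) (nat_lit 314501991422) (nat_lit 0) (nat_lit 94790381660) (nat_lit 1) (nat_lit 5) (nat_lit 3) (nat_lit 4) (nat_lit 1) (nat_lit 4) (nat_lit 535) (nat_lit 372) (nat_lit 293)))) (XT.nd (nat_lit 156) (nat_lit 0) (nat_lit 0) (XT.nd (nat_lit 78) (nat_lit 0) (nat_lit 0) (XT.lf (nat_lit 0) (nat_lit 109114239796) (nat_lit 152) (nat_lit 317914778069) (nat_lit 0) (nat_lit 105619085553) (nat_lit 1) (nat_lit 5) (nat_lit 3) (nat_lit 4) (nat_lit 1) (nat_lit 4) (nat_lit 536) (nat_lit 372) (nat_lit 292)) (XT.lf (nat_lit 0) (nat_lit 120476626336) (nat_lit 152) (nat_lit 321521491836) (nat_lit 0) (nat_lit 116978044767) (nat_lit 1)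 (nat_lit 5) (nat_lit 3) (nat_lit 4) (nat_lit 1) (nat_lit 4) (nat_lit 537) (nat_lit 372) (nat_lit 291))) (XT.nd (nat_lit 78) (nat_lit 0) (nat_lit 0) (XT.lf (nat_lit 0) (nat_lit 132396150132) (nat_lit 152) (nat_lit 325330720135) (nat_lit 0) (nat_lit 128894304442) (nat_lit 1) (nat_lit 5) (nat_lit 3) (nat_lit 4) (nat_lit 1) (nat_lit 4) (nat_lit 538) (nat_lit 372) (nat_lit 290)) (XT.lf (nat_lit 0) (nat_lit 144901191000) (nat_lit 152) (nat_lit 329351532560) (nat_lit 0) (nat_lit 141396236625) (nat_lit 1) (nat_lit 5) (nat_lit 3) (nat_lit 4) (nat_lit 1) (nat_lit 4) (nat_lit 539) (nat_lit 372) (nat_lit 289))))) (XT.nd (nat_lit 234) (nat_lit 0) (nat_lit 0) (XT.nd (nat_lit 78) (nat_lit 0) (nat_lit 0) (XT.lf (nat_lit 0) (nat_lit 158021522850) (nat_lit 152) (nat_lit 333593502472) (nat_lit 0) (nat_lit 154513607821) (nat_lit 1) (nat_lit 5) (nat_lit 3) (nat_lit 4) (nat_lit 1) (nat_lit 4) (nat_lit 540) (nat_lit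 372) (nat_lit 288)) (XT.nd (nat_lit 78) (nat_lit 0) (nat_lit 0) (XT.lf (nat_lit 0) (nat_lit 171788384565) (nat_lit 152) (nat_lit 338066729799) (nat_lit 0) (nat_lit 168277649866) (nat_lit 1) (nat_lit 5) (nat_lit 3) (nat_lit 4) (nat_lit 1) (nat_lit 4) (nat_lit 541) (nat_lit 372) (nat_lit 287)) (XT.lf (nat_lit 0) (nat_lit 186234554388) (nat_lit 152) (nat_lit 342781865084) (nat_lit 0) (nat_lit 182721134289) (nat_lit 1) (nat_lit 5) (nat_lit 3) (nat_lit 4) (nat_lit 1) (nat_lit 4) (nat_lit 542) (nat_lit 372) (nat_lit 286)))) (XT.nd (nat_lit 156) (nat_lit 0) (nat_lit 0) (XT.nd (nat_lit 78) (nat_lit 0) (nat_lit 0) (XT.lf (nat_lit 0) (nat_lit 201394427961) (nat_lit 152) (nat_lit 347750134839) (nat_lit 0) (nat_lit 197878450338) (nat_lit 1) (nat_lit 5) (nat_lit 3) (nat_lit 4) (nat_lit 1) (nat_lit 4) (nat_lit 543) (nat_lit 372) (nat_lit 285)) (XT.lf (nat_lit 0) (nat_lit 217304100222) (nat_lit 152) (nat_lit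 352983368277) (nat_lit 0) (nat_lit 213785686862) (nat_lit 1) (nat_lit 5) (nat_lit 3) (nat_lit 4) (nat_lit 1) (nat_lit 4) (nat_lit 544) (nat_lit 372) (nat_lit 284))) (XT.nd (nat_lit 78) (nat_lit 0) (nat_lit 0) (XT.lf (nat_lit 0) (nat_lit 234001451343) (nat_lit 152) (nat_lit 358494025477) (nat_lit 0) (nat_lit 230480718233) (nat_lit 1) (nat_lit 5) (nat_lit 3) (nat_lit 4) (nat_lit 1) (nat_lit 4) (nat_lit 545) (nat_lit 372) (nat_lit 283)) (XT.lf (nat_lit 0) (nat_lit 251526236921) (nat_lit 152) (nat_lit 364295227054) (nat_lit 0) (nat_lit 248003294526) (nat_lit 1) (nat_lit 5) (nat_lit 3) (nat_lit 4) (nat_lit 1) (nat_lit 4) (nat_lit 546) (nat_lit 372) (nat_lit 282))))))) (XT.nd (nat_lit 1092) (nat_lit 684) (nat_lit 0) (XT.nd (nat_lit 546) (nat_lit 532) (nat_lit 0) (XT.nd (nat_lit 234) (nat_lit 304) (nat_lit 0) (XT.nd (nat_lit 78) (nat_lit 228) (nat_lit 0) (XT.lf (nat_lit 0) (nat_lit 5103200270) (nat_lit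 76) (nat_lit 1572607979) (nat_lit 76) (nat_lit 1572607979) (nat_lit 33) (nat_lit 4) (nat_lit 34) (nat_lit 5) (nat_lit 34) (nat_lit 4) (nat_lit 454) (nat_lit 373) (nat_lit 373)) (XT.nd (nat_lit 78) (nat_lit 76) (nat_lit 0) (XT.lf (nat_lit 0) (nat_lit 3402918975) (nat_lit 152) (nat_lit 10463243503) (nat_lit 0) (nat_lit 3112395185) (nat_lit 31) (nat_lit 5) (nat_lit 33) (nat_lit 4) (nat_lit 31) (nat_lit 4) (nat_lit 455) (nat_lit 373) (nat_lit 372)) (XT.lf (nat_lit 0) (nat_lit 2239809521) (nat_lit 76) (nat_lit 7905295920) (nat_lit 76) (nat_lit 7338082807) (nat_lit 30) (nat_lit 4) (nat_lit 31) (nat_lit 5) (nat_lit 31) (nat_lit 4) (nat_lit 456) (nat_lit 373) (nat_lit 371)))) (XT.nd (nat_lit 156) (nat_lit 152) (nat_lit 0) (XT.nd (nat_lit 78) (nat_lit 152) (nat_lit 0) (XT.lf (nat_lit 0) (nat_lit 15520469153) (nat_lit 76) (nat_lit 1662691843) (nat_lit 76) (nat_lit 831965089) (nat_lit 30) (nat_lit 4)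 (nat_lit 31) (nat_lit 5) (nat_lit 31) (nat_lit 4) (nat_lit 457) (nat_lit 373) (nat_lit 370)) (XT.lf (nat_lit 0) (nat_lit 5841154803) (nat_lit 152) (nat_lit 7915177383) (nat_lit 0) (nat_lit 4810971824) (nat_lit 28) (nat_lit 5) (nat_lit 30) (nat_lit 4) (nat_lit 28) (nat_lit 4) (nat_lit 458) (nat_lit 373) (nat_lit 369))) (XT.nd (nat_lit 78) (nat_lit 76) (nat_lit 0) (XT.lf (nat_lit 0) (nat_lit 5111317148) (nat_lit 76) (nat_lit 7647976713) (nat_lit 76) (nat_lit 6390160743) (nat_lit 27) (nat_lit 4) (nat_lit 28) (nat_lit 5) (nat_lit 28) (nat_lit 4) (nat_lit 459) (nat_lit 373) (nat_lit 368)) (XT.lf (nat_lit 0) (nat_lit 180142081) (nat_lit 152) (nat_lit 1105318028) (nat_lit 76) (nat_lit 18478762313) (nat_lit 26) (nat_lit 5) (nat_lit 28) (nat_lit 5) (nat_lit 27) (nat_lit 4) (nat_lit 460) (nat_lit 373) (nat_lit 367))))) (XT.nd (nat_lit 234) (nat_lit 380) (nat_lit 0) (XT.nd (nat_lit 78) (nat_lit 76) (nat_lit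 0) (XT.lf (nat_lit 0) (nat_lit 6943289940) (nat_lit 152) (nat_lit 8114994826) (nat_lit 0) (nat_lit 5342262198) (nat_lit 25) (nat_lit 5) (nat_lit 27) (nat_lit 4) (nat_lit 25) (nat_lit 4) (nat_lit 461) (nat_lit 373) (nat_lit 366)) (XT.nd (nat_lit 78) (nat_lit 0) (nat_lit 0) (XT.lf (nat_lit 0) (nat_lit 5067267739) (nat_lit 76) (nat_lit 8896877111) (nat_lit 76) (nat_lit 7108575145) (nat_lit 24) (nat_lit 4) (nat_lit 25) (nat_lit 5) (nat_lit 25) (nat_lit 4) (nat_lit 462) (nat_lit 373) (nat_lit 365)) (XT.lf (nat_lit 0) (nat_lit 18806545396) (nat_lit 76) (nat_lit 2470779897) (nat_lit 76) (nat_lit 504121525) (nat_lit 24) (nat_lit 4) (nat_lit 25) (nat_lit 5) (nat_lit 25) (nat_lit 4) (nat_lit 463) (nat_lit 373) (nat_lit 364)))) (XT.nd (nat_lit 156) (nat_lit 152) (nat_lit 0) (XT.nd (nat_lit 78) (nat_lit 76) (nat_lit 0) (XT.lf (nat_lit 0) (nat_lit 6268218559) (nat_lit 152) (nat_lit 12016769736) (nat_lit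 0) (nat_lit 4233436070) (nat_lit 22) (nat_lit 5) (nat_lit 24) (nat_lit 4) (nat_lit 22) (nat_lit 4) (nat_lit 464) (nat_lit 373) (nat_lit 363)) (XT.lf (nat_lit 0) (nat_lit 1078120385) (nat_lit 76) (nat_lit 12203309434) (nat_lit 76) (nat_lit 10014455975) (nat_lit 21) (nat_lit 4) (nat_lit 22) (nat_lit 5) (nat_lit 22) (nat_lit 4) (nat_lit 465) (nat_lit 373) (nat_lit 362))) (XT.nd (nat_lit 78) (nat_lit 152) (nat_lit 0) (XT.lf (nat_lit 0) (nat_lit 14878576230) (nat_lit 76) (nat_lit 5784183261) (nat_lit 76) (nat_lit 3448595546) (nat_lit 21) (nat_lit 4) (nat_lit 22) (nat_lit 5) (nat_lit 22) (nat_lit 4) (nat_lit 466) (nat_lit 373) (nat_lit 361)) (XT.lf (nat_lit 0) (nat_lit 3233706909) (nat_lit 152) (nat_lit 20860041236) (nat_lit 0) (nat_lit 876245362) (nat_lit 19) (nat_lit 5) (nat_lit 21) (nat_lit 4) (nat_lit 19) (nat_lit 4) (nat_lit 467) (nat_lit 373) (nat_lit 360)))))) (XT.nd (nat_lit 546) (nat_lit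 380) (nat_lit 0) (XT.nd (nat_lit 234) (nat_lit 228) (nat_lit 0) (XT.nd (nat_lit 78) (nat_lit 76) (nat_lit 0) (XT.lf (nat_lit 0) (nat_lit 10208309074) (nat_lit 152) (nat_lit 7932637742) (nat_lit 0) (nat_lit 7724092960) (nat_lit 19) (nat_lit 5) (nat_lit 21) (nat_lit 4) (nat_lit 19) (nat_lit 4) (nat_lit 468) (nat_lit 373) (nat_lit 359)) (XT.nd (nat_lit 78) (nat_lit 0) (nat_lit 0) (XT.lf (nat_lit 0) (nat_lit 5478055804) (nat_lit 76) (nat_lit 11968001397) (nat_lit 76) (nat_lit 9363066647) (nat_lit 18) (nat_lit 4) (nat_lit 19) (nat_lit 5) (nat_lit 19) (nat_lit 4) (nat_lit 469) (nat_lit 373) (nat_lit 358)) (XT.lf (nat_lit 0) (nat_lit 19501733442) (nat_lit 76) (nat_lit 5510140248) (nat_lit 76) (nat_lit 2790235369) (nat_lit 18) (nat_lit 4) (nat_lit 19) (nat_lit 5) (nat_lit 19) (nat_lit 4) (nat_lit 470) (nat_lit 373) (nat_lit 357)))) (XT.nd (nat_lit 156) (nat_lit 76) (nat_lit 0) (XT.nd (nat_lit 78) (nat_lit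 0) (nat_lit 0) (XT.lf (nat_lit 0) (nat_lit 3917151680) (nat_lit 152) (nat_lit 23705028119) (nat_lit 0) (nat_lit 1222484785) (nat_lit 16) (nat_lit 5) (nat_lit 18) (nat_lit 4) (nat_lit 16) (nat_lit 4) (nat_lit 471) (nat_lit 373) (nat_lit 356)) (XT.lf (nat_lit 0) (nat_lit 10936900091) (nat_lit 152) (nat_lit 10853710096) (nat_lit 0) (nat_lit 8142917676) (nat_lit 16) (nat_lit 5) (nat_lit 18) (nat_lit 4) (nat_lit 16) (nat_lit 4) (nat_lit 472) (nat_lit 373) (nat_lit 355))) (XT.nd (nat_lit 78) (nat_lit 0) (nat_lit 0) (XT.lf (nat_lit 0) (nat_lit 2409842863) (nat_lit 76) (nat_lit 15780709582) (nat_lit 76) (nat_lit 12892140958) (nat_lit 15) (nat_lit 4) (nat_lit 16) (nat_lit 5) (nat_lit 16) (nat_lit 4) (nat_lit 473) (nat_lit 373) (nat_lit 354)) (XT.lf (nat_lit 0) (nat_lit 16410887840) (nat_lit 76) (nat_lit 9427748670) (nat_lit 76) (nat_lit 6449097941) (nat_lit 15) (nat_lit 4) (nat_lit 16) (nat_lit 5) (nat_lit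 16) (nat_lit 4) (nat_lit 474) (nat_lit 373) (nat_lit 353))))) (XT.nd (nat_lit 312) (nat_lit 152) (nat_lit 0) (XT.nd (nat_lit 156) (nat_lit 76) (nat_lit 0) (XT.nd (nat_lit 78) (nat_lit 76) (nat_lit 0) (XT.lf (nat_lit 0) (nat_lit 158779069) (nat_lit 152) (nat_lit 2738946116) (nat_lit 76) (nat_lit 30662419914) (nat_lit 14) (nat_lit 5) (nat_lit 16) (nat_lit 5) (nat_lit 15) (nat_lit 4) (nat_lit 475) (nat_lit 373) (nat_lit 352)) (XT.lf (nat_lit 0) (nat_lit 6976436318) (nat_lit 152) (nat_lit 23929549277) (nat_lit 0) (nat_lit 3980102668) (nat_lit 13) (nat_lit 5) (nat_lit 15) (nat_lit 4) (nat_lit 13) (nat_lit 4) (nat_lit 476) (nat_lit 373) (nat_lit 351))) (XT.nd (nat_lit 78) (nat_lit 76) (nat_lit 0) (XT.lf (nat_lit 0) (nat_lit 14089689707) (nat_lit 152) (nat_lit 11171661785) (nat_lit 0) (nat_lit 11019245286) (nat_lit 13) (nat_lit 5) (nat_lit 15) (nat_lit 4) (nat_lit 13) (nat_lit 4) (nat_lit 477) (nat_lit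 373) (nat_lit 350)) (XT.lf (nat_lit 0) (nat_lit 2022887268) (nat_lit 76) (nat_lit 19434028856) (nat_lit 76) (nat_lit 16293002749) (nat_lit 12) (nat_lit 4) (nat_lit 13) (nat_lit 5) (nat_lit 13) (nat_lit 4) (nat_lit 478) (nat_lit 373) (nat_lit 349)))) (XT.nd (nat_lit 156) (nat_lit 152) (nat_lit 0) (XT.nd (nat_lit 78) (nat_lit 0) (nat_lit 0) (XT.lf (nat_lit 0) (nat_lit 16003330772) (nat_lit 76) (nat_lit 13247358641) (nat_lit 76) (nat_lit 10039111880) (nat_lit 12) (nat_lit 4) (nat_lit 13) (nat_lit 5) (nat_lit 13) (nat_lit 4) (nat_lit 479) (nat_lit 373) (nat_lit 348)) (XT.lf (nat_lit 0) (nat_lit 30433569906) (nat_lit 76) (nat_lit 6875808176) (nat_lit 76) (nat_lit 3603541747) (nat_lit 12) (nat_lit 4) (nat_lit 13) (nat_lit 5) (nat_lit 13) (nat_lit 4) (nat_lit 480) (nat_lit 373) (nat_lit 347))) (XT.nd (nat_lit 78) (nat_lit 0) (nat_lit 0) (XT.lf (nat_lit 0) (nat_lit 2766062966) (nat_lit 76) (nat_lit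 209205575) (nat_lit 152) (nat_lit 39643346626) (nat_lit 10) (nat_lit 5) (nat_lit 11) (nat_lit 5) (nat_lit 12) (nat_lit 4) (nat_lit 481) (nat_lit 373) (nat_lit 346)) (XT.lf (nat_lit 0) (nat_lit 9927728916) (nat_lit 152) (nat_lit 27772710528) (nat_lit 0) (nat_lit 6697914372) (nat_lit 10) (nat_lit 5) (nat_lit 12) (nat_lit 4) (nat_lit 10) (nat_lit 4) (nat_lit 482) (nat_lit 373) (nat_lit 345))))))))
noncomputable def xc38 : XT := (XT.nd (nat_lit 2184) (nat_lit 152) (nat_lit 0) (XT.nd (nat_lit 1092) (nat_lit 228) (nat_lit 0) (XT.nd (nat_lit 546) (nat_lit 76) (nat_lit 0) (XT.nd (nat_lit 234) (nat_lit 152) (nat_lit 0) (XT.nd (nat_lit 78) (nat_lit 76) (nat_lit 0) (XT.lf (nat_lit 0) (nat_lit 17116392071) (nat_lit 152) (nat_lit 15322352693) (nat_lit 0) (nat_lit 13833908386) (nat_lit 10) (nat_lit 5) (nat_lit 12) (nat_lit 4) (nat_lit 10) (nat_lit 4) (nat_lit 483) (nat_lit 373) (nat_lit 344)) (XT.nd (nat_lit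 78) (nat_lit 76) (nat_lit 0) (XT.lf (nat_lit 0) (nat_lit 24555107585) (nat_lit 152) (nat_lit 2468568703) (nat_lit 0) (nat_lit 21222462813) (nat_lit 10) (nat_lit 5) (nat_lit 12) (nat_lit 4) (nat_lit 10) (nat_lit 4) (nat_lit 484) (nat_lit 373) (nat_lit 343)) (XT.lf (nat_lit 0) (nat_lit 11176978813) (nat_lit 76) (nat_lit 21259111833) (nat_lit 76) (nat_lit 17878694598) (nat_lit 9) (nat_lit 4) (nat_lit 10) (nat_lit 5) (nat_lit 10) (nat_lit 4) (nat_lit 485) (nat_lit 373) (nat_lit 342)))) (XT.nd (nat_lit 156) (nat_lit 152) (nat_lit 0) (XT.nd (nat_lit 78) (nat_lit 0) (nat_lit 0) (XT.lf (nat_lit 0) (nat_lit 25385213506) (nat_lit 76) (nat_lit 15265298949) (nat_lit 76) (nat_lit 11839384130) (nat_lit 9) (nat_lit 4) (nat_lit 10) (nat_lit 5) (nat_lit 10) (nat_lit 4) (nat_lit 486) (nat_lit 373) (nat_lit 341)) (XT.lf (nat_lit 0) (nat_lit 40108342475) (nat_lit 76) (nat_lit 9069773057) (nat_lit 76) (nat_lit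 5600527206) (nat_lit 9) (nat_lit 4) (nat_lit 10) (nat_lit 5) (nat_lit 10) (nat_lit 4) (nat_lit 487) (nat_lit 373) (nat_lit 340))) (XT.nd (nat_lit 78) (nat_lit 76) (nat_lit 0) (XT.lf (nat_lit 0) (nat_lit 825437890) (nat_lit 152) (nat_lit 1818365825) (nat_lit 76) (nat_lit 54542003707) (nat_lit 8) (nat_lit 5) (nat_lit 10) (nat_lit 5) (nat_lit 9) (nat_lit 4) (nat_lit 488) (nat_lit 373) (nat_lit 339)) (XT.lf (nat_lit 0) (nat_lit 7545674845) (nat_lit 152) (nat_lit 47990109768) (nat_lit 0) (nat_lit 4164897678) (nat_lit 7) (nat_lit 5) (nat_lit 9) (nat_lit 4) (nat_lit 7) (nat_lit 4) (nat_lit 489) (nat_lit 373) (nat_lit 338))))) (XT.nd (nat_lit 234) (nat_lit 76) (nat_lit 0) (XT.nd (nat_lit 78) (nat_lit 0) (nat_lit 0) (XT.lf (nat_lit 0) (nat_lit 14586763403) (nat_lit 152) (nat_lit 36584959679) (nat_lit 0) (nat_lit 11170337688) (nat_lit 7) (nat_lit 5) (nat_lit 9) (nat_lit 4) (nat_lit 7) (nat_lit 4) (nat_lit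 490) (nat_lit 373) (nat_lit 337)) (XT.nd (nat_lit 78) (nat_lit 0) (nat_lit 0) (XT.lf (nat_lit 0) (nat_lit 21894381600) (nat_lit 152) (nat_lit 24781399691) (nat_lit 0) (nat_lit 18444004888) (nat_lit 7) (nat_lit 5) (nat_lit 9) (nat_lit 4) (nat_lit 7) (nat_lit 4) (nat_lit 491) (nat_lit 373) (nat_lit 336)) (XT.lf (nat_lit 0) (nat_lit 29485928527) (nat_lit 152) (nat_lit 12551326091) (nat_lit 0) (nat_lit 26003217531) (nat_lit 7) (nat_lit 5) (nat_lit 9) (nat_lit 4) (nat_lit 7) (nat_lit 4) (nat_lit 492) (nat_lit 373) (nat_lit 335)))) (XT.nd (nat_lit 156) (nat_lit 0) (nat_lit 0) (XT.nd (nat_lit 78) (nat_lit 0) (nat_lit 0) (XT.lf (nat_lit 0) (nat_lit 138823566) (nat_lit 76) (nat_lit 37242823155) (nat_lit 76) (nat_lit 33729317604) (nat_lit 6) (nat_lit 4) (nat_lit 7) (nat_lit 5) (nat_lit 7) (nat_lit 4) (nat_lit 493) (nat_lit 373) (nat_lit 334)) (XT.lf (nat_lit 0) (nat_lit 13745877607) (nat_lit 76) (nat_lit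 32062562141) (nat_lit 76) (nat_lit 28519728441) (nat_lit 6) (nat_lit 4) (nat_lit 7) (nat_lit 5) (nat_lit 7) (nat_lit 4) (nat_lit 494) (nat_lit 373) (nat_lit 333))) (XT.nd (nat_lit 78) (nat_lit 0) (nat_lit 0) (XT.lf (nat_lit 0) (nat_lit 27887230257) (nat_lit 76) (nat_lit 26696700400) (nat_lit 76) (nat_lit 23125935131) (nat_lit 6) (nat_lit 4) (nat_lit 7) (nat_lit 5) (nat_lit 7) (nat_lit 4) (nat_lit 495) (nat_lit 373) (nat_lit 332)) (XT.lf (nat_lit 0) (nat_lit 42596551402) (nat_lit 76) (nat_lit 21132462073) (nat_lit 76) (nat_lit 17535095308) (nat_lit 6) (nat_lit 4) (nat_lit 7) (nat_lit 5) (nat_lit 7) (nat_lit 4) (nat_lit 496) (nat_lit 373) (nat_lit 331)))))) (XT.nd (nat_lit 546) (nat_lit 76) (nat_lit 0) (XT.nd (nat_lit 234) (nat_lit 76) (nat_lit 0) (XT.nd (nat_lit 78) (nat_lit 76) (nat_lit 0) (XT.lf (nat_lit 0) (nat_lit 57908863235) (nat_lit 76) (nat_lit 15356598971) (nat_lit 76) (nat_lit 11733897449)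 (nat_lit 6) (nat_lit 4) (nat_lit 7) (nat_lit 5) (nat_lit 7) (nat_lit 4) (nat_lit 497) (nat_lit 373) (nat_lit 330)) (XT.nd (nat_lit 78) (nat_lit 76) (nat_lit 0) (XT.lf (nat_lit 0) (nat_lit 73860623643) (nat_lit 76) (nat_lit 9355359042) (nat_lit 76) (nat_lit 5708529179) (nat_lit 6) (nat_lit 4) (nat_lit 7) (nat_lit 5) (nat_lit 7) (nat_lit 4) (nat_lit 498) (nat_lit 373) (nat_lit 329)) (XT.lf (nat_lit 0) (nat_lit 537580768) (nat_lit 152) (nat_lit 2567768657) (nat_lit 76) (nat_lit 89943128047) (nat_lit 5) (nat_lit 5) (nat_lit 7) (nat_lit 5) (nat_lit 6) (nat_lit 4) (nat_lit 499) (nat_lit 373) (nat_lit 328)))) (XT.nd (nat_lit 156) (nat_lit 0) (nat_lit 0) (XT.nd (nat_lit 78) (nat_lit 0) (nat_lit 0) (XT.lf (nat_lit 0) (nat_lit 7070459102) (nat_lit 152) (nat_lit 86740629156) (nat_lit 0) (nat_lit 3554559721) (nat_lit 4) (nat_lit 5) (nat_lit 6) (nat_lit 4) (nat_lit 4) (nat_lit 4) (nat_lit 500) (nat_lit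 373) (nat_lit 327)) (XT.lf (nat_lit 0) (nat_lit 13967305505) (nat_lit 152) (nat_lit 77497950653) (nat_lit 0) (nat_lit 10431555679) (nat_lit 4) (nat_lit 5) (nat_lit 6) (nat_lit 4) (nat_lit 4) (nat_lit 4) (nat_lit 501) (nat_lit 373) (nat_lit 326))) (XT.nd (nat_lit 78) (nat_lit 0) (nat_lit 0) (XT.lf (nat_lit 0) (nat_lit 21153963264) (nat_lit 152) (nat_lit 67904014902) (nat_lit 0) (nat_lit 17599308252) (nat_lit 4) (nat_lit 5) (nat_lit 6) (nat_lit 4) (nat_lit 4) (nat_lit 4) (nat_lit 502) (nat_lit 373) (nat_lit 325)) (XT.lf (nat_lit 0) (nat_lit 28647543469) (nat_lit 152) (nat_lit 57935979200) (nat_lit 0) (nat_lit 25074883519) (nat_lit 4) (nat_lit 5) (nat_lit 6) (nat_lit 4) (nat_lit 4) (nat_lit 4) (nat_lit 503) (nat_lit 373) (nat_lit 324))))) (XT.nd (nat_lit 234) (nat_lit 76) (nat_lit 0) (XT.nd (nat_lit 78) (nat_lit 0) (nat_lit 0) (XT.lf (nat_lit 0) (nat_lit 36465887979) (nat_lit 152) (nat_lit 47570110127)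 (nat_lit 0) (nat_lit 32876080467) (nat_lit 4) (nat_lit 5) (nat_lit 6) (nat_lit 4) (nat_lit 4) (nat_lit 4) (nat_lit 504) (nat_lit 373) (nat_lit 323)) (XT.nd (nat_lit 78) (nat_lit 0) (nat_lit 0) (XT.lf (nat_lit 0) (nat_lit 44627611898) (nat_lit 152) (nat_lit 36781727044) (nat_lit 0) (nat_lit 41021473376) (nat_lit 4) (nat_lit 5) (nat_lit 6) (nat_lit 4) (nat_lit 4) (nat_lit 4) (nat_lit 505) (nat_lit 373) (nat_lit 322)) (XT.lf (nat_lit 0) (nat_lit 53152147903) (nat_lit 152) (nat_lit 25545143325) (nat_lit 0) (nat_lit 49530456038) (nat_lit 4) (nat_lit 5) (nat_lit 6) (nat_lit 4) (nat_lit 4) (nat_lit 4) (nat_lit 506) (nat_lit 373) (nat_lit 321)))) (XT.nd (nat_lit 156) (nat_lit 76) (nat_lit 0) (XT.nd (nat_lit 78) (nat_lit 0) (nat_lit 0) (XT.lf (nat_lit 0) (nat_lit 62059792509) (nat_lit 152) (nat_lit 13833605197) (nat_lit 0) (nat_lit 58423287936) (nat_lit 4) (nat_lit 5) (nat_lit 6) (nat_lit 4) (nat_lit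 4) (nat_lit 4) (nat_lit 507) (nat_lit 373) (nat_lit 320)) (XT.lf (nat_lit 0) (nat_lit 71371754392) (nat_lit 152) (nat_lit 1619228047) (nat_lit 0) (nat_lit 67721142478) (nat_lit 4) (nat_lit 5) (nat_lit 6) (nat_lit 4) (nat_lit 4) (nat_lit 4) (nat_lit 508) (nat_lit 373) (nat_lit 319))) (XT.nd (nat_lit 78) (nat_lit 0) (nat_lit 0) (XT.lf (nat_lit 0) (nat_lit 11494981160) (nat_lit 76) (nat_lit 69794692602) (nat_lit 76) (nat_lit 66130645125) (nat_lit 3) (nat_lit 4) (nat_lit 4) (nat_lit 5) (nat_lit 4) (nat_lit 4) (nat_lit 509) (nat_lit 373) (nat_lit 318)) (XT.lf (nat_lit 0) (nat_lit 25243589719) (nat_lit 76) (nat_lit 66448864254) (nat_lit 76) (nat_lit 62772021003) (nat_lit 3) (nat_lit 4) (nat_lit 4) (nat_lit 5) (nat_lit 4) (nat_lit 4) (nat_lit 510) (nat_lit 373) (nat_lit 317))))))) (XT.nd (nat_lit 1092) (nat_lit 0) (nat_lit 0) (XT.nd (nat_lit 546) (nat_lit 152) (nat_lit 0) (XT.nd (nat_lit 234) (nat_lit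 0) (nat_lit 0) (XT.nd (nat_lit 78) (nat_lit 0) (nat_lit 0) (XT.lf (nat_lit 0) (nat_lit 39605793422) (nat_lit 76) (nat_lit 62972953548) (nat_lit 76) (nat_lit 59283923846) (nat_lit 3) (nat_lit 4) (nat_lit 4) (nat_lit 5) (nat_lit 4) (nat_lit 4) (nat_lit 511) (nat_lit 373) (nat_lit 316)) (XT.nd (nat_lit 78) (nat_lit 0) (nat_lit 0) (XT.lf (nat_lit 0) (nat_lit 54615787990) (nat_lit 76) (nat_lit 59358684507) (nat_lit 76) (nat_lit 55658048661) (nat_lit 3) (nat_lit 4) (nat_lit 4) (nat_lit 5) (nat_lit 4) (nat_lit 4) (nat_lit 512) (nat_lit 373) (nat_lit 315)) (XT.lf (nat_lit 0) (nat_lit 70309311506) (nat_lit 76) (nat_lit 55597451728) (nat_lit 76) (nat_lit 51885762411) (nat_lit 3) (nat_lit 4) (nat_lit 4) (nat_lit 5) (nat_lit 4) (nat_lit 4) (nat_lit 513) (nat_lit 373) (nat_lit 314)))) (XT.nd (nat_lit 156) (nat_lit 0) (nat_lit 0) (XT.nd (nat_lit 78) (nat_lit 0) (nat_lit 0) (XT.lf (nat_lit 0) (nat_lit 86723729503)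 (nat_lit 76) (nat_lit 51680299894) (nat_lit 76) (nat_lit 47958083462) (nat_lit 3) (nat_lit 4) (nat_lit 4) (nat_lit 5) (nat_lit 4) (nat_lit 4) (nat_lit 514) (nat_lit 373) (nat_lit 313)) (XT.lf (nat_lit 0) (nat_lit 103898123927) (nat_lit 76) (nat_lit 47597902455) (nat_lit 76) (nat_lit 43865660199) (nat_lit 3) (nat_lit 4) (nat_lit 4) (nat_lit 5) (nat_lit 4) (nat_lit 4) (nat_lit 515) (nat_lit 373) (nat_lit 312))) (XT.nd (nat_lit 78) (nat_lit 0) (nat_lit 0) (XT.lf (nat_lit 0) (nat_lit 121873386195) (nat_lit 76) (nat_lit 43340539415) (nat_lit 76) (nat_lit 39598748756) (nat_lit 3) (nat_lit 4) (nat_lit 4) (nat_lit 5) (nat_lit 4) (nat_lit 4) (nat_lit 516) (nat_lit 373) (nat_lit 311)) (XT.lf (nat_lit 0) (nat_lit 140692314549) (nat_lit 76) (nat_lit 38898074196) (nat_lit 76) (nat_lit 35147189819) (nat_lit 3) (nat_lit 4) (nat_lit 4) (nat_lit 5) (nat_lit 4) (nat_lit 4) (nat_lit 517) (nat_lit 373) (nat_lit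 310))))) (XT.nd (nat_lit 234) (nat_lit 152) (nat_lit 0) (XT.nd (nat_lit 78) (nat_lit 0) (nat_lit 0) (XT.lf (nat_lit 0) (nat_lit 160399715963) (nat_lit 76) (nat_lit 34259929501) (nat_lit 76) (nat_lit 30500384440) (nat_lit 3) (nat_lit 4) (nat_lit 4) (nat_lit 5) (nat_lit 4) (nat_lit 4) (nat_lit 518) (nat_lit 373) (nat_lit 309)) (XT.nd (nat_lit 78) (nat_lit 0) (nat_lit 0) (XT.lf (nat_lit 0) (nat_lit 181042512819) (nat_lit 76) (nat_lit 29415062127) (nat_lit 76) (nat_lit 25647268796) (nat_lit 3) (nat_lit 4) (nat_lit 4) (nat_lit 5) (nat_lit 4) (nat_lit 4) (nat_lit 519) (nat_lit 373) (nat_lit 308)) (XT.lf (nat_lit 0) (nat_lit 202669854636) (nat_lit 76) (nat_lit 24351936675) (nat_lit 76) (nat_lit 20576287850) (nat_lit 3) (nat_lit 4) (nat_lit 4) (nat_lit 5) (nat_lit 4) (nat_lit 4) (nat_lit 520) (nat_lit 373) (nat_lit 307)))) (XT.nd (nat_lit 156) (nat_lit 152) (nat_lit 0) (XT.nd (nat_lit 78) (nat_lit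 0) (nat_lit 0) (XT.lf (nat_lit 0) (nat_lit 225333235083) (nat_lit 76) (nat_lit 19058498087) (nat_lit 76) (nat_lit 15275367837) (nat_lit 3) (nat_lit 4) (nat_lit 4) (nat_lit 5) (nat_lit 4) (nat_lit 4) (nat_lit 521) (nat_lit 373) (nat_lit 306)) (XT.lf (nat_lit 0) (nat_lit 249086614590) (nat_lit 76) (nat_lit 13522142935) (nat_lit 76) (nat_lit 9731887520) (nat_lit 3) (nat_lit 4) (nat_lit 4) (nat_lit 5) (nat_lit 4) (nat_lit 4) (nat_lit 522) (nat_lit 373) (nat_lit 305))) (XT.nd (nat_lit 78) (nat_lit 152) (nat_lit 0) (XT.lf (nat_lit 0) (nat_lit 273986548823) (nat_lit 76) (nat_lit 7729689422) (nat_lit 76) (nat_lit 3932648135) (nat_lit 3) (nat_lit 4) (nat_lit 4) (nat_lit 5) (nat_lit 4) (nat_lit 4) (nat_lit 523) (nat_lit 373) (nat_lit 304)) (XT.lf (nat_lit 0) (nat_lit 449858917) (nat_lit 76) (nat_lit 1624952273) (nat_lit 152) (nat_lit 297546681364) (nat_lit 1) (nat_lit 5) (nat_lit 2) (nat_lit 5) (nat_lit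 3) (nat_lit 4) (nat_lit 524) (nat_lit 373) (nat_lit 303)))))) (XT.nd (nat_lit 546) (nat_lit 0) (nat_lit 0) (XT.nd (nat_lit 234) (nat_lit 0) (nat_lit 0) (XT.nd (nat_lit 78) (nat_lit 0) (nat_lit 0) (XT.lf (nat_lit 0) (nat_lit 8506211247) (nat_lit 152) (nat_lit 300892543513) (nat_lit 0) (nat_lit 4877964572) (nat_lit 1) (nat_lit 5) (nat_lit 3) (nat_lit 4) (nat_lit 1) (nat_lit 4) (nat_lit 525) (nat_lit 373) (nat_lit 302)) (XT.nd (nat_lit 78) (nat_lit 0) (nat_lit 0) (XT.lf (nat_lit 0) (nat_lit 15267036799) (nat_lit 152) (nat_lit 302764070796) (nat_lit 0) (nat_lit 11633207370) (nat_lit 1) (nat_lit 5) (nat_lit 3) (nat_lit 4) (nat_lit 1) (nat_lit 4) (nat_lit 526) (nat_lit 373) (nat_lit 301)) (XT.lf (nat_lit 0) (nat_lit 22348014991) (nat_lit 152) (nat_lit 304765301445) (nat_lit 0) (nat_lit 18708868653) (nat_lit 1) (nat_lit 5) (nat_lit 3) (nat_lit 4) (nat_lit 1) (nat_lit 4) (nat_lit 527) (nat_lit 373)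 (nat_lit 300)))) (XT.nd (nat_lit 156) (nat_lit 0) (nat_lit 0) (XT.nd (nat_lit 78) (nat_lit 0) (nat_lit 0) (XT.lf (nat_lit 0) (nat_lit 29766005294) (nat_lit 152) (nat_lit 306901000294) (nat_lit 0) (nat_lit 26121795234) (nat_lit 1) (nat_lit 5) (nat_lit 3) (nat_lit 4) (nat_lit 1) (nat_lit 4) (nat_lit 528) (nat_lit 373) (nat_lit 299)) (XT.lf (nat_lit 0) (nat_lit 37538669590) (nat_lit 152) (nat_lit 309176252341) (nat_lit 0) (nat_lit 33889636938) (nat_lit 1) (nat_lit 5) (nat_lit 3) (nat_lit 4) (nat_lit 1) (nat_lit 4) (nat_lit 529) (nat_lit 373) (nat_lit 298))) (XT.nd (nat_lit 78) (nat_lit 0) (nat_lit 0) (XT.lf (nat_lit 0) (nat_lit 45684514223) (nat_lit 152) (nat_lit 311596474853) (nat_lit 0) (nat_lit 42030888625) (nat_lit 1) (nat_lit 5) (nat_lit 3) (nat_lit 4) (nat_lit 1) (nat_lit 4) (nat_lit 530) (nat_lit 373) (nat_lit 297)) (XT.lf (nat_lit 0) (nat_lit 54222934060) (nat_lit 152) (nat_lit 314167430264)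 (nat_lit 0) (nat_lit 50564934229) (nat_lit 1) (nat_lit 5) (nat_lit 3) (nat_lit 4) (nat_lit 1) (nat_lit 4) (nat_lit 531) (nat_lit 373) (nat_lit 296))))) (XT.nd (nat_lit 312) (nat_lit 0) (nat_lit 0) (XT.nd (nat_lit 156) (nat_lit 0) (nat_lit 0) (XT.nd (nat_lit 78) (nat_lit 0) (nat_lit 0) (XT.lf (nat_lit 0) (nat_lit 63174258674) (nat_lit 152) (nat_lit 316895239897) (nat_lit 0) (nat_lit 59512092906) (nat_lit 1) (nat_lit 5) (nat_lit 3) (nat_lit 4) (nat_lit 1) (nat_lit 4) (nat_lit 532) (nat_lit 373) (nat_lit 295)) (XT.lf (nat_lit 0) (nat_lit 72559800741) (nat_lit 152) (nat_lit 319786398535) (nat_lit 0) (nat_lit 68893667414) (nat_lit 1) (nat_lit 5) (nat_lit 3) (nat_lit 4) (nat_lit 1) (nat_lit 4) (nat_lit 533) (nat_lit 373) (nat_lit 294))) (XT.nd (nat_lit 78) (nat_lit 0) (nat_lit 0) (XT.lf (nat_lit 0) (nat_lit 82401906791) (nat_lit 152) (nat_lit 322847789892) (nat_lit 0) (nat_lit 78731994836) (nat_lit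 1) (nat_lit 5) (nat_lit 3) (nat_lit 4) (nat_lit 1) (nat_lit 4) (nat_lit 534) (nat_lit 373) (nat_lit 293)) (XT.lf (nat_lit 0) (nat_lit 92724010408) (nat_lit 152) (nat_lit 326086702992) (nat_lit 0) (nat_lit 89050499761) (nat_lit 1) (nat_lit 5) (nat_lit 3) (nat_lit 4) (nat_lit 1) (nat_lit 4) (nat_lit 535) (nat_lit 373) (nat_lit 292)))) (XT.nd (nat_lit 156) (nat_lit 0) (nat_lit 0) (XT.nd (nat_lit 78) (nat_lit 0) (nat_lit 0) (XT.lf (nat_lit 0) (nat_lit 103550688031) (nat_lit 152) (nat_lit 329510849535) (nat_lit 0) (nat_lit 99873750057) (nat_lit 1) (nat_lit 5) (nat_lit 3) (nat_lit 4) (nat_lit 1) (nat_lit 4) (nat_lit 536) (nat_lit 373) (nat_lit 291)) (XT.lf (nat_lit 0) (nat_lit 114907717463) (nat_lit 152) (nat_lit 333128382251) (nat_lit 0) (nat_lit 111227515369) (nat_lit 1) (nat_lit 5) (nat_lit 3) (nat_lit 4) (nat_lit 1) (nat_lit 4) (nat_lit 537) (nat_lit 373) (nat_lit 290))) (XT.nd (nat_lit 78) (nat_lit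 0) (nat_lit 0) (XT.lf (nat_lit 0) (nat_lit 126822139250) (nat_lit 152) (nat_lit 336947914311) (nat_lit 0) (nat_lit 123138828470) (nat_lit 1) (nat_lit 5) (nat_lit 3) (nat_lit 4) (nat_lit 1) (nat_lit 4) (nat_lit 538) (nat_lit 373) (nat_lit 289)) (XT.lf (nat_lit 0) (nat_lit 139322321064) (nat_lit 152) (nat_lit 340978539841) (nat_lit 0) (nat_lit 135636049630) (nat_lit 1) (nat_lit 5) (nat_lit 3) (nat_lit 4) (nat_lit 1) (nat_lit 4) (nat_lit 539) (nat_lit 373) (nat_lit 288))))))))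
noncomputable def xc39 : XT := (XT.nd (nat_lit 57252) (nat_lit 0) (nat_lit 228) (XT.nd (nat_lit 56160) (nat_lit 0) (nat_lit 1140) (XT.nd (nat_lit 55614) (nat_lit 0) (nat_lit 2052) (XT.nd (nat_lit 234) (nat_lit 0) (nat_lit 0) (XT.nd (nat_lit 78) (nat_lit 0) (nat_lit 0) (XT.lf (nat_lit 0) (nat_lit 152438025242) (nat_lit 152) (nat_lit 345229855568) (nat_lit 0) (nat_lit 148748934138) (nat_lit 1) (nat_lit 5) (nat_lit 3) (nat_lit 4) (nat_lit 1) (nat_lit 4) (nat_lit 540) (nat_lit 373) (nat_lit 287)) (XT.nd (nat_lit 78) (nat_lit 0) (nat_lit 0) (XT.lf (nat_lit 0) (nat_lit 166200479651) (nat_lit 152) (nat_lit 349711983671) (nat_lit 0) (nat_lit 162508703147) (nat_lit 1) (nat_lit 5) (nat_lit 3) (nat_lit 4) (nat_lit 1) (nat_lit 4) (nat_lit 541) (nat_lit 373) (nat_lit 286)) (XT.lf (nat_lit 0) (nat_lit 180642452039) (nat_lit 152) (nat_lit 354435595886) (nat_lit 0) (nat_lit 176948118011) (nat_lit 1) (nat_lit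 5) (nat_lit 3) (nat_lit 4) (nat_lit 1) (nat_lit 4) (nat_lit 542) (nat_lit 373) (nat_lit 285)))) (XT.nd (nat_lit 156) (nat_lit 0) (nat_lit 0) (XT.nd (nat_lit 78) (nat_lit 0) (nat_lit 0) (XT.lf (nat_lit 0) (nat_lit 195798328056) (nat_lit 152) (nat_lit 359411938906) (nat_lit 0) (nat_lit 192101558291) (nat_lit 1) (nat_lit 5) (nat_lit 3) (nat_lit 4) (nat_lit 1) (nat_lit 4) (nat_lit 543) (nat_lit 373) (nat_lit 284)) (XT.lf (nat_lit 0) (nat_lit 211704193120) (nat_lit 152) (nat_lit 364652861169) (nat_lit 0) (nat_lit 208005103606) (nat_lit 1) (nat_lit 5) (nat_lit 3) (nat_lit 4) (nat_lit 1) (nat_lit 4) (nat_lit 544) (nat_lit 373) (nat_lit 283))) (XT.nd (nat_lit 78) (nat_lit 0) (nat_lit 0) (XT.lf (nat_lit 0) (nat_lit 228397918339) (nat_lit 152) (nat_lit 370170841060) (nat_lit 0) (nat_lit 224696619539) (nat_lit 1) (nat_lit 5) (nat_lit 3) (nat_lit 4) (nat_lit 1) (nat_lit 4) (nat_lit 545) (nat_lit 373) (nat_lit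 282)) (XT.lf (nat_lit 0) (nat_lit 245919250677) (nat_lit 152) (nat_lit 375979016627) (nat_lit 0) (nat_lit 242215847796) (nat_lit 1) (nat_lit 5) (nat_lit 3) (nat_lit 4) (nat_lit 1) (nat_lit 4) (nat_lit 546) (nat_lit 373) (nat_lit 281))))) (XT.nd (nat_lit 234) (nat_lit 380) (nat_lit 0) (XT.nd (nat_lit 78) (nat_lit 76) (nat_lit 0) (XT.lf (nat_lit 0) (nat_lit 194367956) (nat_lit 152) (nat_lit 7409221920) (nat_lit 0) (nat_lit 194367956) (nat_lit 34) (nat_lit 5) (nat_lit 36) (nat_lit 4) (nat_lit 34) (nat_lit 4) (nat_lit 452) (nat_lit 374) (nat_lit 374)) (XT.nd (nat_lit 78) (nat_lit 76) (nat_lit 0) (XT.lf (nat_lit 0) (nat_lit 6843886577) (nat_lit 152) (nat_lit 2669135170) (nat_lit 0) (nat_lit 6523584099) (nat_lit 34) (nat_lit 5) (nat_lit 36) (nat_lit 4) (nat_lit 34) (nat_lit 4) (nat_lit 453) (nat_lit 374) (nat_lit 373)) (XT.lf (nat_lit 0) (nat_lit 10001846928) (nat_lit 76) (nat_lit 3562853331) (nat_lit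 76) (nat_lit 2937500874) (nat_lit 33) (nat_lit 4) (nat_lit 34) (nat_lit 5) (nat_lit 34) (nat_lit 4) (nat_lit 454) (nat_lit 374) (nat_lit 372)))) (XT.nd (nat_lit 156) (nat_lit 152) (nat_lit 0) (XT.nd (nat_lit 78) (nat_lit 76) (nat_lit 0) (XT.lf (nat_lit 0) (nat_lit 3485505074) (nat_lit 152) (nat_lit 10890948198) (nat_lit 0) (nat_lit 2613241981) (nat_lit 31) (nat_lit 5) (nat_lit 33) (nat_lit 4) (nat_lit 31) (nat_lit 4) (nat_lit 455) (nat_lit 374) (nat_lit 371)) (XT.lf (nat_lit 0) (nat_lit 1592691645) (nat_lit 76) (nat_lit 8521545176) (nat_lit 76) (nat_lit 7385768442) (nat_lit 30) (nat_lit 4) (nat_lit 31) (nat_lit 5) (nat_lit 31) (nat_lit 4) (nat_lit 456) (nat_lit 374) (nat_lit 370))) (XT.nd (nat_lit 78) (nat_lit 152) (nat_lit 0) (XT.lf (nat_lit 0) (nat_lit 14677854770) (nat_lit 76) (nat_lit 2372955457) (nat_lit 76) (nat_lit 986213350) (nat_lit 30) (nat_lit 4) (nat_lit 31) (nat_lit 5) (nat_lit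 31) (nat_lit 4) (nat_lit 457) (nat_lit 374) (nat_lit 369)) (XT.lf (nat_lit 0) (nat_lit 5563812460) (nat_lit 152) (nat_lit 9016444082) (nat_lit 0) (nat_lit 4015472700) (nat_lit 28) (nat_lit 5) (nat_lit 30) (nat_lit 4) (nat_lit 28) (nat_lit 4) (nat_lit 458) (nat_lit 374) (nat_lit 368)))))) (XT.nd (nat_lit 546) (nat_lit 456) (nat_lit 0) (XT.nd (nat_lit 234) (nat_lit 228) (nat_lit 0) (XT.nd (nat_lit 78) (nat_lit 152) (nat_lit 0) (XT.lf (nat_lit 0) (nat_lit 3777550621) (nat_lit 76) (nat_lit 8585701389) (nat_lit 76) (nat_lit 6820568304) (nat_lit 27) (nat_lit 4) (nat_lit 28) (nat_lit 5) (nat_lit 28) (nat_lit 4) (nat_lit 459) (nat_lit 374) (nat_lit 367)) (XT.nd (nat_lit 78) (nat_lit 152) (nat_lit 0) (XT.lf (nat_lit 0) (nat_lit 17141439158) (nat_lit 76) (nat_lit 2316854469) (nat_lit 76) (nat_lit 345251551) (nat_lit 27) (nat_lit 4) (nat_lit 28) (nat_lit 5) (nat_lit 28) (nat_lit 4) (nat_lit 460) (nat_lit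 374) (nat_lit 366)) (XT.lf (nat_lit 0) (nat_lit 6289925528) (nat_lit 152) (nat_lit 9932235274) (nat_lit 0) (nat_lit 4224934238) (nat_lit 25) (nat_lit 5) (nat_lit 27) (nat_lit 4) (nat_lit 25) (nat_lit 4) (nat_lit 461) (nat_lit 374) (nat_lit 365)))) (XT.nd (nat_lit 156) (nat_lit 152) (nat_lit 0) (XT.nd (nat_lit 78) (nat_lit 0) (nat_lit 0) (XT.lf (nat_lit 0) (nat_lit 3002705830) (nat_lit 76) (nat_lit 10183082045) (nat_lit 76) (nat_lit 7939734350) (nat_lit 24) (nat_lit 4) (nat_lit 25) (nat_lit 5) (nat_lit 25) (nat_lit 4) (nat_lit 462) (nat_lit 374) (nat_lit 364)) (XT.lf (nat_lit 0) (nat_lit 16563664169) (nat_lit 76) (nat_lit 3844178213) (nat_lit 76) (nat_lit 1430967275) (nat_lit 24) (nat_lit 4) (nat_lit 25) (nat_lit 5) (nat_lit 25) (nat_lit 4) (nat_lit 463) (nat_lit 374) (nat_lit 363))) (XT.nd (nat_lit 78) (nat_lit 0) (nat_lit 0) (XT.lf (nat_lit 0) (nat_lit 5219521059) (nat_lit 152) (nat_lit 14597415460)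 (nat_lit 0) (nat_lit 2767153959) (nat_lit 22) (nat_lit 5) (nat_lit 24) (nat_lit 4) (nat_lit 22) (nat_lit 4) (nat_lit 464) (nat_lit 374) (nat_lit 362)) (XT.lf (nat_lit 0) (nat_lit 12127933087) (nat_lit 152) (nat_lit 1710030772) (nat_lit 0) (nat_lit 9528831732) (nat_lit 22) (nat_lit 5) (nat_lit 24) (nat_lit 4) (nat_lit 22) (nat_lit 4) (nat_lit 465) (nat_lit 374) (nat_lit 361))))) (XT.nd (nat_lit 234) (nat_lit 228) (nat_lit 0) (XT.nd (nat_lit 78) (nat_lit 152) (nat_lit 0) (XT.lf (nat_lit 0) (nat_lit 11863675186) (nat_lit 76) (nat_lit 7531571141) (nat_lit 76) (nat_lit 4792722875) (nat_lit 21) (nat_lit 4) (nat_lit 22) (nat_lit 5) (nat_lit 22) (nat_lit 4) (nat_lit 466) (nat_lit 374) (nat_lit 360)) (XT.nd (nat_lit 78) (nat_lit 0) (nat_lit 0) (XT.lf (nat_lit 0) (nat_lit 782412097) (nat_lit 76) (nat_lit 1000198955) (nat_lit 152) (nat_lit 23272548567) (nat_lit 19) (nat_lit 5) (nat_lit 20) (nat_lit 5)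 (nat_lit 21) (nat_lit 4) (nat_lit 467) (nat_lit 374) (nat_lit 359)) (XT.lf (nat_lit 0) (nat_lit 8658128066) (nat_lit 152) (nat_lit 11494807202) (nat_lit 0) (nat_lit 5802227943) (nat_lit 19) (nat_lit 5) (nat_lit 21) (nat_lit 4) (nat_lit 19) (nat_lit 4) (nat_lit 468) (nat_lit 374) (nat_lit 358)))) (XT.nd (nat_lit 156) (nat_lit 152) (nat_lit 0) (XT.nd (nat_lit 78) (nat_lit 0) (nat_lit 0) (XT.lf (nat_lit 0) (nat_lit 1635688419) (nat_lit 76) (nat_lit 14120703132) (nat_lit 76) (nat_lit 11149832881) (nat_lit 18) (nat_lit 4) (nat_lit 19) (nat_lit 5) (nat_lit 19) (nat_lit 4) (nat_lit 469) (nat_lit 374) (nat_lit 357)) (XT.lf (nat_lit 0) (nat_lit 15504683661) (nat_lit 76) (nat_lit 7739400289) (nat_lit 76) (nat_lit 4659034676) (nat_lit 18) (nat_lit 4) (nat_lit 19) (nat_lit 5) (nat_lit 19) (nat_lit 4) (nat_lit 470) (nat_lit 374) (nat_lit 356))) (XT.nd (nat_lit 78) (nat_lit 0) (nat_lit 0) (XT.lf (nat_lit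 0) (nat_lit 802148718) (nat_lit 76) (nat_lit 1142629636) (nat_lit 152) (nat_lit 27010526542) (nat_lit 16) (nat_lit 5) (nat_lit 17) (nat_lit 5) (nat_lit 18) (nat_lit 4) (nat_lit 471) (nat_lit 374) (nat_lit 355)) (XT.lf (nat_lit 0) (nat_lit 8871219857) (nat_lit 152) (nat_lit 15433979473) (nat_lit 0) (nat_lit 5743636591) (nat_lit 16) (nat_lit 5) (nat_lit 18) (nat_lit 4) (nat_lit 16) (nat_lit 4) (nat_lit 472) (nat_lit 374) (nat_lit 354))))))) (XT.nd (nat_lit 1092) (nat_lit 380) (nat_lit 0) (XT.nd (nat_lit 546) (nat_lit 228) (nat_lit 0) (XT.nd (nat_lit 234) (nat_lit 228) (nat_lit 0) (XT.nd (nat_lit 78) (nat_lit 76) (nat_lit 0) (XT.lf (nat_lit 0) (nat_lit 16015374232) (nat_lit 152) (nat_lit 2390395552) (nat_lit 0) (nat_lit 12797708862) (nat_lit 16) (nat_lit 5) (nat_lit 18) (nat_lit 4) (nat_lit 16) (nat_lit 4) (nat_lit 473) (nat_lit 374) (nat_lit 353)) (XT.nd (nat_lit 78) (nat_lit 0) (nat_lit 0) (XT.lf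 (nat_lit 0) (nat_lit 11391076990) (nat_lit 76) (nat_lit 12163181365) (nat_lit 76) (nat_lit 8859723515) (nat_lit 15) (nat_lit 4) (nat_lit 16) (nat_lit 5) (nat_lit 16) (nat_lit 4) (nat_lit 474) (nat_lit 374) (nat_lit 352)) (XT.lf (nat_lit 0) (nat_lit 25670234121) (nat_lit 76) (nat_lit 5702408773) (nat_lit 76) (nat_lit 2317243799) (nat_lit 15) (nat_lit 4) (nat_lit 16) (nat_lit 5) (nat_lit 16) (nat_lit 4) (nat_lit 475) (nat_lit 374) (nat_lit 351)))) (XT.nd (nat_lit 156) (nat_lit 76) (nat_lit 0) (XT.nd (nat_lit 78) (nat_lit 0) (nat_lit 0) (XT.lf (nat_lit 0) (nat_lit 4375960228) (nat_lit 152) (nat_lit 29573728604) (nat_lit 0) (nat_lit 1077882816) (nat_lit 13) (nat_lit 5) (nat_lit 15) (nat_lit 4) (nat_lit 13) (nat_lit 4) (nat_lit 476) (nat_lit 374) (nat_lit 350)) (XT.lf (nat_lit 0) (nat_lit 11424202602) (nat_lit 152) (nat_lit 16945586399) (nat_lit 0) (nat_lit 8055543504) (nat_lit 13) (nat_lit 5) (nat_lit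 15) (nat_lit 4) (nat_lit 13) (nat_lit 4) (nat_lit 477) (nat_lit 374) (nat_lit 349))) (XT.nd (nat_lit 78) (nat_lit 76) (nat_lit 0) (XT.lf (nat_lit 0) (nat_lit 18697930828) (nat_lit 152) (nat_lit 3939349311) (nat_lit 0) (nat_lit 15262051077) (nat_lit 13) (nat_lit 5) (nat_lit 15) (nat_lit 4) (nat_lit 13) (nat_lit 4) (nat_lit 478) (nat_lit 374) (nat_lit 348)) (XT.lf (nat_lit 0) (nat_lit 9789267589) (nat_lit 76) (nat_lit 16578033619) (nat_lit 76) (nat_lit 13078134198) (nat_lit 12) (nat_lit 4) (nat_lit 13) (nat_lit 5) (nat_lit 13) (nat_lit 4) (nat_lit 479) (nat_lit 374) (nat_lit 347))))) (XT.nd (nat_lit 234) (nat_lit 76) (nat_lit 0) (XT.nd (nat_lit 78) (nat_lit 152) (nat_lit 0) (XT.lf (nat_lit 0) (nat_lit 24103722033) (nat_lit 76) (nat_lit 10264301163) (nat_lit 76) (nat_lit 6703430628) (nat_lit 12) (nat_lit 4) (nat_lit 13) (nat_lit 5) (nat_lit 13) (nat_lit 4) (nat_lit 480) (nat_lit 374) (nat_lit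 346)) (XT.nd (nat_lit 78) (nat_lit 152) (nat_lit 0) (XT.lf (nat_lit 0) (nat_lit 38907843375) (nat_lit 76) (nat_lit 3747764862) (nat_lit 76) (nat_lit 128826599) (nat_lit 12) (nat_lit 4) (nat_lit 13) (nat_lit 5) (nat_lit 13) (nat_lit 4) (nat_lit 481) (nat_lit 374) (nat_lit 345)) (XT.lf (nat_lit 0) (nat_lit 6652935212) (nat_lit 152) (nat_lit 34766423065) (nat_lit 0) (nat_lit 3153658202) (nat_lit 10) (nat_lit 5) (nat_lit 12) (nat_lit 4) (nat_lit 10) (nat_lit 4) (nat_lit 482) (nat_lit 374) (nat_lit 344)))) (XT.nd (nat_lit 156) (nat_lit 76) (nat_lit 0) (XT.nd (nat_lit 78) (nat_lit 0) (nat_lit 0) (XT.lf (nat_lit 0) (nat_lit 13788241880) (nat_lit 152) (nat_lit 22422939248) (nat_lit 0) (nat_lit 10238803783) (nat_lit 10) (nat_lit 5) (nat_lit 12) (nat_lit 4) (nat_lit 10) (nat_lit 4) (nat_lit 483) (nat_lit 374) (nat_lit 343)) (XT.lf (nat_lit 0) (nat_lit 21176141691) (nat_lit 152) (nat_lit 9670940036) (nat_lit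 0) (nat_lit 17578931132) (nat_lit 10) (nat_lit 5) (nat_lit 12) (nat_lit 4) (nat_lit 10) (nat_lit 4) (nat_lit 484) (nat_lit 374) (nat_lit 342))) (XT.nd (nat_lit 78) (nat_lit 0) (nat_lit 0) (XT.lf (nat_lit 0) (nat_lit 3636321469) (nat_lit 76) (nat_lit 25254676584) (nat_lit 76) (nat_lit 21611968440) (nat_lit 9) (nat_lit 4) (nat_lit 10) (nat_lit 5) (nat_lit 10) (nat_lit 4) (nat_lit 485) (nat_lit 374) (nat_lit 341)) (XT.lf (nat_lit 0) (nat_lit 17749181791) (nat_lit 76) (nat_lit 19308657669) (nat_lit 76) (nat_lit 15622618493) (nat_lit 9) (nat_lit 4) (nat_lit 10) (nat_lit 5) (nat_lit 10) (nat_lit 4) (nat_lit 486) (nat_lit 374) (nat_lit 340)))))) (XT.nd (nat_lit 546) (nat_lit 228) (nat_lit 0) (XT.nd (nat_lit 234) (nat_lit 0) (nat_lit 0) (XT.nd (nat_lit 78) (nat_lit 152) (nat_lit 0) (XT.lf (nat_lit 0) (nat_lit 32381478027) (nat_lit 76) (nat_lit 13158649843) (nat_lit 76) (nat_lit 9431343017) (nat_lit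 9) (nat_lit 4) (nat_lit 10) (nat_lit 5) (nat_lit 10) (nat_lit 4) (nat_lit 487) (nat_lit 374) (nat_lit 339)) (XT.nd (nat_lit 78) (nat_lit 152) (nat_lit 0) (XT.lf (nat_lit 0) (nat_lit 47568048975) (nat_lit 76) (nat_lit 6790010230) (nat_lit 76) (nat_lit 3023400880) (nat_lit 9) (nat_lit 4) (nat_lit 10) (nat_lit 5) (nat_lit 10) (nat_lit 4) (nat_lit 488) (nat_lit 374) (nat_lit 338)) (XT.lf (nat_lit 0) (nat_lit 3483934010) (nat_lit 76) (nat_lit 71175421) (nat_lit 152) (nat_lit 56355511334) (nat_lit 7) (nat_lit 5) (nat_lit 8) (nat_lit 5) (nat_lit 9) (nat_lit 4) (nat_lit 489) (nat_lit 374) (nat_lit 337)))) (XT.nd (nat_lit 156) (nat_lit 0) (nat_lit 0) (XT.nd (nat_lit 78) (nat_lit 0) (nat_lit 0) (XT.lf (nat_lit 0) (nat_lit 10553367332) (nat_lit 152) (nat_lit 45104253519) (nat_lit 0) (nat_lit 6896520787) (nat_lit 7) (nat_lit 5) (nat_lit 9) (nat_lit 4) (nat_lit 7) (nat_lit 4) (nat_lit 490) (nat_lit 374)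 (nat_lit 336)) (XT.lf (nat_lit 0) (nat_lit 17821252759) (nat_lit 152) (nat_lit 33380529817) (nat_lit 0) (nat_lit 14132071930) (nat_lit 7) (nat_lit 5) (nat_lit 9) (nat_lit 4) (nat_lit 7) (nat_lit 4) (nat_lit 491) (nat_lit 374) (nat_lit 335))) (XT.nd (nat_lit 78) (nat_lit 0) (nat_lit 0) (XT.lf (nat_lit 0) (nat_lit 25374958952) (nat_lit 152) (nat_lit 21226490775) (nat_lit 0) (nat_lit 21654983568) (nat_lit 7) (nat_lit 5) (nat_lit 9) (nat_lit 4) (nat_lit 7) (nat_lit 4) (nat_lit 492) (nat_lit 374) (nat_lit 334)) (XT.lf (nat_lit 0) (nat_lit 33232470927) (nat_lit 152) (nat_lit 8613198204) (nat_lit 0) (nat_lit 29483167394) (nat_lit 7) (nat_lit 5) (nat_lit 9) (nat_lit 4) (nat_lit 7) (nat_lit 4) (nat_lit 493) (nat_lit 374) (nat_lit 333))))) (XT.nd (nat_lit 312) (nat_lit 152) (nat_lit 0) (XT.nd (nat_lit 156) (nat_lit 0) (nat_lit 0) (XT.nd (nat_lit 78) (nat_lit 0) (nat_lit 0) (XT.lf (nat_lit 0) (nat_lit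 4637818706) (nat_lit 76) (nat_lit 36847087687) (nat_lit 76) (nat_lit 33069852584) (nat_lit 6) (nat_lit 4) (nat_lit 7) (nat_lit 5) (nat_lit 7) (nat_lit 4) (nat_lit 494) (nat_lit 374) (nat_lit 332)) (XT.lf (nat_lit 0) (nat_lit 18711318118) (nat_lit 76) (nat_lit 31515331556) (nat_lit 76) (nat_lit 27711494958) (nat_lit 6) (nat_lit 4) (nat_lit 7) (nat_lit 5) (nat_lit 7) (nat_lit 4) (nat_lit 495) (nat_lit 374) (nat_lit 331))) (XT.nd (nat_lit 78) (nat_lit 0) (nat_lit 0) (XT.lf (nat_lit 0) (nat_lit 33356017132) (nat_lit 76) (nat_lit 25983574761) (nat_lit 76) (nat_lit 22154403406) (nat_lit 6) (nat_lit 4) (nat_lit 7) (nat_lit 5) (nat_lit 7) (nat_lit 4) (nat_lit 496) (nat_lit 374) (nat_lit 330)) (XT.lf (nat_lit 0) (nat_lit 48606784079) (nat_lit 76) (nat_lit 20238646454) (nat_lit 76) (nat_lit 16385346758) (nat_lit 6) (nat_lit 4) (nat_lit 7) (nat_lit 5) (nat_lit 7) (nat_lit 4) (nat_lit 497) (nat_lit 374)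 (nat_lit 329)))) (XT.nd (nat_lit 156) (nat_lit 152) (nat_lit 0) (XT.nd (nat_lit 78) (nat_lit 0) (nat_lit 0) (XT.lf (nat_lit 0) (nat_lit 64499930309) (nat_lit 76) (nat_lit 14266868232) (nat_lit 76) (nat_lit 10390589165) (nat_lit 6) (nat_lit 4) (nat_lit 7) (nat_lit 5) (nat_lit 7) (nat_lit 4) (nat_lit 498) (nat_lit 374) (nat_lit 328)) (XT.lf (nat_lit 0) (nat_lit 81073296645) (nat_lit 76) (nat_lit 8054021576) (nat_lit 76) (nat_lit 4155857393) (nat_lit 6) (nat_lit 4) (nat_lit 7) (nat_lit 5) (nat_lit 7) (nat_lit 4) (nat_lit 499) (nat_lit 374) (nat_lit 327))) (XT.nd (nat_lit 78) (nat_lit 0) (nat_lit 0) (XT.lf (nat_lit 0) (nat_lit 735483741) (nat_lit 76) (nat_lit 1534999620) (nat_lit 152) (nat_lit 95345085042) (nat_lit 4) (nat_lit 5) (nat_lit 5) (nat_lit 5) (nat_lit 6) (nat_lit 4) (nat_lit 500) (nat_lit 374) (nat_lit 326)) (XT.lf (nat_lit 0) (nat_lit 9116519746) (nat_lit 152) (nat_lit 87667526697)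 (nat_lit 0) (nat_lit 5365226798) (nat_lit 4) (nat_lit 5) (nat_lit 6) (nat_lit 4) (nat_lit 4) (nat_lit 4) (nat_lit 501) (nat_lit 374) (nat_lit 325))))))))
noncomputable def xc40 : XT := (XT.nd (nat_lit 2184) (nat_lit 0) (nat_lit 0) (XT.nd (nat_lit 1092) (nat_lit 152) (nat_lit 0) (XT.nd (nat_lit 546) (nat_lit 76) (nat_lit 0) (XT.nd (nat_lit 234) (nat_lit 0) (nat_lit 0) (XT.nd (nat_lit 78) (nat_lit 0) (nat_lit 0) (XT.lf (nat_lit 0) (nat_lit 16277611436) (nat_lit 152) (nat_lit 78125101598) (nat_lit 0) (nat_lit 12508313549) (nat_lit 4) (nat_lit 5) (nat_lit 6) (nat_lit 4) (nat_lit 4) (nat_lit 4) (nat_lit 502) (nat_lit 374) (nat_lit 324)) (XT.nd (nat_lit 78) (nat_lit 0) (nat_lit 0) (XT.lf (nat_lit 0) (nat_lit 23746843004) (nat_lit 152) (nat_lit 68206123659) (nat_lit 0) (nat_lit 19960397556) (nat_lit 4) (nat_lit 5) (nat_lit 6) (nat_lit 4) (nat_lit 4) (nat_lit 4) (nat_lit 503) (nat_lit 374) (nat_lit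 323)) (XT.lf (nat_lit 0) (nat_lit 31541998335) (nat_lit 152) (nat_lit 57886976267) (nat_lit 0) (nat_lit 27739221877) (nat_lit 4) (nat_lit 5) (nat_lit 6) (nat_lit 4) (nat_lit 4) (nat_lit 4) (nat_lit 504) (nat_lit 374) (nat_lit 322)))) (XT.nd (nat_lit 156) (nat_lit 0) (nat_lit 0) (XT.nd (nat_lit 78) (nat_lit 0) (nat_lit 0) (XT.lf (nat_lit 0) (nat_lit 39681637323) (nat_lit 152) (nat_lit 47143090021) (nat_lit 0) (nat_lit 35863307521) (nat_lit 4) (nat_lit 5) (nat_lit 6) (nat_lit 4) (nat_lit 4) (nat_lit 4) (nat_lit 505) (nat_lit 374) (nat_lit 321)) (XT.lf (nat_lit 0) (nat_lit 48185140060) (nat_lit 152) (nat_lit 35948884242) (nat_lit 0) (nat_lit 44351997550) (nat_lit 4) (nat_lit 5) (nat_lit 6) (nat_lit 4) (nat_lit 4) (nat_lit 4) (nat_lit 506) (nat_lit 374) (nat_lit 320))) (XT.nd (nat_lit 78) (nat_lit 0) (nat_lit 0) (XT.lf (nat_lit 0) (nat_lit 57072752981) (nat_lit 152) (nat_lit 24277706058) (nat_lit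 0) (nat_lit 53225503131) (nat_lit 4) (nat_lit 5) (nat_lit 6) (nat_lit 4) (nat_lit 4) (nat_lit 4) (nat_lit 507) (nat_lit 374) (nat_lit 319)) (XT.lf (nat_lit 0) (nat_lit 66365637070) (nat_lit 152) (nat_lit 12101766949) (nat_lit 0) (nat_lit 62504951657) (nat_lit 4) (nat_lit 5) (nat_lit 6) (nat_lit 4) (nat_lit 4) (nat_lit 4) (nat_lit 508) (nat_lit 374) (nat_lit 318))))) (XT.nd (nat_lit 234) (nat_lit 0) (nat_lit 0) (XT.nd (nat_lit 78) (nat_lit 0) (nat_lit 0) (XT.lf (nat_lit 0) (nat_lit 628024108) (nat_lit 76) (nat_lit 75467699350) (nat_lit 76) (nat_lit 71594218163) (nat_lit 3) (nat_lit 4) (nat_lit 4) (nat_lit 5) (nat_lit 4) (nat_lit 4) (nat_lit 509) (nat_lit 374) (nat_lit 317)) (XT.nd (nat_lit 78) (nat_lit 0) (nat_lit 0) (XT.lf (nat_lit 0) (nat_lit 14340615455) (nat_lit 76) (nat_lit 72140021763) (nat_lit 76) (nat_lit 68254354124) (nat_lit 3) (nat_lit 4) (nat_lit 4) (nat_lit 5) (nat_lit 4) (nat_lit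 4) (nat_lit 510) (nat_lit 374) (nat_lit 316)) (XT.lf (nat_lit 0) (nat_lit 28668517051) (nat_lit 76) (nat_lit 68681397496) (nat_lit 76) (nat_lit 64784123713) (nat_lit 3) (nat_lit 4) (nat_lit 4) (nat_lit 5) (nat_lit 4) (nat_lit 4) (nat_lit 511) (nat_lit 374) (nat_lit 315)))) (XT.nd (nat_lit 156) (nat_lit 0) (nat_lit 0) (XT.nd (nat_lit 78) (nat_lit 0) (nat_lit 0) (XT.lf (nat_lit 0) (nat_lit 43645842945) (nat_lit 76) (nat_lit 65083591730) (nat_lit 76) (nat_lit 61175264476) (nat_lit 3) (nat_lit 4) (nat_lit 4) (nat_lit 5) (nat_lit 4) (nat_lit 4) (nat_lit 512) (nat_lit 374) (nat_lit 314)) (XT.lf (nat_lit 0) (nat_lit 59308253440) (nat_lit 76) (nat_lit 61338038260) (nat_lit 76) (nat_lit 57419183892) (nat_lit 3) (nat_lit 4) (nat_lit 4) (nat_lit 5) (nat_lit 4) (nat_lit 4) (nat_lit 513) (nat_lit 374) (nat_lit 313))) (XT.nd (nat_lit 78) (nat_lit 0) (nat_lit 0) (XT.lf (nat_lit 0) (nat_lit 75693039986) (nat_lit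 76) (nat_lit 57435819102) (nat_lit 76) (nat_lit 53506938910) (nat_lit 3) (nat_lit 4) (nat_lit 4) (nat_lit 5) (nat_lit 4) (nat_lit 4) (nat_lit 514) (nat_lit 374) (nat_lit 312)) (XT.lf (nat_lit 0) (nat_lit 92839213983) (nat_lit 76) (nat_lit 53367643259) (nat_lit 76) (nat_lit 49429214663) (nat_lit 3) (nat_lit 4) (nat_lit 4) (nat_lit 5) (nat_lit 4) (nat_lit 4) (nat_lit 515) (nat_lit 374) (nat_lit 311)))))) (XT.nd (nat_lit 546) (nat_lit 152) (nat_lit 0) (XT.nd (nat_lit 234) (nat_lit 0) (nat_lit 0) (XT.nd (nat_lit 78) (nat_lit 0) (nat_lit 0) (XT.lf (nat_lit 0) (nat_lit 110787599652) (nat_lit 76) (nat_lit 49123824596) (nat_lit 76) (nat_lit 45176302283) (nat_lit 3) (nat_lit 4) (nat_lit 4) (nat_lit 5) (nat_lit 4) (nat_lit 4) (nat_lit 516) (nat_lit 374) (nat_lit 310)) (XT.nd (nat_lit 78) (nat_lit 0) (nat_lit 0) (XT.lf (nat_lit 0) (nat_lit 129580931246) (nat_lit 76) (nat_lit 44694258784) (nat_lit 76)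 (nat_lit 40738075787) (nat_lit 3) (nat_lit 4) (nat_lit 4) (nat_lit 5) (nat_lit 4) (nat_lit 4) (nat_lit 517) (nat_lit 374) (nat_lit 309)) (XT.lf (nat_lit 0) (nat_lit 149263954792) (nat_lit 76) (nat_lit 40068399238) (nat_lit 76) (nat_lit 36103967971) (nat_lit 3) (nat_lit 4) (nat_lit 4) (nat_lit 5) (nat_lit 4) (nat_lit 4) (nat_lit 518) (nat_lit 374) (nat_lit 308)))) (XT.nd (nat_lit 156) (nat_lit 0) (nat_lit 0) (XT.nd (nat_lit 78) (nat_lit 0) (nat_lit 0) (XT.lf (nat_lit 0) (nat_lit 169883534633) (nat_lit 76) (nat_lit 35235232006) (nat_lit 76) (nat_lit 31262945244) (nat_lit 3) (nat_lit 4) (nat_lit 4) (nat_lit 5) (nat_lit 4) (nat_lit 4) (nat_lit 519) (nat_lit 374) (nat_lit 307)) (XT.lf (nat_lit 0) (nat_lit 191488765005) (nat_lit 76) (nat_lit 30183249548) (nat_lit 76) (nat_lit 26203481362) (nat_lit 3) (nat_lit 4) (nat_lit 4) (nat_lit 5) (nat_lit 4) (nat_lit 4) (nat_lit 520) (nat_lit 374) (nat_lit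 306))) (XT.nd (nat_lit 78) (nat_lit 0) (nat_lit 0) (XT.lf (nat_lit 0) (nat_lit 214131086934) (nat_lit 76) (nat_lit 24900423333) (nat_lit 76) (nat_lit 20913529981) (nat_lit 3) (nat_lit 4) (nat_lit 4) (nat_lit 5) (nat_lit 4) (nat_lit 4) (nat_lit 521) (nat_lit 374) (nat_lit 305)) (XT.lf (nat_lit 0) (nat_lit 237864410709) (nat_lit 76) (nat_lit 19374175204) (nat_lit 76) (nat_lit 15380495980) (nat_lit 3) (nat_lit 4) (nat_lit 4) (nat_lit 5) (nat_lit 4) (nat_lit 4) (nat_lit 522) (nat_lit 374) (nat_lit 304))))) (XT.nd (nat_lit 234) (nat_lit 0) (nat_lit 0) (XT.nd (nat_lit 78) (nat_lit 152) (nat_lit 0) (XT.lf (nat_lit 0) (nat_lit 262745244246) (nat_lit 76) (nat_lit 13591347427) (nat_lit 76) (nat_lit 9591205468) (nat_lit 3) (nat_lit 4) (nat_lit 4) (nat_lit 5) (nat_lit 4) (nat_lit 4) (nat_lit 523) (nat_lit 374) (nat_lit 303)) (XT.nd (nat_lit 78) (nat_lit 152) (nat_lit 0) (XT.lf (nat_lit 0) (nat_lit 288832827622)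 (nat_lit 76) (nat_lit 7538171366) (nat_lit 76) (nat_lit 3531874420) (nat_lit 3) (nat_lit 4) (nat_lit 4) (nat_lit 5) (nat_lit 4) (nat_lit 4) (nat_lit 524) (nat_lit 374) (nat_lit 302)) (XT.lf (nat_lit 0) (nat_lit 1619625563) (nat_lit 76) (nat_lit 1127586339) (nat_lit 152) (nat_lit 311826913338) (nat_lit 1) (nat_lit 5) (nat_lit 2) (nat_lit 5) (nat_lit 3) (nat_lit 4) (nat_lit 525) (nat_lit 374) (nat_lit 301)))) (XT.nd (nat_lit 156) (nat_lit 0) (nat_lit 0) (XT.nd (nat_lit 78) (nat_lit 0) (nat_lit 0) (XT.lf (nat_lit 0) (nat_lit 9481706506) (nat_lit 152) (nat_lit 314826045105) (nat_lit 0) (nat_lit 5655285944) (nat_lit 1) (nat_lit 5) (nat_lit 3) (nat_lit 4) (nat_lit 1) (nat_lit 4) (nat_lit 526) (nat_lit 374) (nat_lit 300)) (XT.lf (nat_lit 0) (nat_lit 16554374065) (nat_lit 152) (nat_lit 316844059495) (nat_lit 0) (nat_lit 12722889780) (nat_lit 1) (nat_lit 5) (nat_lit 3) (nat_lit 4) (nat_lit 1) (nat_lit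 4) (nat_lit 527) (nat_lit 374) (nat_lit 299))) (XT.nd (nat_lit 78) (nat_lit 0) (nat_lit 0) (XT.lf (nat_lit 0) (nat_lit 23964449479) (nat_lit 152) (nat_lit 318995742859) (nat_lit 0) (nat_lit 20128142601) (nat_lit 1) (nat_lit 5) (nat_lit 3) (nat_lit 4) (nat_lit 1) (nat_lit 4) (nat_lit 528) (nat_lit 374) (nat_lit 298)) (XT.lf (nat_lit 0) (nat_lit 31729575786) (nat_lit 152) (nat_lit 321286218253) (nat_lit 0) (nat_lit 27888675963) (nat_lit 1) (nat_lit 5) (nat_lit 3) (nat_lit 4) (nat_lit 1) (nat_lit 4) (nat_lit 529) (nat_lit 374) (nat_lit 297))))))) (XT.nd (nat_lit 1092) (nat_lit 0) (nat_lit 0) (XT.nd (nat_lit 546) (nat_lit 0) (nat_lit 0) (XT.nd (nat_lit 234) (nat_lit 0) (nat_lit 0) (XT.nd (nat_lit 78) (nat_lit 0) (nat_lit 0) (XT.lf (nat_lit 0) (nat_lit 39868241381) (nat_lit 152) (nat_lit 323720939191) (nat_lit 0) (nat_lit 36022967325) (nat_lit 1) (nat_lit 5) (nat_lit 3) (nat_lit 4) (nat_lit 1) (nat_lit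 4) (nat_lit 530) (nat_lit 374) (nat_lit 296)) (XT.nd (nat_lit 78) (nat_lit 0) (nat_lit 0) (XT.lf (nat_lit 0) (nat_lit 48399824040) (nat_lit 152) (nat_lit 326305702627) (nat_lit 0) (nat_lit 44550384047) (nat_lit 1) (nat_lit 5) (nat_lit 3) (nat_lit 4) (nat_lit 1) (nat_lit 4) (nat_lit 531) (nat_lit 374) (nat_lit 295)) (XT.lf (nat_lit 0) (nat_lit 57344637055) (nat_lit 152) (nat_lit 329046662759) (nat_lit 0) (nat_lit 53491229503) (nat_lit 1) (nat_lit 5) (nat_lit 3) (nat_lit 4) (nat_lit 1) (nat_lit 4) (nat_lit 532) (nat_lit 374) (nat_lit 294)))) (XT.nd (nat_lit 156) (nat_lit 0) (nat_lit 0) (XT.nd (nat_lit 78) (nat_lit 0) (nat_lit 0) (XT.lf (nat_lit 0) (nat_lit 66723977600) (nat_lit 152) (nat_lit 331950345684) (nat_lit 0) (nat_lit 62866791420) (nat_lit 1) (nat_lit 5) (nat_lit 3) (nat_lit 4) (nat_lit 1) (nat_lit 4) (nat_lit 533) (nat_lit 374) (nat_lit 293)) (XT.lf (nat_lit 0) (nat_lit 76560177438)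 (nat_lit 152) (nat_lit 335023664931) (nat_lit 0) (nat_lit 72699392565) (nat_lit 1) (nat_lit 5) (nat_lit 3) (nat_lit 4) (nat_lit 1) (nat_lit 4) (nat_lit 534) (nat_lit 374) (nat_lit 292))) (XT.nd (nat_lit 78) (nat_lit 0) (nat_lit 0) (XT.lf (nat_lit 0) (nat_lit 86876656091) (nat_lit 152) (nat_lit 338273937928) (nat_lit 0) (nat_lit 83012443892) (nat_lit 1) (nat_lit 5) (nat_lit 3) (nat_lit 4) (nat_lit 1) (nat_lit 4) (nat_lit 535) (nat_lit 374) (nat_lit 291)) (XT.lf (nat_lit 0) (nat_lit 97697976606) (nat_lit 152) (nat_lit 341708903420) (nat_lit 0) (nat_lit 93830500286) (nat_lit 1) (nat_lit 5) (nat_lit 3) (nat_lit 4) (nat_lit 1) (nat_lit 4) (nat_lit 536) (nat_lit 374) (nat_lit 290))))) (XT.nd (nat_lit 234) (nat_lit 0) (nat_lit 0) (XT.nd (nat_lit 78) (nat_lit 0) (nat_lit 0) (XT.lf (nat_lit 0) (nat_lit 109049904030) (nat_lit 152) (nat_lit 345336739896) (nat_lit 0) (nat_lit 105179319024) (nat_lit 1)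 (nat_lit 5) (nat_lit 3) (nat_lit 4) (nat_lit 1) (nat_lit 4) (nat_lit 537) (nat_lit 374) (nat_lit 289)) (XT.nd (nat_lit 78) (nat_lit 0) (nat_lit 0) (XT.lf (nat_lit 0) (nat_lit 120959466762) (nat_lit 152) (nat_lit 349166085062) (nat_lit 0) (nat_lit 117085921103) (nat_lit 1) (nat_lit 5) (nat_lit 3) (nat_lit 4) (nat_lit 1) (nat_lit 4) (nat_lit 538) (nat_lit 374) (nat_lit 288)) (XT.lf (nat_lit 0) (nat_lit 133455020905) (nat_lit 152) (nat_lit 353206056407) (nat_lit 0) (nat_lit 129578655575) (nat_lit 1) (nat_lit 5) (nat_lit 3) (nat_lit 4) (nat_lit 1) (nat_lit 4) (nat_lit 539) (nat_lit 374) (nat_lit 287)))) (XT.nd (nat_lit 156) (nat_lit 0) (nat_lit 0) (XT.nd (nat_lit 78) (nat_lit 0) (nat_lit 0) (XT.lf (nat_lit 0) (nat_lit 146566317776) (nat_lit 152) (nat_lit 357466272909) (nat_lit 0) (nat_lit 142687267047) (nat_lit 1) (nat_lit 5) (nat_lit 3) (nat_lit 4) (nat_lit 1) (nat_lit 4) (nat_lit 540) (nat_lit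 374) (nat_lit 286)) (XT.lf (nat_lit 0) (nat_lit 160324574750) (nat_lit 152) (nat_lit 361956877942) (nat_lit 0) (nat_lit 156442966497) (nat_lit 1) (nat_lit 5) (nat_lit 3) (nat_lit 4) (nat_lit 1) (nat_lit 4) (nat_lit 541) (nat_lit 374) (nat_lit 285))) (XT.nd (nat_lit 78) (nat_lit 0) (nat_lit 0) (XT.lf (nat_lit 0) (nat_lit 174762549582) (nat_lit 152) (nat_lit 366688563423) (nat_lit 0) (nat_lit 170878505592) (nat_lit 1) (nat_lit 5) (nat_lit 3) (nat_lit 4) (nat_lit 1) (nat_lit 4) (nat_lit 542) (nat_lit 374) (nat_lit 284)) (XT.lf (nat_lit 0) (nat_lit 189914618402) (nat_lit 152) (nat_lit 371672595268) (nat_lit 0) (nat_lit 186028254662) (nat_lit 1) (nat_lit 5) (nat_lit 3) (nat_lit 4) (nat_lit 1) (nat_lit 4) (nat_lit 543) (nat_lit 374) (nat_lit 283)))))) (XT.nd (nat_lit 55458) (nat_lit 0) (nat_lit 1976) (XT.nd (nat_lit 55146) (nat_lit 0) (nat_lit 2508) (XT.nd (nat_lit 78) (nat_lit 0) (nat_lit 0) (XT.lf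 (nat_lit 0) (nat_lit 205816857565) (nat_lit 152) (nat_lit 376920840222) (nat_lit 0) (nat_lit 201928284539) (nat_lit 1) (nat_lit 5) (nat_lit 3) (nat_lit 4) (nat_lit 1) (nat_lit 4) (nat_lit 544) (nat_lit 374) (nat_lit 282)) (XT.nd (nat_lit 78) (nat_lit 0) (nat_lit 0) (XT.lf (nat_lit 0) (nat_lit 222507129544) (nat_lit 152) (nat_lit 382445794104) (nat_lit 0) (nat_lit 218616452437) (nat_lit 1) (nat_lit 5) (nat_lit 3) (nat_lit 4) (nat_lit 1) (nat_lit 4) (nat_lit 545) (nat_lit 374) (nat_lit 281)) (XT.lf (nat_lit 0) (nat_lit 240025173082) (nat_lit 152) (nat_lit 388260611567) (nat_lit 0) (nat_lit 236132492089) (nat_lit 1) (nat_lit 5) (nat_lit 3) (nat_lit 4) (nat_lit 1) (nat_lit 4) (nat_lit 546) (nat_lit 374) (nat_lit 280)))) (XT.nd (nat_lit 156) (nat_lit 152) (nat_lit 0) (XT.nd (nat_lit 78) (nat_lit 76) (nat_lit 0) (XT.lf (nat_lit 0) (nat_lit 1642404456) (nat_lit 152) (nat_lit 4094709393) (nat_lit 0)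 (nat_lit 1642404456) (nat_lit 37) (nat_lit 5) (nat_lit 39) (nat_lit 4) (nat_lit 37) (nat_lit 4) (nat_lit 450) (nat_lit 375) (nat_lit 375)) (XT.lf (nat_lit 0) (nat_lit 3747603249) (nat_lit 76) (nat_lit 5887071113) (nat_lit 76) (nat_lit 5533937631) (nat_lit 36) (nat_lit 4) (nat_lit 37) (nat_lit 5) (nat_lit 37) (nat_lit 4) (nat_lit 451) (nat_lit 375) (nat_lit 374))) (XT.nd (nat_lit 78) (nat_lit 0) (nat_lit 0) (XT.lf (nat_lit 0) (nat_lit 574343475) (nat_lit 76) (nat_lit 42141675) (nat_lit 152) (nat_lit 14984867063) (nat_lit 34) (nat_lit 5) (nat_lit 35) (nat_lit 5) (nat_lit 36) (nat_lit 4) (nat_lit 452) (nat_lit 375) (nat_lit 373)) (XT.lf (nat_lit 0) (nat_lit 6966952804) (nat_lit 152) (nat_lit 3075048738) (nat_lit 0) (nat_lit 6005282745) (nat_lit 34) (nat_lit 5) (nat_lit 36) (nat_lit 4) (nat_lit 34) (nat_lit 4) (nat_lit 453) (nat_lit 375) (nat_lit 372))))) (XT.nd (nat_lit 234) (nat_lit 228) (nat_lit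 0) (XT.nd (nat_lit 78) (nat_lit 228) (nat_lit 0) (XT.lf (nat_lit 0) (nat_lit 9387699062) (nat_lit 76) (nat_lit 4191407369) (nat_lit 76) (nat_lit 2939213520) (nat_lit 33) (nat_lit 4) (nat_lit 34) (nat_lit 5) (nat_lit 34) (nat_lit 4) (nat_lit 454) (nat_lit 375) (nat_lit 371)) (XT.nd (nat_lit 78) (nat_lit 76) (nat_lit 0) (XT.lf (nat_lit 0) (nat_lit 3360350117) (nat_lit 152) (nat_lit 11747375931) (nat_lit 0) (nat_lit 1904270904) (nat_lit 31) (nat_lit 5) (nat_lit 33) (nat_lit 4) (nat_lit 31) (nat_lit 4) (nat_lit 455) (nat_lit 375) (nat_lit 370)) (XT.lf (nat_lit 0) (nat_lit 512450036) (nat_lit 76) (nat_lit 9361336328) (nat_lit 76) (nat_lit 7654291742) (nat_lit 30) (nat_lit 4) (nat_lit 31) (nat_lit 5) (nat_lit 31) (nat_lit 4) (nat_lit 456) (nat_lit 375) (nat_lit 369)))) (XT.nd (nat_lit 156) (nat_lit 76) (nat_lit 0) (XT.nd (nat_lit 78) (nat_lit 152) (nat_lit 0) (XT.lf (nat_lit 0) (nat_lit 13411426012)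 (nat_lit 76) (nat_lit 3302284092) (nat_lit 76) (nat_lit 1356224866) (nat_lit 30) (nat_lit 4) (nat_lit 31) (nat_lit 5) (nat_lit 31) (nat_lit 4) (nat_lit 457) (nat_lit 375) (nat_lit 368)) (XT.lf (nat_lit 0) (nat_lit 5071957865) (nat_lit 152) (nat_lit 10561886605) (nat_lit 0) (nat_lit 3001774801) (nat_lit 28) (nat_lit 5) (nat_lit 30) (nat_lit 4) (nat_lit 28) (nat_lit 4) (nat_lit 458) (nat_lit 375) (nat_lit 367))) (XT.nd (nat_lit 78) (nat_lit 0) (nat_lit 0) (XT.lf (nat_lit 0) (nat_lit 1994259286) (nat_lit 76) (nat_lit 9756081025) (nat_lit 76) (nat_lit 7479428127) (nat_lit 27) (nat_lit 4) (nat_lit 28) (nat_lit 5) (nat_lit 28) (nat_lit 4) (nat_lit 459) (nat_lit 375) (nat_lit 366)) (XT.lf (nat_lit 0) (nat_lit 15180291153) (nat_lit 76) (nat_lit 3573537811) (nat_lit 76) (nat_lit 1100246977) (nat_lit 27) (nat_lit 4) (nat_lit 28) (nat_lit 5) (nat_lit 28) (nat_lit 4) (nat_lit 460) (nat_lit 375) (nat_lit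 365))))))))
noncomputable def xc41 : XT := (XT.nd (nat_lit 2184) (nat_lit 456) (nat_lit 0) (XT.nd (nat_lit 1092) (nat_lit 456) (nat_lit 0) (XT.nd (nat_lit 546) (nat_lit 380) (nat_lit 0) (XT.nd (nat_lit 234) (nat_lit 304) (nat_lit 0) (XT.nd (nat_lit 78) (nat_lit 76) (nat_lit 0) (XT.lf (nat_lit 0) (nat_lit 5413737015) (nat_lit 152) (nat_lit 12211885046) (nat_lit 0) (nat_lit 2879865531) (nat_lit 25) (nat_lit 5) (nat_lit 27) (nat_lit 4) (nat_lit 25) (nat_lit 4) (nat_lit 461) (nat_lit 375) (nat_lit 364)) (XT.nd (nat_lit 78) (nat_lit 0) (nat_lit 0) (XT.lf (nat_lit 0) (nat_lit 469361223) (nat_lit 76) (nat_lit 11712343659) (nat_lit 76) (nat_lit 9008608931) (nat_lit 24) (nat_lit 4) (nat_lit 25) (nat_lit 5) (nat_lit 25) (nat_lit 4) (nat_lit 462) (nat_lit 375) (nat_lit 363)) (XT.lf (nat_lit 0) (nat_lit 13860491639) (nat_lit 76) (nat_lit 5456481143) (nat_lit 76) (nat_lit 2590971898) (nat_lit 24) (nat_lit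 4) (nat_lit 25) (nat_lit 5) (nat_lit 25) (nat_lit 4) (nat_lit 463) (nat_lit 375) (nat_lit 362)))) (XT.nd (nat_lit 156) (nat_lit 152) (nat_lit 0) (XT.nd (nat_lit 78) (nat_lit 0) (nat_lit 0) (XT.lf (nat_lit 0) (nat_lit 3938056845) (nat_lit 152) (nat_lit 17661741111) (nat_lit 0) (nat_lit 1062266166) (nat_lit 22) (nat_lit 5) (nat_lit 24) (nat_lit 4) (nat_lit 22) (nat_lit 4) (nat_lit 464) (nat_lit 375) (nat_lit 361)) (XT.lf (nat_lit 0) (nat_lit 10762691016) (nat_lit 152) (nat_lit 4939117232) (nat_lit 0) (nat_lit 7747153427) (nat_lit 22) (nat_lit 5) (nat_lit 24) (nat_lit 4) (nat_lit 22) (nat_lit 4) (nat_lit 465) (nat_lit 375) (nat_lit 360))) (XT.nd (nat_lit 78) (nat_lit 76) (nat_lit 0) (XT.lf (nat_lit 0) (nat_lit 8365717169) (nat_lit 76) (nat_lit 9529885724) (nat_lit 76) (nat_lit 6381255839) (nat_lit 21) (nat_lit 4) (nat_lit 22) (nat_lit 5) (nat_lit 22) (nat_lit 4) (nat_lit 466) (nat_lit 375) (nat_lit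 359)) (XT.lf (nat_lit 0) (nat_lit 153017713) (nat_lit 152) (nat_lit 2961698139) (nat_lit 76) (nat_lit 22035171601) (nat_lit 20) (nat_lit 5) (nat_lit 22) (nat_lit 5) (nat_lit 21) (nat_lit 4) (nat_lit 467) (nat_lit 375) (nat_lit 358))))) (XT.nd (nat_lit 234) (nat_lit 228) (nat_lit 0) (XT.nd (nat_lit 78) (nat_lit 76) (nat_lit 0) (XT.lf (nat_lit 0) (nat_lit 6867474245) (nat_lit 152) (nat_lit 15557382389) (nat_lit 0) (nat_lit 3633090352) (nat_lit 19) (nat_lit 5) (nat_lit 21) (nat_lit 4) (nat_lit 19) (nat_lit 4) (nat_lit 468) (nat_lit 375) (nat_lit 357)) (XT.nd (nat_lit 78) (nat_lit 76) (nat_lit 0) (XT.lf (nat_lit 0) (nat_lit 13864490987) (nat_lit 152) (nat_lit 2628970605) (nat_lit 0) (nat_lit 10520611733) (nat_lit 19) (nat_lit 5) (nat_lit 21) (nat_lit 4) (nat_lit 19) (nat_lit 4) (nat_lit 469) (nat_lit 375) (nat_lit 356)) (XT.lf (nat_lit 0) (nat_lit 11005782428) (nat_lit 76) (nat_lit 10229594310)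 (nat_lit 76) (nat_lit 6781433760) (nat_lit 18) (nat_lit 4) (nat_lit 19) (nat_lit 5) (nat_lit 19) (nat_lit 4) (nat_lit 470) (nat_lit 375) (nat_lit 355)))) (XT.nd (nat_lit 156) (nat_lit 76) (nat_lit 0) (XT.nd (nat_lit 78) (nat_lit 152) (nat_lit 0) (XT.lf (nat_lit 0) (nat_lit 25125926975) (nat_lit 76) (nat_lit 3748137942) (nat_lit 76) (nat_lit 200661872) (nat_lit 18) (nat_lit 4) (nat_lit 19) (nat_lit 5) (nat_lit 19) (nat_lit 4) (nat_lit 471) (nat_lit 375) (nat_lit 354)) (XT.lf (nat_lit 0) (nat_lit 6554914774) (nat_lit 152) (nat_lit 20536082305) (nat_lit 0) (nat_lit 3086284032) (nat_lit 16) (nat_lit 5) (nat_lit 18) (nat_lit 4) (nat_lit 16) (nat_lit 4) (nat_lit 472) (nat_lit 375) (nat_lit 353))) (XT.nd (nat_lit 78) (nat_lit 76) (nat_lit 0) (XT.lf (nat_lit 0) (nat_lit 13630618122) (nat_lit 152) (nat_lit 7628535543) (nat_lit 0) (nat_lit 10076194899) (nat_lit 16) (nat_lit 5) (nat_lit 18) (nat_lit 4)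 (nat_lit 16) (nat_lit 4) (nat_lit 473) (nat_lit 375) (nat_lit 352)) (XT.lf (nat_lit 0) (nat_lit 5845897423) (nat_lit 76) (nat_lit 15171837574) (nat_lit 76) (nat_lit 11535707227) (nat_lit 15) (nat_lit 4) (nat_lit 16) (nat_lit 5) (nat_lit 16) (nat_lit 4) (nat_lit 474) (nat_lit 375) (nat_lit 351)))))) (XT.nd (nat_lit 546) (nat_lit 228) (nat_lit 0) (XT.nd (nat_lit 234) (nat_lit 76) (nat_lit 0) (XT.nd (nat_lit 78) (nat_lit 152) (nat_lit 0) (XT.lf (nat_lit 0) (nat_lit 19997585019) (nat_lit 76) (nat_lit 8774457261) (nat_lit 76) (nat_lit 5060510606) (nat_lit 15) (nat_lit 4) (nat_lit 16) (nat_lit 5) (nat_lit 16) (nat_lit 4) (nat_lit 475) (nat_lit 375) (nat_lit 350)) (XT.nd (nat_lit 78) (nat_lit 76) (nat_lit 0) (XT.lf (nat_lit 0) (nat_lit 1555646902) (nat_lit 152) (nat_lit 598981275) (nat_lit 76) (nat_lit 33025995368) (nat_lit 14) (nat_lit 5) (nat_lit 16) (nat_lit 5) (nat_lit 15) (nat_lit 4) (nat_lit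 476) (nat_lit 375) (nat_lit 349)) (XT.lf (nat_lit 0) (nat_lit 8498514875) (nat_lit 152) (nat_lit 23261519470) (nat_lit 0) (nat_lit 4823620483) (nat_lit 13) (nat_lit 5) (nat_lit 15) (nat_lit 4) (nat_lit 13) (nat_lit 4) (nat_lit 477) (nat_lit 375) (nat_lit 348)))) (XT.nd (nat_lit 156) (nat_lit 0) (nat_lit 0) (XT.nd (nat_lit 78) (nat_lit 76) (nat_lit 0) (XT.lf (nat_lit 0) (nat_lit 15713276195) (nat_lit 152) (nat_lit 10372965182) (nat_lit 0) (nat_lit 11974362133) (nat_lit 13) (nat_lit 5) (nat_lit 15) (nat_lit 4) (nat_lit 13) (nat_lit 4) (nat_lit 478) (nat_lit 375) (nat_lit 347)) (XT.lf (nat_lit 0) (nat_lit 3027142632) (nat_lit 76) (nat_lit 20193769262) (nat_lit 76) (nat_lit 16393884086) (nat_lit 12) (nat_lit 4) (nat_lit 13) (nat_lit 5) (nat_lit 13) (nat_lit 4) (nat_lit 479) (nat_lit 375) (nat_lit 346))) (XT.nd (nat_lit 78) (nat_lit 0) (nat_lit 0) (XT.lf (nat_lit 0) (nat_lit 17231325942) (nat_lit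 76) (nat_lit 13935101576) (nat_lit 76) (nat_lit 10077148672) (nat_lit 12) (nat_lit 4) (nat_lit 13) (nat_lit 5) (nat_lit 13) (nat_lit 4) (nat_lit 480) (nat_lit 375) (nat_lit 345)) (XT.lf (nat_lit 0) (nat_lit 31930427157) (nat_lit 76) (nat_lit 7471007913) (nat_lit 76) (nat_lit 3557752411) (nat_lit 12) (nat_lit 4) (nat_lit 13) (nat_lit 5) (nat_lit 13) (nat_lit 4) (nat_lit 481) (nat_lit 375) (nat_lit 344))))) (XT.nd (nat_lit 234) (nat_lit 76) (nat_lit 0) (XT.nd (nat_lit 78) (nat_lit 0) (nat_lit 0) (XT.lf (nat_lit 0) (nat_lit 2421589469) (nat_lit 76) (nat_lit 694271072) (nat_lit 152) (nat_lit 41645481409) (nat_lit 10) (nat_lit 5) (nat_lit 11) (nat_lit 5) (nat_lit 12) (nat_lit 4) (nat_lit 482) (nat_lit 375) (nat_lit 343)) (XT.nd (nat_lit 78) (nat_lit 0) (nat_lit 0) (XT.lf (nat_lit 0) (nat_lit 10189511990) (nat_lit 152) (nat_lit 30087213926) (nat_lit 0) (nat_lit 6364668439) (nat_lit 10) (nat_lit 5)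 (nat_lit 12) (nat_lit 4) (nat_lit 10) (nat_lit 4) (nat_lit 483) (nat_lit 375) (nat_lit 342)) (XT.lf (nat_lit 0) (nat_lit 17529015895) (nat_lit 152) (nat_lit 17432152598) (nat_lit 0) (nat_lit 13658674760) (nat_lit 10) (nat_lit 5) (nat_lit 12) (nat_lit 4) (nat_lit 10) (nat_lit 4) (nat_lit 484) (nat_lit 375) (nat_lit 341)))) (XT.nd (nat_lit 156) (nat_lit 0) (nat_lit 0) (XT.nd (nat_lit 78) (nat_lit 76) (nat_lit 0) (XT.lf (nat_lit 0) (nat_lit 25141007748) (nat_lit 152) (nat_lit 4333597884) (nat_lit 0) (nat_lit 21227335581) (nat_lit 10) (nat_lit 5) (nat_lit 12) (nat_lit 4) (nat_lit 10) (nat_lit 4) (nat_lit 485) (nat_lit 375) (nat_lit 340)) (XT.lf (nat_lit 0) (nat_lit 9545141387) (nat_lit 76) (nat_lit 23647496360) (nat_lit 76) (nat_lit 19692556543) (nat_lit 9) (nat_lit 4) (nat_lit 10) (nat_lit 5) (nat_lit 10) (nat_lit 4) (nat_lit 486) (nat_lit 375) (nat_lit 339))) (XT.nd (nat_lit 78) (nat_lit 0) (nat_lit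 0) (XT.lf (nat_lit 0) (nat_lit 24090930257) (nat_lit 76) (nat_lit 17540839073) (nat_lit 76) (nat_lit 13546596732) (nat_lit 9) (nat_lit 4) (nat_lit 10) (nat_lit 5) (nat_lit 10) (nat_lit 4) (nat_lit 487) (nat_lit 375) (nat_lit 338)) (XT.lf (nat_lit 0) (nat_lit 39195113239) (nat_lit 76) (nat_lit 11213485688) (nat_lit 76) (nat_lit 7181812372) (nat_lit 9) (nat_lit 4) (nat_lit 10) (nat_lit 5) (nat_lit 10) (nat_lit 4) (nat_lit 488) (nat_lit 375) (nat_lit 337))))))) (XT.nd (nat_lit 1092) (nat_lit 76) (nat_lit 0) (XT.nd (nat_lit 546) (nat_lit 152) (nat_lit 0) (XT.nd (nat_lit 234) (nat_lit 76) (nat_lit 0) (XT.nd (nat_lit 78) (nat_lit 152) (nat_lit 0) (XT.lf (nat_lit 0) (nat_lit 54893652672) (nat_lit 76) (nat_lit 4650371078) (nat_lit 76) (nat_lit 583049214) (nat_lit 9) (nat_lit 4) (nat_lit 10) (nat_lit 5) (nat_lit 10) (nat_lit 4) (nat_lit 489) (nat_lit 375) (nat_lit 336)) (XT.nd (nat_lit 78) (nat_lit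 0) (nat_lit 0) (XT.lf (nat_lit 0) (nat_lit 6236849279) (nat_lit 152) (nat_lit 54213176437) (nat_lit 0) (nat_lit 2330875125) (nat_lit 7) (nat_lit 5) (nat_lit 9) (nat_lit 4) (nat_lit 7) (nat_lit 4) (nat_lit 490) (nat_lit 375) (nat_lit 335)) (XT.lf (nat_lit 0) (nat_lit 13466893971) (nat_lit 152) (nat_lit 42565487294) (nat_lit 0) (nat_lit 9530125262) (nat_lit 7) (nat_lit 5) (nat_lit 9) (nat_lit 4) (nat_lit 7) (nat_lit 4) (nat_lit 491) (nat_lit 375) (nat_lit 334)))) (XT.nd (nat_lit 156) (nat_lit 76) (nat_lit 0) (XT.nd (nat_lit 78) (nat_lit 0) (nat_lit 0) (XT.lf (nat_lit 0) (nat_lit 20984561371) (nat_lit 152) (nat_lit 30483862117) (nat_lit 0) (nat_lit 17018464513) (nat_lit 7) (nat_lit 5) (nat_lit 9) (nat_lit 4) (nat_lit 7) (nat_lit 4) (nat_lit 492) (nat_lit 375) (nat_lit 333)) (XT.lf (nat_lit 0) (nat_lit 28807750684) (nat_lit 152) (nat_lit 17939535132) (nat_lit 0) (nat_lit 24813722257) (nat_lit 7)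 (nat_lit 5) (nat_lit 9) (nat_lit 4) (nat_lit 7) (nat_lit 4) (nat_lit 493) (nat_lit 375) (nat_lit 332))) (XT.nd (nat_lit 78) (nat_lit 76) (nat_lit 0) (XT.lf (nat_lit 0) (nat_lit 36955088554) (nat_lit 152) (nat_lit 4902638893) (nat_lit 0) (nat_lit 32934458631) (nat_lit 7) (nat_lit 5) (nat_lit 9) (nat_lit 4) (nat_lit 7) (nat_lit 4) (nat_lit 494) (nat_lit 375) (nat_lit 331)) (XT.lf (nat_lit 0) (nat_lit 8944135004) (nat_lit 76) (nat_lit 36641481412) (nat_lit 76) (nat_lit 32595516732) (nat_lit 6) (nat_lit 4) (nat_lit 7) (nat_lit 5) (nat_lit 7) (nat_lit 4) (nat_lit 495) (nat_lit 375) (nat_lit 330))))) (XT.nd (nat_lit 234) (nat_lit 152) (nat_lit 0) (XT.nd (nat_lit 78) (nat_lit 0) (nat_lit 0) (XT.lf (nat_lit 0) (nat_lit 23527289131) (nat_lit 76) (nat_lit 31140659411) (nat_lit 76) (nat_lit 27070566391) (nat_lit 6) (nat_lit 4) (nat_lit 7) (nat_lit 5) (nat_lit 7) (nat_lit 4) (nat_lit 496) (nat_lit 375)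 (nat_lit 329)) (XT.nd (nat_lit 78) (nat_lit 0) (nat_lit 0) (XT.lf (nat_lit 0) (nat_lit 38719441900) (nat_lit 76) (nat_lit 25425192811) (nat_lit 76) (nat_lit 21332120419) (nat_lit 6) (nat_lit 4) (nat_lit 7) (nat_lit 5) (nat_lit 7) (nat_lit 4) (nat_lit 497) (nat_lit 375) (nat_lit 328)) (XT.lf (nat_lit 0) (nat_lit 54556765103) (nat_lit 76) (nat_lit 19481473359) (nat_lit 76) (nat_lit 15366515851) (nat_lit 6) (nat_lit 4) (nat_lit 7) (nat_lit 5) (nat_lit 7) (nat_lit 4) (nat_lit 498) (nat_lit 375) (nat_lit 327)))) (XT.nd (nat_lit 156) (nat_lit 152) (nat_lit 0) (XT.nd (nat_lit 78) (nat_lit 0) (nat_lit 0) (XT.lf (nat_lit 0) (nat_lit 71076966653) (nat_lit 76) (nat_lit 13295349341) (nat_lit 76) (nat_lit 9159548866) (nat_lit 6) (nat_lit 4) (nat_lit 7) (nat_lit 5) (nat_lit 7) (nat_lit 4) (nat_lit 499) (nat_lit 375) (nat_lit 326)) (XT.lf (nat_lit 0) (nat_lit 88319380363) (nat_lit 76) (nat_lit 6852091891)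 (nat_lit 76) (nat_lit 2696440970) (nat_lit 6) (nat_lit 4) (nat_lit 7) (nat_lit 5) (nat_lit 7) (nat_lit 4) (nat_lit 500) (nat_lit 375) (nat_lit 325))) (XT.nd (nat_lit 78) (nat_lit 0) (nat_lit 0) (XT.lf (nat_lit 0) (nat_lit 3965716397) (nat_lit 76) (nat_lit 5148238) (nat_lit 152) (nat_lit 98446110520) (nat_lit 4) (nat_lit 5) (nat_lit 5) (nat_lit 5) (nat_lit 6) (nat_lit 4) (nat_lit 501) (nat_lit 375) (nat_lit 324)) (XT.lf (nat_lit 0) (nat_lit 11107527310) (nat_lit 152) (nat_lit 88957811044) (nat_lit 0) (nat_lit 7114612029) (nat_lit 4) (nat_lit 5) (nat_lit 6) (nat_lit 4) (nat_lit 4) (nat_lit 4) (nat_lit 502) (nat_lit 375) (nat_lit 323)))))) (XT.nd (nat_lit 546) (nat_lit 76) (nat_lit 0) (XT.nd (nat_lit 234) (nat_lit 0) (nat_lit 0) (XT.nd (nat_lit 78) (nat_lit 0) (nat_lit 0) (XT.lf (nat_lit 0) (nat_lit 18553569700) (nat_lit 152) (nat_lit 79085554785) (nat_lit 0) (nat_lit 14544323408) (nat_lit 4)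 (nat_lit 5) (nat_lit 6) (nat_lit 4) (nat_lit 4) (nat_lit 4) (nat_lit 503) (nat_lit 375) (nat_lit 322)) (XT.nd (nat_lit 78) (nat_lit 0) (nat_lit 0) (XT.lf (nat_lit 0) (nat_lit 26326640100) (nat_lit 152) (nat_lit 68810904230) (nat_lit 0) (nat_lit 22301840464) (nat_lit 4) (nat_lit 5) (nat_lit 6) (nat_lit 4) (nat_lit 4) (nat_lit 4) (nat_lit 504) (nat_lit 375) (nat_lit 321)) (XT.lf (nat_lit 0) (nat_lit 34445245819) (nat_lit 152) (nat_lit 58109395925) (nat_lit 0) (nat_lit 30405633476) (nat_lit 4) (nat_lit 5) (nat_lit 6) (nat_lit 4) (nat_lit 4) (nat_lit 4) (nat_lit 505) (nat_lit 375) (nat_lit 320)))) (XT.nd (nat_lit 156) (nat_lit 0) (nat_lit 0) (XT.nd (nat_lit 78) (nat_lit 0) (nat_lit 0) (XT.lf (nat_lit 0) (nat_lit 42928716872) (nat_lit 152) (nat_lit 46955550089) (nat_lit 0) (nat_lit 38874997188) (nat_lit 4) (nat_lit 5) (nat_lit 6) (nat_lit 4) (nat_lit 4) (nat_lit 4) (nat_lit 506) (nat_lit 375) (nat_lit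 319)) (XT.lf (nat_lit 0) (nat_lit 51797251999) (nat_lit 152) (nat_lit 35322809946) (nat_lit 0) (nat_lit 47730096752) (nat_lit 4) (nat_lit 5) (nat_lit 6) (nat_lit 4) (nat_lit 4) (nat_lit 4) (nat_lit 507) (nat_lit 375) (nat_lit 318))) (XT.nd (nat_lit 78) (nat_lit 0) (nat_lit 0) (XT.lf (nat_lit 0) (nat_lit 61071966760) (nat_lit 152) (nat_lit 23183478496) (nat_lit 0) (nat_lit 56992015739) (nat_lit 4) (nat_lit 5) (nat_lit 6) (nat_lit 4) (nat_lit 4) (nat_lit 4) (nat_lit 508) (nat_lit 375) (nat_lit 317)) (XT.lf (nat_lit 0) (nat_lit 70774943809) (nat_lit 152) (nat_lit 10508652569) (nat_lit 0) (nat_lit 66682806337) (nat_lit 4) (nat_lit 5) (nat_lit 6) (nat_lit 4) (nat_lit 4) (nat_lit 4) (nat_lit 509) (nat_lit 375) (nat_lit 316))))) (XT.nd (nat_lit 312) (nat_lit 0) (nat_lit 0) (XT.nd (nat_lit 156) (nat_lit 0) (nat_lit 0) (XT.nd (nat_lit 78) (nat_lit 0) (nat_lit 0) (XT.lf (nat_lit 0) (nat_lit 2822173158)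 (nat_lit 76) (nat_lit 78151174346) (nat_lit 76) (nat_lit 74047430730) (nat_lit 3) (nat_lit 4) (nat_lit 4) (nat_lit 5) (nat_lit 4) (nat_lit 4) (nat_lit 510) (nat_lit 375) (nat_lit 315)) (XT.lf (nat_lit 0) (nat_lit 17117406081) (nat_lit 76) (nat_lit 74709013354) (nat_lit 76) (nat_lit 70594216268) (nat_lit 3) (nat_lit 4) (nat_lit 4) (nat_lit 5) (nat_lit 4) (nat_lit 4) (nat_lit 511) (nat_lit 375) (nat_lit 314))) (XT.nd (nat_lit 78) (nat_lit 0) (nat_lit 0) (XT.lf (nat_lit 0) (nat_lit 32063618953) (nat_lit 76) (nat_lit 71126886898) (nat_lit 76) (nat_lit 67001562696) (nat_lit 3) (nat_lit 4) (nat_lit 4) (nat_lit 5) (nat_lit 4) (nat_lit 4) (nat_lit 512) (nat_lit 375) (nat_lit 313)) (XT.lf (nat_lit 0) (nat_lit 47696397998) (nat_lit 76) (nat_lit 67396266104) (nat_lit 76) (nat_lit 63260916079) (nat_lit 3) (nat_lit 4) (nat_lit 4) (nat_lit 5) (nat_lit 4) (nat_lit 4) (nat_lit 513) (nat_lit 375) (nat_lit 312))))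 (XT.nd (nat_lit 156) (nat_lit 0) (nat_lit 0) (XT.nd (nat_lit 78) (nat_lit 0) (nat_lit 0) (XT.lf (nat_lit 0) (nat_lit 64052964116) (nat_lit 76) (nat_lit 63508268542) (nat_lit 76) (nat_lit 59363370113) (nat_lit 3) (nat_lit 4) (nat_lit 4) (nat_lit 5) (nat_lit 4) (nat_lit 4) (nat_lit 514) (nat_lit 375) (nat_lit 311)) (XT.lf (nat_lit 0) (nat_lit 81172261514) (nat_lit 76) (nat_lit 59453637076) (nat_lit 76) (nat_lit 55299644929) (nat_lit 3) (nat_lit 4) (nat_lit 4) (nat_lit 5) (nat_lit 4) (nat_lit 4) (nat_lit 515) (nat_lit 375) (nat_lit 310))) (XT.nd (nat_lit 78) (nat_lit 0) (nat_lit 0) (XT.lf (nat_lit 0) (nat_lit 99095050423) (nat_lit 76) (nat_lit 55222717820) (nat_lit 76) (nat_lit 51060064990) (nat_lit 3) (nat_lit 4) (nat_lit 4) (nat_lit 5) (nat_lit 4) (nat_lit 4) (nat_lit 516) (nat_lit 375) (nat_lit 309)) (XT.lf (nat_lit 0) (nat_lit 117864004150) (nat_lit 76) (nat_lit 50805437158) (nat_lit 76) (nat_lit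 46634536058) (nat_lit 3) (nat_lit 4) (nat_lit 4) (nat_lit 5) (nat_lit 4) (nat_lit 4) (nat_lit 517) (nat_lit 375) (nat_lit 308))))))))
noncomputable def xc42 : XT := (XT.nd (nat_lit 57018) (nat_lit 0) (nat_lit 1064) (XT.nd (nat_lit 1092) (nat_lit 0) (nat_lit 0) (XT.nd (nat_lit 546) (nat_lit 152) (nat_lit 0) (XT.nd (nat_lit 234) (nat_lit 0) (nat_lit 0) (XT.nd (nat_lit 78) (nat_lit 0) (nat_lit 0) (XT.lf (nat_lit 0) (nat_lit 137523810680) (nat_lit 76) (nat_lit 46191277754) (nat_lit 76) (nat_lit 42012521158) (nat_lit 3) (nat_lit 4) (nat_lit 4) (nat_lit 5) (nat_lit 4) (nat_lit 4) (nat_lit 518) (nat_lit 375) (nat_lit 307)) (XT.nd (nat_lit 78) (nat_lit 0) (nat_lit 0) (XT.lf (nat_lit 0) (nat_lit 158121279077) (nat_lit 76) (nat_lit 41369253515) (nat_lit 76) (nat_lit 37183015495) (nat_lit 3) (nat_lit 4) (nat_lit 4) (nat_lit 5) (nat_lit 4) (nat_lit 4) (nat_lit 519) (nat_lit 375) (nat_lit 306)) (XT.lf (nat_lit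 0) (nat_lit 179705450931) (nat_lit 76) (nat_lit 36327883430) (nat_lit 76) (nat_lit 32134520245) (nat_lit 3) (nat_lit 4) (nat_lit 4) (nat_lit 5) (nat_lit 4) (nat_lit 4) (nat_lit 520) (nat_lit 375) (nat_lit 305)))) (XT.nd (nat_lit 156) (nat_lit 0) (nat_lit 0) (XT.nd (nat_lit 78) (nat_lit 0) (nat_lit 0) (XT.lf (nat_lit 0) (nat_lit 202327717128) (nat_lit 76) (nat_lit 31055164238) (nat_lit 76) (nat_lit 26855015181) (nat_lit 3) (nat_lit 4) (nat_lit 4) (nat_lit 5) (nat_lit 4) (nat_lit 4) (nat_lit 521) (nat_lit 375) (nat_lit 304)) (XT.lf (nat_lit 0) (nat_lit 226041940207) (nat_lit 76) (nat_lit 25538541845) (nat_lit 76) (nat_lit 21331930052) (nat_lit 3) (nat_lit 4) (nat_lit 4) (nat_lit 5) (nat_lit 4) (nat_lit 4) (nat_lit 522) (nat_lit 375) (nat_lit 303))) (XT.nd (nat_lit 78) (nat_lit 0) (nat_lit 0) (XT.lf (nat_lit 0) (nat_lit 250904582603) (nat_lit 76) (nat_lit 19764881436) (nat_lit 76) (nat_lit 15552114657)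 (nat_lit 3) (nat_lit 4) (nat_lit 4) (nat_lit 5) (nat_lit 4) (nat_lit 4) (nat_lit 523) (nat_lit 375) (nat_lit 302)) (XT.lf (nat_lit 0) (nat_lit 276974841085) (nat_lit 76) (nat_lit 13720436201) (nat_lit 76) (nat_lit 9501807530) (nat_lit 3) (nat_lit 4) (nat_lit 4) (nat_lit 5) (nat_lit 4) (nat_lit 4) (nat_lit 524) (nat_lit 375) (nat_lit 301))))) (XT.nd (nat_lit 234) (nat_lit 0) (nat_lit 0) (XT.nd (nat_lit 78) (nat_lit 152) (nat_lit 0) (XT.lf (nat_lit 0) (nat_lit 304314787696) (nat_lit 76) (nat_lit 7390814602) (nat_lit 76) (nat_lit 3166603178) (nat_lit 3) (nat_lit 4) (nat_lit 4) (nat_lit 5) (nat_lit 4) (nat_lit 4) (nat_lit 525) (nat_lit 375) (nat_lit 300)) (XT.nd (nat_lit 78) (nat_lit 0) (nat_lit 0) (XT.lf (nat_lit 0) (nat_lit 2741217907) (nat_lit 76) (nat_lit 659146112) (nat_lit 152) (nat_lit 326876669804) (nat_lit 1) (nat_lit 5) (nat_lit 2) (nat_lit 5) (nat_lit 3) (nat_lit 4) (nat_lit 526) (nat_lit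 375) (nat_lit 299)) (XT.lf (nat_lit 0) (nat_lit 10454825570) (nat_lit 152) (nat_lit 329559523702) (nat_lit 0) (nat_lit 6421880756) (nat_lit 1) (nat_lit 5) (nat_lit 3) (nat_lit 4) (nat_lit 1) (nat_lit 4) (nat_lit 527) (nat_lit 375) (nat_lit 298)))) (XT.nd (nat_lit 156) (nat_lit 0) (nat_lit 0) (XT.nd (nat_lit 78) (nat_lit 0) (nat_lit 0) (XT.lf (nat_lit 0) (nat_lit 17857362995) (nat_lit 152) (nat_lit 331726430414) (nat_lit 0) (nat_lit 13819825236) (nat_lit 1) (nat_lit 5) (nat_lit 3) (nat_lit 4) (nat_lit 1) (nat_lit 4) (nat_lit 528) (nat_lit 375) (nat_lit 297)) (XT.lf (nat_lit 0) (nat_lit 25615310265) (nat_lit 152) (nat_lit 334031404235) (nat_lit 0) (nat_lit 21573398272) (nat_lit 1) (nat_lit 5) (nat_lit 3) (nat_lit 4) (nat_lit 1) (nat_lit 4) (nat_lit 529) (nat_lit 375) (nat_lit 296))) (XT.nd (nat_lit 78) (nat_lit 0) (nat_lit 0) (XT.lf (nat_lit 0) (nat_lit 33747138682) (nat_lit 152) (nat_lit 336479933197)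 (nat_lit 0) (nat_lit 29701060752) (nat_lit 1) (nat_lit 5) (nat_lit 3) (nat_lit 4) (nat_lit 1) (nat_lit 4) (nat_lit 530) (nat_lit 375) (nat_lit 295)) (XT.lf (nat_lit 0) (nat_lit 42272209742) (nat_lit 152) (nat_lit 339077847133) (nat_lit 0) (nat_lit 38222164253) (nat_lit 1) (nat_lit 5) (nat_lit 3) (nat_lit 4) (nat_lit 1) (nat_lit 4) (nat_lit 531) (nat_lit 375) (nat_lit 294)))))) (XT.nd (nat_lit 546) (nat_lit 0) (nat_lit 0) (XT.nd (nat_lit 234) (nat_lit 0) (nat_lit 0) (XT.nd (nat_lit 78) (nat_lit 0) (nat_lit 0) (XT.lf (nat_lit 0) (nat_lit 51210821235) (nat_lit 152) (nat_lit 341831331551) (nat_lit 0) (nat_lit 47156997118) (nat_lit 1) (nat_lit 5) (nat_lit 3) (nat_lit 4) (nat_lit 1) (nat_lit 4) (nat_lit 532) (nat_lit 375) (nat_lit 293)) (XT.nd (nat_lit 78) (nat_lit 0) (nat_lit 0) (XT.lf (nat_lit 0) (nat_lit 60584255567) (nat_lit 152) (nat_lit 344746942366) (nat_lit 0) (nat_lit 56526832758) (nat_lit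 1) (nat_lit 5) (nat_lit 3) (nat_lit 4) (nat_lit 1) (nat_lit 4) (nat_lit 533) (nat_lit 375) (nat_lit 292)) (XT.lf (nat_lit 0) (nat_lit 70414830441) (nat_lit 152) (nat_lit 347831621510) (nat_lit 0) (nat_lit 66353980306) (nat_lit 1) (nat_lit 5) (nat_lit 3) (nat_lit 4) (nat_lit 1) (nat_lit 4) (nat_lit 534) (nat_lit 375) (nat_lit 291)))) (XT.nd (nat_lit 156) (nat_lit 0) (nat_lit 0) (XT.nd (nat_lit 78) (nat_lit 0) (nat_lit 0) (XT.lf (nat_lit 0) (nat_lit 80725951987) (nat_lit 152) (nat_lit 351092713456) (nat_lit 0) (nat_lit 76661837731) (nat_lit 1) (nat_lit 5) (nat_lit 3) (nat_lit 4) (nat_lit 1) (nat_lit 4) (nat_lit 535) (nat_lit 375) (nat_lit 290)) (XT.lf (nat_lit 0) (nat_lit 91542170493) (nat_lit 152) (nat_lit 354537982708) (nat_lit 0) (nat_lit 87474947551) (nat_lit 1) (nat_lit 5) (nat_lit 3) (nat_lit 4) (nat_lit 1) (nat_lit 4) (nat_lit 536) (nat_lit 375) (nat_lit 289))) (XT.nd (nat_lit 78) (nat_lit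 0) (nat_lit 0) (XT.lf (nat_lit 0) (nat_lit 102889238862) (nat_lit 152) (nat_lit 358175632290) (nat_lit 0) (nat_lit 98819055266) (nat_lit 1) (nat_lit 5) (nat_lit 3) (nat_lit 4) (nat_lit 1) (nat_lit 4) (nat_lit 537) (nat_lit 375) (nat_lit 288)) (XT.lf (nat_lit 0) (nat_lit 114794173923) (nat_lit 152) (nat_lit 362014323271) (nat_lit 0) (nat_lit 110721170657) (nat_lit 1) (nat_lit 5) (nat_lit 3) (nat_lit 4) (nat_lit 1) (nat_lit 4) (nat_lit 538) (nat_lit 375) (nat_lit 287))))) (XT.nd (nat_lit 234) (nat_lit 0) (nat_lit 0) (XT.nd (nat_lit 78) (nat_lit 0) (nat_lit 0) (XT.lf (nat_lit 0) (nat_lit 127285320759) (nat_lit 152) (nat_lit 366063195391) (nat_lit 0) (nat_lit 123209632093) (nat_lit 1) (nat_lit 5) (nat_lit 3) (nat_lit 4) (nat_lit 1) (nat_lit 4) (nat_lit 539) (nat_lit 375) (nat_lit 286)) (XT.nd (nat_lit 78) (nat_lit 0) (nat_lit 0) (XT.lf (nat_lit 0) (nat_lit 140392420196) (nat_lit 152) (nat_lit 370331888823)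 (nat_lit 0) (nat_lit 136314174006) (nat_lit 1) (nat_lit 5) (nat_lit 3) (nat_lit 4) (nat_lit 1) (nat_lit 4) (nat_lit 540) (nat_lit 375) (nat_lit 285)) (XT.lf (nat_lit 0) (nat_lit 154146679614) (nat_lit 152) (nat_lit 374830567123) (nat_lit 0) (nat_lit 150065997687) (nat_lit 1) (nat_lit 5) (nat_lit 3) (nat_lit 4) (nat_lit 1) (nat_lit 4) (nat_lit 541) (nat_lit 375) (nat_lit 284)))) (XT.nd (nat_lit 156) (nat_lit 0) (nat_lit 0) (XT.nd (nat_lit 78) (nat_lit 0) (nat_lit 0) (XT.lf (nat_lit 0) (nat_lit 168580847249) (nat_lit 152) (nat_lit 379569941428) (nat_lit 0) (nat_lit 164497845572) (nat_lit 1) (nat_lit 5) (nat_lit 3) (nat_lit 4) (nat_lit 1) (nat_lit 4) (nat_lit 542) (nat_lit 375) (nat_lit 283)) (XT.lf (nat_lit 0) (nat_lit 183729290167) (nat_lit 152) (nat_lit 384561295964) (nat_lit 0) (nat_lit 179644079205) (nat_lit 1) (nat_lit 5) (nat_lit 3) (nat_lit 4) (nat_lit 1) (nat_lit 4) (nat_lit 543) (nat_lit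 375) (nat_lit 282))) (XT.nd (nat_lit 78) (nat_lit 0) (nat_lit 0) (XT.lf (nat_lit 0) (nat_lit 199628076090) (nat_lit 152) (nat_lit 389816514908) (nat_lit 0) (nat_lit 195540761047) (nat_lit 1) (nat_lit 5) (nat_lit 3) (nat_lit 4) (nat_lit 1) (nat_lit 4) (nat_lit 544) (nat_lit 375) (nat_lit 281)) (XT.lf (nat_lit 0) (nat_lit 216315059269) (nat_lit 152) (nat_lit 395348110686) (nat_lit 0) (nat_lit 212225740339) (nat_lit 1) (nat_lit 5) (nat_lit 3) (nat_lit 4) (nat_lit 1) (nat_lit 4) (nat_lit 545) (nat_lit 375) (nat_lit 280))))))) (XT.nd (nat_lit 1092) (nat_lit 760) (nat_lit 0) (XT.nd (nat_lit 546) (nat_lit 608) (nat_lit 0) (XT.nd (nat_lit 234) (nat_lit 304) (nat_lit 0) (XT.nd (nat_lit 78) (nat_lit 304) (nat_lit 0) (XT.lf (nat_lit 0) (nat_lit 2812731614) (nat_lit 152) (nat_lit 1368619035) (nat_lit 0) (nat_lit 2812731614) (nat_lit 41) (nat_lit 5) (nat_lit 43) (nat_lit 4) (nat_lit 41) (nat_lit 4) (nat_lit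 448) (nat_lit 376) (nat_lit 376)) (XT.nd (nat_lit 78) (nat_lit 152) (nat_lit 0) (XT.lf (nat_lit 0) (nat_lit 9003420338) (nat_lit 152) (nat_lit 2876875817) (nat_lit 152) (nat_lit 2487546153) (nat_lit 39) (nat_lit 4) (nat_lit 41) (nat_lit 5) (nat_lit 41) (nat_lit 4) (nat_lit 449) (nat_lit 376) (nat_lit 375)) (XT.lf (nat_lit 0) (nat_lit 3550794156) (nat_lit 152) (nat_lit 8386621146) (nat_lit 0) (nat_lit 2826870518) (nat_lit 37) (nat_lit 5) (nat_lit 39) (nat_lit 4) (nat_lit 37) (nat_lit 4) (nat_lit 450) (nat_lit 376) (nat_lit 374)))) (XT.nd (nat_lit 156) (nat_lit 152) (nat_lit 0) (XT.nd (nat_lit 78) (nat_lit 76) (nat_lit 0) (XT.lf (nat_lit 0) (nat_lit 3349858813) (nat_lit 76) (nat_lit 6444776685) (nat_lit 76) (nat_lit 5384535444) (nat_lit 36) (nat_lit 4) (nat_lit 37) (nat_lit 5) (nat_lit 37) (nat_lit 4) (nat_lit 451) (nat_lit 376) (nat_lit 373)) (XT.lf (nat_lit 0) (nat_lit 652578761) (nat_lit 152)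 (nat_lit 42757258) (nat_lit 76) (nat_lit 14921892596) (nat_lit 35) (nat_lit 5) (nat_lit 37) (nat_lit 5) (nat_lit 36) (nat_lit 4) (nat_lit 452) (nat_lit 376) (nat_lit 372))) (XT.nd (nat_lit 78) (nat_lit 76) (nat_lit 0) (XT.lf (nat_lit 0) (nat_lit 6893075795) (nat_lit 152) (nat_lit 3887842335) (nat_lit 0) (nat_lit 5287748463) (nat_lit 34) (nat_lit 5) (nat_lit 36) (nat_lit 4) (nat_lit 34) (nat_lit 4) (nat_lit 453) (nat_lit 376) (nat_lit 371)) (XT.lf (nat_lit 0) (nat_lit 8362494683) (nat_lit 76) (nat_lit 5032374629) (nat_lit 76) (nat_lit 3150357974) (nat_lit 33) (nat_lit 4) (nat_lit 34) (nat_lit 5) (nat_lit 34) (nat_lit 4) (nat_lit 454) (nat_lit 376) (nat_lit 370))))) (XT.nd (nat_lit 234) (nat_lit 380) (nat_lit 0) (XT.nd (nat_lit 78) (nat_lit 76) (nat_lit 0) (XT.lf (nat_lit 0) (nat_lit 3027156114) (nat_lit 152) (nat_lit 13034565817) (nat_lit 0) (nat_lit 983793927) (nat_lit 31) (nat_lit 5) (nat_lit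 33) (nat_lit 4) (nat_lit 31) (nat_lit 4) (nat_lit 455) (nat_lit 376) (nat_lit 369)) (XT.nd (nat_lit 78) (nat_lit 76) (nat_lit 0) (XT.lf (nat_lit 0) (nat_lit 9438848818) (nat_lit 152) (nat_lit 971369448) (nat_lit 0) (nat_lit 7156471990) (nat_lit 31) (nat_lit 5) (nat_lit 33) (nat_lit 4) (nat_lit 31) (nat_lit 4) (nat_lit 456) (nat_lit 376) (nat_lit 368)) (XT.lf (nat_lit 0) (nat_lit 11718167571) (nat_lit 76) (nat_lit 4452890437) (nat_lit 76) (nat_lit 1942880617) (nat_lit 30) (nat_lit 4) (nat_lit 31) (nat_lit 5) (nat_lit 31) (nat_lit 4) (nat_lit 457) (nat_lit 376) (nat_lit 367)))) (XT.nd (nat_lit 156) (nat_lit 228) (nat_lit 0) (XT.nd (nat_lit 78) (nat_lit 0) (nat_lit 0) (XT.lf (nat_lit 0) (nat_lit 4364419937) (nat_lit 152) (nat_lit 12555184576) (nat_lit 0) (nat_lit 1767464561) (nat_lit 28) (nat_lit 5) (nat_lit 30) (nat_lit 4) (nat_lit 28) (nat_lit 4) (nat_lit 458) (nat_lit 376) (nat_lit 366)) (XT.lf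 (nat_lit 0) (nat_lit 10922890284) (nat_lit 152) (nat_lit 235031581) (nat_lit 0) (nat_lit 8129296972) (nat_lit 28) (nat_lit 5) (nat_lit 30) (nat_lit 4) (nat_lit 28) (nat_lit 4) (nat_lit 459) (nat_lit 376) (nat_lit 365))) (XT.nd (nat_lit 78) (nat_lit 152) (nat_lit 0) (XT.lf (nat_lit 0) (nat_lit 12773841776) (nat_lit 76) (nat_lit 5061553031) (nat_lit 76) (nat_lit 2080685493) (nat_lit 27) (nat_lit 4) (nat_lit 28) (nat_lit 5) (nat_lit 28) (nat_lit 4) (nat_lit 460) (nat_lit 376) (nat_lit 364)) (XT.lf (nat_lit 0) (nat_lit 4312638240) (nat_lit 152) (nat_lit 14959371880) (nat_lit 0) (nat_lit 1303853533) (nat_lit 25) (nat_lit 5) (nat_lit 27) (nat_lit 4) (nat_lit 25) (nat_lit 4) (nat_lit 461) (nat_lit 376) (nat_lit 363)))))) (XT.nd (nat_lit 546) (nat_lit 304) (nat_lit 0) (XT.nd (nat_lit 234) (nat_lit 228) (nat_lit 0) (XT.nd (nat_lit 78) (nat_lit 228) (nat_lit 0) (XT.lf (nat_lit 0) (nat_lit 10989142947)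 (nat_lit 152) (nat_lit 2457540469) (nat_lit 0) (nat_lit 7818583723) (nat_lit 25) (nat_lit 5) (nat_lit 27) (nat_lit 4) (nat_lit 25) (nat_lit 4) (nat_lit 462) (nat_lit 376) (nat_lit 362)) (XT.nd (nat_lit 78) (nat_lit 152) (nat_lit 0) (XT.lf (nat_lit 0) (nat_lit 10690591681) (nat_lit 76) (nat_lit 7311527505) (nat_lit 76) (nat_lit 3986897312) (nat_lit 24) (nat_lit 4) (nat_lit 25) (nat_lit 5) (nat_lit 25) (nat_lit 4) (nat_lit 463) (nat_lit 376) (nat_lit 361)) (XT.lf (nat_lit 0) (nat_lit 1520495491) (nat_lit 76) (nat_lit 914558137) (nat_lit 152) (nat_lit 20316763380) (nat_lit 22) (nat_lit 5) (nat_lit 23) (nat_lit 5) (nat_lit 24) (nat_lit 4) (nat_lit 464) (nat_lit 376) (nat_lit 360)))) (XT.nd (nat_lit 156) (nat_lit 152) (nat_lit 0) (XT.nd (nat_lit 78) (nat_lit 76) (nat_lit 0) (XT.lf (nat_lit 0) (nat_lit 9165620549) (nat_lit 152) (nat_lit 8651333880) (nat_lit 0) (nat_lit 5726466874) (nat_lit 22) (nat_lit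 5) (nat_lit 24) (nat_lit 4) (nat_lit 22) (nat_lit 4) (nat_lit 465) (nat_lit 376) (nat_lit 359)) (XT.lf (nat_lit 0) (nat_lit 4376373706) (nat_lit 76) (nat_lit 11783884902) (nat_lit 76) (nat_lit 8217976660) (nat_lit 21) (nat_lit 4) (nat_lit 22) (nat_lit 5) (nat_lit 22) (nat_lit 4) (nat_lit 466) (nat_lit 376) (nat_lit 358))) (XT.nd (nat_lit 78) (nat_lit 152) (nat_lit 0) (XT.lf (nat_lit 0) (nat_lit 18054404739) (nat_lit 76) (nat_lit 5443672947) (nat_lit 76) (nat_lit 1757046070) (nat_lit 21) (nat_lit 4) (nat_lit 22) (nat_lit 5) (nat_lit 22) (nat_lit 4) (nat_lit 467) (nat_lit 376) (nat_lit 357)) (XT.lf (nat_lit 0) (nat_lit 4832084151) (nat_lit 152) (nat_lit 20130036102) (nat_lit 0) (nat_lit 1211515574) (nat_lit 19) (nat_lit 5) (nat_lit 21) (nat_lit 4) (nat_lit 19) (nat_lit 4) (nat_lit 468) (nat_lit 376) (nat_lit 356))))) (XT.nd (nat_lit 312) (nat_lit 76) (nat_lit 0) (XT.nd (nat_lit 156) (nat_lit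 152) (nat_lit 0) (XT.nd (nat_lit 78) (nat_lit 76) (nat_lit 0) (XT.lf (nat_lit 0) (nat_lit 11756997022) (nat_lit 152) (nat_lit 7344225835) (nat_lit 0) (nat_lit 8032147149) (nat_lit 19) (nat_lit 5) (nat_lit 21) (nat_lit 4) (nat_lit 19) (nat_lit 4) (nat_lit 469) (nat_lit 376) (nat_lit 355)) (XT.lf (nat_lit 0) (nat_lit 5994318072) (nat_lit 76) (nat_lit 12986651345) (nat_lit 76) (nat_lit 9162485951) (nat_lit 18) (nat_lit 4) (nat_lit 19) (nat_lit 5) (nat_lit 19) (nat_lit 4) (nat_lit 470) (nat_lit 376) (nat_lit 354))) (XT.nd (nat_lit 78) (nat_lit 152) (nat_lit 0) (XT.lf (nat_lit 0) (nat_lit 19980842150) (nat_lit 76) (nat_lit 6571328920) (nat_lit 76) (nat_lit 2652577317) (nat_lit 18) (nat_lit 4) (nat_lit 19) (nat_lit 5) (nat_lit 19) (nat_lit 4) (nat_lit 471) (nat_lit 376) (nat_lit 353)) (XT.lf (nat_lit 0) (nat_lit 3982469832) (nat_lit 152) (nat_lit 26172166455) (nat_lit 0) (nat_lit 164532967) (nat_lit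 16) (nat_lit 5) (nat_lit 18) (nat_lit 4) (nat_lit 16) (nat_lit 4) (nat_lit 472) (nat_lit 376) (nat_lit 352)))) (XT.nd (nat_lit 156) (nat_lit 76) (nat_lit 0) (XT.nd (nat_lit 78) (nat_lit 0) (nat_lit 0) (XT.lf (nat_lit 0) (nat_lit 10992981725) (nat_lit 152) (nat_lit 13394178893) (nat_lit 0) (nat_lit 7093337736) (nat_lit 16) (nat_lit 5) (nat_lit 18) (nat_lit 4) (nat_lit 16) (nat_lit 4) (nat_lit 473) (nat_lit 376) (nat_lit 351)) (XT.lf (nat_lit 0) (nat_lit 18226740658) (nat_lit 152) (nat_lit 230240866) (nat_lit 0) (nat_lit 14249280361) (nat_lit 16) (nat_lit 5) (nat_lit 18) (nat_lit 4) (nat_lit 16) (nat_lit 4) (nat_lit 474) (nat_lit 376) (nat_lit 350))) (XT.nd (nat_lit 78) (nat_lit 0) (nat_lit 0) (XT.lf (nat_lit 0) (nat_lit 13792434370) (nat_lit 76) (nat_lit 12123874051) (nat_lit 76) (nat_lit 8072302984) (nat_lit 15) (nat_lit 4) (nat_lit 16) (nat_lit 5) (nat_lit 16) (nat_lit 4) (nat_lit 475) (nat_lit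 376) (nat_lit 349)) (XT.lf (nat_lit 0) (nat_lit 28287218629) (nat_lit 76) (nat_lit 5587889266) (nat_lit 76) (nat_lit 1465736512) (nat_lit 15) (nat_lit 4) (nat_lit 16) (nat_lit 5) (nat_lit 16) (nat_lit 4) (nat_lit 476) (nat_lit 376) (nat_lit 348))))))))
noncomputable def xc43 : XT := (XT.nd (nat_lit 2184) (nat_lit 228) (nat_lit 0) (XT.nd (nat_lit 1092) (nat_lit 304) (nat_lit 0) (XT.nd (nat_lit 546) (nat_lit 152) (nat_lit 0) (XT.nd (nat_lit 234) (nat_lit 228) (nat_lit 0) (XT.nd (nat_lit 78) (nat_lit 0) (nat_lit 0) (XT.lf (nat_lit 0) (nat_lit 5305660603) (nat_lit 152) (nat_lit 30134498935) (nat_lit 0) (nat_lit 1315781168) (nat_lit 13) (nat_lit 5) (nat_lit 15) (nat_lit 4) (nat_lit 13) (nat_lit 4) (nat_lit 477) (nat_lit 376) (nat_lit 347)) (XT.nd (nat_lit 78) (nat_lit 0) (nat_lit 0) (XT.lf (nat_lit 0) (nat_lit 12464262964) (nat_lit 152) (nat_lit 17358023504) (nat_lit 0) (nat_lit 8413412415) (nat_lit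 13) (nat_lit 5) (nat_lit 15) (nat_lit 4) (nat_lit 13) (nat_lit 4) (nat_lit 478) (nat_lit 376) (nat_lit 346)) (XT.lf (nat_lit 0) (nat_lit 19871151762) (nat_lit 152) (nat_lit 4161544927) (nat_lit 0) (nat_lit 15762233485) (nat_lit 13) (nat_lit 5) (nat_lit 15) (nat_lit 4) (nat_lit 13) (nat_lit 4) (nat_lit 479) (nat_lit 376) (nat_lit 345)))) (XT.nd (nat_lit 156) (nat_lit 152) (nat_lit 0) (XT.nd (nat_lit 78) (nat_lit 0) (nat_lit 0) (XT.lf (nat_lit 0) (nat_lit 9800018786) (nat_lit 76) (nat_lit 17896949417) (nat_lit 76) (nat_lit 13732728543) (nat_lit 12) (nat_lit 4) (nat_lit 13) (nat_lit 5) (nat_lit 13) (nat_lit 4) (nat_lit 480) (nat_lit 376) (nat_lit 344)) (XT.lf (nat_lit 0) (nat_lit 24399100832) (nat_lit 76) (nat_lit 11482801123) (nat_lit 76) (nat_lit 7265911108) (nat_lit 12) (nat_lit 4) (nat_lit 13) (nat_lit 5) (nat_lit 13) (nat_lit 4) (nat_lit 481) (nat_lit 376) (nat_lit 343))) (XT.nd (nat_lit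 78) (nat_lit 152) (nat_lit 0) (XT.lf (nat_lit 0) (nat_lit 39532861460) (nat_lit 76) (nat_lit 4845457802) (nat_lit 76) (nat_lit 578406700) (nat_lit 12) (nat_lit 4) (nat_lit 13) (nat_lit 5) (nat_lit 13) (nat_lit 4) (nat_lit 482) (nat_lit 376) (nat_lit 342)) (XT.lf (nat_lit 0) (nat_lit 6311633997) (nat_lit 152) (nat_lit 38333425001) (nat_lit 0) (nat_lit 2202278221) (nat_lit 10) (nat_lit 5) (nat_lit 12) (nat_lit 4) (nat_lit 10) (nat_lit 4) (nat_lit 483) (nat_lit 376) (nat_lit 341))))) (XT.nd (nat_lit 234) (nat_lit 76) (nat_lit 0) (XT.nd (nat_lit 78) (nat_lit 76) (nat_lit 0) (XT.lf (nat_lit 0) (nat_lit 13605046562) (nat_lit 152) (nat_lit 25770685468) (nat_lit 0) (nat_lit 9452359753) (nat_lit 10) (nat_lit 5) (nat_lit 12) (nat_lit 4) (nat_lit 10) (nat_lit 4) (nat_lit 484) (nat_lit 376) (nat_lit 340)) (XT.nd (nat_lit 78) (nat_lit 76) (nat_lit 0) (XT.lf (nat_lit 0) (nat_lit 21173141901) (nat_lit 152)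 (nat_lit 12760056272) (nat_lit 0) (nat_lit 16979187443) (nat_lit 10) (nat_lit 5) (nat_lit 12) (nat_lit 4) (nat_lit 10) (nat_lit 4) (nat_lit 485) (nat_lit 376) (nat_lit 339)) (XT.lf (nat_lit 0) (nat_lit 753558864) (nat_lit 76) (nat_lit 28292145591) (nat_lit 76) (nat_lit 24058888608) (nat_lit 9) (nat_lit 4) (nat_lit 10) (nat_lit 5) (nat_lit 10) (nat_lit 4) (nat_lit 486) (nat_lit 376) (nat_lit 338)))) (XT.nd (nat_lit 156) (nat_lit 76) (nat_lit 0) (XT.nd (nat_lit 78) (nat_lit 0) (nat_lit 0) (XT.lf (nat_lit 0) (nat_lit 15216959767) (nat_lit 76) (nat_lit 22226774531) (nat_lit 76) (nat_lit 17956086574) (nat_lit 9) (nat_lit 4) (nat_lit 10) (nat_lit 5) (nat_lit 10) (nat_lit 4) (nat_lit 487) (nat_lit 376) (nat_lit 337)) (XT.lf (nat_lit 0) (nat_lit 30242678018) (nat_lit 76) (nat_lit 15938741363) (nat_lit 76) (nat_lit 11632404858) (nat_lit 9) (nat_lit 4) (nat_lit 10) (nat_lit 5) (nat_lit 10) (nat_lit 4)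 (nat_lit 488) (nat_lit 376) (nat_lit 336))) (XT.nd (nat_lit 78) (nat_lit 76) (nat_lit 0) (XT.lf (nat_lit 0) (nat_lit 45866489137) (nat_lit 76) (nat_lit 9413074578) (nat_lit 76) (nat_lit 5072787076) (nat_lit 9) (nat_lit 4) (nat_lit 10) (nat_lit 5) (nat_lit 10) (nat_lit 4) (nat_lit 489) (nat_lit 376) (nat_lit 335)) (XT.lf (nat_lit 0) (nat_lit 1682745736) (nat_lit 152) (nat_lit 922993026) (nat_lit 76) (nat_lit 60414348824) (nat_lit 8) (nat_lit 5) (nat_lit 10) (nat_lit 5) (nat_lit 9) (nat_lit 4) (nat_lit 490) (nat_lit 376) (nat_lit 334)))))) (XT.nd (nat_lit 546) (nat_lit 152) (nat_lit 0) (XT.nd (nat_lit 234) (nat_lit 76) (nat_lit 0) (XT.nd (nat_lit 78) (nat_lit 0) (nat_lit 0) (XT.lf (nat_lit 0) (nat_lit 8820937716) (nat_lit 152) (nat_lit 52358141068) (nat_lit 0) (nat_lit 4627207867) (nat_lit 7) (nat_lit 5) (nat_lit 9) (nat_lit 4) (nat_lit 7) (nat_lit 4) (nat_lit 491) (nat_lit 376) (nat_lit 333))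 (XT.nd (nat_lit 78) (nat_lit 0) (nat_lit 0) (XT.lf (nat_lit 0) (nat_lit 16304282455) (nat_lit 152) (nat_lit 40345481477) (nat_lit 0) (nat_lit 12082621035) (nat_lit 7) (nat_lit 5) (nat_lit 9) (nat_lit 4) (nat_lit 7) (nat_lit 4) (nat_lit 492) (nat_lit 376) (nat_lit 332)) (XT.lf (nat_lit 0) (nat_lit 24094783520) (nat_lit 152) (nat_lit 27866836002) (nat_lit 0) (nat_lit 19846520605) (nat_lit 7) (nat_lit 5) (nat_lit 9) (nat_lit 4) (nat_lit 7) (nat_lit 4) (nat_lit 493) (nat_lit 376) (nat_lit 331)))) (XT.nd (nat_lit 156) (nat_lit 76) (nat_lit 0) (XT.nd (nat_lit 78) (nat_lit 0) (nat_lit 0) (XT.lf (nat_lit 0) (nat_lit 32210989724) (nat_lit 152) (nat_lit 14892493583) (nat_lit 0) (nat_lit 27937392052) (nat_lit 7) (nat_lit 5) (nat_lit 9) (nat_lit 4) (nat_lit 7) (nat_lit 4) (nat_lit 494) (nat_lit 376) (nat_lit 330)) (XT.lf (nat_lit 0) (nat_lit 40672225368) (nat_lit 152) (nat_lit 1391562928) (nat_lit 0) (nat_lit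 36374499356) (nat_lit 7) (nat_lit 5) (nat_lit 9) (nat_lit 4) (nat_lit 7) (nat_lit 4) (nat_lit 495) (nat_lit 376) (nat_lit 329))) (XT.nd (nat_lit 78) (nat_lit 0) (nat_lit 0) (XT.lf (nat_lit 0) (nat_lit 13086965666) (nat_lit 76) (nat_lit 36615994795) (nat_lit 76) (nat_lit 32295289411) (nat_lit 6) (nat_lit 4) (nat_lit 7) (nat_lit 5) (nat_lit 7) (nat_lit 4) (nat_lit 496) (nat_lit 376) (nat_lit 328)) (XT.lf (nat_lit 0) (nat_lit 28223295408) (nat_lit 76) (nat_lit 30928586964) (nat_lit 76) (nat_lit 26585996465) (nat_lit 6) (nat_lit 4) (nat_lit 7) (nat_lit 5) (nat_lit 7) (nat_lit 4) (nat_lit 497) (nat_lit 376) (nat_lit 327))))) (XT.nd (nat_lit 234) (nat_lit 152) (nat_lit 0) (XT.nd (nat_lit 78) (nat_lit 0) (nat_lit 0) (XT.lf (nat_lit 0) (nat_lit 44007453824) (nat_lit 76) (nat_lit 25011590150) (nat_lit 76) (nat_lit 20648156683) (nat_lit 6) (nat_lit 4) (nat_lit 7) (nat_lit 5) (nat_lit 7) (nat_lit 4) (nat_lit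 498) (nat_lit 376) (nat_lit 326)) (XT.nd (nat_lit 78) (nat_lit 0) (nat_lit 0) (XT.lf (nat_lit 0) (nat_lit 60477022243) (nat_lit 76) (nat_lit 18850916263) (nat_lit 76) (nat_lit 14467632351) (nat_lit 6) (nat_lit 4) (nat_lit 7) (nat_lit 5) (nat_lit 7) (nat_lit 4) (nat_lit 499) (nat_lit 376) (nat_lit 325)) (XT.lf (nat_lit 0) (nat_lit 77671213924) (nat_lit 76) (nat_lit 12431897033) (nat_lit 76) (nat_lit 8029707935) (nat_lit 6) (nat_lit 4) (nat_lit 7) (nat_lit 5) (nat_lit 7) (nat_lit 4) (nat_lit 500) (nat_lit 376) (nat_lit 324)))) (XT.nd (nat_lit 156) (nat_lit 0) (nat_lit 0) (XT.nd (nat_lit 78) (nat_lit 152) (nat_lit 0) (XT.lf (nat_lit 0) (nat_lit 95630967417) (nat_lit 76) (nat_lit 5739249081) (nat_lit 76) (nat_lit 1319055044) (nat_lit 6) (nat_lit 4) (nat_lit 7) (nat_lit 5) (nat_lit 7) (nat_lit 4) (nat_lit 501) (nat_lit 376) (nat_lit 323)) (XT.lf (nat_lit 0) (nat_lit 5631401163) (nat_lit 152) (nat_lit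 100427935406) (nat_lit 0) (nat_lit 1405361546) (nat_lit 4) (nat_lit 5) (nat_lit 6) (nat_lit 4) (nat_lit 4) (nat_lit 4) (nat_lit 502) (nat_lit 376) (nat_lit 322))) (XT.nd (nat_lit 78) (nat_lit 0) (nat_lit 0) (XT.lf (nat_lit 0) (nat_lit 13055358621) (nat_lit 152) (nat_lit 90600175984) (nat_lit 0) (nat_lit 8813765661) (nat_lit 4) (nat_lit 5) (nat_lit 6) (nat_lit 4) (nat_lit 4) (nat_lit 4) (nat_lit 503) (nat_lit 376) (nat_lit 321)) (XT.lf (nat_lit 0) (nat_lit 20807395752) (nat_lit 152) (nat_lit 80367903370) (nat_lit 0) (nat_lit 16550990084) (nat_lit 4) (nat_lit 5) (nat_lit 6) (nat_lit 4) (nat_lit 4) (nat_lit 4) (nat_lit 504) (nat_lit 376) (nat_lit 320))))))) (XT.nd (nat_lit 1092) (nat_lit 152) (nat_lit 0) (XT.nd (nat_lit 546) (nat_lit 0) (nat_lit 0) (XT.nd (nat_lit 234) (nat_lit 76) (nat_lit 0) (XT.nd (nat_lit 78) (nat_lit 0) (nat_lit 0) (XT.lf (nat_lit 0) (nat_lit 28905969787) (nat_lit 152) (nat_lit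 69706755008) (nat_lit 0) (nat_lit 24635456779) (nat_lit 4) (nat_lit 5) (nat_lit 6) (nat_lit 4) (nat_lit 4) (nat_lit 4) (nat_lit 505) (nat_lit 376) (nat_lit 319)) (XT.nd (nat_lit 78) (nat_lit 0) (nat_lit 0) (XT.lf (nat_lit 0) (nat_lit 37370363046) (nat_lit 152) (nat_lit 58591347214) (nat_lit 0) (nat_lit 33086414474) (nat_lit 4) (nat_lit 5) (nat_lit 6) (nat_lit 4) (nat_lit 4) (nat_lit 4) (nat_lit 506) (nat_lit 376) (nat_lit 318)) (XT.lf (nat_lit 0) (nat_lit 46220728845) (nat_lit 152) (nat_lit 46995214729) (nat_lit 0) (nat_lit 41923984499) (nat_lit 4) (nat_lit 5) (nat_lit 6) (nat_lit 4) (nat_lit 4) (nat_lit 4) (nat_lit 507) (nat_lit 376) (nat_lit 317)))) (XT.nd (nat_lit 156) (nat_lit 76) (nat_lit 0) (XT.nd (nat_lit 78) (nat_lit 0) (nat_lit 0) (XT.lf (nat_lit 0) (nat_lit 55478139484) (nat_lit 152) (nat_lit 34890747716) (nat_lit 0) (nat_lit 51169208687) (nat_lit 4) (nat_lit 5) (nat_lit 6) (nat_lit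 4) (nat_lit 4) (nat_lit 4) (nat_lit 508) (nat_lit 376) (nat_lit 316)) (XT.lf (nat_lit 0) (nat_lit 65164636417) (nat_lit 152) (nat_lit 22249126013) (nat_lit 0) (nat_lit 60844099476) (nat_lit 4) (nat_lit 5) (nat_lit 6) (nat_lit 4) (nat_lit 4) (nat_lit 4) (nat_lit 509) (nat_lit 376) (nat_lit 315))) (XT.nd (nat_lit 78) (nat_lit 76) (nat_lit 0) (XT.lf (nat_lit 0) (nat_lit 75303282732) (nat_lit 152) (nat_lit 9040250523) (nat_lit 0) (nat_lit 70971692321) (nat_lit 4) (nat_lit 5) (nat_lit 6) (nat_lit 4) (nat_lit 4) (nat_lit 4) (nat_lit 510) (nat_lit 376) (nat_lit 314)) (XT.lf (nat_lit 0) (nat_lit 4924957867) (nat_lit 76) (nat_lit 81070152591) (nat_lit 76) (nat_lit 76728035064) (nat_lit 3) (nat_lit 4) (nat_lit 4) (nat_lit 5) (nat_lit 4) (nat_lit 4) (nat_lit 511) (nat_lit 376) (nat_lit 313))))) (XT.nd (nat_lit 234) (nat_lit 0) (nat_lit 0) (XT.nd (nat_lit 78) (nat_lit 0) (nat_lit 0) (XT.lf (nat_lit 0)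 (nat_lit 19841539290) (nat_lit 76) (nat_lit 77502958810) (nat_lit 76) (nat_lit 73150815460) (nat_lit 3) (nat_lit 4) (nat_lit 4) (nat_lit 5) (nat_lit 4) (nat_lit 4) (nat_lit 512) (nat_lit 376) (nat_lit 312)) (XT.nd (nat_lit 78) (nat_lit 0) (nat_lit 0) (XT.lf (nat_lit 0) (nat_lit 35446097906) (nat_lit 76) (nat_lit 73786559612) (nat_lit 76) (nat_lit 69424867858) (nat_lit 3) (nat_lit 4) (nat_lit 4) (nat_lit 5) (nat_lit 4) (nat_lit 4) (nat_lit 513) (nat_lit 376) (nat_lit 311)) (XT.lf (nat_lit 0) (nat_lit 51775787426) (nat_lit 76) (nat_lit 69912106428) (nat_lit 76) (nat_lit 65541320956) (nat_lit 3) (nat_lit 4) (nat_lit 4) (nat_lit 5) (nat_lit 4) (nat_lit 4) (nat_lit 514) (nat_lit 376) (nat_lit 310)))) (XT.nd (nat_lit 156) (nat_lit 0) (nat_lit 0) (XT.nd (nat_lit 78) (nat_lit 0) (nat_lit 0) (XT.lf (nat_lit 0) (nat_lit 68869488063) (nat_lit 76) (nat_lit 65870374368) (nat_lit 76) (nat_lit 61490928213)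 (nat_lit 3) (nat_lit 4) (nat_lit 4) (nat_lit 5) (nat_lit 4) (nat_lit 4) (nat_lit 515) (nat_lit 376) (nat_lit 309)) (XT.lf (nat_lit 0) (nat_lit 86767899105) (nat_lit 76) (nat_lit 61651740262) (nat_lit 76) (nat_lit 57264045837) (nat_lit 3) (nat_lit 4) (nat_lit 4) (nat_lit 5) (nat_lit 4) (nat_lit 4) (nat_lit 516) (nat_lit 376) (nat_lit 308))) (XT.nd (nat_lit 78) (nat_lit 0) (nat_lit 0) (XT.lf (nat_lit 0) (nat_lit 105513635816) (nat_lit 76) (nat_lit 57246159742) (nat_lit 76) (nat_lit 52850609821) (nat_lit 3) (nat_lit 4) (nat_lit 4) (nat_lit 5) (nat_lit 4) (nat_lit 4) (nat_lit 517) (nat_lit 376) (nat_lit 307)) (XT.lf (nat_lit 0) (nat_lit 125151330902) (nat_lit 76) (nat_lit 52643143330) (nat_lit 76) (nat_lit 48240111986) (nat_lit 3) (nat_lit 4) (nat_lit 4) (nat_lit 5) (nat_lit 4) (nat_lit 4) (nat_lit 518) (nat_lit 376) (nat_lit 306)))))) (XT.nd (nat_lit 546) (nat_lit 152) (nat_lit 0) (XT.nd (nat_lit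 234) (nat_lit 0) (nat_lit 0) (XT.nd (nat_lit 78) (nat_lit 0) (nat_lit 0) (XT.lf (nat_lit 0) (nat_lit 145727740781) (nat_lit 76) (nat_lit 47831731465) (nat_lit 76) (nat_lit 43421574955) (nat_lit 3) (nat_lit 4) (nat_lit 4) (nat_lit 5) (nat_lit 4) (nat_lit 4) (nat_lit 519) (nat_lit 376) (nat_lit 305)) (XT.nd (nat_lit 78) (nat_lit 0) (nat_lit 0) (XT.lf (nat_lit 0) (nat_lit 167291856903) (nat_lit 76) (nat_lit 42800468403) (nat_lit 76) (nat_lit 38383526021) (nat_lit 3) (nat_lit 4) (nat_lit 4) (nat_lit 5) (nat_lit 4) (nat_lit 4) (nat_lit 520) (nat_lit 376) (nat_lit 304)) (XT.lf (nat_lit 0) (nat_lit 189895022404) (nat_lit 76) (nat_lit 37537374947) (nat_lit 76) (nat_lit 33113969830) (nat_lit 3) (nat_lit 4) (nat_lit 4) (nat_lit 5) (nat_lit 4) (nat_lit 4) (nat_lit 521) (nat_lit 376) (nat_lit 303)))) (XT.nd (nat_lit 156) (nat_lit 0) (nat_lit 0) (XT.nd (nat_lit 78) (nat_lit 0) (nat_lit 0) (XT.lf (nat_lit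 0) (nat_lit 213591054343) (nat_lit 76) (nat_lit 32029919922) (nat_lit 76) (nat_lit 27600359818) (nat_lit 3) (nat_lit 4) (nat_lit 4) (nat_lit 5) (nat_lit 4) (nat_lit 4) (nat_lit 522) (nat_lit 376) (nat_lit 302)) (XT.lf (nat_lit 0) (nat_lit 238436371844) (nat_lit 76) (nat_lit 26264990339) (nat_lit 76) (nat_lit 21829568344) (nat_lit 3) (nat_lit 4) (nat_lit 4) (nat_lit 5) (nat_lit 4) (nat_lit 4) (nat_lit 523) (nat_lit 376) (nat_lit 301))) (XT.nd (nat_lit 78) (nat_lit 0) (nat_lit 0) (XT.lf (nat_lit 0) (nat_lit 264490130426) (nat_lit 76) (nat_lit 20228860177) (nat_lit 76) (nat_lit 15787855427) (nat_lit 3) (nat_lit 4) (nat_lit 4) (nat_lit 5) (nat_lit 4) (nat_lit 4) (nat_lit 524) (nat_lit 376) (nat_lit 300)) (XT.lf (nat_lit 0) (nat_lit 291814362846) (nat_lit 76) (nat_lit 13907157695) (nat_lit 76) (nat_lit 9460836038) (nat_lit 3) (nat_lit 4) (nat_lit 4) (nat_lit 5) (nat_lit 4) (nat_lit 4) (nat_lit 525)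 (nat_lit 376) (nat_lit 299))))) (XT.nd (nat_lit 312) (nat_lit 0) (nat_lit 0) (XT.nd (nat_lit 156) (nat_lit 0) (nat_lit 0) (XT.nd (nat_lit 78) (nat_lit 152) (nat_lit 0) (XT.lf (nat_lit 0) (nat_lit 320474126802) (nat_lit 76) (nat_lit 7284831222) (nat_lit 76) (nat_lit 2833445843) (nat_lit 3) (nat_lit 4) (nat_lit 4) (nat_lit 5) (nat_lit 4) (nat_lit 4) (nat_lit 526) (nat_lit 376) (nat_lit 298)) (XT.lf (nat_lit 0) (nat_lit 3822143714) (nat_lit 76) (nat_lit 216076620) (nat_lit 152) (nat_lit 342729265924) (nat_lit 1) (nat_lit 5) (nat_lit 2) (nat_lit 5) (nat_lit 3) (nat_lit 4) (nat_lit 527) (nat_lit 376) (nat_lit 297))) (XT.nd (nat_lit 78) (nat_lit 0) (nat_lit 0) (XT.lf (nat_lit 0) (nat_lit 11430205161) (nat_lit 152) (nat_lit 345123374120) (nat_lit 0) (nat_lit 7181823334) (nat_lit 1) (nat_lit 5) (nat_lit 3) (nat_lit 4) (nat_lit 1) (nat_lit 4) (nat_lit 528) (nat_lit 376) (nat_lit 296)) (XT.lf (nat_lit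 0) (nat_lit 19181315251) (nat_lit 152) (nat_lit 347442155966) (nat_lit 0) (nat_lit 14928767488) (nat_lit 1) (nat_lit 5) (nat_lit 3) (nat_lit 4) (nat_lit 1) (nat_lit 4) (nat_lit 529) (nat_lit 376) (nat_lit 295)))) (XT.nd (nat_lit 156) (nat_lit 0) (nat_lit 0) (XT.nd (nat_lit 78) (nat_lit 0) (nat_lit 0) (XT.lf (nat_lit 0) (nat_lit 27306632070) (nat_lit 152) (nat_lit 349903835428) (nat_lit 0) (nat_lit 23050116748) (nat_lit 1) (nat_lit 5) (nat_lit 3) (nat_lit 4) (nat_lit 1) (nat_lit 4) (nat_lit 530) (nat_lit 376) (nat_lit 294)) (XT.lf (nat_lit 0) (nat_lit 35825501608) (nat_lit 152) (nat_lit 352514273650) (nat_lit 0) (nat_lit 31565207658) (nat_lit 1) (nat_lit 5) (nat_lit 3) (nat_lit 4) (nat_lit 1) (nat_lit 4) (nat_lit 531) (nat_lit 376) (nat_lit 293))) (XT.nd (nat_lit 78) (nat_lit 0) (nat_lit 0) (XT.lf (nat_lit 0) (nat_lit 44758206888) (nat_lit 152) (nat_lit 355279685959) (nat_lit 0) (nat_lit 40494314246)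 (nat_lit 1) (nat_lit 5) (nat_lit 3) (nat_lit 4) (nat_lit 1) (nat_lit 4) (nat_lit 532) (nat_lit 376) (nat_lit 292)) (XT.lf (nat_lit 0) (nat_lit 54126016258) (nat_lit 152) (nat_lit 358206656670) (nat_lit 0) (nat_lit 49858696288) (nat_lit 1) (nat_lit 5) (nat_lit 3) (nat_lit 4) (nat_lit 1) (nat_lit 4) (nat_lit 533) (nat_lit 376) (nat_lit 291))))))))
noncomputable def xc44 : XT := (XT.nd (nat_lit 56862) (nat_lit 0) (nat_lit 608) (XT.nd (nat_lit 55770) (nat_lit 0) (nat_lit 1824) (XT.nd (nat_lit 546) (nat_lit 0) (nat_lit 0) (XT.nd (nat_lit 234) (nat_lit 0) (nat_lit 0) (XT.nd (nat_lit 78) (nat_lit 0) (nat_lit 0) (XT.lf (nat_lit 0) (nat_lit 63951234023) (nat_lit 152) (nat_lit 361302154763) (nat_lit 0) (nat_lit 59680649934) (nat_lit 1) (nat_lit 5) (nat_lit 3) (nat_lit 4) (nat_lit 1) (nat_lit 4) (nat_lit 534) (nat_lit 376) (nat_lit 290)) (XT.nd (nat_lit 78) (nat_lit 0) (nat_lit 0) (XT.lf (nat_lit 0) (nat_lit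 74257253561) (nat_lit 152) (nat_lit 364573550469) (nat_lit 0) (nat_lit 69983560785) (nat_lit 1) (nat_lit 5) (nat_lit 3) (nat_lit 4) (nat_lit 1) (nat_lit 4) (nat_lit 535) (nat_lit 376) (nat_lit 289)) (XT.lf (nat_lit 0) (nat_lit 85068613012) (nat_lit 152) (nat_lit 368028632827) (nat_lit 0) (nat_lit 80791959583) (nat_lit 1) (nat_lit 5) (nat_lit 3) (nat_lit 4) (nat_lit 1) (nat_lit 4) (nat_lit 536) (nat_lit 376) (nat_lit 288)))) (XT.nd (nat_lit 156) (nat_lit 0) (nat_lit 0) (XT.nd (nat_lit 78) (nat_lit 0) (nat_lit 0) (XT.lf (nat_lit 0) (nat_lit 96411053710) (nat_lit 152) (nat_lit 371675628224) (nat_lit 0) (nat_lit 92131580610) (nat_lit 1) (nat_lit 5) (nat_lit 3) (nat_lit 4) (nat_lit 1) (nat_lit 4) (nat_lit 537) (nat_lit 376) (nat_lit 287)) (XT.lf (nat_lit 0) (nat_lit 108311581464) (nat_lit 152) (nat_lit 375523219981) (nat_lit 0) (nat_lit 104029422965) (nat_lit 1) (nat_lit 5) (nat_lit 3) (nat_lit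 4) (nat_lit 1) (nat_lit 4) (nat_lit 538) (nat_lit 376) (nat_lit 286))) (XT.nd (nat_lit 78) (nat_lit 0) (nat_lit 0) (XT.lf (nat_lit 0) (nat_lit 120798530866) (nat_lit 152) (nat_lit 379580569031) (nat_lit 0) (nat_lit 116513814842) (nat_lit 1) (nat_lit 5) (nat_lit 3) (nat_lit 4) (nat_lit 1) (nat_lit 4) (nat_lit 539) (nat_lit 376) (nat_lit 285)) (XT.lf (nat_lit 0) (nat_lit 133901632746) (nat_lit 152) (nat_lit 383857335729) (nat_lit 0) (nat_lit 129614480986) (nat_lit 1) (nat_lit 5) (nat_lit 3) (nat_lit 4) (nat_lit 1) (nat_lit 4) (nat_lit 540) (nat_lit 376) (nat_lit 284))))) (XT.nd (nat_lit 234) (nat_lit 0) (nat_lit 0) (XT.nd (nat_lit 78) (nat_lit 0) (nat_lit 0) (XT.lf (nat_lit 0) (nat_lit 147652084967) (nat_lit 152) (nat_lit 388363702853) (nat_lit 0) (nat_lit 143362613457) (nat_lit 1) (nat_lit 5) (nat_lit 3) (nat_lit 4) (nat_lit 1) (nat_lit 4) (nat_lit 541) (nat_lit 376) (nat_lit 283)) (XT.nd (nat_lit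 78) (nat_lit 0) (nat_lit 0) (XT.lf (nat_lit 0) (nat_lit 162082626700) (nat_lit 152) (nat_lit 393110399849) (nat_lit 0) (nat_lit 157790945905) (nat_lit 1) (nat_lit 5) (nat_lit 3) (nat_lit 4) (nat_lit 1) (nat_lit 4) (nat_lit 542) (nat_lit 376) (nat_lit 282)) (XT.lf (nat_lit 0) (nat_lit 177227616379) (nat_lit 152) (nat_lit 398108728376) (nat_lit 0) (nat_lit 172933831502) (nat_lit 1) (nat_lit 5) (nat_lit 3) (nat_lit 4) (nat_lit 1) (nat_lit 4) (nat_lit 543) (nat_lit 376) (nat_lit 281)))) (XT.nd (nat_lit 54834) (nat_lit 0) (nat_lit 3116) (XT.nd (nat_lit 78) (nat_lit 0) (nat_lit 0) (XT.lf (nat_lit 0) (nat_lit 193123113501) (nat_lit 152) (nat_lit 403370589216) (nat_lit 0) (nat_lit 188827324738) (nat_lit 1) (nat_lit 5) (nat_lit 3) (nat_lit 4) (nat_lit 1) (nat_lit 4) (nat_lit 544) (nat_lit 376) (nat_lit 280)) (XT.lf (nat_lit 0) (nat_lit 209806964490) (nat_lit 152) (nat_lit 408908510609) (nat_lit 0) (nat_lit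 205509267263) (nat_lit 1) (nat_lit 5) (nat_lit 3) (nat_lit 4) (nat_lit 1) (nat_lit 4) (nat_lit 545) (nat_lit 376) (nat_lit 279))) (XT.nd (nat_lit 78) (nat_lit 76) (nat_lit 0) (XT.lf (nat_lit 0) (nat_lit 912298260) (nat_lit 152) (nat_lit 2862616695) (nat_lit 152) (nat_lit 2862616695) (nat_lit 43) (nat_lit 4) (nat_lit 45) (nat_lit 5) (nat_lit 45) (nat_lit 4) (nat_lit 446) (nat_lit 377) (nat_lit 377)) (XT.lf (nat_lit 0) (nat_lit 26985495) (nat_lit 228) (nat_lit 373915689) (nat_lit 76) (nat_lit 13228199257) (nat_lit 42) (nat_lit 5) (nat_lit 45) (nat_lit 5) (nat_lit 43) (nat_lit 4) (nat_lit 447) (nat_lit 377) (nat_lit 376)))))) (XT.nd (nat_lit 546) (nat_lit 608) (nat_lit 0) (XT.nd (nat_lit 234) (nat_lit 304) (nat_lit 0) (XT.nd (nat_lit 78) (nat_lit 304) (nat_lit 0) (XT.lf (nat_lit 0) (nat_lit 5933585387) (nat_lit 152) (nat_lit 2924163145) (nat_lit 0) (nat_lit 5135459576) (nat_lit 41) (nat_lit 5)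 (nat_lit 43) (nat_lit 4) (nat_lit 41) (nat_lit 4) (nat_lit 448) (nat_lit 377) (nat_lit 375)) (XT.nd (nat_lit 78) (nat_lit 152) (nat_lit 0) (XT.lf (nat_lit 0) (nat_lit 8626404521) (nat_lit 152) (nat_lit 3460247529) (nat_lit 152) (nat_lit 2291331561) (nat_lit 39) (nat_lit 4) (nat_lit 41) (nat_lit 5) (nat_lit 41) (nat_lit 4) (nat_lit 449) (nat_lit 377) (nat_lit 374)) (XT.lf (nat_lit 0) (nat_lit 3625459548) (nat_lit 152) (nat_lit 8978697753) (nat_lit 0) (nat_lit 2175888643) (nat_lit 37) (nat_lit 5) (nat_lit 39) (nat_lit 4) (nat_lit 37) (nat_lit 4) (nat_lit 450) (nat_lit 377) (nat_lit 373)))) (XT.nd (nat_lit 156) (nat_lit 152) (nat_lit 0) (XT.nd (nat_lit 78) (nat_lit 76) (nat_lit 0) (XT.lf (nat_lit 0) (nat_lit 2553422931) (nat_lit 76) (nat_lit 7208382217) (nat_lit 76) (nat_lit 5438508834) (nat_lit 36) (nat_lit 4) (nat_lit 37) (nat_lit 5) (nat_lit 37) (nat_lit 4) (nat_lit 451) (nat_lit 377) (nat_lit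 372)) (XT.lf (nat_lit 0) (nat_lit 505514131) (nat_lit 152) (nat_lit 1038619392) (nat_lit 76) (nat_lit 14099028575) (nat_lit 35) (nat_lit 5) (nat_lit 37) (nat_lit 5) (nat_lit 36) (nat_lit 4) (nat_lit 452) (nat_lit 377) (nat_lit 371))) (XT.nd (nat_lit 78) (nat_lit 76) (nat_lit 0) (XT.lf (nat_lit 0) (nat_lit 6622079652) (nat_lit 152) (nat_lit 5109451183) (nat_lit 0) (nat_lit 4369272840) (nat_lit 34) (nat_lit 5) (nat_lit 36) (nat_lit 4) (nat_lit 34) (nat_lit 4) (nat_lit 453) (nat_lit 377) (nat_lit 370)) (XT.lf (nat_lit 0) (nat_lit 6923792828) (nat_lit 76) (nat_lit 6087757413) (nat_lit 76) (nat_lit 3571436960) (nat_lit 33) (nat_lit 4) (nat_lit 34) (nat_lit 5) (nat_lit 34) (nat_lit 4) (nat_lit 454) (nat_lit 377) (nat_lit 369))))) (XT.nd (nat_lit 234) (nat_lit 380) (nat_lit 0) (XT.nd (nat_lit 78) (nat_lit 76) (nat_lit 0) (XT.lf (nat_lit 0) (nat_lit 2332202419) (nat_lit 76) (nat_lit 155352822) (nat_lit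 152) (nat_lit 14602655264) (nat_lit 31) (nat_lit 5) (nat_lit 32) (nat_lit 5) (nat_lit 33) (nat_lit 4) (nat_lit 455) (nat_lit 377) (nat_lit 368)) (XT.nd (nat_lit 78) (nat_lit 76) (nat_lit 0) (XT.lf (nat_lit 0) (nat_lit 8807543630) (nat_lit 152) (nat_lit 2864031937) (nat_lit 0) (nat_lit 5944400328) (nat_lit 31) (nat_lit 5) (nat_lit 33) (nat_lit 4) (nat_lit 31) (nat_lit 4) (nat_lit 456) (nat_lit 377) (nat_lit 367)) (XT.lf (nat_lit 0) (nat_lit 9594047879) (nat_lit 76) (nat_lit 5827514029) (nat_lit 76) (nat_lit 2747577403) (nat_lit 30) (nat_lit 4) (nat_lit 31) (nat_lit 5) (nat_lit 31) (nat_lit 4) (nat_lit 457) (nat_lit 377) (nat_lit 366)))) (XT.nd (nat_lit 156) (nat_lit 228) (nat_lit 0) (XT.nd (nat_lit 78) (nat_lit 0) (nat_lit 0) (XT.lf (nat_lit 0) (nat_lit 3439514061) (nat_lit 152) (nat_lit 15001083944) (nat_lit 0) (nat_lit 309603147) (nat_lit 28) (nat_lit 5) (nat_lit 30) (nat_lit 4) (nat_lit 28)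 (nat_lit 4) (nat_lit 458) (nat_lit 377) (nat_lit 365)) (XT.lf (nat_lit 0) (nat_lit 9913435720) (nat_lit 152) (nat_lit 2844896802) (nat_lit 0) (nat_lit 6596250581) (nat_lit 28) (nat_lit 5) (nat_lit 30) (nat_lit 4) (nat_lit 28) (nat_lit 4) (nat_lit 459) (nat_lit 377) (nat_lit 364))) (XT.nd (nat_lit 78) (nat_lit 152) (nat_lit 0) (XT.lf (nat_lit 0) (nat_lit 9916361383) (nat_lit 76) (nat_lit 6784443022) (nat_lit 76) (nat_lit 3288901478) (nat_lit 27) (nat_lit 4) (nat_lit 28) (nat_lit 5) (nat_lit 28) (nat_lit 4) (nat_lit 460) (nat_lit 377) (nat_lit 363)) (XT.lf (nat_lit 0) (nat_lit 2468569552) (nat_lit 76) (nat_lit 523613052) (nat_lit 152) (nat_lit 17665799426) (nat_lit 25) (nat_lit 5) (nat_lit 26) (nat_lit 5) (nat_lit 27) (nat_lit 4) (nat_lit 461) (nat_lit 377) (nat_lit 362))))))) (XT.nd (nat_lit 1092) (nat_lit 456) (nat_lit 0) (XT.nd (nat_lit 546) (nat_lit 304) (nat_lit 0) (XT.nd (nat_lit 234) (nat_lit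 304) (nat_lit 0) (XT.nd (nat_lit 78) (nat_lit 152) (nat_lit 0) (XT.lf (nat_lit 0) (nat_lit 9580383562) (nat_lit 152) (nat_lit 5835970160) (nat_lit 0) (nat_lit 5935450891) (nat_lit 25) (nat_lit 5) (nat_lit 27) (nat_lit 4) (nat_lit 25) (nat_lit 4) (nat_lit 462) (nat_lit 377) (nat_lit 361)) (XT.nd (nat_lit 78) (nat_lit 76) (nat_lit 0) (XT.lf (nat_lit 0) (nat_lit 7046416915) (nat_lit 76) (nat_lit 9413734075) (nat_lit 76) (nat_lit 5622067148) (nat_lit 24) (nat_lit 4) (nat_lit 25) (nat_lit 5) (nat_lit 25) (nat_lit 4) (nat_lit 463) (nat_lit 377) (nat_lit 360)) (XT.lf (nat_lit 0) (nat_lit 752278268) (nat_lit 152) (nat_lit 2389243386) (nat_lit 76) (nat_lit 19709773909) (nat_lit 23) (nat_lit 5) (nat_lit 25) (nat_lit 5) (nat_lit 24) (nat_lit 4) (nat_lit 464) (nat_lit 377) (nat_lit 359)))) (XT.nd (nat_lit 156) (nat_lit 228) (nat_lit 0) (XT.nd (nat_lit 78) (nat_lit 0) (nat_lit 0) (XT.lf (nat_lit 0) (nat_lit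 7332919136) (nat_lit 152) (nat_lit 12855519326) (nat_lit 0) (nat_lit 3461960915) (nat_lit 22) (nat_lit 5) (nat_lit 24) (nat_lit 4) (nat_lit 22) (nat_lit 4) (nat_lit 465) (nat_lit 377) (nat_lit 358)) (XT.lf (nat_lit 0) (nat_lit 14186859274) (nat_lit 152) (nat_lit 110209611) (nat_lit 0) (nat_lit 10195182417) (nat_lit 22) (nat_lit 5) (nat_lit 24) (nat_lit 4) (nat_lit 22) (nat_lit 4) (nat_lit 466) (nat_lit 377) (nat_lit 357))) (XT.nd (nat_lit 78) (nat_lit 152) (nat_lit 0) (XT.lf (nat_lit 0) (nat_lit 13424146403) (nat_lit 76) (nat_lit 8027643848) (nat_lit 76) (nat_lit 3920996863) (nat_lit 21) (nat_lit 4) (nat_lit 22) (nat_lit 5) (nat_lit 22) (nat_lit 4) (nat_lit 467) (nat_lit 377) (nat_lit 356)) (XT.lf (nat_lit 0) (nat_lit 1053983844) (nat_lit 76) (nat_lit 1516809419) (nat_lit 152) (nat_lit 23730527838) (nat_lit 19) (nat_lit 5) (nat_lit 20) (nat_lit 5) (nat_lit 21) (nat_lit 4) (nat_lit 468) (nat_lit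 377) (nat_lit 355))))) (XT.nd (nat_lit 234) (nat_lit 228) (nat_lit 0) (XT.nd (nat_lit 78) (nat_lit 76) (nat_lit 0) (XT.lf (nat_lit 0) (nat_lit 9403354135) (nat_lit 152) (nat_lit 12573656313) (nat_lit 0) (nat_lit 5288664952) (nat_lit 19) (nat_lit 5) (nat_lit 21) (nat_lit 4) (nat_lit 19) (nat_lit 4) (nat_lit 469) (nat_lit 377) (nat_lit 354)) (XT.nd (nat_lit 78) (nat_lit 0) (nat_lit 0) (XT.lf (nat_lit 0) (nat_lit 458358536) (nat_lit 76) (nat_lit 16017135814) (nat_lit 76) (nat_lit 11807860421) (nat_lit 18) (nat_lit 4) (nat_lit 19) (nat_lit 5) (nat_lit 19) (nat_lit 4) (nat_lit 470) (nat_lit 377) (nat_lit 353)) (XT.lf (nat_lit 0) (nat_lit 14317625024) (nat_lit 76) (nat_lit 9664798097) (nat_lit 76) (nat_lit 5365440599) (nat_lit 18) (nat_lit 4) (nat_lit 19) (nat_lit 5) (nat_lit 19) (nat_lit 4) (nat_lit 471) (nat_lit 377) (nat_lit 352)))) (XT.nd (nat_lit 156) (nat_lit 76) (nat_lit 0) (XT.nd (nat_lit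 78) (nat_lit 76) (nat_lit 0) (XT.lf (nat_lit 0) (nat_lit 1226773662) (nat_lit 152) (nat_lit 1870263969) (nat_lit 76) (nat_lit 27373849873) (nat_lit 17) (nat_lit 5) (nat_lit 19) (nat_lit 5) (nat_lit 18) (nat_lit 4) (nat_lit 472) (nat_lit 377) (nat_lit 351)) (XT.lf (nat_lit 0) (nat_lit 8096184954) (nat_lit 152) (nat_lit 19701053323) (nat_lit 0) (nat_lit 3842035333) (nat_lit 16) (nat_lit 5) (nat_lit 18) (nat_lit 4) (nat_lit 16) (nat_lit 4) (nat_lit 473) (nat_lit 377) (nat_lit 350))) (XT.nd (nat_lit 78) (nat_lit 76) (nat_lit 0) (XT.lf (nat_lit 0) (nat_lit 15270813316) (nat_lit 152) (nat_lit 6654629309) (nat_lit 0) (nat_lit 10942552925) (nat_lit 16) (nat_lit 5) (nat_lit 18) (nat_lit 4) (nat_lit 16) (nat_lit 4) (nat_lit 474) (nat_lit 377) (nat_lit 349)) (XT.lf (nat_lit 0) (nat_lit 7040008006) (nat_lit 76) (nat_lit 15758633944) (nat_lit 76) (nat_lit 11359791868) (nat_lit 15) (nat_lit 4) (nat_lit 16)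 (nat_lit 5) (nat_lit 16) (nat_lit 4) (nat_lit 475) (nat_lit 377) (nat_lit 348)))))) (XT.nd (nat_lit 546) (nat_lit 228) (nat_lit 0) (XT.nd (nat_lit 234) (nat_lit 76) (nat_lit 0) (XT.nd (nat_lit 78) (nat_lit 152) (nat_lit 0) (XT.lf (nat_lit 0) (nat_lit 21424679287) (nat_lit 76) (nat_lit 9277409793) (nat_lit 76) (nat_lit 4811347063) (nat_lit 15) (nat_lit 4) (nat_lit 16) (nat_lit 5) (nat_lit 16) (nat_lit 4) (nat_lit 476) (nat_lit 377) (nat_lit 347)) (XT.nd (nat_lit 78) (nat_lit 76) (nat_lit 0) (XT.lf (nat_lit 0) (nat_lit 1888598743) (nat_lit 152) (nat_lit 658454975) (nat_lit 76) (nat_lit 34393018577) (nat_lit 14) (nat_lit 5) (nat_lit 16) (nat_lit 5) (nat_lit 15) (nat_lit 4) (nat_lit 477) (nat_lit 377) (nat_lit 346)) (XT.lf (nat_lit 0) (nat_lit 8943155391) (nat_lit 152) (nat_lit 24911155368) (nat_lit 0) (nat_lit 4570723473) (nat_lit 13) (nat_lit 5) (nat_lit 15) (nat_lit 4) (nat_lit 13) (nat_lit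 4) (nat_lit 478) (nat_lit 377) (nat_lit 345)))) (XT.nd (nat_lit 156) (nat_lit 0) (nat_lit 0) (XT.nd (nat_lit 78) (nat_lit 76) (nat_lit 0) (XT.lf (nat_lit 0) (nat_lit 16299106358) (nat_lit 152) (nat_lit 11816335618) (nat_lit 0) (nat_lit 11871371842) (nat_lit 13) (nat_lit 5) (nat_lit 15) (nat_lit 4) (nat_lit 13) (nat_lit 4) (nat_lit 479) (nat_lit 377) (nat_lit 344)) (XT.lf (nat_lit 0) (nat_lit 1792106976) (nat_lit 76) (nat_lit 22159277658) (nat_lit 76) (nat_lit 17678874001) (nat_lit 12) (nat_lit 4) (nat_lit 13) (nat_lit 5) (nat_lit 13) (nat_lit 4) (nat_lit 480) (nat_lit 377) (nat_lit 343))) (XT.nd (nat_lit 78) (nat_lit 0) (nat_lit 0) (XT.lf (nat_lit 0) (nat_lit 16295932670) (nat_lit 76) (nat_lit 15792696382) (nat_lit 76) (nat_lit 11262131639) (nat_lit 12) (nat_lit 4) (nat_lit 13) (nat_lit 5) (nat_lit 13) (nat_lit 4) (nat_lit 481) (nat_lit 377) (nat_lit 342)) (XT.lf (nat_lit 0) (nat_lit 31338972964)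 (nat_lit 76) (nat_lit 9200654983) (nat_lit 76) (nat_lit 4622317777) (nat_lit 12) (nat_lit 4) (nat_lit 13) (nat_lit 5) (nat_lit 13) (nat_lit 4) (nat_lit 482) (nat_lit 377) (nat_lit 341))))) (XT.nd (nat_lit 234) (nat_lit 76) (nat_lit 0) (XT.nd (nat_lit 78) (nat_lit 76) (nat_lit 0) (XT.lf (nat_lit 0) (nat_lit 2184158521) (nat_lit 152) (nat_lit 146309821) (nat_lit 76) (nat_lit 44735896317) (nat_lit 11) (nat_lit 5) (nat_lit 13) (nat_lit 5) (nat_lit 12) (nat_lit 4) (nat_lit 483) (nat_lit 377) (nat_lit 340)) (XT.nd (nat_lit 78) (nat_lit 0) (nat_lit 0) (XT.lf (nat_lit 0) (nat_lit 9394890908) (nat_lit 152) (nat_lit 34706392295) (nat_lit 0) (nat_lit 4949971077) (nat_lit 10) (nat_lit 5) (nat_lit 12) (nat_lit 4) (nat_lit 10) (nat_lit 4) (nat_lit 484) (nat_lit 377) (nat_lit 339)) (XT.lf (nat_lit 0) (nat_lit 16921180044) (nat_lit 152) (nat_lit 21779501688) (nat_lit 0) (nat_lit 12436957689) (nat_lit 10) (nat_lit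 5) (nat_lit 12) (nat_lit 4) (nat_lit 10) (nat_lit 4) (nat_lit 485) (nat_lit 377) (nat_lit 338)))) (XT.nd (nat_lit 156) (nat_lit 0) (nat_lit 0) (XT.nd (nat_lit 78) (nat_lit 76) (nat_lit 0) (XT.lf (nat_lit 0) (nat_lit 24742162000) (nat_lit 152) (nat_lit 8369756178) (nat_lit 0) (nat_lit 20220508670) (nat_lit 10) (nat_lit 5) (nat_lit 12) (nat_lit 4) (nat_lit 10) (nat_lit 4) (nat_lit 486) (nat_lit 377) (nat_lit 337)) (XT.lf (nat_lit 0) (nat_lit 5738438056) (nat_lit 76) (nat_lit 27227613206) (nat_lit 76) (nat_lit 22670311329) (nat_lit 9) (nat_lit 4) (nat_lit 10) (nat_lit 5) (nat_lit 10) (nat_lit 4) (nat_lit 487) (nat_lit 377) (nat_lit 336))) (XT.nd (nat_lit 78) (nat_lit 0) (nat_lit 0) (XT.lf (nat_lit 0) (nat_lit 20689427992) (nat_lit 76) (nat_lit 20977027863) (nat_lit 76) (nat_lit 16385774988) (nat_lit 9) (nat_lit 4) (nat_lit 10) (nat_lit 5) (nat_lit 10) (nat_lit 4) (nat_lit 488) (nat_lit 377) (nat_lit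 335)) (XT.lf (nat_lit 0) (nat_lit 36242069287) (nat_lit 76) (nat_lit 14487025675) (nat_lit 76) (nat_lit 9863438516) (nat_lit 9) (nat_lit 4) (nat_lit 10) (nat_lit 5) (nat_lit 10) (nat_lit 4) (nat_lit 489) (nat_lit 377) (nat_lit 334))))))))
noncomputable def xc45 : XT := (XT.nd (nat_lit 2184) (nat_lit 152) (nat_lit 0) (XT.nd (nat_lit 1092) (nat_lit 76) (nat_lit 0) (XT.nd (nat_lit 546) (nat_lit 152) (nat_lit 0) (XT.nd (nat_lit 234) (nat_lit 76) (nat_lit 0) (XT.nd (nat_lit 78) (nat_lit 152) (nat_lit 0) (XT.lf (nat_lit 0) (nat_lit 52433392039) (nat_lit 76) (nat_lit 7742154253) (nat_lit 76) (nat_lit 3087772539) (nat_lit 9) (nat_lit 4) (nat_lit 10) (nat_lit 5) (nat_lit 10) (nat_lit 4) (nat_lit 490) (nat_lit 377) (nat_lit 333)) (XT.nd (nat_lit 78) (nat_lit 0) (nat_lit 0) (XT.lf (nat_lit 0) (nat_lit 3274004270) (nat_lit 76) (nat_lit 607807501) (nat_lit 152) (nat_lit 62183489058) (nat_lit 7) (nat_lit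 5) (nat_lit 8) (nat_lit 5) (nat_lit 9) (nat_lit 4) (nat_lit 491) (nat_lit 377) (nat_lit 332)) (XT.lf (nat_lit 0) (nat_lit 11322978683) (nat_lit 152) (nat_lit 50834828901) (nat_lit 0) (nat_lit 6835701128) (nat_lit 7) (nat_lit 5) (nat_lit 9) (nat_lit 4) (nat_lit 7) (nat_lit 4) (nat_lit 492) (nat_lit 377) (nat_lit 331)))) (XT.nd (nat_lit 156) (nat_lit 76) (nat_lit 0) (XT.nd (nat_lit 78) (nat_lit 0) (nat_lit 0) (XT.lf (nat_lit 0) (nat_lit 19082348083) (nat_lit 152) (nat_lit 38418737245) (nat_lit 0) (nat_lit 14569735770) (nat_lit 7) (nat_lit 5) (nat_lit 9) (nat_lit 4) (nat_lit 7) (nat_lit 4) (nat_lit 493) (nat_lit 377) (nat_lit 330)) (XT.lf (nat_lit 0) (nat_lit 27168905082) (nat_lit 152) (nat_lit 25503969892) (nat_lit 0) (nat_lit 22632164429) (nat_lit 7) (nat_lit 5) (nat_lit 9) (nat_lit 4) (nat_lit 7) (nat_lit 4) (nat_lit 494) (nat_lit 377) (nat_lit 329))) (XT.nd (nat_lit 78) (nat_lit 76) (nat_lit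 0) (XT.lf (nat_lit 0) (nat_lit 35601903387) (nat_lit 152) (nat_lit 12059777395) (nat_lit 0) (nat_lit 31042183363) (nat_lit 7) (nat_lit 5) (nat_lit 9) (nat_lit 4) (nat_lit 7) (nat_lit 4) (nat_lit 495) (nat_lit 377) (nat_lit 328)) (XT.lf (nat_lit 0) (nat_lit 2010188823) (nat_lit 76) (nat_lit 42422617425) (nat_lit 76) (nat_lit 37841012285) (nat_lit 6) (nat_lit 4) (nat_lit 7) (nat_lit 5) (nat_lit 7) (nat_lit 4) (nat_lit 496) (nat_lit 377) (nat_lit 327))))) (XT.nd (nat_lit 234) (nat_lit 152) (nat_lit 0) (XT.nd (nat_lit 78) (nat_lit 0) (nat_lit 0) (XT.lf (nat_lit 0) (nat_lit 17093353778) (nat_lit 76) (nat_lit 36761932232) (nat_lit 76) (nat_lit 32159484125) (nat_lit 6) (nat_lit 4) (nat_lit 7) (nat_lit 5) (nat_lit 7) (nat_lit 4) (nat_lit 497) (nat_lit 377) (nat_lit 326)) (XT.nd (nat_lit 78) (nat_lit 0) (nat_lit 0) (XT.lf (nat_lit 0) (nat_lit 32826879064) (nat_lit 76) (nat_lit 30870385548) (nat_lit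 76) (nat_lit 26248086996) (nat_lit 6) (nat_lit 4) (nat_lit 7) (nat_lit 5) (nat_lit 7) (nat_lit 4) (nat_lit 498) (nat_lit 377) (nat_lit 325)) (XT.lf (nat_lit 0) (nat_lit 49248225454) (nat_lit 76) (nat_lit 24733949882) (nat_lit 76) (nat_lit 20092746143) (nat_lit 6) (nat_lit 4) (nat_lit 7) (nat_lit 5) (nat_lit 7) (nat_lit 4) (nat_lit 499) (nat_lit 377) (nat_lit 324)))) (XT.nd (nat_lit 156) (nat_lit 152) (nat_lit 0) (XT.nd (nat_lit 78) (nat_lit 0) (nat_lit 0) (XT.lf (nat_lit 0) (nat_lit 66396491392) (nat_lit 76) (nat_lit 18338014671) (nat_lit 76) (nat_lit 13678805993) (nat_lit 6) (nat_lit 4) (nat_lit 7) (nat_lit 5) (nat_lit 7) (nat_lit 4) (nat_lit 500) (nat_lit 377) (nat_lit 323)) (XT.lf (nat_lit 0) (nat_lit 84312506083) (nat_lit 76) (nat_lit 11667351499) (nat_lit 76) (nat_lit 6990995260) (nat_lit 6) (nat_lit 4) (nat_lit 7) (nat_lit 5) (nat_lit 7) (nat_lit 4) (nat_lit 501) (nat_lit 377) (nat_lit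 322))) (XT.nd (nat_lit 78) (nat_lit 152) (nat_lit 0) (XT.lf (nat_lit 0) (nat_lit 103038926705) (nat_lit 76) (nat_lit 4706077834) (nat_lit 76) (nat_lit 13390585) (nat_lit 6) (nat_lit 4) (nat_lit 7) (nat_lit 5) (nat_lit 7) (nat_lit 4) (nat_lit 502) (nat_lit 377) (nat_lit 321)) (XT.lf (nat_lit 0) (nat_lit 7239118788) (nat_lit 152) (nat_lit 102777403021) (nat_lit 0) (nat_lit 2755080129) (nat_lit 4) (nat_lit 5) (nat_lit 6) (nat_lit 4) (nat_lit 4) (nat_lit 4) (nat_lit 503) (nat_lit 377) (nat_lit 320)))))) (XT.nd (nat_lit 546) (nat_lit 76) (nat_lit 0) (XT.nd (nat_lit 234) (nat_lit 0) (nat_lit 0) (XT.nd (nat_lit 78) (nat_lit 0) (nat_lit 0) (XT.lf (nat_lit 0) (nat_lit 14971124235) (nat_lit 152) (nat_lit 92585490350) (nat_lit 0) (nat_lit 10472978235) (nat_lit 4) (nat_lit 5) (nat_lit 6) (nat_lit 4) (nat_lit 4) (nat_lit 4) (nat_lit 504) (nat_lit 377) (nat_lit 319)) (XT.nd (nat_lit 78) (nat_lit 0) (nat_lit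 0) (XT.lf (nat_lit 0) (nat_lit 23050620476) (nat_lit 152) (nat_lit 81962780030) (nat_lit 0) (nat_lit 18539038913) (nat_lit 4) (nat_lit 5) (nat_lit 6) (nat_lit 4) (nat_lit 4) (nat_lit 4) (nat_lit 505) (nat_lit 377) (nat_lit 318)) (XT.lf (nat_lit 0) (nat_lit 31496844406) (nat_lit 152) (nat_lit 70883979894) (nat_lit 0) (nat_lit 26972467069) (nat_lit 4) (nat_lit 5) (nat_lit 6) (nat_lit 4) (nat_lit 4) (nat_lit 4) (nat_lit 506) (nat_lit 377) (nat_lit 317)))) (XT.nd (nat_lit 156) (nat_lit 0) (nat_lit 0) (XT.nd (nat_lit 78) (nat_lit 0) (nat_lit 0) (XT.lf (nat_lit 0) (nat_lit 40329906083) (nat_lit 152) (nat_lit 59322711847) (nat_lit 0) (nat_lit 35793342295) (nat_lit 4) (nat_lit 5) (nat_lit 6) (nat_lit 4) (nat_lit 4) (nat_lit 4) (nat_lit 507) (nat_lit 377) (nat_lit 316)) (XT.lf (nat_lit 0) (nat_lit 49570836606) (nat_lit 152) (nat_lit 47251449058) (nat_lit 0) (nat_lit 45022666674) (nat_lit 4) (nat_lit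 5) (nat_lit 6) (nat_lit 4) (nat_lit 4) (nat_lit 4) (nat_lit 508) (nat_lit 377) (nat_lit 315))) (XT.nd (nat_lit 78) (nat_lit 0) (nat_lit 0) (XT.lf (nat_lit 0) (nat_lit 59241638191) (nat_lit 152) (nat_lit 34641450428) (nat_lit 0) (nat_lit 54682414788) (nat_lit 4) (nat_lit 5) (nat_lit 6) (nat_lit 4) (nat_lit 4) (nat_lit 4) (nat_lit 509) (nat_lit 377) (nat_lit 314)) (XT.lf (nat_lit 0) (nat_lit 69365336555) (nat_lit 152) (nat_lit 21462692149) (nat_lit 0) (nat_lit 64795586037) (nat_lit 4) (nat_lit 5) (nat_lit 6) (nat_lit 4) (nat_lit 4) (nat_lit 4) (nat_lit 510) (nat_lit 377) (nat_lit 313))))) (XT.nd (nat_lit 234) (nat_lit 0) (nat_lit 0) (XT.nd (nat_lit 78) (nat_lit 76) (nat_lit 0) (XT.lf (nat_lit 0) (nat_lit 79966035742) (nat_lit 152) (nat_lit 7683796225) (nat_lit 0) (nat_lit 75386259400) (nat_lit 4) (nat_lit 5) (nat_lit 6) (nat_lit 4) (nat_lit 4) (nat_lit 4) (nat_lit 511) (nat_lit 377) (nat_lit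 312)) (XT.nd (nat_lit 78) (nat_lit 0) (nat_lit 0) (XT.lf (nat_lit 0) (nat_lit 6950503765) (nat_lit 76) (nat_lit 84226988590) (nat_lit 76) (nat_lit 79637663845) (nat_lit 3) (nat_lit 4) (nat_lit 4) (nat_lit 5) (nat_lit 4) (nat_lit 4) (nat_lit 512) (nat_lit 377) (nat_lit 311)) (XT.lf (nat_lit 0) (nat_lit 22528185782) (nat_lit 76) (nat_lit 80524133769) (nat_lit 76) (nat_lit 75925715306) (nat_lit 3) (nat_lit 4) (nat_lit 4) (nat_lit 5) (nat_lit 4) (nat_lit 4) (nat_lit 513) (nat_lit 377) (nat_lit 310)))) (XT.nd (nat_lit 156) (nat_lit 0) (nat_lit 0) (XT.nd (nat_lit 78) (nat_lit 0) (nat_lit 0) (XT.lf (nat_lit 0) (nat_lit 38832278542) (nat_lit 76) (nat_lit 76662579992) (nat_lit 76) (nat_lit 72055500845) (nat_lit 3) (nat_lit 4) (nat_lit 4) (nat_lit 5) (nat_lit 4) (nat_lit 4) (nat_lit 514) (nat_lit 377) (nat_lit 309)) (XT.lf (nat_lit 0) (nat_lit 55901601313) (nat_lit 76) (nat_lit 72633133081) (nat_lit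 76) (nat_lit 68017805665) (nat_lit 3) (nat_lit 4) (nat_lit 4) (nat_lit 5) (nat_lit 4) (nat_lit 4) (nat_lit 515) (nat_lit 377) (nat_lit 308))) (XT.nd (nat_lit 78) (nat_lit 0) (nat_lit 0) (XT.lf (nat_lit 0) (nat_lit 73776795338) (nat_lit 76) (nat_lit 68426199117) (nat_lit 76) (nat_lit 63803016205) (nat_lit 3) (nat_lit 4) (nat_lit 4) (nat_lit 5) (nat_lit 4) (nat_lit 4) (nat_lit 516) (nat_lit 377) (nat_lit 307)) (XT.lf (nat_lit 0) (nat_lit 92500420605) (nat_lit 76) (nat_lit 64031761590) (nat_lit 76) (nat_lit 59401097254) (nat_lit 3) (nat_lit 4) (nat_lit 4) (nat_lit 5) (nat_lit 4) (nat_lit 4) (nat_lit 517) (nat_lit 377) (nat_lit 306))))))) (XT.nd (nat_lit 1092) (nat_lit 0) (nat_lit 0) (XT.nd (nat_lit 546) (nat_lit 152) (nat_lit 0) (XT.nd (nat_lit 234) (nat_lit 0) (nat_lit 0) (XT.nd (nat_lit 78) (nat_lit 0) (nat_lit 0) (XT.lf (nat_lit 0) (nat_lit 112117057173) (nat_lit 76) (nat_lit 59439357552) (nat_lit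 76) (nat_lit 54801568051) (nat_lit 3) (nat_lit 4) (nat_lit 4) (nat_lit 5) (nat_lit 4) (nat_lit 4) (nat_lit 518) (nat_lit 377) (nat_lit 305)) (XT.nd (nat_lit 78) (nat_lit 0) (nat_lit 0) (XT.lf (nat_lit 0) (nat_lit 132673411320) (nat_lit 76) (nat_lit 54638052710) (nat_lit 76) (nat_lit 49993477336) (nat_lit 3) (nat_lit 4) (nat_lit 4) (nat_lit 5) (nat_lit 4) (nat_lit 4) (nat_lit 519) (nat_lit 377) (nat_lit 304)) (XT.lf (nat_lit 0) (nat_lit 154218426746) (nat_lit 76) (nat_lit 49616415384) (nat_lit 76) (nat_lit 44965377275) (nat_lit 3) (nat_lit 4) (nat_lit 4) (nat_lit 5) (nat_lit 4) (nat_lit 4) (nat_lit 520) (nat_lit 377) (nat_lit 303)))) (XT.nd (nat_lit 156) (nat_lit 0) (nat_lit 0) (XT.nd (nat_lit 78) (nat_lit 0) (nat_lit 0) (XT.lf (nat_lit 0) (nat_lit 176803401107) (nat_lit 76) (nat_lit 44362489296) (nat_lit 76) (nat_lit 39705296201) (nat_lit 3) (nat_lit 4) (nat_lit 4) (nat_lit 5) (nat_lit 4) (nat_lit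 4) (nat_lit 521) (nat_lit 377) (nat_lit 302)) (XT.lf (nat_lit 0) (nat_lit 200482108151) (nat_lit 76) (nat_lit 38863765097) (nat_lit 76) (nat_lit 34200710110) (nat_lit 3) (nat_lit 4) (nat_lit 4) (nat_lit 5) (nat_lit 4) (nat_lit 4) (nat_lit 522) (nat_lit 377) (nat_lit 301))) (XT.nd (nat_lit 78) (nat_lit 0) (nat_lit 0) (XT.lf (nat_lit 0) (nat_lit 225310925753) (nat_lit 76) (nat_lit 33107150587) (nat_lit 76) (nat_lit 28438512846) (nat_lit 3) (nat_lit 4) (nat_lit 4) (nat_lit 5) (nat_lit 4) (nat_lit 4) (nat_lit 523) (nat_lit 377) (nat_lit 300)) (XT.lf (nat_lit 0) (nat_lit 251348970144) (nat_lit 76) (nat_lit 27078939541) (nat_lit 76) (nat_lit 22404984892) (nat_lit 3) (nat_lit 4) (nat_lit 4) (nat_lit 5) (nat_lit 4) (nat_lit 4) (nat_lit 524) (nat_lit 377) (nat_lit 299))))) (XT.nd (nat_lit 234) (nat_lit 152) (nat_lit 0) (XT.nd (nat_lit 78) (nat_lit 0) (nat_lit 0) (XT.lf (nat_lit 0) (nat_lit 278658236668)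 (nat_lit 76) (nat_lit 20764779075) (nat_lit 76) (nat_lit 16085760704) (nat_lit 3) (nat_lit 4) (nat_lit 4) (nat_lit 5) (nat_lit 4) (nat_lit 4) (nat_lit 525) (nat_lit 377) (nat_lit 298)) (XT.nd (nat_lit 78) (nat_lit 0) (nat_lit 0) (XT.lf (nat_lit 0) (nat_lit 307303747390) (nat_lit 76) (nat_lit 14149635475) (nat_lit 76) (nat_lit 9465794511) (nat_lit 3) (nat_lit 4) (nat_lit 4) (nat_lit 5) (nat_lit 4) (nat_lit 4) (nat_lit 526) (nat_lit 377) (nat_lit 297)) (XT.lf (nat_lit 0) (nat_lit 337353705905) (nat_lit 76) (nat_lit 7217758398) (nat_lit 76) (nat_lit 2529324489) (nat_lit 3) (nat_lit 4) (nat_lit 4) (nat_lit 5) (nat_lit 4) (nat_lit 4) (nat_lit 527) (nat_lit 377) (nat_lit 296)))) (XT.nd (nat_lit 156) (nat_lit 0) (nat_lit 0) (XT.nd (nat_lit 78) (nat_lit 0) (nat_lit 0) (XT.lf (nat_lit 0) (nat_lit 4667673218) (nat_lit 152) (nat_lit 359218471463) (nat_lit 0) (nat_lit 198332130) (nat_lit 1) (nat_lit 5)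 (nat_lit 3) (nat_lit 4) (nat_lit 1) (nat_lit 4) (nat_lit 528) (nat_lit 377) (nat_lit 295)) (XT.lf (nat_lit 0) (nat_lit 12412271710) (nat_lit 152) (nat_lit 361550403808) (nat_lit 0) (nat_lit 7938963063) (nat_lit 1) (nat_lit 5) (nat_lit 3) (nat_lit 4) (nat_lit 1) (nat_lit 4) (nat_lit 529) (nat_lit 377) (nat_lit 294))) (XT.nd (nat_lit 78) (nat_lit 0) (nat_lit 0) (XT.lf (nat_lit 0) (nat_lit 20531387006) (nat_lit 152) (nat_lit 364024607557) (nat_lit 0) (nat_lit 16054299732) (nat_lit 1) (nat_lit 5) (nat_lit 3) (nat_lit 4) (nat_lit 1) (nat_lit 4) (nat_lit 530) (nat_lit 377) (nat_lit 293)) (XT.lf (nat_lit 0) (nat_lit 29044350332) (nat_lit 152) (nat_lit 366646973669) (nat_lit 0) (nat_lit 24563664365) (nat_lit 1) (nat_lit 5) (nat_lit 3) (nat_lit 4) (nat_lit 1) (nat_lit 4) (nat_lit 531) (nat_lit 377) (nat_lit 292)))))) (XT.nd (nat_lit 546) (nat_lit 0) (nat_lit 0) (XT.nd (nat_lit 234) (nat_lit 0) (nat_lit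 0) (XT.nd (nat_lit 78) (nat_lit 0) (nat_lit 0) (XT.lf (nat_lit 0) (nat_lit 37971430649) (nat_lit 152) (nat_lit 369423745874) (nat_lit 0) (nat_lit 33487317355) (nat_lit 1) (nat_lit 5) (nat_lit 3) (nat_lit 4) (nat_lit 1) (nat_lit 4) (nat_lit 532) (nat_lit 377) (nat_lit 291)) (XT.nd (nat_lit 78) (nat_lit 0) (nat_lit 0) (XT.lf (nat_lit 0) (nat_lit 47333882910) (nat_lit 152) (nat_lit 372361535535) (nat_lit 0) (nat_lit 42846505496) (nat_lit 1) (nat_lit 5) (nat_lit 3) (nat_lit 4) (nat_lit 1) (nat_lit 4) (nat_lit 533) (nat_lit 377) (nat_lit 290)) (XT.lf (nat_lit 0) (nat_lit 57153998668) (nat_lit 152) (nat_lit 375467337388) (nat_lit 0) (nat_lit 52663512567) (nat_lit 1) (nat_lit 5) (nat_lit 3) (nat_lit 4) (nat_lit 1) (nat_lit 4) (nat_lit 534) (nat_lit 377) (nat_lit 289)))) (XT.nd (nat_lit 156) (nat_lit 0) (nat_lit 0) (XT.nd (nat_lit 78) (nat_lit 0) (nat_lit 0) (XT.lf (nat_lit 0) (nat_lit 67455159150)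 (nat_lit 152) (nat_lit 378748546200) (nat_lit 0) (nat_lit 62961712396) (nat_lit 1) (nat_lit 5) (nat_lit 3) (nat_lit 4) (nat_lit 1) (nat_lit 4) (nat_lit 535) (nat_lit 377) (nat_lit 288)) (XT.lf (nat_lit 0) (nat_lit 78261890930) (nat_lit 152) (nat_lit 382212974373) (nat_lit 0) (nat_lit 73765624506) (nat_lit 1) (nat_lit 5) (nat_lit 3) (nat_lit 4) (nat_lit 1) (nat_lit 4) (nat_lit 536) (nat_lit 377) (nat_lit 287))) (XT.nd (nat_lit 78) (nat_lit 0) (nat_lit 0) (XT.lf (nat_lit 0) (nat_lit 89599924322) (nat_lit 152) (nat_lit 385868870545) (nat_lit 0) (nat_lit 85100972497) (nat_lit 1) (nat_lit 5) (nat_lit 3) (nat_lit 4) (nat_lit 1) (nat_lit 4) (nat_lit 537) (nat_lit 377) (nat_lit 286)) (XT.lf (nat_lit 0) (nat_lit 101496254642) (nat_lit 152) (nat_lit 389724939231) (nat_lit 0) (nat_lit 96994745293) (nat_lit 1) (nat_lit 5) (nat_lit 3) (nat_lit 4) (nat_lit 1) (nat_lit 4) (nat_lit 538) (nat_lit 377) (nat_lit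 285))))) (XT.nd (nat_lit 312) (nat_lit 0) (nat_lit 0) (XT.nd (nat_lit 156) (nat_lit 0) (nat_lit 0) (XT.nd (nat_lit 78) (nat_lit 0) (nat_lit 0) (XT.lf (nat_lit 0) (nat_lit 113979206486) (nat_lit 152) (nat_lit 393790361547) (nat_lit 0) (nat_lit 109475261401) (nat_lit 1) (nat_lit 5) (nat_lit 3) (nat_lit 4) (nat_lit 1) (nat_lit 4) (nat_lit 539) (nat_lit 377) (nat_lit 284)) (XT.lf (nat_lit 0) (nat_lit 127078501170) (nat_lit 152) (nat_lit 398074817071) (nat_lit 0) (nat_lit 122572236335) (nat_lit 1) (nat_lit 5) (nat_lit 3) (nat_lit 4) (nat_lit 1) (nat_lit 4) (nat_lit 540) (nat_lit 377) (nat_lit 283))) (XT.nd (nat_lit 78) (nat_lit 0) (nat_lit 0) (XT.lf (nat_lit 0) (nat_lit 140825327489) (nat_lit 152) (nat_lit 402588506885) (nat_lit 0) (nat_lit 136316853369) (nat_lit 1) (nat_lit 5) (nat_lit 3) (nat_lit 4) (nat_lit 1) (nat_lit 4) (nat_lit 541) (nat_lit 377) (nat_lit 282)) (XT.lf (nat_lit 0) (nat_lit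 155252415982) (nat_lit 152) (nat_lit 407342177872) (nat_lit 0) (nat_lit 150741837781) (nat_lit 1) (nat_lit 5) (nat_lit 3) (nat_lit 4) (nat_lit 1) (nat_lit 4) (nat_lit 542) (nat_lit 377) (nat_lit 281)))) (XT.nd (nat_lit 156) (nat_lit 0) (nat_lit 0) (XT.nd (nat_lit 78) (nat_lit 0) (nat_lit 0) (XT.lf (nat_lit 0) (nat_lit 170394116861) (nat_lit 152) (nat_lit 412347148295) (nat_lit 0) (nat_lit 165881534773) (nat_lit 1) (nat_lit 5) (nat_lit 3) (nat_lit 4) (nat_lit 1) (nat_lit 4) (nat_lit 543) (nat_lit 377) (nat_lit 280)) (XT.lf (nat_lit 0) (nat_lit 186286481794) (nat_lit 152) (nat_lit 417615334750) (nat_lit 0) (nat_lit 181771991242) (nat_lit 1) (nat_lit 5) (nat_lit 3) (nat_lit 4) (nat_lit 1) (nat_lit 4) (nat_lit 544) (nat_lit 377) (nat_lit 279))) (XT.nd (nat_lit 54600) (nat_lit 0) (nat_lit 3496) (XT.lf (nat_lit 0) (nat_lit 202967349744) (nat_lit 152) (nat_lit 423159280539) (nat_lit 0) (nat_lit 198451041608)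 (nat_lit 1) (nat_lit 5) (nat_lit 3) (nat_lit 4) (nat_lit 1) (nat_lit 4) (nat_lit 545) (nat_lit 377) (nat_lit 278)) (XT.lf (nat_lit 0) (nat_lit 2845890048) (nat_lit 152) (nat_lit 1730511250) (nat_lit 152) (nat_lit 1730511250) (nat_lit 47) (nat_lit 4) (nat_lit 49) (nat_lit 5) (nat_lit 49) (nat_lit 4) (nat_lit 444) (nat_lit 378) (nat_lit 378))))))))
noncomputable def xc46 : XT := (XT.nd (nat_lit 2184) (nat_lit 912) (nat_lit 0) (XT.nd (nat_lit 1092) (nat_lit 760) (nat_lit 0) (XT.nd (nat_lit 546) (nat_lit 608) (nat_lit 0) (XT.nd (nat_lit 234) (nat_lit 456) (nat_lit 0) (XT.nd (nat_lit 78) (nat_lit 228) (nat_lit 0) (XT.lf (nat_lit 0) (nat_lit 2136615264) (nat_lit 152) (nat_lit 9117730838) (nat_lit 0) (nat_lit 1685917512) (nat_lit 45) (nat_lit 5) (nat_lit 47) (nat_lit 4) (nat_lit 45) (nat_lit 4) (nat_lit 445) (nat_lit 378) (nat_lit 377)) (XT.nd (nat_lit 78) (nat_lit 76) (nat_lit 0) (XT.lf (nat_lit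 0) (nat_lit 1641696272) (nat_lit 152) (nat_lit 6259147902) (nat_lit 152) (nat_lit 5379214195) (nat_lit 43) (nat_lit 4) (nat_lit 45) (nat_lit 5) (nat_lit 45) (nat_lit 4) (nat_lit 446) (nat_lit 378) (nat_lit 376)) (XT.lf (nat_lit 0) (nat_lit 265426876) (nat_lit 228) (nat_lit 744604756) (nat_lit 76) (nat_lit 12628628793) (nat_lit 42) (nat_lit 5) (nat_lit 45) (nat_lit 5) (nat_lit 43) (nat_lit 4) (nat_lit 447) (nat_lit 378) (nat_lit 375)))) (XT.nd (nat_lit 156) (nat_lit 228) (nat_lit 0) (XT.nd (nat_lit 78) (nat_lit 152) (nat_lit 0) (XT.lf (nat_lit 0) (nat_lit 6060559676) (nat_lit 152) (nat_lit 3485383429) (nat_lit 0) (nat_lit 4462407754) (nat_lit 41) (nat_lit 5) (nat_lit 43) (nat_lit 4) (nat_lit 41) (nat_lit 4) (nat_lit 448) (nat_lit 378) (nat_lit 374)) (XT.lf (nat_lit 0) (nat_lit 7871475233) (nat_lit 152) (nat_lit 4239050270) (nat_lit 152) (nat_lit 2287764865) (nat_lit 39) (nat_lit 4) (nat_lit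 41) (nat_lit 5) (nat_lit 41) (nat_lit 4) (nat_lit 449) (nat_lit 378) (nat_lit 373))) (XT.nd (nat_lit 78) (nat_lit 76) (nat_lit 0) (XT.lf (nat_lit 0) (nat_lit 3508982861) (nat_lit 152) (nat_lit 9967058314) (nat_lit 0) (nat_lit 1330313331) (nat_lit 37) (nat_lit 5) (nat_lit 39) (nat_lit 4) (nat_lit 37) (nat_lit 4) (nat_lit 450) (nat_lit 378) (nat_lit 372)) (XT.lf (nat_lit 0) (nat_lit 1356399327) (nat_lit 76) (nat_lit 8179705818) (nat_lit 76) (nat_lit 5695986308) (nat_lit 36) (nat_lit 4) (nat_lit 37) (nat_lit 5) (nat_lit 37) (nat_lit 4) (nat_lit 451) (nat_lit 378) (nat_lit 371))))) (XT.nd (nat_lit 234) (nat_lit 380) (nat_lit 0) (XT.nd (nat_lit 78) (nat_lit 152) (nat_lit 0) (XT.lf (nat_lit 0) (nat_lit 165973996) (nat_lit 152) (nat_lit 2433996606) (nat_lit 76) (nat_lit 13079692164) (nat_lit 35) (nat_lit 5) (nat_lit 37) (nat_lit 5) (nat_lit 36) (nat_lit 4) (nat_lit 452) (nat_lit 378) (nat_lit 370))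 (XT.nd (nat_lit 78) (nat_lit 76) (nat_lit 0) (XT.lf (nat_lit 0) (nat_lit 6153319146) (nat_lit 152) (nat_lit 6742783875) (nat_lit 0) (nat_lit 3247669029) (nat_lit 34) (nat_lit 5) (nat_lit 36) (nat_lit 4) (nat_lit 34) (nat_lit 4) (nat_lit 453) (nat_lit 378) (nat_lit 369)) (XT.lf (nat_lit 0) (nat_lit 5068168019) (nat_lit 76) (nat_lit 7360068538) (nat_lit 76) (nat_lit 4203453048) (nat_lit 33) (nat_lit 4) (nat_lit 34) (nat_lit 5) (nat_lit 34) (nat_lit 4) (nat_lit 454) (nat_lit 378) (nat_lit 368)))) (XT.nd (nat_lit 156) (nat_lit 228) (nat_lit 0) (XT.nd (nat_lit 78) (nat_lit 0) (nat_lit 0) (XT.lf (nat_lit 0) (nat_lit 206608136) (nat_lit 76) (nat_lit 1550581262) (nat_lit 152) (nat_lit 15388151575) (nat_lit 31) (nat_lit 5) (nat_lit 32) (nat_lit 5) (nat_lit 33) (nat_lit 4) (nat_lit 455) (nat_lit 378) (nat_lit 367)) (XT.lf (nat_lit 0) (nat_lit 7970366911) (nat_lit 152) (nat_lit 5186445370) (nat_lit 0)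 (nat_lit 4519640129) (nat_lit 31) (nat_lit 5) (nat_lit 33) (nat_lit 4) (nat_lit 31) (nat_lit 4) (nat_lit 456) (nat_lit 378) (nat_lit 366))) (XT.nd (nat_lit 78) (nat_lit 152) (nat_lit 0) (XT.lf (nat_lit 0) (nat_lit 7034009510) (nat_lit 76) (nat_lit 7429427784) (nat_lit 76) (nat_lit 3772231168) (nat_lit 30) (nat_lit 4) (nat_lit 31) (nat_lit 5) (nat_lit 31) (nat_lit 4) (nat_lit 457) (nat_lit 378) (nat_lit 365)) (XT.lf (nat_lit 0) (nat_lit 896466498) (nat_lit 76) (nat_lit 1420753526) (nat_lit 152) (nat_lit 16506836696) (nat_lit 28) (nat_lit 5) (nat_lit 29) (nat_lit 5) (nat_lit 30) (nat_lit 4) (nat_lit 458) (nat_lit 378) (nat_lit 364)))))) (XT.nd (nat_lit 546) (nat_lit 304) (nat_lit 0) (XT.nd (nat_lit 234) (nat_lit 304) (nat_lit 0) (XT.nd (nat_lit 78) (nat_lit 152) (nat_lit 0) (XT.lf (nat_lit 0) (nat_lit 8688437180) (nat_lit 152) (nat_lit 5905379090) (nat_lit 0) (nat_lit 4839762153) (nat_lit 28)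 (nat_lit 5) (nat_lit 30) (nat_lit 4) (nat_lit 28) (nat_lit 4) (nat_lit 459) (nat_lit 378) (nat_lit 363)) (XT.nd (nat_lit 78) (nat_lit 76) (nat_lit 0) (XT.lf (nat_lit 0) (nat_lit 6601046450) (nat_lit 76) (nat_lit 8746309905) (nat_lit 76) (nat_lit 4727771635) (nat_lit 27) (nat_lit 4) (nat_lit 28) (nat_lit 5) (nat_lit 28) (nat_lit 4) (nat_lit 460) (nat_lit 378) (nat_lit 362)) (XT.lf (nat_lit 0) (nat_lit 1484264397) (nat_lit 152) (nat_lit 1137570772) (nat_lit 76) (nat_lit 18128451163) (nat_lit 26) (nat_lit 5) (nat_lit 28) (nat_lit 5) (nat_lit 27) (nat_lit 4) (nat_lit 461) (nat_lit 378) (nat_lit 361)))) (XT.nd (nat_lit 156) (nat_lit 152) (nat_lit 0) (XT.nd (nat_lit 78) (nat_lit 76) (nat_lit 0) (XT.lf (nat_lit 0) (nat_lit 7944744495) (nat_lit 152) (nat_lit 9688994220) (nat_lit 0) (nat_lit 3816759966) (nat_lit 25) (nat_lit 5) (nat_lit 27) (nat_lit 4) (nat_lit 25) (nat_lit 4) (nat_lit 462) (nat_lit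 378) (nat_lit 360)) (XT.lf (nat_lit 0) (nat_lit 2919290734) (nat_lit 76) (nat_lit 11768106106) (nat_lit 76) (nat_lit 7500374667) (nat_lit 24) (nat_lit 4) (nat_lit 25) (nat_lit 5) (nat_lit 25) (nat_lit 4) (nat_lit 463) (nat_lit 378) (nat_lit 359))) (XT.nd (nat_lit 78) (nat_lit 152) (nat_lit 0) (XT.lf (nat_lit 0) (nat_lit 16207948340) (nat_lit 76) (nat_lit 5576952179) (nat_lit 76) (nat_lit 1176128445) (nat_lit 24) (nat_lit 4) (nat_lit 25) (nat_lit 5) (nat_lit 25) (nat_lit 4) (nat_lit 464) (nat_lit 378) (nat_lit 358)) (XT.lf (nat_lit 0) (nat_lit 5260223204) (nat_lit 152) (nat_lit 17561683537) (nat_lit 0) (nat_lit 948243869) (nat_lit 22) (nat_lit 5) (nat_lit 24) (nat_lit 4) (nat_lit 22) (nat_lit 4) (nat_lit 465) (nat_lit 378) (nat_lit 357))))) (XT.nd (nat_lit 234) (nat_lit 152) (nat_lit 0) (XT.nd (nat_lit 78) (nat_lit 152) (nat_lit 0) (XT.lf (nat_lit 0) (nat_lit 12045239091) (nat_lit 152) (nat_lit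 4951922947) (nat_lit 0) (nat_lit 7618289627) (nat_lit 22) (nat_lit 5) (nat_lit 24) (nat_lit 4) (nat_lit 22) (nat_lit 4) (nat_lit 466) (nat_lit 378) (nat_lit 356)) (XT.nd (nat_lit 78) (nat_lit 76) (nat_lit 0) (XT.lf (nat_lit 0) (nat_lit 8288981309) (nat_lit 76) (nat_lit 10875372297) (nat_lit 76) (nat_lit 6338927473) (nat_lit 21) (nat_lit 4) (nat_lit 22) (nat_lit 5) (nat_lit 22) (nat_lit 4) (nat_lit 467) (nat_lit 378) (nat_lit 355)) (XT.lf (nat_lit 0) (nat_lit 148236619) (nat_lit 152) (nat_lit 4336841049) (nat_lit 76) (nat_lit 21952728197) (nat_lit 20) (nat_lit 5) (nat_lit 22) (nat_lit 5) (nat_lit 21) (nat_lit 4) (nat_lit 468) (nat_lit 378) (nat_lit 354)))) (XT.nd (nat_lit 156) (nat_lit 76) (nat_lit 0) (XT.nd (nat_lit 78) (nat_lit 0) (nat_lit 0) (XT.lf (nat_lit 0) (nat_lit 6797958414) (nat_lit 152) (nat_lit 18329713064) (nat_lit 0) (nat_lit 2283633042) (nat_lit 19) (nat_lit 5) (nat_lit 21) (nat_lit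 4) (nat_lit 19) (nat_lit 4) (nat_lit 469) (nat_lit 378) (nat_lit 353)) (XT.lf (nat_lit 0) (nat_lit 13800656333) (nat_lit 152) (nat_lit 5435553102) (nat_lit 0) (nat_lit 9196248856) (nat_lit 19) (nat_lit 5) (nat_lit 21) (nat_lit 4) (nat_lit 19) (nat_lit 4) (nat_lit 470) (nat_lit 378) (nat_lit 352))) (XT.nd (nat_lit 78) (nat_lit 0) (nat_lit 0) (XT.lf (nat_lit 0) (nat_lit 8122791746) (nat_lit 76) (nat_lit 13035910876) (nat_lit 76) (nat_lit 8345710919) (nat_lit 18) (nat_lit 4) (nat_lit 19) (nat_lit 5) (nat_lit 19) (nat_lit 4) (nat_lit 471) (nat_lit 378) (nat_lit 351)) (XT.lf (nat_lit 0) (nat_lit 22311139879) (nat_lit 76) (nat_lit 6546055403) (nat_lit 76) (nat_lit 1774148322) (nat_lit 18) (nat_lit 4) (nat_lit 19) (nat_lit 5) (nat_lit 19) (nat_lit 4) (nat_lit 472) (nat_lit 378) (nat_lit 350))))))) (XT.nd (nat_lit 1092) (nat_lit 304) (nat_lit 0) (XT.nd (nat_lit 546) (nat_lit 228) (nat_lit 0) (XT.nd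 (nat_lit 234) (nat_lit 228) (nat_lit 0) (XT.nd (nat_lit 78) (nat_lit 0) (nat_lit 0) (XT.lf (nat_lit 0) (nat_lit 4933330673) (nat_lit 152) (nat_lit 26564175202) (nat_lit 0) (nat_lit 314546492) (nat_lit 16) (nat_lit 5) (nat_lit 18) (nat_lit 4) (nat_lit 16) (nat_lit 4) (nat_lit 473) (nat_lit 378) (nat_lit 349)) (XT.nd (nat_lit 78) (nat_lit 0) (nat_lit 0) (XT.lf (nat_lit 0) (nat_lit 12051644206) (nat_lit 152) (nat_lit 13629669295) (nat_lit 0) (nat_lit 7362278339) (nat_lit 16) (nat_lit 5) (nat_lit 18) (nat_lit 4) (nat_lit 16) (nat_lit 4) (nat_lit 474) (nat_lit 378) (nat_lit 348)) (XT.lf (nat_lit 0) (nat_lit 19415925415) (nat_lit 152) (nat_lit 266944876) (nat_lit 0) (nat_lit 14659338895) (nat_lit 16) (nat_lit 5) (nat_lit 18) (nat_lit 4) (nat_lit 16) (nat_lit 4) (nat_lit 475) (nat_lit 378) (nat_lit 347)))) (XT.nd (nat_lit 156) (nat_lit 152) (nat_lit 0) (XT.nd (nat_lit 78) (nat_lit 0) (nat_lit 0) (XT.lf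 (nat_lit 0) (nat_lit 14004030500) (nat_lit 76) (nat_lit 13258319965) (nat_lit 76) (nat_lit 8437713775) (nat_lit 15) (nat_lit 4) (nat_lit 16) (nat_lit 5) (nat_lit 16) (nat_lit 4) (nat_lit 476) (nat_lit 378) (nat_lit 346)) (XT.lf (nat_lit 0) (nat_lit 28793077151) (nat_lit 76) (nat_lit 6609617733) (nat_lit 76) (nat_lit 1728040430) (nat_lit 15) (nat_lit 4) (nat_lit 16) (nat_lit 5) (nat_lit 16) (nat_lit 4) (nat_lit 477) (nat_lit 378) (nat_lit 345))) (XT.nd (nat_lit 78) (nat_lit 0) (nat_lit 0) (XT.lf (nat_lit 0) (nat_lit 5141569885) (nat_lit 152) (nat_lit 33050344421) (nat_lit 0) (nat_lit 437146046) (nat_lit 13) (nat_lit 5) (nat_lit 15) (nat_lit 4) (nat_lit 13) (nat_lit 4) (nat_lit 478) (nat_lit 378) (nat_lit 344)) (XT.lf (nat_lit 0) (nat_lit 12449008632) (nat_lit 152) (nat_lit 20052342601) (nat_lit 0) (nat_lit 7691915652) (nat_lit 13) (nat_lit 5) (nat_lit 15) (nat_lit 4) (nat_lit 13) (nat_lit 4)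 (nat_lit 479) (nat_lit 378) (nat_lit 343))))) (XT.nd (nat_lit 234) (nat_lit 152) (nat_lit 0) (XT.nd (nat_lit 78) (nat_lit 76) (nat_lit 0) (XT.lf (nat_lit 0) (nat_lit 20027104982) (nat_lit 152) (nat_lit 6593466175) (nat_lit 0) (nat_lit 15219850915) (nat_lit 13) (nat_lit 5) (nat_lit 15) (nat_lit 4) (nat_lit 13) (nat_lit 4) (nat_lit 480) (nat_lit 378) (nat_lit 342)) (XT.nd (nat_lit 78) (nat_lit 0) (nat_lit 0) (XT.lf (nat_lit 0) (nat_lit 7601629415) (nat_lit 76) (nat_lit 20410955344) (nat_lit 76) (nat_lit 15555928814) (nat_lit 12) (nat_lit 4) (nat_lit 13) (nat_lit 5) (nat_lit 13) (nat_lit 4) (nat_lit 481) (nat_lit 378) (nat_lit 341)) (XT.lf (nat_lit 0) (nat_lit 22558269390) (nat_lit 76) (nat_lit 13862058633) (nat_lit 76) (nat_lit 8961534519) (nat_lit 12) (nat_lit 4) (nat_lit 13) (nat_lit 5) (nat_lit 13) (nat_lit 4) (nat_lit 482) (nat_lit 378) (nat_lit 340)))) (XT.nd (nat_lit 156) (nat_lit 0) (nat_lit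 0) (XT.nd (nat_lit 78) (nat_lit 152) (nat_lit 0) (XT.lf (nat_lit 0) (nat_lit 38094055028) (nat_lit 76) (nat_lit 7069951953) (nat_lit 76) (nat_lit 2126096806) (nat_lit 12) (nat_lit 4) (nat_lit 13) (nat_lit 5) (nat_lit 13) (nat_lit 4) (nat_lit 483) (nat_lit 378) (nat_lit 339)) (XT.lf (nat_lit 0) (nat_lit 4888524754) (nat_lit 152) (nat_lit 44260548571) (nat_lit 0) (nat_lit 140788758) (nat_lit 10) (nat_lit 5) (nat_lit 12) (nat_lit 4) (nat_lit 10) (nat_lit 4) (nat_lit 484) (nat_lit 378) (nat_lit 338))) (XT.nd (nat_lit 78) (nat_lit 0) (nat_lit 0) (XT.lf (nat_lit 0) (nat_lit 12374998457) (nat_lit 152) (nat_lit 31413409002) (nat_lit 0) (nat_lit 7589831486) (nat_lit 10) (nat_lit 5) (nat_lit 12) (nat_lit 4) (nat_lit 10) (nat_lit 4) (nat_lit 485) (nat_lit 378) (nat_lit 337)) (XT.lf (nat_lit 0) (nat_lit 20158060954) (nat_lit 152) (nat_lit 18079616860) (nat_lit 0) (nat_lit 15337245435) (nat_lit 10) (nat_lit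 5) (nat_lit 12) (nat_lit 4) (nat_lit 10) (nat_lit 4) (nat_lit 486) (nat_lit 378) (nat_lit 336)))))) (XT.nd (nat_lit 546) (nat_lit 76) (nat_lit 0) (XT.nd (nat_lit 234) (nat_lit 152) (nat_lit 0) (XT.nd (nat_lit 78) (nat_lit 76) (nat_lit 0) (XT.lf (nat_lit 0) (nat_lit 28256243346) (nat_lit 152) (nat_lit 4227425023) (nat_lit 0) (nat_lit 23401476829) (nat_lit 10) (nat_lit 5) (nat_lit 12) (nat_lit 4) (nat_lit 10) (nat_lit 4) (nat_lit 487) (nat_lit 378) (nat_lit 335)) (XT.nd (nat_lit 78) (nat_lit 0) (nat_lit 0) (XT.lf (nat_lit 0) (nat_lit 10512617326) (nat_lit 76) (nat_lit 26340341110) (nat_lit 76) (nat_lit 21453240310) (nat_lit 9) (nat_lit 4) (nat_lit 10) (nat_lit 5) (nat_lit 10) (nat_lit 4) (nat_lit 488) (nat_lit 378) (nat_lit 334)) (XT.lf (nat_lit 0) (nat_lit 25997477837) (nat_lit 76) (nat_lit 19884305203) (nat_lit 76) (nat_lit 14966409847) (nat_lit 9) (nat_lit 4) (nat_lit 10) (nat_lit 5) (nat_lit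 10) (nat_lit 4) (nat_lit 489) (nat_lit 378) (nat_lit 333)))) (XT.nd (nat_lit 156) (nat_lit 152) (nat_lit 0) (XT.nd (nat_lit 78) (nat_lit 0) (nat_lit 0) (XT.lf (nat_lit 0) (nat_lit 42124247462) (nat_lit 76) (nat_lit 13171782621) (nat_lit 76) (nat_lit 8224559117) (nat_lit 9) (nat_lit 4) (nat_lit 10) (nat_lit 5) (nat_lit 10) (nat_lit 4) (nat_lit 490) (nat_lit 378) (nat_lit 332)) (XT.lf (nat_lit 0) (nat_lit 58931323270) (nat_lit 76) (nat_lit 6186791169) (nat_lit 76) (nat_lit 1211636095) (nat_lit 9) (nat_lit 4) (nat_lit 10) (nat_lit 5) (nat_lit 10) (nat_lit 4) (nat_lit 491) (nat_lit 378) (nat_lit 331))) (XT.nd (nat_lit 78) (nat_lit 0) (nat_lit 0) (XT.lf (nat_lit 0) (nat_lit 6028789808) (nat_lit 152) (nat_lit 61976879025) (nat_lit 0) (nat_lit 1265212123) (nat_lit 7) (nat_lit 5) (nat_lit 9) (nat_lit 4) (nat_lit 7) (nat_lit 4) (nat_lit 492) (nat_lit 378) (nat_lit 330)) (XT.lf (nat_lit 0) (nat_lit 13758510003)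 (nat_lit 152) (nat_lit 49620362435) (nat_lit 0) (nat_lit 8970803978) (nat_lit 7) (nat_lit 5) (nat_lit 9) (nat_lit 4) (nat_lit 7) (nat_lit 4) (nat_lit 493) (nat_lit 378) (nat_lit 329))))) (XT.nd (nat_lit 312) (nat_lit 0) (nat_lit 0) (XT.nd (nat_lit 156) (nat_lit 76) (nat_lit 0) (XT.nd (nat_lit 78) (nat_lit 0) (nat_lit 0) (XT.lf (nat_lit 0) (nat_lit 21816829664) (nat_lit 152) (nat_lit 36762333240) (nat_lit 0) (nat_lit 17006144267) (nat_lit 7) (nat_lit 5) (nat_lit 9) (nat_lit 4) (nat_lit 7) (nat_lit 4) (nat_lit 494) (nat_lit 378) (nat_lit 328)) (XT.lf (nat_lit 0) (nat_lit 30222935266) (nat_lit 152) (nat_lit 23372177085) (nat_lit 0) (nat_lit 25390364753) (nat_lit 7) (nat_lit 5) (nat_lit 9) (nat_lit 4) (nat_lit 7) (nat_lit 4) (nat_lit 495) (nat_lit 378) (nat_lit 327))) (XT.nd (nat_lit 78) (nat_lit 76) (nat_lit 0) (XT.lf (nat_lit 0) (nat_lit 38996841348) (nat_lit 152) (nat_lit 9418012644) (nat_lit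 0) (nat_lit 34143427867) (nat_lit 7) (nat_lit 5) (nat_lit 9) (nat_lit 4) (nat_lit 7) (nat_lit 4) (nat_lit 496) (nat_lit 378) (nat_lit 326)) (XT.lf (nat_lit 0) (nat_lit 5303117149) (nat_lit 76) (nat_lit 42939117532) (nat_lit 76) (nat_lit 38065853606) (nat_lit 6) (nat_lit 4) (nat_lit 7) (nat_lit 5) (nat_lit 7) (nat_lit 4) (nat_lit 497) (nat_lit 378) (nat_lit 325)))) (XT.nd (nat_lit 156) (nat_lit 0) (nat_lit 0) (XT.nd (nat_lit 78) (nat_lit 0) (nat_lit 0) (XT.lf (nat_lit 0) (nat_lit 20988420405) (nat_lit 76) (nat_lit 37071809068) (nat_lit 76) (nat_lit 32179639957) (nat_lit 6) (nat_lit 4) (nat_lit 7) (nat_lit 5) (nat_lit 7) (nat_lit 4) (nat_lit 498) (nat_lit 378) (nat_lit 324)) (XT.lf (nat_lit 0) (nat_lit 37363841053) (nat_lit 76) (nat_lit 30958457421) (nat_lit 76) (nat_lit 26048283370) (nat_lit 6) (nat_lit 4) (nat_lit 7) (nat_lit 5) (nat_lit 7) (nat_lit 4) (nat_lit 499) (nat_lit 378) (nat_lit 323)))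 (XT.nd (nat_lit 78) (nat_lit 0) (nat_lit 0) (XT.lf (nat_lit 0) (nat_lit 54468368189) (nat_lit 76) (nat_lit 24584506990) (nat_lit 76) (nat_lit 19657185379) (nat_lit 6) (nat_lit 4) (nat_lit 7) (nat_lit 5) (nat_lit 7) (nat_lit 4) (nat_lit 500) (nat_lit 378) (nat_lit 322)) (XT.lf (nat_lit 0) (nat_lit 72342726879) (nat_lit 76) (nat_lit 17934781704) (nat_lit 76) (nat_lit 12991129082) (nat_lit 6) (nat_lit 4) (nat_lit 7) (nat_lit 5) (nat_lit 7) (nat_lit 4) (nat_lit 501) (nat_lit 378) (nat_lit 321))))))))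
noncomputable def xc47 : XT := (XT.nd (nat_lit 2184) (nat_lit 0) (nat_lit 0) (XT.nd (nat_lit 1092) (nat_lit 152) (nat_lit 0) (XT.nd (nat_lit 546) (nat_lit 76) (nat_lit 0) (XT.nd (nat_lit 234) (nat_lit 0) (nat_lit 0) (XT.nd (nat_lit 78) (nat_lit 152) (nat_lit 0) (XT.lf (nat_lit 0) (nat_lit 91029475118) (nat_lit 76) (nat_lit 10993448883) (nat_lit 76) (nat_lit 6034242917) (nat_lit 6) (nat_lit 4) (nat_lit 7) (nat_lit 5) (nat_lit 7) (nat_lit 4) (nat_lit 502) (nat_lit 378) (nat_lit 320)) (XT.nd (nat_lit 78) (nat_lit 76) (nat_lit 0) (XT.lf (nat_lit 0) (nat_lit 1190668258) (nat_lit 152) (nat_lit 2533148742) (nat_lit 76) (nat_lit 109362272362) (nat_lit 5) (nat_lit 5) (nat_lit 7) (nat_lit 5) (nat_lit 6) (nat_lit 4) (nat_lit 503) (nat_lit 378) (nat_lit 319)) (XT.lf (nat_lit 0) (nat_lit 8803929663) (nat_lit 152) (nat_lit 105492754665) (nat_lit 0) (nat_lit 4053333460) (nat_lit 4) (nat_lit 5) (nat_lit 6)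 (nat_lit 4) (nat_lit 4) (nat_lit 4) (nat_lit 504) (nat_lit 378) (nat_lit 318)))) (XT.nd (nat_lit 156) (nat_lit 0) (nat_lit 0) (XT.nd (nat_lit 78) (nat_lit 0) (nat_lit 0) (XT.lf (nat_lit 0) (nat_lit 16865256576) (nat_lit 152) (nat_lit 94906652003) (nat_lit 0) (nat_lit 12101864598) (nat_lit 4) (nat_lit 5) (nat_lit 6) (nat_lit 4) (nat_lit 4) (nat_lit 4) (nat_lit 505) (nat_lit 378) (nat_lit 317)) (XT.lf (nat_lit 0) (nat_lit 25294176385) (nat_lit 152) (nat_lit 83862716304) (nat_lit 0) (nat_lit 20518597956) (nat_lit 4) (nat_lit 5) (nat_lit 6) (nat_lit 4) (nat_lit 4) (nat_lit 4) (nat_lit 506) (nat_lit 378) (nat_lit 316))) (XT.nd (nat_lit 78) (nat_lit 0) (nat_lit 0) (XT.lf (nat_lit 0) (nat_lit 34110757946) (nat_lit 152) (nat_lit 72334652481) (nat_lit 0) (nat_lit 29323573373) (nat_lit 4) (nat_lit 5) (nat_lit 6) (nat_lit 4) (nat_lit 4) (nat_lit 4) (nat_lit 507) (nat_lit 378) (nat_lit 315)) (XT.lf (nat_lit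 0) (nat_lit 43335993120) (nat_lit 152) (nat_lit 60295012765) (nat_lit 0) (nat_lit 38537755076) (nat_lit 4) (nat_lit 5) (nat_lit 6) (nat_lit 4) (nat_lit 4) (nat_lit 4) (nat_lit 508) (nat_lit 378) (nat_lit 314))))) (XT.nd (nat_lit 234) (nat_lit 76) (nat_lit 0) (XT.nd (nat_lit 78) (nat_lit 0) (nat_lit 0) (XT.lf (nat_lit 0) (nat_lit 52991846754) (nat_lit 152) (nat_lit 47715131346) (nat_lit 0) (nat_lit 48183081595) (nat_lit 4) (nat_lit 5) (nat_lit 6) (nat_lit 4) (nat_lit 4) (nat_lit 4) (nat_lit 509) (nat_lit 378) (nat_lit 313)) (XT.nd (nat_lit 78) (nat_lit 0) (nat_lit 0) (XT.lf (nat_lit 0) (nat_lit 63101308974) (nat_lit 152) (nat_lit 34565056125) (nat_lit 0) (nat_lit 58282517991) (nat_lit 4) (nat_lit 5) (nat_lit 6) (nat_lit 4) (nat_lit 4) (nat_lit 4) (nat_lit 510) (nat_lit 378) (nat_lit 312)) (XT.lf (nat_lit 0) (nat_lit 73688449929) (nat_lit 152) (nat_lit 20813477399) (nat_lit 0) (nat_lit 68860110542)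 (nat_lit 4) (nat_lit 5) (nat_lit 6) (nat_lit 4) (nat_lit 4) (nat_lit 4) (nat_lit 511) (nat_lit 378) (nat_lit 311)))) (XT.nd (nat_lit 156) (nat_lit 0) (nat_lit 0) (XT.nd (nat_lit 78) (nat_lit 76) (nat_lit 0) (XT.lf (nat_lit 0) (nat_lit 84778477097) (nat_lit 152) (nat_lit 6427653316) (nat_lit 0) (nat_lit 79941043993) (nat_lit 4) (nat_lit 5) (nat_lit 6) (nat_lit 4) (nat_lit 4) (nat_lit 4) (nat_lit 512) (nat_lit 378) (nat_lit 310)) (XT.lf (nat_lit 0) (nat_lit 8911904694) (nat_lit 76) (nat_lit 87625030418) (nat_lit 76) (nat_lit 82778936631) (nat_lit 3) (nat_lit 4) (nat_lit 4) (nat_lit 5) (nat_lit 4) (nat_lit 4) (nat_lit 513) (nat_lit 378) (nat_lit 309))) (XT.nd (nat_lit 78) (nat_lit 0) (nat_lit 0) (XT.lf (nat_lit 0) (nat_lit 25191619587) (nat_lit 76) (nat_lit 83775761790) (nat_lit 76) (nat_lit 78921419732) (nat_lit 3) (nat_lit 4) (nat_lit 4) (nat_lit 5) (nat_lit 4) (nat_lit 4) (nat_lit 514) (nat_lit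 378) (nat_lit 308)) (XT.lf (nat_lit 0) (nat_lit 42237725341) (nat_lit 76) (nat_lit 79758015022) (nat_lit 76) (nat_lit 74895817469) (nat_lit 3) (nat_lit 4) (nat_lit 4) (nat_lit 5) (nat_lit 4) (nat_lit 4) (nat_lit 515) (nat_lit 378) (nat_lit 307)))))) (XT.nd (nat_lit 546) (nat_lit 152) (nat_lit 0) (XT.nd (nat_lit 234) (nat_lit 0) (nat_lit 0) (XT.nd (nat_lit 78) (nat_lit 0) (nat_lit 0) (XT.lf (nat_lit 0) (nat_lit 60090807923) (nat_lit 76) (nat_lit 75562224050) (nat_lit 76) (nat_lit 70692545074) (nat_lit 3) (nat_lit 4) (nat_lit 4) (nat_lit 5) (nat_lit 4) (nat_lit 4) (nat_lit 516) (nat_lit 378) (nat_lit 306)) (XT.nd (nat_lit 78) (nat_lit 0) (nat_lit 0) (XT.lf (nat_lit 0) (nat_lit 78793374672) (nat_lit 76) (nat_lit 71178398897) (nat_lit 76) (nat_lit 66301594754) (nat_lit 3) (nat_lit 4) (nat_lit 4) (nat_lit 5) (nat_lit 4) (nat_lit 4) (nat_lit 517) (nat_lit 378) (nat_lit 305)) (XT.lf (nat_lit 0) (nat_lit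 98389955508) (nat_lit 76) (nat_lit 66596101882) (nat_lit 76) (nat_lit 61712511868) (nat_lit 3) (nat_lit 4) (nat_lit 4) (nat_lit 5) (nat_lit 4) (nat_lit 4) (nat_lit 518) (nat_lit 378) (nat_lit 304)))) (XT.nd (nat_lit 156) (nat_lit 0) (nat_lit 0) (XT.nd (nat_lit 78) (nat_lit 0) (nat_lit 0) (XT.lf (nat_lit 0) (nat_lit 118927208958) (nat_lit 76) (nat_lit 61804422776) (nat_lit 76) (nat_lit 56914370026) (nat_lit 3) (nat_lit 4) (nat_lit 4) (nat_lit 5) (nat_lit 4) (nat_lit 4) (nat_lit 519) (nat_lit 378) (nat_lit 303)) (XT.lf (nat_lit 0) (nat_lit 140454033244) (nat_lit 76) (nat_lit 56791952817) (nat_lit 76) (nat_lit 51895745082) (nat_lit 3) (nat_lit 4) (nat_lit 4) (nat_lit 5) (nat_lit 4) (nat_lit 4) (nat_lit 520) (nat_lit 378) (nat_lit 302))) (XT.nd (nat_lit 78) (nat_lit 0) (nat_lit 0) (XT.lf (nat_lit 0) (nat_lit 163021682710) (nat_lit 76) (nat_lit 51546757555) (nat_lit 76) (nat_lit 46644687928) (nat_lit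 3) (nat_lit 4) (nat_lit 4) (nat_lit 5) (nat_lit 4) (nat_lit 4) (nat_lit 521) (nat_lit 378) (nat_lit 301)) (XT.lf (nat_lit 0) (nat_lit 186683889855) (nat_lit 76) (nat_lit 46056348429) (nat_lit 76) (nat_lit 41148696048) (nat_lit 3) (nat_lit 4) (nat_lit 4) (nat_lit 5) (nat_lit 4) (nat_lit 4) (nat_lit 522) (nat_lit 378) (nat_lit 300))))) (XT.nd (nat_lit 234) (nat_lit 152) (nat_lit 0) (XT.nd (nat_lit 78) (nat_lit 0) (nat_lit 0) (XT.lf (nat_lit 0) (nat_lit 211496993266) (nat_lit 76) (nat_lit 40307653036) (nat_lit 76) (nat_lit 35394683746) (nat_lit 3) (nat_lit 4) (nat_lit 4) (nat_lit 5) (nat_lit 4) (nat_lit 4) (nat_lit 523) (nat_lit 378) (nat_lit 299)) (XT.nd (nat_lit 78) (nat_lit 0) (nat_lit 0) (XT.lf (nat_lit 0) (nat_lit 237520071761) (nat_lit 76) (nat_lit 34286984006) (nat_lit 76) (nat_lit 29368950994) (nat_lit 3) (nat_lit 4) (nat_lit 4) (nat_lit 5) (nat_lit 4) (nat_lit 4) (nat_lit 524) (nat_lit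 378) (nat_lit 298)) (XT.lf (nat_lit 0) (nat_lit 264815085052) (nat_lit 76) (nat_lit 27980006413) (nat_lit 76) (nat_lit 23057150808) (nat_lit 3) (nat_lit 4) (nat_lit 4) (nat_lit 5) (nat_lit 4) (nat_lit 4) (nat_lit 525) (nat_lit 378) (nat_lit 297)))) (XT.nd (nat_lit 156) (nat_lit 152) (nat_lit 0) (XT.nd (nat_lit 78) (nat_lit 0) (nat_lit 0) (XT.lf (nat_lit 0) (nat_lit 293447021265) (nat_lit 76) (nat_lit 21371703643) (nat_lit 76) (nat_lit 16444255094) (nat_lit 3) (nat_lit 4) (nat_lit 4) (nat_lit 5) (nat_lit 4) (nat_lit 4) (nat_lit 526) (nat_lit 378) (nat_lit 296)) (XT.lf (nat_lit 0) (nat_lit 323484051676) (nat_lit 76) (nat_lit 14446341643) (nat_lit 76) (nat_lit 9514518860) (nat_lit 3) (nat_lit 4) (nat_lit 4) (nat_lit 5) (nat_lit 4) (nat_lit 4) (nat_lit 527) (nat_lit 378) (nat_lit 295))) (XT.nd (nat_lit 78) (nat_lit 152) (nat_lit 0) (XT.lf (nat_lit 0) (nat_lit 354997693026) (nat_lit 76) (nat_lit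 7187431455) (nat_lit 76) (nat_lit 2251442735) (nat_lit 3) (nat_lit 4) (nat_lit 4) (nat_lit 5) (nat_lit 4) (nat_lit 4) (nat_lit 528) (nat_lit 378) (nat_lit 294)) (XT.lf (nat_lit 0) (nat_lit 5292062871) (nat_lit 152) (nat_lit 376389738829) (nat_lit 0) (nat_lit 587342605) (nat_lit 1) (nat_lit 5) (nat_lit 3) (nat_lit 4) (nat_lit 1) (nat_lit 4) (nat_lit 529) (nat_lit 378) (nat_lit 293))))))) (XT.nd (nat_lit 1092) (nat_lit 0) (nat_lit 0) (XT.nd (nat_lit 546) (nat_lit 0) (nat_lit 0) (XT.nd (nat_lit 234) (nat_lit 0) (nat_lit 0) (XT.nd (nat_lit 78) (nat_lit 0) (nat_lit 0) (XT.lf (nat_lit 0) (nat_lit 13405271955) (nat_lit 152) (nat_lit 378875870468) (nat_lit 0) (nat_lit 8696952997) (nat_lit 1) (nat_lit 5) (nat_lit 3) (nat_lit 4) (nat_lit 1) (nat_lit 4) (nat_lit 530) (nat_lit 378) (nat_lit 292)) (XT.nd (nat_lit 78) (nat_lit 0) (nat_lit 0) (XT.lf (nat_lit 0) (nat_lit 21912610318) (nat_lit 152) (nat_lit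 381509596476) (nat_lit 0) (nat_lit 17200864032) (nat_lit 1) (nat_lit 5) (nat_lit 3) (nat_lit 4) (nat_lit 1) (nat_lit 4) (nat_lit 531) (nat_lit 378) (nat_lit 291)) (XT.lf (nat_lit 0) (nat_lit 30834333526) (nat_lit 152) (nat_lit 384297187630) (nat_lit 0) (nat_lit 26119323121) (nat_lit 1) (nat_lit 5) (nat_lit 3) (nat_lit 4) (nat_lit 1) (nat_lit 4) (nat_lit 532) (nat_lit 378) (nat_lit 290)))) (XT.nd (nat_lit 156) (nat_lit 0) (nat_lit 0) (XT.nd (nat_lit 78) (nat_lit 0) (nat_lit 0) (XT.lf (nat_lit 0) (nat_lit 40191683779) (nat_lit 152) (nat_lit 387245281052) (nat_lit 0) (nat_lit 35473564687) (nat_lit 1) (nat_lit 5) (nat_lit 3) (nat_lit 4) (nat_lit 1) (nat_lit 4) (nat_lit 533) (nat_lit 378) (nat_lit 289)) (XT.lf (nat_lit 0) (nat_lit 50006940482) (nat_lit 152) (nat_lit 390360896010) (nat_lit 0) (nat_lit 45285860736) (nat_lit 1) (nat_lit 5) (nat_lit 3) (nat_lit 4) (nat_lit 1) (nat_lit 4) (nat_lit 534)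 (nat_lit 378) (nat_lit 288))) (XT.nd (nat_lit 78) (nat_lit 0) (nat_lit 0) (XT.lf (nat_lit 0) (nat_lit 60303473293) (nat_lit 152) (nat_lit 393651450637) (nat_lit 0) (nat_lit 55579573877) (nat_lit 1) (nat_lit 5) (nat_lit 3) (nat_lit 4) (nat_lit 1) (nat_lit 4) (nat_lit 535) (nat_lit 378) (nat_lit 287)) (XT.lf (nat_lit 0) (nat_lit 71105797767) (nat_lit 152) (nat_lit 397124779586) (nat_lit 0) (nat_lit 66379212951) (nat_lit 1) (nat_lit 5) (nat_lit 3) (nat_lit 4) (nat_lit 1) (nat_lit 4) (nat_lit 536) (nat_lit 378) (nat_lit 286))))) (XT.nd (nat_lit 234) (nat_lit 0) (nat_lit 0) (XT.nd (nat_lit 78) (nat_lit 0) (nat_lit 0) (XT.lf (nat_lit 0) (nat_lit 82439633723) (nat_lit 152) (nat_lit 400789152688) (nat_lit 0) (nat_lit 77710491384) (nat_lit 1) (nat_lit 5) (nat_lit 3) (nat_lit 4) (nat_lit 1) (nat_lit 4) (nat_lit 537) (nat_lit 378) (nat_lit 285)) (XT.nd (nat_lit 78) (nat_lit 0) (nat_lit 0) (XT.lf (nat_lit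 0) (nat_lit 94331966487) (nat_lit 152) (nat_lit 404653294640) (nat_lit 0) (nat_lit 89600388410) (nat_lit 1) (nat_lit 5) (nat_lit 3) (nat_lit 4) (nat_lit 1) (nat_lit 4) (nat_lit 538) (nat_lit 378) (nat_lit 284)) (XT.lf (nat_lit 0) (nat_lit 106811111135) (nat_lit 152) (nat_lit 408726405781) (nat_lit 0) (nat_lit 102077213309) (nat_lit 1) (nat_lit 5) (nat_lit 3) (nat_lit 4) (nat_lit 1) (nat_lit 4) (nat_lit 539) (nat_lit 378) (nat_lit 283)))) (XT.nd (nat_lit 156) (nat_lit 0) (nat_lit 0) (XT.nd (nat_lit 78) (nat_lit 0) (nat_lit 0) (XT.lf (nat_lit 0) (nat_lit 119906779916) (nat_lit 152) (nat_lit 413018183995) (nat_lit 0) (nat_lit 115170672805) (nat_lit 1) (nat_lit 5) (nat_lit 3) (nat_lit 4) (nat_lit 1) (nat_lit 4) (nat_lit 540) (nat_lit 378) (nat_lit 282)) (XT.lf (nat_lit 0) (nat_lit 133650152996) (nat_lit 152) (nat_lit 417538847800) (nat_lit 0) (nat_lit 128911941803) (nat_lit 1) (nat_lit 5) (nat_lit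 3) (nat_lit 4) (nat_lit 1) (nat_lit 4) (nat_lit 541) (nat_lit 378) (nat_lit 281))) (XT.nd (nat_lit 78) (nat_lit 0) (nat_lit 0) (XT.lf (nat_lit 0) (nat_lit 148073952689) (nat_lit 152) (nat_lit 422299160683) (nat_lit 0) (nat_lit 143333737610) (nat_lit 1) (nat_lit 5) (nat_lit 3) (nat_lit 4) (nat_lit 1) (nat_lit 4) (nat_lit 542) (nat_lit 378) (nat_lit 280)) (XT.lf (nat_lit 0) (nat_lit 163212521378) (nat_lit 152) (nat_lit 427310456721) (nat_lit 0) (nat_lit 158470397835) (nat_lit 1) (nat_lit 5) (nat_lit 3) (nat_lit 4) (nat_lit 1) (nat_lit 4) (nat_lit 543) (nat_lit 378) (nat_lit 279)))))) (XT.nd (nat_lit 54912) (nat_lit 0) (nat_lit 2432) (XT.nd (nat_lit 54600) (nat_lit 0) (nat_lit 3192) (XT.nd (nat_lit 78) (nat_lit 0) (nat_lit 0) (XT.lf (nat_lit 0) (nat_lit 179101903272) (nat_lit 152) (nat_lit 432584667572) (nat_lit 0) (nat_lit 174357962144) (nat_lit 1) (nat_lit 5) (nat_lit 3) (nat_lit 4) (nat_lit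 1) (nat_lit 4) (nat_lit 544) (nat_lit 378) (nat_lit 278)) (XT.nd (nat_lit 54444) (nat_lit 0) (nat_lit 3800) (XT.lf (nat_lit 0) (nat_lit 195779930233) (nat_lit 152) (nat_lit 438134350881) (nat_lit 0) (nat_lit 191034258073) (nat_lit 1) (nat_lit 5) (nat_lit 3) (nat_lit 4) (nat_lit 1) (nat_lit 4) (nat_lit 545) (nat_lit 378) (nat_lit 277)) (XT.lf (nat_lit 0) (nat_lit 4467726304) (nat_lit 152) (nat_lit 766560279) (nat_lit 152) (nat_lit 766560279) (nat_lit 51) (nat_lit 4) (nat_lit 53) (nat_lit 5) (nat_lit 53) (nat_lit 4) (nat_lit 442) (nat_lit 379) (nat_lit 379)))) (XT.nd (nat_lit 156) (nat_lit 304) (nat_lit 0) (XT.nd (nat_lit 78) (nat_lit 152) (nat_lit 0) (XT.lf (nat_lit 0) (nat_lit 3913459072) (nat_lit 152) (nat_lit 4972556694) (nat_lit 0) (nat_lit 3416564800) (nat_lit 49) (nat_lit 5) (nat_lit 51) (nat_lit 4) (nat_lit 49) (nat_lit 4) (nat_lit 443) (nat_lit 379) (nat_lit 378)) (XT.lf (nat_lit 0)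 (nat_lit 5518702804) (nat_lit 152) (nat_lit 4035029718) (nat_lit 152) (nat_lit 3064902806) (nat_lit 47) (nat_lit 4) (nat_lit 49) (nat_lit 5) (nat_lit 49) (nat_lit 4) (nat_lit 444) (nat_lit 379) (nat_lit 377))) (XT.nd (nat_lit 78) (nat_lit 152) (nat_lit 0) (XT.lf (nat_lit 0) (nat_lit 2411350703) (nat_lit 152) (nat_lit 9480675750) (nat_lit 0) (nat_lit 1058184355) (nat_lit 45) (nat_lit 5) (nat_lit 47) (nat_lit 4) (nat_lit 45) (nat_lit 4) (nat_lit 445) (nat_lit 379) (nat_lit 376)) (XT.lf (nat_lit 0) (nat_lit 1092560049) (nat_lit 152) (nat_lit 6982228957) (nat_lit 152) (nat_lit 5220266463) (nat_lit 43) (nat_lit 4) (nat_lit 45) (nat_lit 5) (nat_lit 45) (nat_lit 4) (nat_lit 446) (nat_lit 379) (nat_lit 375))))) (XT.nd (nat_lit 312) (nat_lit 304) (nat_lit 0) (XT.nd (nat_lit 156) (nat_lit 304) (nat_lit 0) (XT.nd (nat_lit 78) (nat_lit 76) (nat_lit 0) (XT.lf (nat_lit 0) (nat_lit 327379634) (nat_lit 228)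 (nat_lit 1480163908) (nat_lit 76) (nat_lit 11850594696) (nat_lit 42) (nat_lit 5) (nat_lit 45) (nat_lit 5) (nat_lit 43) (nat_lit 4) (nat_lit 447) (nat_lit 379) (nat_lit 374)) (XT.lf (nat_lit 0) (nat_lit 6006688416) (nat_lit 152) (nat_lit 4422235160) (nat_lit 0) (nat_lit 3604705258) (nat_lit 41) (nat_lit 5) (nat_lit 43) (nat_lit 4) (nat_lit 41) (nat_lit 4) (nat_lit 448) (nat_lit 379) (nat_lit 373))) (XT.nd (nat_lit 78) (nat_lit 152) (nat_lit 0) (XT.lf (nat_lit 0) (nat_lit 6736835020) (nat_lit 152) (nat_lit 5215138331) (nat_lit 152) (nat_lit 2476837572) (nat_lit 39) (nat_lit 4) (nat_lit 41) (nat_lit 5) (nat_lit 41) (nat_lit 4) (nat_lit 449) (nat_lit 379) (nat_lit 372)) (XT.lf (nat_lit 0) (nat_lit 3201086772) (nat_lit 152) (nat_lit 11354056068) (nat_lit 0) (nat_lit 288131307) (nat_lit 37) (nat_lit 5) (nat_lit 39) (nat_lit 4) (nat_lit 37) (nat_lit 4) (nat_lit 450) (nat_lit 379) (nat_lit 371))))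 (XT.nd (nat_lit 156) (nat_lit 228) (nat_lit 0) (XT.nd (nat_lit 78) (nat_lit 76) (nat_lit 0) (XT.lf (nat_lit 0) (nat_lit 9120808600) (nat_lit 152) (nat_lit 236250545) (nat_lit 0) (nat_lit 5917329346) (nat_lit 37) (nat_lit 5) (nat_lit 39) (nat_lit 4) (nat_lit 37) (nat_lit 4) (nat_lit 451) (nat_lit 379) (nat_lit 370)) (XT.lf (nat_lit 0) (nat_lit 11488393515) (nat_lit 76) (nat_lit 3859148370) (nat_lit 76) (nat_lit 378979792) (nat_lit 36) (nat_lit 4) (nat_lit 37) (nat_lit 5) (nat_lit 37) (nat_lit 4) (nat_lit 452) (nat_lit 379) (nat_lit 369))) (XT.nd (nat_lit 78) (nat_lit 76) (nat_lit 0) (XT.lf (nat_lit 0) (nat_lit 5485678180) (nat_lit 152) (nat_lit 8791729299) (nat_lit 0) (nat_lit 1920266543) (nat_lit 34) (nat_lit 5) (nat_lit 36) (nat_lit 4) (nat_lit 34) (nat_lit 4) (nat_lit 453) (nat_lit 379) (nat_lit 368)) (XT.lf (nat_lit 0) (nat_lit 2791202099) (nat_lit 76) (nat_lit 8852337316) (nat_lit 76) (nat_lit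 5047911038) (nat_lit 33) (nat_lit 4) (nat_lit 34) (nat_lit 5) (nat_lit 34) (nat_lit 4) (nat_lit 454) (nat_lit 379) (nat_lit 367))))))))
noncomputable def xc48 : XT := (XT.nd (nat_lit 2184) (nat_lit 608) (nat_lit 0) (XT.nd (nat_lit 1092) (nat_lit 684) (nat_lit 0) (XT.nd (nat_lit 546) (nat_lit 456) (nat_lit 0) (XT.nd (nat_lit 234) (nat_lit 228) (nat_lit 0) (XT.nd (nat_lit 78) (nat_lit 152) (nat_lit 0) (XT.lf (nat_lit 0) (nat_lit 855208146) (nat_lit 152) (nat_lit 2278882570) (nat_lit 76) (nat_lit 14075903385) (nat_lit 32) (nat_lit 5) (nat_lit 34) (nat_lit 5) (nat_lit 33) (nat_lit 4) (nat_lit 455) (nat_lit 379) (nat_lit 366)) (XT.nd (nat_lit 78) (nat_lit 76) (nat_lit 0) (XT.lf (nat_lit 0) (nat_lit 6925325385) (nat_lit 152) (nat_lit 7944139302) (nat_lit 0) (nat_lit 2878799105) (nat_lit 31) (nat_lit 5) (nat_lit 33) (nat_lit 4) (nat_lit 31) (nat_lit 4) (nat_lit 456) (nat_lit 379) (nat_lit 365)) (XT.lf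 (nat_lit 0) (nat_lit 4031957133) (nat_lit 76) (nat_lit 9262445780) (nat_lit 76) (nat_lit 5019281563) (nat_lit 30) (nat_lit 4) (nat_lit 31) (nat_lit 5) (nat_lit 31) (nat_lit 4) (nat_lit 457) (nat_lit 379) (nat_lit 364)))) (XT.nd (nat_lit 156) (nat_lit 76) (nat_lit 0) (XT.nd (nat_lit 78) (nat_lit 76) (nat_lit 0) (XT.lf (nat_lit 0) (nat_lit 1019113097) (nat_lit 152) (nat_lit 2341256592) (nat_lit 76) (nat_lit 15547229567) (nat_lit 29) (nat_lit 5) (nat_lit 31) (nat_lit 5) (nat_lit 30) (nat_lit 4) (nat_lit 458) (nat_lit 379) (nat_lit 363)) (XT.lf (nat_lit 0) (nat_lit 7244977999) (nat_lit 152) (nat_lit 9423765310) (nat_lit 0) (nat_lit 2855649574) (nat_lit 28) (nat_lit 5) (nat_lit 30) (nat_lit 4) (nat_lit 28) (nat_lit 4) (nat_lit 459) (nat_lit 379) (nat_lit 362))) (XT.nd (nat_lit 78) (nat_lit 0) (nat_lit 0) (XT.lf (nat_lit 0) (nat_lit 2820003371) (nat_lit 76) (nat_lit 10951824790) (nat_lit 76) (nat_lit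 6400721847) (nat_lit 27) (nat_lit 4) (nat_lit 28) (nat_lit 5) (nat_lit 28) (nat_lit 4) (nat_lit 460) (nat_lit 379) (nat_lit 361)) (XT.lf (nat_lit 0) (nat_lit 15717453862) (nat_lit 76) (nat_lit 4920108001) (nat_lit 76) (nat_lit 214934090) (nat_lit 27) (nat_lit 4) (nat_lit 28) (nat_lit 5) (nat_lit 28) (nat_lit 4) (nat_lit 461) (nat_lit 379) (nat_lit 360))))) (XT.nd (nat_lit 234) (nat_lit 228) (nat_lit 0) (XT.nd (nat_lit 78) (nat_lit 76) (nat_lit 0) (XT.lf (nat_lit 0) (nat_lit 6078331367) (nat_lit 152) (nat_lit 14025786517) (nat_lit 0) (nat_lit 1457466446) (nat_lit 25) (nat_lit 5) (nat_lit 27) (nat_lit 4) (nat_lit 25) (nat_lit 4) (nat_lit 462) (nat_lit 379) (nat_lit 359)) (XT.nd (nat_lit 78) (nat_lit 76) (nat_lit 0) (XT.lf (nat_lit 0) (nat_lit 12706187235) (nat_lit 152) (nat_lit 1646183105) (nat_lit 0) (nat_lit 7952230018) (nat_lit 25) (nat_lit 5) (nat_lit 27) (nat_lit 4) (nat_lit 25) (nat_lit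 4) (nat_lit 463) (nat_lit 379) (nat_lit 358)) (XT.lf (nat_lit 0) (nat_lit 11454979632) (nat_lit 76) (nat_lit 8254160365) (nat_lit 76) (nat_lit 3373448581) (nat_lit 24) (nat_lit 4) (nat_lit 25) (nat_lit 5) (nat_lit 25) (nat_lit 4) (nat_lit 464) (nat_lit 379) (nat_lit 357)))) (XT.nd (nat_lit 156) (nat_lit 76) (nat_lit 0) (XT.nd (nat_lit 78) (nat_lit 0) (nat_lit 0) (XT.lf (nat_lit 0) (nat_lit 1091094540) (nat_lit 76) (nat_lit 1880868854) (nat_lit 152) (nat_lit 20929528445) (nat_lit 22) (nat_lit 5) (nat_lit 23) (nat_lit 5) (nat_lit 24) (nat_lit 4) (nat_lit 465) (nat_lit 379) (nat_lit 356)) (XT.lf (nat_lit 0) (nat_lit 9661971504) (nat_lit 152) (nat_lit 10300365481) (nat_lit 0) (nat_lit 4789209078) (nat_lit 22) (nat_lit 5) (nat_lit 24) (nat_lit 4) (nat_lit 22) (nat_lit 4) (nat_lit 466) (nat_lit 379) (nat_lit 355))) (XT.nd (nat_lit 78) (nat_lit 0) (nat_lit 0) (XT.lf (nat_lit 0) (nat_lit 2636682874)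 (nat_lit 76) (nat_lit 13993638600) (nat_lit 76) (nat_lit 9016594877) (nat_lit 21) (nat_lit 4) (nat_lit 22) (nat_lit 5) (nat_lit 22) (nat_lit 4) (nat_lit 467) (nat_lit 379) (nat_lit 354)) (XT.lf (nat_lit 0) (nat_lit 16330212805) (nat_lit 76) (nat_lit 7665390519) (nat_lit 76) (nat_lit 2589031276) (nat_lit 21) (nat_lit 4) (nat_lit 22) (nat_lit 5) (nat_lit 22) (nat_lit 4) (nat_lit 468) (nat_lit 379) (nat_lit 353)))))) (XT.nd (nat_lit 546) (nat_lit 304) (nat_lit 0) (XT.nd (nat_lit 234) (nat_lit 152) (nat_lit 0) (XT.nd (nat_lit 78) (nat_lit 76) (nat_lit 0) (XT.lf (nat_lit 0) (nat_lit 2927735235) (nat_lit 76) (nat_lit 1022840709) (nat_lit 152) (nat_lit 23619229685) (nat_lit 19) (nat_lit 5) (nat_lit 20) (nat_lit 5) (nat_lit 21) (nat_lit 4) (nat_lit 469) (nat_lit 379) (nat_lit 352)) (XT.nd (nat_lit 78) (nat_lit 76) (nat_lit 0) (XT.lf (nat_lit 0) (nat_lit 10877984421) (nat_lit 152) (nat_lit 11849259645)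 (nat_lit 0) (nat_lit 5867481986) (nat_lit 19) (nat_lit 5) (nat_lit 21) (nat_lit 4) (nat_lit 19) (nat_lit 4) (nat_lit 470) (nat_lit 379) (nat_lit 351)) (XT.lf (nat_lit 0) (nat_lit 1381592715) (nat_lit 76) (nat_lit 16692693717) (nat_lit 76) (nat_lit 11600484158) (nat_lit 18) (nat_lit 4) (nat_lit 19) (nat_lit 5) (nat_lit 19) (nat_lit 4) (nat_lit 471) (nat_lit 379) (nat_lit 350)))) (XT.nd (nat_lit 156) (nat_lit 76) (nat_lit 0) (XT.nd (nat_lit 78) (nat_lit 76) (nat_lit 0) (XT.lf (nat_lit 0) (nat_lit 15460010957) (nat_lit 76) (nat_lit 10257246802) (nat_lit 76) (nat_lit 5087220934) (nat_lit 18) (nat_lit 4) (nat_lit 19) (nat_lit 5) (nat_lit 19) (nat_lit 4) (nat_lit 472) (nat_lit 379) (nat_lit 349)) (XT.lf (nat_lit 0) (nat_lit 1585460382) (nat_lit 152) (nat_lit 1993942855) (nat_lit 76) (nat_lit 28415414164) (nat_lit 17) (nat_lit 5) (nat_lit 19) (nat_lit 5) (nat_lit 18) (nat_lit 4) (nat_lit 473) (nat_lit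 379) (nat_lit 348))) (XT.nd (nat_lit 78) (nat_lit 0) (nat_lit 0) (XT.lf (nat_lit 0) (nat_lit 8561568640) (nat_lit 152) (nat_lit 21171968063) (nat_lit 0) (nat_lit 3499932141) (nat_lit 16) (nat_lit 5) (nat_lit 18) (nat_lit 4) (nat_lit 16) (nat_lit 4) (nat_lit 474) (nat_lit 379) (nat_lit 347)) (XT.lf (nat_lit 0) (nat_lit 15874770638) (nat_lit 152) (nat_lit 7910756666) (nat_lit 0) (nat_lit 10749114469) (nat_lit 16) (nat_lit 5) (nat_lit 18) (nat_lit 4) (nat_lit 16) (nat_lit 4) (nat_lit 475) (nat_lit 379) (nat_lit 346))))) (XT.nd (nat_lit 234) (nat_lit 152) (nat_lit 0) (XT.nd (nat_lit 78) (nat_lit 76) (nat_lit 0) (XT.lf (nat_lit 0) (nat_lit 6007604055) (nat_lit 76) (nat_lit 17540098139) (nat_lit 76) (nat_lit 12353470856) (nat_lit 15) (nat_lit 4) (nat_lit 16) (nat_lit 5) (nat_lit 16) (nat_lit 4) (nat_lit 476) (nat_lit 379) (nat_lit 345)) (XT.nd (nat_lit 78) (nat_lit 76) (nat_lit 0) (XT.lf (nat_lit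 0) (nat_lit 20701530976) (nat_lit 76) (nat_lit 10938700202) (nat_lit 76) (nat_lit 5694005191) (nat_lit 15) (nat_lit 4) (nat_lit 16) (nat_lit 5) (nat_lit 16) (nat_lit 4) (nat_lit 477) (nat_lit 379) (nat_lit 344)) (XT.lf (nat_lit 0) (nat_lit 1161988644) (nat_lit 152) (nat_lit 2917920887) (nat_lit 76) (nat_lit 34762776811) (nat_lit 14) (nat_lit 5) (nat_lit 16) (nat_lit 5) (nat_lit 15) (nat_lit 4) (nat_lit 478) (nat_lit 379) (nat_lit 343)))) (XT.nd (nat_lit 156) (nat_lit 76) (nat_lit 0) (XT.nd (nat_lit 78) (nat_lit 0) (nat_lit 0) (XT.lf (nat_lit 0) (nat_lit 8311691686) (nat_lit 152) (nat_lit 28889175418) (nat_lit 0) (nat_lit 3213913829) (nat_lit 13) (nat_lit 5) (nat_lit 15) (nat_lit 4) (nat_lit 13) (nat_lit 4) (nat_lit 479) (nat_lit 379) (nat_lit 342)) (XT.lf (nat_lit 0) (nat_lit 15845786022) (nat_lit 152) (nat_lit 15518115709) (nat_lit 0) (nat_lit 10700235702) (nat_lit 13) (nat_lit 5) (nat_lit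 15) (nat_lit 4) (nat_lit 13) (nat_lit 4) (nat_lit 480) (nat_lit 379) (nat_lit 341))) (XT.nd (nat_lit 78) (nat_lit 76) (nat_lit 0) (XT.lf (nat_lit 0) (nat_lit 23670676382) (nat_lit 152) (nat_lit 1649954701) (nat_lit 0) (nat_lit 18479628478) (nat_lit 13) (nat_lit 5) (nat_lit 15) (nat_lit 4) (nat_lit 13) (nat_lit 4) (nat_lit 481) (nat_lit 379) (nat_lit 340)) (XT.lf (nat_lit 0) (nat_lit 13169844302) (nat_lit 76) (nat_lit 18840767332) (nat_lit 76) (nat_lit 13606388396) (nat_lit 12) (nat_lit 4) (nat_lit 13) (nat_lit 5) (nat_lit 13) (nat_lit 4) (nat_lit 482) (nat_lit 379) (nat_lit 339))))))) (XT.nd (nat_lit 1092) (nat_lit 228) (nat_lit 0) (XT.nd (nat_lit 546) (nat_lit 152) (nat_lit 0) (XT.nd (nat_lit 234) (nat_lit 76) (nat_lit 0) (XT.nd (nat_lit 78) (nat_lit 152) (nat_lit 0) (XT.lf (nat_lit 0) (nat_lit 28627262304) (nat_lit 76) (nat_lit 12087794156) (nat_lit 76) (nat_lit 6812147570) (nat_lit 12) (nat_lit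 4) (nat_lit 13) (nat_lit 5) (nat_lit 13) (nat_lit 4) (nat_lit 483) (nat_lit 379) (nat_lit 338)) (XT.nd (nat_lit 78) (nat_lit 76) (nat_lit 0) (XT.lf (nat_lit 0) (nat_lit 233647829) (nat_lit 152) (nat_lit 4835971060) (nat_lit 76) (nat_lit 44466942958) (nat_lit 11) (nat_lit 5) (nat_lit 13) (nat_lit 5) (nat_lit 12) (nat_lit 4) (nat_lit 484) (nat_lit 379) (nat_lit 337)) (XT.lf (nat_lit 0) (nat_lit 7523772900) (nat_lit 152) (nat_lit 41684716087) (nat_lit 0) (nat_lit 2426268057) (nat_lit 10) (nat_lit 5) (nat_lit 12) (nat_lit 4) (nat_lit 10) (nat_lit 4) (nat_lit 485) (nat_lit 379) (nat_lit 336)))) (XT.nd (nat_lit 156) (nat_lit 76) (nat_lit 0) (XT.nd (nat_lit 78) (nat_lit 0) (nat_lit 0) (XT.lf (nat_lit 0) (nat_lit 15270721626) (nat_lit 152) (nat_lit 28423260488) (nat_lit 0) (nat_lit 10139265786) (nat_lit 10) (nat_lit 5) (nat_lit 12) (nat_lit 4) (nat_lit 10) (nat_lit 4) (nat_lit 486) (nat_lit 379) (nat_lit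 335)) (XT.lf (nat_lit 0) (nat_lit 23334509951) (nat_lit 152) (nat_lit 14639960595) (nat_lit 0) (nat_lit 18170719827) (nat_lit 10) (nat_lit 5) (nat_lit 12) (nat_lit 4) (nat_lit 10) (nat_lit 4) (nat_lit 487) (nat_lit 379) (nat_lit 334))) (XT.nd (nat_lit 78) (nat_lit 76) (nat_lit 0) (XT.lf (nat_lit 0) (nat_lit 31734337369) (nat_lit 152) (nat_lit 301999027) (nat_lit 0) (nat_lit 26539752689) (nat_lit 10) (nat_lit 5) (nat_lit 12) (nat_lit 4) (nat_lit 10) (nat_lit 4) (nat_lit 488) (nat_lit 379) (nat_lit 333)) (XT.lf (nat_lit 0) (nat_lit 15108322903) (nat_lit 76) (nat_lit 25617763829) (nat_lit 76) (nat_lit 20393851001) (nat_lit 9) (nat_lit 4) (nat_lit 10) (nat_lit 5) (nat_lit 10) (nat_lit 4) (nat_lit 489) (nat_lit 379) (nat_lit 332))))) (XT.nd (nat_lit 234) (nat_lit 76) (nat_lit 0) (XT.nd (nat_lit 78) (nat_lit 76) (nat_lit 0) (XT.lf (nat_lit 0) (nat_lit 31173613358) (nat_lit 76) (nat_lit 18936049666)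 (nat_lit 76) (nat_lit 13684205268) (nat_lit 9) (nat_lit 4) (nat_lit 10) (nat_lit 5) (nat_lit 10) (nat_lit 4) (nat_lit 490) (nat_lit 379) (nat_lit 331)) (XT.nd (nat_lit 78) (nat_lit 76) (nat_lit 0) (XT.lf (nat_lit 0) (nat_lit 47922137577) (nat_lit 76) (nat_lit 11980399565) (nat_lit 76) (nat_lit 6701953672) (nat_lit 9) (nat_lit 4) (nat_lit 10) (nat_lit 5) (nat_lit 10) (nat_lit 4) (nat_lit 491) (nat_lit 379) (nat_lit 330)) (XT.lf (nat_lit 0) (nat_lit 551299736) (nat_lit 152) (nat_lit 4173616189) (nat_lit 76) (nat_lit 64833136732) (nat_lit 8) (nat_lit 5) (nat_lit 10) (nat_lit 5) (nat_lit 9) (nat_lit 4) (nat_lit 492) (nat_lit 379) (nat_lit 329)))) (XT.nd (nat_lit 156) (nat_lit 0) (nat_lit 0) (XT.nd (nat_lit 78) (nat_lit 0) (nat_lit 0) (XT.lf (nat_lit 0) (nat_lit 8110593476) (nat_lit 152) (nat_lit 61498382110) (nat_lit 0) (nat_lit 3036394437) (nat_lit 7) (nat_lit 5) (nat_lit 9) (nat_lit 4) (nat_lit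 7) (nat_lit 4) (nat_lit 493) (nat_lit 379) (nat_lit 328)) (XT.lf (nat_lit 0) (nat_lit 16142020434) (nat_lit 152) (nat_lit 48694389256) (nat_lit 0) (nat_lit 11045936279) (nat_lit 7) (nat_lit 5) (nat_lit 9) (nat_lit 4) (nat_lit 7) (nat_lit 4) (nat_lit 494) (nat_lit 379) (nat_lit 327))) (XT.nd (nat_lit 78) (nat_lit 0) (nat_lit 0) (XT.lf (nat_lit 0) (nat_lit 24522513938) (nat_lit 152) (nat_lit 35355696282) (nat_lit 0) (nat_lit 19405586816) (nat_lit 7) (nat_lit 5) (nat_lit 9) (nat_lit 4) (nat_lit 7) (nat_lit 4) (nat_lit 495) (nat_lit 379) (nat_lit 326)) (XT.lf (nat_lit 0) (nat_lit 33272027545) (nat_lit 152) (nat_lit 21450544395) (nat_lit 0) (nat_lit 28135249978) (nat_lit 7) (nat_lit 5) (nat_lit 9) (nat_lit 4) (nat_lit 7) (nat_lit 4) (nat_lit 496) (nat_lit 379) (nat_lit 325)))))) (XT.nd (nat_lit 546) (nat_lit 152) (nat_lit 0) (XT.nd (nat_lit 234) (nat_lit 0) (nat_lit 0) (XT.nd (nat_lit 78) (nat_lit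 76) (nat_lit 0) (XT.lf (nat_lit 0) (nat_lit 42411393430) (nat_lit 152) (nat_lit 6945826092) (nat_lit 0) (nat_lit 37255710677) (nat_lit 7) (nat_lit 5) (nat_lit 9) (nat_lit 4) (nat_lit 7) (nat_lit 4) (nat_lit 497) (nat_lit 379) (nat_lit 324)) (XT.nd (nat_lit 78) (nat_lit 0) (nat_lit 0) (XT.lf (nat_lit 0) (nat_lit 8463891042) (nat_lit 76) (nat_lit 43630626004) (nat_lit 76) (nat_lit 38456938312) (nat_lit 6) (nat_lit 4) (nat_lit 7) (nat_lit 5) (nat_lit 7) (nat_lit 4) (nat_lit 498) (nat_lit 379) (nat_lit 323)) (XT.lf (nat_lit 0) (nat_lit 24795572888) (nat_lit 76) (nat_lit 37539259136) (nat_lit 76) (nat_lit 32348423883) (nat_lit 6) (nat_lit 4) (nat_lit 7) (nat_lit 5) (nat_lit 7) (nat_lit 4) (nat_lit 499) (nat_lit 379) (nat_lit 322)))) (XT.nd (nat_lit 156) (nat_lit 0) (nat_lit 0) (XT.nd (nat_lit 78) (nat_lit 0) (nat_lit 0) (XT.lf (nat_lit 0) (nat_lit 41858444023) (nat_lit 76) (nat_lit 31186246591)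 (nat_lit 76) (nat_lit 25979080328) (nat_lit 6) (nat_lit 4) (nat_lit 7) (nat_lit 5) (nat_lit 7) (nat_lit 4) (nat_lit 500) (nat_lit 379) (nat_lit 321)) (XT.lf (nat_lit 0) (nat_lit 59693130329) (nat_lit 76) (nat_lit 24556462148) (nat_lit 76) (nat_lit 19333742542) (nat_lit 6) (nat_lit 4) (nat_lit 7) (nat_lit 5) (nat_lit 7) (nat_lit 4) (nat_lit 501) (nat_lit 379) (nat_lit 320))) (XT.nd (nat_lit 78) (nat_lit 0) (nat_lit 0) (XT.lf (nat_lit 0) (nat_lit 78342095347) (nat_lit 76) (nat_lit 17634120607) (nat_lit 76) (nat_lit 12396588292) (nat_lit 6) (nat_lit 4) (nat_lit 7) (nat_lit 5) (nat_lit 7) (nat_lit 4) (nat_lit 502) (nat_lit 379) (nat_lit 319)) (XT.lf (nat_lit 0) (nat_lit 97849741373) (nat_lit 76) (nat_lit 10402740201) (nat_lit 76) (nat_lit 5151100546) (nat_lit 6) (nat_lit 4) (nat_lit 7) (nat_lit 5) (nat_lit 7) (nat_lit 4) (nat_lit 503) (nat_lit 379) (nat_lit 318))))) (XT.nd (nat_lit 234) (nat_lit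 0) (nat_lit 0) (XT.nd (nat_lit 78) (nat_lit 76) (nat_lit 0) (XT.lf (nat_lit 0) (nat_lit 2342517646) (nat_lit 152) (nat_lit 462914042) (nat_lit 76) (nat_lit 115880325868) (nat_lit 5) (nat_lit 5) (nat_lit 7) (nat_lit 5) (nat_lit 6) (nat_lit 4) (nat_lit 504) (nat_lit 379) (nat_lit 317)) (XT.nd (nat_lit 78) (nat_lit 0) (nat_lit 0) (XT.lf (nat_lit 0) (nat_lit 10335151032) (nat_lit 152) (nat_lit 108569189670) (nat_lit 0) (nat_lit 5308607230) (nat_lit 4) (nat_lit 5) (nat_lit 6) (nat_lit 4) (nat_lit 4) (nat_lit 4) (nat_lit 505) (nat_lit 379) (nat_lit 316)) (XT.lf (nat_lit 0) (nat_lit 18747590724) (nat_lit 152) (nat_lit 97558458196) (nat_lit 0) (nat_lit 13709440778) (nat_lit 4) (nat_lit 5) (nat_lit 6) (nat_lit 4) (nat_lit 4) (nat_lit 4) (nat_lit 506) (nat_lit 379) (nat_lit 315)))) (XT.nd (nat_lit 156) (nat_lit 0) (nat_lit 0) (XT.nd (nat_lit 78) (nat_lit 0) (nat_lit 0) (XT.lf (nat_lit 0) (nat_lit 27548476937)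 (nat_lit 152) (nat_lit 86062017445) (nat_lit 0) (nat_lit 22499273520) (nat_lit 4) (nat_lit 5) (nat_lit 6) (nat_lit 4) (nat_lit 4) (nat_lit 4) (nat_lit 507) (nat_lit 379) (nat_lit 314)) (XT.lf (nat_lit 0) (nat_lit 36758764160) (nat_lit 152) (nat_lit 74052494940) (nat_lit 0) (nat_lit 31699033628) (nat_lit 4) (nat_lit 5) (nat_lit 6) (nat_lit 4) (nat_lit 4) (nat_lit 4) (nat_lit 508) (nat_lit 379) (nat_lit 313))) (XT.nd (nat_lit 78) (nat_lit 0) (nat_lit 0) (XT.lf (nat_lit 0) (nat_lit 46400381649) (nat_lit 152) (nat_lit 61501296579) (nat_lit 0) (nat_lit 41330625294) (nat_lit 4) (nat_lit 5) (nat_lit 6) (nat_lit 4) (nat_lit 4) (nat_lit 4) (nat_lit 509) (nat_lit 379) (nat_lit 312)) (XT.lf (nat_lit 0) (nat_lit 56496285637) (nat_lit 152) (nat_lit 48378538556) (nat_lit 0) (nat_lit 51416980878) (nat_lit 4) (nat_lit 5) (nat_lit 6) (nat_lit 4) (nat_lit 4) (nat_lit 4) (nat_lit 510) (nat_lit 379) (nat_lit 311))))))))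
noncomputable def xc49 : XT := (XT.nd (nat_lit 2184) (nat_lit 0) (nat_lit 0) (XT.nd (nat_lit 1092) (nat_lit 152) (nat_lit 0) (XT.nd (nat_lit 546) (nat_lit 0) (nat_lit 0) (XT.nd (nat_lit 234) (nat_lit 76) (nat_lit 0) (XT.nd (nat_lit 78) (nat_lit 0) (nat_lit 0) (XT.lf (nat_lit 0) (nat_lit 67070513990) (nat_lit 152) (nat_lit 34652976210) (nat_lit 0) (nat_lit 61982115513) (nat_lit 4) (nat_lit 5) (nat_lit 6) (nat_lit 4) (nat_lit 4) (nat_lit 4) (nat_lit 511) (nat_lit 379) (nat_lit 310)) (XT.nd (nat_lit 78) (nat_lit 0) (nat_lit 0) (XT.lf (nat_lit 0) (nat_lit 78148243442) (nat_lit 152) (nat_lit 20291929631) (nat_lit 0) (nat_lit 73051184282) (nat_lit 4) (nat_lit 5) (nat_lit 6) (nat_lit 4) (nat_lit 4) (nat_lit 4) (nat_lit 512) (nat_lit 379) (nat_lit 309)) (XT.lf (nat_lit 0) (nat_lit 89755849539) (nat_lit 152) (nat_lit 5261205849) (nat_lit 0) (nat_lit 84650542109) (nat_lit 4) (nat_lit 5) (nat_lit 6) (nat_lit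 4) (nat_lit 4) (nat_lit 4) (nat_lit 513) (nat_lit 379) (nat_lit 308)))) (XT.nd (nat_lit 156) (nat_lit 0) (nat_lit 0) (XT.nd (nat_lit 78) (nat_lit 0) (nat_lit 0) (XT.lf (nat_lit 0) (nat_lit 10821332801) (nat_lit 76) (nat_lit 91268587969) (nat_lit 76) (nat_lit 86155425044) (nat_lit 3) (nat_lit 4) (nat_lit 4) (nat_lit 5) (nat_lit 4) (nat_lit 4) (nat_lit 514) (nat_lit 379) (nat_lit 307)) (XT.lf (nat_lit 0) (nat_lit 27845327111) (nat_lit 76) (nat_lit 87261984194) (nat_lit 76) (nat_lit 82141339845) (nat_lit 3) (nat_lit 4) (nat_lit 4) (nat_lit 5) (nat_lit 4) (nat_lit 4) (nat_lit 515) (nat_lit 379) (nat_lit 306))) (XT.nd (nat_lit 78) (nat_lit 0) (nat_lit 0) (XT.lf (nat_lit 0) (nat_lit 45677351175) (nat_lit 76) (nat_lit 83076805596) (nat_lit 76) (nat_lit 77949036081) (nat_lit 3) (nat_lit 4) (nat_lit 4) (nat_lit 5) (nat_lit 4) (nat_lit 4) (nat_lit 516) (nat_lit 379) (nat_lit 305)) (XT.lf (nat_lit 0)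 (nat_lit 64359862192) (nat_lit 76) (nat_lit 78703087466) (nat_lit 76) (nat_lit 73568532078) (nat_lit 3) (nat_lit 4) (nat_lit 4) (nat_lit 5) (nat_lit 4) (nat_lit 4) (nat_lit 517) (nat_lit 379) (nat_lit 304))))) (XT.nd (nat_lit 234) (nat_lit 0) (nat_lit 0) (XT.nd (nat_lit 78) (nat_lit 0) (nat_lit 0) (XT.lf (nat_lit 0) (nat_lit 83937342332) (nat_lit 76) (nat_lit 74130416187) (nat_lit 76) (nat_lit 68989398064) (nat_lit 3) (nat_lit 4) (nat_lit 4) (nat_lit 5) (nat_lit 4) (nat_lit 4) (nat_lit 518) (nat_lit 379) (nat_lit 303)) (XT.nd (nat_lit 78) (nat_lit 0) (nat_lit 0) (XT.lf (nat_lit 0) (nat_lit 104456404642) (nat_lit 76) (nat_lit 69347904448) (nat_lit 76) (nat_lit 64200731340) (nat_lit 3) (nat_lit 4) (nat_lit 4) (nat_lit 5) (nat_lit 4) (nat_lit 4) (nat_lit 519) (nat_lit 379) (nat_lit 302)) (XT.lf (nat_lit 0) (nat_lit 125965904033) (nat_lit 76) (nat_lit 64344165316) (nat_lit 76) (nat_lit 59191130316)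 (nat_lit 3) (nat_lit 4) (nat_lit 4) (nat_lit 5) (nat_lit 4) (nat_lit 4) (nat_lit 520) (nat_lit 379) (nat_lit 301)))) (XT.nd (nat_lit 156) (nat_lit 0) (nat_lit 0) (XT.nd (nat_lit 78) (nat_lit 0) (nat_lit 0) (XT.lf (nat_lit 0) (nat_lit 148517053599) (nat_lit 76) (nat_lit 59107285127) (nat_lit 76) (nat_lit 53948667373) (nat_lit 3) (nat_lit 4) (nat_lit 4) (nat_lit 5) (nat_lit 4) (nat_lit 4) (nat_lit 521) (nat_lit 379) (nat_lit 300)) (XT.lf (nat_lit 0) (nat_lit 172163546553) (nat_lit 76) (nat_lit 53624795117) (nat_lit 76) (nat_lit 48460860455) (nat_lit 3) (nat_lit 4) (nat_lit 4) (nat_lit 5) (nat_lit 4) (nat_lit 4) (nat_lit 522) (nat_lit 379) (nat_lit 299))) (XT.nd (nat_lit 78) (nat_lit 0) (nat_lit 0) (XT.lf (nat_lit 0) (nat_lit 196961684068) (nat_lit 76) (nat_lit 47883641740) (nat_lit 76) (nat_lit 42714643356) (nat_lit 3) (nat_lit 4) (nat_lit 4) (nat_lit 5) (nat_lit 4) (nat_lit 4) (nat_lit 523)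 (nat_lit 379) (nat_lit 298)) (XT.lf (nat_lit 0) (nat_lit 222970509330) (nat_lit 76) (nat_lit 41870155583) (nat_lit 76) (nat_lit 36696334605) (nat_lit 3) (nat_lit 4) (nat_lit 4) (nat_lit 5) (nat_lit 4) (nat_lit 4) (nat_lit 524) (nat_lit 379) (nat_lit 297)))))) (XT.nd (nat_lit 546) (nat_lit 0) (nat_lit 0) (XT.nd (nat_lit 234) (nat_lit 152) (nat_lit 0) (XT.nd (nat_lit 78) (nat_lit 0) (nat_lit 0) (XT.lf (nat_lit 0) (nat_lit 250251948112) (nat_lit 76) (nat_lit 35570018820) (nat_lit 76) (nat_lit 30391604898) (nat_lit 3) (nat_lit 4) (nat_lit 4) (nat_lit 5) (nat_lit 4) (nat_lit 4) (nat_lit 525) (nat_lit 379) (nat_lit 296)) (XT.nd (nat_lit 78) (nat_lit 0) (nat_lit 0) (XT.lf (nat_lit 0) (nat_lit 278870956222) (nat_lit 76) (nat_lit 28968231128) (nat_lit 76) (nat_lit 23785442972) (nat_lit 3) (nat_lit 4) (nat_lit 4) (nat_lit 5) (nat_lit 4) (nat_lit 4) (nat_lit 526) (nat_lit 379) (nat_lit 295)) (XT.lf (nat_lit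 0) (nat_lit 308895674154) (nat_lit 76) (nat_lit 22049073963) (nat_lit 76) (nat_lit 16862119870) (nat_lit 3) (nat_lit 4) (nat_lit 4) (nat_lit 5) (nat_lit 4) (nat_lit 4) (nat_lit 527) (nat_lit 379) (nat_lit 294)))) (XT.nd (nat_lit 156) (nat_lit 152) (nat_lit 0) (XT.nd (nat_lit 78) (nat_lit 0) (nat_lit 0) (XT.lf (nat_lit 0) (nat_lit 340397589332) (nat_lit 76) (nat_lit 14796073142) (nat_lit 76) (nat_lit 9605151490) (nat_lit 3) (nat_lit 4) (nat_lit 4) (nat_lit 5) (nat_lit 4) (nat_lit 4) (nat_lit 528) (nat_lit 379) (nat_lit 293)) (XT.lf (nat_lit 0) (nat_lit 373451706317) (nat_lit 76) (nat_lit 7191959616) (nat_lit 76) (nat_lit 1997259336) (nat_lit 3) (nat_lit 4) (nat_lit 4) (nat_lit 5) (nat_lit 4) (nat_lit 4) (nat_lit 529) (nat_lit 379) (nat_lit 292))) (XT.nd (nat_lit 78) (nat_lit 0) (nat_lit 0) (XT.lf (nat_lit 0) (nat_lit 5911319976) (nat_lit 152) (nat_lit 394492984312) (nat_lit 0) (nat_lit 960559050)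 (nat_lit 1) (nat_lit 5) (nat_lit 3) (nat_lit 4) (nat_lit 1) (nat_lit 4) (nat_lit 530) (nat_lit 379) (nat_lit 291)) (XT.lf (nat_lit 0) (nat_lit 14413301230) (nat_lit 152) (nat_lit 397137529269) (nat_lit 0) (nat_lit 9459276184) (nat_lit 1) (nat_lit 5) (nat_lit 3) (nat_lit 4) (nat_lit 1) (nat_lit 4) (nat_lit 531) (nat_lit 379) (nat_lit 290))))) (XT.nd (nat_lit 234) (nat_lit 0) (nat_lit 0) (XT.nd (nat_lit 78) (nat_lit 0) (nat_lit 0) (XT.lf (nat_lit 0) (nat_lit 23329922431) (nat_lit 152) (nat_lit 399935424184) (nat_lit 0) (nat_lit 18372788698) (nat_lit 1) (nat_lit 5) (nat_lit 3) (nat_lit 4) (nat_lit 1) (nat_lit 4) (nat_lit 532) (nat_lit 379) (nat_lit 289)) (XT.nd (nat_lit 78) (nat_lit 0) (nat_lit 0) (XT.lf (nat_lit 0) (nat_lit 32682413629) (nat_lit 152) (nat_lit 402893330711) (nat_lit 0) (nat_lit 27722319243) (nat_lit 1) (nat_lit 5) (nat_lit 3) (nat_lit 4) (nat_lit 1) (nat_lit 4) (nat_lit 533) (nat_lit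 379) (nat_lit 288)) (XT.lf (nat_lit 0) (nat_lit 42493042660) (nat_lit 152) (nat_lit 406018291484) (nat_lit 0) (nat_lit 37530128603) (nat_lit 1) (nat_lit 5) (nat_lit 3) (nat_lit 4) (nat_lit 1) (nat_lit 4) (nat_lit 534) (nat_lit 379) (nat_lit 287)))) (XT.nd (nat_lit 156) (nat_lit 0) (nat_lit 0) (XT.nd (nat_lit 78) (nat_lit 0) (nat_lit 0) (XT.lf (nat_lit 0) (nat_lit 52785168165) (nat_lit 152) (nat_lit 409317746887) (nat_lit 0) (nat_lit 47819568708) (nat_lit 1) (nat_lit 5) (nat_lit 3) (nat_lit 4) (nat_lit 1) (nat_lit 4) (nat_lit 535) (nat_lit 379) (nat_lit 286)) (XT.lf (nat_lit 0) (nat_lit 63583295204) (nat_lit 152) (nat_lit 412799552765) (nat_lit 0) (nat_lit 58615138224) (nat_lit 1) (nat_lit 5) (nat_lit 3) (nat_lit 4) (nat_lit 1) (nat_lit 4) (nat_lit 536) (nat_lit 379) (nat_lit 285))) (XT.nd (nat_lit 78) (nat_lit 0) (nat_lit 0) (XT.lf (nat_lit 0) (nat_lit 74913133604) (nat_lit 152) (nat_lit 416471999133)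 (nat_lit 0) (nat_lit 69942540887) (nat_lit 1) (nat_lit 5) (nat_lit 3) (nat_lit 4) (nat_lit 1) (nat_lit 4) (nat_lit 537) (nat_lit 379) (nat_lit 284)) (XT.lf (nat_lit 0) (nat_lit 86801659170) (nat_lit 152) (nat_lit 420343829910) (nat_lit 0) (nat_lit 81828746703) (nat_lit 1) (nat_lit 5) (nat_lit 3) (nat_lit 4) (nat_lit 1) (nat_lit 4) (nat_lit 538) (nat_lit 379) (nat_lit 283))))))) (XT.nd (nat_lit 55302) (nat_lit 0) (nat_lit 1976) (XT.nd (nat_lit 54756) (nat_lit 0) (nat_lit 3192) (XT.nd (nat_lit 234) (nat_lit 0) (nat_lit 0) (XT.nd (nat_lit 78) (nat_lit 0) (nat_lit 0) (XT.lf (nat_lit 0) (nat_lit 99277177917) (nat_lit 152) (nat_lit 424424263742) (nat_lit 0) (nat_lit 94302056164) (nat_lit 1) (nat_lit 5) (nat_lit 3) (nat_lit 4) (nat_lit 1) (nat_lit 4) (nat_lit 539) (nat_lit 379) (nat_lit 282)) (XT.nd (nat_lit 78) (nat_lit 0) (nat_lit 0) (XT.lf (nat_lit 0) (nat_lit 112369393458) (nat_lit 152) (nat_lit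 428723015946) (nat_lit 0) (nat_lit 107392167625) (nat_lit 1) (nat_lit 5) (nat_lit 3) (nat_lit 4) (nat_lit 1) (nat_lit 4) (nat_lit 540) (nat_lit 379) (nat_lit 281)) (XT.lf (nat_lit 0) (nat_lit 126109477738) (nat_lit 152) (nat_lit 433250321648) (nat_lit 0) (nat_lit 121130248018) (nat_lit 1) (nat_lit 5) (nat_lit 3) (nat_lit 4) (nat_lit 1) (nat_lit 4) (nat_lit 541) (nat_lit 379) (nat_lit 280)))) (XT.nd (nat_lit 156) (nat_lit 0) (nat_lit 0) (XT.nd (nat_lit 78) (nat_lit 0) (nat_lit 0) (XT.lf (nat_lit 0) (nat_lit 140530145241) (nat_lit 152) (nat_lit 438016960146) (nat_lit 0) (nat_lit 135549007058) (nat_lit 1) (nat_lit 5) (nat_lit 3) (nat_lit 4) (nat_lit 1) (nat_lit 4) (nat_lit 542) (nat_lit 379) (nat_lit 279)) (XT.lf (nat_lit 0) (nat_lit 155665730891) (nat_lit 152) (nat_lit 443034280580) (nat_lit 0) (nat_lit 150682775123) (nat_lit 1) (nat_lit 5) (nat_lit 3) (nat_lit 4) (nat_lit 1) (nat_lit 4) (nat_lit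 543) (nat_lit 379) (nat_lit 278))) (XT.nd (nat_lit 78) (nat_lit 0) (nat_lit 0) (XT.lf (nat_lit 0) (nat_lit 171552271797) (nat_lit 152) (nat_lit 448314228950) (nat_lit 0) (nat_lit 166567584996) (nat_lit 1) (nat_lit 5) (nat_lit 3) (nat_lit 4) (nat_lit 1) (nat_lit 4) (nat_lit 544) (nat_lit 379) (nat_lit 277)) (XT.lf (nat_lit 0) (nat_lit 188227593055) (nat_lit 152) (nat_lit 453869376563) (nat_lit 0) (nat_lit 183241257651) (nat_lit 1) (nat_lit 5) (nat_lit 3) (nat_lit 4) (nat_lit 1) (nat_lit 4) (nat_lit 545) (nat_lit 379) (nat_lit 276))))) (XT.nd (nat_lit 234) (nat_lit 608) (nat_lit 0) (XT.nd (nat_lit 78) (nat_lit 152) (nat_lit 0) (XT.lf (nat_lit 0) (nat_lit 64932590) (nat_lit 228) (nat_lit 5587172439) (nat_lit 0) (nat_lit 64932590) (nat_lit 53) (nat_lit 5) (nat_lit 56) (nat_lit 4) (nat_lit 53) (nat_lit 4) (nat_lit 440) (nat_lit 380) (nat_lit 380)) (XT.nd (nat_lit 78) (nat_lit 152) (nat_lit 0) (XT.lf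 (nat_lit 0) (nat_lit 5418400984) (nat_lit 228) (nat_lit 1423077917) (nat_lit 0) (nat_lit 4870575049) (nat_lit 53) (nat_lit 5) (nat_lit 56) (nat_lit 4) (nat_lit 53) (nat_lit 4) (nat_lit 441) (nat_lit 380) (nat_lit 379)) (XT.lf (nat_lit 0) (nat_lit 8771844639) (nat_lit 152) (nat_lit 2152026816) (nat_lit 152) (nat_lit 1082461895) (nat_lit 51) (nat_lit 4) (nat_lit 53) (nat_lit 5) (nat_lit 53) (nat_lit 4) (nat_lit 442) (nat_lit 380) (nat_lit 378)))) (XT.nd (nat_lit 156) (nat_lit 304) (nat_lit 0) (XT.nd (nat_lit 78) (nat_lit 152) (nat_lit 0) (XT.lf (nat_lit 0) (nat_lit 4244010699) (nat_lit 152) (nat_lit 5316009057) (nat_lit 0) (nat_lit 2752144801) (nat_lit 49) (nat_lit 5) (nat_lit 51) (nat_lit 4) (nat_lit 49) (nat_lit 4) (nat_lit 443) (nat_lit 380) (nat_lit 377)) (XT.lf (nat_lit 0) (nat_lit 4999058839) (nat_lit 152) (nat_lit 4788291139) (nat_lit 152) (nat_lit 2845727488) (nat_lit 47) (nat_lit 4)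 (nat_lit 49) (nat_lit 5) (nat_lit 49) (nat_lit 4) (nat_lit 444) (nat_lit 380) (nat_lit 376))) (XT.nd (nat_lit 78) (nat_lit 152) (nat_lit 0) (XT.lf (nat_lit 0) (nat_lit 2510777958) (nat_lit 152) (nat_lit 10207429728) (nat_lit 0) (nat_lit 251921192) (nat_lit 45) (nat_lit 5) (nat_lit 47) (nat_lit 4) (nat_lit 45) (nat_lit 4) (nat_lit 445) (nat_lit 380) (nat_lit 375)) (XT.lf (nat_lit 0) (nat_lit 175880385) (nat_lit 152) (nat_lit 7896198176) (nat_lit 152) (nat_lit 5248011745) (nat_lit 43) (nat_lit 4) (nat_lit 45) (nat_lit 5) (nat_lit 45) (nat_lit 4) (nat_lit 446) (nat_lit 380) (nat_lit 374)))))) (XT.nd (nat_lit 546) (nat_lit 532) (nat_lit 0) (XT.nd (nat_lit 234) (nat_lit 380) (nat_lit 0) (XT.nd (nat_lit 78) (nat_lit 228) (nat_lit 0) (XT.lf (nat_lit 0) (nat_lit 212991273) (nat_lit 228) (nat_lit 2582344476) (nat_lit 76) (nat_lit 10892244503) (nat_lit 42) (nat_lit 5) (nat_lit 45) (nat_lit 5) (nat_lit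 43) (nat_lit 4) (nat_lit 447) (nat_lit 380) (nat_lit 373)) (XT.nd (nat_lit 78) (nat_lit 152) (nat_lit 0) (XT.lf (nat_lit 0) (nat_lit 5771843340) (nat_lit 152) (nat_lit 5736948940) (nat_lit 0) (nat_lit 2560309941) (nat_lit 41) (nat_lit 5) (nat_lit 43) (nat_lit 4) (nat_lit 41) (nat_lit 4) (nat_lit 448) (nat_lit 380) (nat_lit 372)) (XT.lf (nat_lit 0) (nat_lit 5219782360) (nat_lit 152) (nat_lit 6390835733) (nat_lit 152) (nat_lit 2858999855) (nat_lit 39) (nat_lit 4) (nat_lit 41) (nat_lit 5) (nat_lit 41) (nat_lit 4) (nat_lit 449) (nat_lit 380) (nat_lit 371)))) (XT.nd (nat_lit 156) (nat_lit 228) (nat_lit 0) (XT.nd (nat_lit 78) (nat_lit 0) (nat_lit 0) (XT.lf (nat_lit 0) (nat_lit 1731757512) (nat_lit 76) (nat_lit 984653887) (nat_lit 152) (nat_lit 12173712711) (nat_lit 37) (nat_lit 5) (nat_lit 38) (nat_lit 5) (nat_lit 39) (nat_lit 4) (nat_lit 450) (nat_lit 380) (nat_lit 370)) (XT.lf (nat_lit 0) (nat_lit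 8538642629) (nat_lit 152) (nat_lit 2179701076) (nat_lit 0) (nat_lit 4607776299) (nat_lit 37) (nat_lit 5) (nat_lit 39) (nat_lit 4) (nat_lit 37) (nat_lit 4) (nat_lit 451) (nat_lit 380) (nat_lit 369))) (XT.nd (nat_lit 78) (nat_lit 152) (nat_lit 0) (XT.lf (nat_lit 0) (nat_lit 9328662672) (nat_lit 76) (nat_lit 5324786753) (nat_lit 76) (nat_lit 1130406781) (nat_lit 36) (nat_lit 4) (nat_lit 37) (nat_lit 5) (nat_lit 37) (nat_lit 4) (nat_lit 452) (nat_lit 380) (nat_lit 368)) (XT.lf (nat_lit 0) (nat_lit 4617567134) (nat_lit 152) (nat_lit 11261165895) (nat_lit 0) (nat_lit 383904902) (nat_lit 34) (nat_lit 5) (nat_lit 36) (nat_lit 4) (nat_lit 34) (nat_lit 4) (nat_lit 453) (nat_lit 380) (nat_lit 367))))) (XT.nd (nat_lit 312) (nat_lit 228) (nat_lit 0) (XT.nd (nat_lit 156) (nat_lit 228) (nat_lit 0) (XT.nd (nat_lit 78) (nat_lit 0) (nat_lit 0) (XT.lf (nat_lit 0) (nat_lit 87473722) (nat_lit 76) (nat_lit 10568116767)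 (nat_lit 76) (nat_lit 6106821543) (nat_lit 33) (nat_lit 4) (nat_lit 34) (nat_lit 5) (nat_lit 34) (nat_lit 4) (nat_lit 454) (nat_lit 380) (nat_lit 366)) (XT.lf (nat_lit 0) (nat_lit 12096494085) (nat_lit 76) (nat_lit 4933527624) (nat_lit 76) (nat_lit 255439075) (nat_lit 33) (nat_lit 4) (nat_lit 34) (nat_lit 5) (nat_lit 34) (nat_lit 4) (nat_lit 455) (nat_lit 380) (nat_lit 365))) (XT.nd (nat_lit 78) (nat_lit 76) (nat_lit 0) (XT.lf (nat_lit 0) (nat_lit 5669930856) (nat_lit 152) (nat_lit 11143679672) (nat_lit 0) (nat_lit 1017970492) (nat_lit 31) (nat_lit 5) (nat_lit 33) (nat_lit 4) (nat_lit 31) (nat_lit 4) (nat_lit 456) (nat_lit 380) (nat_lit 364)) (XT.lf (nat_lit 0) (nat_lit 580743005) (nat_lit 76) (nat_lit 11330932347) (nat_lit 76) (nat_lit 6491697758) (nat_lit 30) (nat_lit 4) (nat_lit 31) (nat_lit 5) (nat_lit 31) (nat_lit 4) (nat_lit 457) (nat_lit 380) (nat_lit 363)))) (XT.nd (nat_lit 156) (nat_lit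 76) (nat_lit 0) (XT.nd (nat_lit 78) (nat_lit 152) (nat_lit 0) (XT.lf (nat_lit 0) (nat_lit 12993451992) (nat_lit 76) (nat_lit 5512929679) (nat_lit 76) (nat_lit 495338684) (nat_lit 30) (nat_lit 4) (nat_lit 31) (nat_lit 5) (nat_lit 31) (nat_lit 4) (nat_lit 458) (nat_lit 380) (nat_lit 362)) (XT.lf (nat_lit 0) (nat_lit 5579621372) (nat_lit 152) (nat_lit 13408432570) (nat_lit 0) (nat_lit 639188765) (nat_lit 28) (nat_lit 5) (nat_lit 30) (nat_lit 4) (nat_lit 28) (nat_lit 4) (nat_lit 459) (nat_lit 380) (nat_lit 361))) (XT.nd (nat_lit 78) (nat_lit 76) (nat_lit 0) (XT.lf (nat_lit 0) (nat_lit 11992884963) (nat_lit 152) (nat_lit 1389816721) (nat_lit 0) (nat_lit 6898381387) (nat_lit 28) (nat_lit 5) (nat_lit 30) (nat_lit 4) (nat_lit 28) (nat_lit 4) (nat_lit 460) (nat_lit 380) (nat_lit 360)) (XT.lf (nat_lit 0) (nat_lit 11328960767) (nat_lit 76) (nat_lit 7438923268) (nat_lit 76) (nat_lit 2197685437) (nat_lit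 27) (nat_lit 4) (nat_lit 28) (nat_lit 5) (nat_lit 28) (nat_lit 4) (nat_lit 461) (nat_lit 380) (nat_lit 359))))))))
noncomputable def xc50 : XT := (XT.nd (nat_lit 2184) (nat_lit 456) (nat_lit 0) (XT.nd (nat_lit 1092) (nat_lit 532) (nat_lit 0) (XT.nd (nat_lit 546) (nat_lit 380) (nat_lit 0) (XT.nd (nat_lit 234) (nat_lit 228) (nat_lit 0) (XT.nd (nat_lit 78) (nat_lit 76) (nat_lit 0) (XT.lf (nat_lit 0) (nat_lit 2809210571) (nat_lit 76) (nat_lit 1186006654) (nat_lit 152) (nat_lit 17689182978) (nat_lit 25) (nat_lit 5) (nat_lit 26) (nat_lit 5) (nat_lit 27) (nat_lit 4) (nat_lit 462) (nat_lit 380) (nat_lit 358)) (XT.nd (nat_lit 78) (nat_lit 76) (nat_lit 0) (XT.lf (nat_lit 0) (nat_lit 10538634141) (nat_lit 152) (nat_lit 6605875055) (nat_lit 0) (nat_lit 5287132200) (nat_lit 25) (nat_lit 5) (nat_lit 27) (nat_lit 4) (nat_lit 25) (nat_lit 4) (nat_lit 463) (nat_lit 380) (nat_lit 357)) (XT.lf (nat_lit 0) (nat_lit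 6204569656) (nat_lit 76) (nat_lit 11192260713) (nat_lit 76) (nat_lit 5820040138) (nat_lit 24) (nat_lit 4) (nat_lit 25) (nat_lit 5) (nat_lit 25) (nat_lit 4) (nat_lit 464) (nat_lit 380) (nat_lit 356)))) (XT.nd (nat_lit 156) (nat_lit 76) (nat_lit 0) (XT.nd (nat_lit 78) (nat_lit 76) (nat_lit 0) (XT.lf (nat_lit 0) (nat_lit 523951450) (nat_lit 152) (nat_lit 4413090231) (nat_lit 76) (nat_lit 19104631104) (nat_lit 23) (nat_lit 5) (nat_lit 25) (nat_lit 5) (nat_lit 24) (nat_lit 4) (nat_lit 465) (nat_lit 380) (nat_lit 355)) (XT.lf (nat_lit 0) (nat_lit 7031382068) (nat_lit 152) (nat_lit 16168271598) (nat_lit 0) (nat_lit 1701204863) (nat_lit 22) (nat_lit 5) (nat_lit 24) (nat_lit 4) (nat_lit 22) (nat_lit 4) (nat_lit 466) (nat_lit 380) (nat_lit 354))) (XT.nd (nat_lit 78) (nat_lit 76) (nat_lit 0) (XT.lf (nat_lit 0) (nat_lit 13899026670) (nat_lit 152) (nat_lit 3432705992) (nat_lit 0) (nat_lit 8469533945) (nat_lit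 22) (nat_lit 5) (nat_lit 24) (nat_lit 4) (nat_lit 22) (nat_lit 4) (nat_lit 467) (nat_lit 380) (nat_lit 353)) (XT.lf (nat_lit 0) (nat_lit 10032119333) (nat_lit 76) (nat_lit 11118320155) (nat_lit 76) (nat_lit 5594241221) (nat_lit 21) (nat_lit 4) (nat_lit 22) (nat_lit 5) (nat_lit 22) (nat_lit 4) (nat_lit 468) (nat_lit 380) (nat_lit 352))))) (XT.nd (nat_lit 234) (nat_lit 228) (nat_lit 0) (XT.nd (nat_lit 78) (nat_lit 76) (nat_lit 0) (XT.lf (nat_lit 0) (nat_lit 939208770) (nat_lit 152) (nat_lit 3688783058) (nat_lit 76) (nat_lit 23109325210) (nat_lit 20) (nat_lit 5) (nat_lit 22) (nat_lit 5) (nat_lit 21) (nat_lit 4) (nat_lit 469) (nat_lit 380) (nat_lit 351)) (XT.nd (nat_lit 78) (nat_lit 0) (nat_lit 0) (XT.lf (nat_lit 0) (nat_lit 7693363611) (nat_lit 152) (nat_lit 18812702156) (nat_lit 0) (nat_lit 2264836450) (nat_lit 19) (nat_lit 5) (nat_lit 21) (nat_lit 4) (nat_lit 19) (nat_lit 4) (nat_lit 470) (nat_lit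 380) (nat_lit 350)) (XT.lf (nat_lit 0) (nat_lit 14814290070) (nat_lit 152) (nat_lit 5732480838) (nat_lit 0) (nat_lit 9307946600) (nat_lit 19) (nat_lit 5) (nat_lit 21) (nat_lit 4) (nat_lit 19) (nat_lit 4) (nat_lit 471) (nat_lit 380) (nat_lit 349)))) (XT.nd (nat_lit 156) (nat_lit 152) (nat_lit 0) (XT.nd (nat_lit 78) (nat_lit 0) (nat_lit 0) (XT.lf (nat_lit 0) (nat_lit 8051700563) (nat_lit 76) (nat_lit 14260224005) (nat_lit 76) (nat_lit 8679769764) (nat_lit 18) (nat_lit 4) (nat_lit 19) (nat_lit 5) (nat_lit 19) (nat_lit 4) (nat_lit 472) (nat_lit 380) (nat_lit 348)) (XT.lf (nat_lit 0) (nat_lit 22519705040) (nat_lit 76) (nat_lit 7658581144) (nat_lit 76) (nat_lit 2007545218) (nat_lit 18) (nat_lit 4) (nat_lit 19) (nat_lit 5) (nat_lit 19) (nat_lit 4) (nat_lit 473) (nat_lit 380) (nat_lit 347))) (XT.nd (nat_lit 78) (nat_lit 0) (nat_lit 0) (XT.lf (nat_lit 0) (nat_lit 4127524765) (nat_lit 76) (nat_lit 675295402)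 (nat_lit 152) (nat_lit 28634731317) (nat_lit 16) (nat_lit 5) (nat_lit 17) (nat_lit 5) (nat_lit 18) (nat_lit 4) (nat_lit 474) (nat_lit 380) (nat_lit 346)) (XT.lf (nat_lit 0) (nat_lit 12056832045) (nat_lit 152) (nat_lit 16134951139) (nat_lit 0) (nat_lit 6549902284) (nat_lit 16) (nat_lit 5) (nat_lit 18) (nat_lit 4) (nat_lit 16) (nat_lit 4) (nat_lit 475) (nat_lit 380) (nat_lit 345)))))) (XT.nd (nat_lit 546) (nat_lit 228) (nat_lit 0) (XT.nd (nat_lit 234) (nat_lit 228) (nat_lit 0) (XT.nd (nat_lit 78) (nat_lit 76) (nat_lit 0) (XT.lf (nat_lit 0) (nat_lit 19589637716) (nat_lit 152) (nat_lit 2500946569) (nat_lit 0) (nat_lit 14024640227) (nat_lit 16) (nat_lit 5) (nat_lit 18) (nat_lit 4) (nat_lit 16) (nat_lit 4) (nat_lit 476) (nat_lit 380) (nat_lit 344)) (XT.nd (nat_lit 78) (nat_lit 0) (nat_lit 0) (XT.lf (nat_lit 0) (nat_lit 12019697545) (nat_lit 76) (nat_lit 15576592797) (nat_lit 76) (nat_lit 9956292711)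 (nat_lit 15) (nat_lit 4) (nat_lit 16) (nat_lit 5) (nat_lit 16) (nat_lit 4) (nat_lit 477) (nat_lit 380) (nat_lit 343)) (XT.lf (nat_lit 0) (nat_lit 27176334465) (nat_lit 76) (nat_lit 8780387356) (nat_lit 76) (nat_lit 3107418129) (nat_lit 15) (nat_lit 4) (nat_lit 16) (nat_lit 5) (nat_lit 16) (nat_lit 4) (nat_lit 478) (nat_lit 380) (nat_lit 342)))) (XT.nd (nat_lit 156) (nat_lit 76) (nat_lit 0) (XT.nd (nat_lit 78) (nat_lit 0) (nat_lit 0) (XT.lf (nat_lit 0) (nat_lit 2277364709) (nat_lit 76) (nat_lit 1625315789) (nat_lit 152) (nat_lit 36747934091) (nat_lit 13) (nat_lit 5) (nat_lit 14) (nat_lit 5) (nat_lit 15) (nat_lit 4) (nat_lit 479) (nat_lit 380) (nat_lit 341)) (XT.lf (nat_lit 0) (nat_lit 11369492421) (nat_lit 152) (nat_lit 25060449406) (nat_lit 0) (nat_lit 5873394538) (nat_lit 13) (nat_lit 5) (nat_lit 15) (nat_lit 4) (nat_lit 13) (nat_lit 4) (nat_lit 480) (nat_lit 380) (nat_lit 340))) (XT.nd (nat_lit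 78) (nat_lit 76) (nat_lit 0) (XT.lf (nat_lit 0) (nat_lit 19154471657) (nat_lit 152) (nat_lit 11271940749) (nat_lit 0) (nat_lit 13615042742) (nat_lit 13) (nat_lit 5) (nat_lit 15) (nat_lit 4) (nat_lit 13) (nat_lit 4) (nat_lit 481) (nat_lit 380) (nat_lit 339)) (XT.lf (nat_lit 0) (nat_lit 3151344305) (nat_lit 76) (nat_lit 24148635149) (nat_lit 76) (nat_lit 18567938584) (nat_lit 12) (nat_lit 4) (nat_lit 13) (nat_lit 5) (nat_lit 13) (nat_lit 4) (nat_lit 482) (nat_lit 380) (nat_lit 338))))) (XT.nd (nat_lit 234) (nat_lit 152) (nat_lit 0) (XT.nd (nat_lit 78) (nat_lit 76) (nat_lit 0) (XT.lf (nat_lit 0) (nat_lit 18534126463) (nat_lit 76) (nat_lit 17432931976) (nat_lit 76) (nat_lit 11812932887) (nat_lit 12) (nat_lit 4) (nat_lit 13) (nat_lit 5) (nat_lit 13) (nat_lit 4) (nat_lit 483) (nat_lit 380) (nat_lit 337)) (XT.nd (nat_lit 78) (nat_lit 76) (nat_lit 0) (XT.lf (nat_lit 0) (nat_lit 34540330129) (nat_lit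 76) (nat_lit 10454208890) (nat_lit 76) (nat_lit 4796778826) (nat_lit 12) (nat_lit 4) (nat_lit 13) (nat_lit 5) (nat_lit 13) (nat_lit 4) (nat_lit 484) (nat_lit 380) (nat_lit 336)) (XT.lf (nat_lit 0) (nat_lit 2417301814) (nat_lit 152) (nat_lit 737609892) (nat_lit 76) (nat_lit 48749825323) (nat_lit 11) (nat_lit 5) (nat_lit 13) (nat_lit 5) (nat_lit 12) (nat_lit 4) (nat_lit 485) (nat_lit 380) (nat_lit 335)))) (XT.nd (nat_lit 156) (nat_lit 76) (nat_lit 0) (XT.nd (nat_lit 78) (nat_lit 0) (nat_lit 0) (XT.lf (nat_lit 0) (nat_lit 10068507494) (nat_lit 152) (nat_lit 39425314783) (nat_lit 0) (nat_lit 4614193580) (nat_lit 10) (nat_lit 5) (nat_lit 12) (nat_lit 4) (nat_lit 10) (nat_lit 4) (nat_lit 486) (nat_lit 380) (nat_lit 334)) (XT.lf (nat_lit 0) (nat_lit 18099539563) (nat_lit 152) (nat_lit 25707626266) (nat_lit 0) (nat_lit 12614431094) (nat_lit 10) (nat_lit 5) (nat_lit 12) (nat_lit 4) (nat_lit 10) (nat_lit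 4) (nat_lit 487) (nat_lit 380) (nat_lit 333))) (XT.nd (nat_lit 78) (nat_lit 76) (nat_lit 0) (XT.lf (nat_lit 0) (nat_lit 26468170549) (nat_lit 152) (nat_lit 11432151723) (nat_lit 0) (nat_lit 20953733931) (nat_lit 10) (nat_lit 5) (nat_lit 12) (nat_lit 4) (nat_lit 10) (nat_lit 4) (nat_lit 488) (nat_lit 380) (nat_lit 332)) (XT.lf (nat_lit 0) (nat_lit 3548677925) (nat_lit 76) (nat_lit 31701052644) (nat_lit 76) (nat_lit 26158684457) (nat_lit 9) (nat_lit 4) (nat_lit 10) (nat_lit 5) (nat_lit 10) (nat_lit 4) (nat_lit 489) (nat_lit 380) (nat_lit 331))))))) (XT.nd (nat_lit 1092) (nat_lit 228) (nat_lit 0) (XT.nd (nat_lit 546) (nat_lit 76) (nat_lit 0) (XT.nd (nat_lit 234) (nat_lit 152) (nat_lit 0) (XT.nd (nat_lit 78) (nat_lit 0) (nat_lit 0) (XT.lf (nat_lit 0) (nat_lit 19555416790) (nat_lit 76) (nat_lit 25048679833) (nat_lit 76) (nat_lit 19479710150) (nat_lit 9) (nat_lit 4) (nat_lit 10) (nat_lit 5) (nat_lit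 10) (nat_lit 4) (nat_lit 490) (nat_lit 380) (nat_lit 330)) (XT.nd (nat_lit 78) (nat_lit 0) (nat_lit 0) (XT.lf (nat_lit 0) (nat_lit 36248177589) (nat_lit 76) (nat_lit 18120973876) (nat_lit 76) (nat_lit 12526669435) (nat_lit 9) (nat_lit 4) (nat_lit 10) (nat_lit 5) (nat_lit 10) (nat_lit 4) (nat_lit 491) (nat_lit 380) (nat_lit 329)) (XT.lf (nat_lit 0) (nat_lit 53666704992) (nat_lit 76) (nat_lit 10901440235) (nat_lit 76) (nat_lit 5283007454) (nat_lit 9) (nat_lit 4) (nat_lit 10) (nat_lit 5) (nat_lit 10) (nat_lit 4) (nat_lit 492) (nat_lit 380) (nat_lit 328)))) (XT.nd (nat_lit 156) (nat_lit 0) (nat_lit 0) (XT.nd (nat_lit 78) (nat_lit 76) (nat_lit 0) (XT.lf (nat_lit 0) (nat_lit 2195915716) (nat_lit 152) (nat_lit 1139784933) (nat_lit 76) (nat_lit 69619367071) (nat_lit 8) (nat_lit 5) (nat_lit 10) (nat_lit 5) (nat_lit 9) (nat_lit 4) (nat_lit 493) (nat_lit 380) (nat_lit 327)) (XT.lf (nat_lit 0) (nat_lit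 10130965941) (nat_lit 152) (nat_lit 61328547594) (nat_lit 0) (nat_lit 4737349495) (nat_lit 7) (nat_lit 5) (nat_lit 9) (nat_lit 4) (nat_lit 7) (nat_lit 4) (nat_lit 494) (nat_lit 380) (nat_lit 326))) (XT.nd (nat_lit 78) (nat_lit 0) (nat_lit 0) (XT.lf (nat_lit 0) (nat_lit 18487066971) (nat_lit 152) (nat_lit 48038867175) (nat_lit 0) (nat_lit 13073600080) (nat_lit 7) (nat_lit 5) (nat_lit 9) (nat_lit 4) (nat_lit 7) (nat_lit 4) (nat_lit 495) (nat_lit 380) (nat_lit 325)) (XT.lf (nat_lit 0) (nat_lit 27213349650) (nat_lit 152) (nat_lit 34180393912) (nat_lit 0) (nat_lit 21780977573) (nat_lit 7) (nat_lit 5) (nat_lit 9) (nat_lit 4) (nat_lit 7) (nat_lit 4) (nat_lit 496) (nat_lit 380) (nat_lit 324))))) (XT.nd (nat_lit 234) (nat_lit 0) (nat_lit 0) (XT.nd (nat_lit 78) (nat_lit 76) (nat_lit 0) (XT.lf (nat_lit 0) (nat_lit 36330590841) (nat_lit 152) (nat_lit 19720131440) (nat_lit 0) (nat_lit 30880213825) (nat_lit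 7) (nat_lit 5) (nat_lit 9) (nat_lit 4) (nat_lit 7) (nat_lit 4) (nat_lit 497) (nat_lit 380) (nat_lit 323)) (XT.nd (nat_lit 78) (nat_lit 76) (nat_lit 0) (XT.lf (nat_lit 0) (nat_lit 45860498262) (nat_lit 152) (nat_lit 4623650563) (nat_lit 0) (nat_lit 40392973685) (nat_lit 7) (nat_lit 5) (nat_lit 9) (nat_lit 4) (nat_lit 7) (nat_lit 4) (nat_lit 498) (nat_lit 380) (nat_lit 322)) (XT.lf (nat_lit 0) (nat_lit 11513496512) (nat_lit 76) (nat_lit 44492023603) (nat_lit 76) (nat_lit 39008168016) (nat_lit 6) (nat_lit 4) (nat_lit 7) (nat_lit 5) (nat_lit 7) (nat_lit 4) (nat_lit 499) (nat_lit 380) (nat_lit 321)))) (XT.nd (nat_lit 156) (nat_lit 0) (nat_lit 0) (XT.nd (nat_lit 78) (nat_lit 0) (nat_lit 0) (XT.lf (nat_lit 0) (nat_lit 28536695263) (nat_lit 76) (nat_lit 38158951902) (nat_lit 76) (nat_lit 32659542972) (nat_lit 6) (nat_lit 4) (nat_lit 7) (nat_lit 5) (nat_lit 7) (nat_lit 4) (nat_lit 500) (nat_lit 380)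 (nat_lit 320)) (XT.lf (nat_lit 0) (nat_lit 46333598348) (nat_lit 76) (nat_lit 31548158739) (nat_lit 76) (nat_lit 26033937101) (nat_lit 6) (nat_lit 4) (nat_lit 7) (nat_lit 5) (nat_lit 7) (nat_lit 4) (nat_lit 501) (nat_lit 380) (nat_lit 319))) (XT.nd (nat_lit 78) (nat_lit 0) (nat_lit 0) (XT.lf (nat_lit 0) (nat_lit 64946579345) (nat_lit 76) (nat_lit 24643904130) (nat_lit 76) (nat_lit 19115575151) (nat_lit 6) (nat_lit 4) (nat_lit 7) (nat_lit 5) (nat_lit 7) (nat_lit 4) (nat_lit 502) (nat_lit 380) (nat_lit 318)) (XT.lf (nat_lit 0) (nat_lit 84419954876) (nat_lit 76) (nat_lit 17429749375) (nat_lit 76) (nat_lit 11887984833) (nat_lit 6) (nat_lit 4) (nat_lit 7) (nat_lit 5) (nat_lit 7) (nat_lit 4) (nat_lit 503) (nat_lit 380) (nat_lit 317)))))) (XT.nd (nat_lit 546) (nat_lit 76) (nat_lit 0) (XT.nd (nat_lit 234) (nat_lit 0) (nat_lit 0) (XT.nd (nat_lit 78) (nat_lit 152) (nat_lit 0) (XT.lf (nat_lit 0) (nat_lit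 104800090119) (nat_lit 76) (nat_lit 9888517913) (nat_lit 76) (nat_lit 4333957598) (nat_lit 6) (nat_lit 4) (nat_lit 7) (nat_lit 5) (nat_lit 7) (nat_lit 4) (nat_lit 504) (nat_lit 380) (nat_lit 316)) (XT.nd (nat_lit 78) (nat_lit 0) (nat_lit 0) (XT.lf (nat_lit 0) (nat_lit 1556400728) (nat_lit 76) (nat_lit 1918305366) (nat_lit 152) (nat_lit 121094567638) (nat_lit 4) (nat_lit 5) (nat_lit 5) (nat_lit 5) (nat_lit 6) (nat_lit 4) (nat_lit 505) (nat_lit 380) (nat_lit 315)) (XT.lf (nat_lit 0) (nat_lit 11841500316) (nat_lit 152) (nat_lit 112003814480) (nat_lit 0) (nat_lit 6528783258) (nat_lit 4) (nat_lit 5) (nat_lit 6) (nat_lit 4) (nat_lit 4) (nat_lit 4) (nat_lit 506) (nat_lit 380) (nat_lit 314)))) (XT.nd (nat_lit 156) (nat_lit 0) (nat_lit 0) (XT.nd (nat_lit 78) (nat_lit 0) (nat_lit 0) (XT.lf (nat_lit 0) (nat_lit 20627438577) (nat_lit 152) (nat_lit 100537490940) (nat_lit 0) (nat_lit 15304194404) (nat_lit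 4) (nat_lit 5) (nat_lit 6) (nat_lit 4) (nat_lit 4) (nat_lit 4) (nat_lit 507) (nat_lit 380) (nat_lit 313)) (XT.lf (nat_lit 0) (nat_lit 29823489657) (nat_lit 152) (nat_lit 88556651493) (nat_lit 0) (nat_lit 24490219660) (nat_lit 4) (nat_lit 5) (nat_lit 6) (nat_lit 4) (nat_lit 4) (nat_lit 4) (nat_lit 508) (nat_lit 380) (nat_lit 312))) (XT.nd (nat_lit 78) (nat_lit 0) (nat_lit 0) (XT.lf (nat_lit 0) (nat_lit 39451548914) (nat_lit 152) (nat_lit 76032770330) (nat_lit 0) (nat_lit 34108730513) (nat_lit 4) (nat_lit 5) (nat_lit 6) (nat_lit 4) (nat_lit 4) (nat_lit 4) (nat_lit 509) (nat_lit 380) (nat_lit 311)) (XT.lf (nat_lit 0) (nat_lit 49534540299) (nat_lit 152) (nat_lit 62936028687) (nat_lit 0) (nat_lit 44182628181) (nat_lit 4) (nat_lit 5) (nat_lit 6) (nat_lit 4) (nat_lit 4) (nat_lit 4) (nat_lit 510) (nat_lit 380) (nat_lit 310))))) (XT.nd (nat_lit 312) (nat_lit 76) (nat_lit 0) (XT.nd (nat_lit 156) (nat_lit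 0) (nat_lit 0) (XT.nd (nat_lit 78) (nat_lit 0) (nat_lit 0) (XT.lf (nat_lit 0) (nat_lit 60096470936) (nat_lit 152) (nat_lit 49235243845) (nat_lit 0) (nat_lit 54735898134) (nat_lit 4) (nat_lit 5) (nat_lit 6) (nat_lit 4) (nat_lit 4) (nat_lit 4) (nat_lit 511) (nat_lit 380) (nat_lit 309)) (XT.lf (nat_lit 0) (nat_lit 71162488277) (nat_lit 152) (nat_lit 34897794889) (nat_lit 0) (nat_lit 65793667205) (nat_lit 4) (nat_lit 5) (nat_lit 6) (nat_lit 4) (nat_lit 4) (nat_lit 4) (nat_lit 512) (nat_lit 380) (nat_lit 308))) (XT.nd (nat_lit 78) (nat_lit 0) (nat_lit 0) (XT.lf (nat_lit 0) (nat_lit 82758939983) (nat_lit 152) (nat_lit 19889545034) (nat_lit 0) (nat_lit 77382263416) (nat_lit 4) (nat_lit 5) (nat_lit 6) (nat_lit 4) (nat_lit 4) (nat_lit 4) (nat_lit 513) (nat_lit 380) (nat_lit 307)) (XT.lf (nat_lit 0) (nat_lit 94913436653) (nat_lit 152) (nat_lit 4174760353) (nat_lit 0) (nat_lit 89529278662) (nat_lit 4)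 (nat_lit 5) (nat_lit 6) (nat_lit 4) (nat_lit 4) (nat_lit 4) (nat_lit 514) (nat_lit 380) (nat_lit 306)))) (XT.nd (nat_lit 156) (nat_lit 0) (nat_lit 0) (XT.nd (nat_lit 78) (nat_lit 0) (nat_lit 0) (XT.lf (nat_lit 0) (nat_lit 12690139007) (nat_lit 76) (nat_lit 95162907191) (nat_lit 76) (nat_lit 89771624035) (nat_lit 3) (nat_lit 4) (nat_lit 4) (nat_lit 5) (nat_lit 4) (nat_lit 4) (nat_lit 515) (nat_lit 380) (nat_lit 305)) (XT.lf (nat_lit 0) (nat_lit 30502107339) (nat_lit 76) (nat_lit 90987835617) (nat_lit 76) (nat_lit 85589766588) (nat_lit 3) (nat_lit 4) (nat_lit 4) (nat_lit 5) (nat_lit 4) (nat_lit 4) (nat_lit 516) (nat_lit 380) (nat_lit 304))) (XT.nd (nat_lit 78) (nat_lit 0) (nat_lit 0) (XT.lf (nat_lit 0) (nat_lit 49165517660) (nat_lit 76) (nat_lit 86623743222) (nat_lit 76) (nat_lit 81219211458) (nat_lit 3) (nat_lit 4) (nat_lit 4) (nat_lit 5) (nat_lit 4) (nat_lit 4) (nat_lit 517) (nat_lit 380) (nat_lit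 303)) (XT.lf (nat_lit 0) (nat_lit 68724806660) (nat_lit 76) (nat_lit 82060239311) (nat_lit 76) (nat_lit 76649552561) (nat_lit 3) (nat_lit 4) (nat_lit 4) (nat_lit 5) (nat_lit 4) (nat_lit 4) (nat_lit 518) (nat_lit 380) (nat_lit 302))))))))
noncomputable def xc51 : XT := (XT.nd (nat_lit 56238) (nat_lit 0) (nat_lit 1596) (XT.nd (nat_lit 1092) (nat_lit 0) (nat_lit 0) (XT.nd (nat_lit 546) (nat_lit 152) (nat_lit 0) (XT.nd (nat_lit 234) (nat_lit 0) (nat_lit 0) (XT.nd (nat_lit 78) (nat_lit 0) (nat_lit 0) (XT.lf (nat_lit 0) (nat_lit 89226544075) (nat_lit 76) (nat_lit 77286458398) (nat_lit 76) (nat_lit 71869909757) (nat_lit 3) (nat_lit 4) (nat_lit 4) (nat_lit 5) (nat_lit 4) (nat_lit 4) (nat_lit 519) (nat_lit 380) (nat_lit 301)) (XT.nd (nat_lit 78) (nat_lit 0) (nat_lit 0) (XT.lf (nat_lit 0) (nat_lit 110719543567) (nat_lit 76) (nat_lit 72291034339) (nat_lit 76) (nat_lit 66868902944) (nat_lit 3) (nat_lit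 4) (nat_lit 4) (nat_lit 5) (nat_lit 4) (nat_lit 4) (nat_lit 520) (nat_lit 380) (nat_lit 300)) (XT.lf (nat_lit 0) (nat_lit 133254978942) (nat_lit 76) (nat_lit 67062073266) (nat_lit 76) (nat_lit 61634624963) (nat_lit 3) (nat_lit 4) (nat_lit 4) (nat_lit 5) (nat_lit 4) (nat_lit 4) (nat_lit 521) (nat_lit 380) (nat_lit 299)))) (XT.nd (nat_lit 156) (nat_lit 0) (nat_lit 0) (XT.nd (nat_lit 78) (nat_lit 0) (nat_lit 0) (XT.lf (nat_lit 0) (nat_lit 156886506000) (nat_lit 76) (nat_lit 61587125273) (nat_lit 76) (nat_lit 56154613247) (nat_lit 3) (nat_lit 4) (nat_lit 4) (nat_lit 5) (nat_lit 4) (nat_lit 4) (nat_lit 522) (nat_lit 380) (nat_lit 298)) (XT.lf (nat_lit 0) (nat_lit 181670390282) (nat_lit 76) (nat_lit 55853154768) (nat_lit 76) (nat_lit 50415820149) (nat_lit 3) (nat_lit 4) (nat_lit 4) (nat_lit 5) (nat_lit 4) (nat_lit 4) (nat_lit 523) (nat_lit 380) (nat_lit 297))) (XT.nd (nat_lit 78) (nat_lit 0) (nat_lit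 0) (XT.lf (nat_lit 0) (nat_lit 207665641035) (nat_lit 76) (nat_lit 49846509442) (nat_lit 76) (nat_lit 44404581877) (nat_lit 3) (nat_lit 4) (nat_lit 4) (nat_lit 5) (nat_lit 4) (nat_lit 4) (nat_lit 524) (nat_lit 380) (nat_lit 296)) (XT.lf (nat_lit 0) (nat_lit 234934151714) (nat_lit 76) (nat_lit 43552887756) (nat_lit 76) (nat_lit 38106585959) (nat_lit 3) (nat_lit 4) (nat_lit 4) (nat_lit 5) (nat_lit 4) (nat_lit 4) (nat_lit 525) (nat_lit 380) (nat_lit 295))))) (XT.nd (nat_lit 234) (nat_lit 152) (nat_lit 0) (XT.nd (nat_lit 78) (nat_lit 0) (nat_lit 0) (XT.lf (nat_lit 0) (nat_lit 263540847344) (nat_lit 76) (nat_lit 36957304899) (nat_lit 76) (nat_lit 31506837165) (nat_lit 3) (nat_lit 4) (nat_lit 4) (nat_lit 5) (nat_lit 4) (nat_lit 4) (nat_lit 526) (nat_lit 380) (nat_lit 294)) (XT.nd (nat_lit 78) (nat_lit 0) (nat_lit 0) (XT.lf (nat_lit 0) (nat_lit 293553839105) (nat_lit 76) (nat_lit 30044057101) (nat_lit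 76) (nat_lit 24589621808) (nat_lit 3) (nat_lit 4) (nat_lit 4) (nat_lit 5) (nat_lit 4) (nat_lit 4) (nat_lit 527) (nat_lit 380) (nat_lit 293)) (XT.lf (nat_lit 0) (nat_lit 325044586501) (nat_lit 76) (nat_lit 22796684249) (nat_lit 76) (nat_lit 17338470328) (nat_lit 3) (nat_lit 4) (nat_lit 4) (nat_lit 5) (nat_lit 4) (nat_lit 4) (nat_lit 528) (nat_lit 380) (nat_lit 292)))) (XT.nd (nat_lit 156) (nat_lit 152) (nat_lit 0) (XT.nd (nat_lit 78) (nat_lit 0) (nat_lit 0) (XT.lf (nat_lit 0) (nat_lit 358088067504) (nat_lit 76) (nat_lit 15197930692) (nat_lit 76) (nat_lit 9736118078) (nat_lit 3) (nat_lit 4) (nat_lit 4) (nat_lit 5) (nat_lit 4) (nat_lit 4) (nat_lit 529) (nat_lit 380) (nat_lit 291)) (XT.lf (nat_lit 0) (nat_lit 392762957066) (nat_lit 76) (nat_lit 7229704161) (nat_lit 76) (nat_lit 1764464221) (nat_lit 3) (nat_lit 4) (nat_lit 4) (nat_lit 5) (nat_lit 4) (nat_lit 4) (nat_lit 530) (nat_lit 380) (nat_lit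 290))) (XT.nd (nat_lit 78) (nat_lit 0) (nat_lit 0) (XT.lf (nat_lit 0) (nat_lit 6528567572) (nat_lit 152) (nat_lit 413567981411) (nat_lit 0) (nat_lit 1320468467) (nat_lit 1) (nat_lit 5) (nat_lit 3) (nat_lit 4) (nat_lit 1) (nat_lit 4) (nat_lit 531) (nat_lit 380) (nat_lit 289)) (XT.lf (nat_lit 0) (nat_lit 15440329718) (nat_lit 152) (nat_lit 416375689432) (nat_lit 0) (nat_lit 10229269959) (nat_lit 1) (nat_lit 5) (nat_lit 3) (nat_lit 4) (nat_lit 1) (nat_lit 4) (nat_lit 532) (nat_lit 380) (nat_lit 288)))))) (XT.nd (nat_lit 546) (nat_lit 0) (nat_lit 0) (XT.nd (nat_lit 234) (nat_lit 0) (nat_lit 0) (XT.nd (nat_lit 78) (nat_lit 0) (nat_lit 0) (XT.lf (nat_lit 0) (nat_lit 24788193244) (nat_lit 152) (nat_lit 419342941773) (nat_lit 0) (nat_lit 19574313815) (nat_lit 1) (nat_lit 5) (nat_lit 3) (nat_lit 4) (nat_lit 1) (nat_lit 4) (nat_lit 533) (nat_lit 380) (nat_lit 287)) (XT.nd (nat_lit 78) (nat_lit 0) (nat_lit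 0) (XT.lf (nat_lit 0) (nat_lit 34594414969) (nat_lit 152) (nat_lit 422476803322) (nat_lit 0) (nat_lit 29377850140) (nat_lit 1) (nat_lit 5) (nat_lit 3) (nat_lit 4) (nat_lit 1) (nat_lit 4) (nat_lit 534) (nat_lit 380) (nat_lit 286)) (XT.lf (nat_lit 0) (nat_lit 44882343039) (nat_lit 152) (nat_lit 425784735655) (nat_lit 0) (nat_lit 39663220686) (nat_lit 1) (nat_lit 5) (nat_lit 3) (nat_lit 4) (nat_lit 1) (nat_lit 4) (nat_lit 535) (nat_lit 380) (nat_lit 285)))) (XT.nd (nat_lit 156) (nat_lit 0) (nat_lit 0) (XT.nd (nat_lit 78) (nat_lit 0) (nat_lit 0) (XT.lf (nat_lit 0) (nat_lit 55676472522) (nat_lit 152) (nat_lit 429274614799) (nat_lit 0) (nat_lit 50454914432) (nat_lit 1) (nat_lit 5) (nat_lit 3) (nat_lit 4) (nat_lit 1) (nat_lit 4) (nat_lit 536) (nat_lit 380) (nat_lit 284)) (XT.lf (nat_lit 0) (nat_lit 67002503725) (nat_lit 152) (nat_lit 432954749992) (nat_lit 0) (nat_lit 61778625885) (nat_lit 1) (nat_lit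 5) (nat_lit 3) (nat_lit 4) (nat_lit 1) (nat_lit 4) (nat_lit 537) (nat_lit 380) (nat_lit 283))) (XT.nd (nat_lit 78) (nat_lit 0) (nat_lit 0) (XT.lf (nat_lit 0) (nat_lit 78887403390) (nat_lit 152) (nat_lit 436833903460) (nat_lit 0) (nat_lit 73661316265) (nat_lit 1) (nat_lit 5) (nat_lit 3) (nat_lit 4) (nat_lit 1) (nat_lit 4) (nat_lit 538) (nat_lit 380) (nat_lit 282)) (XT.lf (nat_lit 0) (nat_lit 91359468896) (nat_lit 152) (nat_lit 440921311282) (nat_lit 0) (nat_lit 86131277690) (nat_lit 1) (nat_lit 5) (nat_lit 3) (nat_lit 4) (nat_lit 1) (nat_lit 4) (nat_lit 539) (nat_lit 380) (nat_lit 281))))) (XT.nd (nat_lit 234) (nat_lit 0) (nat_lit 0) (XT.nd (nat_lit 78) (nat_lit 0) (nat_lit 0) (XT.lf (nat_lit 0) (nat_lit 104448395638) (nat_lit 152) (nat_lit 445226705383) (nat_lit 0) (nat_lit 99218200545) (nat_lit 1) (nat_lit 5) (nat_lit 3) (nat_lit 4) (nat_lit 1) (nat_lit 4) (nat_lit 540) (nat_lit 380) (nat_lit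 280)) (XT.nd (nat_lit 78) (nat_lit 0) (nat_lit 0) (XT.lf (nat_lit 0) (nat_lit 118185347728) (nat_lit 152) (nat_lit 449760336699) (nat_lit 0) (nat_lit 112953244171) (nat_lit 1) (nat_lit 5) (nat_lit 3) (nat_lit 4) (nat_lit 1) (nat_lit 4) (nat_lit 541) (nat_lit 380) (nat_lit 279)) (XT.lf (nat_lit 0) (nat_lit 132603032193) (nat_lit 152) (nat_lit 454532999593) (nat_lit 0) (nat_lit 127369111052) (nat_lit 1) (nat_lit 5) (nat_lit 3) (nat_lit 4) (nat_lit 1) (nat_lit 4) (nat_lit 542) (nat_lit 380) (nat_lit 278)))) (XT.nd (nat_lit 156) (nat_lit 0) (nat_lit 0) (XT.nd (nat_lit 78) (nat_lit 0) (nat_lit 0) (XT.lf (nat_lit 0) (nat_lit 147735776854) (nat_lit 152) (nat_lit 459556057546) (nat_lit 0) (nat_lit 142500124680) (nat_lit 1) (nat_lit 5) (nat_lit 3) (nat_lit 4) (nat_lit 1) (nat_lit 4) (nat_lit 543) (nat_lit 380) (nat_lit 277)) (XT.lf (nat_lit 0) (nat_lit 163619612055) (nat_lit 152) (nat_lit 464841470221)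 (nat_lit 0) (nat_lit 158382311279) (nat_lit 1) (nat_lit 5) (nat_lit 3) (nat_lit 4) (nat_lit 1) (nat_lit 4) (nat_lit 544) (nat_lit 380) (nat_lit 276))) (XT.nd (nat_lit 54132) (nat_lit 0) (nat_lit 4332) (XT.lf (nat_lit 0) (nat_lit 180292356453) (nat_lit 152) (nat_lit 470401821933) (nat_lit 0) (nat_lit 175053485578) (nat_lit 1) (nat_lit 5) (nat_lit 3) (nat_lit 4) (nat_lit 1) (nat_lit 4) (nat_lit 545) (nat_lit 380) (nat_lit 275)) (XT.lf (nat_lit 0) (nat_lit 802702484) (nat_lit 228) (nat_lit 3846401860) (nat_lit 0) (nat_lit 802702484) (nat_lit 58) (nat_lit 5) (nat_lit 61) (nat_lit 4) (nat_lit 58) (nat_lit 4) (nat_lit 438) (nat_lit 381) (nat_lit 381))))))) (XT.nd (nat_lit 1092) (nat_lit 1064) (nat_lit 0) (XT.nd (nat_lit 546) (nat_lit 684) (nat_lit 0) (XT.nd (nat_lit 234) (nat_lit 608) (nat_lit 0) (XT.nd (nat_lit 78) (nat_lit 228) (nat_lit 0) (XT.lf (nat_lit 0) (nat_lit 1711069071) (nat_lit 152) (nat_lit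 5028182633) (nat_lit 152) (nat_lit 4424204539) (nat_lit 56) (nat_lit 4) (nat_lit 58) (nat_lit 5) (nat_lit 58) (nat_lit 4) (nat_lit 439) (nat_lit 381) (nat_lit 380)) (XT.nd (nat_lit 78) (nat_lit 0) (nat_lit 0) (XT.lf (nat_lit 0) (nat_lit 89499498) (nat_lit 152) (nat_lit 529376025) (nat_lit 228) (nat_lit 10819523964) (nat_lit 53) (nat_lit 5) (nat_lit 55) (nat_lit 5) (nat_lit 56) (nat_lit 4) (nat_lit 440) (nat_lit 381) (nat_lit 379)) (XT.lf (nat_lit 0) (nat_lit 5809173015) (nat_lit 228) (nat_lit 1747739478) (nat_lit 0) (nat_lit 4164390863) (nat_lit 53) (nat_lit 5) (nat_lit 56) (nat_lit 4) (nat_lit 53) (nat_lit 4) (nat_lit 441) (nat_lit 381) (nat_lit 378)))) (XT.nd (nat_lit 156) (nat_lit 304) (nat_lit 0) (XT.nd (nat_lit 78) (nat_lit 152) (nat_lit 0) (XT.lf (nat_lit 0) (nat_lit 8280631187) (nat_lit 152) (nat_lit 2940654254) (nat_lit 152) (nat_lit 798977829) (nat_lit 51) (nat_lit 4) (nat_lit 53)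 (nat_lit 5) (nat_lit 53) (nat_lit 4) (nat_lit 442) (nat_lit 381) (nat_lit 377)) (XT.lf (nat_lit 0) (nat_lit 4409006708) (nat_lit 152) (nat_lit 6003731526) (nat_lit 0) (nat_lit 1918617122) (nat_lit 49) (nat_lit 5) (nat_lit 51) (nat_lit 4) (nat_lit 49) (nat_lit 4) (nat_lit 443) (nat_lit 381) (nat_lit 376))) (XT.nd (nat_lit 78) (nat_lit 152) (nat_lit 0) (XT.lf (nat_lit 0) (nat_lit 4131610953) (nat_lit 152) (nat_lit 5722600243) (nat_lit 152) (nat_lit 2802974703) (nat_lit 47) (nat_lit 4) (nat_lit 49) (nat_lit 5) (nat_lit 49) (nat_lit 4) (nat_lit 444) (nat_lit 381) (nat_lit 375)) (XT.lf (nat_lit 0) (nat_lit 1687898059) (nat_lit 76) (nat_lit 759087182) (nat_lit 152) (nat_lit 10552487435) (nat_lit 45) (nat_lit 5) (nat_lit 46) (nat_lit 5) (nat_lit 47) (nat_lit 4) (nat_lit 445) (nat_lit 381) (nat_lit 374))))) (XT.nd (nat_lit 234) (nat_lit 380) (nat_lit 0) (XT.nd (nat_lit 78) (nat_lit 304) (nat_lit 0)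 (XT.lf (nat_lit 0) (nat_lit 7910044797) (nat_lit 152) (nat_lit 1074981546) (nat_lit 0) (nat_lit 4369329224) (nat_lit 45) (nat_lit 5) (nat_lit 47) (nat_lit 4) (nat_lit 45) (nat_lit 4) (nat_lit 446) (nat_lit 381) (nat_lit 373)) (XT.nd (nat_lit 78) (nat_lit 152) (nat_lit 0) (XT.lf (nat_lit 0) (nat_lit 9671964724) (nat_lit 152) (nat_lit 3974438994) (nat_lit 152) (nat_lit 80589939) (nat_lit 43) (nat_lit 4) (nat_lit 45) (nat_lit 5) (nat_lit 45) (nat_lit 4) (nat_lit 447) (nat_lit 381) (nat_lit 372)) (XT.lf (nat_lit 0) (nat_lit 5355465295) (nat_lit 152) (nat_lit 7432655037) (nat_lit 0) (nat_lit 1326735145) (nat_lit 41) (nat_lit 5) (nat_lit 43) (nat_lit 4) (nat_lit 41) (nat_lit 4) (nat_lit 448) (nat_lit 381) (nat_lit 371)))) (XT.nd (nat_lit 156) (nat_lit 152) (nat_lit 0) (XT.nd (nat_lit 78) (nat_lit 76) (nat_lit 0) (XT.lf (nat_lit 0) (nat_lit 3316705222) (nat_lit 152) (nat_lit 7768941754) (nat_lit 152)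 (nat_lit 3435161625) (nat_lit 39) (nat_lit 4) (nat_lit 41) (nat_lit 5) (nat_lit 41) (nat_lit 4) (nat_lit 449) (nat_lit 381) (nat_lit 370)) (XT.lf (nat_lit 0) (nat_lit 2053002988) (nat_lit 228) (nat_lit 415647792) (nat_lit 76) (nat_lit 12478405150) (nat_lit 38) (nat_lit 5) (nat_lit 41) (nat_lit 5) (nat_lit 39) (nat_lit 4) (nat_lit 450) (nat_lit 381) (nat_lit 369))) (XT.nd (nat_lit 78) (nat_lit 76) (nat_lit 0) (XT.lf (nat_lit 0) (nat_lit 7767043930) (nat_lit 152) (nat_lit 4521992780) (nat_lit 0) (nat_lit 3099431318) (nat_lit 37) (nat_lit 5) (nat_lit 39) (nat_lit 4) (nat_lit 37) (nat_lit 4) (nat_lit 451) (nat_lit 381) (nat_lit 368)) (XT.lf (nat_lit 0) (nat_lit 6764142265) (nat_lit 76) (nat_lit 7003186215) (nat_lit 76) (nat_lit 2084608231) (nat_lit 36) (nat_lit 4) (nat_lit 37) (nat_lit 5) (nat_lit 37) (nat_lit 4) (nat_lit 452) (nat_lit 381) (nat_lit 367)))))) (XT.nd (nat_lit 546) (nat_lit 456)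 (nat_lit 0) (XT.nd (nat_lit 234) (nat_lit 380) (nat_lit 0) (XT.nd (nat_lit 78) (nat_lit 76) (nat_lit 0) (XT.lf (nat_lit 0) (nat_lit 2158726990) (nat_lit 76) (nat_lit 1410209407) (nat_lit 152) (nat_lit 12768781189) (nat_lit 34) (nat_lit 5) (nat_lit 35) (nat_lit 5) (nat_lit 36) (nat_lit 4) (nat_lit 453) (nat_lit 381) (nat_lit 366)) (XT.nd (nat_lit 78) (nat_lit 76) (nat_lit 0) (XT.lf (nat_lit 0) (nat_lit 9509648054) (nat_lit 152) (nat_lit 2951852970) (nat_lit 0) (nat_lit 4380861752) (nat_lit 34) (nat_lit 5) (nat_lit 36) (nat_lit 4) (nat_lit 34) (nat_lit 4) (nat_lit 454) (nat_lit 381) (nat_lit 365)) (XT.lf (nat_lit 0) (nat_lit 8821115867) (nat_lit 76) (nat_lit 6942783027) (nat_lit 76) (nat_lit 1607526892) (nat_lit 33) (nat_lit 4) (nat_lit 34) (nat_lit 5) (nat_lit 34) (nat_lit 4) (nat_lit 455) (nat_lit 381) (nat_lit 364)))) (XT.nd (nat_lit 156) (nat_lit 228) (nat_lit 0) (XT.nd (nat_lit 78) (nat_lit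 0) (nat_lit 0) (XT.lf (nat_lit 0) (nat_lit 3115843196) (nat_lit 76) (nat_lit 1102565226) (nat_lit 152) (nat_lit 13707333340) (nat_lit 31) (nat_lit 5) (nat_lit 32) (nat_lit 5) (nat_lit 33) (nat_lit 4) (nat_lit 456) (nat_lit 381) (nat_lit 363)) (XT.lf (nat_lit 0) (nat_lit 10363919468) (nat_lit 152) (nat_lit 3221338065) (nat_lit 0) (nat_lit 4917092519) (nat_lit 31) (nat_lit 5) (nat_lit 33) (nat_lit 4) (nat_lit 31) (nat_lit 4) (nat_lit 457) (nat_lit 381) (nat_lit 362))) (XT.nd (nat_lit 78) (nat_lit 152) (nat_lit 0) (XT.lf (nat_lit 0) (nat_lit 8952539205) (nat_lit 76) (nat_lit 7885442402) (nat_lit 76) (nat_lit 2268752210) (nat_lit 30) (nat_lit 4) (nat_lit 31) (nat_lit 5) (nat_lit 31) (nat_lit 4) (nat_lit 458) (nat_lit 381) (nat_lit 361)) (XT.lf (nat_lit 0) (nat_lit 1842768435) (nat_lit 76) (nat_lit 1874906269) (nat_lit 152) (nat_lit 16023234447) (nat_lit 28) (nat_lit 5) (nat_lit 29) (nat_lit 5)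 (nat_lit 30) (nat_lit 4) (nat_lit 459) (nat_lit 381) (nat_lit 360))))) (XT.nd (nat_lit 312) (nat_lit 228) (nat_lit 0) (XT.nd (nat_lit 156) (nat_lit 152) (nat_lit 0) (XT.nd (nat_lit 78) (nat_lit 76) (nat_lit 0) (XT.lf (nat_lit 0) (nat_lit 10035419644) (nat_lit 152) (nat_lit 5978723861) (nat_lit 0) (nat_lit 4385385665) (nat_lit 28) (nat_lit 5) (nat_lit 30) (nat_lit 4) (nat_lit 28) (nat_lit 4) (nat_lit 460) (nat_lit 381) (nat_lit 359)) (XT.lf (nat_lit 0) (nat_lit 6461924218) (nat_lit 76) (nat_lit 10209414885) (nat_lit 76) (nat_lit 4419633996) (nat_lit 27) (nat_lit 4) (nat_lit 28) (nat_lit 5) (nat_lit 28) (nat_lit 4) (nat_lit 461) (nat_lit 381) (nat_lit 358))) (XT.nd (nat_lit 78) (nat_lit 76) (nat_lit 0) (XT.lf (nat_lit 0) (nat_lit 1737539481) (nat_lit 152) (nat_lit 2360917248) (nat_lit 76) (nat_lit 17718427132) (nat_lit 26) (nat_lit 5) (nat_lit 28) (nat_lit 5) (nat_lit 27) (nat_lit 4) (nat_lit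 462) (nat_lit 381) (nat_lit 357)) (XT.lf (nat_lit 0) (nat_lit 8133998407) (nat_lit 152) (nat_lit 12065029442) (nat_lit 0) (nat_lit 2372448168) (nat_lit 25) (nat_lit 5) (nat_lit 27) (nat_lit 4) (nat_lit 25) (nat_lit 4) (nat_lit 463) (nat_lit 381) (nat_lit 356)))) (XT.nd (nat_lit 156) (nat_lit 152) (nat_lit 0) (XT.nd (nat_lit 78) (nat_lit 0) (nat_lit 0) (XT.lf (nat_lit 0) (nat_lit 444217437) (nat_lit 76) (nat_lit 14398248701) (nat_lit 76) (nat_lit 8521728332) (nat_lit 24) (nat_lit 4) (nat_lit 25) (nat_lit 5) (nat_lit 25) (nat_lit 4) (nat_lit 464) (nat_lit 381) (nat_lit 355)) (XT.lf (nat_lit 0) (nat_lit 13762157484) (nat_lit 76) (nat_lit 8208108672) (nat_lit 76) (nat_lit 2222092943) (nat_lit 24) (nat_lit 4) (nat_lit 25) (nat_lit 5) (nat_lit 25) (nat_lit 4) (nat_lit 465) (nat_lit 381) (nat_lit 354))) (XT.nd (nat_lit 78) (nat_lit 0) (nat_lit 0) (XT.lf (nat_lit 0) (nat_lit 2466136436) (nat_lit 76)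 (nat_lit 1707733545) (nat_lit 152) (nat_lit 20888541466) (nat_lit 22) (nat_lit 5) (nat_lit 23) (nat_lit 5) (nat_lit 24) (nat_lit 4) (nat_lit 466) (nat_lit 381) (nat_lit 353)) (XT.lf (nat_lit 0) (nat_lit 10958147924) (nat_lit 152) (nat_lit 9945563499) (nat_lit 0) (nat_lit 5063278833) (nat_lit 22) (nat_lit 5) (nat_lit 24) (nat_lit 4) (nat_lit 22) (nat_lit 4) (nat_lit 467) (nat_lit 381) (nat_lit 352))))))))
noncomputable def xc52 : XT := (XT.nd (nat_lit 2184) (nat_lit 304) (nat_lit 0) (XT.nd (nat_lit 1092) (nat_lit 456) (nat_lit 0) (XT.nd (nat_lit 546) (nat_lit 304) (nat_lit 0) (XT.nd (nat_lit 234) (nat_lit 152) (nat_lit 0) (XT.nd (nat_lit 78) (nat_lit 152) (nat_lit 0) (XT.lf (nat_lit 0) (nat_lit 3194199398) (nat_lit 76) (nat_lit 14854598298) (nat_lit 76) (nat_lit 8869647102) (nat_lit 21) (nat_lit 4) (nat_lit 22) (nat_lit 5) (nat_lit 22) (nat_lit 4) (nat_lit 468) (nat_lit 381) (nat_lit 351)) (XT.nd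 (nat_lit 78) (nat_lit 152) (nat_lit 0) (XT.lf (nat_lit 0) (nat_lit 17122026719) (nat_lit 76) (nat_lit 8431605438) (nat_lit 76) (nat_lit 2360861763) (nat_lit 21) (nat_lit 4) (nat_lit 22) (nat_lit 5) (nat_lit 22) (nat_lit 4) (nat_lit 469) (nat_lit 381) (nat_lit 350)) (XT.lf (nat_lit 0) (nat_lit 2591506012) (nat_lit 76) (nat_lit 1673838773) (nat_lit 152) (nat_lit 24694754800) (nat_lit 19) (nat_lit 5) (nat_lit 20) (nat_lit 5) (nat_lit 21) (nat_lit 4) (nat_lit 470) (nat_lit 381) (nat_lit 349)))) (XT.nd (nat_lit 156) (nat_lit 76) (nat_lit 0) (XT.nd (nat_lit 78) (nat_lit 76) (nat_lit 0) (XT.lf (nat_lit 0) (nat_lit 11308895056) (nat_lit 152) (nat_lit 13363583178) (nat_lit 0) (nat_lit 5375307333) (nat_lit 19) (nat_lit 5) (nat_lit 21) (nat_lit 4) (nat_lit 19) (nat_lit 4) (nat_lit 471) (nat_lit 381) (nat_lit 348)) (XT.lf (nat_lit 0) (nat_lit 68569864) (nat_lit 76) (nat_lit 18564517909) (nat_lit 76) (nat_lit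 12560348500) (nat_lit 18) (nat_lit 4) (nat_lit 19) (nat_lit 5) (nat_lit 19) (nat_lit 4) (nat_lit 472) (nat_lit 381) (nat_lit 347))) (XT.nd (nat_lit 78) (nat_lit 76) (nat_lit 0) (XT.lf (nat_lit 0) (nat_lit 14441612768) (nat_lit 76) (nat_lit 12009875207) (nat_lit 76) (nat_lit 5938485145) (nat_lit 18) (nat_lit 4) (nat_lit 19) (nat_lit 5) (nat_lit 19) (nat_lit 4) (nat_lit 473) (nat_lit 381) (nat_lit 346)) (XT.lf (nat_lit 0) (nat_lit 886824716) (nat_lit 152) (nat_lit 4317419062) (nat_lit 76) (nat_lit 28446063128) (nat_lit 17) (nat_lit 5) (nat_lit 19) (nat_lit 5) (nat_lit 18) (nat_lit 4) (nat_lit 474) (nat_lit 381) (nat_lit 345))))) (XT.nd (nat_lit 234) (nat_lit 152) (nat_lit 0) (XT.nd (nat_lit 78) (nat_lit 76) (nat_lit 0) (XT.lf (nat_lit 0) (nat_lit 7953019306) (nat_lit 152) (nat_lit 24959109708) (nat_lit 0) (nat_lit 2051704215) (nat_lit 16) (nat_lit 5) (nat_lit 18) (nat_lit 4) (nat_lit 16) (nat_lit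 4) (nat_lit 475) (nat_lit 381) (nat_lit 344)) (XT.nd (nat_lit 78) (nat_lit 76) (nat_lit 0) (XT.lf (nat_lit 0) (nat_lit 15441700834) (nat_lit 152) (nat_lit 11412795904) (nat_lit 0) (nat_lit 9485083145) (nat_lit 16) (nat_lit 5) (nat_lit 18) (nat_lit 4) (nat_lit 16) (nat_lit 4) (nat_lit 476) (nat_lit 381) (nat_lit 343)) (XT.lf (nat_lit 0) (nat_lit 2726905824) (nat_lit 76) (nat_lit 20534338121) (nat_lit 76) (nat_lit 14525051292) (nat_lit 15) (nat_lit 4) (nat_lit 16) (nat_lit 5) (nat_lit 16) (nat_lit 4) (nat_lit 477) (nat_lit 381) (nat_lit 342)))) (XT.nd (nat_lit 156) (nat_lit 152) (nat_lit 0) (XT.nd (nat_lit 78) (nat_lit 0) (nat_lit 0) (XT.lf (nat_lit 0) (nat_lit 17801374746) (nat_lit 76) (nat_lit 13778995908) (nat_lit 76) (nat_lit 7719547992) (nat_lit 15) (nat_lit 4) (nat_lit 16) (nat_lit 5) (nat_lit 16) (nat_lit 4) (nat_lit 478) (nat_lit 381) (nat_lit 341)) (XT.lf (nat_lit 0) (nat_lit 33469143877)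 (nat_lit 76) (nat_lit 6765667172) (nat_lit 76) (nat_lit 658446793) (nat_lit 15) (nat_lit 4) (nat_lit 16) (nat_lit 5) (nat_lit 16) (nat_lit 4) (nat_lit 479) (nat_lit 381) (nat_lit 340))) (XT.nd (nat_lit 78) (nat_lit 0) (nat_lit 0) (XT.lf (nat_lit 0) (nat_lit 6587566337) (nat_lit 152) (nat_lit 35243187108) (nat_lit 0) (nat_lit 727834943) (nat_lit 13) (nat_lit 5) (nat_lit 15) (nat_lit 4) (nat_lit 13) (nat_lit 4) (nat_lit 480) (nat_lit 381) (nat_lit 339)) (XT.lf (nat_lit 0) (nat_lit 14334534979) (nat_lit 152) (nat_lit 21530537833) (nat_lit 0) (nat_lit 8433535936) (nat_lit 13) (nat_lit 5) (nat_lit 15) (nat_lit 4) (nat_lit 13) (nat_lit 4) (nat_lit 481) (nat_lit 381) (nat_lit 338)))))) (XT.nd (nat_lit 546) (nat_lit 228) (nat_lit 0) (XT.nd (nat_lit 234) (nat_lit 152) (nat_lit 0) (XT.nd (nat_lit 78) (nat_lit 76) (nat_lit 0) (XT.lf (nat_lit 0) (nat_lit 22394640895) (nat_lit 152) (nat_lit 7280362507)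 (nat_lit 0) (nat_lit 16454339327) (nat_lit 13) (nat_lit 5) (nat_lit 15) (nat_lit 4) (nat_lit 13) (nat_lit 4) (nat_lit 482) (nat_lit 381) (nat_lit 337)) (XT.nd (nat_lit 78) (nat_lit 0) (nat_lit 0) (XT.lf (nat_lit 0) (nat_lit 7790616231) (nat_lit 76) (nat_lit 23118091932) (nat_lit 76) (nat_lit 17140359390) (nat_lit 12) (nat_lit 4) (nat_lit 13) (nat_lit 5) (nat_lit 13) (nat_lit 4) (nat_lit 483) (nat_lit 381) (nat_lit 336)) (XT.lf (nat_lit 0) (nat_lit 23729122987) (nat_lit 76) (nat_lit 16173173838) (nat_lit 76) (nat_lit 10159792748) (nat_lit 12) (nat_lit 4) (nat_lit 13) (nat_lit 5) (nat_lit 13) (nat_lit 4) (nat_lit 484) (nat_lit 381) (nat_lit 335)))) (XT.nd (nat_lit 156) (nat_lit 0) (nat_lit 0) (XT.nd (nat_lit 78) (nat_lit 152) (nat_lit 0) (XT.lf (nat_lit 0) (nat_lit 40332384922) (nat_lit 76) (nat_lit 8947010061) (nat_lit 76) (nat_lit 2899677973) (nat_lit 12) (nat_lit 4) (nat_lit 13) (nat_lit 5)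 (nat_lit 13) (nat_lit 4) (nat_lit 485) (nat_lit 381) (nat_lit 334)) (XT.lf (nat_lit 0) (nat_lit 3266717791) (nat_lit 76) (nat_lit 1292493995) (nat_lit 152) (nat_lit 49839660571) (nat_lit 10) (nat_lit 5) (nat_lit 11) (nat_lit 5) (nat_lit 12) (nat_lit 4) (nat_lit 486) (nat_lit 381) (nat_lit 333))) (XT.nd (nat_lit 78) (nat_lit 0) (nat_lit 0) (XT.lf (nat_lit 0) (nat_lit 12538867969) (nat_lit 152) (nat_lit 37456773621) (nat_lit 0) (nat_lit 6719381372) (nat_lit 10) (nat_lit 5) (nat_lit 12) (nat_lit 4) (nat_lit 10) (nat_lit 4) (nat_lit 487) (nat_lit 381) (nat_lit 332)) (XT.lf (nat_lit 0) (nat_lit 20877788066) (nat_lit 152) (nat_lit 23240810530) (nat_lit 0) (nat_lit 15030369899) (nat_lit 10) (nat_lit 5) (nat_lit 12) (nat_lit 4) (nat_lit 10) (nat_lit 4) (nat_lit 488) (nat_lit 381) (nat_lit 331))))) (XT.nd (nat_lit 234) (nat_lit 152) (nat_lit 0) (XT.nd (nat_lit 78) (nat_lit 76) (nat_lit 0) (XT.lf (nat_lit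 0) (nat_lit 29575647195) (nat_lit 152) (nat_lit 8430238310) (nat_lit 0) (nat_lit 23701627533) (nat_lit 10) (nat_lit 5) (nat_lit 12) (nat_lit 4) (nat_lit 10) (nat_lit 4) (nat_lit 489) (nat_lit 381) (nat_lit 330)) (XT.nd (nat_lit 78) (nat_lit 0) (nat_lit 0) (XT.lf (nat_lit 0) (nat_lit 7241995384) (nat_lit 76) (nat_lit 31524227003) (nat_lit 76) (nat_lit 25624872584) (nat_lit 9) (nat_lit 4) (nat_lit 10) (nat_lit 5) (nat_lit 10) (nat_lit 4) (nat_lit 490) (nat_lit 381) (nat_lit 329)) (XT.lf (nat_lit 0) (nat_lit 23881648166) (nat_lit 76) (nat_lit 24623134516) (nat_lit 76) (nat_lit 18699651756) (nat_lit 9) (nat_lit 4) (nat_lit 10) (nat_lit 5) (nat_lit 10) (nat_lit 4) (nat_lit 491) (nat_lit 381) (nat_lit 328)))) (XT.nd (nat_lit 156) (nat_lit 152) (nat_lit 0) (XT.nd (nat_lit 78) (nat_lit 0) (nat_lit 0) (XT.lf (nat_lit 0) (nat_lit 41249596504) (nat_lit 76) (nat_lit 17428947037) (nat_lit 76) (nat_lit 11482484906)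 (nat_lit 9) (nat_lit 4) (nat_lit 10) (nat_lit 5) (nat_lit 10) (nat_lit 4) (nat_lit 492) (nat_lit 381) (nat_lit 327)) (XT.lf (nat_lit 0) (nat_lit 59387192656) (nat_lit 76) (nat_lit 9924535549) (nat_lit 76) (nat_lit 3956188302) (nat_lit 9) (nat_lit 4) (nat_lit 10) (nat_lit 5) (nat_lit 10) (nat_lit 4) (nat_lit 493) (nat_lit 381) (nat_lit 326))) (XT.nd (nat_lit 78) (nat_lit 0) (nat_lit 0) (XT.lf (nat_lit 0) (nat_lit 1801953616) (nat_lit 76) (nat_lit 1998604349) (nat_lit 152) (nat_lit 72727489051) (nat_lit 7) (nat_lit 5) (nat_lit 8) (nat_lit 5) (nat_lit 9) (nat_lit 4) (nat_lit 494) (nat_lit 381) (nat_lit 325)) (XT.lf (nat_lit 0) (nat_lit 12102224253) (nat_lit 152) (nat_lit 61451887790) (nat_lit 0) (nat_lit 6379328386) (nat_lit 7) (nat_lit 5) (nat_lit 9) (nat_lit 4) (nat_lit 7) (nat_lit 4) (nat_lit 495) (nat_lit 381) (nat_lit 324))))))) (XT.nd (nat_lit 1092) (nat_lit 76) (nat_lit 0) (XT.nd (nat_lit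 546) (nat_lit 152) (nat_lit 0) (XT.nd (nat_lit 234) (nat_lit 76) (nat_lit 0) (XT.nd (nat_lit 78) (nat_lit 0) (nat_lit 0) (XT.lf (nat_lit 0) (nat_lit 20806382238) (nat_lit 152) (nat_lit 47637870358) (nat_lit 0) (nat_lit 15065481433) (nat_lit 7) (nat_lit 5) (nat_lit 9) (nat_lit 4) (nat_lit 7) (nat_lit 4) (nat_lit 496) (nat_lit 381) (nat_lit 323)) (XT.nd (nat_lit 78) (nat_lit 0) (nat_lit 0) (XT.lf (nat_lit 0) (nat_lit 29902552293) (nat_lit 152) (nat_lit 33219946773) (nat_lit 0) (nat_lit 24144503926) (nat_lit 7) (nat_lit 5) (nat_lit 9) (nat_lit 4) (nat_lit 7) (nat_lit 4) (nat_lit 497) (nat_lit 381) (nat_lit 322)) (XT.lf (nat_lit 0) (nat_lit 39412391964) (nat_lit 152) (nat_lit 18163788646) (nat_lit 0) (nat_lit 33638012588) (nat_lit 7) (nat_lit 5) (nat_lit 9) (nat_lit 4) (nat_lit 7) (nat_lit 4) (nat_lit 498) (nat_lit 381) (nat_lit 321)))) (XT.nd (nat_lit 156) (nat_lit 0) (nat_lit 0) (XT.nd (nat_lit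 78) (nat_lit 76) (nat_lit 0) (XT.lf (nat_lit 0) (nat_lit 49358543729) (nat_lit 152) (nat_lit 2433547981) (nat_lit 0) (nat_lit 43568611009) (nat_lit 7) (nat_lit 5) (nat_lit 9) (nat_lit 4) (nat_lit 7) (nat_lit 4) (nat_lit 499) (nat_lit 381) (nat_lit 320)) (XT.lf (nat_lit 0) (nat_lit 14471403462) (nat_lit 76) (nat_lit 45519224601) (nat_lit 76) (nat_lit 39714479173) (nat_lit 6) (nat_lit 4) (nat_lit 7) (nat_lit 5) (nat_lit 7) (nat_lit 4) (nat_lit 500) (nat_lit 381) (nat_lit 319))) (XT.nd (nat_lit 78) (nat_lit 0) (nat_lit 0) (XT.lf (nat_lit 0) (nat_lit 32232322526) (nat_lit 76) (nat_lit 38926518371) (nat_lit 76) (nat_lit 33107665603) (nat_lit 6) (nat_lit 4) (nat_lit 7) (nat_lit 5) (nat_lit 7) (nat_lit 4) (nat_lit 501) (nat_lit 381) (nat_lit 318)) (XT.lf (nat_lit 0) (nat_lit 50811033027) (nat_lit 76) (nat_lit 32039489413) (nat_lit 76) (nat_lit 26207201082) (nat_lit 6) (nat_lit 4) (nat_lit 7) (nat_lit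 5) (nat_lit 7) (nat_lit 4) (nat_lit 502) (nat_lit 381) (nat_lit 317))))) (XT.nd (nat_lit 234) (nat_lit 152) (nat_lit 0) (XT.nd (nat_lit 78) (nat_lit 0) (nat_lit 0) (XT.lf (nat_lit 0) (nat_lit 70251769990) (nat_lit 76) (nat_lit 24841740039) (nat_lit 76) (nat_lit 18996655934) (nat_lit 6) (nat_lit 4) (nat_lit 7) (nat_lit 5) (nat_lit 7) (nat_lit 4) (nat_lit 503) (nat_lit 381) (nat_lit 316)) (XT.nd (nat_lit 78) (nat_lit 0) (nat_lit 0) (XT.lf (nat_lit 0) (nat_lit 90600820884) (nat_lit 76) (nat_lit 17316132750) (nat_lit 76) (nat_lit 11458862194) (nat_lit 6) (nat_lit 4) (nat_lit 7) (nat_lit 5) (nat_lit 7) (nat_lit 4) (nat_lit 504) (nat_lit 381) (nat_lit 315)) (XT.lf (nat_lit 0) (nat_lit 111906635829) (nat_lit 76) (nat_lit 9444749435) (nat_lit 76) (nat_lit 3575872734) (nat_lit 6) (nat_lit 4) (nat_lit 7) (nat_lit 5) (nat_lit 7) (nat_lit 4) (nat_lit 505) (nat_lit 381) (nat_lit 314)))) (XT.nd (nat_lit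 156) (nat_lit 0) (nat_lit 0) (XT.nd (nat_lit 78) (nat_lit 0) (nat_lit 0) (XT.lf (nat_lit 0) (nat_lit 3501369792) (nat_lit 76) (nat_lit 1074874092) (nat_lit 152) (nat_lit 126175086565) (nat_lit 4) (nat_lit 5) (nat_lit 5) (nat_lit 5) (nat_lit 6) (nat_lit 4) (nat_lit 506) (nat_lit 381) (nat_lit 313)) (XT.lf (nat_lit 0) (nat_lit 13331164205) (nat_lit 152) (nat_lit 115795538379) (nat_lit 0) (nat_lit 7721204884) (nat_lit 4) (nat_lit 5) (nat_lit 6) (nat_lit 4) (nat_lit 4) (nat_lit 4) (nat_lit 507) (nat_lit 381) (nat_lit 312))) (XT.nd (nat_lit 78) (nat_lit 0) (nat_lit 0) (XT.lf (nat_lit 0) (nat_lit 22513657052) (nat_lit 152) (nat_lit 103842016131) (nat_lit 0) (nat_lit 16894149328) (nat_lit 4) (nat_lit 5) (nat_lit 6) (nat_lit 4) (nat_lit 4) (nat_lit 4) (nat_lit 508) (nat_lit 381) (nat_lit 311)) (XT.lf (nat_lit 0) (nat_lit 32128803707) (nat_lit 152) (nat_lit 91344151347) (nat_lit 0) (nat_lit 26500202265)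 (nat_lit 4) (nat_lit 5) (nat_lit 6) (nat_lit 4) (nat_lit 4) (nat_lit 4) (nat_lit 509) (nat_lit 381) (nat_lit 310)))))) (XT.nd (nat_lit 546) (nat_lit 0) (nat_lit 0) (XT.nd (nat_lit 234) (nat_lit 76) (nat_lit 0) (XT.nd (nat_lit 78) (nat_lit 0) (nat_lit 0) (XT.lf (nat_lit 0) (nat_lit 42199497376) (nat_lit 152) (nat_lit 78272187208) (nat_lit 0) (nat_lit 36562235251) (nat_lit 4) (nat_lit 5) (nat_lit 6) (nat_lit 4) (nat_lit 4) (nat_lit 4) (nat_lit 510) (nat_lit 381) (nat_lit 309)) (XT.nd (nat_lit 78) (nat_lit 0) (nat_lit 0) (XT.lf (nat_lit 0) (nat_lit 52749715902) (nat_lit 152) (nat_lit 64594999990) (nat_lit 0) (nat_lit 47104205506) (nat_lit 4) (nat_lit 5) (nat_lit 6) (nat_lit 4) (nat_lit 4) (nat_lit 4) (nat_lit 511) (nat_lit 381) (nat_lit 308)) (XT.lf (nat_lit 0) (nat_lit 63804578851) (nat_lit 152) (nat_lit 50280024960) (nat_lit 0) (nat_lit 58151212961) (nat_lit 4) (nat_lit 5) (nat_lit 6) (nat_lit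 4) (nat_lit 4) (nat_lit 4) (nat_lit 512) (nat_lit 381) (nat_lit 307)))) (XT.nd (nat_lit 156) (nat_lit 76) (nat_lit 0) (XT.nd (nat_lit 78) (nat_lit 0) (nat_lit 0) (XT.lf (nat_lit 0) (nat_lit 75390407327) (nat_lit 152) (nat_lit 35293178845) (nat_lit 0) (nat_lit 69729560013) (nat_lit 4) (nat_lit 5) (nat_lit 6) (nat_lit 4) (nat_lit 4) (nat_lit 4) (nat_lit 513) (nat_lit 381) (nat_lit 306)) (XT.lf (nat_lit 0) (nat_lit 87534786636) (nat_lit 152) (nat_lit 19598778678) (nat_lit 0) (nat_lit 81866814156) (nat_lit 4) (nat_lit 5) (nat_lit 6) (nat_lit 4) (nat_lit 4) (nat_lit 4) (nat_lit 514) (nat_lit 381) (nat_lit 305))) (XT.nd (nat_lit 78) (nat_lit 76) (nat_lit 0) (XT.lf (nat_lit 0) (nat_lit 100266631966) (nat_lit 152) (nat_lit 3159456839) (nat_lit 0) (nat_lit 94591873613) (nat_lit 4) (nat_lit 5) (nat_lit 6) (nat_lit 4) (nat_lit 4) (nat_lit 4) (nat_lit 515) (nat_lit 381) (nat_lit 304)) (XT.lf (nat_lit 0)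 (nat_lit 14528944884) (nat_lit 76) (nat_lit 99314149897) (nat_lit 76) (nat_lit 93632928809) (nat_lit 3) (nat_lit 4) (nat_lit 4) (nat_lit 5) (nat_lit 4) (nat_lit 4) (nat_lit 516) (nat_lit 381) (nat_lit 303))))) (XT.nd (nat_lit 234) (nat_lit 0) (nat_lit 0) (XT.nd (nat_lit 78) (nat_lit 0) (nat_lit 0) (XT.lf (nat_lit 0) (nat_lit 33174164065) (nat_lit 76) (nat_lit 94959224869) (nat_lit 76) (nat_lit 89271848796) (nat_lit 3) (nat_lit 4) (nat_lit 4) (nat_lit 5) (nat_lit 4) (nat_lit 4) (nat_lit 517) (nat_lit 381) (nat_lit 302)) (XT.nd (nat_lit 78) (nat_lit 0) (nat_lit 0) (XT.lf (nat_lit 0) (nat_lit 52716128170) (nat_lit 76) (nat_lit 90404451785) (nat_lit 76) (nat_lit 84711213820) (nat_lit 3) (nat_lit 4) (nat_lit 4) (nat_lit 5) (nat_lit 4) (nat_lit 4) (nat_lit 518) (nat_lit 381) (nat_lit 301)) (XT.lf (nat_lit 0) (nat_lit 73201365685) (nat_lit 76) (nat_lit 85638985945) (nat_lit 76) (nat_lit 79940165226)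 (nat_lit 3) (nat_lit 4) (nat_lit 4) (nat_lit 5) (nat_lit 4) (nat_lit 4) (nat_lit 519) (nat_lit 381) (nat_lit 300)))) (XT.nd (nat_lit 156) (nat_lit 0) (nat_lit 0) (XT.nd (nat_lit 78) (nat_lit 0) (nat_lit 0) (XT.lf (nat_lit 0) (nat_lit 94678650986) (nat_lit 76) (nat_lit 80651481003) (nat_lit 76) (nat_lit 74947343375) (nat_lit 3) (nat_lit 4) (nat_lit 4) (nat_lit 5) (nat_lit 4) (nat_lit 4) (nat_lit 520) (nat_lit 381) (nat_lit 299)) (XT.lf (nat_lit 0) (nat_lit 117199120466) (nat_lit 76) (nat_lit 75430061946) (nat_lit 76) (nat_lit 69720860596) (nat_lit 3) (nat_lit 4) (nat_lit 4) (nat_lit 5) (nat_lit 4) (nat_lit 4) (nat_lit 521) (nat_lit 381) (nat_lit 298))) (XT.nd (nat_lit 78) (nat_lit 0) (nat_lit 0) (XT.lf (nat_lit 0) (nat_lit 140816394290) (nat_lit 76) (nat_lit 69962296825) (nat_lit 76) (nat_lit 64248272883) (nat_lit 3) (nat_lit 4) (nat_lit 4) (nat_lit 5) (nat_lit 4) (nat_lit 4) (nat_lit 522) (nat_lit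 381) (nat_lit 297)) (XT.lf (nat_lit 0) (nat_lit 165586704063) (nat_lit 76) (nat_lit 64235167151) (nat_lit 76) (nat_lit 58516550263) (nat_lit 3) (nat_lit 4) (nat_lit 4) (nat_lit 5) (nat_lit 4) (nat_lit 4) (nat_lit 523) (nat_lit 381) (nat_lit 296))))))))
noncomputable def xc53 : XT := (XT.nd (nat_lit 56082) (nat_lit 0) (nat_lit 1444) (XT.nd (nat_lit 1092) (nat_lit 0) (nat_lit 0) (XT.nd (nat_lit 546) (nat_lit 152) (nat_lit 0) (XT.nd (nat_lit 234) (nat_lit 0) (nat_lit 0) (XT.nd (nat_lit 78) (nat_lit 0) (nat_lit 0) (XT.lf (nat_lit 0) (nat_lit 191569026713) (nat_lit 76) (nat_lit 58235036901) (nat_lit 76) (nat_lit 52512045780) (nat_lit 3) (nat_lit 4) (nat_lit 4) (nat_lit 5) (nat_lit 4) (nat_lit 4) (nat_lit 524) (nat_lit 381) (nat_lit 295)) (XT.nd (nat_lit 78) (nat_lit 0) (nat_lit 0) (XT.lf (nat_lit 0) (nat_lit 218825224912) (nat_lit 76) (nat_lit 51947620051) (nat_lit 76) (nat_lit 46220462993) (nat_lit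 3) (nat_lit 4) (nat_lit 4) (nat_lit 5) (nat_lit 4) (nat_lit 4) (nat_lit 525) (nat_lit 381) (nat_lit 294)) (XT.lf (nat_lit 0) (nat_lit 247420194371) (nat_lit 76) (nat_lit 45357946561) (nat_lit 76) (nat_lit 39626821944) (nat_lit 3) (nat_lit 4) (nat_lit 4) (nat_lit 5) (nat_lit 4) (nat_lit 4) (nat_lit 526) (nat_lit 381) (nat_lit 293)))) (XT.nd (nat_lit 156) (nat_lit 0) (nat_lit 0) (XT.nd (nat_lit 78) (nat_lit 0) (nat_lit 0) (XT.lf (nat_lit 0) (nat_lit 277422018351) (nat_lit 76) (nat_lit 38450326732) (nat_lit 76) (nat_lit 32715423487) (nat_lit 3) (nat_lit 4) (nat_lit 4) (nat_lit 5) (nat_lit 4) (nat_lit 4) (nat_lit 527) (nat_lit 381) (nat_lit 292)) (XT.lf (nat_lit 0) (nat_lit 308902129765) (nat_lit 76) (nat_lit 31208313849) (nat_lit 76) (nat_lit 25469811912) (nat_lit 3) (nat_lit 4) (nat_lit 4) (nat_lit 5) (nat_lit 4) (nat_lit 4) (nat_lit 528) (nat_lit 381) (nat_lit 291))) (XT.nd (nat_lit 78) (nat_lit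 0) (nat_lit 0) (XT.lf (nat_lit 0) (nat_lit 341935481260) (nat_lit 76) (nat_lit 23614665026) (nat_lit 76) (nat_lit 17872735762) (nat_lit 3) (nat_lit 4) (nat_lit 4) (nat_lit 5) (nat_lit 4) (nat_lit 4) (nat_lit 529) (nat_lit 381) (nat_lit 290)) (XT.lf (nat_lit 0) (nat_lit 376600723672) (nat_lit 76) (nat_lit 15651300146) (nat_lit 76) (nat_lit 9906106761) (nat_lit 3) (nat_lit 4) (nat_lit 4) (nat_lit 5) (nat_lit 4) (nat_lit 4) (nat_lit 530) (nat_lit 381) (nat_lit 289))))) (XT.nd (nat_lit 234) (nat_lit 0) (nat_lit 0) (XT.nd (nat_lit 78) (nat_lit 152) (nat_lit 0) (XT.lf (nat_lit 0) (nat_lit 412980393294) (nat_lit 76) (nat_lit 7299258816) (nat_lit 76) (nat_lit 1550956745) (nat_lit 3) (nat_lit 4) (nat_lit 4) (nat_lit 5) (nat_lit 4) (nat_lit 4) (nat_lit 531) (nat_lit 381) (nat_lit 288)) (XT.nd (nat_lit 78) (nat_lit 0) (nat_lit 0) (XT.lf (nat_lit 0) (nat_lit 7146770643) (nat_lit 152) (nat_lit 433657126862)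 (nat_lit 0) (nat_lit 1669377572) (nat_lit 1) (nat_lit 5) (nat_lit 3) (nat_lit 4) (nat_lit 1) (nat_lit 4) (nat_lit 532) (nat_lit 381) (nat_lit 287)) (XT.lf (nat_lit 0) (nat_lit 16490226863) (nat_lit 152) (nat_lit 436633279979) (nat_lit 0) (nat_lit 11010148392) (nat_lit 1) (nat_lit 5) (nat_lit 3) (nat_lit 4) (nat_lit 1) (nat_lit 4) (nat_lit 533) (nat_lit 381) (nat_lit 286)))) (XT.nd (nat_lit 156) (nat_lit 0) (nat_lit 0) (XT.nd (nat_lit 78) (nat_lit 0) (nat_lit 0) (XT.lf (nat_lit 0) (nat_lit 26292251153) (nat_lit 152) (nat_lit 439775618458) (nat_lit 0) (nat_lit 20809615158) (nat_lit 1) (nat_lit 5) (nat_lit 3) (nat_lit 4) (nat_lit 1) (nat_lit 4) (nat_lit 534) (nat_lit 381) (nat_lit 285)) (XT.lf (nat_lit 0) (nat_lit 36576181666) (nat_lit 152) (nat_lit 443091624056) (nat_lit 0) (nat_lit 31091109935) (nat_lit 1) (nat_lit 5) (nat_lit 3) (nat_lit 4) (nat_lit 1) (nat_lit 4) (nat_lit 535) (nat_lit 381)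 (nat_lit 284))) (XT.nd (nat_lit 78) (nat_lit 0) (nat_lit 0) (XT.lf (nat_lit 0) (nat_lit 47366503952) (nat_lit 152) (nat_lit 446589192026) (nat_lit 0) (nat_lit 41879112471) (nat_lit 1) (nat_lit 5) (nat_lit 3) (nat_lit 4) (nat_lit 1) (nat_lit 4) (nat_lit 536) (nat_lit 381) (nat_lit 283)) (XT.lf (nat_lit 0) (nat_lit 58688909253) (nat_lit 152) (nat_lit 450276649909) (nat_lit 0) (nat_lit 53199308487) (nat_lit 1) (nat_lit 5) (nat_lit 3) (nat_lit 4) (nat_lit 1) (nat_lit 4) (nat_lit 537) (nat_lit 381) (nat_lit 282)))))) (XT.nd (nat_lit 546) (nat_lit 0) (nat_lit 0) (XT.nd (nat_lit 234) (nat_lit 0) (nat_lit 0) (XT.nd (nat_lit 78) (nat_lit 0) (nat_lit 0) (XT.lf (nat_lit 0) (nat_lit 70570355678) (nat_lit 152) (nat_lit 454162777368) (nat_lit 0) (nat_lit 65078650831) (nat_lit 1) (nat_lit 5) (nat_lit 3) (nat_lit 4) (nat_lit 1) (nat_lit 4) (nat_lit 538) (nat_lit 381) (nat_lit 281)) (XT.nd (nat_lit 78) (nat_lit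 0) (nat_lit 0) (XT.lf (nat_lit 0) (nat_lit 83039132385) (nat_lit 152) (nat_lit 458256827086) (nat_lit 0) (nat_lit 77545423651) (nat_lit 1) (nat_lit 5) (nat_lit 3) (nat_lit 4) (nat_lit 1) (nat_lit 4) (nat_lit 539) (nat_lit 381) (nat_lit 280)) (XT.lf (nat_lit 0) (nat_lit 96124926937) (nat_lit 152) (nat_lit 462568546802) (nat_lit 0) (nat_lit 90629309739) (nat_lit 1) (nat_lit 5) (nat_lit 3) (nat_lit 4) (nat_lit 1) (nat_lit 4) (nat_lit 540) (nat_lit 381) (nat_lit 279)))) (XT.nd (nat_lit 156) (nat_lit 0) (nat_lit 0) (XT.nd (nat_lit 78) (nat_lit 0) (nat_lit 0) (XT.lf (nat_lit 0) (nat_lit 109858895988) (nat_lit 152) (nat_lit 467108202514) (nat_lit 0) (nat_lit 104361461205) (nat_lit 1) (nat_lit 5) (nat_lit 3) (nat_lit 4) (nat_lit 1) (nat_lit 4) (nat_lit 541) (nat_lit 381) (nat_lit 278)) (XT.lf (nat_lit 0) (nat_lit 124273739464) (nat_lit 152) (nat_lit 471886602927) (nat_lit 0) (nat_lit 118774573649)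 (nat_lit 1) (nat_lit 5) (nat_lit 3) (nat_lit 4) (nat_lit 1) (nat_lit 4) (nat_lit 542) (nat_lit 381) (nat_lit 277))) (XT.nd (nat_lit 78) (nat_lit 0) (nat_lit 0) (XT.lf (nat_lit 0) (nat_lit 139403778422) (nat_lit 152) (nat_lit 476915125185) (nat_lit 0) (nat_lit 133902964003) (nat_lit 1) (nat_lit 5) (nat_lit 3) (nat_lit 4) (nat_lit 1) (nat_lit 4) (nat_lit 543) (nat_lit 381) (nat_lit 276)) (XT.lf (nat_lit 0) (nat_lit 155285036762) (nat_lit 152) (nat_lit 482205741959) (nat_lit 0) (nat_lit 149782652247) (nat_lit 1) (nat_lit 5) (nat_lit 3) (nat_lit 4) (nat_lit 1) (nat_lit 4) (nat_lit 544) (nat_lit 381) (nat_lit 275))))) (XT.nd (nat_lit 54132) (nat_lit 0) (nat_lit 3952) (XT.nd (nat_lit 53976) (nat_lit 0) (nat_lit 4560) (XT.lf (nat_lit 0) (nat_lit 171955327007) (nat_lit 152) (nat_lit 487771049956) (nat_lit 0) (nat_lit 166451447160) (nat_lit 1) (nat_lit 5) (nat_lit 3) (nat_lit 4) (nat_lit 1) (nat_lit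 4) (nat_lit 545) (nat_lit 381) (nat_lit 274)) (XT.nd (nat_lit 78) (nat_lit 152) (nat_lit 0) (XT.lf (nat_lit 0) (nat_lit 1458852929) (nat_lit 228) (nat_lit 2288339944) (nat_lit 0) (nat_lit 1458852929) (nat_lit 63) (nat_lit 5) (nat_lit 66) (nat_lit 4) (nat_lit 63) (nat_lit 4) (nat_lit 436) (nat_lit 382) (nat_lit 382)) (XT.lf (nat_lit 0) (nat_lit 4515211187) (nat_lit 152) (nat_lit 3402333169) (nat_lit 152) (nat_lit 2736447321) (nat_lit 61) (nat_lit 4) (nat_lit 63) (nat_lit 5) (nat_lit 63) (nat_lit 4) (nat_lit 437) (nat_lit 382) (nat_lit 381)))) (XT.nd (nat_lit 156) (nat_lit 228) (nat_lit 0) (XT.nd (nat_lit 78) (nat_lit 152) (nat_lit 0) (XT.lf (nat_lit 0) (nat_lit 2148274887) (nat_lit 228) (nat_lit 7849799658) (nat_lit 0) (nat_lit 910119795) (nat_lit 58) (nat_lit 5) (nat_lit 61) (nat_lit 4) (nat_lit 58) (nat_lit 4) (nat_lit 438) (nat_lit 382) (nat_lit 380)) (XT.lf (nat_lit 0) (nat_lit 1394418395)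 (nat_lit 152) (nat_lit 5795800300) (nat_lit 152) (nat_lit 3982427977) (nat_lit 56) (nat_lit 4) (nat_lit 58) (nat_lit 5) (nat_lit 58) (nat_lit 4) (nat_lit 439) (nat_lit 382) (nat_lit 379))) (XT.nd (nat_lit 78) (nat_lit 152) (nat_lit 0) (XT.lf (nat_lit 0) (nat_lit 958591366) (nat_lit 228) (nat_lit 396085956) (nat_lit 76) (nat_lit 10096977022) (nat_lit 55) (nat_lit 5) (nat_lit 58) (nat_lit 5) (nat_lit 56) (nat_lit 4) (nat_lit 440) (nat_lit 382) (nat_lit 378)) (XT.lf (nat_lit 0) (nat_lit 6043821552) (nat_lit 228) (nat_lit 2397835604) (nat_lit 0) (nat_lit 3298167035) (nat_lit 53) (nat_lit 5) (nat_lit 56) (nat_lit 4) (nat_lit 53) (nat_lit 4) (nat_lit 441) (nat_lit 382) (nat_lit 377))))))) (XT.nd (nat_lit 1092) (nat_lit 988) (nat_lit 0) (XT.nd (nat_lit 546) (nat_lit 608) (nat_lit 0) (XT.nd (nat_lit 234) (nat_lit 456) (nat_lit 0) (XT.nd (nat_lit 78) (nat_lit 304) (nat_lit 0) (XT.lf (nat_lit 0) (nat_lit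 7460642696) (nat_lit 152) (nat_lit 3900880557) (nat_lit 152) (nat_lit 681993399) (nat_lit 51) (nat_lit 4) (nat_lit 53) (nat_lit 5) (nat_lit 53) (nat_lit 4) (nat_lit 442) (nat_lit 382) (nat_lit 376)) (XT.nd (nat_lit 78) (nat_lit 152) (nat_lit 0) (XT.lf (nat_lit 0) (nat_lit 4408839947) (nat_lit 152) (nat_lit 7037361537) (nat_lit 0) (nat_lit 913997175) (nat_lit 49) (nat_lit 5) (nat_lit 51) (nat_lit 4) (nat_lit 49) (nat_lit 4) (nat_lit 443) (nat_lit 382) (nat_lit 375)) (XT.lf (nat_lit 0) (nat_lit 2914293794) (nat_lit 152) (nat_lit 6840181578) (nat_lit 152) (nat_lit 2936542659) (nat_lit 47) (nat_lit 4) (nat_lit 49) (nat_lit 5) (nat_lit 49) (nat_lit 4) (nat_lit 444) (nat_lit 382) (nat_lit 374)))) (XT.nd (nat_lit 156) (nat_lit 304) (nat_lit 0) (XT.nd (nat_lit 78) (nat_lit 0) (nat_lit 0) (XT.lf (nat_lit 0) (nat_lit 247684217) (nat_lit 76) (nat_lit 1967268368) (nat_lit 152) (nat_lit 10823602887) (nat_lit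 45) (nat_lit 5) (nat_lit 46) (nat_lit 5) (nat_lit 47) (nat_lit 4) (nat_lit 445) (nat_lit 382) (nat_lit 373)) (XT.lf (nat_lit 0) (nat_lit 7579488491) (nat_lit 152) (nat_lit 2681071517) (nat_lit 0) (nat_lit 3137813501) (nat_lit 45) (nat_lit 5) (nat_lit 47) (nat_lit 4) (nat_lit 45) (nat_lit 4) (nat_lit 446) (nat_lit 382) (nat_lit 372))) (XT.nd (nat_lit 78) (nat_lit 152) (nat_lit 0) (XT.lf (nat_lit 0) (nat_lit 7869463034) (nat_lit 152) (nat_lit 5342375078) (nat_lit 152) (nat_lit 564382486) (nat_lit 43) (nat_lit 4) (nat_lit 45) (nat_lit 5) (nat_lit 45) (nat_lit 4) (nat_lit 447) (nat_lit 382) (nat_lit 371)) (XT.lf (nat_lit 0) (nat_lit 4655930821) (nat_lit 76) (nat_lit 102228150) (nat_lit 152) (nat_lit 9412758766) (nat_lit 41) (nat_lit 5) (nat_lit 42) (nat_lit 5) (nat_lit 43) (nat_lit 4) (nat_lit 448) (nat_lit 382) (nat_lit 370))))) (XT.nd (nat_lit 234) (nat_lit 304) (nat_lit 0) (XT.nd (nat_lit 78)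 (nat_lit 152) (nat_lit 0) (XT.lf (nat_lit 0) (nat_lit 1023072470) (nat_lit 152) (nat_lit 9352737599) (nat_lit 152) (nat_lit 4206694694) (nat_lit 39) (nat_lit 4) (nat_lit 41) (nat_lit 5) (nat_lit 41) (nat_lit 4) (nat_lit 449) (nat_lit 382) (nat_lit 369)) (XT.nd (nat_lit 78) (nat_lit 76) (nat_lit 0) (XT.lf (nat_lit 0) (nat_lit 1231259196) (nat_lit 228) (nat_lit 2898650874) (nat_lit 76) (nat_lit 10883196230) (nat_lit 38) (nat_lit 5) (nat_lit 41) (nat_lit 5) (nat_lit 39) (nat_lit 4) (nat_lit 450) (nat_lit 382) (nat_lit 368)) (XT.lf (nat_lit 0) (nat_lit 6804175362) (nat_lit 152) (nat_lit 7268702540) (nat_lit 0) (nat_lit 1388703105) (nat_lit 37) (nat_lit 5) (nat_lit 39) (nat_lit 4) (nat_lit 37) (nat_lit 4) (nat_lit 451) (nat_lit 382) (nat_lit 367)))) (XT.nd (nat_lit 156) (nat_lit 152) (nat_lit 0) (XT.nd (nat_lit 78) (nat_lit 76) (nat_lit 0) (XT.lf (nat_lit 0) (nat_lit 3788726293) (nat_lit 76) (nat_lit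 8898342947) (nat_lit 76) (nat_lit 3243856050) (nat_lit 36) (nat_lit 4) (nat_lit 37) (nat_lit 5) (nat_lit 37) (nat_lit 4) (nat_lit 452) (nat_lit 382) (nat_lit 366)) (XT.lf (nat_lit 0) (nat_lit 2342332777) (nat_lit 152) (nat_lit 1080337693) (nat_lit 76) (nat_lit 13000169101) (nat_lit 35) (nat_lit 5) (nat_lit 37) (nat_lit 5) (nat_lit 36) (nat_lit 4) (nat_lit 453) (nat_lit 382) (nat_lit 365))) (XT.nd (nat_lit 78) (nat_lit 76) (nat_lit 0) (XT.lf (nat_lit 0) (nat_lit 8163505566) (nat_lit 152) (nat_lit 6414944587) (nat_lit 0) (nat_lit 2355016791) (nat_lit 34) (nat_lit 5) (nat_lit 36) (nat_lit 4) (nat_lit 34) (nat_lit 4) (nat_lit 454) (nat_lit 382) (nat_lit 364)) (XT.lf (nat_lit 0) (nat_lit 5111661719) (nat_lit 76) (nat_lit 9181124231) (nat_lit 76) (nat_lit 3175997519) (nat_lit 33) (nat_lit 4) (nat_lit 34) (nat_lit 5) (nat_lit 34) (nat_lit 4) (nat_lit 455) (nat_lit 382) (nat_lit 363)))))) (XT.nd (nat_lit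 546) (nat_lit 532) (nat_lit 0) (XT.nd (nat_lit 234) (nat_lit 228) (nat_lit 0) (XT.nd (nat_lit 78) (nat_lit 152) (nat_lit 0) (XT.lf (nat_lit 0) (nat_lit 2584584950) (nat_lit 152) (nat_lit 894001788) (nat_lit 76) (nat_lit 14551519330) (nat_lit 32) (nat_lit 5) (nat_lit 34) (nat_lit 5) (nat_lit 33) (nat_lit 4) (nat_lit 456) (nat_lit 382) (nat_lit 362)) (XT.nd (nat_lit 78) (nat_lit 76) (nat_lit 0) (XT.lf (nat_lit 0) (nat_lit 8611722642) (nat_lit 152) (nat_lit 7456579997) (nat_lit 0) (nat_lit 2544334698) (nat_lit 31) (nat_lit 5) (nat_lit 33) (nat_lit 4) (nat_lit 31) (nat_lit 4) (nat_lit 457) (nat_lit 382) (nat_lit 361)) (XT.lf (nat_lit 0) (nat_lit 4451242256) (nat_lit 76) (nat_lit 10500815873) (nat_lit 76) (nat_lit 4271653411) (nat_lit 30) (nat_lit 4) (nat_lit 31) (nat_lit 5) (nat_lit 31) (nat_lit 4) (nat_lit 458) (nat_lit 382) (nat_lit 360)))) (XT.nd (nat_lit 156) (nat_lit 76) (nat_lit 0) (XT.nd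 (nat_lit 78) (nat_lit 76) (nat_lit 0) (XT.lf (nat_lit 0) (nat_lit 1686781717) (nat_lit 152) (nat_lit 2925330910) (nat_lit 76) (nat_lit 15251946373) (nat_lit 29) (nat_lit 5) (nat_lit 31) (nat_lit 5) (nat_lit 30) (nat_lit 4) (nat_lit 459) (nat_lit 382) (nat_lit 359)) (XT.lf (nat_lit 0) (nat_lit 7850743417) (nat_lit 152) (nat_lit 11047901738) (nat_lit 0) (nat_lit 1631726573) (nat_lit 28) (nat_lit 5) (nat_lit 30) (nat_lit 4) (nat_lit 28) (nat_lit 4) (nat_lit 460) (nat_lit 382) (nat_lit 358))) (XT.nd (nat_lit 78) (nat_lit 0) (nat_lit 0) (XT.lf (nat_lit 0) (nat_lit 1104756033) (nat_lit 76) (nat_lit 13238179261) (nat_lit 76) (nat_lit 6886070121) (nat_lit 27) (nat_lit 4) (nat_lit 28) (nat_lit 5) (nat_lit 28) (nat_lit 4) (nat_lit 461) (nat_lit 382) (nat_lit 357)) (XT.lf (nat_lit 0) (nat_lit 14013576505) (nat_lit 76) (nat_lit 7212279314) (nat_lit 76) (nat_lit 733415608) (nat_lit 27) (nat_lit 4) (nat_lit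 28) (nat_lit 5) (nat_lit 28) (nat_lit 4) (nat_lit 462) (nat_lit 382) (nat_lit 356))))) (XT.nd (nat_lit 312) (nat_lit 228) (nat_lit 0) (XT.nd (nat_lit 156) (nat_lit 152) (nat_lit 0) (XT.nd (nat_lit 78) (nat_lit 0) (nat_lit 0) (XT.lf (nat_lit 0) (nat_lit 4674265491) (nat_lit 76) (nat_lit 825172476) (nat_lit 152) (nat_lit 17224355031) (nat_lit 25) (nat_lit 5) (nat_lit 26) (nat_lit 5) (nat_lit 27) (nat_lit 4) (nat_lit 463) (nat_lit 382) (nat_lit 355)) (XT.lf (nat_lit 0) (nat_lit 12131141006) (nat_lit 152) (nat_lit 5652882329) (nat_lit 0) (nat_lit 5736329129) (nat_lit 25) (nat_lit 5) (nat_lit 27) (nat_lit 4) (nat_lit 25) (nat_lit 4) (nat_lit 464) (nat_lit 382) (nat_lit 354))) (XT.nd (nat_lit 78) (nat_lit 76) (nat_lit 0) (XT.lf (nat_lit 0) (nat_lit 7368675304) (nat_lit 76) (nat_lit 11743146777) (nat_lit 76) (nat_lit 5244053604) (nat_lit 24) (nat_lit 4) (nat_lit 25) (nat_lit 5) (nat_lit 25) (nat_lit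 4) (nat_lit 465) (nat_lit 382) (nat_lit 353)) (XT.lf (nat_lit 0) (nat_lit 1155972311) (nat_lit 152) (nat_lit 4228665455) (nat_lit 76) (nat_lit 19848284664) (nat_lit 23) (nat_lit 5) (nat_lit 25) (nat_lit 5) (nat_lit 24) (nat_lit 4) (nat_lit 466) (nat_lit 382) (nat_lit 352)))) (XT.nd (nat_lit 156) (nat_lit 152) (nat_lit 0) (XT.nd (nat_lit 78) (nat_lit 0) (nat_lit 0) (XT.lf (nat_lit 0) (nat_lit 7759517136) (nat_lit 152) (nat_lit 17001786768) (nat_lit 0) (nat_lit 1385236277) (nat_lit 22) (nat_lit 5) (nat_lit 24) (nat_lit 4) (nat_lit 22) (nat_lit 4) (nat_lit 467) (nat_lit 382) (nat_lit 351)) (XT.lf (nat_lit 0) (nat_lit 14748864167) (nat_lit 152) (nat_lit 4065407044) (nat_lit 0) (nat_lit 8288790827) (nat_lit 22) (nat_lit 5) (nat_lit 24) (nat_lit 4) (nat_lit 22) (nat_lit 4) (nat_lit 468) (nat_lit 382) (nat_lit 350))) (XT.nd (nat_lit 78) (nat_lit 76) (nat_lit 0) (XT.lf (nat_lit 0) (nat_lit 9628482148)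 (nat_lit 76) (nat_lit 12509108475) (nat_lit 76) (nat_lit 5967328011) (nat_lit 21) (nat_lit 4) (nat_lit 22) (nat_lit 5) (nat_lit 22) (nat_lit 4) (nat_lit 469) (nat_lit 382) (nat_lit 349)) (XT.lf (nat_lit 0) (nat_lit 684925971) (nat_lit 152) (nat_lit 5215498531) (nat_lit 76) (nat_lit 23257386132) (nat_lit 20) (nat_lit 5) (nat_lit 22) (nat_lit 5) (nat_lit 21) (nat_lit 4) (nat_lit 470) (nat_lit 382) (nat_lit 348))))))))
noncomputable def xc54 : XT := (XT.nd (nat_lit 2184) (nat_lit 304) (nat_lit 0) (XT.nd (nat_lit 1092) (nat_lit 380) (nat_lit 0) (XT.nd (nat_lit 546) (nat_lit 304) (nat_lit 0) (XT.nd (nat_lit 234) (nat_lit 152) (nat_lit 0) (XT.nd (nat_lit 78) (nat_lit 76) (nat_lit 0) (XT.lf (nat_lit 0) (nat_lit 7528184678) (nat_lit 152) (nat_lit 21574103192) (nat_lit 0) (nat_lit 1153225114) (nat_lit 19) (nat_lit 5) (nat_lit 21) (nat_lit 4) (nat_lit 19) (nat_lit 4) (nat_lit 471) (nat_lit 382) (nat_lit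 347)) (XT.nd (nat_lit 78) (nat_lit 76) (nat_lit 0) (XT.lf (nat_lit 0) (nat_lit 14804828030) (nat_lit 152) (nat_lit 8236067022) (nat_lit 0) (nat_lit 8362647812) (nat_lit 19) (nat_lit 5) (nat_lit 21) (nat_lit 4) (nat_lit 19) (nat_lit 4) (nat_lit 472) (nat_lit 382) (nat_lit 346)) (XT.lf (nat_lit 0) (nat_lit 5774214716) (nat_lit 76) (nat_lit 16670496187) (nat_lit 76) (nat_lit 10164296299) (nat_lit 18) (nat_lit 4) (nat_lit 19) (nat_lit 5) (nat_lit 19) (nat_lit 4) (nat_lit 473) (nat_lit 382) (nat_lit 345)))) (XT.nd (nat_lit 156) (nat_lit 0) (nat_lit 0) (XT.nd (nat_lit 78) (nat_lit 152) (nat_lit 0) (XT.lf (nat_lit 0) (nat_lit 20594375653) (nat_lit 76) (nat_lit 9922514094) (nat_lit 76) (nat_lit 3355343092) (nat_lit 18) (nat_lit 4) (nat_lit 19) (nat_lit 5) (nat_lit 19) (nat_lit 4) (nat_lit 474) (nat_lit 382) (nat_lit 344)) (XT.lf (nat_lit 0) (nat_lit 750694297) (nat_lit 76) (nat_lit 2847321813) (nat_lit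 152) (nat_lit 31601375136) (nat_lit 16) (nat_lit 5) (nat_lit 17) (nat_lit 5) (nat_lit 18) (nat_lit 4) (nat_lit 475) (nat_lit 382) (nat_lit 343))) (XT.nd (nat_lit 78) (nat_lit 0) (nat_lit 0) (XT.lf (nat_lit 0) (nat_lit 11000219973) (nat_lit 152) (nat_lit 20941443488) (nat_lit 0) (nat_lit 4637799661) (nat_lit 16) (nat_lit 5) (nat_lit 18) (nat_lit 4) (nat_lit 16) (nat_lit 4) (nat_lit 476) (nat_lit 382) (nat_lit 342)) (XT.lf (nat_lit 0) (nat_lit 18737166544) (nat_lit 152) (nat_lit 6968557884) (nat_lit 0) (nat_lit 12324585146) (nat_lit 16) (nat_lit 5) (nat_lit 18) (nat_lit 4) (nat_lit 16) (nat_lit 4) (nat_lit 477) (nat_lit 382) (nat_lit 341))))) (XT.nd (nat_lit 234) (nat_lit 152) (nat_lit 0) (XT.nd (nat_lit 78) (nat_lit 76) (nat_lit 0) (XT.lf (nat_lit 0) (nat_lit 7797243805) (nat_lit 76) (nat_lit 19107315475) (nat_lit 76) (nat_lit 12646961614) (nat_lit 15) (nat_lit 4) (nat_lit 16) (nat_lit 5) (nat_lit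 16) (nat_lit 4) (nat_lit 478) (nat_lit 382) (nat_lit 340)) (XT.nd (nat_lit 78) (nat_lit 76) (nat_lit 0) (XT.lf (nat_lit 0) (nat_lit 23390484140) (nat_lit 76) (nat_lit 12131050892) (nat_lit 76) (nat_lit 5625199447) (nat_lit 15) (nat_lit 4) (nat_lit 16) (nat_lit 5) (nat_lit 16) (nat_lit 4) (nat_lit 479) (nat_lit 382) (nat_lit 339)) (XT.lf (nat_lit 0) (nat_lit 1617368544) (nat_lit 152) (nat_lit 3233576962) (nat_lit 76) (nat_lit 37973118424) (nat_lit 14) (nat_lit 5) (nat_lit 16) (nat_lit 5) (nat_lit 15) (nat_lit 4) (nat_lit 480) (nat_lit 382) (nat_lit 338)))) (XT.nd (nat_lit 156) (nat_lit 76) (nat_lit 0) (XT.nd (nat_lit 78) (nat_lit 0) (nat_lit 0) (XT.lf (nat_lit 0) (nat_lit 9199390308) (nat_lit 152) (nat_lit 32450171183) (nat_lit 0) (nat_lit 2922771139) (nat_lit 13) (nat_lit 5) (nat_lit 15) (nat_lit 4) (nat_lit 13) (nat_lit 4) (nat_lit 481) (nat_lit 382) (nat_lit 337)) (XT.lf (nat_lit 0) (nat_lit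 17225019495) (nat_lit 152) (nat_lit 18268802553) (nat_lit 0) (nat_lit 10910969350) (nat_lit 13) (nat_lit 5) (nat_lit 15) (nat_lit 4) (nat_lit 13) (nat_lit 4) (nat_lit 482) (nat_lit 382) (nat_lit 336))) (XT.nd (nat_lit 78) (nat_lit 76) (nat_lit 0) (XT.lf (nat_lit 0) (nat_lit 25584618431) (nat_lit 152) (nat_lit 3512702374) (nat_lit 0) (nat_lit 19234919739) (nat_lit 13) (nat_lit 5) (nat_lit 15) (nat_lit 4) (nat_lit 13) (nat_lit 4) (nat_lit 483) (nat_lit 382) (nat_lit 335)) (XT.lf (nat_lit 0) (nat_lit 12245185329) (nat_lit 76) (nat_lit 22244087256) (nat_lit 76) (nat_lit 15860437566) (nat_lit 12) (nat_lit 4) (nat_lit 13) (nat_lit 5) (nat_lit 13) (nat_lit 4) (nat_lit 484) (nat_lit 382) (nat_lit 334)))))) (XT.nd (nat_lit 546) (nat_lit 152) (nat_lit 0) (XT.nd (nat_lit 234) (nat_lit 76) (nat_lit 0) (XT.nd (nat_lit 78) (nat_lit 152) (nat_lit 0) (XT.lf (nat_lit 0) (nat_lit 28787044171) (nat_lit 76) (nat_lit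 15048585603) (nat_lit 76) (nat_lit 8632601629) (nat_lit 12) (nat_lit 4) (nat_lit 13) (nat_lit 5) (nat_lit 13) (nat_lit 4) (nat_lit 485) (nat_lit 382) (nat_lit 333)) (XT.nd (nat_lit 78) (nat_lit 152) (nat_lit 0) (XT.lf (nat_lit 0) (nat_lit 46036113725) (nat_lit 76) (nat_lit 7553173014) (nat_lit 76) (nat_lit 1106394485) (nat_lit 12) (nat_lit 4) (nat_lit 13) (nat_lit 5) (nat_lit 13) (nat_lit 4) (nat_lit 486) (nat_lit 382) (nat_lit 332)) (XT.lf (nat_lit 0) (nat_lit 6639255474) (nat_lit 152) (nat_lit 49915376820) (nat_lit 0) (nat_lit 471534828) (nat_lit 10) (nat_lit 5) (nat_lit 12) (nat_lit 4) (nat_lit 10) (nat_lit 4) (nat_lit 487) (nat_lit 382) (nat_lit 331)))) (XT.nd (nat_lit 156) (nat_lit 76) (nat_lit 0) (XT.nd (nat_lit 78) (nat_lit 0) (nat_lit 0) (XT.lf (nat_lit 0) (nat_lit 14949879486) (nat_lit 152) (nat_lit 35756091303) (nat_lit 0) (nat_lit 8755557346) (nat_lit 10) (nat_lit 5) (nat_lit 12)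 (nat_lit 4) (nat_lit 10) (nat_lit 4) (nat_lit 488) (nat_lit 382) (nat_lit 330)) (XT.lf (nat_lit 0) (nat_lit 23620789963) (nat_lit 152) (nat_lit 20999497724) (nat_lit 0) (nat_lit 17401133066) (nat_lit 10) (nat_lit 5) (nat_lit 12) (nat_lit 4) (nat_lit 10) (nat_lit 4) (nat_lit 489) (nat_lit 382) (nat_lit 329))) (XT.nd (nat_lit 78) (nat_lit 76) (nat_lit 0) (XT.lf (nat_lit 0) (nat_lit 32672631930) (nat_lit 152) (nat_lit 5610461338) (nat_lit 0) (nat_lit 26428846692) (nat_lit 10) (nat_lit 5) (nat_lit 12) (nat_lit 4) (nat_lit 10) (nat_lit 4) (nat_lit 490) (nat_lit 382) (nat_lit 328)) (XT.lf (nat_lit 0) (nat_lit 10793105189) (nat_lit 76) (nat_lit 31502362821) (nat_lit 76) (nat_lit 25235598212) (nat_lit 9) (nat_lit 4) (nat_lit 10) (nat_lit 5) (nat_lit 10) (nat_lit 4) (nat_lit 491) (nat_lit 382) (nat_lit 327))))) (XT.nd (nat_lit 234) (nat_lit 152) (nat_lit 0) (XT.nd (nat_lit 78) (nat_lit 0) (nat_lit 0)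 (XT.lf (nat_lit 0) (nat_lit 28112882989) (nat_lit 76) (nat_lit 24332314545) (nat_lit 76) (nat_lit 18043664820) (nat_lit 9) (nat_lit 4) (nat_lit 10) (nat_lit 5) (nat_lit 10) (nat_lit 4) (nat_lit 492) (nat_lit 382) (nat_lit 326)) (XT.nd (nat_lit 78) (nat_lit 0) (nat_lit 0) (XT.lf (nat_lit 0) (nat_lit 46204602438) (nat_lit 76) (nat_lit 16850892773) (nat_lit 76) (nat_lit 10541400080) (nat_lit 9) (nat_lit 4) (nat_lit 10) (nat_lit 5) (nat_lit 10) (nat_lit 4) (nat_lit 493) (nat_lit 382) (nat_lit 325)) (XT.lf (nat_lit 0) (nat_lit 65111339059) (nat_lit 76) (nat_lit 9040284597) (nat_lit 76) (nat_lit 2710941459) (nat_lit 9) (nat_lit 4) (nat_lit 10) (nat_lit 5) (nat_lit 10) (nat_lit 4) (nat_lit 494) (nat_lit 382) (nat_lit 324)))) (XT.nd (nat_lit 156) (nat_lit 0) (nat_lit 0) (XT.nd (nat_lit 78) (nat_lit 0) (nat_lit 0) (XT.lf (nat_lit 0) (nat_lit 4647877651) (nat_lit 76) (nat_lit 716086238) (nat_lit 152)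 (nat_lit 74921787764) (nat_lit 7) (nat_lit 5) (nat_lit 8) (nat_lit 5) (nat_lit 9) (nat_lit 4) (nat_lit 495) (nat_lit 382) (nat_lit 323)) (XT.lf (nat_lit 0) (nat_lit 14035870626) (nat_lit 152) (nat_lit 61855015346) (nat_lit 0) (nat_lit 7972772280) (nat_lit 7) (nat_lit 5) (nat_lit 9) (nat_lit 4) (nat_lit 7) (nat_lit 4) (nat_lit 496) (nat_lit 382) (nat_lit 322))) (XT.nd (nat_lit 78) (nat_lit 0) (nat_lit 0) (XT.lf (nat_lit 0) (nat_lit 23111972931) (nat_lit 152) (nat_lit 47477414510) (nat_lit 0) (nat_lit 17032543575) (nat_lit 7) (nat_lit 5) (nat_lit 9) (nat_lit 4) (nat_lit 7) (nat_lit 4) (nat_lit 497) (nat_lit 382) (nat_lit 321)) (XT.lf (nat_lit 0) (nat_lit 32602700461) (nat_lit 152) (nat_lit 32459659002) (nat_lit 0) (nat_lit 26507717762) (nat_lit 7) (nat_lit 5) (nat_lit 9) (nat_lit 4) (nat_lit 7) (nat_lit 4) (nat_lit 498) (nat_lit 382) (nat_lit 320))))))) (XT.nd (nat_lit 1092) (nat_lit 76) (nat_lit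 0) (XT.nd (nat_lit 546) (nat_lit 152) (nat_lit 0) (XT.nd (nat_lit 234) (nat_lit 0) (nat_lit 0) (XT.nd (nat_lit 78) (nat_lit 76) (nat_lit 0) (XT.lf (nat_lit 0) (nat_lit 42530650185) (nat_lit 152) (nat_lit 16765992259) (nat_lit 0) (nat_lit 36420854778) (nat_lit 7) (nat_lit 5) (nat_lit 9) (nat_lit 4) (nat_lit 7) (nat_lit 4) (nat_lit 499) (nat_lit 382) (nat_lit 319)) (XT.nd (nat_lit 78) (nat_lit 76) (nat_lit 0) (XT.lf (nat_lit 0) (nat_lit 52919460080) (nat_lit 152) (nat_lit 359048409) (nat_lit 0) (nat_lit 46795557332) (nat_lit 7) (nat_lit 5) (nat_lit 9) (nat_lit 4) (nat_lit 7) (nat_lit 4) (nat_lit 500) (nat_lit 382) (nat_lit 318)) (XT.lf (nat_lit 0) (nat_lit 17355728396) (nat_lit 76) (nat_lit 46709108569) (nat_lit 76) (nat_lit 40571770258) (nat_lit 6) (nat_lit 4) (nat_lit 7) (nat_lit 5) (nat_lit 7) (nat_lit 4) (nat_lit 501) (nat_lit 382) (nat_lit 317)))) (XT.nd (nat_lit 156) (nat_lit 0) (nat_lit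 0) (XT.nd (nat_lit 78) (nat_lit 0) (nat_lit 0) (XT.lf (nat_lit 0) (nat_lit 35901800330) (nat_lit 76) (nat_lit 39838484992) (nat_lit 76) (nat_lit 33688350907) (nat_lit 6) (nat_lit 4) (nat_lit 7) (nat_lit 5) (nat_lit 7) (nat_lit 4) (nat_lit 502) (nat_lit 382) (nat_lit 316)) (XT.lf (nat_lit 0) (nat_lit 55311452943) (nat_lit 76) (nat_lit 32656359791) (nat_lit 76) (nat_lit 26494039255) (nat_lit 6) (nat_lit 4) (nat_lit 7) (nat_lit 5) (nat_lit 7) (nat_lit 4) (nat_lit 503) (nat_lit 382) (nat_lit 315))) (XT.nd (nat_lit 78) (nat_lit 0) (nat_lit 0) (XT.lf (nat_lit 0) (nat_lit 75630899694) (nat_lit 76) (nat_lit 25145632667) (nat_lit 76) (nat_lit 18971705986) (nat_lit 6) (nat_lit 4) (nat_lit 7) (nat_lit 5) (nat_lit 7) (nat_lit 4) (nat_lit 504) (nat_lit 382) (nat_lit 314)) (XT.lf (nat_lit 0) (nat_lit 96908520217) (nat_lit 76) (nat_lit 17288420936) (nat_lit 76) (nat_lit 11103440785) (nat_lit 6) (nat_lit 4)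 (nat_lit 7) (nat_lit 5) (nat_lit 7) (nat_lit 4) (nat_lit 505) (nat_lit 382) (nat_lit 313))))) (XT.nd (nat_lit 234) (nat_lit 0) (nat_lit 0) (XT.nd (nat_lit 78) (nat_lit 152) (nat_lit 0) (XT.lf (nat_lit 0) (nat_lit 119194975516) (nat_lit 76) (nat_lit 9066016952) (nat_lit 76) (nat_lit 2870509687) (nat_lit 6) (nat_lit 4) (nat_lit 7) (nat_lit 5) (nat_lit 7) (nat_lit 4) (nat_lit 506) (nat_lit 382) (nat_lit 312)) (XT.nd (nat_lit 78) (nat_lit 0) (nat_lit 0) (XT.lf (nat_lit 0) (nat_lit 5369997490) (nat_lit 76) (nat_lit 276602792) (nat_lit 152) (nat_lit 131600204199) (nat_lit 4) (nat_lit 5) (nat_lit 5) (nat_lit 5) (nat_lit 6) (nat_lit 4) (nat_lit 507) (nat_lit 382) (nat_lit 311)) (XT.lf (nat_lit 0) (nat_lit 14811861982) (nat_lit 152) (nat_lit 119944982578) (nat_lit 0) (nat_lit 8892736751) (nat_lit 4) (nat_lit 5) (nat_lit 6) (nat_lit 4) (nat_lit 4) (nat_lit 4) (nat_lit 508) (nat_lit 382) (nat_lit 310))))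 (XT.nd (nat_lit 156) (nat_lit 0) (nat_lit 0) (XT.nd (nat_lit 78) (nat_lit 0) (nat_lit 0) (XT.lf (nat_lit 0) (nat_lit 24414710921) (nat_lit 152) (nat_lit 107471895298) (nat_lit 0) (nat_lit 18486925006) (nat_lit 4) (nat_lit 5) (nat_lit 6) (nat_lit 4) (nat_lit 4) (nat_lit 4) (nat_lit 509) (nat_lit 382) (nat_lit 309)) (XT.lf (nat_lit 0) (nat_lit 34473692479) (nat_lit 152) (nat_lit 94423528783) (nat_lit 0) (nat_lit 28537658295) (nat_lit 4) (nat_lit 5) (nat_lit 6) (nat_lit 4) (nat_lit 4) (nat_lit 4) (nat_lit 510) (nat_lit 382) (nat_lit 308))) (XT.nd (nat_lit 78) (nat_lit 0) (nat_lit 0) (XT.lf (nat_lit 0) (nat_lit 45012756614) (nat_lit 152) (nat_lit 80768815491) (nat_lit 0) (nat_lit 39068866934) (nat_lit 4) (nat_lit 5) (nat_lit 6) (nat_lit 4) (nat_lit 4) (nat_lit 4) (nat_lit 511) (nat_lit 382) (nat_lit 307)) (XT.lf (nat_lit 0) (nat_lit 56056996334) (nat_lit 152) (nat_lit 66475244200) (nat_lit 0) (nat_lit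 50105625229) (nat_lit 4) (nat_lit 5) (nat_lit 6) (nat_lit 4) (nat_lit 4) (nat_lit 4) (nat_lit 512) (nat_lit 382) (nat_lit 306)))))) (XT.nd (nat_lit 546) (nat_lit 0) (nat_lit 0) (XT.nd (nat_lit 234) (nat_lit 76) (nat_lit 0) (XT.nd (nat_lit 78) (nat_lit 0) (nat_lit 0) (XT.lf (nat_lit 0) (nat_lit 67632707448) (nat_lit 152) (nat_lit 51508782599) (nat_lit 0) (nat_lit 61674211178) (nat_lit 4) (nat_lit 5) (nat_lit 6) (nat_lit 4) (nat_lit 4) (nat_lit 4) (nat_lit 513) (nat_lit 382) (nat_lit 305)) (XT.nd (nat_lit 78) (nat_lit 0) (nat_lit 0) (XT.lf (nat_lit 0) (nat_lit 79767451174) (nat_lit 152) (nat_lit 35833796255) (nat_lit 0) (nat_lit 73802169032) (nat_lit 4) (nat_lit 5) (nat_lit 6) (nat_lit 4) (nat_lit 4) (nat_lit 4) (nat_lit 514) (nat_lit 382) (nat_lit 304)) (XT.lf (nat_lit 0) (nat_lit 92490119758) (nat_lit 152) (nat_lit 19412963772) (nat_lit 0) (nat_lit 86518374881) (nat_lit 4) (nat_lit 5) (nat_lit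 6) (nat_lit 4) (nat_lit 4) (nat_lit 4) (nat_lit 515) (nat_lit 382) (nat_lit 303)))) (XT.nd (nat_lit 156) (nat_lit 0) (nat_lit 0) (XT.nd (nat_lit 78) (nat_lit 76) (nat_lit 0) (XT.lf (nat_lit 0) (nat_lit 105831005269) (nat_lit 152) (nat_lit 2207187929) (nat_lit 0) (nat_lit 99853105406) (nat_lit 4) (nat_lit 5) (nat_lit 6) (nat_lit 4) (nat_lit 4) (nat_lit 4) (nat_lit 516) (nat_lit 382) (nat_lit 302)) (XT.lf (nat_lit 0) (nat_lit 16347726755) (nat_lit 76) (nat_lit 103729378793) (nat_lit 76) (nat_lit 97745617038) (nat_lit 3) (nat_lit 4) (nat_lit 4) (nat_lit 5) (nat_lit 4) (nat_lit 4) (nat_lit 517) (nat_lit 382) (nat_lit 301))) (XT.nd (nat_lit 78) (nat_lit 0) (nat_lit 0) (XT.lf (nat_lit 0) (nat_lit 35873190960) (nat_lit 76) (nat_lit 99182920781) (nat_lit 76) (nat_lit 93193576273) (nat_lit 3) (nat_lit 4) (nat_lit 4) (nat_lit 5) (nat_lit 4) (nat_lit 4) (nat_lit 518) (nat_lit 382) (nat_lit 300)) (XT.lf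 (nat_lit 0) (nat_lit 56342714285) (nat_lit 76) (nat_lit 94425374058) (nat_lit 76) (nat_lit 88430712641) (nat_lit 3) (nat_lit 4) (nat_lit 4) (nat_lit 5) (nat_lit 4) (nat_lit 4) (nat_lit 519) (nat_lit 382) (nat_lit 299))))) (XT.nd (nat_lit 312) (nat_lit 0) (nat_lit 0) (XT.nd (nat_lit 156) (nat_lit 0) (nat_lit 0) (XT.nd (nat_lit 78) (nat_lit 0) (nat_lit 0) (XT.lf (nat_lit 0) (nat_lit 77805033691) (nat_lit 76) (nat_lit 89445411132) (nat_lit 76) (nat_lit 83445685993) (nat_lit 3) (nat_lit 4) (nat_lit 4) (nat_lit 5) (nat_lit 4) (nat_lit 4) (nat_lit 520) (nat_lit 382) (nat_lit 298)) (XT.lf (nat_lit 0) (nat_lit 100311249936) (nat_lit 76) (nat_lit 84231174948) (nat_lit 76) (nat_lit 78226627216) (nat_lit 3) (nat_lit 4) (nat_lit 4) (nat_lit 5) (nat_lit 4) (nat_lit 4) (nat_lit 521) (nat_lit 382) (nat_lit 297))) (XT.nd (nat_lit 78) (nat_lit 0) (nat_lit 0) (XT.lf (nat_lit 0) (nat_lit 123914949252) (nat_lit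 76) (nat_lit 78770250658) (nat_lit 76) (nat_lit 72761109980) (nat_lit 3) (nat_lit 4) (nat_lit 4) (nat_lit 5) (nat_lit 4) (nat_lit 4) (nat_lit 522) (nat_lit 382) (nat_lit 296)) (XT.lf (nat_lit 0) (nat_lit 148672330922) (nat_lit 76) (nat_lit 73049636061) (nat_lit 76) (nat_lit 67036121150) (nat_lit 3) (nat_lit 4) (nat_lit 4) (nat_lit 5) (nat_lit 4) (nat_lit 4) (nat_lit 523) (nat_lit 382) (nat_lit 295)))) (XT.nd (nat_lit 156) (nat_lit 0) (nat_lit 0) (XT.nd (nat_lit 78) (nat_lit 0) (nat_lit 0) (XT.lf (nat_lit 0) (nat_lit 174642341092) (nat_lit 76) (nat_lit 67055710646) (nat_lit 76) (nat_lit 61038029798) (nat_lit 3) (nat_lit 4) (nat_lit 4) (nat_lit 5) (nat_lit 4) (nat_lit 4) (nat_lit 524) (nat_lit 382) (nat_lit 294)) (XT.lf (nat_lit 0) (nat_lit 201886813121) (nat_lit 76) (nat_lit 60774203163) (nat_lit 76) (nat_lit 54752554756) (nat_lit 3) (nat_lit 4) (nat_lit 4) (nat_lit 5) (nat_lit 4) (nat_lit 4)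 (nat_lit 525) (nat_lit 382) (nat_lit 293))) (XT.nd (nat_lit 78) (nat_lit 0) (nat_lit 0) (XT.lf (nat_lit 0) (nat_lit 230470614798) (nat_lit 76) (nat_lit 54190157641) (nat_lit 76) (nat_lit 48164730607) (nat_lit 3) (nat_lit 4) (nat_lit 4) (nat_lit 5) (nat_lit 4) (nat_lit 4) (nat_lit 526) (nat_lit 382) (nat_lit 292)) (XT.lf (nat_lit 0) (nat_lit 260461802795) (nat_lit 76) (nat_lit 47287897782) (nat_lit 76) (nat_lit 41258872055) (nat_lit 3) (nat_lit 4) (nat_lit 4) (nat_lit 5) (nat_lit 4) (nat_lit 4) (nat_lit 527) (nat_lit 382) (nat_lit 291))))))))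
noncomputable def xc55 : XT := (XT.nd (nat_lit 55926) (nat_lit 0) (nat_lit 1368) (XT.nd (nat_lit 1092) (nat_lit 0) (nat_lit 0) (XT.nd (nat_lit 546) (nat_lit 0) (nat_lit 0) (XT.nd (nat_lit 234) (nat_lit 152) (nat_lit 0) (XT.nd (nat_lit 78) (nat_lit 0) (nat_lit 0) (XT.lf (nat_lit 0) (nat_lit 291931784702) (nat_lit 76) (nat_lit 40050989633) (nat_lit 76) (nat_lit 34018536579) (nat_lit 3) (nat_lit 4) (nat_lit 4) (nat_lit 5) (nat_lit 4) (nat_lit 4) (nat_lit 528) (nat_lit 382) (nat_lit 290)) (XT.nd (nat_lit 78) (nat_lit 0) (nat_lit 0) (XT.lf (nat_lit 0) (nat_lit 324955489047) (nat_lit 76) (nat_lit 32462202460) (nat_lit 76) (nat_lit 26426485286) (nat_lit 3) (nat_lit 4) (nat_lit 4) (nat_lit 5) (nat_lit 4) (nat_lit 4) (nat_lit 529) (nat_lit 382) (nat_lit 289)) (XT.lf (nat_lit 0) (nat_lit 359611543698) (nat_lit 76) (nat_lit 24503467724) (nat_lit 76) (nat_lit 18464641863) (nat_lit 3) (nat_lit 4) (nat_lit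 4) (nat_lit 5) (nat_lit 4) (nat_lit 4) (nat_lit 530) (nat_lit 382) (nat_lit 288)))) (XT.nd (nat_lit 156) (nat_lit 152) (nat_lit 0) (XT.nd (nat_lit 78) (nat_lit 0) (nat_lit 0) (XT.lf (nat_lit 0) (nat_lit 395982463070) (nat_lit 76) (nat_lit 16155836054) (nat_lit 76) (nat_lit 10114049540) (nat_lit 3) (nat_lit 4) (nat_lit 4) (nat_lit 5) (nat_lit 4) (nat_lit 4) (nat_lit 531) (nat_lit 382) (nat_lit 287)) (XT.lf (nat_lit 0) (nat_lit 434154844591) (nat_lit 76) (nat_lit 7399432139) (nat_lit 76) (nat_lit 1354825955) (nat_lit 3) (nat_lit 4) (nat_lit 4) (nat_lit 5) (nat_lit 4) (nat_lit 4) (nat_lit 532) (nat_lit 382) (nat_lit 286))) (XT.nd (nat_lit 78) (nat_lit 0) (nat_lit 0) (XT.lf (nat_lit 0) (nat_lit 7768757421) (nat_lit 152) (nat_lit 454805512801) (nat_lit 0) (nat_lit 2009432103) (nat_lit 1) (nat_lit 5) (nat_lit 3) (nat_lit 4) (nat_lit 1) (nat_lit 4) (nat_lit 533) (nat_lit 382) (nat_lit 285)) (XT.lf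 (nat_lit 0) (nat_lit 17566784155) (nat_lit 152) (nat_lit 457955924546) (nat_lit 0) (nat_lit 11805023099) (nat_lit 1) (nat_lit 5) (nat_lit 3) (nat_lit 4) (nat_lit 1) (nat_lit 4) (nat_lit 534) (nat_lit 382) (nat_lit 284))))) (XT.nd (nat_lit 234) (nat_lit 0) (nat_lit 0) (XT.nd (nat_lit 78) (nat_lit 0) (nat_lit 0) (XT.lf (nat_lit 0) (nat_lit 27846907471) (nat_lit 152) (nat_lit 461279618969) (nat_lit 0) (nat_lit 22082826667) (nat_lit 1) (nat_lit 5) (nat_lit 3) (nat_lit 4) (nat_lit 1) (nat_lit 4) (nat_lit 535) (nat_lit 382) (nat_lit 283)) (XT.nd (nat_lit 78) (nat_lit 0) (nat_lit 0) (XT.lf (nat_lit 0) (nat_lit 38633603855) (nat_lit 152) (nat_lit 464784509629) (nat_lit 0) (nat_lit 32867313765) (nat_lit 1) (nat_lit 5) (nat_lit 3) (nat_lit 4) (nat_lit 1) (nat_lit 4) (nat_lit 536) (nat_lit 382) (nat_lit 282)) (XT.lf (nat_lit 0) (nat_lit 49952555917) (nat_lit 152) (nat_lit 468478941503) (nat_lit 0) (nat_lit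 44184161746) (nat_lit 1) (nat_lit 5) (nat_lit 3) (nat_lit 4) (nat_lit 1) (nat_lit 4) (nat_lit 537) (nat_lit 382) (nat_lit 281)))) (XT.nd (nat_lit 156) (nat_lit 0) (nat_lit 0) (XT.nd (nat_lit 78) (nat_lit 0) (nat_lit 0) (XT.lf (nat_lit 0) (nat_lit 61830713542) (nat_lit 152) (nat_lit 472371710858) (nat_lit 0) (nat_lit 56060315484) (nat_lit 1) (nat_lit 5) (nat_lit 3) (nat_lit 4) (nat_lit 1) (nat_lit 4) (nat_lit 538) (nat_lit 382) (nat_lit 280)) (XT.lf (nat_lit 0) (nat_lit 74296358058) (nat_lit 152) (nat_lit 476472086192) (nat_lit 0) (nat_lit 68524051537) (nat_lit 1) (nat_lit 5) (nat_lit 3) (nat_lit 4) (nat_lit 1) (nat_lit 4) (nat_lit 539) (nat_lit 382) (nat_lit 279))) (XT.nd (nat_lit 78) (nat_lit 0) (nat_lit 0) (XT.lf (nat_lit 0) (nat_lit 87379169572) (nat_lit 152) (nat_lit 480789830303) (nat_lit 0) (nat_lit 81605045466) (nat_lit 1) (nat_lit 5) (nat_lit 3) (nat_lit 4) (nat_lit 1) (nat_lit 4) (nat_lit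 540) (nat_lit 382) (nat_lit 278)) (XT.lf (nat_lit 0) (nat_lit 101110297634) (nat_lit 152) (nat_lit 485335223535) (nat_lit 0) (nat_lit 95334442495) (nat_lit 1) (nat_lit 5) (nat_lit 3) (nat_lit 4) (nat_lit 1) (nat_lit 4) (nat_lit 541) (nat_lit 382) (nat_lit 277)))))) (XT.nd (nat_lit 54288) (nat_lit 0) (nat_lit 3648) (XT.nd (nat_lit 234) (nat_lit 0) (nat_lit 0) (XT.nd (nat_lit 78) (nat_lit 0) (nat_lit 0) (XT.lf (nat_lit 0) (nat_lit 115522435407) (nat_lit 152) (nat_lit 490119088252) (nat_lit 0) (nat_lit 109744931665) (nat_lit 1) (nat_lit 5) (nat_lit 3) (nat_lit 4) (nat_lit 1) (nat_lit 4) (nat_lit 542) (nat_lit 382) (nat_lit 276)) (XT.nd (nat_lit 78) (nat_lit 0) (nat_lit 0) (XT.lf (nat_lit 0) (nat_lit 130649897503) (nat_lit 152) (nat_lit 495152814609) (nat_lit 0) (nat_lit 124870823664) (nat_lit 1) (nat_lit 5) (nat_lit 3) (nat_lit 4) (nat_lit 1) (nat_lit 4) (nat_lit 543) (nat_lit 382) (nat_lit 275))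 (XT.lf (nat_lit 0) (nat_lit 146528701691) (nat_lit 152) (nat_lit 500448387669) (nat_lit 0) (nat_lit 140748132520) (nat_lit 1) (nat_lit 5) (nat_lit 3) (nat_lit 4) (nat_lit 1) (nat_lit 4) (nat_lit 544) (nat_lit 382) (nat_lit 274)))) (XT.nd (nat_lit 53898) (nat_lit 0) (nat_lit 4712) (XT.nd (nat_lit 53820) (nat_lit 0) (nat_lit 5092) (XT.lf (nat_lit 0) (nat_lit 163196654647) (nat_lit 152) (nat_lit 506018415937) (nat_lit 0) (nat_lit 157414661351) (nat_lit 1) (nat_lit 5) (nat_lit 3) (nat_lit 4) (nat_lit 1) (nat_lit 4) (nat_lit 545) (nat_lit 382) (nat_lit 273)) (XT.lf (nat_lit 0) (nat_lit 2054211400) (nat_lit 228) (nat_lit 870020390) (nat_lit 0) (nat_lit 2054211400) (nat_lit 68) (nat_lit 5) (nat_lit 71) (nat_lit 4) (nat_lit 68) (nat_lit 4) (nat_lit 434) (nat_lit 383) (nat_lit 383))) (XT.nd (nat_lit 78) (nat_lit 228) (nat_lit 0) (XT.lf (nat_lit 0) (nat_lit 7033662190) (nat_lit 152) (nat_lit 1941228877)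 (nat_lit 152) (nat_lit 1207089729) (nat_lit 66) (nat_lit 4) (nat_lit 68) (nat_lit 5) (nat_lit 68) (nat_lit 4) (nat_lit 435) (nat_lit 383) (nat_lit 382)) (XT.lf (nat_lit 0) (nat_lit 3528456349) (nat_lit 228) (nat_lit 4724683277) (nat_lit 0) (nat_lit 2163390361) (nat_lit 63) (nat_lit 5) (nat_lit 66) (nat_lit 4) (nat_lit 63) (nat_lit 4) (nat_lit 436) (nat_lit 383) (nat_lit 381))))) (XT.nd (nat_lit 234) (nat_lit 532) (nat_lit 0) (XT.nd (nat_lit 78) (nat_lit 380) (nat_lit 0) (XT.lf (nat_lit 0) (nat_lit 4216697900) (nat_lit 152) (nat_lit 4222717604) (nat_lit 152) (nat_lit 2223474618) (nat_lit 61) (nat_lit 4) (nat_lit 63) (nat_lit 5) (nat_lit 63) (nat_lit 4) (nat_lit 437) (nat_lit 383) (nat_lit 380)) (XT.nd (nat_lit 78) (nat_lit 152) (nat_lit 0) (XT.lf (nat_lit 0) (nat_lit 2540022100) (nat_lit 228) (nat_lit 8321161268) (nat_lit 0) (nat_lit 60763929) (nat_lit 58) (nat_lit 5) (nat_lit 61) (nat_lit 4)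 (nat_lit 58) (nat_lit 4) (nat_lit 438) (nat_lit 383) (nat_lit 379)) (XT.lf (nat_lit 0) (nat_lit 760363113) (nat_lit 152) (nat_lit 6728885202) (nat_lit 152) (nat_lit 3701801096) (nat_lit 56) (nat_lit 4) (nat_lit 58) (nat_lit 5) (nat_lit 58) (nat_lit 4) (nat_lit 439) (nat_lit 383) (nat_lit 378)))) (XT.nd (nat_lit 156) (nat_lit 304) (nat_lit 0) (XT.nd (nat_lit 78) (nat_lit 152) (nat_lit 0) (XT.lf (nat_lit 0) (nat_lit 1147832841) (nat_lit 228) (nat_lit 1195765766) (nat_lit 76) (nat_lit 9130372200) (nat_lit 55) (nat_lit 5) (nat_lit 58) (nat_lit 5) (nat_lit 56) (nat_lit 4) (nat_lit 440) (nat_lit 383) (nat_lit 377)) (XT.lf (nat_lit 0) (nat_lit 6122905283) (nat_lit 228) (nat_lit 3374914142) (nat_lit 0) (nat_lit 2269841127) (nat_lit 53) (nat_lit 5) (nat_lit 56) (nat_lit 4) (nat_lit 53) (nat_lit 4) (nat_lit 441) (nat_lit 383) (nat_lit 376))) (XT.nd (nat_lit 78) (nat_lit 152) (nat_lit 0) (XT.lf (nat_lit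 0) (nat_lit 6309926812) (nat_lit 152) (nat_lit 5034991979) (nat_lit 152) (nat_lit 731230071) (nat_lit 51) (nat_lit 4) (nat_lit 53) (nat_lit 5) (nat_lit 53) (nat_lit 4) (nat_lit 442) (nat_lit 383) (nat_lit 375)) (XT.lf (nat_lit 0) (nat_lit 3974930245) (nat_lit 76) (nat_lit 272839563) (nat_lit 152) (nat_lit 8150780339) (nat_lit 49) (nat_lit 5) (nat_lit 50) (nat_lit 5) (nat_lit 51) (nat_lit 4) (nat_lit 443) (nat_lit 383) (nat_lit 374))))))) (XT.nd (nat_lit 1092) (nat_lit 912) (nat_lit 0) (XT.nd (nat_lit 546) (nat_lit 532) (nat_lit 0) (XT.nd (nat_lit 234) (nat_lit 532) (nat_lit 0) (XT.nd (nat_lit 78) (nat_lit 152) (nat_lit 0) (XT.lf (nat_lit 0) (nat_lit 1344208988) (nat_lit 152) (nat_lit 8143696050) (nat_lit 152) (nat_lit 3246749373) (nat_lit 47) (nat_lit 4) (nat_lit 49) (nat_lit 5) (nat_lit 49) (nat_lit 4) (nat_lit 444) (nat_lit 383) (nat_lit 373)) (XT.nd (nat_lit 78) (nat_lit 76) (nat_lit 0)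 (XT.lf (nat_lit 0) (nat_lit 1834375059) (nat_lit 228) (nat_lit 1507267961) (nat_lit 76) (nat_lit 9744814923) (nat_lit 46) (nat_lit 5) (nat_lit 49) (nat_lit 5) (nat_lit 47) (nat_lit 4) (nat_lit 445) (nat_lit 383) (nat_lit 372)) (XT.lf (nat_lit 0) (nat_lit 7076876617) (nat_lit 152) (nat_lit 4651842822) (nat_lit 0) (nat_lit 1723666793) (nat_lit 45) (nat_lit 5) (nat_lit 47) (nat_lit 4) (nat_lit 45) (nat_lit 4) (nat_lit 446) (nat_lit 383) (nat_lit 371)))) (XT.nd (nat_lit 156) (nat_lit 228) (nat_lit 0) (XT.nd (nat_lit 78) (nat_lit 152) (nat_lit 0) (XT.lf (nat_lit 0) (nat_lit 5697046148) (nat_lit 152) (nat_lit 6906008103) (nat_lit 152) (nat_lit 1232495801) (nat_lit 43) (nat_lit 4) (nat_lit 45) (nat_lit 5) (nat_lit 45) (nat_lit 4) (nat_lit 447) (nat_lit 383) (nat_lit 370)) (XT.lf (nat_lit 0) (nat_lit 2224419858) (nat_lit 76) (nat_lit 1777034843) (nat_lit 152) (nat_lit 10234820156) (nat_lit 41) (nat_lit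 5) (nat_lit 42) (nat_lit 5) (nat_lit 43) (nat_lit 4) (nat_lit 448) (nat_lit 383) (nat_lit 369))) (XT.nd (nat_lit 78) (nat_lit 228) (nat_lit 0) (XT.lf (nat_lit 0) (nat_lit 9505437221) (nat_lit 152) (nat_lit 1613236055) (nat_lit 0) (nat_lit 3534879059) (nat_lit 41) (nat_lit 5) (nat_lit 43) (nat_lit 4) (nat_lit 41) (nat_lit 4) (nat_lit 449) (nat_lit 383) (nat_lit 368)) (XT.lf (nat_lit 0) (nat_lit 222185903) (nat_lit 228) (nat_lit 5778590701) (nat_lit 76) (nat_lit 9089007759) (nat_lit 38) (nat_lit 5) (nat_lit 41) (nat_lit 5) (nat_lit 39) (nat_lit 4) (nat_lit 450) (nat_lit 383) (nat_lit 367))))) (XT.nd (nat_lit 234) (nat_lit 304) (nat_lit 0) (XT.nd (nat_lit 78) (nat_lit 152) (nat_lit 0) (XT.lf (nat_lit 0) (nat_lit 5110312789) (nat_lit 76) (nat_lit 545955486) (nat_lit 152) (nat_lit 9888938550) (nat_lit 37) (nat_lit 5) (nat_lit 38) (nat_lit 5) (nat_lit 39) (nat_lit 4) (nat_lit 451) (nat_lit 383) (nat_lit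 366)) (XT.nd (nat_lit 78) (nat_lit 76) (nat_lit 0) (XT.lf (nat_lit 0) (nat_lit 395330433) (nat_lit 76) (nat_lit 11014769226) (nat_lit 76) (nat_lit 4610910352) (nat_lit 36) (nat_lit 4) (nat_lit 37) (nat_lit 5) (nat_lit 37) (nat_lit 4) (nat_lit 452) (nat_lit 383) (nat_lit 365)) (XT.lf (nat_lit 0) (nat_lit 951646852) (nat_lit 152) (nat_lit 4669776151) (nat_lit 76) (nat_lit 10895943002) (nat_lit 35) (nat_lit 5) (nat_lit 37) (nat_lit 5) (nat_lit 36) (nat_lit 4) (nat_lit 453) (nat_lit 383) (nat_lit 364)))) (XT.nd (nat_lit 156) (nat_lit 152) (nat_lit 0) (XT.nd (nat_lit 78) (nat_lit 76) (nat_lit 0) (XT.lf (nat_lit 0) (nat_lit 6612592217) (nat_lit 152) (nat_lit 10312846290) (nat_lit 0) (nat_lit 110571233) (nat_lit 34) (nat_lit 5) (nat_lit 36) (nat_lit 4) (nat_lit 34) (nat_lit 4) (nat_lit 454) (nat_lit 383) (nat_lit 363)) (XT.lf (nat_lit 0) (nat_lit 959299609) (nat_lit 76) (nat_lit 11653880618) (nat_lit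 76) (nat_lit 4964585409) (nat_lit 33) (nat_lit 4) (nat_lit 34) (nat_lit 5) (nat_lit 34) (nat_lit 4) (nat_lit 455) (nat_lit 383) (nat_lit 362))) (XT.nd (nat_lit 78) (nat_lit 76) (nat_lit 0) (XT.lf (nat_lit 0) (nat_lit 789522416) (nat_lit 152) (nat_lit 5249130659) (nat_lit 76) (nat_lit 12105021746) (nat_lit 32) (nat_lit 5) (nat_lit 34) (nat_lit 5) (nat_lit 33) (nat_lit 4) (nat_lit 456) (nat_lit 383) (nat_lit 361)) (XT.lf (nat_lit 0) (nat_lit 6580271373) (nat_lit 76) (nat_lit 62551178) (nat_lit 152) (nat_lit 12092079524) (nat_lit 31) (nat_lit 5) (nat_lit 32) (nat_lit 5) (nat_lit 33) (nat_lit 4) (nat_lit 457) (nat_lit 383) (nat_lit 360)))))) (XT.nd (nat_lit 546) (nat_lit 456) (nat_lit 0) (XT.nd (nat_lit 234) (nat_lit 228) (nat_lit 0) (XT.nd (nat_lit 78) (nat_lit 228) (nat_lit 0) (XT.lf (nat_lit 0) (nat_lit 12852257652) (nat_lit 152) (nat_lit 504475973) (nat_lit 0) (nat_lit 5995791582) (nat_lit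 31) (nat_lit 5) (nat_lit 33) (nat_lit 4) (nat_lit 31) (nat_lit 4) (nat_lit 458) (nat_lit 383) (nat_lit 359)) (XT.nd (nat_lit 78) (nat_lit 152) (nat_lit 0) (XT.lf (nat_lit 0) (nat_lit 11880593311) (nat_lit 76) (nat_lit 7560108637) (nat_lit 76) (nat_lit 556908311) (nat_lit 30) (nat_lit 4) (nat_lit 31) (nat_lit 5) (nat_lit 31) (nat_lit 4) (nat_lit 459) (nat_lit 383) (nat_lit 358)) (XT.lf (nat_lit 0) (nat_lit 4041315197) (nat_lit 76) (nat_lit 1414422575) (nat_lit 152) (nat_lit 15217080348) (nat_lit 28) (nat_lit 5) (nat_lit 29) (nat_lit 5) (nat_lit 30) (nat_lit 4) (nat_lit 460) (nat_lit 383) (nat_lit 357)))) (XT.nd (nat_lit 156) (nat_lit 152) (nat_lit 0) (XT.nd (nat_lit 78) (nat_lit 76) (nat_lit 0) (XT.lf (nat_lit 0) (nat_lit 11851372330) (nat_lit 152) (nat_lit 4603099687) (nat_lit 0) (nat_lit 4921810872) (nat_lit 28) (nat_lit 5) (nat_lit 30) (nat_lit 4) (nat_lit 28) (nat_lit 4) (nat_lit 461) (nat_lit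 383) (nat_lit 356)) (XT.lf (nat_lit 0) (nat_lit 8044332955) (nat_lit 76) (nat_lit 10559510780) (nat_lit 76) (nat_lit 3509230686) (nat_lit 27) (nat_lit 4) (nat_lit 28) (nat_lit 5) (nat_lit 28) (nat_lit 4) (nat_lit 462) (nat_lit 383) (nat_lit 355))) (XT.nd (nat_lit 78) (nat_lit 76) (nat_lit 0) (XT.lf (nat_lit 0) (nat_lit 2685078449) (nat_lit 152) (nat_lit 1660839400) (nat_lit 76) (nat_lit 18540217226) (nat_lit 26) (nat_lit 5) (nat_lit 28) (nat_lit 5) (nat_lit 27) (nat_lit 4) (nat_lit 463) (nat_lit 383) (nat_lit 354)) (XT.lf (nat_lit 0) (nat_lit 9180351665) (nat_lit 152) (nat_lit 12257144478) (nat_lit 0) (nat_lit 2252022537) (nat_lit 25) (nat_lit 5) (nat_lit 27) (nat_lit 4) (nat_lit 25) (nat_lit 4) (nat_lit 464) (nat_lit 383) (nat_lit 353))))) (XT.nd (nat_lit 312) (nat_lit 228) (nat_lit 0) (XT.nd (nat_lit 156) (nat_lit 152) (nat_lit 0) (XT.nd (nat_lit 78) (nat_lit 0) (nat_lit 0) (XT.lf (nat_lit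 0) (nat_lit 441786810) (nat_lit 76) (nat_lit 15559446125) (nat_lit 76) (nat_lit 8531801478) (nat_lit 24) (nat_lit 4) (nat_lit 25) (nat_lit 5) (nat_lit 25) (nat_lit 4) (nat_lit 465) (nat_lit 383) (nat_lit 352)) (XT.lf (nat_lit 0) (nat_lit 13997650562) (nat_lit 76) (nat_lit 9269066602) (nat_lit 76) (nat_lit 2146835745) (nat_lit 24) (nat_lit 4) (nat_lit 25) (nat_lit 5) (nat_lit 25) (nat_lit 4) (nat_lit 466) (nat_lit 383) (nat_lit 351))) (XT.nd (nat_lit 78) (nat_lit 0) (nat_lit 0) (XT.lf (nat_lit 0) (nat_lit 1678586605) (nat_lit 76) (nat_lit 2658437573) (nat_lit 152) (nat_lit 22001244420) (nat_lit 22) (nat_lit 5) (nat_lit 23) (nat_lit 5) (nat_lit 24) (nat_lit 4) (nat_lit 467) (nat_lit 383) (nat_lit 350)) (XT.lf (nat_lit 0) (nat_lit 11235882370) (nat_lit 152) (nat_lit 11778128841) (nat_lit 0) (nat_lit 4285305759) (nat_lit 22) (nat_lit 5) (nat_lit 24) (nat_lit 4) (nat_lit 22) (nat_lit 4) (nat_lit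 468) (nat_lit 383) (nat_lit 349)))) (XT.nd (nat_lit 156) (nat_lit 152) (nat_lit 0) (XT.nd (nat_lit 78) (nat_lit 0) (nat_lit 0) (XT.lf (nat_lit 0) (nat_lit 1565964451) (nat_lit 76) (nat_lit 16886115234) (nat_lit 76) (nat_lit 9857722314) (nat_lit 21) (nat_lit 4) (nat_lit 22) (nat_lit 5) (nat_lit 22) (nat_lit 4) (nat_lit 469) (nat_lit 383) (nat_lit 348)) (XT.lf (nat_lit 0) (nat_lit 15801128733) (nat_lit 76) (nat_lit 10333457560) (nat_lit 76) (nat_lit 3230953870) (nat_lit 21) (nat_lit 4) (nat_lit 22) (nat_lit 5) (nat_lit 22) (nat_lit 4) (nat_lit 470) (nat_lit 383) (nat_lit 347))) (XT.nd (nat_lit 78) (nat_lit 0) (nat_lit 0) (XT.lf (nat_lit 0) (nat_lit 37759929) (nat_lit 76) (nat_lit 3479725585) (nat_lit 152) (nat_lit 26958192419) (nat_lit 19) (nat_lit 5) (nat_lit 20) (nat_lit 5) (nat_lit 21) (nat_lit 4) (nat_lit 471) (nat_lit 383) (nat_lit 346)) (XT.lf (nat_lit 0) (nat_lit 10695535076) (nat_lit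 152) (nat_lit 17133098528) (nat_lit 0) (nat_lit 3800005524) (nat_lit 19) (nat_lit 5) (nat_lit 21) (nat_lit 4) (nat_lit 19) (nat_lit 4) (nat_lit 472) (nat_lit 383) (nat_lit 345))))))))
noncomputable def xc56 : XT := (XT.nd (nat_lit 2184) (nat_lit 304) (nat_lit 0) (XT.nd (nat_lit 1092) (nat_lit 380) (nat_lit 0) (XT.nd (nat_lit 546) (nat_lit 228) (nat_lit 0) (XT.nd (nat_lit 234) (nat_lit 228) (nat_lit 0) (XT.nd (nat_lit 78) (nat_lit 76) (nat_lit 0) (XT.lf (nat_lit 0) (nat_lit 18203108635) (nat_lit 152) (nat_lit 3391003874) (nat_lit 0) (nat_lit 11246607969) (nat_lit 19) (nat_lit 5) (nat_lit 21) (nat_lit 4) (nat_lit 19) (nat_lit 4) (nat_lit 473) (nat_lit 383) (nat_lit 344)) (XT.nd (nat_lit 78) (nat_lit 0) (nat_lit 0) (XT.lf (nat_lit 0) (nat_lit 11235003782) (nat_lit 76) (nat_lit 14944159212) (nat_lit 76) (nat_lit 7929590818) (nat_lit 18) (nat_lit 4) (nat_lit 19) (nat_lit 5) (nat_lit 19) (nat_lit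 4) (nat_lit 474) (nat_lit 383) (nat_lit 343)) (XT.lf (nat_lit 0) (nat_lit 26549883321) (nat_lit 76) (nat_lit 7980676194) (nat_lit 76) (nat_lit 910805203) (nat_lit 18) (nat_lit 4) (nat_lit 19) (nat_lit 5) (nat_lit 19) (nat_lit 4) (nat_lit 475) (nat_lit 383) (nat_lit 342)))) (XT.nd (nat_lit 156) (nat_lit 76) (nat_lit 0) (XT.nd (nat_lit 78) (nat_lit 0) (nat_lit 0) (XT.lf (nat_lit 0) (nat_lit 5716914140) (nat_lit 76) (nat_lit 546234285) (nat_lit 152) (nat_lit 30571870538) (nat_lit 16) (nat_lit 5) (nat_lit 17) (nat_lit 5) (nat_lit 18) (nat_lit 4) (nat_lit 476) (nat_lit 383) (nat_lit 341)) (XT.lf (nat_lit 0) (nat_lit 13953450655) (nat_lit 152) (nat_lit 17212441552) (nat_lit 0) (nat_lit 7122306638) (nat_lit 16) (nat_lit 5) (nat_lit 18) (nat_lit 4) (nat_lit 16) (nat_lit 4) (nat_lit 477) (nat_lit 383) (nat_lit 340))) (XT.nd (nat_lit 78) (nat_lit 76) (nat_lit 0) (XT.lf (nat_lit 0) (nat_lit 21962805523)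 (nat_lit 152) (nat_lit 2768343769) (nat_lit 0) (nat_lit 15086163921) (nat_lit 16) (nat_lit 5) (nat_lit 18) (nat_lit 4) (nat_lit 16) (nat_lit 4) (nat_lit 478) (nat_lit 383) (nat_lit 339)) (XT.lf (nat_lit 0) (nat_lit 12662382811) (nat_lit 76) (nat_lit 17837067143) (nat_lit 76) (nat_lit 10917094509) (nat_lit 15) (nat_lit 4) (nat_lit 16) (nat_lit 5) (nat_lit 16) (nat_lit 4) (nat_lit 479) (nat_lit 383) (nat_lit 338))))) (XT.nd (nat_lit 234) (nat_lit 76) (nat_lit 0) (XT.nd (nat_lit 78) (nat_lit 152) (nat_lit 0) (XT.lf (nat_lit 0) (nat_lit 28822176742) (nat_lit 76) (nat_lit 10617970955) (nat_lit 76) (nat_lit 3656730670) (nat_lit 15) (nat_lit 4) (nat_lit 16) (nat_lit 5) (nat_lit 16) (nat_lit 4) (nat_lit 480) (nat_lit 383) (nat_lit 337)) (XT.nd (nat_lit 78) (nat_lit 0) (nat_lit 0) (XT.lf (nat_lit 0) (nat_lit 756811316) (nat_lit 76) (nat_lit 3027263866) (nat_lit 152) (nat_lit 41076840135) (nat_lit 13)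 (nat_lit 5) (nat_lit 14) (nat_lit 5) (nat_lit 15) (nat_lit 4) (nat_lit 481) (nat_lit 383) (nat_lit 336)) (XT.lf (nat_lit 0) (nat_lit 11729605315) (nat_lit 152) (nat_lit 29941001484) (nat_lit 0) (nat_lit 5026773141) (nat_lit 13) (nat_lit 5) (nat_lit 15) (nat_lit 4) (nat_lit 13) (nat_lit 4) (nat_lit 482) (nat_lit 383) (nat_lit 335)))) (XT.nd (nat_lit 156) (nat_lit 0) (nat_lit 0) (XT.nd (nat_lit 78) (nat_lit 76) (nat_lit 0) (XT.lf (nat_lit 0) (nat_lit 20057932842) (nat_lit 152) (nat_lit 15247311006) (nat_lit 0) (nat_lit 13321149670) (nat_lit 13) (nat_lit 5) (nat_lit 15) (nat_lit 4) (nat_lit 13) (nat_lit 4) (nat_lit 483) (nat_lit 383) (nat_lit 334)) (XT.lf (nat_lit 0) (nat_lit 61174446) (nat_lit 76) (nat_lit 28681403699) (nat_lit 76) (nat_lit 21912286243) (nat_lit 12) (nat_lit 4) (nat_lit 13) (nat_lit 5) (nat_lit 13) (nat_lit 4) (nat_lit 484) (nat_lit 383) (nat_lit 333))) (XT.nd (nat_lit 78) (nat_lit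 0) (nat_lit 0) (XT.lf (nat_lit 0) (nat_lit 16544554152) (nat_lit 76) (nat_lit 21515104069) (nat_lit 76) (nat_lit 14715192058) (nat_lit 12) (nat_lit 4) (nat_lit 13) (nat_lit 5) (nat_lit 13) (nat_lit 4) (nat_lit 485) (nat_lit 383) (nat_lit 332)) (XT.lf (nat_lit 0) (nat_lit 33737929291) (nat_lit 76) (nat_lit 14047502931) (nat_lit 76) (nat_lit 7218262771) (nat_lit 12) (nat_lit 4) (nat_lit 13) (nat_lit 5) (nat_lit 13) (nat_lit 4) (nat_lit 486) (nat_lit 383) (nat_lit 331)))))) (XT.nd (nat_lit 546) (nat_lit 152) (nat_lit 0) (XT.nd (nat_lit 234) (nat_lit 76) (nat_lit 0) (XT.nd (nat_lit 78) (nat_lit 76) (nat_lit 0) (XT.lf (nat_lit 0) (nat_lit 577264476) (nat_lit 152) (nat_lit 5673779553) (nat_lit 76) (nat_lit 51095195740) (nat_lit 11) (nat_lit 5) (nat_lit 13) (nat_lit 5) (nat_lit 12) (nat_lit 4) (nat_lit 487) (nat_lit 383) (nat_lit 330)) (XT.nd (nat_lit 78) (nat_lit 0) (nat_lit 0) (XT.lf (nat_lit 0)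 (nat_lit 8670330741) (nat_lit 152) (nat_lit 49007792329) (nat_lit 0) (nat_lit 2114356242) (nat_lit 10) (nat_lit 5) (nat_lit 12) (nat_lit 4) (nat_lit 10) (nat_lit 4) (nat_lit 488) (nat_lit 383) (nat_lit 329)) (XT.lf (nat_lit 0) (nat_lit 17315575836) (nat_lit 152) (nat_lit 34302606980) (nat_lit 0) (nat_lit 10735472996) (nat_lit 10) (nat_lit 5) (nat_lit 12) (nat_lit 4) (nat_lit 10) (nat_lit 4) (nat_lit 489) (nat_lit 383) (nat_lit 328)))) (XT.nd (nat_lit 156) (nat_lit 76) (nat_lit 0) (XT.nd (nat_lit 78) (nat_lit 0) (nat_lit 0) (XT.lf (nat_lit 0) (nat_lit 26342974581) (nat_lit 152) (nat_lit 18962530812) (nat_lit 0) (nat_lit 19739892369) (nat_lit 10) (nat_lit 5) (nat_lit 12) (nat_lit 4) (nat_lit 10) (nat_lit 4) (nat_lit 490) (nat_lit 383) (nat_lit 327)) (XT.lf (nat_lit 0) (nat_lit 35774020783) (nat_lit 152) (nat_lit 2951039835) (nat_lit 0) (nat_lit 29149053455) (nat_lit 10) (nat_lit 5) (nat_lit 12)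 (nat_lit 4) (nat_lit 10) (nat_lit 4) (nat_lit 491) (nat_lit 383) (nat_lit 326))) (XT.nd (nat_lit 78) (nat_lit 0) (nat_lit 0) (XT.lf (nat_lit 0) (nat_lit 14225286557) (nat_lit 76) (nat_lit 31627979346) (nat_lit 76) (nat_lit 24982169051) (nat_lit 9) (nat_lit 4) (nat_lit 10) (nat_lit 5) (nat_lit 10) (nat_lit 4) (nat_lit 492) (nat_lit 383) (nat_lit 325)) (XT.lf (nat_lit 0) (nat_lit 32273313908) (nat_lit 76) (nat_lit 24168452542) (nat_lit 76) (nat_lit 17502791802) (nat_lit 9) (nat_lit 4) (nat_lit 10) (nat_lit 5) (nat_lit 10) (nat_lit 4) (nat_lit 493) (nat_lit 383) (nat_lit 324))))) (XT.nd (nat_lit 234) (nat_lit 0) (nat_lit 0) (XT.nd (nat_lit 78) (nat_lit 152) (nat_lit 0) (XT.lf (nat_lit 0) (nat_lit 51138439008) (nat_lit 76) (nat_lit 16378696717) (nat_lit 76) (nat_lit 9694130791) (nat_lit 9) (nat_lit 4) (nat_lit 10) (nat_lit 5) (nat_lit 10) (nat_lit 4) (nat_lit 494) (nat_lit 383) (nat_lit 323)) (XT.nd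 (nat_lit 78) (nat_lit 152) (nat_lit 0) (XT.lf (nat_lit 0) (nat_lit 70865578820) (nat_lit 76) (nat_lit 8240164832) (nat_lit 76) (nat_lit 1537593967) (nat_lit 9) (nat_lit 4) (nat_lit 10) (nat_lit 5) (nat_lit 10) (nat_lit 4) (nat_lit 495) (nat_lit 383) (nat_lit 322)) (XT.lf (nat_lit 0) (nat_lit 6885694547) (nat_lit 152) (nat_lit 76865679219) (nat_lit 0) (nat_lit 485962713) (nat_lit 7) (nat_lit 5) (nat_lit 9) (nat_lit 4) (nat_lit 7) (nat_lit 4) (nat_lit 496) (nat_lit 383) (nat_lit 321)))) (XT.nd (nat_lit 156) (nat_lit 0) (nat_lit 0) (XT.nd (nat_lit 78) (nat_lit 0) (nat_lit 0) (XT.lf (nat_lit 0) (nat_lit 15942684711) (nat_lit 152) (nat_lit 62526481003) (nat_lit 0) (nat_lit 9527399534) (nat_lit 7) (nat_lit 5) (nat_lit 9) (nat_lit 4) (nat_lit 7) (nat_lit 4) (nat_lit 497) (nat_lit 383) (nat_lit 320)) (XT.lf (nat_lit 0) (nat_lit 25415210201) (nat_lit 152) (nat_lit 47545299417) (nat_lit 0) (nat_lit 18985112315)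 (nat_lit 7) (nat_lit 5) (nat_lit 9) (nat_lit 4) (nat_lit 7) (nat_lit 4) (nat_lit 498) (nat_lit 383) (nat_lit 319))) (XT.nd (nat_lit 78) (nat_lit 0) (nat_lit 0) (XT.lf (nat_lit 0) (nat_lit 35325824649) (nat_lit 152) (nat_lit 31886464982) (nat_lit 0) (nat_lit 28881619423) (nat_lit 7) (nat_lit 5) (nat_lit 9) (nat_lit 4) (nat_lit 7) (nat_lit 4) (nat_lit 499) (nat_lit 383) (nat_lit 318)) (XT.lf (nat_lit 0) (nat_lit 45698124756) (nat_lit 152) (nat_lit 15512694758) (nat_lit 0) (nat_lit 39240483967) (nat_lit 7) (nat_lit 5) (nat_lit 9) (nat_lit 4) (nat_lit 7) (nat_lit 4) (nat_lit 500) (nat_lit 383) (nat_lit 317))))))) (XT.nd (nat_lit 1092) (nat_lit 76) (nat_lit 0) (XT.nd (nat_lit 546) (nat_lit 152) (nat_lit 0) (XT.nd (nat_lit 234) (nat_lit 0) (nat_lit 0) (XT.nd (nat_lit 78) (nat_lit 0) (nat_lit 0) (XT.lf (nat_lit 0) (nat_lit 1668395496) (nat_lit 76) (nat_lit 54914459308) (nat_lit 76) (nat_lit 48444022745)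 (nat_lit 6) (nat_lit 4) (nat_lit 7) (nat_lit 5) (nat_lit 7) (nat_lit 4) (nat_lit 501) (nat_lit 383) (nat_lit 316)) (XT.nd (nat_lit 78) (nat_lit 0) (nat_lit 0) (XT.lf (nat_lit 0) (nat_lit 20183383080) (nat_lit 76) (nat_lit 48059459904) (nat_lit 76) (nat_lit 41576836890) (nat_lit 6) (nat_lit 4) (nat_lit 7) (nat_lit 5) (nat_lit 7) (nat_lit 4) (nat_lit 502) (nat_lit 383) (nat_lit 315)) (XT.lf (nat_lit 0) (nat_lit 39563431550) (nat_lit 76) (nat_lit 40892214867) (nat_lit 76) (nat_lit 34397985709) (nat_lit 6) (nat_lit 4) (nat_lit 7) (nat_lit 5) (nat_lit 7) (nat_lit 4) (nat_lit 503) (nat_lit 383) (nat_lit 314)))) (XT.nd (nat_lit 156) (nat_lit 0) (nat_lit 0) (XT.nd (nat_lit 78) (nat_lit 0) (nat_lit 0) (XT.lf (nat_lit 0) (nat_lit 59854683879) (nat_lit 76) (nat_lit 33395659328) (nat_lit 76) (nat_lit 26890376699) (nat_lit 6) (nat_lit 4) (nat_lit 7) (nat_lit 5) (nat_lit 7) (nat_lit 4) (nat_lit 504) (nat_lit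 383) (nat_lit 313)) (XT.lf (nat_lit 0) (nat_lit 81105452573) (nat_lit 76) (nat_lit 25551944346) (nat_lit 76) (nat_lit 19036134602) (nat_lit 6) (nat_lit 4) (nat_lit 7) (nat_lit 5) (nat_lit 7) (nat_lit 4) (nat_lit 505) (nat_lit 383) (nat_lit 312))) (XT.nd (nat_lit 78) (nat_lit 0) (nat_lit 0) (XT.lf (nat_lit 0) (nat_lit 103366334700) (nat_lit 76) (nat_lit 17342394408) (nat_lit 76) (nat_lit 10816558840) (nat_lit 6) (nat_lit 4) (nat_lit 7) (nat_lit 5) (nat_lit 7) (nat_lit 4) (nat_lit 506) (nat_lit 383) (nat_lit 311)) (XT.lf (nat_lit 0) (nat_lit 126690332359) (nat_lit 76) (nat_lit 8747462966) (nat_lit 76) (nat_lit 2212078995) (nat_lit 6) (nat_lit 4) (nat_lit 7) (nat_lit 5) (nat_lit 7) (nat_lit 4) (nat_lit 507) (nat_lit 383) (nat_lit 310))))) (XT.nd (nat_lit 234) (nat_lit 0) (nat_lit 0) (XT.nd (nat_lit 78) (nat_lit 0) (nat_lit 0) (XT.lf (nat_lit 0) (nat_lit 6699766841) (nat_lit 152) (nat_lit 136903891231)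 (nat_lit 0) (nat_lit 466930947) (nat_lit 4) (nat_lit 5) (nat_lit 6) (nat_lit 4) (nat_lit 4) (nat_lit 4) (nat_lit 508) (nat_lit 383) (nat_lit 309)) (XT.nd (nat_lit 78) (nat_lit 0) (nat_lit 0) (XT.lf (nat_lit 0) (nat_lit 16290903669) (nat_lit 152) (nat_lit 124454401575) (nat_lit 0) (nat_lit 10049819505) (nat_lit 4) (nat_lit 5) (nat_lit 6) (nat_lit 4) (nat_lit 4) (nat_lit 4) (nat_lit 509) (nat_lit 383) (nat_lit 308)) (XT.lf (nat_lit 0) (nat_lit 26338730836) (nat_lit 152) (nat_lit 111428508985) (nat_lit 0) (nat_lit 20089791177) (nat_lit 4) (nat_lit 5) (nat_lit 6) (nat_lit 4) (nat_lit 4) (nat_lit 4) (nat_lit 510) (nat_lit 383) (nat_lit 307)))) (XT.nd (nat_lit 156) (nat_lit 0) (nat_lit 0) (XT.nd (nat_lit 78) (nat_lit 0) (nat_lit 0) (XT.lf (nat_lit 0) (nat_lit 36867171740) (nat_lit 152) (nat_lit 97795199433) (nat_lit 0) (nat_lit 30610750657) (nat_lit 4) (nat_lit 5) (nat_lit 6) (nat_lit 4) (nat_lit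 4) (nat_lit 4) (nat_lit 511) (nat_lit 383) (nat_lit 306)) (XT.lf (nat_lit 0) (nat_lit 47901294099) (nat_lit 152) (nat_lit 83522012657) (nat_lit 0) (nat_lit 41637747850) (nat_lit 4) (nat_lit 5) (nat_lit 6) (nat_lit 4) (nat_lit 4) (nat_lit 4) (nat_lit 512) (nat_lit 383) (nat_lit 305))) (XT.nd (nat_lit 78) (nat_lit 0) (nat_lit 0) (XT.lf (nat_lit 0) (nat_lit 59467369631) (nat_lit 152) (nat_lit 68574964879) (nat_lit 0) (nat_lit 53197037509) (nat_lit 4) (nat_lit 5) (nat_lit 6) (nat_lit 4) (nat_lit 4) (nat_lit 4) (nat_lit 513) (nat_lit 383) (nat_lit 304)) (XT.lf (nat_lit 0) (nat_lit 71592936611) (nat_lit 152) (nat_lit 52918467890) (nat_lit 0) (nat_lit 65316141755) (nat_lit 4) (nat_lit 5) (nat_lit 6) (nat_lit 4) (nat_lit 4) (nat_lit 4) (nat_lit 514) (nat_lit 383) (nat_lit 303)))))) (XT.nd (nat_lit 546) (nat_lit 0) (nat_lit 0) (XT.nd (nat_lit 234) (nat_lit 76) (nat_lit 0) (XT.nd (nat_lit 78) (nat_lit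 0) (nat_lit 0) (XT.lf (nat_lit 0) (nat_lit 84306865438) (nat_lit 152) (nat_lit 36515244316) (nat_lit 0) (nat_lit 78023915595) (nat_lit 4) (nat_lit 5) (nat_lit 6) (nat_lit 4) (nat_lit 4) (nat_lit 4) (nat_lit 515) (nat_lit 383) (nat_lit 302)) (XT.nd (nat_lit 78) (nat_lit 0) (nat_lit 0) (XT.lf (nat_lit 0) (nat_lit 97639427371) (nat_lit 152) (nat_lit 19326238863) (nat_lit 0) (nat_lit 91350615636) (nat_lit 4) (nat_lit 5) (nat_lit 6) (nat_lit 4) (nat_lit 4) (nat_lit 4) (nat_lit 516) (nat_lit 383) (nat_lit 301)) (XT.lf (nat_lit 0) (nat_lit 111622366604) (nat_lit 152) (nat_lit 1310525328) (nat_lit 0) (nat_lit 105327972115) (nat_lit 4) (nat_lit 5) (nat_lit 6) (nat_lit 4) (nat_lit 4) (nat_lit 4) (nat_lit 517) (nat_lit 383) (nat_lit 300)))) (XT.nd (nat_lit 156) (nat_lit 0) (nat_lit 0) (XT.nd (nat_lit 78) (nat_lit 0) (nat_lit 0) (XT.lf (nat_lit 0) (nat_lit 18155892800) (nat_lit 76) (nat_lit 108416547417)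 (nat_lit 76) (nat_lit 102116836021) (nat_lit 3) (nat_lit 4) (nat_lit 4) (nat_lit 5) (nat_lit 4) (nat_lit 4) (nat_lit 518) (nat_lit 383) (nat_lit 299)) (XT.lf (nat_lit 0) (nat_lit 38610450229) (nat_lit 76) (nat_lit 103666542710) (nat_lit 76) (nat_lit 97361767592) (nat_lit 3) (nat_lit 4) (nat_lit 4) (nat_lit 5) (nat_lit 4) (nat_lit 4) (nat_lit 519) (nat_lit 383) (nat_lit 298))) (XT.nd (nat_lit 78) (nat_lit 0) (nat_lit 0) (XT.lf (nat_lit 0) (nat_lit 60058516401) (nat_lit 76) (nat_lit 98693762656) (nat_lit 76) (nat_lit 92384164945) (nat_lit 3) (nat_lit 4) (nat_lit 4) (nat_lit 5) (nat_lit 4) (nat_lit 4) (nat_lit 520) (nat_lit 383) (nat_lit 297)) (XT.lf (nat_lit 0) (nat_lit 82551158138) (nat_lit 76) (nat_lit 93486367303) (nat_lit 76) (nat_lit 87172176646) (nat_lit 3) (nat_lit 4) (nat_lit 4) (nat_lit 5) (nat_lit 4) (nat_lit 4) (nat_lit 521) (nat_lit 383) (nat_lit 296))))) (XT.nd (nat_lit 234) (nat_lit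 0) (nat_lit 0) (XT.nd (nat_lit 78) (nat_lit 0) (nat_lit 0) (XT.lf (nat_lit 0) (nat_lit 106141929350) (nat_lit 76) (nat_lit 88031958090) (nat_lit 76) (nat_lit 81713393199) (nat_lit 3) (nat_lit 4) (nat_lit 4) (nat_lit 5) (nat_lit 4) (nat_lit 4) (nat_lit 522) (nat_lit 383) (nat_lit 295)) (XT.nd (nat_lit 78) (nat_lit 0) (nat_lit 0) (XT.lf (nat_lit 0) (nat_lit 130886998540) (nat_lit 76) (nat_lit 82317548328) (nat_lit 76) (nat_lit 75994817501) (nat_lit 3) (nat_lit 4) (nat_lit 4) (nat_lit 5) (nat_lit 4) (nat_lit 4) (nat_lit 523) (nat_lit 383) (nat_lit 294)) (XT.lf (nat_lit 0) (nat_lit 156845282540) (nat_lit 76) (nat_lit 76329532281) (nat_lit 76) (nat_lit 70002833895) (nat_lit 3) (nat_lit 4) (nat_lit 4) (nat_lit 5) (nat_lit 4) (nat_lit 4) (nat_lit 524) (nat_lit 383) (nat_lit 293)))) (XT.nd (nat_lit 156) (nat_lit 0) (nat_lit 0) (XT.nd (nat_lit 78) (nat_lit 0) (nat_lit 0) (XT.lf (nat_lit 0) (nat_lit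 184078586787) (nat_lit 76) (nat_lit 70053652766) (nat_lit 76) (nat_lit 63723175752) (nat_lit 3) (nat_lit 4) (nat_lit 4) (nat_lit 5) (nat_lit 4) (nat_lit 4) (nat_lit 525) (nat_lit 383) (nat_lit 292)) (XT.lf (nat_lit 0) (nat_lit 212651752481) (nat_lit 76) (nat_lit 63474967214) (nat_lit 76) (nat_lit 57140891508) (nat_lit 3) (nat_lit 4) (nat_lit 4) (nat_lit 5) (nat_lit 4) (nat_lit 4) (nat_lit 526) (nat_lit 383) (nat_lit 291))) (XT.nd (nat_lit 78) (nat_lit 0) (nat_lit 0) (XT.lf (nat_lit 0) (nat_lit 242632810971) (nat_lit 76) (nat_lit 56577812088) (nat_lit 76) (nat_lit 50240309055) (nat_lit 3) (nat_lit 4) (nat_lit 4) (nat_lit 5) (nat_lit 4) (nat_lit 4) (nat_lit 527) (nat_lit 383) (nat_lit 290)) (XT.lf (nat_lit 0) (nat_lit 274093145728) (nat_lit 76) (nat_lit 49345765590) (nat_lit 76) (nat_lit 43004998436) (nat_lit 3) (nat_lit 4) (nat_lit 4) (nat_lit 5) (nat_lit 4) (nat_lit 4) (nat_lit 528) (nat_lit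 383) (nat_lit 289))))))))
noncomputable def xc57 : XT := (XT.nd (nat_lit 55770) (nat_lit 0) (nat_lit 1520) (XT.nd (nat_lit 1092) (nat_lit 0) (nat_lit 0) (XT.nd (nat_lit 546) (nat_lit 0) (nat_lit 0) (XT.nd (nat_lit 234) (nat_lit 152) (nat_lit 0) (XT.nd (nat_lit 78) (nat_lit 0) (nat_lit 0) (XT.lf (nat_lit 0) (nat_lit 307107662312) (nat_lit 76) (nat_lit 41761608561) (nat_lit 76) (nat_lit 35417732721) (nat_lit 3) (nat_lit 4) (nat_lit 4) (nat_lit 5) (nat_lit 4) (nat_lit 4) (nat_lit 529) (nat_lit 383) (nat_lit 288)) (XT.nd (nat_lit 78) (nat_lit 0) (nat_lit 0) (XT.lf (nat_lit 0) (nat_lit 341754966713) (nat_lit 76) (nat_lit 33807283485) (nat_lit 76) (nat_lit 27460446991) (nat_lit 3) (nat_lit 4) (nat_lit 4) (nat_lit 5) (nat_lit 4) (nat_lit 4) (nat_lit 530) (nat_lit 383) (nat_lit 287)) (XT.lf (nat_lit 0) (nat_lit 378117552515) (nat_lit 76) (nat_lit 25463851492) (nat_lit 76) (nat_lit 19114195329) (nat_lit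 3) (nat_lit 4) (nat_lit 4) (nat_lit 5) (nat_lit 4) (nat_lit 4) (nat_lit 531) (nat_lit 383) (nat_lit 286)))) (XT.nd (nat_lit 156) (nat_lit 152) (nat_lit 0) (XT.nd (nat_lit 78) (nat_lit 0) (nat_lit 0) (XT.lf (nat_lit 0) (nat_lit 416281997302) (nat_lit 76) (nat_lit 16711447269) (nat_lit 76) (nat_lit 10359105705) (nat_lit 3) (nat_lit 4) (nat_lit 4) (nat_lit 5) (nat_lit 4) (nat_lit 4) (nat_lit 532) (nat_lit 383) (nat_lit 285)) (XT.lf (nat_lit 0) (nat_lit 456339168800) (nat_lit 76) (nat_lit 7529231757) (nat_lit 76) (nat_lit 1174332670) (nat_lit 3) (nat_lit 4) (nat_lit 4) (nat_lit 5) (nat_lit 4) (nat_lit 4) (nat_lit 533) (nat_lit 383) (nat_lit 284))) (XT.nd (nat_lit 78) (nat_lit 0) (nat_lit 0) (XT.lf (nat_lit 0) (nat_lit 8397239053) (nat_lit 152) (nat_lit 477061008030) (nat_lit 0) (nat_lit 2342634459) (nat_lit 1) (nat_lit 5) (nat_lit 3) (nat_lit 4) (nat_lit 1) (nat_lit 4) (nat_lit 534) (nat_lit 383)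 (nat_lit 283)) (XT.lf (nat_lit 0) (nat_lit 18673736468) (nat_lit 152) (nat_lit 480392025143) (nat_lit 0) (nat_lit 12616922588) (nat_lit 1) (nat_lit 5) (nat_lit 3) (nat_lit 4) (nat_lit 1) (nat_lit 4) (nat_lit 535) (nat_lit 383) (nat_lit 282))))) (XT.nd (nat_lit 234) (nat_lit 0) (nat_lit 0) (XT.nd (nat_lit 78) (nat_lit 0) (nat_lit 0) (XT.lf (nat_lit 0) (nat_lit 29456979612) (nat_lit 152) (nat_lit 483903889794) (nat_lit 0) (nat_lit 23398061651) (nat_lit 1) (nat_lit 5) (nat_lit 3) (nat_lit 4) (nat_lit 1) (nat_lit 4) (nat_lit 536) (nat_lit 383) (nat_lit 281)) (XT.nd (nat_lit 78) (nat_lit 0) (nat_lit 0) (XT.lf (nat_lit 0) (nat_lit 40772642874) (nat_lit 152) (nat_lit 487604963564) (nat_lit 0) (nat_lit 34711721026) (nat_lit 1) (nat_lit 5) (nat_lit 3) (nat_lit 4) (nat_lit 1) (nat_lit 4) (nat_lit 537) (nat_lit 383) (nat_lit 280)) (XT.lf (nat_lit 0) (nat_lit 52647668309) (nat_lit 152) (nat_lit 491504058534)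 (nat_lit 0) (nat_lit 46584837997) (nat_lit 1) (nat_lit 5) (nat_lit 3) (nat_lit 4) (nat_lit 1) (nat_lit 4) (nat_lit 538) (nat_lit 383) (nat_lit 279)))) (XT.nd (nat_lit 156) (nat_lit 0) (nat_lit 0) (XT.nd (nat_lit 78) (nat_lit 0) (nat_lit 0) (XT.lf (nat_lit 0) (nat_lit 65110329787) (nat_lit 152) (nat_lit 495610458264) (nat_lit 0) (nat_lit 59045681891) (nat_lit 1) (nat_lit 5) (nat_lit 3) (nat_lit 4) (nat_lit 1) (nat_lit 4) (nat_lit 539) (nat_lit 383) (nat_lit 278)) (XT.lf (nat_lit 0) (nat_lit 78190300312) (nat_lit 152) (nat_lit 499933939894) (nat_lit 0) (nat_lit 72123921383) (nat_lit 1) (nat_lit 5) (nat_lit 3) (nat_lit 4) (nat_lit 1) (nat_lit 4) (nat_lit 540) (nat_lit 383) (nat_lit 277))) (XT.nd (nat_lit 78) (nat_lit 0) (nat_lit 0) (XT.lf (nat_lit 0) (nat_lit 91918722670) (nat_lit 152) (nat_lit 504484797431) (nat_lit 0) (nat_lit 85850695139) (nat_lit 1) (nat_lit 5) (nat_lit 3) (nat_lit 4) (nat_lit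 1) (nat_lit 4) (nat_lit 541) (nat_lit 383) (nat_lit 276)) (XT.lf (nat_lit 0) (nat_lit 106328283582) (nat_lit 152) (nat_lit 509273866247) (nat_lit 0) (nat_lit 100258685953) (nat_lit 1) (nat_lit 5) (nat_lit 3) (nat_lit 4) (nat_lit 1) (nat_lit 4) (nat_lit 542) (nat_lit 383) (nat_lit 275)))))) (XT.nd (nat_lit 54132) (nat_lit 0) (nat_lit 3800) (XT.nd (nat_lit 53820) (nat_lit 0) (nat_lit 4940) (XT.nd (nat_lit 78) (nat_lit 0) (nat_lit 0) (XT.lf (nat_lit 0) (nat_lit 121453291525) (nat_lit 152) (nat_lit 514312548889) (nat_lit 0) (nat_lit 115382198565) (nat_lit 1) (nat_lit 5) (nat_lit 3) (nat_lit 4) (nat_lit 1) (nat_lit 4) (nat_lit 543) (nat_lit 383) (nat_lit 274)) (XT.nd (nat_lit 78) (nat_lit 0) (nat_lit 0) (XT.lf (nat_lit 0) (nat_lit 137329758425) (nat_lit 152) (nat_lit 519612842220) (nat_lit 0) (nat_lit 131257241339) (nat_lit 1) (nat_lit 5) (nat_lit 3) (nat_lit 4) (nat_lit 1) (nat_lit 4) (nat_lit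 544) (nat_lit 383) (nat_lit 273)) (XT.lf (nat_lit 0) (nat_lit 153995485391) (nat_lit 152) (nat_lit 525187365986) (nat_lit 0) (nat_lit 147921611996) (nat_lit 1) (nat_lit 5) (nat_lit 3) (nat_lit 4) (nat_lit 1) (nat_lit 4) (nat_lit 545) (nat_lit 383) (nat_lit 272)))) (XT.nd (nat_lit 156) (nat_lit 304) (nat_lit 0) (XT.nd (nat_lit 78) (nat_lit 76) (nat_lit 0) (XT.lf (nat_lit 0) (nat_lit 459817170) (nat_lit 228) (nat_lit 2153863502) (nat_lit 228) (nat_lit 2153863502) (nat_lit 71) (nat_lit 4) (nat_lit 74) (nat_lit 5) (nat_lit 74) (nat_lit 4) (nat_lit 432) (nat_lit 384) (nat_lit 384)) (XT.lf (nat_lit 0) (nat_lit 197558355) (nat_lit 304) (nat_lit 404393780) (nat_lit 76) (nat_lit 9142943937) (nat_lit 70) (nat_lit 5) (nat_lit 74) (nat_lit 5) (nat_lit 71) (nat_lit 4) (nat_lit 433) (nat_lit 384) (nat_lit 383))) (XT.nd (nat_lit 78) (nat_lit 152) (nat_lit 0) (XT.lf (nat_lit 0) (nat_lit 4793428937) (nat_lit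 228) (nat_lit 1879324391) (nat_lit 0) (nat_lit 3288443685) (nat_lit 68) (nat_lit 5) (nat_lit 71) (nat_lit 4) (nat_lit 68) (nat_lit 4) (nat_lit 434) (nat_lit 384) (nat_lit 382)) (XT.lf (nat_lit 0) (nat_lit 6752736132) (nat_lit 152) (nat_lit 2821022676) (nat_lit 152) (nat_lit 616857284) (nat_lit 66) (nat_lit 4) (nat_lit 68) (nat_lit 5) (nat_lit 68) (nat_lit 4) (nat_lit 435) (nat_lit 384) (nat_lit 381))))) (XT.nd (nat_lit 234) (nat_lit 532) (nat_lit 0) (XT.nd (nat_lit 78) (nat_lit 380) (nat_lit 0) (XT.lf (nat_lit 0) (nat_lit 3997096002) (nat_lit 228) (nat_lit 5169045833) (nat_lit 0) (nat_lit 1263713869) (nat_lit 63) (nat_lit 5) (nat_lit 66) (nat_lit 4) (nat_lit 63) (nat_lit 4) (nat_lit 436) (nat_lit 384) (nat_lit 380)) (XT.nd (nat_lit 78) (nat_lit 228) (nat_lit 0) (XT.lf (nat_lit 0) (nat_lit 3618960581) (nat_lit 152) (nat_lit 5199553924) (nat_lit 152) (nat_lit 1862193697) (nat_lit 61) (nat_lit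 4) (nat_lit 63) (nat_lit 5) (nat_lit 63) (nat_lit 4) (nat_lit 437) (nat_lit 384) (nat_lit 379)) (XT.lf (nat_lit 0) (nat_lit 1820895734) (nat_lit 152) (nat_lit 975920457) (nat_lit 228) (nat_lit 8147327237) (nat_lit 58) (nat_lit 5) (nat_lit 60) (nat_lit 5) (nat_lit 61) (nat_lit 4) (nat_lit 438) (nat_lit 384) (nat_lit 378)))) (XT.nd (nat_lit 156) (nat_lit 304) (nat_lit 0) (XT.nd (nat_lit 78) (nat_lit 228) (nat_lit 0) (XT.lf (nat_lit 0) (nat_lit 7640059667) (nat_lit 228) (nat_lit 186441820) (nat_lit 0) (nat_lit 3392056435) (nat_lit 58) (nat_lit 5) (nat_lit 61) (nat_lit 4) (nat_lit 58) (nat_lit 4) (nat_lit 439) (nat_lit 384) (nat_lit 377)) (XT.lf (nat_lit 0) (nat_lit 1185653185) (nat_lit 228) (nat_lit 2314308474) (nat_lit 76) (nat_lit 8005510218) (nat_lit 55) (nat_lit 5) (nat_lit 58) (nat_lit 5) (nat_lit 56) (nat_lit 4) (nat_lit 440) (nat_lit 384) (nat_lit 376))) (XT.nd (nat_lit 78) (nat_lit 152)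 (nat_lit 0) (XT.lf (nat_lit 0) (nat_lit 6046612501) (nat_lit 228) (nat_lit 4681301471) (nat_lit 0) (nat_lit 1076964745) (nat_lit 53) (nat_lit 5) (nat_lit 56) (nat_lit 4) (nat_lit 53) (nat_lit 4) (nat_lit 441) (nat_lit 384) (nat_lit 375)) (XT.lf (nat_lit 0) (nat_lit 4825743737) (nat_lit 152) (nat_lit 6345688784) (nat_lit 152) (nat_lit 946805073) (nat_lit 51) (nat_lit 4) (nat_lit 53) (nat_lit 5) (nat_lit 53) (nat_lit 4) (nat_lit 442) (nat_lit 384) (nat_lit 374))))))) (XT.nd (nat_lit 1092) (nat_lit 912) (nat_lit 0) (XT.nd (nat_lit 546) (nat_lit 608) (nat_lit 0) (XT.nd (nat_lit 234) (nat_lit 380) (nat_lit 0) (XT.nd (nat_lit 78) (nat_lit 228) (nat_lit 0) (XT.lf (nat_lit 0) (nat_lit 2266712799) (nat_lit 76) (nat_lit 1672015325) (nat_lit 152) (nat_lit 8507107244) (nat_lit 49) (nat_lit 5) (nat_lit 50) (nat_lit 5) (nat_lit 51) (nat_lit 4) (nat_lit 443) (nat_lit 384) (nat_lit 373)) (XT.nd (nat_lit 78)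 (nat_lit 228) (nat_lit 0) (XT.lf (nat_lit 0) (nat_lit 9062958114) (nat_lit 152) (nat_lit 563741908) (nat_lit 0) (nat_lit 3161044283) (nat_lit 49) (nat_lit 5) (nat_lit 51) (nat_lit 4) (nat_lit 49) (nat_lit 4) (nat_lit 444) (nat_lit 384) (nat_lit 372)) (XT.lf (nat_lit 0) (nat_lit 1289604047) (nat_lit 228) (nat_lit 3611359015) (nat_lit 76) (nat_lit 8243068204) (nat_lit 46) (nat_lit 5) (nat_lit 49) (nat_lit 5) (nat_lit 47) (nat_lit 4) (nat_lit 445) (nat_lit 384) (nat_lit 371)))) (XT.nd (nat_lit 156) (nat_lit 152) (nat_lit 0) (XT.nd (nat_lit 78) (nat_lit 152) (nat_lit 0) (XT.lf (nat_lit 0) (nat_lit 6401012482) (nat_lit 152) (nat_lit 6991987773) (nat_lit 0) (nat_lit 123522086) (nat_lit 45) (nat_lit 5) (nat_lit 47) (nat_lit 4) (nat_lit 45) (nat_lit 4) (nat_lit 446) (nat_lit 384) (nat_lit 370)) (XT.lf (nat_lit 0) (nat_lit 3149541644) (nat_lit 152) (nat_lit 8669061003) (nat_lit 152) (nat_lit 2086520629)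 (nat_lit 43) (nat_lit 4) (nat_lit 45) (nat_lit 5) (nat_lit 45) (nat_lit 4) (nat_lit 447) (nat_lit 384) (nat_lit 369))) (XT.nd (nat_lit 78) (nat_lit 76) (nat_lit 0) (XT.lf (nat_lit 0) (nat_lit 3071451666) (nat_lit 228) (nat_lit 576588247) (nat_lit 76) (nat_lit 10663647494) (nat_lit 42) (nat_lit 5) (nat_lit 45) (nat_lit 5) (nat_lit 43) (nat_lit 4) (nat_lit 448) (nat_lit 384) (nat_lit 368)) (XT.lf (nat_lit 0) (nat_lit 8468630169) (nat_lit 152) (nat_lit 4606340474) (nat_lit 0) (nat_lit 1659341132) (nat_lit 41) (nat_lit 5) (nat_lit 43) (nat_lit 4) (nat_lit 41) (nat_lit 4) (nat_lit 449) (nat_lit 384) (nat_lit 367))))) (XT.nd (nat_lit 234) (nat_lit 304) (nat_lit 0) (XT.nd (nat_lit 78) (nat_lit 152) (nat_lit 0) (XT.lf (nat_lit 0) (nat_lit 6098408889) (nat_lit 152) (nat_lit 8069165304) (nat_lit 152) (nat_lit 1008910895) (nat_lit 39) (nat_lit 4) (nat_lit 41) (nat_lit 5) (nat_lit 41) (nat_lit 4) (nat_lit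 450) (nat_lit 384) (nat_lit 366)) (XT.nd (nat_lit 78) (nat_lit 0) (nat_lit 0) (XT.lf (nat_lit 0) (nat_lit 1593318067) (nat_lit 76) (nat_lit 2744529306) (nat_lit 152) (nat_lit 11300834329) (nat_lit 37) (nat_lit 5) (nat_lit 38) (nat_lit 5) (nat_lit 39) (nat_lit 4) (nat_lit 451) (nat_lit 384) (nat_lit 365)) (XT.lf (nat_lit 0) (nat_lit 9986839517) (nat_lit 152) (nat_lit 3314531451) (nat_lit 0) (nat_lit 2818361383) (nat_lit 37) (nat_lit 5) (nat_lit 39) (nat_lit 4) (nat_lit 37) (nat_lit 4) (nat_lit 452) (nat_lit 384) (nat_lit 364)))) (XT.nd (nat_lit 156) (nat_lit 76) (nat_lit 0) (XT.nd (nat_lit 78) (nat_lit 152) (nat_lit 0) (XT.lf (nat_lit 0) (nat_lit 7925138713) (nat_lit 76) (nat_lit 8036250077) (nat_lit 76) (nat_lit 661302109) (nat_lit 36) (nat_lit 4) (nat_lit 37) (nat_lit 5) (nat_lit 37) (nat_lit 4) (nat_lit 453) (nat_lit 384) (nat_lit 363)) (XT.lf (nat_lit 0) (nat_lit 2455465712) (nat_lit 76)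 (nat_lit 2435778978) (nat_lit 152) (nat_lit 12257089155) (nat_lit 34) (nat_lit 5) (nat_lit 35) (nat_lit 5) (nat_lit 36) (nat_lit 4) (nat_lit 454) (nat_lit 384) (nat_lit 362))) (XT.nd (nat_lit 78) (nat_lit 76) (nat_lit 0) (XT.lf (nat_lit 0) (nat_lit 10778004711) (nat_lit 152) (nat_lit 3529166844) (nat_lit 0) (nat_lit 3388614112) (nat_lit 34) (nat_lit 5) (nat_lit 36) (nat_lit 4) (nat_lit 34) (nat_lit 4) (nat_lit 455) (nat_lit 384) (nat_lit 361)) (XT.lf (nat_lit 0) (nat_lit 8188855354) (nat_lit 76) (nat_lit 8819282818) (nat_lit 76) (nat_lit 1260028975) (nat_lit 33) (nat_lit 4) (nat_lit 34) (nat_lit 5) (nat_lit 34) (nat_lit 4) (nat_lit 456) (nat_lit 384) (nat_lit 360)))))) (XT.nd (nat_lit 546) (nat_lit 456) (nat_lit 0) (XT.nd (nat_lit 234) (nat_lit 228) (nat_lit 0) (XT.nd (nat_lit 78) (nat_lit 76) (nat_lit 0) (XT.lf (nat_lit 0) (nat_lit 1496661486) (nat_lit 76) (nat_lit 2999772584) (nat_lit 152)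 (nat_lit 14370806163) (nat_lit 31) (nat_lit 5) (nat_lit 32) (nat_lit 5) (nat_lit 33) (nat_lit 4) (nat_lit 457) (nat_lit 384) (nat_lit 359)) (XT.nd (nat_lit 78) (nat_lit 76) (nat_lit 0) (XT.lf (nat_lit 0) (nat_lit 10602460990) (nat_lit 152) (nat_lit 5785210119) (nat_lit 0) (nat_lit 3102366392) (nat_lit 31) (nat_lit 5) (nat_lit 33) (nat_lit 4) (nat_lit 31) (nat_lit 4) (nat_lit 458) (nat_lit 384) (nat_lit 358)) (XT.lf (nat_lit 0) (nat_lit 6316394477) (nat_lit 76) (nat_lit 10732828620) (nat_lit 76) (nat_lit 3092987112) (nat_lit 30) (nat_lit 4) (nat_lit 31) (nat_lit 5) (nat_lit 31) (nat_lit 4) (nat_lit 459) (nat_lit 384) (nat_lit 357)))) (XT.nd (nat_lit 156) (nat_lit 76) (nat_lit 0) (XT.nd (nat_lit 78) (nat_lit 76) (nat_lit 0) (XT.lf (nat_lit 0) (nat_lit 2883029390) (nat_lit 152) (nat_lit 1862723553) (nat_lit 76) (nat_lit 16079538105) (nat_lit 29) (nat_lit 5) (nat_lit 31) (nat_lit 5) (nat_lit 30)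 (nat_lit 4) (nat_lit 460) (nat_lit 384) (nat_lit 356)) (XT.lf (nat_lit 0) (nat_lit 9141615255) (nat_lit 152) (nat_lit 10775893539) (nat_lit 0) (nat_lit 1618102521) (nat_lit 28) (nat_lit 5) (nat_lit 30) (nat_lit 4) (nat_lit 28) (nat_lit 4) (nat_lit 461) (nat_lit 384) (nat_lit 355))) (XT.nd (nat_lit 78) (nat_lit 0) (nat_lit 0) (XT.lf (nat_lit 0) (nat_lit 1563449549) (nat_lit 76) (nat_lit 14177546798) (nat_lit 76) (nat_lit 6539063935) (nat_lit 27) (nat_lit 4) (nat_lit 28) (nat_lit 5) (nat_lit 28) (nat_lit 4) (nat_lit 462) (nat_lit 384) (nat_lit 354)) (XT.lf (nat_lit 0) (nat_lit 14690848124) (nat_lit 76) (nat_lit 8057484103) (nat_lit 76) (nat_lit 309505879) (nat_lit 27) (nat_lit 4) (nat_lit 28) (nat_lit 5) (nat_lit 28) (nat_lit 4) (nat_lit 463) (nat_lit 384) (nat_lit 353))))) (XT.nd (nat_lit 312) (nat_lit 152) (nat_lit 0) (XT.nd (nat_lit 156) (nat_lit 152) (nat_lit 0) (XT.nd (nat_lit 78) (nat_lit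 0) (nat_lit 0) (XT.lf (nat_lit 0) (nat_lit 4448490919) (nat_lit 76) (nat_lit 1551875148) (nat_lit 152) (nat_lit 17870865147) (nat_lit 25) (nat_lit 5) (nat_lit 26) (nat_lit 5) (nat_lit 27) (nat_lit 4) (nat_lit 464) (nat_lit 384) (nat_lit 352)) (XT.lf (nat_lit 0) (nat_lit 12740928629) (nat_lit 152) (nat_lit 6809836636) (nat_lit 0) (nat_lit 5168000019) (nat_lit 25) (nat_lit 5) (nat_lit 27) (nat_lit 4) (nat_lit 25) (nat_lit 4) (nat_lit 465) (nat_lit 384) (nat_lit 351))) (XT.nd (nat_lit 78) (nat_lit 76) (nat_lit 0) (XT.lf (nat_lit 0) (nat_lit 6426296619) (nat_lit 76) (nat_lit 13421954133) (nat_lit 76) (nat_lit 5758943419) (nat_lit 24) (nat_lit 4) (nat_lit 25) (nat_lit 5) (nat_lit 25) (nat_lit 4) (nat_lit 466) (nat_lit 384) (nat_lit 350)) (XT.lf (nat_lit 0) (nat_lit 767537665) (nat_lit 152) (nat_lit 6175350980) (nat_lit 76) (nat_lit 19595492487) (nat_lit 23) (nat_lit 5) (nat_lit 25) (nat_lit 5) (nat_lit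 24) (nat_lit 4) (nat_lit 467) (nat_lit 384) (nat_lit 349)))) (XT.nd (nat_lit 156) (nat_lit 76) (nat_lit 0) (XT.nd (nat_lit 78) (nat_lit 0) (nat_lit 0) (XT.lf (nat_lit 0) (nat_lit 7445504643) (nat_lit 76) (nat_lit 6209972) (nat_lit 152) (nat_lit 20058450926) (nat_lit 22) (nat_lit 5) (nat_lit 23) (nat_lit 5) (nat_lit 24) (nat_lit 4) (nat_lit 468) (nat_lit 384) (nat_lit 348)) (XT.lf (nat_lit 0) (nat_lit 14598936695) (nat_lit 152) (nat_lit 6857967467) (nat_lit 0) (nat_lit 7067197050) (nat_lit 22) (nat_lit 5) (nat_lit 24) (nat_lit 4) (nat_lit 22) (nat_lit 4) (nat_lit 469) (nat_lit 384) (nat_lit 347))) (XT.nd (nat_lit 78) (nat_lit 0) (nat_lit 0) (XT.lf (nat_lit 0) (nat_lit 7064474556) (nat_lit 76) (nat_lit 15062700673) (nat_lit 76) (nat_lit 7460379342) (nat_lit 21) (nat_lit 4) (nat_lit 22) (nat_lit 5) (nat_lit 22) (nat_lit 4) (nat_lit 470) (nat_lit 384) (nat_lit 346)) (XT.lf (nat_lit 0) (nat_lit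 21753291724) (nat_lit 76) (nat_lit 8309444417) (nat_lit 76) (nat_lit 639902433) (nat_lit 21) (nat_lit 4) (nat_lit 22) (nat_lit 5) (nat_lit 22) (nat_lit 4) (nat_lit 471) (nat_lit 384) (nat_lit 345))))))))
noncomputable def xc58 : XT := (XT.nd (nat_lit 2184) (nat_lit 304) (nat_lit 0) (XT.nd (nat_lit 1092) (nat_lit 380) (nat_lit 0) (XT.nd (nat_lit 546) (nat_lit 304) (nat_lit 0) (XT.nd (nat_lit 234) (nat_lit 152) (nat_lit 0) (XT.nd (nat_lit 78) (nat_lit 76) (nat_lit 0) (XT.lf (nat_lit 0) (nat_lit 5205274881) (nat_lit 76) (nat_lit 1106352696) (nat_lit 152) (nat_lit 25556823294) (nat_lit 19) (nat_lit 5) (nat_lit 20) (nat_lit 5) (nat_lit 21) (nat_lit 4) (nat_lit 472) (nat_lit 384) (nat_lit 344)) (XT.nd (nat_lit 78) (nat_lit 76) (nat_lit 0) (XT.lf (nat_lit 0) (nat_lit 13761777738) (nat_lit 152) (nat_lit 12983213931) (nat_lit 0) (nat_lit 6338413197) (nat_lit 19) (nat_lit 5) (nat_lit 21) (nat_lit 4)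 (nat_lit 19) (nat_lit 4) (nat_lit 473) (nat_lit 384) (nat_lit 343)) (XT.lf (nat_lit 0) (nat_lit 1247506819) (nat_lit 76) (nat_lit 20296154237) (nat_lit 76) (nat_lit 12817487098) (nat_lit 18) (nat_lit 4) (nat_lit 19) (nat_lit 5) (nat_lit 19) (nat_lit 4) (nat_lit 474) (nat_lit 384) (nat_lit 342)))) (XT.nd (nat_lit 156) (nat_lit 76) (nat_lit 0) (XT.nd (nat_lit 78) (nat_lit 76) (nat_lit 0) (XT.lf (nat_lit 0) (nat_lit 16487981481) (nat_lit 76) (nat_lit 13369497074) (nat_lit 76) (nat_lit 5838160794) (nat_lit 18) (nat_lit 4) (nat_lit 19) (nat_lit 5) (nat_lit 19) (nat_lit 4) (nat_lit 475) (nat_lit 384) (nat_lit 341)) (XT.lf (nat_lit 0) (nat_lit 1367864441) (nat_lit 152) (nat_lit 4777375260) (nat_lit 76) (nat_lit 30954183323) (nat_lit 17) (nat_lit 5) (nat_lit 19) (nat_lit 5) (nat_lit 18) (nat_lit 4) (nat_lit 476) (nat_lit 384) (nat_lit 340))) (XT.nd (nat_lit 78) (nat_lit 0) (nat_lit 0) (XT.lf (nat_lit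 0) (nat_lit 8856131837) (nat_lit 152) (nat_lit 28116413394) (nat_lit 0) (nat_lit 1590160571) (nat_lit 16) (nat_lit 5) (nat_lit 18) (nat_lit 4) (nat_lit 16) (nat_lit 4) (nat_lit 477) (nat_lit 384) (nat_lit 339)) (XT.lf (nat_lit 0) (nat_lit 16830914285) (nat_lit 152) (nat_lit 13741023621) (nat_lit 0) (nat_lit 9521611986) (nat_lit 16) (nat_lit 5) (nat_lit 18) (nat_lit 4) (nat_lit 16) (nat_lit 4) (nat_lit 478) (nat_lit 384) (nat_lit 338))))) (XT.nd (nat_lit 234) (nat_lit 228) (nat_lit 0) (XT.nd (nat_lit 78) (nat_lit 0) (nat_lit 0) (XT.lf (nat_lit 0) (nat_lit 1259296793) (nat_lit 76) (nat_lit 23897301678) (nat_lit 76) (nat_lit 16546731730) (nat_lit 15) (nat_lit 4) (nat_lit 16) (nat_lit 5) (nat_lit 16) (nat_lit 4) (nat_lit 479) (nat_lit 384) (nat_lit 337)) (XT.nd (nat_lit 78) (nat_lit 0) (nat_lit 0) (XT.lf (nat_lit 0) (nat_lit 17354709947) (nat_lit 76) (nat_lit 16710222898) (nat_lit 76) (nat_lit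 9320350426) (nat_lit 15) (nat_lit 4) (nat_lit 16) (nat_lit 5) (nat_lit 16) (nat_lit 4) (nat_lit 480) (nat_lit 384) (nat_lit 336)) (XT.lf (nat_lit 0) (nat_lit 34129197957) (nat_lit 76) (nat_lit 9226300358) (nat_lit 76) (nat_lit 1798996911) (nat_lit 15) (nat_lit 4) (nat_lit 16) (nat_lit 5) (nat_lit 16) (nat_lit 4) (nat_lit 481) (nat_lit 384) (nat_lit 335)))) (XT.nd (nat_lit 156) (nat_lit 76) (nat_lit 0) (XT.nd (nat_lit 78) (nat_lit 0) (nat_lit 0) (XT.lf (nat_lit 0) (nat_lit 4662524550) (nat_lit 76) (nat_lit 1252342057) (nat_lit 152) (nat_lit 41091960762) (nat_lit 13) (nat_lit 5) (nat_lit 14) (nat_lit 5) (nat_lit 15) (nat_lit 4) (nat_lit 482) (nat_lit 384) (nat_lit 334)) (XT.lf (nat_lit 0) (nat_lit 14193859270) (nat_lit 152) (nat_lit 27690497583) (nat_lit 0) (nat_lit 7053951658) (nat_lit 13) (nat_lit 5) (nat_lit 15) (nat_lit 4) (nat_lit 13) (nat_lit 4) (nat_lit 483) (nat_lit 384) (nat_lit 333)))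 (XT.nd (nat_lit 78) (nat_lit 76) (nat_lit 0) (XT.lf (nat_lit 0) (nat_lit 22849185378) (nat_lit 152) (nat_lit 12440577532) (nat_lit 0) (nat_lit 15678483211) (nat_lit 13) (nat_lit 5) (nat_lit 15) (nat_lit 4) (nat_lit 13) (nat_lit 4) (nat_lit 484) (nat_lit 384) (nat_lit 332)) (XT.lf (nat_lit 0) (nat_lit 3575766080) (nat_lit 76) (nat_lit 28361961932) (nat_lit 76) (nat_lit 21161931616) (nat_lit 12) (nat_lit 4) (nat_lit 13) (nat_lit 5) (nat_lit 13) (nat_lit 4) (nat_lit 485) (nat_lit 384) (nat_lit 331)))))) (XT.nd (nat_lit 546) (nat_lit 228) (nat_lit 0) (XT.nd (nat_lit 234) (nat_lit 76) (nat_lit 0) (XT.nd (nat_lit 78) (nat_lit 76) (nat_lit 0) (XT.lf (nat_lit 0) (nat_lit 20716098918) (nat_lit 76) (nat_lit 20920847889) (nat_lit 76) (nat_lit 13692886004) (nat_lit 12) (nat_lit 4) (nat_lit 13) (nat_lit 5) (nat_lit 13) (nat_lit 4) (nat_lit 486) (nat_lit 384) (nat_lit 330)) (XT.nd (nat_lit 78) (nat_lit 76)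 (nat_lit 0) (XT.lf (nat_lit 0) (nat_lit 38609889620) (nat_lit 76) (nat_lit 13159391046) (nat_lit 76) (nat_lit 5904827665) (nat_lit 12) (nat_lit 4) (nat_lit 13) (nat_lit 5) (nat_lit 13) (nat_lit 4) (nat_lit 487) (nat_lit 384) (nat_lit 329)) (XT.lf (nat_lit 0) (nat_lit 2149707361) (nat_lit 152) (nat_lit 2872998047) (nat_lit 76) (nat_lit 55113628755) (nat_lit 11) (nat_lit 5) (nat_lit 13) (nat_lit 5) (nat_lit 12) (nat_lit 4) (nat_lit 488) (nat_lit 384) (nat_lit 328)))) (XT.nd (nat_lit 156) (nat_lit 0) (nat_lit 0) (XT.nd (nat_lit 78) (nat_lit 0) (nat_lit 0) (XT.lf (nat_lit 0) (nat_lit 10644992398) (nat_lit 152) (nat_lit 48371240147) (nat_lit 0) (nat_lit 3688776704) (nat_lit 10) (nat_lit 5) (nat_lit 12) (nat_lit 4) (nat_lit 10) (nat_lit 4) (nat_lit 489) (nat_lit 384) (nat_lit 327)) (XT.lf (nat_lit 0) (nat_lit 19649111884) (nat_lit 152) (nat_lit 33077792759) (nat_lit 0) (nat_lit 12671011074) (nat_lit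 10) (nat_lit 5) (nat_lit 12) (nat_lit 4) (nat_lit 10) (nat_lit 4) (nat_lit 490) (nat_lit 384) (nat_lit 326))) (XT.nd (nat_lit 78) (nat_lit 0) (nat_lit 0) (XT.lf (nat_lit 0) (nat_lit 29057987363) (nat_lit 152) (nat_lit 17110710144) (nat_lit 0) (nat_lit 22059043586) (nat_lit 10) (nat_lit 5) (nat_lit 12) (nat_lit 4) (nat_lit 10) (nat_lit 4) (nat_lit 491) (nat_lit 384) (nat_lit 325)) (XT.lf (nat_lit 0) (nat_lit 38894020921) (nat_lit 152) (nat_lit 431975437) (nat_lit 0) (nat_lit 31875226698) (nat_lit 10) (nat_lit 5) (nat_lit 12) (nat_lit 4) (nat_lit 10) (nat_lit 4) (nat_lit 492) (nat_lit 384) (nat_lit 324))))) (XT.nd (nat_lit 234) (nat_lit 152) (nat_lit 0) (XT.nd (nat_lit 78) (nat_lit 0) (nat_lit 0) (XT.lf (nat_lit 0) (nat_lit 17560157333) (nat_lit 76) (nat_lit 31894637618) (nat_lit 76) (nat_lit 24856938210) (nat_lit 9) (nat_lit 4) (nat_lit 10) (nat_lit 5) (nat_lit 10) (nat_lit 4) (nat_lit 493)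 (nat_lit 384) (nat_lit 323)) (XT.nd (nat_lit 78) (nat_lit 0) (nat_lit 0) (XT.lf (nat_lit 0) (nat_lit 36385652411) (nat_lit 76) (nat_lit 24124741174) (nat_lit 76) (nat_lit 17069036827) (nat_lit 9) (nat_lit 4) (nat_lit 10) (nat_lit 5) (nat_lit 10) (nat_lit 4) (nat_lit 494) (nat_lit 384) (nat_lit 322)) (XT.lf (nat_lit 0) (nat_lit 56075049346) (nat_lit 76) (nat_lit 16005122986) (nat_lit 76) (nat_lit 8932271078) (nat_lit 9) (nat_lit 4) (nat_lit 10) (nat_lit 5) (nat_lit 10) (nat_lit 4) (nat_lit 495) (nat_lit 384) (nat_lit 321)))) (XT.nd (nat_lit 156) (nat_lit 0) (nat_lit 0) (XT.nd (nat_lit 78) (nat_lit 152) (nat_lit 0) (XT.lf (nat_lit 0) (nat_lit 76675227654) (nat_lit 76) (nat_lit 7516450629) (nat_lit 76) (nat_lit 427267710) (nat_lit 9) (nat_lit 4) (nat_lit 10) (nat_lit 5) (nat_lit 10) (nat_lit 4) (nat_lit 496) (nat_lit 384) (nat_lit 320)) (XT.lf (nat_lit 0) (nat_lit 8377617897) (nat_lit 152) (nat_lit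 78402977361) (nat_lit 0) (nat_lit 1611202410) (nat_lit 7) (nat_lit 5) (nat_lit 9) (nat_lit 4) (nat_lit 7) (nat_lit 4) (nat_lit 497) (nat_lit 384) (nat_lit 319))) (XT.nd (nat_lit 78) (nat_lit 0) (nat_lit 0) (XT.lf (nat_lit 0) (nat_lit 17832808111) (nat_lit 152) (nat_lit 63456628082) (nat_lit 0) (nat_lit 11052285283) (nat_lit 7) (nat_lit 5) (nat_lit 9) (nat_lit 4) (nat_lit 7) (nat_lit 4) (nat_lit 498) (nat_lit 384) (nat_lit 318)) (XT.lf (nat_lit 0) (nat_lit 27726912772) (nat_lit 152) (nat_lit 47830967273) (nat_lit 0) (nat_lit 20932954381) (nat_lit 7) (nat_lit 5) (nat_lit 9) (nat_lit 4) (nat_lit 7) (nat_lit 4) (nat_lit 499) (nat_lit 384) (nat_lit 317))))))) (XT.nd (nat_lit 1092) (nat_lit 76) (nat_lit 0) (XT.nd (nat_lit 546) (nat_lit 152) (nat_lit 0) (XT.nd (nat_lit 234) (nat_lit 0) (nat_lit 0) (XT.nd (nat_lit 78) (nat_lit 76) (nat_lit 0) (XT.lf (nat_lit 0) (nat_lit 38083489273) (nat_lit 152) (nat_lit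 31488790978) (nat_lit 0) (nat_lit 31276735108) (nat_lit 7) (nat_lit 5) (nat_lit 9) (nat_lit 4) (nat_lit 7) (nat_lit 4) (nat_lit 500) (nat_lit 384) (nat_lit 316)) (XT.nd (nat_lit 78) (nat_lit 76) (nat_lit 0) (XT.lf (nat_lit 0) (nat_lit 48927196129) (nat_lit 152) (nat_lit 14391189255) (nat_lit 0) (nat_lit 42108255513) (nat_lit 7) (nat_lit 5) (nat_lit 9) (nat_lit 4) (nat_lit 7) (nat_lit 4) (nat_lit 501) (nat_lit 384) (nat_lit 315)) (XT.lf (nat_lit 0) (nat_lit 3618356475) (nat_lit 76) (nat_lit 56721987899) (nat_lit 76) (nat_lit 49891441139) (nat_lit 6) (nat_lit 4) (nat_lit 7) (nat_lit 5) (nat_lit 7) (nat_lit 4) (nat_lit 502) (nat_lit 384) (nat_lit 314)))) (XT.nd (nat_lit 156) (nat_lit 0) (nat_lit 0) (XT.nd (nat_lit 78) (nat_lit 0) (nat_lit 0) (XT.lf (nat_lit 0) (nat_lit 22970210524) (nat_lit 76) (nat_lit 49568914447) (nat_lit 76) (nat_lit 42727314216) (nat_lit 6) (nat_lit 4) (nat_lit 7) (nat_lit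 5) (nat_lit 7) (nat_lit 4) (nat_lit 503) (nat_lit 384) (nat_lit 313)) (XT.lf (nat_lit 0) (nat_lit 43234611023) (nat_lit 76) (nat_lit 42085855657) (nat_lit 76) (nat_lit 35233728311) (nat_lit 6) (nat_lit 4) (nat_lit 7) (nat_lit 5) (nat_lit 7) (nat_lit 4) (nat_lit 504) (nat_lit 384) (nat_lit 312))) (XT.nd (nat_lit 78) (nat_lit 0) (nat_lit 0) (XT.lf (nat_lit 0) (nat_lit 64459806545) (nat_lit 76) (nat_lit 34254994720) (nat_lit 76) (nat_lit 27392841550) (nat_lit 6) (nat_lit 4) (nat_lit 7) (nat_lit 5) (nat_lit 7) (nat_lit 4) (nat_lit 505) (nat_lit 384) (nat_lit 311)) (XT.lf (nat_lit 0) (nat_lit 86696333270) (nat_lit 76) (nat_lit 26057686730) (nat_lit 76) (nat_lit 19185985156) (nat_lit 6) (nat_lit 4) (nat_lit 7) (nat_lit 5) (nat_lit 7) (nat_lit 4) (nat_lit 506) (nat_lit 384) (nat_lit 310))))) (XT.nd (nat_lit 234) (nat_lit 0) (nat_lit 0) (XT.nd (nat_lit 78) (nat_lit 152) (nat_lit 0) (XT.lf (nat_lit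 0) (nat_lit 109997135309) (nat_lit 76) (nat_lit 17474414286) (nat_lit 76) (nat_lit 10593618996) (nat_lit 6) (nat_lit 4) (nat_lit 7) (nat_lit 5) (nat_lit 7) (nat_lit 4) (nat_lit 507) (nat_lit 384) (nat_lit 309)) (XT.nd (nat_lit 78) (nat_lit 152) (nat_lit 0) (XT.lf (nat_lit 0) (nat_lit 134417690762) (nat_lit 76) (nat_lit 8484741027) (nat_lit 76) (nat_lit 1595285053) (nat_lit 6) (nat_lit 4) (nat_lit 7) (nat_lit 5) (nat_lit 7) (nat_lit 4) (nat_lit 508) (nat_lit 384) (nat_lit 308)) (XT.lf (nat_lit 0) (nat_lit 7738039552) (nat_lit 152) (nat_lit 142332104714) (nat_lit 0) (nat_lit 1168797414) (nat_lit 4) (nat_lit 5) (nat_lit 6) (nat_lit 4) (nat_lit 4) (nat_lit 4) (nat_lit 509) (nat_lit 384) (nat_lit 307)))) (XT.nd (nat_lit 156) (nat_lit 0) (nat_lit 0) (XT.nd (nat_lit 78) (nat_lit 0) (nat_lit 0) (XT.lf (nat_lit 0) (nat_lit 17775243489) (nat_lit 152) (nat_lit 129327615865) (nat_lit 0) (nat_lit 11198519928)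 (nat_lit 4) (nat_lit 5) (nat_lit 6) (nat_lit 4) (nat_lit 4) (nat_lit 4) (nat_lit 510) (nat_lit 384) (nat_lit 306)) (XT.lf (nat_lit 0) (nat_lit 28293567032) (nat_lit 152) (nat_lit 115714690826) (nat_lit 0) (nat_lit 21709718305) (nat_lit 4) (nat_lit 5) (nat_lit 6) (nat_lit 4) (nat_lit 4) (nat_lit 4) (nat_lit 511) (nat_lit 384) (nat_lit 305))) (XT.nd (nat_lit 78) (nat_lit 0) (nat_lit 0) (XT.lf (nat_lit 0) (nat_lit 39318053808) (nat_lit 152) (nat_lit 101460917873) (nat_lit 0) (nat_lit 32727419208) (nat_lit 4) (nat_lit 5) (nat_lit 6) (nat_lit 4) (nat_lit 4) (nat_lit 4) (nat_lit 512) (nat_lit 384) (nat_lit 304)) (XT.lf (nat_lit 0) (nat_lit 50874952594) (nat_lit 152) (nat_lit 86532359450) (nat_lit 0) (nat_lit 44277855259) (nat_lit 4) (nat_lit 5) (nat_lit 6) (nat_lit 4) (nat_lit 4) (nat_lit 4) (nat_lit 513) (nat_lit 384) (nat_lit 303)))))) (XT.nd (nat_lit 546) (nat_lit 0) (nat_lit 0) (XT.nd (nat_lit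 234) (nat_lit 76) (nat_lit 0) (XT.nd (nat_lit 78) (nat_lit 0) (nat_lit 0) (XT.lf (nat_lit 0) (nat_lit 62991779818) (nat_lit 152) (nat_lit 70893471370) (nat_lit 0) (nat_lit 56388527497) (nat_lit 4) (nat_lit 5) (nat_lit 6) (nat_lit 4) (nat_lit 4) (nat_lit 4) (nat_lit 514) (nat_lit 384) (nat_lit 302)) (XT.nd (nat_lit 78) (nat_lit 0) (nat_lit 0) (XT.lf (nat_lit 0) (nat_lit 75697385066) (nat_lit 152) (nat_lit 54507018187) (nat_lit 0) (nat_lit 69088270854) (nat_lit 4) (nat_lit 5) (nat_lit 6) (nat_lit 4) (nat_lit 4) (nat_lit 4) (nat_lit 515) (nat_lit 384) (nat_lit 301)) (XT.lf (nat_lit 0) (nat_lit 89022019781) (nat_lit 152) (nat_lit 37333984534) (nat_lit 0) (nat_lit 82407322815) (nat_lit 4) (nat_lit 5) (nat_lit 6) (nat_lit 4) (nat_lit 4) (nat_lit 4) (nat_lit 516) (nat_lit 384) (nat_lit 300)))) (XT.nd (nat_lit 156) (nat_lit 76) (nat_lit 0) (XT.nd (nat_lit 78) (nat_lit 0) (nat_lit 0) (XT.lf (nat_lit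 0) (nat_lit 102997409283) (nat_lit 152) (nat_lit 19333482237) (nat_lit 0) (nat_lit 96377395408) (nat_lit 4) (nat_lit 5) (nat_lit 6) (nat_lit 4) (nat_lit 4) (nat_lit 4) (nat_lit 517) (nat_lit 384) (nat_lit 299)) (XT.lf (nat_lit 0) (nat_lit 117656828309) (nat_lit 152) (nat_lit 462652957) (nat_lit 0) (nat_lit 111031750712) (nat_lit 4) (nat_lit 5) (nat_lit 6) (nat_lit 4) (nat_lit 4) (nat_lit 4) (nat_lit 518) (nat_lit 384) (nat_lit 298))) (XT.nd (nat_lit 78) (nat_lit 0) (nat_lit 0) (XT.lf (nat_lit 0) (nat_lit 19962353841) (nat_lit 76) (nat_lit 113384494683) (nat_lit 76) (nat_lit 106754594494) (nat_lit 3) (nat_lit 4) (nat_lit 4) (nat_lit 5) (nat_lit 4) (nat_lit 4) (nat_lit 519) (nat_lit 384) (nat_lit 297)) (XT.lf (nat_lit 0) (nat_lit 41396845504) (nat_lit 76) (nat_lit 108418555460) (nat_lit 76) (nat_lit 101784062325) (nat_lit 3) (nat_lit 4) (nat_lit 4) (nat_lit 5) (nat_lit 4) (nat_lit 4) (nat_lit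 520) (nat_lit 384) (nat_lit 296))))) (XT.nd (nat_lit 312) (nat_lit 0) (nat_lit 0) (XT.nd (nat_lit 156) (nat_lit 0) (nat_lit 0) (XT.nd (nat_lit 78) (nat_lit 0) (nat_lit 0) (XT.lf (nat_lit 0) (nat_lit 63876559138) (nat_lit 76) (nat_lit 103217675184) (nat_lit 76) (nat_lit 96578807815) (nat_lit 3) (nat_lit 4) (nat_lit 4) (nat_lit 5) (nat_lit 4) (nat_lit 4) (nat_lit 521) (nat_lit 384) (nat_lit 295)) (XT.lf (nat_lit 0) (nat_lit 87455017871) (nat_lit 76) (nat_lit 97769470806) (nat_lit 76) (nat_lit 91126437501) (nat_lit 3) (nat_lit 4) (nat_lit 4) (nat_lit 5) (nat_lit 4) (nat_lit 4) (nat_lit 522) (nat_lit 384) (nat_lit 294))) (XT.nd (nat_lit 78) (nat_lit 0) (nat_lit 0) (XT.lf (nat_lit 0) (nat_lit 112188360890) (nat_lit 76) (nat_lit 92060970411) (nat_lit 76) (nat_lit 85413969547) (nat_lit 3) (nat_lit 4) (nat_lit 4) (nat_lit 5) (nat_lit 4) (nat_lit 4) (nat_lit 523) (nat_lit 384) (nat_lit 293)) (XT.lf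 (nat_lit 0) (nat_lit 138135477108) (nat_lit 76) (nat_lit 86078582332) (nat_lit 76) (nat_lit 79427802840) (nat_lit 3) (nat_lit 4) (nat_lit 4) (nat_lit 5) (nat_lit 4) (nat_lit 4) (nat_lit 524) (nat_lit 384) (nat_lit 292)))) (XT.nd (nat_lit 156) (nat_lit 0) (nat_lit 0) (XT.nd (nat_lit 78) (nat_lit 0) (nat_lit 0) (XT.lf (nat_lit 0) (nat_lit 165358145372) (nat_lit 76) (nat_lit 79808062788) (nat_lit 76) (nat_lit 73153684603) (nat_lit 3) (nat_lit 4) (nat_lit 4) (nat_lit 5) (nat_lit 4) (nat_lit 4) (nat_lit 525) (nat_lit 384) (nat_lit 291)) (XT.lf (nat_lit 0) (nat_lit 193921181559) (nat_lit 76) (nat_lit 73234481969) (nat_lit 76) (nat_lit 66576676458) (nat_lit 3) (nat_lit 4) (nat_lit 4) (nat_lit 5) (nat_lit 4) (nat_lit 4) (nat_lit 526) (nat_lit 384) (nat_lit 290))) (XT.nd (nat_lit 78) (nat_lit 0) (nat_lit 0) (XT.lf (nat_lit 0) (nat_lit 223892592899) (nat_lit 76) (nat_lit 66342188494) (nat_lit 76) (nat_lit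 59681118862) (nat_lit 3) (nat_lit 4) (nat_lit 4) (nat_lit 5) (nat_lit 4) (nat_lit 4) (nat_lit 527) (nat_lit 384) (nat_lit 289)) (XT.lf (nat_lit 0) (nat_lit 255343739894) (nat_lit 76) (nat_lit 59114772139) (nat_lit 76) (nat_lit 52450593821) (nat_lit 3) (nat_lit 4) (nat_lit 4) (nat_lit 5) (nat_lit 4) (nat_lit 4) (nat_lit 528) (nat_lit 384) (nat_lit 288))))))))
noncomputable def xc59 : XT := (XT.nd (nat_lit 55614) (nat_lit 0) (nat_lit 1596) (XT.nd (nat_lit 1092) (nat_lit 0) (nat_lit 0) (XT.nd (nat_lit 546) (nat_lit 0) (nat_lit 0) (XT.nd (nat_lit 234) (nat_lit 152) (nat_lit 0) (XT.nd (nat_lit 78) (nat_lit 0) (nat_lit 0) (XT.lf (nat_lit 0) (nat_lit 288349506229) (nat_lit 76) (nat_lit 51535024771) (nat_lit 76) (nat_lit 44867885799) (nat_lit 3) (nat_lit 4) (nat_lit 4) (nat_lit 5) (nat_lit 4) (nat_lit 4) (nat_lit 529) (nat_lit 384) (nat_lit 287)) (XT.nd (nat_lit 78) (nat_lit 0) (nat_lit 0) (XT.lf (nat_lit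 0) (nat_lit 322988477060) (nat_lit 76) (nat_lit 43584899371) (nat_lit 76) (nat_lit 36914940730) (nat_lit 3) (nat_lit 4) (nat_lit 4) (nat_lit 5) (nat_lit 4) (nat_lit 4) (nat_lit 530) (nat_lit 384) (nat_lit 286)) (XT.lf (nat_lit 0) (nat_lit 359343126127) (nat_lit 76) (nat_lit 35245467071) (nat_lit 76) (nat_lit 28572823029) (nat_lit 3) (nat_lit 4) (nat_lit 4) (nat_lit 5) (nat_lit 4) (nat_lit 4) (nat_lit 531) (nat_lit 384) (nat_lit 285)))) (XT.nd (nat_lit 156) (nat_lit 152) (nat_lit 0) (XT.nd (nat_lit 78) (nat_lit 0) (nat_lit 0) (XT.lf (nat_lit 0) (nat_lit 397500012120) (nat_lit 76) (nat_lit 26496872078) (nat_lit 76) (nat_lit 19821670512) (nat_lit 3) (nat_lit 4) (nat_lit 4) (nat_lit 5) (nat_lit 4) (nat_lit 4) (nat_lit 532) (nat_lit 384) (nat_lit 284)) (XT.lf (nat_lit 0) (nat_lit 437549984767) (nat_lit 76) (nat_lit 17318284405) (nat_lit 76) (nat_lit 10640647102) (nat_lit 3) (nat_lit 4) (nat_lit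 4) (nat_lit 5) (nat_lit 4) (nat_lit 4) (nat_lit 533) (nat_lit 384) (nat_lit 283))) (XT.nd (nat_lit 78) (nat_lit 152) (nat_lit 0) (XT.lf (nat_lit 0) (nat_lit 479588401145) (nat_lit 76) (nat_lit 7687850271) (nat_lit 76) (nat_lit 1007893219) (nat_lit 3) (nat_lit 4) (nat_lit 4) (nat_lit 5) (nat_lit 4) (nat_lit 4) (nat_lit 534) (nat_lit 384) (nat_lit 282)) (XT.lf (nat_lit 0) (nat_lit 9034827773) (nat_lit 152) (nat_lit 500474348307) (nat_lit 0) (nat_lit 2670859833) (nat_lit 1) (nat_lit 5) (nat_lit 3) (nat_lit 4) (nat_lit 1) (nat_lit 4) (nat_lit 535) (nat_lit 384) (nat_lit 281))))) (XT.nd (nat_lit 234) (nat_lit 0) (nat_lit 0) (XT.nd (nat_lit 78) (nat_lit 0) (nat_lit 0) (XT.lf (nat_lit 0) (nat_lit 19814782117) (nat_lit 152) (nat_lit 503992854854) (nat_lit 0) (nat_lit 13448810290) (nat_lit 1) (nat_lit 5) (nat_lit 3) (nat_lit 4) (nat_lit 1) (nat_lit 4) (nat_lit 536) (nat_lit 384) (nat_lit 280)) (XT.nd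 (nat_lit 78) (nat_lit 0) (nat_lit 0) (XT.lf (nat_lit 0) (nat_lit 31127313189) (nat_lit 152) (nat_lit 507700254240) (nat_lit 0) (nat_lit 24759432898) (nat_lit 1) (nat_lit 5) (nat_lit 3) (nat_lit 4) (nat_lit 1) (nat_lit 4) (nat_lit 537) (nat_lit 384) (nat_lit 279)) (XT.lf (nat_lit 0) (nat_lit 42999355585) (nat_lit 152) (nat_lit 511605373605) (nat_lit 0) (nat_lit 36629657710) (nat_lit 1) (nat_lit 5) (nat_lit 3) (nat_lit 4) (nat_lit 1) (nat_lit 4) (nat_lit 538) (nat_lit 384) (nat_lit 278)))) (XT.nd (nat_lit 156) (nat_lit 0) (nat_lit 0) (XT.nd (nat_lit 78) (nat_lit 0) (nat_lit 0) (XT.lf (nat_lit 0) (nat_lit 55459176075) (nat_lit 152) (nat_lit 515717510854) (nat_lit 0) (nat_lit 49087747167) (nat_lit 1) (nat_lit 5) (nat_lit 3) (nat_lit 4) (nat_lit 1) (nat_lit 4) (nat_lit 539) (nat_lit 384) (nat_lit 277)) (XT.lf (nat_lit 0) (nat_lit 68536440896) (nat_lit 152) (nat_lit 520046456789) (nat_lit 0) (nat_lit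 62163363385) (nat_lit 1) (nat_lit 5) (nat_lit 3) (nat_lit 4) (nat_lit 1) (nat_lit 4) (nat_lit 540) (nat_lit 384) (nat_lit 276))) (XT.nd (nat_lit 78) (nat_lit 0) (nat_lit 0) (XT.lf (nat_lit 0) (nat_lit 82262286393) (nat_lit 152) (nat_lit 524602518425) (nat_lit 0) (nat_lit 75887638785) (nat_lit 1) (nat_lit 5) (nat_lit 3) (nat_lit 4) (nat_lit 1) (nat_lit 4) (nat_lit 541) (nat_lit 384) (nat_lit 275)) (XT.lf (nat_lit 0) (nat_lit 96669393152) (nat_lit 152) (nat_lit 529396543526) (nat_lit 0) (nat_lit 90293250212) (nat_lit 1) (nat_lit 5) (nat_lit 3) (nat_lit 4) (nat_lit 1) (nat_lit 4) (nat_lit 542) (nat_lit 384) (nat_lit 274)))))) (XT.nd (nat_lit 53976) (nat_lit 0) (nat_lit 4104) (XT.nd (nat_lit 53664) (nat_lit 0) (nat_lit 5244) (XT.nd (nat_lit 78) (nat_lit 0) (nat_lit 0) (XT.lf (nat_lit 0) (nat_lit 111792063807) (nat_lit 152) (nat_lit 534439946440) (nat_lit 0) (nat_lit 105414496742) (nat_lit 1) (nat_lit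 5) (nat_lit 3) (nat_lit 4) (nat_lit 1) (nat_lit 4) (nat_lit 543) (nat_lit 384) (nat_lit 273)) (XT.nd (nat_lit 78) (nat_lit 0) (nat_lit 0) (XT.lf (nat_lit 0) (nat_lit 127666304717) (nat_lit 152) (nat_lit 539744735267) (nat_lit 0) (nat_lit 121287381343) (nat_lit 1) (nat_lit 5) (nat_lit 3) (nat_lit 4) (nat_lit 1) (nat_lit 4) (nat_lit 544) (nat_lit 384) (nat_lit 272)) (XT.lf (nat_lit 0) (nat_lit 144329911694) (nat_lit 152) (nat_lit 545323540458) (nat_lit 0) (nat_lit 137949696597) (nat_lit 1) (nat_lit 5) (nat_lit 3) (nat_lit 4) (nat_lit 1) (nat_lit 4) (nat_lit 545) (nat_lit 384) (nat_lit 271)))) (XT.nd (nat_lit 156) (nat_lit 304) (nat_lit 0) (XT.nd (nat_lit 78) (nat_lit 228) (nat_lit 0) (XT.lf (nat_lit 0) (nat_lit 1744224086) (nat_lit 228) (nat_lit 1413965418) (nat_lit 228) (nat_lit 1413965418) (nat_lit 77) (nat_lit 4) (nat_lit 80) (nat_lit 5) (nat_lit 80) (nat_lit 4) (nat_lit 430) (nat_lit 385)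 (nat_lit 385)) (XT.lf (nat_lit 0) (nat_lit 1528084392) (nat_lit 228) (nat_lit 7131458745) (nat_lit 0) (nat_lit 678226562) (nat_lit 74) (nat_lit 5) (nat_lit 77) (nat_lit 4) (nat_lit 74) (nat_lit 4) (nat_lit 431) (nat_lit 385) (nat_lit 384))) (XT.nd (nat_lit 78) (nat_lit 76) (nat_lit 0) (XT.lf (nat_lit 0) (nat_lit 784501567) (nat_lit 228) (nat_lit 5207068023) (nat_lit 228) (nat_lit 3547821783) (nat_lit 71) (nat_lit 4) (nat_lit 74) (nat_lit 5) (nat_lit 74) (nat_lit 4) (nat_lit 432) (nat_lit 385) (nat_lit 383)) (XT.lf (nat_lit 0) (nat_lit 850214661) (nat_lit 304) (nat_lit 687152287) (nat_lit 76) (nat_lit 8215403926) (nat_lit 70) (nat_lit 5) (nat_lit 74) (nat_lit 5) (nat_lit 71) (nat_lit 4) (nat_lit 433) (nat_lit 385) (nat_lit 382))))) (XT.nd (nat_lit 234) (nat_lit 608) (nat_lit 0) (XT.nd (nat_lit 78) (nat_lit 380) (nat_lit 0) (XT.lf (nat_lit 0) (nat_lit 5345093060) (nat_lit 228) (nat_lit 2297506852)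 (nat_lit 0) (nat_lit 2331539258) (nat_lit 68) (nat_lit 5) (nat_lit 71) (nat_lit 4) (nat_lit 68) (nat_lit 4) (nat_lit 434) (nat_lit 385) (nat_lit 381)) (XT.nd (nat_lit 78) (nat_lit 228) (nat_lit 0) (XT.lf (nat_lit 0) (nat_lit 6190215145) (nat_lit 152) (nat_lit 3848565876) (nat_lit 152) (nat_lit 169126226) (nat_lit 66) (nat_lit 4) (nat_lit 68) (nat_lit 5) (nat_lit 68) (nat_lit 4) (nat_lit 435) (nat_lit 385) (nat_lit 380)) (XT.lf (nat_lit 0) (nat_lit 4324740626) (nat_lit 228) (nat_lit 5910825562) (nat_lit 0) (nat_lit 216534295) (nat_lit 63) (nat_lit 5) (nat_lit 66) (nat_lit 4) (nat_lit 63) (nat_lit 4) (nat_lit 436) (nat_lit 385) (nat_lit 379)))) (XT.nd (nat_lit 156) (nat_lit 228) (nat_lit 0) (XT.nd (nat_lit 78) (nat_lit 228) (nat_lit 0) (XT.lf (nat_lit 0) (nat_lit 2720576044) (nat_lit 152) (nat_lit 6335167928) (nat_lit 152) (nat_lit 1651744365) (nat_lit 61) (nat_lit 4) (nat_lit 63) (nat_lit 5)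 (nat_lit 63) (nat_lit 4) (nat_lit 437) (nat_lit 385) (nat_lit 378)) (XT.lf (nat_lit 0) (nat_lit 729190586) (nat_lit 152) (nat_lit 2178341161) (nat_lit 228) (nat_lit 8067890677) (nat_lit 58) (nat_lit 5) (nat_lit 60) (nat_lit 5) (nat_lit 61) (nat_lit 4) (nat_lit 438) (nat_lit 385) (nat_lit 377))) (XT.nd (nat_lit 78) (nat_lit 228) (nat_lit 0) (XT.lf (nat_lit 0) (nat_lit 7656883507) (nat_lit 228) (nat_lit 1419813754) (nat_lit 0) (nat_lit 2177846856) (nat_lit 58) (nat_lit 5) (nat_lit 61) (nat_lit 4) (nat_lit 58) (nat_lit 4) (nat_lit 439) (nat_lit 385) (nat_lit 376)) (XT.lf (nat_lit 0) (nat_lit 1072142446) (nat_lit 228) (nat_lit 3754377276) (nat_lit 76) (nat_lit 6719712832) (nat_lit 55) (nat_lit 5) (nat_lit 58) (nat_lit 5) (nat_lit 56) (nat_lit 4) (nat_lit 440) (nat_lit 385) (nat_lit 375))))))) (XT.nd (nat_lit 1092) (nat_lit 988) (nat_lit 0) (XT.nd (nat_lit 546) (nat_lit 608) (nat_lit 0) (XT.nd (nat_lit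 234) (nat_lit 456) (nat_lit 0) (XT.nd (nat_lit 78) (nat_lit 304) (nat_lit 0) (XT.lf (nat_lit 0) (nat_lit 5526661402) (nat_lit 152) (nat_lit 292669546) (nat_lit 228) (nat_lit 6032007880) (nat_lit 53) (nat_lit 5) (nat_lit 55) (nat_lit 5) (nat_lit 56) (nat_lit 4) (nat_lit 441) (nat_lit 385) (nat_lit 374)) (XT.nd (nat_lit 78) (nat_lit 152) (nat_lit 0) (XT.lf (nat_lit 0) (nat_lit 3004559701) (nat_lit 152) (nat_lit 7836091680) (nat_lit 152) (nat_lit 1329231681) (nat_lit 51) (nat_lit 4) (nat_lit 53) (nat_lit 5) (nat_lit 53) (nat_lit 4) (nat_lit 442) (nat_lit 385) (nat_lit 373)) (XT.lf (nat_lit 0) (nat_lit 209596585) (nat_lit 76) (nat_lit 3256640608) (nat_lit 152) (nat_lit 9036666809) (nat_lit 49) (nat_lit 5) (nat_lit 50) (nat_lit 5) (nat_lit 51) (nat_lit 4) (nat_lit 443) (nat_lit 385) (nat_lit 372)))) (XT.nd (nat_lit 156) (nat_lit 228) (nat_lit 0) (XT.nd (nat_lit 78) (nat_lit 228) (nat_lit 0) (XT.lf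 (nat_lit 0) (nat_lit 8496133106) (nat_lit 152) (nat_lit 2778205555) (nat_lit 0) (nat_lit 1575199945) (nat_lit 49) (nat_lit 5) (nat_lit 51) (nat_lit 4) (nat_lit 49) (nat_lit 4) (nat_lit 444) (nat_lit 385) (nat_lit 371)) (XT.lf (nat_lit 0) (nat_lit 575475433) (nat_lit 228) (nat_lit 6077526125) (nat_lit 76) (nat_lit 6558604317) (nat_lit 46) (nat_lit 5) (nat_lit 49) (nat_lit 5) (nat_lit 47) (nat_lit 4) (nat_lit 445) (nat_lit 385) (nat_lit 370))) (XT.nd (nat_lit 78) (nat_lit 152) (nat_lit 0) (XT.lf (nat_lit 0) (nat_lit 3855634589) (nat_lit 76) (nat_lit 1721530205) (nat_lit 152) (nat_lit 8012425850) (nat_lit 45) (nat_lit 5) (nat_lit 46) (nat_lit 5) (nat_lit 47) (nat_lit 4) (nat_lit 446) (nat_lit 385) (nat_lit 369)) (XT.lf (nat_lit 0) (nat_lit 220884035) (nat_lit 152) (nat_lit 10635731526) (nat_lit 152) (nat_lit 3128490363) (nat_lit 43) (nat_lit 4) (nat_lit 45) (nat_lit 5) (nat_lit 45) (nat_lit 4)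 (nat_lit 447) (nat_lit 385) (nat_lit 368))))) (XT.nd (nat_lit 234) (nat_lit 304) (nat_lit 0) (XT.nd (nat_lit 78) (nat_lit 228) (nat_lit 0) (XT.lf (nat_lit 0) (nat_lit 1997514416) (nat_lit 228) (nat_lit 3689025932) (nat_lit 76) (nat_lit 8709215651) (nat_lit 42) (nat_lit 5) (nat_lit 45) (nat_lit 5) (nat_lit 43) (nat_lit 4) (nat_lit 448) (nat_lit 385) (nat_lit 367)) (XT.nd (nat_lit 78) (nat_lit 152) (nat_lit 0) (XT.lf (nat_lit 0) (nat_lit 6822595160) (nat_lit 76) (nat_lit 431082541) (nat_lit 152) (nat_lit 7571759797) (nat_lit 41) (nat_lit 5) (nat_lit 42) (nat_lit 5) (nat_lit 43) (nat_lit 4) (nat_lit 449) (nat_lit 385) (nat_lit 366)) (XT.lf (nat_lit 0) (nat_lit 2478006154) (nat_lit 152) (nat_lit 10349555437) (nat_lit 152) (nat_lit 2446308293) (nat_lit 39) (nat_lit 4) (nat_lit 41) (nat_lit 5) (nat_lit 41) (nat_lit 4) (nat_lit 450) (nat_lit 385) (nat_lit 365)))) (XT.nd (nat_lit 156) (nat_lit 152)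 (nat_lit 0) (XT.nd (nat_lit 78) (nat_lit 76) (nat_lit 0) (XT.lf (nat_lit 0) (nat_lit 2859955310) (nat_lit 228) (nat_lit 2267971748) (nat_lit 76) (nat_lit 10613592050) (nat_lit 38) (nat_lit 5) (nat_lit 41) (nat_lit 5) (nat_lit 39) (nat_lit 4) (nat_lit 451) (nat_lit 385) (nat_lit 364)) (XT.lf (nat_lit 0) (nat_lit 8373278809) (nat_lit 152) (nat_lit 7432966012) (nat_lit 0) (nat_lit 423113609) (nat_lit 37) (nat_lit 5) (nat_lit 39) (nat_lit 4) (nat_lit 37) (nat_lit 4) (nat_lit 452) (nat_lit 385) (nat_lit 363))) (XT.nd (nat_lit 78) (nat_lit 76) (nat_lit 0) (XT.lf (nat_lit 0) (nat_lit 3557089651) (nat_lit 76) (nat_lit 10664181647) (nat_lit 76) (nat_lit 2517378511) (nat_lit 36) (nat_lit 4) (nat_lit 37) (nat_lit 5) (nat_lit 37) (nat_lit 4) (nat_lit 453) (nat_lit 385) (nat_lit 362)) (XT.lf (nat_lit 0) (nat_lit 2998027152) (nat_lit 152) (nat_lit 2188121698) (nat_lit 76) (nat_lit 12084424716) (nat_lit 35)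 (nat_lit 5) (nat_lit 37) (nat_lit 5) (nat_lit 36) (nat_lit 4) (nat_lit 454) (nat_lit 385) (nat_lit 361)))))) (XT.nd (nat_lit 546) (nat_lit 456) (nat_lit 0) (XT.nd (nat_lit 234) (nat_lit 304) (nat_lit 0) (XT.nd (nat_lit 78) (nat_lit 152) (nat_lit 0) (XT.lf (nat_lit 0) (nat_lit 8748050297) (nat_lit 152) (nat_lit 8435845727) (nat_lit 0) (nat_lit 640970520) (nat_lit 34) (nat_lit 5) (nat_lit 36) (nat_lit 4) (nat_lit 34) (nat_lit 4) (nat_lit 455) (nat_lit 385) (nat_lit 360)) (XT.nd (nat_lit 78) (nat_lit 76) (nat_lit 0) (XT.lf (nat_lit 0) (nat_lit 3011460360) (nat_lit 76) (nat_lit 11830723041) (nat_lit 76) (nat_lit 3561868747) (nat_lit 33) (nat_lit 4) (nat_lit 34) (nat_lit 5) (nat_lit 34) (nat_lit 4) (nat_lit 456) (nat_lit 385) (nat_lit 359)) (XT.lf (nat_lit 0) (nat_lit 2189856195) (nat_lit 152) (nat_lit 3933720062) (nat_lit 76) (nat_lit 12885270177) (nat_lit 32) (nat_lit 5) (nat_lit 34) (nat_lit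 5) (nat_lit 33) (nat_lit 4) (nat_lit 457) (nat_lit 385) (nat_lit 358)))) (XT.nd (nat_lit 156) (nat_lit 152) (nat_lit 0) (XT.nd (nat_lit 78) (nat_lit 76) (nat_lit 0) (XT.lf (nat_lit 0) (nat_lit 8093477909) (nat_lit 76) (nat_lit 34881811) (nat_lit 152) (nat_lit 11511663697) (nat_lit 31) (nat_lit 5) (nat_lit 32) (nat_lit 5) (nat_lit 33) (nat_lit 4) (nat_lit 458) (nat_lit 385) (nat_lit 357)) (XT.lf (nat_lit 0) (nat_lit 261449958) (nat_lit 76) (nat_lit 14166393136) (nat_lit 76) (nat_lit 5871720346) (nat_lit 30) (nat_lit 4) (nat_lit 31) (nat_lit 5) (nat_lit 31) (nat_lit 4) (nat_lit 459) (nat_lit 385) (nat_lit 356))) (XT.nd (nat_lit 78) (nat_lit 76) (nat_lit 0) (XT.lf (nat_lit 0) (nat_lit 141134224) (nat_lit 152) (nat_lit 8132102195) (nat_lit 76) (nat_lit 12714185052) (nat_lit 29) (nat_lit 5) (nat_lit 31) (nat_lit 5) (nat_lit 30) (nat_lit 4) (nat_lit 460) (nat_lit 385) (nat_lit 355)) (XT.lf (nat_lit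 0) (nat_lit 4211604207) (nat_lit 76) (nat_lit 2009737353) (nat_lit 152) (nat_lit 15485322024) (nat_lit 28) (nat_lit 5) (nat_lit 29) (nat_lit 5) (nat_lit 30) (nat_lit 4) (nat_lit 461) (nat_lit 385) (nat_lit 354))))) (XT.nd (nat_lit 312) (nat_lit 228) (nat_lit 0) (XT.nd (nat_lit 156) (nat_lit 152) (nat_lit 0) (XT.nd (nat_lit 78) (nat_lit 76) (nat_lit 0) (XT.lf (nat_lit 0) (nat_lit 12715501324) (nat_lit 152) (nat_lit 5270246244) (nat_lit 0) (nat_lit 4470628828) (nat_lit 28) (nat_lit 5) (nat_lit 30) (nat_lit 4) (nat_lit 28) (nat_lit 4) (nat_lit 462) (nat_lit 385) (nat_lit 353)) (XT.lf (nat_lit 0) (nat_lit 7588572999) (nat_lit 76) (nat_lit 12000707742) (nat_lit 76) (nat_lit 3651553949) (nat_lit 27) (nat_lit 4) (nat_lit 28) (nat_lit 5) (nat_lit 28) (nat_lit 4) (nat_lit 463) (nat_lit 385) (nat_lit 352))) (XT.nd (nat_lit 78) (nat_lit 76) (nat_lit 0) (XT.lf (nat_lit 0) (nat_lit 2648830049) (nat_lit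 152) (nat_lit 3018367711) (nat_lit 76) (nat_lit 18395464094) (nat_lit 26) (nat_lit 5) (nat_lit 28) (nat_lit 5) (nat_lit 27) (nat_lit 4) (nat_lit 464) (nat_lit 385) (nat_lit 351)) (XT.lf (nat_lit 0) (nat_lit 9228809872) (nat_lit 152) (nat_lit 14596850957) (nat_lit 0) (nat_lit 1092566518) (nat_lit 25) (nat_lit 5) (nat_lit 27) (nat_lit 4) (nat_lit 25) (nat_lit 4) (nat_lit 465) (nat_lit 385) (nat_lit 350)))) (XT.nd (nat_lit 156) (nat_lit 152) (nat_lit 0) (XT.nd (nat_lit 78) (nat_lit 76) (nat_lit 0) (XT.lf (nat_lit 0) (nat_lit 16191180847) (nat_lit 152) (nat_lit 1653580108) (nat_lit 0) (nat_lit 7969145013) (nat_lit 25) (nat_lit 5) (nat_lit 27) (nat_lit 4) (nat_lit 25) (nat_lit 4) (nat_lit 466) (nat_lit 385) (nat_lit 349)) (XT.lf (nat_lit 0) (nat_lit 12155702579) (nat_lit 76) (nat_lit 11448639777) (nat_lit 76) (nat_lit 3144896818) (nat_lit 24) (nat_lit 4) (nat_lit 25) (nat_lit 5) (nat_lit 25) (nat_lit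 4) (nat_lit 467) (nat_lit 385) (nat_lit 348))) (XT.nd (nat_lit 78) (nat_lit 76) (nat_lit 0) (XT.lf (nat_lit 0) (nat_lit 3481259165) (nat_lit 152) (nat_lit 1244977978) (nat_lit 76) (nat_lit 23005177219) (nat_lit 23) (nat_lit 5) (nat_lit 25) (nat_lit 5) (nat_lit 24) (nat_lit 4) (nat_lit 468) (nat_lit 385) (nat_lit 347)) (XT.lf (nat_lit 0) (nat_lit 10492065406) (nat_lit 152) (nat_lit 15821060888) (nat_lit 0) (nat_lit 2439046323) (nat_lit 22) (nat_lit 5) (nat_lit 24) (nat_lit 4) (nat_lit 22) (nat_lit 4) (nat_lit 469) (nat_lit 385) (nat_lit 346))))))))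
noncomputable def xc60 : XT := (XT.nd (nat_lit 2184) (nat_lit 380) (nat_lit 0) (XT.nd (nat_lit 1092) (nat_lit 380) (nat_lit 0) (XT.nd (nat_lit 546) (nat_lit 380) (nat_lit 0) (XT.nd (nat_lit 234) (nat_lit 152) (nat_lit 0) (XT.nd (nat_lit 78) (nat_lit 152) (nat_lit 0) (XT.lf (nat_lit 0) (nat_lit 17869709113) (nat_lit 152) (nat_lit 2203978934) (nat_lit 0) (nat_lit 9749469376) (nat_lit 22) (nat_lit 5) (nat_lit 24) (nat_lit 4) (nat_lit 22) (nat_lit 4) (nat_lit 470) (nat_lit 385) (nat_lit 345)) (XT.nd (nat_lit 78) (nat_lit 76) (nat_lit 0) (XT.lf (nat_lit 0) (nat_lit 12333990241) (nat_lit 76) (nat_lit 13396134734) (nat_lit 76) (nat_lit 5211875328) (nat_lit 21) (nat_lit 4) (nat_lit 22) (nat_lit 5) (nat_lit 22) (nat_lit 4) (nat_lit 471) (nat_lit 385) (nat_lit 344)) (XT.lf (nat_lit 0) (nat_lit 1766386290) (nat_lit 152) (nat_lit 4624138624) (nat_lit 76) (nat_lit 25726838229) (nat_lit 20) (nat_lit 5) (nat_lit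 22) (nat_lit 5) (nat_lit 21) (nat_lit 4) (nat_lit 472) (nat_lit 385) (nat_lit 343)))) (XT.nd (nat_lit 156) (nat_lit 76) (nat_lit 0) (XT.nd (nat_lit 78) (nat_lit 0) (nat_lit 0) (XT.lf (nat_lit 0) (nat_lit 9019991940) (nat_lit 152) (nat_lit 23210064981) (nat_lit 0) (nat_lit 1112088846) (nat_lit 19) (nat_lit 5) (nat_lit 21) (nat_lit 4) (nat_lit 19) (nat_lit 4) (nat_lit 473) (nat_lit 385) (nat_lit 342)) (XT.lf (nat_lit 0) (nat_lit 16745980827) (nat_lit 152) (nat_lit 9091295695) (nat_lit 0) (nat_lit 8785408593) (nat_lit 19) (nat_lit 5) (nat_lit 21) (nat_lit 4) (nat_lit 19) (nat_lit 4) (nat_lit 474) (nat_lit 385) (nat_lit 341))) (XT.nd (nat_lit 78) (nat_lit 0) (nat_lit 0) (XT.lf (nat_lit 0) (nat_lit 5777717884) (nat_lit 76) (nat_lit 19099657093) (nat_lit 76) (nat_lit 11088923772) (nat_lit 18) (nat_lit 4) (nat_lit 19) (nat_lit 5) (nat_lit 19) (nat_lit 4) (nat_lit 475) (nat_lit 385) (nat_lit 340))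 (XT.lf (nat_lit 0) (nat_lit 21567462197) (nat_lit 76) (nat_lit 11931967302) (nat_lit 76) (nat_lit 3873461518) (nat_lit 18) (nat_lit 4) (nat_lit 19) (nat_lit 5) (nat_lit 19) (nat_lit 4) (nat_lit 476) (nat_lit 385) (nat_lit 339))))) (XT.nd (nat_lit 234) (nat_lit 228) (nat_lit 0) (XT.nd (nat_lit 78) (nat_lit 76) (nat_lit 0) (XT.lf (nat_lit 0) (nat_lit 3516621272) (nat_lit 152) (nat_lit 894929760) (nat_lit 76) (nat_lit 34438755623) (nat_lit 17) (nat_lit 5) (nat_lit 19) (nat_lit 5) (nat_lit 18) (nat_lit 4) (nat_lit 477) (nat_lit 385) (nat_lit 338)) (XT.nd (nat_lit 78) (nat_lit 0) (nat_lit 0) (XT.lf (nat_lit 0) (nat_lit 11374929950) (nat_lit 152) (nat_lit 25396481675) (nat_lit 0) (nat_lit 3615563854) (nat_lit 16) (nat_lit 5) (nat_lit 18) (nat_lit 4) (nat_lit 16) (nat_lit 4) (nat_lit 478) (nat_lit 385) (nat_lit 337)) (XT.lf (nat_lit 0) (nat_lit 19649594780) (nat_lit 152) (nat_lit 10498786812) (nat_lit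 0) (nat_lit 11850926161) (nat_lit 16) (nat_lit 5) (nat_lit 18) (nat_lit 4) (nat_lit 16) (nat_lit 4) (nat_lit 479) (nat_lit 385) (nat_lit 336)))) (XT.nd (nat_lit 156) (nat_lit 152) (nat_lit 0) (XT.nd (nat_lit 78) (nat_lit 0) (nat_lit 0) (XT.lf (nat_lit 0) (nat_lit 5188174010) (nat_lit 76) (nat_lit 23169597618) (nat_lit 76) (nat_lit 15333498023) (nat_lit 15) (nat_lit 4) (nat_lit 16) (nat_lit 5) (nat_lit 16) (nat_lit 4) (nat_lit 480) (nat_lit 385) (nat_lit 335)) (XT.lf (nat_lit 0) (nat_lit 21904266757) (nat_lit 76) (nat_lit 15714715810) (nat_lit 76) (nat_lit 7842967668) (nat_lit 15) (nat_lit 4) (nat_lit 16) (nat_lit 5) (nat_lit 16) (nat_lit 4) (nat_lit 481) (nat_lit 385) (nat_lit 334))) (XT.nd (nat_lit 78) (nat_lit 152) (nat_lit 0) (XT.lf (nat_lit 0) (nat_lit 39342154342) (nat_lit 76) (nat_lit 7943788487) (nat_lit 76) (nat_lit 38089347) (nat_lit 15) (nat_lit 4) (nat_lit 16) (nat_lit 5) (nat_lit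 16) (nat_lit 4) (nat_lit 482) (nat_lit 385) (nat_lit 333)) (XT.lf (nat_lit 0) (nat_lit 7978435633) (nat_lit 152) (nat_lit 40871888738) (nat_lit 0) (nat_lit 418403802) (nat_lit 13) (nat_lit 5) (nat_lit 15) (nat_lit 4) (nat_lit 13) (nat_lit 4) (nat_lit 483) (nat_lit 385) (nat_lit 332)))))) (XT.nd (nat_lit 546) (nat_lit 152) (nat_lit 0) (XT.nd (nat_lit 234) (nat_lit 152) (nat_lit 0) (XT.nd (nat_lit 78) (nat_lit 76) (nat_lit 0) (XT.lf (nat_lit 0) (nat_lit 16606748323) (nat_lit 152) (nat_lit 25675880534) (nat_lit 0) (nat_lit 9017388343) (nat_lit 13) (nat_lit 5) (nat_lit 15) (nat_lit 4) (nat_lit 13) (nat_lit 4) (nat_lit 484) (nat_lit 385) (nat_lit 331)) (XT.nd (nat_lit 78) (nat_lit 76) (nat_lit 0) (XT.lf (nat_lit 0) (nat_lit 25613736161) (nat_lit 152) (nat_lit 9825328382) (nat_lit 0) (nat_lit 17996444611) (nat_lit 13) (nat_lit 5) (nat_lit 15) (nat_lit 4) (nat_lit 13) (nat_lit 4) (nat_lit 485) (nat_lit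 385) (nat_lit 330)) (XT.lf (nat_lit 0) (nat_lit 6939618249) (nat_lit 76) (nat_lit 28189572997) (nat_lit 76) (nat_lit 20545679952) (nat_lit 12) (nat_lit 4) (nat_lit 13) (nat_lit 5) (nat_lit 13) (nat_lit 4) (nat_lit 486) (nat_lit 385) (nat_lit 329)))) (XT.nd (nat_lit 156) (nat_lit 152) (nat_lit 0) (XT.nd (nat_lit 78) (nat_lit 0) (nat_lit 0) (XT.lf (nat_lit 0) (nat_lit 24785298021) (nat_lit 76) (nat_lit 20452140730) (nat_lit 76) (nat_lit 12782912928) (nat_lit 12) (nat_lit 4) (nat_lit 13) (nat_lit 5) (nat_lit 13) (nat_lit 4) (nat_lit 487) (nat_lit 385) (nat_lit 328)) (XT.lf (nat_lit 0) (nat_lit 43429330918) (nat_lit 76) (nat_lit 12374741976) (nat_lit 76) (nat_lit 4681385833) (nat_lit 12) (nat_lit 4) (nat_lit 13) (nat_lit 5) (nat_lit 13) (nat_lit 4) (nat_lit 488) (nat_lit 385) (nat_lit 327))) (XT.nd (nat_lit 78) (nat_lit 76) (nat_lit 0) (XT.lf (nat_lit 0) (nat_lit 3657264984) (nat_lit 152) (nat_lit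 218942296) (nat_lit 76) (nat_lit 59196904957) (nat_lit 11) (nat_lit 5) (nat_lit 13) (nat_lit 5) (nat_lit 12) (nat_lit 4) (nat_lit 489) (nat_lit 385) (nat_lit 326)) (XT.lf (nat_lit 0) (nat_lit 12575106071) (nat_lit 152) (nat_lit 47989854945) (nat_lit 0) (nat_lit 5205372138) (nat_lit 10) (nat_lit 5) (nat_lit 12) (nat_lit 4) (nat_lit 10) (nat_lit 4) (nat_lit 490) (nat_lit 385) (nat_lit 325))))) (XT.nd (nat_lit 234) (nat_lit 76) (nat_lit 0) (XT.nd (nat_lit 78) (nat_lit 76) (nat_lit 0) (XT.lf (nat_lit 0) (nat_lit 21962866577) (nat_lit 152) (nat_lit 32065066008) (nat_lit 0) (nat_lit 14573282198) (nat_lit 10) (nat_lit 5) (nat_lit 12) (nat_lit 4) (nat_lit 10) (nat_lit 4) (nat_lit 491) (nat_lit 385) (nat_lit 324)) (XT.nd (nat_lit 78) (nat_lit 76) (nat_lit 0) (XT.lf (nat_lit 0) (nat_lit 31778790635) (nat_lit 152) (nat_lit 15426610994) (nat_lit 0) (nat_lit 24370301071) (nat_lit 10) (nat_lit 5) (nat_lit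 12) (nat_lit 4) (nat_lit 10) (nat_lit 4) (nat_lit 492) (nat_lit 385) (nat_lit 323)) (XT.lf (nat_lit 0) (nat_lit 2030101386) (nat_lit 76) (nat_lit 40047843680) (nat_lit 76) (nat_lit 32621349176) (nat_lit 9) (nat_lit 4) (nat_lit 10) (nat_lit 5) (nat_lit 10) (nat_lit 4) (nat_lit 493) (nat_lit 385) (nat_lit 322)))) (XT.nd (nat_lit 156) (nat_lit 76) (nat_lit 0) (XT.nd (nat_lit 78) (nat_lit 0) (nat_lit 0) (XT.lf (nat_lit 0) (nat_lit 20817853587) (nat_lit 76) (nat_lit 32296860932) (nat_lit 76) (nat_lit 24853218868) (nat_lit 9) (nat_lit 4) (nat_lit 10) (nat_lit 5) (nat_lit 10) (nat_lit 4) (nat_lit 494) (nat_lit 385) (nat_lit 321)) (XT.lf (nat_lit 0) (nat_lit 40471304925) (nat_lit 76) (nat_lit 24195255788) (nat_lit 76) (nat_lit 16735282713) (nat_lit 9) (nat_lit 4) (nat_lit 10) (nat_lit 5) (nat_lit 10) (nat_lit 4) (nat_lit 495) (nat_lit 385) (nat_lit 320))) (XT.nd (nat_lit 78) (nat_lit 76) (nat_lit 0)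 (XT.lf (nat_lit 0) (nat_lit 61037249331) (nat_lit 76) (nat_lit 15723738712) (nat_lit 76) (nat_lit 8248212294) (nat_lit 9) (nat_lit 4) (nat_lit 10) (nat_lit 5) (nat_lit 10) (nat_lit 4) (nat_lit 496) (nat_lit 385) (nat_lit 319)) (XT.lf (nat_lit 0) (nat_lit 608093388) (nat_lit 152) (nat_lit 6243747680) (nat_lit 76) (nat_lit 81946261595) (nat_lit 8) (nat_lit 5) (nat_lit 10) (nat_lit 5) (nat_lit 9) (nat_lit 4) (nat_lit 497) (nat_lit 385) (nat_lit 318))))))) (XT.nd (nat_lit 1092) (nat_lit 76) (nat_lit 0) (XT.nd (nat_lit 546) (nat_lit 152) (nat_lit 0) (XT.nd (nat_lit 234) (nat_lit 76) (nat_lit 0) (XT.nd (nat_lit 78) (nat_lit 0) (nat_lit 0) (XT.lf (nat_lit 0) (nat_lit 9837440854) (nat_lit 152) (nat_lit 80231529114) (nat_lit 0) (nat_lit 2690348981) (nat_lit 7) (nat_lit 5) (nat_lit 9) (nat_lit 4) (nat_lit 7) (nat_lit 4) (nat_lit 498) (nat_lit 385) (nat_lit 317)) (XT.nd (nat_lit 78) (nat_lit 0) (nat_lit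 0) (XT.lf (nat_lit 0) (nat_lit 19715821908) (nat_lit 152) (nat_lit 64637462234) (nat_lit 0) (nat_lit 12555934261) (nat_lit 7) (nat_lit 5) (nat_lit 9) (nat_lit 4) (nat_lit 7) (nat_lit 4) (nat_lit 499) (nat_lit 385) (nat_lit 316)) (XT.lf (nat_lit 0) (nat_lit 30057423546) (nat_lit 152) (nat_lit 48325375396) (nat_lit 0) (nat_lit 22885349447) (nat_lit 7) (nat_lit 5) (nat_lit 9) (nat_lit 4) (nat_lit 7) (nat_lit 4) (nat_lit 500) (nat_lit 385) (nat_lit 315)))) (XT.nd (nat_lit 156) (nat_lit 76) (nat_lit 0) (XT.nd (nat_lit 78) (nat_lit 0) (nat_lit 0) (XT.lf (nat_lit 0) (nat_lit 40886868627) (nat_lit 152) (nat_lit 31256430299) (nat_lit 0) (nat_lit 33703188385) (nat_lit 7) (nat_lit 5) (nat_lit 9) (nat_lit 4) (nat_lit 7) (nat_lit 4) (nat_lit 501) (nat_lit 385) (nat_lit 314)) (XT.lf (nat_lit 0) (nat_lit 52229941545) (nat_lit 152) (nat_lit 13389986595) (nat_lit 0) (nat_lit 45035207832) (nat_lit 7) (nat_lit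 5) (nat_lit 9) (nat_lit 4) (nat_lit 7) (nat_lit 4) (nat_lit 502) (nat_lit 385) (nat_lit 313))) (XT.nd (nat_lit 78) (nat_lit 0) (nat_lit 0) (XT.lf (nat_lit 0) (nat_lit 5492282194) (nat_lit 76) (nat_lit 58707117340) (nat_lit 76) (nat_lit 51501856512) (nat_lit 6) (nat_lit 4) (nat_lit 7) (nat_lit 5) (nat_lit 7) (nat_lit 4) (nat_lit 503) (nat_lit 385) (nat_lit 312)) (XT.lf (nat_lit 0) (nat_lit 25731109521) (nat_lit 76) (nat_lit 51236912595) (nat_lit 76) (nat_lit 44021625943) (nat_lit 6) (nat_lit 4) (nat_lit 7) (nat_lit 5) (nat_lit 7) (nat_lit 4) (nat_lit 504) (nat_lit 385) (nat_lit 311))))) (XT.nd (nat_lit 234) (nat_lit 152) (nat_lit 0) (XT.nd (nat_lit 78) (nat_lit 0) (nat_lit 0) (XT.lf (nat_lit 0) (nat_lit 46931949642) (nat_lit 76) (nat_lit 43418293606) (nat_lit 76) (nat_lit 36193458550) (nat_lit 6) (nat_lit 4) (nat_lit 7) (nat_lit 5) (nat_lit 7) (nat_lit 4) (nat_lit 505) (nat_lit 385) (nat_lit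 310)) (XT.nd (nat_lit 78) (nat_lit 0) (nat_lit 0) (XT.lf (nat_lit 0) (nat_lit 69145280746) (nat_lit 76) (nat_lit 35232644614) (nat_lit 76) (nat_lit 27998715841) (nat_lit 6) (nat_lit 4) (nat_lit 7) (nat_lit 5) (nat_lit 7) (nat_lit 4) (nat_lit 506) (nat_lit 385) (nat_lit 309)) (XT.lf (nat_lit 0) (nat_lit 92423991718) (nat_lit 76) (nat_lit 26660475979) (nat_lit 76) (nat_lit 19417886522) (nat_lit 6) (nat_lit 4) (nat_lit 7) (nat_lit 5) (nat_lit 7) (nat_lit 4) (nat_lit 507) (nat_lit 385) (nat_lit 308)))) (XT.nd (nat_lit 156) (nat_lit 152) (nat_lit 0) (XT.nd (nat_lit 78) (nat_lit 0) (nat_lit 0) (XT.lf (nat_lit 0) (nat_lit 116823508060) (nat_lit 76) (nat_lit 17681377775) (nat_lit 76) (nat_lit 10430540048) (nat_lit 6) (nat_lit 4) (nat_lit 7) (nat_lit 5) (nat_lit 7) (nat_lit 4) (nat_lit 508) (nat_lit 385) (nat_lit 307)) (XT.lf (nat_lit 0) (nat_lit 142401923858) (nat_lit 76) (nat_lit 8273971197) (nat_lit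 76) (nat_lit 1015277975) (nat_lit 6) (nat_lit 4) (nat_lit 7) (nat_lit 5) (nat_lit 7) (nat_lit 4) (nat_lit 509) (nat_lit 385) (nat_lit 306))) (XT.nd (nat_lit 78) (nat_lit 0) (nat_lit 0) (XT.lf (nat_lit 0) (nat_lit 8762841184) (nat_lit 152) (nat_lit 148163466342) (nat_lit 0) (nat_lit 1842674854) (nat_lit 4) (nat_lit 5) (nat_lit 6) (nat_lit 4) (nat_lit 4) (nat_lit 4) (nat_lit 510) (nat_lit 385) (nat_lit 305)) (XT.lf (nat_lit 0) (nat_lit 19271529144) (nat_lit 152) (nat_lit 134569955126) (nat_lit 0) (nat_lit 12344576942) (nat_lit 4) (nat_lit 5) (nat_lit 6) (nat_lit 4) (nat_lit 4) (nat_lit 4) (nat_lit 511) (nat_lit 385) (nat_lit 304)))))) (XT.nd (nat_lit 546) (nat_lit 76) (nat_lit 0) (XT.nd (nat_lit 234) (nat_lit 0) (nat_lit 0) (XT.nd (nat_lit 78) (nat_lit 0) (nat_lit 0) (XT.lf (nat_lit 0) (nat_lit 30286839174) (nat_lit 152) (nat_lit 120334671528) (nat_lit 0) (nat_lit 23353424237) (nat_lit 4) (nat_lit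 5) (nat_lit 6) (nat_lit 4) (nat_lit 4) (nat_lit 4) (nat_lit 512) (nat_lit 385) (nat_lit 303)) (XT.nd (nat_lit 78) (nat_lit 0) (nat_lit 0) (XT.lf (nat_lit 0) (nat_lit 41834998204) (nat_lit 152) (nat_lit 105423722015) (nat_lit 0) (nat_lit 34895428281) (nat_lit 4) (nat_lit 5) (nat_lit 6) (nat_lit 4) (nat_lit 4) (nat_lit 4) (nat_lit 513) (nat_lit 385) (nat_lit 302)) (XT.lf (nat_lit 0) (nat_lit 53943501848) (nat_lit 152) (nat_lit 89801604325) (nat_lit 0) (nat_lit 46998070034) (nat_lit 4) (nat_lit 5) (nat_lit 6) (nat_lit 4) (nat_lit 4) (nat_lit 4) (nat_lit 514) (nat_lit 385) (nat_lit 301)))) (XT.nd (nat_lit 156) (nat_lit 0) (nat_lit 0) (XT.nd (nat_lit 78) (nat_lit 0) (nat_lit 0) (XT.lf (nat_lit 0) (nat_lit 66641179879) (nat_lit 152) (nat_lit 73431122942) (nat_lit 0) (nat_lit 59690165311) (nat_lit 4) (nat_lit 5) (nat_lit 6) (nat_lit 4) (nat_lit 4) (nat_lit 4) (nat_lit 515) (nat_lit 385) (nat_lit 300))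 (XT.lf (nat_lit 0) (nat_lit 79958264863) (nat_lit 152) (nat_lit 56273300527) (nat_lit 0) (nat_lit 73001933386) (nat_lit 4) (nat_lit 5) (nat_lit 6) (nat_lit 4) (nat_lit 4) (nat_lit 4) (nat_lit 516) (nat_lit 385) (nat_lit 299))) (XT.nd (nat_lit 78) (nat_lit 0) (nat_lit 0) (XT.lf (nat_lit 0) (nat_lit 93926464145) (nat_lit 152) (nat_lit 38287285124) (nat_lit 0) (nat_lit 86965068946) (nat_lit 4) (nat_lit 5) (nat_lit 6) (nat_lit 4) (nat_lit 4) (nat_lit 4) (nat_lit 517) (nat_lit 385) (nat_lit 298)) (XT.lf (nat_lit 0) (nat_lit 108579035342) (nat_lit 152) (nat_lit 19430252885) (nat_lit 0) (nat_lit 101612817550) (nat_lit 4) (nat_lit 5) (nat_lit 6) (nat_lit 4) (nat_lit 4) (nat_lit 4) (nat_lit 518) (nat_lit 385) (nat_lit 297))))) (XT.nd (nat_lit 312) (nat_lit 0) (nat_lit 0) (XT.nd (nat_lit 156) (nat_lit 0) (nat_lit 0) (XT.nd (nat_lit 78) (nat_lit 0) (nat_lit 0) (XT.lf (nat_lit 0) (nat_lit 354024891) (nat_lit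 76) (nat_lit 123602367958) (nat_lit 76) (nat_lit 116631557221) (nat_lit 3) (nat_lit 4) (nat_lit 4) (nat_lit 5) (nat_lit 4) (nat_lit 4) (nat_lit 519) (nat_lit 385) (nat_lit 296)) (XT.lf (nat_lit 0) (nat_lit 21775588450) (nat_lit 76) (nat_lit 118642943812) (nat_lit 76) (nat_lit 111667758842) (nat_lit 3) (nat_lit 4) (nat_lit 4) (nat_lit 5) (nat_lit 4) (nat_lit 4) (nat_lit 520) (nat_lit 385) (nat_lit 295))) (XT.nd (nat_lit 78) (nat_lit 0) (nat_lit 0) (XT.lf (nat_lit 0) (nat_lit 44242989605) (nat_lit 76) (nat_lit 113448268371) (nat_lit 76) (nat_lit 106468917464) (nat_lit 3) (nat_lit 4) (nat_lit 4) (nat_lit 5) (nat_lit 4) (nat_lit 4) (nat_lit 521) (nat_lit 385) (nat_lit 294)) (XT.lf (nat_lit 0) (nat_lit 67809722167) (nat_lit 76) (nat_lit 108005973360) (nat_lit 76) (nat_lit 101022654894) (nat_lit 3) (nat_lit 4) (nat_lit 4) (nat_lit 5) (nat_lit 4) (nat_lit 4) (nat_lit 522) (nat_lit 385) (nat_lit 293))))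 (XT.nd (nat_lit 156) (nat_lit 0) (nat_lit 0) (XT.nd (nat_lit 78) (nat_lit 0) (nat_lit 0) (XT.lf (nat_lit 0) (nat_lit 92531897404) (nat_lit 76) (nat_lit 102303100934) (nat_lit 76) (nat_lit 95316003840) (nat_lit 3) (nat_lit 4) (nat_lit 4) (nat_lit 5) (nat_lit 4) (nat_lit 4) (nat_lit 523) (nat_lit 385) (nat_lit 292)) (XT.lf (nat_lit 0) (nat_lit 118468377639) (nat_lit 76) (nat_lit 96326072825) (nat_lit 76) (nat_lit 89335377038) (nat_lit 3) (nat_lit 4) (nat_lit 4) (nat_lit 5) (nat_lit 4) (nat_lit 4) (nat_lit 524) (nat_lit 385) (nat_lit 291))) (XT.nd (nat_lit 78) (nat_lit 0) (nat_lit 0) (XT.lf (nat_lit 0) (nat_lit 145680916396) (nat_lit 76) (nat_lit 90060658013) (nat_lit 76) (nat_lit 83066534900) (nat_lit 3) (nat_lit 4) (nat_lit 4) (nat_lit 5) (nat_lit 4) (nat_lit 4) (nat_lit 525) (nat_lit 385) (nat_lit 290)) (XT.lf (nat_lit 0) (nat_lit 174234305434) (nat_lit 76) (nat_lit 83491938846) (nat_lit 76)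 (nat_lit 76494551612) (nat_lit 3) (nat_lit 4) (nat_lit 4) (nat_lit 5) (nat_lit 4) (nat_lit 4) (nat_lit 526) (nat_lit 385) (nat_lit 289))))))))
noncomputable def xc61 : XT := (XT.nd (nat_lit 55458) (nat_lit 0) (nat_lit 1824) (XT.nd (nat_lit 1092) (nat_lit 0) (nat_lit 0) (XT.nd (nat_lit 546) (nat_lit 152) (nat_lit 0) (XT.nd (nat_lit 234) (nat_lit 0) (nat_lit 0) (XT.nd (nat_lit 78) (nat_lit 0) (nat_lit 0) (XT.lf (nat_lit 0) (nat_lit 204196529012) (nat_lit 76) (nat_lit 76604275514) (nat_lit 76) (nat_lit 69603779594) (nat_lit 3) (nat_lit 4) (nat_lit 4) (nat_lit 5) (nat_lit 4) (nat_lit 4) (nat_lit 527) (nat_lit 385) (nat_lit 288)) (XT.nd (nat_lit 78) (nat_lit 0) (nat_lit 0) (XT.lf (nat_lit 0) (nat_lit 235638925758) (nat_lit 76) (nat_lit 69381268820) (nat_lit 76) (nat_lit 62377812246) (nat_lit 3) (nat_lit 4) (nat_lit 4) (nat_lit 5) (nat_lit 4) (nat_lit 4) (nat_lit 528) (nat_lit 385) (nat_lit 287))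 (XT.lf (nat_lit 0) (nat_lit 268636358522) (nat_lit 76) (nat_lit 61805721128) (nat_lit 76) (nat_lit 54799444884) (nat_lit 3) (nat_lit 4) (nat_lit 4) (nat_lit 5) (nat_lit 4) (nat_lit 4) (nat_lit 529) (nat_lit 385) (nat_lit 286)))) (XT.nd (nat_lit 156) (nat_lit 0) (nat_lit 0) (XT.nd (nat_lit 78) (nat_lit 0) (nat_lit 0) (XT.lf (nat_lit 0) (nat_lit 303267392619) (nat_lit 76) (nat_lit 53859595421) (nat_lit 76) (nat_lit 46850633777) (nat_lit 3) (nat_lit 4) (nat_lit 4) (nat_lit 5) (nat_lit 4) (nat_lit 4) (nat_lit 530) (nat_lit 385) (nat_lit 285)) (XT.lf (nat_lit 0) (nat_lit 339614482892) (nat_lit 76) (nat_lit 45523972351) (nat_lit 76) (nat_lit 38512453183) (nat_lit 3) (nat_lit 4) (nat_lit 4) (nat_lit 5) (nat_lit 4) (nat_lit 4) (nat_lit 531) (nat_lit 385) (nat_lit 284))) (XT.nd (nat_lit 78) (nat_lit 0) (nat_lit 0) (XT.lf (nat_lit 0) (nat_lit 377764170033) (nat_lit 76) (nat_lit 36779005197) (nat_lit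 76) (nat_lit 29765050292) (nat_lit 3) (nat_lit 4) (nat_lit 4) (nat_lit 5) (nat_lit 4) (nat_lit 4) (nat_lit 532) (nat_lit 385) (nat_lit 283)) (XT.lf (nat_lit 0) (nat_lit 417807286631) (nat_lit 76) (nat_lit 27603872608) (nat_lit 76) (nat_lit 20587597954) (nat_lit 3) (nat_lit 4) (nat_lit 4) (nat_lit 5) (nat_lit 4) (nat_lit 4) (nat_lit 533) (nat_lit 385) (nat_lit 282))))) (XT.nd (nat_lit 234) (nat_lit 0) (nat_lit 0) (XT.nd (nat_lit 78) (nat_lit 152) (nat_lit 0) (XT.lf (nat_lit 0) (nat_lit 459839173438) (nat_lit 76) (nat_lit 17976729031) (nat_lit 76) (nat_lit 10958245091) (nat_lit 3) (nat_lit 4) (nat_lit 4) (nat_lit 5) (nat_lit 4) (nat_lit 4) (nat_lit 534) (nat_lit 385) (nat_lit 281)) (XT.nd (nat_lit 78) (nat_lit 152) (nat_lit 0) (XT.lf (nat_lit 0) (nat_lit 503959906376) (nat_lit 76) (nat_lit 7874652695) (nat_lit 76) (nat_lit 854064674) (nat_lit 3) (nat_lit 4) (nat_lit 4) (nat_lit 5) (nat_lit 4)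 (nat_lit 4) (nat_lit 535) (nat_lit 385) (nat_lit 280)) (XT.lf (nat_lit 0) (nat_lit 9684053758) (nat_lit 152) (nat_lit 525099235678) (nat_lit 0) (nat_lit 2995870989) (nat_lit 1) (nat_lit 5) (nat_lit 3) (nat_lit 4) (nat_lit 1) (nat_lit 4) (nat_lit 536) (nat_lit 385) (nat_lit 279)))) (XT.nd (nat_lit 156) (nat_lit 0) (nat_lit 0) (XT.nd (nat_lit 78) (nat_lit 0) (nat_lit 0) (XT.lf (nat_lit 0) (nat_lit 20993601791) (nat_lit 152) (nat_lit 528812659459) (nat_lit 0) (nat_lit 14303601438) (nat_lit 1) (nat_lit 5) (nat_lit 3) (nat_lit 4) (nat_lit 1) (nat_lit 4) (nat_lit 537) (nat_lit 385) (nat_lit 278)) (XT.lf (nat_lit 0) (nat_lit 32862803199) (nat_lit 152) (nat_lit 532723516344) (nat_lit 0) (nat_lit 26171071812) (nat_lit 1) (nat_lit 5) (nat_lit 3) (nat_lit 4) (nat_lit 1) (nat_lit 4) (nat_lit 538) (nat_lit 385) (nat_lit 277))) (XT.nd (nat_lit 78) (nat_lit 0) (nat_lit 0) (XT.lf (nat_lit 0) (nat_lit 45319917984)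 (nat_lit 152) (nat_lit 536841117898) (nat_lit 0) (nat_lit 38626537995) (nat_lit 1) (nat_lit 5) (nat_lit 3) (nat_lit 4) (nat_lit 1) (nat_lit 4) (nat_lit 539) (nat_lit 385) (nat_lit 276)) (XT.lf (nat_lit 0) (nat_lit 58394605944) (nat_lit 152) (nat_lit 541175267932) (nat_lit 0) (nat_lit 51699655858) (nat_lit 1) (nat_lit 5) (nat_lit 3) (nat_lit 4) (nat_lit 1) (nat_lit 4) (nat_lit 540) (nat_lit 385) (nat_lit 275)))))) (XT.nd (nat_lit 53820) (nat_lit 0) (nat_lit 4712) (XT.nd (nat_lit 234) (nat_lit 0) (nat_lit 0) (XT.nd (nat_lit 78) (nat_lit 0) (nat_lit 0) (XT.lf (nat_lit 0) (nat_lit 72117997289) (nat_lit 152) (nat_lit 545736285853) (nat_lit 0) (nat_lit 65421551871) (nat_lit 1) (nat_lit 5) (nat_lit 3) (nat_lit 4) (nat_lit 1) (nat_lit 4) (nat_lit 541) (nat_lit 385) (nat_lit 274)) (XT.nd (nat_lit 78) (nat_lit 0) (nat_lit 0) (XT.lf (nat_lit 0) (nat_lit 86522766759) (nat_lit 152) (nat_lit 550535031226)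 (nat_lit 0) (nat_lit 79824897216) (nat_lit 1) (nat_lit 5) (nat_lit 3) (nat_lit 4) (nat_lit 1) (nat_lit 4) (nat_lit 542) (nat_lit 385) (nat_lit 273)) (XT.lf (nat_lit 0) (nat_lit 101643211425) (nat_lit 152) (nat_lit 555582929636) (nat_lit 0) (nat_lit 94943985573) (nat_lit 1) (nat_lit 5) (nat_lit 3) (nat_lit 4) (nat_lit 1) (nat_lit 4) (nat_lit 543) (nat_lit 385) (nat_lit 272)))) (XT.nd (nat_lit 53430) (nat_lit 0) (nat_lit 6004) (XT.nd (nat_lit 78) (nat_lit 0) (nat_lit 0) (XT.lf (nat_lit 0) (nat_lit 117515332345) (nat_lit 152) (nat_lit 560891999889) (nat_lit 0) (nat_lit 110814814770) (nat_lit 1) (nat_lit 5) (nat_lit 3) (nat_lit 4) (nat_lit 1) (nat_lit 4) (nat_lit 544) (nat_lit 385) (nat_lit 271)) (XT.lf (nat_lit 0) (nat_lit 134176920285) (nat_lit 152) (nat_lit 566474882628) (nat_lit 0) (nat_lit 127475172496) (nat_lit 1) (nat_lit 5) (nat_lit 3) (nat_lit 4) (nat_lit 1) (nat_lit 4) (nat_lit 545) (nat_lit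 385) (nat_lit 270))) (XT.nd (nat_lit 78) (nat_lit 304) (nat_lit 0) (XT.lf (nat_lit 0) (nat_lit 2982589611) (nat_lit 228) (nat_lit 704810011) (nat_lit 228) (nat_lit 704810011) (nat_lit 84) (nat_lit 4) (nat_lit 87) (nat_lit 5) (nat_lit 87) (nat_lit 4) (nat_lit 428) (nat_lit 386) (nat_lit 386)) (XT.lf (nat_lit 0) (nat_lit 2819574050) (nat_lit 304) (nat_lit 4259335434) (nat_lit 0) (nat_lit 1882605792) (nat_lit 80) (nat_lit 5) (nat_lit 84) (nat_lit 4) (nat_lit 80) (nat_lit 4) (nat_lit 429) (nat_lit 386) (nat_lit 385))))) (XT.nd (nat_lit 234) (nat_lit 608) (nat_lit 0) (XT.nd (nat_lit 78) (nat_lit 456) (nat_lit 0) (XT.lf (nat_lit 0) (nat_lit 3361849814) (nat_lit 228) (nat_lit 3807988552) (nat_lit 228) (nat_lit 1978669572) (nat_lit 77) (nat_lit 4) (nat_lit 80) (nat_lit 5) (nat_lit 80) (nat_lit 4) (nat_lit 430) (nat_lit 386) (nat_lit 384)) (XT.nd (nat_lit 78) (nat_lit 228) (nat_lit 0) (XT.lf (nat_lit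 0) (nat_lit 1941638547) (nat_lit 152) (nat_lit 312417724) (nat_lit 228) (nat_lit 7092074483) (nat_lit 74) (nat_lit 5) (nat_lit 76) (nat_lit 5) (nat_lit 77) (nat_lit 4) (nat_lit 431) (nat_lit 386) (nat_lit 383)) (XT.lf (nat_lit 0) (nat_lit 378781500) (nat_lit 228) (nat_lit 6247986125) (nat_lit 228) (nat_lit 2925543058) (nat_lit 71) (nat_lit 4) (nat_lit 74) (nat_lit 5) (nat_lit 74) (nat_lit 4) (nat_lit 432) (nat_lit 386) (nat_lit 382)))) (XT.nd (nat_lit 156) (nat_lit 380) (nat_lit 0) (XT.nd (nat_lit 78) (nat_lit 152) (nat_lit 0) (XT.lf (nat_lit 0) (nat_lit 1373598292) (nat_lit 304) (nat_lit 1240705714) (nat_lit 76) (nat_lit 7154867065) (nat_lit 70) (nat_lit 5) (nat_lit 74) (nat_lit 5) (nat_lit 71) (nat_lit 4) (nat_lit 433) (nat_lit 386) (nat_lit 381)) (XT.lf (nat_lit 0) (nat_lit 5764728657) (nat_lit 228) (nat_lit 2995583836) (nat_lit 0) (nat_lit 1235431177) (nat_lit 68) (nat_lit 5) (nat_lit 71)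 (nat_lit 4) (nat_lit 68) (nat_lit 4) (nat_lit 434) (nat_lit 386) (nat_lit 380))) (XT.nd (nat_lit 78) (nat_lit 152) (nat_lit 0) (XT.lf (nat_lit 0) (nat_lit 132779192) (nat_lit 228) (nat_lit 4891277134) (nat_lit 76) (nat_lit 5209732021) (nat_lit 65) (nat_lit 5) (nat_lit 68) (nat_lit 5) (nat_lit 66) (nat_lit 4) (nat_lit 435) (nat_lit 386) (nat_lit 379)) (XT.lf (nat_lit 0) (nat_lit 3514921041) (nat_lit 152) (nat_lit 1013066086) (nat_lit 228) (nat_lit 5954539320) (nat_lit 63) (nat_lit 5) (nat_lit 65) (nat_lit 5) (nat_lit 66) (nat_lit 4) (nat_lit 436) (nat_lit 386) (nat_lit 378))))))) (XT.nd (nat_lit 1092) (nat_lit 1216) (nat_lit 0) (XT.nd (nat_lit 546) (nat_lit 684) (nat_lit 0) (XT.nd (nat_lit 234) (nat_lit 608) (nat_lit 0) (XT.nd (nat_lit 78) (nat_lit 228) (nat_lit 0) (XT.lf (nat_lit 0) (nat_lit 1519405280) (nat_lit 152) (nat_lit 7632263460) (nat_lit 152) (nat_lit 1591625553) (nat_lit 61) (nat_lit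 4) (nat_lit 63) (nat_lit 5) (nat_lit 63) (nat_lit 4) (nat_lit 437) (nat_lit 386) (nat_lit 377)) (XT.nd (nat_lit 78) (nat_lit 152) (nat_lit 0) (XT.lf (nat_lit 0) (nat_lit 2882005003) (nat_lit 228) (nat_lit 654266636) (nat_lit 76) (nat_lit 7479108490) (nat_lit 60) (nat_lit 5) (nat_lit 63) (nat_lit 5) (nat_lit 61) (nat_lit 4) (nat_lit 438) (nat_lit 386) (nat_lit 376)) (XT.lf (nat_lit 0) (nat_lit 7527888494) (nat_lit 228) (nat_lit 2967025654) (nat_lit 0) (nat_lit 804773098) (nat_lit 58) (nat_lit 5) (nat_lit 61) (nat_lit 4) (nat_lit 58) (nat_lit 4) (nat_lit 439) (nat_lit 386) (nat_lit 375)))) (XT.nd (nat_lit 156) (nat_lit 228) (nat_lit 0) (XT.nd (nat_lit 78) (nat_lit 152) (nat_lit 0) (XT.lf (nat_lit 0) (nat_lit 807030360) (nat_lit 228) (nat_lit 5519400908) (nat_lit 76) (nat_lit 5269918620) (nat_lit 55) (nat_lit 5) (nat_lit 58) (nat_lit 5) (nat_lit 56) (nat_lit 4) (nat_lit 440) (nat_lit 386) (nat_lit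 374)) (XT.lf (nat_lit 0) (nat_lit 3581877372) (nat_lit 152) (nat_lit 1874184322) (nat_lit 228) (nat_lit 6450312703) (nat_lit 53) (nat_lit 5) (nat_lit 55) (nat_lit 5) (nat_lit 56) (nat_lit 4) (nat_lit 441) (nat_lit 386) (nat_lit 373))) (XT.nd (nat_lit 78) (nat_lit 76) (nat_lit 0) (XT.lf (nat_lit 0) (nat_lit 842038552) (nat_lit 152) (nat_lit 9509749243) (nat_lit 152) (nat_lit 1879420433) (nat_lit 51) (nat_lit 4) (nat_lit 53) (nat_lit 5) (nat_lit 53) (nat_lit 4) (nat_lit 442) (nat_lit 386) (nat_lit 372)) (XT.lf (nat_lit 0) (nat_lit 2863540751) (nat_lit 228) (nat_lit 2130860425) (nat_lit 76) (nat_lit 7573772314) (nat_lit 50) (nat_lit 5) (nat_lit 53) (nat_lit 5) (nat_lit 51) (nat_lit 4) (nat_lit 443) (nat_lit 386) (nat_lit 371))))) (XT.nd (nat_lit 234) (nat_lit 304) (nat_lit 0) (XT.nd (nat_lit 78) (nat_lit 304) (nat_lit 0) (XT.lf (nat_lit 0) (nat_lit 7570515829) (nat_lit 76) (nat_lit 197663818)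 (nat_lit 152) (nat_lit 5152899833) (nat_lit 49) (nat_lit 5) (nat_lit 50) (nat_lit 5) (nat_lit 51) (nat_lit 4) (nat_lit 444) (nat_lit 386) (nat_lit 370)) (XT.nd (nat_lit 78) (nat_lit 152) (nat_lit 0) (XT.lf (nat_lit 0) (nat_lit 4372456434) (nat_lit 152) (nat_lit 8596684919) (nat_lit 152) (nat_lit 319951538) (nat_lit 47) (nat_lit 4) (nat_lit 49) (nat_lit 5) (nat_lit 49) (nat_lit 4) (nat_lit 445) (nat_lit 386) (nat_lit 369)) (XT.lf (nat_lit 0) (nat_lit 810399381) (nat_lit 76) (nat_lit 3771153175) (nat_lit 152) (nat_lit 9091303532) (nat_lit 45) (nat_lit 5) (nat_lit 46) (nat_lit 5) (nat_lit 47) (nat_lit 4) (nat_lit 446) (nat_lit 386) (nat_lit 368)))) (XT.nd (nat_lit 156) (nat_lit 76) (nat_lit 0) (XT.nd (nat_lit 78) (nat_lit 228) (nat_lit 0) (XT.lf (nat_lit 0) (nat_lit 9763138215) (nat_lit 152) (nat_lit 2996811548) (nat_lit 0) (nat_lit 1313321881) (nat_lit 45) (nat_lit 5) (nat_lit 47) (nat_lit 4)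 (nat_lit 45) (nat_lit 4) (nat_lit 447) (nat_lit 386) (nat_lit 367)) (XT.lf (nat_lit 0) (nat_lit 742356529) (nat_lit 228) (nat_lit 7191499089) (nat_lit 76) (nat_lit 6556561649) (nat_lit 42) (nat_lit 5) (nat_lit 45) (nat_lit 5) (nat_lit 43) (nat_lit 4) (nat_lit 448) (nat_lit 386) (nat_lit 366))) (XT.nd (nat_lit 78) (nat_lit 0) (nat_lit 0) (XT.lf (nat_lit 0) (nat_lit 3091810656) (nat_lit 76) (nat_lit 2789216663) (nat_lit 152) (nat_lit 9044952138) (nat_lit 41) (nat_lit 5) (nat_lit 42) (nat_lit 5) (nat_lit 43) (nat_lit 4) (nat_lit 449) (nat_lit 386) (nat_lit 365)) (XT.lf (nat_lit 0) (nat_lit 11320543509) (nat_lit 152) (nat_lit 1505106119) (nat_lit 0) (nat_lit 2555486377) (nat_lit 41) (nat_lit 5) (nat_lit 43) (nat_lit 4) (nat_lit 41) (nat_lit 4) (nat_lit 450) (nat_lit 386) (nat_lit 364)))))) (XT.nd (nat_lit 546) (nat_lit 608) (nat_lit 0) (XT.nd (nat_lit 234) (nat_lit 304) (nat_lit 0) (XT.nd (nat_lit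 78) (nat_lit 76) (nat_lit 0) (XT.lf (nat_lit 0) (nat_lit 1213974699) (nat_lit 228) (nat_lit 6493202323) (nat_lit 76) (nat_lit 8147041802) (nat_lit 38) (nat_lit 5) (nat_lit 41) (nat_lit 5) (nat_lit 39) (nat_lit 4) (nat_lit 451) (nat_lit 386) (nat_lit 363)) (XT.nd (nat_lit 78) (nat_lit 0) (nat_lit 0) (XT.lf (nat_lit 0) (nat_lit 4330913741) (nat_lit 76) (nat_lit 2263834567) (nat_lit 152) (nat_lit 9753942324) (nat_lit 37) (nat_lit 5) (nat_lit 38) (nat_lit 5) (nat_lit 39) (nat_lit 4) (nat_lit 452) (nat_lit 386) (nat_lit 362)) (XT.lf (nat_lit 0) (nat_lit 12296279574) (nat_lit 152) (nat_lit 1210806130) (nat_lit 0) (nat_lit 3358224120) (nat_lit 37) (nat_lit 5) (nat_lit 39) (nat_lit 4) (nat_lit 37) (nat_lit 4) (nat_lit 453) (nat_lit 386) (nat_lit 361)))) (XT.nd (nat_lit 156) (nat_lit 76) (nat_lit 0) (XT.nd (nat_lit 78) (nat_lit 76) (nat_lit 0) (XT.lf (nat_lit 0) (nat_lit 936753255) (nat_lit 152) (nat_lit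 7196067685) (nat_lit 76) (nat_lit 9269782946) (nat_lit 35) (nat_lit 5) (nat_lit 37) (nat_lit 5) (nat_lit 36) (nat_lit 4) (nat_lit 454) (nat_lit 386) (nat_lit 360)) (XT.lf (nat_lit 0) (nat_lit 4123302681) (nat_lit 76) (nat_lit 2417954773) (nat_lit 152) (nat_lit 11422919462) (nat_lit 34) (nat_lit 5) (nat_lit 35) (nat_lit 5) (nat_lit 36) (nat_lit 4) (nat_lit 455) (nat_lit 386) (nat_lit 359))) (XT.nd (nat_lit 78) (nat_lit 76) (nat_lit 0) (XT.lf (nat_lit 0) (nat_lit 12498082449) (nat_lit 152) (nat_lit 2552209433) (nat_lit 0) (nat_lit 3499939954) (nat_lit 34) (nat_lit 5) (nat_lit 36) (nat_lit 4) (nat_lit 34) (nat_lit 4) (nat_lit 456) (nat_lit 386) (nat_lit 358)) (XT.lf (nat_lit 0) (nat_lit 9365761498) (nat_lit 76) (nat_lit 9470274024) (nat_lit 76) (nat_lit 325397274) (nat_lit 33) (nat_lit 4) (nat_lit 34) (nat_lit 5) (nat_lit 34) (nat_lit 4) (nat_lit 457) (nat_lit 386) (nat_lit 357))))) (XT.nd (nat_lit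 312) (nat_lit 304) (nat_lit 0) (XT.nd (nat_lit 156) (nat_lit 152) (nat_lit 0) (XT.nd (nat_lit 78) (nat_lit 0) (nat_lit 0) (XT.lf (nat_lit 0) (nat_lit 1944436769) (nat_lit 76) (nat_lit 3533153684) (nat_lit 152) (nat_lit 14322573249) (nat_lit 31) (nat_lit 5) (nat_lit 32) (nat_lit 5) (nat_lit 33) (nat_lit 4) (nat_lit 458) (nat_lit 386) (nat_lit 356)) (XT.lf (nat_lit 0) (nat_lit 11668660244) (nat_lit 152) (nat_lit 6097060425) (nat_lit 0) (nat_lit 2699406953) (nat_lit 31) (nat_lit 5) (nat_lit 33) (nat_lit 4) (nat_lit 31) (nat_lit 4) (nat_lit 459) (nat_lit 386) (nat_lit 355))) (XT.nd (nat_lit 78) (nat_lit 76) (nat_lit 0) (XT.lf (nat_lit 0) (nat_lit 6203565554) (nat_lit 76) (nat_lit 12023433312) (nat_lit 76) (nat_lit 2933461385) (nat_lit 30) (nat_lit 4) (nat_lit 31) (nat_lit 5) (nat_lit 31) (nat_lit 4) (nat_lit 460) (nat_lit 386) (nat_lit 354)) (XT.lf (nat_lit 0) (nat_lit 3127624989) (nat_lit 152)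 (nat_lit 2793310827) (nat_lit 76) (nat_lit 15966709807) (nat_lit 29) (nat_lit 5) (nat_lit 31) (nat_lit 5) (nat_lit 30) (nat_lit 4) (nat_lit 461) (nat_lit 386) (nat_lit 353)))) (XT.nd (nat_lit 156) (nat_lit 228) (nat_lit 0) (XT.nd (nat_lit 78) (nat_lit 0) (nat_lit 0) (XT.lf (nat_lit 0) (nat_lit 9467848130) (nat_lit 152) (nat_lit 12580254430) (nat_lit 0) (nat_lit 596955352) (nat_lit 28) (nat_lit 5) (nat_lit 30) (nat_lit 4) (nat_lit 28) (nat_lit 4) (nat_lit 462) (nat_lit 386) (nat_lit 352)) (XT.lf (nat_lit 0) (nat_lit 16178310681) (nat_lit 152) (nat_lit 51271506) (nat_lit 0) (nat_lit 7208102383) (nat_lit 28) (nat_lit 5) (nat_lit 30) (nat_lit 4) (nat_lit 28) (nat_lit 4) (nat_lit 463) (nat_lit 386) (nat_lit 351))) (XT.nd (nat_lit 78) (nat_lit 152) (nat_lit 0) (XT.lf (nat_lit 0) (nat_lit 13362061489) (nat_lit 76) (nat_lit 9983313291) (nat_lit 76) (nat_lit 918518783) (nat_lit 27) (nat_lit 4) (nat_lit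 28) (nat_lit 5) (nat_lit 28) (nat_lit 4) (nat_lit 464) (nat_lit 386) (nat_lit 350)) (XT.lf (nat_lit 0) (nat_lit 2124936389) (nat_lit 76) (nat_lit 3377411416) (nat_lit 152) (nat_lit 19627256039) (nat_lit 25) (nat_lit 5) (nat_lit 26) (nat_lit 5) (nat_lit 27) (nat_lit 4) (nat_lit 465) (nat_lit 386) (nat_lit 349))))))))
noncomputable def xc62 : XT := (XT.nd (nat_lit 2184) (nat_lit 532) (nat_lit 0) (XT.nd (nat_lit 1092) (nat_lit 456) (nat_lit 0) (XT.nd (nat_lit 546) (nat_lit 380) (nat_lit 0) (XT.nd (nat_lit 234) (nat_lit 228) (nat_lit 0) (XT.nd (nat_lit 78) (nat_lit 76) (nat_lit 0) (XT.lf (nat_lit 0) (nat_lit 12369493972) (nat_lit 152) (nat_lit 10091695067) (nat_lit 0) (nat_lit 3568856742) (nat_lit 25) (nat_lit 5) (nat_lit 27) (nat_lit 4) (nat_lit 25) (nat_lit 4) (nat_lit 466) (nat_lit 386) (nat_lit 348)) (XT.nd (nat_lit 78) (nat_lit 0) (nat_lit 0) (XT.lf (nat_lit 0) (nat_lit 3356895297) (nat_lit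 76) (nat_lit 16247915714) (nat_lit 76) (nat_lit 7369462174) (nat_lit 24) (nat_lit 4) (nat_lit 25) (nat_lit 5) (nat_lit 25) (nat_lit 4) (nat_lit 467) (nat_lit 386) (nat_lit 347)) (XT.lf (nat_lit 0) (nat_lit 17668785783) (nat_lit 76) (nat_lit 9622512072) (nat_lit 76) (nat_lit 669947763) (nat_lit 24) (nat_lit 4) (nat_lit 25) (nat_lit 5) (nat_lit 25) (nat_lit 4) (nat_lit 468) (nat_lit 386) (nat_lit 346)))) (XT.nd (nat_lit 156) (nat_lit 76) (nat_lit 0) (XT.nd (nat_lit 78) (nat_lit 0) (nat_lit 0) (XT.lf (nat_lit 0) (nat_lit 3558729615) (nat_lit 76) (nat_lit 2578770682) (nat_lit 152) (nat_lit 22856268304) (nat_lit 22) (nat_lit 5) (nat_lit 23) (nat_lit 5) (nat_lit 24) (nat_lit 4) (nat_lit 469) (nat_lit 386) (nat_lit 345)) (XT.lf (nat_lit 0) (nat_lit 13436502566) (nat_lit 152) (nat_lit 11853174020) (nat_lit 0) (nat_lit 4779010519) (nat_lit 22) (nat_lit 5) (nat_lit 24) (nat_lit 4) (nat_lit 22) (nat_lit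 4) (nat_lit 470) (nat_lit 386) (nat_lit 344))) (XT.nd (nat_lit 78) (nat_lit 0) (nat_lit 0) (XT.lf (nat_lit 0) (nat_lit 2291487763) (nat_lit 76) (nat_lit 18812087055) (nat_lit 76) (nat_lit 10093623895) (nat_lit 21) (nat_lit 4) (nat_lit 22) (nat_lit 5) (nat_lit 22) (nat_lit 4) (nat_lit 471) (nat_lit 386) (nat_lit 343)) (XT.lf (nat_lit 0) (nat_lit 17409911483) (nat_lit 76) (nat_lit 11871201360) (nat_lit 76) (nat_lit 3094670472) (nat_lit 21) (nat_lit 4) (nat_lit 22) (nat_lit 5) (nat_lit 22) (nat_lit 4) (nat_lit 472) (nat_lit 386) (nat_lit 342))))) (XT.nd (nat_lit 234) (nat_lit 228) (nat_lit 0) (XT.nd (nat_lit 78) (nat_lit 76) (nat_lit 0) (XT.lf (nat_lit 0) (nat_lit 4046795336) (nat_lit 152) (nat_lit 535903047) (nat_lit 76) (nat_lit 29030844148) (nat_lit 20) (nat_lit 5) (nat_lit 22) (nat_lit 5) (nat_lit 21) (nat_lit 4) (nat_lit 473) (nat_lit 386) (nat_lit 341)) (XT.nd (nat_lit 78) (nat_lit 0) (nat_lit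 0) (XT.lf (nat_lit 0) (nat_lit 11657766967) (nat_lit 152) (nat_lit 20045731152) (nat_lit 0) (nat_lit 3196335894) (nat_lit 19) (nat_lit 5) (nat_lit 21) (nat_lit 4) (nat_lit 19) (nat_lit 4) (nat_lit 474) (nat_lit 386) (nat_lit 340)) (XT.lf (nat_lit 0) (nat_lit 19665923136) (nat_lit 152) (nat_lit 5426968024) (nat_lit 0) (nat_lit 11156719599) (nat_lit 19) (nat_lit 5) (nat_lit 21) (nat_lit 4) (nat_lit 19) (nat_lit 4) (nat_lit 475) (nat_lit 386) (nat_lit 339)))) (XT.nd (nat_lit 156) (nat_lit 152) (nat_lit 0) (XT.nd (nat_lit 78) (nat_lit 0) (nat_lit 0) (XT.lf (nat_lit 0) (nat_lit 10119062485) (nat_lit 76) (nat_lit 18048921257) (nat_lit 76) (nat_lit 9494220136) (nat_lit 18) (nat_lit 4) (nat_lit 19) (nat_lit 5) (nat_lit 19) (nat_lit 4) (nat_lit 476) (nat_lit 386) (nat_lit 338)) (XT.lf (nat_lit 0) (nat_lit 26505319789) (nat_lit 76) (nat_lit 10618357391) (nat_lit 76) (nat_lit 2020325238) (nat_lit 18)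 (nat_lit 4) (nat_lit 19) (nat_lit 5) (nat_lit 19) (nat_lit 4) (nat_lit 477) (nat_lit 386) (nat_lit 337))) (XT.nd (nat_lit 78) (nat_lit 0) (nat_lit 0) (XT.lf (nat_lit 0) (nat_lit 2891007575) (nat_lit 76) (nat_lit 2733532609) (nat_lit 152) (nat_lit 35071614517) (nat_lit 16) (nat_lit 5) (nat_lit 17) (nat_lit 5) (nat_lit 18) (nat_lit 4) (nat_lit 478) (nat_lit 386) (nat_lit 336)) (XT.lf (nat_lit 0) (nat_lit 13826661953) (nat_lit 152) (nat_lit 22924126720) (nat_lit 0) (nat_lit 5561326404) (nat_lit 16) (nat_lit 5) (nat_lit 18) (nat_lit 4) (nat_lit 16) (nat_lit 4) (nat_lit 479) (nat_lit 386) (nat_lit 335)))))) (XT.nd (nat_lit 546) (nat_lit 228) (nat_lit 0) (XT.nd (nat_lit 234) (nat_lit 152) (nat_lit 0) (XT.nd (nat_lit 78) (nat_lit 76) (nat_lit 0) (XT.lf (nat_lit 0) (nat_lit 22425394049) (nat_lit 152) (nat_lit 7459746116) (nat_lit 0) (nat_lit 14124409952) (nat_lit 16) (nat_lit 5) (nat_lit 18) (nat_lit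 4) (nat_lit 16) (nat_lit 4) (nat_lit 480) (nat_lit 386) (nat_lit 334)) (XT.nd (nat_lit 78) (nat_lit 0) (nat_lit 0) (XT.lf (nat_lit 0) (nat_lit 8954079198) (nat_lit 76) (nat_lit 22584250610) (nat_lit 76) (nat_lit 14249315515) (nat_lit 15) (nat_lit 4) (nat_lit 16) (nat_lit 5) (nat_lit 16) (nat_lit 4) (nat_lit 481) (nat_lit 386) (nat_lit 333)) (XT.lf (nat_lit 0) (nat_lit 26339000558) (nat_lit 76) (nat_lit 14839664088) (nat_lit 76) (nat_lit 6472394710) (nat_lit 15) (nat_lit 4) (nat_lit 16) (nat_lit 5) (nat_lit 16) (nat_lit 4) (nat_lit 482) (nat_lit 386) (nat_lit 332)))) (XT.nd (nat_lit 156) (nat_lit 0) (nat_lit 0) (XT.nd (nat_lit 78) (nat_lit 76) (nat_lit 0) (XT.lf (nat_lit 0) (nat_lit 1586336951) (nat_lit 152) (nat_lit 5146073183) (nat_lit 76) (nat_lit 42876555404) (nat_lit 14) (nat_lit 5) (nat_lit 16) (nat_lit 5) (nat_lit 15) (nat_lit 4) (nat_lit 483) (nat_lit 386) (nat_lit 331)) (XT.lf (nat_lit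 0) (nat_lit 9999448929) (nat_lit 152) (nat_lit 39678205148) (nat_lit 0) (nat_lit 1973361231) (nat_lit 13) (nat_lit 5) (nat_lit 15) (nat_lit 4) (nat_lit 13) (nat_lit 4) (nat_lit 484) (nat_lit 386) (nat_lit 330))) (XT.nd (nat_lit 78) (nat_lit 0) (nat_lit 0) (XT.lf (nat_lit 0) (nat_lit 18981934799) (nat_lit 152) (nat_lit 23876552631) (nat_lit 0) (nat_lit 10929245607) (nat_lit 13) (nat_lit 5) (nat_lit 15) (nat_lit 4) (nat_lit 13) (nat_lit 4) (nat_lit 485) (nat_lit 386) (nat_lit 329)) (XT.lf (nat_lit 0) (nat_lit 28365707789) (nat_lit 152) (nat_lit 7380288201) (nat_lit 0) (nat_lit 20287683839) (nat_lit 13) (nat_lit 5) (nat_lit 15) (nat_lit 4) (nat_lit 13) (nat_lit 4) (nat_lit 486) (nat_lit 386) (nat_lit 328))))) (XT.nd (nat_lit 234) (nat_lit 152) (nat_lit 0) (XT.nd (nat_lit 78) (nat_lit 0) (nat_lit 0) (XT.lf (nat_lit 0) (nat_lit 10175545978) (nat_lit 76) (nat_lit 28156433025) (nat_lit 76) (nat_lit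 20054280735) (nat_lit 12) (nat_lit 4) (nat_lit 13) (nat_lit 5) (nat_lit 13) (nat_lit 4) (nat_lit 487) (nat_lit 386) (nat_lit 327)) (XT.nd (nat_lit 78) (nat_lit 0) (nat_lit 0) (XT.lf (nat_lit 0) (nat_lit 28775940842) (nat_lit 76) (nat_lit 20100825269) (nat_lit 76) (nat_lit 11975693608) (nat_lit 12) (nat_lit 4) (nat_lit 13) (nat_lit 5) (nat_lit 13) (nat_lit 4) (nat_lit 488) (nat_lit 386) (nat_lit 326)) (XT.lf (nat_lit 0) (nat_lit 48221157388) (nat_lit 76) (nat_lit 11684981458) (nat_lit 76) (nat_lit 3537964681) (nat_lit 12) (nat_lit 4) (nat_lit 13) (nat_lit 5) (nat_lit 13) (nat_lit 4) (nat_lit 489) (nat_lit 386) (nat_lit 325)))) (XT.nd (nat_lit 156) (nat_lit 0) (nat_lit 0) (XT.nd (nat_lit 78) (nat_lit 0) (nat_lit 0) (XT.lf (nat_lit 0) (nat_lit 2384015472) (nat_lit 76) (nat_lit 2763240730) (nat_lit 152) (nat_lit 61014123481) (nat_lit 10) (nat_lit 5) (nat_lit 11) (nat_lit 5) (nat_lit 12) (nat_lit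 4) (nat_lit 490) (nat_lit 386) (nat_lit 324)) (XT.lf (nat_lit 0) (nat_lit 14471765278) (nat_lit 152) (nat_lit 47849713036) (nat_lit 0) (nat_lit 6673946050) (nat_lit 10) (nat_lit 5) (nat_lit 12) (nat_lit 4) (nat_lit 10) (nat_lit 4) (nat_lit 491) (nat_lit 386) (nat_lit 323))) (XT.nd (nat_lit 78) (nat_lit 0) (nat_lit 0) (XT.lf (nat_lit 0) (nat_lit 24268537433) (nat_lit 152) (nat_lit 31249619635) (nat_lit 0) (nat_lit 16452713265) (nat_lit 10) (nat_lit 5) (nat_lit 12) (nat_lit 4) (nat_lit 10) (nat_lit 4) (nat_lit 492) (nat_lit 386) (nat_lit 322)) (XT.lf (nat_lit 0) (nat_lit 34517756383) (nat_lit 152) (nat_lit 13894418046) (nat_lit 0) (nat_lit 26684784655) (nat_lit 10) (nat_lit 5) (nat_lit 12) (nat_lit 4) (nat_lit 10) (nat_lit 4) (nat_lit 493) (nat_lit 386) (nat_lit 321))))))) (XT.nd (nat_lit 1092) (nat_lit 228) (nat_lit 0) (XT.nd (nat_lit 546) (nat_lit 76) (nat_lit 0) (XT.nd (nat_lit 234) (nat_lit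 152) (nat_lit 0) (XT.nd (nat_lit 78) (nat_lit 0) (nat_lit 0) (XT.lf (nat_lit 0) (nat_lit 4397976348) (nat_lit 76) (nat_lit 40914513419) (nat_lit 76) (nat_lit 33065210680) (nat_lit 9) (nat_lit 4) (nat_lit 10) (nat_lit 5) (nat_lit 10) (nat_lit 4) (nat_lit 494) (nat_lit 386) (nat_lit 320)) (XT.nd (nat_lit 78) (nat_lit 0) (nat_lit 0) (XT.lf (nat_lit 0) (nat_lit 24017193784) (nat_lit 76) (nat_lit 32830063555) (nat_lit 76) (nat_lit 24965207473) (nat_lit 9) (nat_lit 4) (nat_lit 10) (nat_lit 5) (nat_lit 10) (nat_lit 4) (nat_lit 495) (nat_lit 386) (nat_lit 319)) (XT.lf (nat_lit 0) (nat_lit 44550534474) (nat_lit 76) (nat_lit 24374884841) (nat_lit 76) (nat_lit 16495216051) (nat_lit 9) (nat_lit 4) (nat_lit 10) (nat_lit 5) (nat_lit 10) (nat_lit 4) (nat_lit 496) (nat_lit 386) (nat_lit 318)))) (XT.nd (nat_lit 156) (nat_lit 76) (nat_lit 0) (XT.nd (nat_lit 78) (nat_lit 76) (nat_lit 0) (XT.lf (nat_lit 0) (nat_lit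 66046887324) (nat_lit 76) (nat_lit 15528845898) (nat_lit 76) (nat_lit 7635069767) (nat_lit 9) (nat_lit 4) (nat_lit 10) (nat_lit 5) (nat_lit 10) (nat_lit 4) (nat_lit 497) (nat_lit 386) (nat_lit 317)) (XT.lf (nat_lit 0) (nat_lit 1583954282) (nat_lit 152) (nat_lit 4660105415) (nat_lit 76) (nat_lit 86946654812) (nat_lit 8) (nat_lit 5) (nat_lit 10) (nat_lit 5) (nat_lit 9) (nat_lit 4) (nat_lit 498) (nat_lit 386) (nat_lit 316))) (XT.nd (nat_lit 78) (nat_lit 0) (nat_lit 0) (XT.lf (nat_lit 0) (nat_lit 11273478031) (nat_lit 152) (nat_lit 82345965330) (nat_lit 0) (nat_lit 3730613777) (nat_lit 7) (nat_lit 5) (nat_lit 9) (nat_lit 4) (nat_lit 7) (nat_lit 4) (nat_lit 499) (nat_lit 386) (nat_lit 315)) (XT.lf (nat_lit 0) (nat_lit 21600817894) (nat_lit 152) (nat_lit 66062535117) (nat_lit 0) (nat_lit 14046347495) (nat_lit 7) (nat_lit 5) (nat_lit 9) (nat_lit 4) (nat_lit 7) (nat_lit 4) (nat_lit 500) (nat_lit 386)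 (nat_lit 314))))) (XT.nd (nat_lit 234) (nat_lit 76) (nat_lit 0) (XT.nd (nat_lit 78) (nat_lit 0) (nat_lit 0) (XT.lf (nat_lit 0) (nat_lit 32416680333) (nat_lit 152) (nat_lit 49020882044) (nat_lit 0) (nat_lit 24851156463) (nat_lit 7) (nat_lit 5) (nat_lit 9) (nat_lit 4) (nat_lit 7) (nat_lit 4) (nat_lit 501) (nat_lit 386) (nat_lit 313)) (XT.nd (nat_lit 78) (nat_lit 0) (nat_lit 0) (XT.lf (nat_lit 0) (nat_lit 43746817401) (nat_lit 152) (nat_lit 31180430744) (nat_lit 0) (nat_lit 36170766417) (nat_lit 7) (nat_lit 5) (nat_lit 9) (nat_lit 4) (nat_lit 7) (nat_lit 4) (nat_lit 502) (nat_lit 386) (nat_lit 312)) (XT.lf (nat_lit 0) (nat_lit 55618205616) (nat_lit 152) (nat_lit 12498703955) (nat_lit 0) (nat_lit 48032128808) (nat_lit 7) (nat_lit 5) (nat_lit 9) (nat_lit 4) (nat_lit 7) (nat_lit 4) (nat_lit 503) (nat_lit 386) (nat_lit 311)))) (XT.nd (nat_lit 156) (nat_lit 0) (nat_lit 0) (XT.nd (nat_lit 78) (nat_lit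 0) (nat_lit 0) (XT.lf (nat_lit 0) (nat_lit 7302504372) (nat_lit 76) (nat_lit 60870618373) (nat_lit 76) (nat_lit 53274993161) (nat_lit 6) (nat_lit 4) (nat_lit 7) (nat_lit 5) (nat_lit 7) (nat_lit 4) (nat_lit 504) (nat_lit 386) (nat_lit 310)) (XT.lf (nat_lit 0) (nat_lit 28480148872) (nat_lit 76) (nat_lit 53063658383) (nat_lit 76) (nat_lit 45458939453) (nat_lit 6) (nat_lit 4) (nat_lit 7) (nat_lit 5) (nat_lit 7) (nat_lit 4) (nat_lit 505) (nat_lit 386) (nat_lit 309))) (XT.nd (nat_lit 78) (nat_lit 0) (nat_lit 0) (XT.lf (nat_lit 0) (nat_lit 50671388909) (nat_lit 76) (nat_lit 44889113199) (nat_lit 76) (nat_lit 37275733586) (nat_lit 6) (nat_lit 4) (nat_lit 7) (nat_lit 5) (nat_lit 7) (nat_lit 4) (nat_lit 506) (nat_lit 386) (nat_lit 308)) (XT.lf (nat_lit 0) (nat_lit 73929060769) (nat_lit 76) (nat_lit 36327519619) (nat_lit 76) (nat_lit 28705891736) (nat_lit 6) (nat_lit 4) (nat_lit 7) (nat_lit 5) (nat_lit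 7) (nat_lit 4) (nat_lit 507) (nat_lit 386) (nat_lit 307)))))) (XT.nd (nat_lit 546) (nat_lit 76) (nat_lit 0) (XT.nd (nat_lit 234) (nat_lit 152) (nat_lit 0) (XT.nd (nat_lit 78) (nat_lit 0) (nat_lit 0) (XT.lf (nat_lit 0) (nat_lit 98308539862) (nat_lit 76) (nat_lit 27358492896) (nat_lit 76) (nat_lit 19729009518) (nat_lit 6) (nat_lit 4) (nat_lit 7) (nat_lit 5) (nat_lit 7) (nat_lit 4) (nat_lit 508) (nat_lit 386) (nat_lit 306)) (XT.nd (nat_lit 78) (nat_lit 0) (nat_lit 0) (XT.lf (nat_lit 0) (nat_lit 123867872566) (nat_lit 76) (nat_lit 17960678205) (nat_lit 76) (nat_lit 10323713403) (nat_lit 6) (nat_lit 4) (nat_lit 7) (nat_lit 5) (nat_lit 7) (nat_lit 4) (nat_lit 509) (nat_lit 386) (nat_lit 305)) (XT.lf (nat_lit 0) (nat_lit 150667914435) (nat_lit 76) (nat_lit 8111699796) (nat_lit 76) (nat_lit 467609828) (nat_lit 6) (nat_lit 4) (nat_lit 7) (nat_lit 5) (nat_lit 7) (nat_lit 4) (nat_lit 510) (nat_lit 386)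 (nat_lit 304)))) (XT.nd (nat_lit 156) (nat_lit 0) (nat_lit 0) (XT.nd (nat_lit 78) (nat_lit 0) (nat_lit 0) (XT.lf (nat_lit 0) (nat_lit 9779577034) (nat_lit 152) (nat_lit 154405885819) (nat_lit 0) (nat_lit 2493028615) (nat_lit 4) (nat_lit 5) (nat_lit 6) (nat_lit 4) (nat_lit 4) (nat_lit 4) (nat_lit 511) (nat_lit 386) (nat_lit 303)) (XT.lf (nat_lit 0) (nat_lit 20786147307) (nat_lit 152) (nat_lit 140188211130) (nat_lit 0) (nat_lit 13493443901) (nat_lit 4) (nat_lit 5) (nat_lit 6) (nat_lit 4) (nat_lit 4) (nat_lit 4) (nat_lit 512) (nat_lit 386) (nat_lit 302))) (XT.nd (nat_lit 78) (nat_lit 0) (nat_lit 0) (XT.lf (nat_lit 0) (nat_lit 32325982757) (nat_lit 152) (nat_lit 125294032007) (nat_lit 0) (nat_lit 25027417461) (nat_lit 4) (nat_lit 5) (nat_lit 6) (nat_lit 4) (nat_lit 4) (nat_lit 4) (nat_lit 513) (nat_lit 386) (nat_lit 301)) (XT.lf (nat_lit 0) (nat_lit 44426559184) (nat_lit 152) (nat_lit 109687886118)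 (nat_lit 0) (nat_lit 37122411134) (nat_lit 4) (nat_lit 5) (nat_lit 6) (nat_lit 4) (nat_lit 4) (nat_lit 4) (nat_lit 514) (nat_lit 386) (nat_lit 300))))) (XT.nd (nat_lit 312) (nat_lit 76) (nat_lit 0) (XT.nd (nat_lit 156) (nat_lit 0) (nat_lit 0) (XT.nd (nat_lit 78) (nat_lit 0) (nat_lit 0) (XT.lf (nat_lit 0) (nat_lit 57116687484) (nat_lit 152) (nat_lit 93332615973) (nat_lit 0) (nat_lit 49807222525) (nat_lit 4) (nat_lit 5) (nat_lit 6) (nat_lit 4) (nat_lit 4) (nat_lit 4) (nat_lit 515) (nat_lit 386) (nat_lit 299)) (XT.lf (nat_lit 0) (nat_lit 70426582248) (nat_lit 152) (nat_lit 76189280452) (nat_lit 0) (nat_lit 63112053567) (nat_lit 4) (nat_lit 5) (nat_lit 6) (nat_lit 4) (nat_lit 4) (nat_lit 4) (nat_lit 516) (nat_lit 386) (nat_lit 298))) (XT.nd (nat_lit 78) (nat_lit 0) (nat_lit 0) (XT.lf (nat_lit 0) (nat_lit 84387933701) (nat_lit 152) (nat_lit 58217062090) (nat_lit 0) (nat_lit 77068582427) (nat_lit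 4) (nat_lit 5) (nat_lit 6) (nat_lit 4) (nat_lit 4) (nat_lit 4) (nat_lit 517) (nat_lit 386) (nat_lit 297)) (XT.lf (nat_lit 0) (nat_lit 99033983157) (nat_lit 152) (nat_lit 39373169891) (nat_lit 0) (nat_lit 91710038938) (nat_lit 4) (nat_lit 5) (nat_lit 6) (nat_lit 4) (nat_lit 4) (nat_lit 4) (nat_lit 518) (nat_lit 386) (nat_lit 296)))) (XT.nd (nat_lit 156) (nat_lit 0) (nat_lit 0) (XT.nd (nat_lit 78) (nat_lit 76) (nat_lit 0) (XT.lf (nat_lit 0) (nat_lit 114399602161) (nat_lit 152) (nat_lit 19612737444) (nat_lit 0) (nat_lit 107071283708) (nat_lit 4) (nat_lit 5) (nat_lit 6) (nat_lit 4) (nat_lit 4) (nat_lit 4) (nat_lit 519) (nat_lit 386) (nat_lit 295)) (XT.lf (nat_lit 0) (nat_lit 1148027961) (nat_lit 76) (nat_lit 129391271494) (nat_lit 76) (nat_lit 122058787104) (nat_lit 3) (nat_lit 4) (nat_lit 4) (nat_lit 5) (nat_lit 4) (nat_lit 4) (nat_lit 520) (nat_lit 386) (nat_lit 294))) (XT.nd (nat_lit 78) (nat_lit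 0) (nat_lit 0) (XT.lf (nat_lit 0) (nat_lit 23603702945) (nat_lit 76) (nat_lit 124202505420) (nat_lit 76) (nat_lit 116866053471) (nat_lit 3) (nat_lit 4) (nat_lit 4) (nat_lit 5) (nat_lit 4) (nat_lit 4) (nat_lit 521) (nat_lit 386) (nat_lit 293)) (XT.lf (nat_lit 0) (nat_lit 47159267725) (nat_lit 76) (nat_lit 118765838377) (nat_lit 76) (nat_lit 111425607801) (nat_lit 3) (nat_lit 4) (nat_lit 4) (nat_lit 5) (nat_lit 4) (nat_lit 4) (nat_lit 522) (nat_lit 386) (nat_lit 292))))))))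
noncomputable def xc63 : XT := (XT.nd (nat_lit 55302) (nat_lit 0) (nat_lit 2280) (XT.nd (nat_lit 1092) (nat_lit 152) (nat_lit 0) (XT.nd (nat_lit 546) (nat_lit 0) (nat_lit 0) (XT.nd (nat_lit 234) (nat_lit 0) (nat_lit 0) (XT.nd (nat_lit 78) (nat_lit 0) (nat_lit 0) (XT.lf (nat_lit 0) (nat_lit 71870806980) (nat_lit 76) (nat_lit 113068325921) (nat_lit 76) (nat_lit 105724496652) (nat_lit 3) (nat_lit 4) (nat_lit 4) (nat_lit 5) (nat_lit 4) (nat_lit 4) (nat_lit 523) (nat_lit 386) (nat_lit 291)) (XT.nd (nat_lit 78) (nat_lit 0) (nat_lit 0) (XT.lf (nat_lit 0) (nat_lit 97797157708) (nat_lit 76) (nat_lit 107096402545) (nat_lit 76) (nat_lit 99749145949) (nat_lit 3) (nat_lit 4) (nat_lit 4) (nat_lit 5) (nat_lit 4) (nat_lit 4) (nat_lit 524) (nat_lit 386) (nat_lit 290)) (XT.lf (nat_lit 0) (nat_lit 125000049315) (nat_lit 76) (nat_lit 100835849385) (nat_lit 76) (nat_lit 93485328668) (nat_lit 3) (nat_lit 4) (nat_lit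 4) (nat_lit 5) (nat_lit 4) (nat_lit 4) (nat_lit 525) (nat_lit 386) (nat_lit 289)))) (XT.nd (nat_lit 156) (nat_lit 0) (nat_lit 0) (XT.nd (nat_lit 78) (nat_lit 0) (nat_lit 0) (XT.lf (nat_lit 0) (nat_lit 153544250591) (nat_lit 76) (nat_lit 94271760360) (nat_lit 76) (nat_lit 86918130958) (nat_lit 3) (nat_lit 4) (nat_lit 4) (nat_lit 5) (nat_lit 4) (nat_lit 4) (nat_lit 526) (nat_lit 386) (nat_lit 288)) (XT.lf (nat_lit 0) (nat_lit 183497723920) (nat_lit 76) (nat_lit 87388506689) (nat_lit 76) (nat_lit 80031916633) (nat_lit 3) (nat_lit 4) (nat_lit 4) (nat_lit 5) (nat_lit 4) (nat_lit 4) (nat_lit 527) (nat_lit 386) (nat_lit 287))) (XT.nd (nat_lit 78) (nat_lit 0) (nat_lit 0) (XT.lf (nat_lit 0) (nat_lit 214931787095) (nat_lit 76) (nat_lit 80169699672) (nat_lit 76) (nat_lit 72810289946) (nat_lit 3) (nat_lit 4) (nat_lit 4) (nat_lit 5) (nat_lit 4) (nat_lit 4) (nat_lit 528) (nat_lit 386) (nat_lit 286)) (XT.lf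 (nat_lit 0) (nat_lit 247921283125) (nat_lit 76) (nat_lit 72598151672) (nat_lit 76) (nat_lit 65236056546) (nat_lit 3) (nat_lit 4) (nat_lit 4) (nat_lit 5) (nat_lit 4) (nat_lit 4) (nat_lit 529) (nat_lit 386) (nat_lit 285))))) (XT.nd (nat_lit 234) (nat_lit 0) (nat_lit 0) (XT.nd (nat_lit 78) (nat_lit 0) (nat_lit 0) (XT.lf (nat_lit 0) (nat_lit 282544758427) (nat_lit 76) (nat_lit 64655835196) (nat_lit 76) (nat_lit 57291182546) (nat_lit 3) (nat_lit 4) (nat_lit 4) (nat_lit 5) (nat_lit 4) (nat_lit 4) (nat_lit 530) (nat_lit 386) (nat_lit 284)) (XT.nd (nat_lit 78) (nat_lit 0) (nat_lit 0) (XT.lf (nat_lit 0) (nat_lit 318884649849) (nat_lit 76) (nat_lit 56323839964) (nat_lit 76) (nat_lit 48956751578) (nat_lit 3) (nat_lit 4) (nat_lit 4) (nat_lit 5) (nat_lit 4) (nat_lit 4) (nat_lit 531) (nat_lit 386) (nat_lit 283)) (XT.lf (nat_lit 0) (nat_lit 357027480941) (nat_lit 76) (nat_lit 47582327895) (nat_lit 76) (nat_lit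 40212919758) (nat_lit 3) (nat_lit 4) (nat_lit 4) (nat_lit 5) (nat_lit 4) (nat_lit 4) (nat_lit 532) (nat_lit 386) (nat_lit 282)))) (XT.nd (nat_lit 156) (nat_lit 0) (nat_lit 0) (XT.nd (nat_lit 78) (nat_lit 0) (nat_lit 0) (XT.lf (nat_lit 0) (nat_lit 397064067968) (nat_lit 76) (nat_lit 38410485862) (nat_lit 76) (nat_lit 31038868441) (nat_lit 3) (nat_lit 4) (nat_lit 4) (nat_lit 5) (nat_lit 4) (nat_lit 4) (nat_lit 533) (nat_lit 386) (nat_lit 281)) (XT.lf (nat_lit 0) (nat_lit 439089736136) (nat_lit 76) (nat_lit 28786476149) (nat_lit 76) (nat_lit 21412754646) (nat_lit 3) (nat_lit 4) (nat_lit 4) (nat_lit 5) (nat_lit 4) (nat_lit 4) (nat_lit 534) (nat_lit 386) (nat_lit 280))) (XT.nd (nat_lit 78) (nat_lit 0) (nat_lit 0) (XT.lf (nat_lit 0) (nat_lit 483204546561) (nat_lit 76) (nat_lit 18687384444) (nat_lit 76) (nat_lit 11311659055) (nat_lit 3) (nat_lit 4) (nat_lit 4) (nat_lit 5) (nat_lit 4) (nat_lit 4) (nat_lit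 535) (nat_lit 386) (nat_lit 279)) (XT.lf (nat_lit 0) (nat_lit 529513534506) (nat_lit 76) (nat_lit 8089165293) (nat_lit 76) (nat_lit 711531440) (nat_lit 3) (nat_lit 4) (nat_lit 4) (nat_lit 5) (nat_lit 4) (nat_lit 4) (nat_lit 536) (nat_lit 386) (nat_lit 278)))))) (XT.nd (nat_lit 546) (nat_lit 0) (nat_lit 0) (XT.nd (nat_lit 234) (nat_lit 0) (nat_lit 0) (XT.nd (nat_lit 78) (nat_lit 0) (nat_lit 0) (XT.lf (nat_lit 0) (nat_lit 10347380796) (nat_lit 152) (nat_lit 550992446855) (nat_lit 0) (nat_lit 3319331808) (nat_lit 1) (nat_lit 5) (nat_lit 3) (nat_lit 4) (nat_lit 1) (nat_lit 4) (nat_lit 537) (nat_lit 386) (nat_lit 277)) (XT.nd (nat_lit 78) (nat_lit 0) (nat_lit 0) (XT.lf (nat_lit 0) (nat_lit 22213876500) (nat_lit 152) (nat_lit 554908768045) (nat_lit 0) (nat_lit 15184178909) (nat_lit 1) (nat_lit 5) (nat_lit 3) (nat_lit 4) (nat_lit 1) (nat_lit 4) (nat_lit 538) (nat_lit 386) (nat_lit 276)) (XT.lf (nat_lit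 0) (nat_lit 34668414424) (nat_lit 152) (nat_lit 559031573697) (nat_lit 0) (nat_lit 27637146736) (nat_lit 1) (nat_lit 5) (nat_lit 3) (nat_lit 4) (nat_lit 1) (nat_lit 4) (nat_lit 539) (nat_lit 386) (nat_lit 275)))) (XT.nd (nat_lit 156) (nat_lit 0) (nat_lit 0) (XT.nd (nat_lit 78) (nat_lit 0) (nat_lit 0) (XT.lf (nat_lit 0) (nat_lit 47740648232) (nat_lit 152) (nat_lit 563370680017) (nat_lit 0) (nat_lit 40707885212) (nat_lit 1) (nat_lit 5) (nat_lit 3) (nat_lit 4) (nat_lit 1) (nat_lit 4) (nat_lit 540) (nat_lit 386) (nat_lit 274)) (XT.lf (nat_lit 0) (nat_lit 61461702288) (nat_lit 152) (nat_lit 567936418209) (nat_lit 0) (nat_lit 54427515143) (nat_lit 1) (nat_lit 5) (nat_lit 3) (nat_lit 4) (nat_lit 1) (nat_lit 4) (nat_lit 541) (nat_lit 386) (nat_lit 273))) (XT.nd (nat_lit 78) (nat_lit 0) (nat_lit 0) (XT.lf (nat_lit 0) (nat_lit 75864245769) (nat_lit 152) (nat_lit 572739659079) (nat_lit 0) (nat_lit 68828702314)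 (nat_lit 1) (nat_lit 5) (nat_lit 3) (nat_lit 4) (nat_lit 1) (nat_lit 4) (nat_lit 542) (nat_lit 386) (nat_lit 272)) (XT.lf (nat_lit 0) (nat_lit 90982570445) (nat_lit 152) (nat_lit 577791838915) (nat_lit 0) (nat_lit 83945735267) (nat_lit 1) (nat_lit 5) (nat_lit 3) (nat_lit 4) (nat_lit 1) (nat_lit 4) (nat_lit 543) (nat_lit 386) (nat_lit 271))))) (XT.nd (nat_lit 53352) (nat_lit 0) (nat_lit 5776) (XT.nd (nat_lit 78) (nat_lit 0) (nat_lit 0) (XT.lf (nat_lit 0) (nat_lit 106852672328) (nat_lit 152) (nat_lit 583104986716) (nat_lit 0) (nat_lit 99814606937) (nat_lit 1) (nat_lit 5) (nat_lit 3) (nat_lit 4) (nat_lit 1) (nat_lit 4) (nat_lit 544) (nat_lit 386) (nat_lit 270)) (XT.nd (nat_lit 53196) (nat_lit 0) (nat_lit 6840) (XT.lf (nat_lit 0) (nat_lit 123512337374) (nat_lit 152) (nat_lit 588691752834) (nat_lit 0) (nat_lit 116473100352) (nat_lit 1) (nat_lit 5) (nat_lit 3) (nat_lit 4) (nat_lit 1) (nat_lit 4)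 (nat_lit 545) (nat_lit 386) (nat_lit 269)) (XT.lf (nat_lit 0) (nat_lit 4199714630) (nat_lit 304) (nat_lit 13686974) (nat_lit 304) (nat_lit 13686974) (nat_lit 91) (nat_lit 4) (nat_lit 95) (nat_lit 5) (nat_lit 95) (nat_lit 4) (nat_lit 426) (nat_lit 387) (nat_lit 387)))) (XT.nd (nat_lit 156) (nat_lit 532) (nat_lit 0) (XT.nd (nat_lit 78) (nat_lit 228) (nat_lit 0) (XT.lf (nat_lit 0) (nat_lit 4082572371) (nat_lit 304) (nat_lit 1483393023) (nat_lit 0) (nat_lit 3049564867) (nat_lit 87) (nat_lit 5) (nat_lit 91) (nat_lit 4) (nat_lit 87) (nat_lit 4) (nat_lit 427) (nat_lit 387) (nat_lit 386)) (XT.lf (nat_lit 0) (nat_lit 5846924080) (nat_lit 228) (nat_lit 2479213886) (nat_lit 228) (nat_lit 462389710) (nat_lit 84) (nat_lit 4) (nat_lit 87) (nat_lit 5) (nat_lit 87) (nat_lit 4) (nat_lit 428) (nat_lit 387) (nat_lit 385))) (XT.nd (nat_lit 78) (nat_lit 228) (nat_lit 0) (XT.lf (nat_lit 0) (nat_lit 3636249412) (nat_lit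 304) (nat_lit 4510555596) (nat_lit 0) (nat_lit 823113762) (nat_lit 80) (nat_lit 5) (nat_lit 84) (nat_lit 4) (nat_lit 80) (nat_lit 4) (nat_lit 429) (nat_lit 387) (nat_lit 384)) (XT.lf (nat_lit 0) (nat_lit 2981753313) (nat_lit 228) (nat_lit 4921176191) (nat_lit 228) (nat_lit 1258182710) (nat_lit 77) (nat_lit 4) (nat_lit 80) (nat_lit 5) (nat_lit 80) (nat_lit 4) (nat_lit 430) (nat_lit 387) (nat_lit 383))))))) (XT.nd (nat_lit 1092) (nat_lit 1368) (nat_lit 0) (XT.nd (nat_lit 546) (nat_lit 912) (nat_lit 0) (XT.nd (nat_lit 234) (nat_lit 684) (nat_lit 0) (XT.nd (nat_lit 78) (nat_lit 304) (nat_lit 0) (XT.lf (nat_lit 0) (nat_lit 1403056775) (nat_lit 152) (nat_lit 1463010866) (nat_lit 228) (nat_lit 6496395283) (nat_lit 74) (nat_lit 5) (nat_lit 76) (nat_lit 5) (nat_lit 77) (nat_lit 4) (nat_lit 431) (nat_lit 387) (nat_lit 382)) (XT.nd (nat_lit 78) (nat_lit 304) (nat_lit 0) (XT.lf (nat_lit 0) (nat_lit 7139128124)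 (nat_lit 228) (nat_lit 288938254) (nat_lit 0) (nat_lit 2145577652) (nat_lit 74) (nat_lit 5) (nat_lit 77) (nat_lit 4) (nat_lit 74) (nat_lit 4) (nat_lit 432) (nat_lit 387) (nat_lit 381)) (XT.lf (nat_lit 0) (nat_lit 1768955398) (nat_lit 304) (nat_lit 2066372046) (nat_lit 76) (nat_lit 5958808266) (nat_lit 70) (nat_lit 5) (nat_lit 74) (nat_lit 5) (nat_lit 71) (nat_lit 4) (nat_lit 433) (nat_lit 387) (nat_lit 380)))) (XT.nd (nat_lit 156) (nat_lit 304) (nat_lit 0) (XT.nd (nat_lit 78) (nat_lit 228) (nat_lit 0) (XT.lf (nat_lit 0) (nat_lit 6050802343) (nat_lit 152) (nat_lit 2572682) (nat_lit 228) (nat_lit 3972684915) (nat_lit 68) (nat_lit 5) (nat_lit 70) (nat_lit 5) (nat_lit 71) (nat_lit 4) (nat_lit 434) (nat_lit 387) (nat_lit 379)) (XT.lf (nat_lit 0) (nat_lit 293068903) (nat_lit 228) (nat_lit 6059012041) (nat_lit 76) (nat_lit 3916325220) (nat_lit 65) (nat_lit 5) (nat_lit 68) (nat_lit 5) (nat_lit 66)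 (nat_lit 4) (nat_lit 435) (nat_lit 387) (nat_lit 378))) (XT.nd (nat_lit 78) (nat_lit 152) (nat_lit 0) (XT.lf (nat_lit 0) (nat_lit 2189696065) (nat_lit 152) (nat_lit 2407726661) (nat_lit 228) (nat_lit 5924278148) (nat_lit 63) (nat_lit 5) (nat_lit 65) (nat_lit 5) (nat_lit 66) (nat_lit 4) (nat_lit 436) (nat_lit 387) (nat_lit 377)) (XT.lf (nat_lit 0) (nat_lit 12588357) (nat_lit 152) (nat_lit 9093928843) (nat_lit 152) (nat_lit 1681694119) (nat_lit 61) (nat_lit 4) (nat_lit 63) (nat_lit 5) (nat_lit 63) (nat_lit 4) (nat_lit 437) (nat_lit 387) (nat_lit 376))))) (XT.nd (nat_lit 234) (nat_lit 456) (nat_lit 0) (XT.nd (nat_lit 78) (nat_lit 380) (nat_lit 0) (XT.lf (nat_lit 0) (nat_lit 2725927125) (nat_lit 228) (nat_lit 2320978388) (nat_lit 76) (nat_lit 6016918568) (nat_lit 60) (nat_lit 5) (nat_lit 63) (nat_lit 5) (nat_lit 61) (nat_lit 4) (nat_lit 438) (nat_lit 387) (nat_lit 375)) (XT.nd (nat_lit 78) (nat_lit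 228) (nat_lit 0) (XT.lf (nat_lit 0) (nat_lit 6509963180) (nat_lit 152) (nat_lit 754585510) (nat_lit 228) (nat_lit 4088957043) (nat_lit 58) (nat_lit 5) (nat_lit 60) (nat_lit 5) (nat_lit 61) (nat_lit 4) (nat_lit 439) (nat_lit 387) (nat_lit 374)) (XT.lf (nat_lit 0) (nat_lit 389685710) (nat_lit 228) (nat_lit 7613581807) (nat_lit 76) (nat_lit 3652675691) (nat_lit 55) (nat_lit 5) (nat_lit 58) (nat_lit 5) (nat_lit 56) (nat_lit 4) (nat_lit 440) (nat_lit 387) (nat_lit 373)))) (XT.nd (nat_lit 156) (nat_lit 304) (nat_lit 0) (XT.nd (nat_lit 78) (nat_lit 0) (nat_lit 0) (XT.lf (nat_lit 0) (nat_lit 1302833637) (nat_lit 152) (nat_lit 3635735776) (nat_lit 228) (nat_lit 7032415567) (nat_lit 53) (nat_lit 5) (nat_lit 55) (nat_lit 5) (nat_lit 56) (nat_lit 4) (nat_lit 441) (nat_lit 387) (nat_lit 372)) (XT.lf (nat_lit 0) (nat_lit 9729703855) (nat_lit 228) (nat_lit 1613615166) (nat_lit 0) (nat_lit 957738784) (nat_lit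 53) (nat_lit 5) (nat_lit 56) (nat_lit 4) (nat_lit 53) (nat_lit 4) (nat_lit 442) (nat_lit 387) (nat_lit 371))) (XT.nd (nat_lit 78) (nat_lit 76) (nat_lit 0) (XT.lf (nat_lit 0) (nat_lit 2103639029) (nat_lit 228) (nat_lit 4812638541) (nat_lit 76) (nat_lit 5726799903) (nat_lit 50) (nat_lit 5) (nat_lit 53) (nat_lit 5) (nat_lit 51) (nat_lit 4) (nat_lit 443) (nat_lit 387) (nat_lit 370)) (XT.lf (nat_lit 0) (nat_lit 4689036381) (nat_lit 76) (nat_lit 2213623392) (nat_lit 152) (nat_lit 6098612727) (nat_lit 49) (nat_lit 5) (nat_lit 50) (nat_lit 5) (nat_lit 51) (nat_lit 4) (nat_lit 444) (nat_lit 387) (nat_lit 369)))))) (XT.nd (nat_lit 546) (nat_lit 608) (nat_lit 0) (XT.nd (nat_lit 234) (nat_lit 456) (nat_lit 0) (XT.nd (nat_lit 78) (nat_lit 152) (nat_lit 0) (XT.lf (nat_lit 0) (nat_lit 1233806010) (nat_lit 152) (nat_lit 10729219964) (nat_lit 152) (nat_lit 1413297455) (nat_lit 47) (nat_lit 4) (nat_lit 49) (nat_lit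 5) (nat_lit 49) (nat_lit 4) (nat_lit 445) (nat_lit 387) (nat_lit 368)) (XT.nd (nat_lit 78) (nat_lit 76) (nat_lit 0) (XT.lf (nat_lit 0) (nat_lit 3450661208) (nat_lit 228) (nat_lit 2532590819) (nat_lit 76) (nat_lit 7781322097) (nat_lit 46) (nat_lit 5) (nat_lit 49) (nat_lit 5) (nat_lit 47) (nat_lit 4) (nat_lit 446) (nat_lit 387) (nat_lit 367)) (XT.lf (nat_lit 0) (nat_lit 7565476988) (nat_lit 76) (nat_lit 946041357) (nat_lit 152) (nat_lit 5659514451) (nat_lit 45) (nat_lit 5) (nat_lit 46) (nat_lit 5) (nat_lit 47) (nat_lit 4) (nat_lit 447) (nat_lit 387) (nat_lit 366)))) (XT.nd (nat_lit 156) (nat_lit 228) (nat_lit 0) (XT.nd (nat_lit 78) (nat_lit 76) (nat_lit 0) (XT.lf (nat_lit 0) (nat_lit 3491745447) (nat_lit 152) (nat_lit 10383532266) (nat_lit 152) (nat_lit 720056777) (nat_lit 43) (nat_lit 4) (nat_lit 45) (nat_lit 5) (nat_lit 45) (nat_lit 4) (nat_lit 448) (nat_lit 387) (nat_lit 365)) (XT.lf (nat_lit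 0) (nat_lit 4336965168) (nat_lit 228) (nat_lit 1011711533) (nat_lit 76) (nat_lit 9688022618) (nat_lit 42) (nat_lit 5) (nat_lit 45) (nat_lit 5) (nat_lit 43) (nat_lit 4) (nat_lit 449) (nat_lit 387) (nat_lit 364))) (XT.nd (nat_lit 78) (nat_lit 152) (nat_lit 0) (XT.lf (nat_lit 0) (nat_lit 9663876536) (nat_lit 152) (nat_lit 5817474845) (nat_lit 0) (nat_lit 16140231) (nat_lit 41) (nat_lit 5) (nat_lit 43) (nat_lit 4) (nat_lit 41) (nat_lit 4) (nat_lit 450) (nat_lit 387) (nat_lit 363)) (XT.lf (nat_lit 0) (nat_lit 4824212583) (nat_lit 152) (nat_lit 10503889689) (nat_lit 152) (nat_lit 649683550) (nat_lit 39) (nat_lit 4) (nat_lit 41) (nat_lit 5) (nat_lit 41) (nat_lit 4) (nat_lit 451) (nat_lit 387) (nat_lit 362))))) (XT.nd (nat_lit 312) (nat_lit 304) (nat_lit 0) (XT.nd (nat_lit 156) (nat_lit 152) (nat_lit 0) (XT.nd (nat_lit 78) (nat_lit 76) (nat_lit 0) (XT.lf (nat_lit 0) (nat_lit 4631032988) (nat_lit 228)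 (nat_lit 557226448) (nat_lit 76) (nat_lit 11290552665) (nat_lit 38) (nat_lit 5) (nat_lit 41) (nat_lit 5) (nat_lit 39) (nat_lit 4) (nat_lit 452) (nat_lit 387) (nat_lit 361)) (XT.lf (nat_lit 0) (nat_lit 10224837324) (nat_lit 152) (nat_lit 6301736377) (nat_lit 0) (nat_lit 474248467) (nat_lit 37) (nat_lit 5) (nat_lit 39) (nat_lit 4) (nat_lit 37) (nat_lit 4) (nat_lit 453) (nat_lit 387) (nat_lit 360))) (XT.nd (nat_lit 78) (nat_lit 76) (nat_lit 0) (XT.lf (nat_lit 0) (nat_lit 4865147049) (nat_lit 76) (nat_lit 11300441887) (nat_lit 76) (nat_lit 1379989786) (nat_lit 36) (nat_lit 4) (nat_lit 37) (nat_lit 5) (nat_lit 37) (nat_lit 4) (nat_lit 454) (nat_lit 387) (nat_lit 359)) (XT.lf (nat_lit 0) (nat_lit 4154021999) (nat_lit 152) (nat_lit 1566481518) (nat_lit 76) (nat_lit 12393462457) (nat_lit 35) (nat_lit 5) (nat_lit 37) (nat_lit 5) (nat_lit 36) (nat_lit 4) (nat_lit 455) (nat_lit 387) (nat_lit 358)))) (XT.nd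 (nat_lit 156) (nat_lit 152) (nat_lit 0) (XT.nd (nat_lit 78) (nat_lit 76) (nat_lit 0) (XT.lf (nat_lit 0) (nat_lit 9983567094) (nat_lit 152) (nat_lit 8488109269) (nat_lit 0) (nat_lit 234712250) (nat_lit 34) (nat_lit 5) (nat_lit 36) (nat_lit 4) (nat_lit 34) (nat_lit 4) (nat_lit 456) (nat_lit 387) (nat_lit 357)) (XT.lf (nat_lit 0) (nat_lit 3139885640) (nat_lit 76) (nat_lit 13036776077) (nat_lit 76) (nat_lit 3148174323) (nat_lit 33) (nat_lit 4) (nat_lit 34) (nat_lit 5) (nat_lit 34) (nat_lit 4) (nat_lit 457) (nat_lit 387) (nat_lit 356))) (XT.nd (nat_lit 78) (nat_lit 76) (nat_lit 0) (XT.lf (nat_lit 0) (nat_lit 2667252478) (nat_lit 152) (nat_lit 4553826467) (nat_lit 76) (nat_lit 12748590163) (nat_lit 32) (nat_lit 5) (nat_lit 34) (nat_lit 5) (nat_lit 33) (nat_lit 4) (nat_lit 458) (nat_lit 387) (nat_lit 355)) (XT.lf (nat_lit 0) (nat_lit 7675593042) (nat_lit 76) (nat_lit 1019061425) (nat_lit 152) (nat_lit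 11948165015) (nat_lit 31) (nat_lit 5) (nat_lit 32) (nat_lit 5) (nat_lit 33) (nat_lit 4) (nat_lit 459) (nat_lit 387) (nat_lit 354))))))))
noncomputable def xc64 : XT := (XT.nd (nat_lit 2184) (nat_lit 684) (nat_lit 0) (XT.nd (nat_lit 1092) (nat_lit 608) (nat_lit 0) (XT.nd (nat_lit 546) (nat_lit 304) (nat_lit 0) (XT.nd (nat_lit 234) (nat_lit 228) (nat_lit 0) (XT.nd (nat_lit 78) (nat_lit 228) (nat_lit 0) (XT.lf (nat_lit 0) (nat_lit 15095135769) (nat_lit 152) (nat_lit 935935645) (nat_lit 0) (nat_lit 5314976482) (nat_lit 31) (nat_lit 5) (nat_lit 33) (nat_lit 4) (nat_lit 31) (nat_lit 4) (nat_lit 460) (nat_lit 387) (nat_lit 353)) (XT.nd (nat_lit 78) (nat_lit 152) (nat_lit 0) (XT.lf (nat_lit 0) (nat_lit 11891560701) (nat_lit 76) (nat_lit 10038410437) (nat_lit 76) (nat_lit 148755789) (nat_lit 30) (nat_lit 4) (nat_lit 31) (nat_lit 5) (nat_lit 31) (nat_lit 4) (nat_lit 461) (nat_lit 387) (nat_lit 352))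 (XT.lf (nat_lit 0) (nat_lit 2353597418) (nat_lit 76) (nat_lit 3669589587) (nat_lit 152) (nat_lit 16821722930) (nat_lit 28) (nat_lit 5) (nat_lit 29) (nat_lit 5) (nat_lit 30) (nat_lit 4) (nat_lit 462) (nat_lit 387) (nat_lit 351)))) (XT.nd (nat_lit 156) (nat_lit 152) (nat_lit 0) (XT.nd (nat_lit 78) (nat_lit 76) (nat_lit 0) (XT.lf (nat_lit 0) (nat_lit 12633654147) (nat_lit 152) (nat_lit 7987850913) (nat_lit 0) (nat_lit 3021033705) (nat_lit 28) (nat_lit 5) (nat_lit 30) (nat_lit 4) (nat_lit 28) (nat_lit 4) (nat_lit 463) (nat_lit 387) (nat_lit 350)) (XT.lf (nat_lit 0) (nat_lit 5081584734) (nat_lit 76) (nat_lit 14549182699) (nat_lit 76) (nat_lit 4846480152) (nat_lit 27) (nat_lit 4) (nat_lit 28) (nat_lit 5) (nat_lit 28) (nat_lit 4) (nat_lit 464) (nat_lit 387) (nat_lit 349))) (XT.nd (nat_lit 78) (nat_lit 76) (nat_lit 0) (XT.lf (nat_lit 0) (nat_lit 1626328332) (nat_lit 152) (nat_lit 6454521944) (nat_lit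 76) (nat_lit 17268864856) (nat_lit 26) (nat_lit 5) (nat_lit 28) (nat_lit 5) (nat_lit 27) (nat_lit 4) (nat_lit 465) (nat_lit 387) (nat_lit 348)) (XT.lf (nat_lit 0) (nat_lit 7128247514) (nat_lit 76) (nat_lit 1163679151) (nat_lit 152) (nat_lit 17968309771) (nat_lit 25) (nat_lit 5) (nat_lit 26) (nat_lit 5) (nat_lit 27) (nat_lit 4) (nat_lit 466) (nat_lit 387) (nat_lit 347))))) (XT.nd (nat_lit 234) (nat_lit 152) (nat_lit 0) (XT.nd (nat_lit 78) (nat_lit 152) (nat_lit 0) (XT.lf (nat_lit 0) (nat_lit 15418121603) (nat_lit 152) (nat_lit 5847981917) (nat_lit 0) (nat_lit 5943818307) (nat_lit 25) (nat_lit 5) (nat_lit 27) (nat_lit 4) (nat_lit 25) (nat_lit 4) (nat_lit 467) (nat_lit 387) (nat_lit 346)) (XT.nd (nat_lit 78) (nat_lit 76) (nat_lit 0) (XT.lf (nat_lit 0) (nat_lit 8196452515) (nat_lit 76) (nat_lit 14775968934) (nat_lit 76) (nat_lit 5231083953) (nat_lit 24) (nat_lit 4) (nat_lit 25) (nat_lit 5) (nat_lit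 25) (nat_lit 4) (nat_lit 468) (nat_lit 387) (nat_lit 345)) (XT.lf (nat_lit 0) (nat_lit 1630132755) (nat_lit 152) (nat_lit 6270333486) (nat_lit 76) (nat_lit 21343735185) (nat_lit 23) (nat_lit 5) (nat_lit 25) (nat_lit 5) (nat_lit 24) (nat_lit 4) (nat_lit 469) (nat_lit 387) (nat_lit 344)))) (XT.nd (nat_lit 156) (nat_lit 76) (nat_lit 0) (XT.nd (nat_lit 78) (nat_lit 0) (nat_lit 0) (XT.lf (nat_lit 0) (nat_lit 8189436452) (nat_lit 76) (nat_lit 525471721) (nat_lit 152) (nat_lit 21614924646) (nat_lit 22) (nat_lit 5) (nat_lit 23) (nat_lit 5) (nat_lit 24) (nat_lit 4) (nat_lit 470) (nat_lit 387) (nat_lit 343)) (XT.lf (nat_lit 0) (nat_lit 16303188364) (nat_lit 152) (nat_lit 8129333935) (nat_lit 0) (nat_lit 7029763204) (nat_lit 22) (nat_lit 5) (nat_lit 24) (nat_lit 4) (nat_lit 22) (nat_lit 4) (nat_lit 471) (nat_lit 387) (nat_lit 342))) (XT.nd (nat_lit 78) (nat_lit 0) (nat_lit 0) (XT.lf (nat_lit 0) (nat_lit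 6652939989) (nat_lit 76) (nat_lit 17662462731) (nat_lit 76) (nat_lit 8333734972) (nat_lit 21) (nat_lit 4) (nat_lit 22) (nat_lit 5) (nat_lit 22) (nat_lit 4) (nat_lit 472) (nat_lit 387) (nat_lit 341)) (XT.lf (nat_lit 0) (nat_lit 22325052617) (nat_lit 76) (nat_lit 10474067450) (nat_lit 76) (nat_lit 1092670551) (nat_lit 21) (nat_lit 4) (nat_lit 22) (nat_lit 5) (nat_lit 22) (nat_lit 4) (nat_lit 473) (nat_lit 387) (nat_lit 340)))))) (XT.nd (nat_lit 546) (nat_lit 228) (nat_lit 0) (XT.nd (nat_lit 234) (nat_lit 228) (nat_lit 0) (XT.nd (nat_lit 78) (nat_lit 0) (nat_lit 0) (XT.lf (nat_lit 0) (nat_lit 3466100343) (nat_lit 76) (nat_lit 2825440304) (nat_lit 152) (nat_lit 28900482284) (nat_lit 19) (nat_lit 5) (nat_lit 20) (nat_lit 5) (nat_lit 21) (nat_lit 4) (nat_lit 474) (nat_lit 387) (nat_lit 339)) (XT.nd (nat_lit 78) (nat_lit 0) (nat_lit 0) (XT.lf (nat_lit 0) (nat_lit 14224125094) (nat_lit 152) (nat_lit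 17125262990) (nat_lit 0) (nat_lit 5196191334) (nat_lit 19) (nat_lit 5) (nat_lit 21) (nat_lit 4) (nat_lit 19) (nat_lit 4) (nat_lit 475) (nat_lit 387) (nat_lit 338)) (XT.lf (nat_lit 0) (nat_lit 22538238129) (nat_lit 152) (nat_lit 1962359550) (nat_lit 0) (nat_lit 13466973336) (nat_lit 19) (nat_lit 5) (nat_lit 21) (nat_lit 4) (nat_lit 19) (nat_lit 4) (nat_lit 476) (nat_lit 387) (nat_lit 337)))) (XT.nd (nat_lit 156) (nat_lit 152) (nat_lit 0) (XT.nd (nat_lit 78) (nat_lit 0) (nat_lit 0) (XT.lf (nat_lit 0) (nat_lit 14300715116) (nat_lit 76) (nat_lit 17132121342) (nat_lit 76) (nat_lit 8019588899) (nat_lit 18) (nat_lit 4) (nat_lit 19) (nat_lit 5) (nat_lit 19) (nat_lit 4) (nat_lit 477) (nat_lit 387) (nat_lit 336)) (XT.lf (nat_lit 0) (nat_lit 31331251976) (nat_lit 76) (nat_lit 9416660043) (nat_lit 76) (nat_lit 264825077) (nat_lit 18) (nat_lit 4) (nat_lit 19) (nat_lit 5) (nat_lit 19) (nat_lit 4) (nat_lit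 478) (nat_lit 387) (nat_lit 335))) (XT.nd (nat_lit 78) (nat_lit 0) (nat_lit 0) (XT.lf (nat_lit 0) (nat_lit 6538282456) (nat_lit 76) (nat_lit 1133692371) (nat_lit 152) (nat_lit 34970620179) (nat_lit 16) (nat_lit 5) (nat_lit 17) (nat_lit 5) (nat_lit 18) (nat_lit 4) (nat_lit 479) (nat_lit 387) (nat_lit 334)) (XT.lf (nat_lit 0) (nat_lit 16225918413) (nat_lit 152) (nat_lit 20676066355) (nat_lit 0) (nat_lit 7440285566) (nat_lit 16) (nat_lit 5) (nat_lit 18) (nat_lit 4) (nat_lit 16) (nat_lit 4) (nat_lit 480) (nat_lit 387) (nat_lit 333))))) (XT.nd (nat_lit 234) (nat_lit 152) (nat_lit 0) (XT.nd (nat_lit 78) (nat_lit 76) (nat_lit 0) (XT.lf (nat_lit 0) (nat_lit 25173257429) (nat_lit 152) (nat_lit 4600098469) (nat_lit 0) (nat_lit 16355290299) (nat_lit 16) (nat_lit 5) (nat_lit 18) (nat_lit 4) (nat_lit 16) (nat_lit 4) (nat_lit 481) (nat_lit 387) (nat_lit 332)) (XT.nd (nat_lit 78) (nat_lit 0) (nat_lit 0) (XT.lf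 (nat_lit 0) (nat_lit 12582278838) (nat_lit 76) (nat_lit 22131760747) (nat_lit 76) (nat_lit 13282999061) (nat_lit 15) (nat_lit 4) (nat_lit 16) (nat_lit 5) (nat_lit 16) (nat_lit 4) (nat_lit 482) (nat_lit 387) (nat_lit 331)) (XT.lf (nat_lit 0) (nat_lit 30684994091) (nat_lit 76) (nat_lit 14075264061) (nat_lit 76) (nat_lit 5197174226) (nat_lit 15) (nat_lit 4) (nat_lit 16) (nat_lit 5) (nat_lit 16) (nat_lit 4) (nat_lit 483) (nat_lit 387) (nat_lit 330)))) (XT.nd (nat_lit 156) (nat_lit 0) (nat_lit 0) (XT.nd (nat_lit 78) (nat_lit 76) (nat_lit 0) (XT.lf (nat_lit 0) (nat_lit 3139622701) (nat_lit 152) (nat_lit 2469794867) (nat_lit 76) (nat_lit 46406255233) (nat_lit 14) (nat_lit 5) (nat_lit 16) (nat_lit 5) (nat_lit 15) (nat_lit 4) (nat_lit 484) (nat_lit 387) (nat_lit 329)) (XT.lf (nat_lit 0) (nat_lit 11970706195) (nat_lit 152) (nat_lit 38725808805) (nat_lit 0) (nat_lit 3463446291) (nat_lit 13) (nat_lit 5)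 (nat_lit 15) (nat_lit 4) (nat_lit 13) (nat_lit 4) (nat_lit 485) (nat_lit 387) (nat_lit 328))) (XT.nd (nat_lit 78) (nat_lit 0) (nat_lit 0) (XT.lf (nat_lit 0) (nat_lit 21332255177) (nat_lit 152) (nat_lit 22273897786) (nat_lit 0) (nat_lit 12800866933) (nat_lit 13) (nat_lit 5) (nat_lit 15) (nat_lit 4) (nat_lit 13) (nat_lit 4) (nat_lit 486) (nat_lit 387) (nat_lit 327)) (XT.lf (nat_lit 0) (nat_lit 31118491881) (nat_lit 152) (nat_lit 5085985967) (nat_lit 0) (nat_lit 22564124265) (nat_lit 13) (nat_lit 5) (nat_lit 15) (nat_lit 4) (nat_lit 13) (nat_lit 4) (nat_lit 487) (nat_lit 387) (nat_lit 326))))))) (XT.nd (nat_lit 1092) (nat_lit 228) (nat_lit 0) (XT.nd (nat_lit 546) (nat_lit 228) (nat_lit 0) (XT.nd (nat_lit 234) (nat_lit 152) (nat_lit 0) (XT.nd (nat_lit 78) (nat_lit 0) (nat_lit 0) (XT.lf (nat_lit 0) (nat_lit 13304683201) (nat_lit 76) (nat_lit 28255757059) (nat_lit 76) (nat_lit 19679504327) (nat_lit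 12) (nat_lit 4) (nat_lit 13) (nat_lit 5) (nat_lit 13) (nat_lit 4) (nat_lit 488) (nat_lit 387) (nat_lit 325)) (XT.nd (nat_lit 78) (nat_lit 0) (nat_lit 0) (XT.lf (nat_lit 0) (nat_lit 32710318765) (nat_lit 76) (nat_lit 19859678326) (nat_lit 76) (nat_lit 11262582627) (nat_lit 12) (nat_lit 4) (nat_lit 13) (nat_lit 5) (nat_lit 13) (nat_lit 4) (nat_lit 489) (nat_lit 387) (nat_lit 324)) (XT.lf (nat_lit 0) (nat_lit 53008958952) (nat_lit 76) (nat_lit 11082384620) (nat_lit 76) (nat_lit 2465438475) (nat_lit 12) (nat_lit 4) (nat_lit 13) (nat_lit 5) (nat_lit 13) (nat_lit 4) (nat_lit 490) (nat_lit 387) (nat_lit 323)))) (XT.nd (nat_lit 156) (nat_lit 0) (nat_lit 0) (XT.nd (nat_lit 78) (nat_lit 0) (nat_lit 0) (XT.lf (nat_lit 0) (nat_lit 4880999525) (nat_lit 76) (nat_lit 1712586257) (nat_lit 152) (nat_lit 62816385734) (nat_lit 10) (nat_lit 5) (nat_lit 11) (nat_lit 5) (nat_lit 12) (nat_lit 4) (nat_lit 491) (nat_lit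 387) (nat_lit 322)) (XT.lf (nat_lit 0) (nat_lit 16345379759) (nat_lit 152) (nat_lit 47938675189) (nat_lit 0) (nat_lit 8103611883) (nat_lit 10) (nat_lit 5) (nat_lit 12) (nat_lit 4) (nat_lit 10) (nat_lit 4) (nat_lit 492) (nat_lit 387) (nat_lit 321))) (XT.nd (nat_lit 78) (nat_lit 0) (nat_lit 0) (XT.lf (nat_lit 0) (nat_lit 26577227368) (nat_lit 152) (nat_lit 30618268714) (nat_lit 0) (nat_lit 18319128482) (nat_lit 10) (nat_lit 5) (nat_lit 12) (nat_lit 4) (nat_lit 10) (nat_lit 4) (nat_lit 493) (nat_lit 387) (nat_lit 320)) (XT.lf (nat_lit 0) (nat_lit 37286751882) (nat_lit 152) (nat_lit 12499775231) (nat_lit 0) (nat_lit 29013099652) (nat_lit 10) (nat_lit 5) (nat_lit 12) (nat_lit 4) (nat_lit 10) (nat_lit 4) (nat_lit 494) (nat_lit 387) (nat_lit 319))))) (XT.nd (nat_lit 234) (nat_lit 152) (nat_lit 0) (XT.nd (nat_lit 78) (nat_lit 0) (nat_lit 0) (XT.lf (nat_lit 0) (nat_lit 6673539468) (nat_lit 76) (nat_lit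 41930105354) (nat_lit 76) (nat_lit 33641640416) (nat_lit 9) (nat_lit 4) (nat_lit 10) (nat_lit 5) (nat_lit 10) (nat_lit 4) (nat_lit 495) (nat_lit 387) (nat_lit 318)) (XT.nd (nat_lit 78) (nat_lit 0) (nat_lit 0) (XT.lf (nat_lit 0) (nat_lit 27175829000) (nat_lit 76) (nat_lit 33490486984) (nat_lit 76) (nat_lit 25187914706) (nat_lit 9) (nat_lit 4) (nat_lit 10) (nat_lit 5) (nat_lit 10) (nat_lit 4) (nat_lit 496) (nat_lit 387) (nat_lit 317)) (XT.lf (nat_lit 0) (nat_lit 48642609318) (nat_lit 76) (nat_lit 24659267417) (nat_lit 76) (nat_lit 16343259576) (nat_lit 9) (nat_lit 4) (nat_lit 10) (nat_lit 5) (nat_lit 10) (nat_lit 4) (nat_lit 497) (nat_lit 387) (nat_lit 316)))) (XT.nd (nat_lit 156) (nat_lit 76) (nat_lit 0) (XT.nd (nat_lit 78) (nat_lit 76) (nat_lit 0) (XT.lf (nat_lit 0) (nat_lit 71124991804) (nat_lit 76) (nat_lit 15415419940) (nat_lit 76) (nat_lit 7086616325) (nat_lit 9) (nat_lit 4) (nat_lit 10)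 (nat_lit 5) (nat_lit 10) (nat_lit 4) (nat_lit 498) (nat_lit 387) (nat_lit 315)) (XT.lf (nat_lit 0) (nat_lit 2520708662) (nat_lit 152) (nat_lit 3173537307) (nat_lit 76) (nat_lit 92113107858) (nat_lit 8) (nat_lit 5) (nat_lit 10) (nat_lit 5) (nat_lit 9) (nat_lit 4) (nat_lit 499) (nat_lit 387) (nat_lit 314))) (XT.nd (nat_lit 78) (nat_lit 0) (nat_lit 0) (XT.lf (nat_lit 0) (nat_lit 12693537543) (nat_lit 152) (nat_lit 84742501474) (nat_lit 0) (nat_lit 4738684009) (nat_lit 7) (nat_lit 5) (nat_lit 9) (nat_lit 4) (nat_lit 7) (nat_lit 4) (nat_lit 500) (nat_lit 387) (nat_lit 313)) (XT.lf (nat_lit 0) (nat_lit 23496464132) (nat_lit 152) (nat_lit 67726840804) (nat_lit 0) (nat_lit 15531083483) (nat_lit 7) (nat_lit 5) (nat_lit 9) (nat_lit 4) (nat_lit 7) (nat_lit 4) (nat_lit 501) (nat_lit 387) (nat_lit 312)))))) (XT.nd (nat_lit 546) (nat_lit 152) (nat_lit 0) (XT.nd (nat_lit 234) (nat_lit 76) (nat_lit 0) (XT.nd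 (nat_lit 78) (nat_lit 0) (nat_lit 0) (XT.lf (nat_lit 0) (nat_lit 34814281343) (nat_lit 152) (nat_lit 49911144175) (nat_lit 0) (nat_lit 26838874871) (nat_lit 7) (nat_lit 5) (nat_lit 9) (nat_lit 4) (nat_lit 7) (nat_lit 4) (nat_lit 502) (nat_lit 387) (nat_lit 311)) (XT.nd (nat_lit 78) (nat_lit 0) (nat_lit 0) (XT.lf (nat_lit 0) (nat_lit 46673936360) (nat_lit 152) (nat_lit 31252993262) (nat_lit 0) (nat_lit 38688981484) (nat_lit 7) (nat_lit 5) (nat_lit 9) (nat_lit 4) (nat_lit 7) (nat_lit 4) (nat_lit 503) (nat_lit 387) (nat_lit 310)) (XT.lf (nat_lit 0) (nat_lit 59103666458) (nat_lit 152) (nat_lit 11707963896) (nat_lit 0) (nat_lit 51109617864) (nat_lit 7) (nat_lit 5) (nat_lit 9) (nat_lit 4) (nat_lit 7) (nat_lit 4) (nat_lit 504) (nat_lit 387) (nat_lit 309)))) (XT.nd (nat_lit 156) (nat_lit 0) (nat_lit 0) (XT.nd (nat_lit 78) (nat_lit 0) (nat_lit 0) (XT.lf (nat_lit 0) (nat_lit 9060471375) (nat_lit 76)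 (nat_lit 63214054205) (nat_lit 76) (nat_lit 55211344928) (nat_lit 6) (nat_lit 4) (nat_lit 7) (nat_lit 5) (nat_lit 7) (nat_lit 4) (nat_lit 505) (nat_lit 387) (nat_lit 308)) (XT.lf (nat_lit 0) (nat_lit 31230672301) (nat_lit 76) (nat_lit 55050084076) (nat_lit 76) (nat_lit 47039126529) (nat_lit 6) (nat_lit 4) (nat_lit 7) (nat_lit 5) (nat_lit 7) (nat_lit 4) (nat_lit 506) (nat_lit 387) (nat_lit 307))) (XT.nd (nat_lit 78) (nat_lit 0) (nat_lit 0) (XT.lf (nat_lit 0) (nat_lit 54468306912) (nat_lit 76) (nat_lit 46498561977) (nat_lit 76) (nat_lit 38479748935) (nat_lit 6) (nat_lit 4) (nat_lit 7) (nat_lit 5) (nat_lit 7) (nat_lit 4) (nat_lit 507) (nat_lit 387) (nat_lit 306)) (XT.lf (nat_lit 0) (nat_lit 78828702910) (nat_lit 76) (nat_lit 37539127141) (nat_lit 76) (nat_lit 29512832675) (nat_lit 6) (nat_lit 4) (nat_lit 7) (nat_lit 5) (nat_lit 7) (nat_lit 4) (nat_lit 508) (nat_lit 387) (nat_lit 305))))) (XT.nd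 (nat_lit 234) (nat_lit 76) (nat_lit 0) (XT.nd (nat_lit 78) (nat_lit 76) (nat_lit 0) (XT.lf (nat_lit 0) (nat_lit 104369861238) (nat_lit 76) (nat_lit 28150447580) (nat_lit 76) (nat_lit 20117027948) (nat_lit 6) (nat_lit 4) (nat_lit 7) (nat_lit 5) (nat_lit 7) (nat_lit 4) (nat_lit 509) (nat_lit 387) (nat_lit 304)) (XT.nd (nat_lit 78) (nat_lit 76) (nat_lit 0) (XT.lf (nat_lit 0) (nat_lit 131152594178) (nat_lit 76) (nat_lit 18310169295) (nat_lit 76) (nat_lit 10269963791) (nat_lit 6) (nat_lit 4) (nat_lit 7) (nat_lit 5) (nat_lit 7) (nat_lit 4) (nat_lit 510) (nat_lit 387) (nat_lit 303)) (XT.lf (nat_lit 0) (nat_lit 50147096) (nat_lit 152) (nat_lit 7943866690) (nat_lit 76) (nat_lit 159189673779) (nat_lit 5) (nat_lit 5) (nat_lit 7) (nat_lit 5) (nat_lit 6) (nat_lit 4) (nat_lit 511) (nat_lit 387) (nat_lit 302)))) (XT.nd (nat_lit 156) (nat_lit 0) (nat_lit 0) (XT.nd (nat_lit 78) (nat_lit 0) (nat_lit 0) (XT.lf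 (nat_lit 0) (nat_lit 10793357510) (nat_lit 152) (nat_lit 161068807013) (nat_lit 0) (nat_lit 3124002057) (nat_lit 4) (nat_lit 5) (nat_lit 6) (nat_lit 4) (nat_lit 4) (nat_lit 4) (nat_lit 512) (nat_lit 387) (nat_lit 301)) (XT.lf (nat_lit 0) (nat_lit 22325265743) (nat_lit 152) (nat_lit 146190599690) (nat_lit 0) (nat_lit 14650327536) (nat_lit 4) (nat_lit 5) (nat_lit 6) (nat_lit 4) (nat_lit 4) (nat_lit 4) (nat_lit 513) (nat_lit 387) (nat_lit 300))) (XT.nd (nat_lit 78) (nat_lit 0) (nat_lit 0) (XT.lf (nat_lit 0) (nat_lit 34418292439) (nat_lit 152) (nat_lit 130599665039) (nat_lit 0) (nat_lit 26738037324) (nat_lit 4) (nat_lit 5) (nat_lit 6) (nat_lit 4) (nat_lit 4) (nat_lit 4) (nat_lit 514) (nat_lit 387) (nat_lit 299)) (XT.lf (nat_lit 0) (nat_lit 47101230519) (nat_lit 152) (nat_lit 114258881787) (nat_lit 0) (nat_lit 39415911681) (nat_lit 4) (nat_lit 5) (nat_lit 6) (nat_lit 4) (nat_lit 4) (nat_lit 4) (nat_lit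 515) (nat_lit 387) (nat_lit 298))))))))
noncomputable def xc65 : XT := (XT.nd (nat_lit 2184) (nat_lit 0) (nat_lit 0) (XT.nd (nat_lit 1092) (nat_lit 152) (nat_lit 0) (XT.nd (nat_lit 546) (nat_lit 0) (nat_lit 0) (XT.nd (nat_lit 234) (nat_lit 76) (nat_lit 0) (XT.nd (nat_lit 78) (nat_lit 0) (nat_lit 0) (XT.lf (nat_lit 0) (nat_lit 60404277454) (nat_lit 152) (nat_lit 97129343307) (nat_lit 0) (nat_lit 52714136023) (nat_lit 4) (nat_lit 5) (nat_lit 6) (nat_lit 4) (nat_lit 4) (nat_lit 4) (nat_lit 516) (nat_lit 387) (nat_lit 297)) (XT.nd (nat_lit 78) (nat_lit 0) (nat_lit 0) (XT.lf (nat_lit 0) (nat_lit 74359107165) (nat_lit 152) (nat_lit 79170264985) (nat_lit 0) (nat_lit 66664372790) (nat_lit 4) (nat_lit 5) (nat_lit 6) (nat_lit 4) (nat_lit 4) (nat_lit 4) (nat_lit 517) (nat_lit 387) (nat_lit 296)) (XT.lf (nat_lit 0) (nat_lit 88998945438) (nat_lit 152) (nat_lit 60338887109) (nat_lit 0) (nat_lit 81299836829)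 (nat_lit 4) (nat_lit 5) (nat_lit 6) (nat_lit 4) (nat_lit 4) (nat_lit 4) (nat_lit 518) (nat_lit 387) (nat_lit 295)))) (XT.nd (nat_lit 156) (nat_lit 76) (nat_lit 0) (XT.nd (nat_lit 78) (nat_lit 0) (nat_lit 0) (XT.lf (nat_lit 0) (nat_lit 104358649031) (nat_lit 152) (nat_lit 40590373066) (nat_lit 0) (nat_lit 96655374485) (nat_lit 4) (nat_lit 5) (nat_lit 6) (nat_lit 4) (nat_lit 4) (nat_lit 4) (nat_lit 519) (nat_lit 387) (nat_lit 294)) (XT.lf (nat_lit 0) (nat_lit 120474788666) (nat_lit 152) (nat_lit 19877702584) (nat_lit 0) (nat_lit 112767546561) (nat_lit 4) (nat_lit 5) (nat_lit 6) (nat_lit 4) (nat_lit 4) (nat_lit 4) (nat_lit 520) (nat_lit 387) (nat_lit 293))) (XT.nd (nat_lit 78) (nat_lit 0) (nat_lit 0) (XT.lf (nat_lit 0) (nat_lit 1909557999) (nat_lit 76) (nat_lit 135505991656) (nat_lit 76) (nat_lit 127794970924) (nat_lit 3) (nat_lit 4) (nat_lit 4) (nat_lit 5) (nat_lit 4) (nat_lit 4) (nat_lit 521)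 (nat_lit 387) (nat_lit 292)) (XT.lf (nat_lit 0) (nat_lit 25454486797) (nat_lit 76) (nat_lit 130074684584) (nat_lit 76) (nat_lit 122360065158) (nat_lit 3) (nat_lit 4) (nat_lit 4) (nat_lit 5) (nat_lit 4) (nat_lit 4) (nat_lit 522) (nat_lit 387) (nat_lit 291))))) (XT.nd (nat_lit 234) (nat_lit 0) (nat_lit 0) (XT.nd (nat_lit 78) (nat_lit 0) (nat_lit 0) (XT.lf (nat_lit 0) (nat_lit 50155896544) (nat_lit 76) (nat_lit 124382276861) (nat_lit 76) (nat_lit 116664230109) (nat_lit 3) (nat_lit 4) (nat_lit 4) (nat_lit 5) (nat_lit 4) (nat_lit 4) (nat_lit 523) (nat_lit 387) (nat_lit 290)) (XT.nd (nat_lit 78) (nat_lit 0) (nat_lit 0) (XT.lf (nat_lit 0) (nat_lit 76072600122) (nat_lit 76) (nat_lit 118415215136) (nat_lit 76) (nat_lit 110693904263) (nat_lit 3) (nat_lit 4) (nat_lit 4) (nat_lit 5) (nat_lit 4) (nat_lit 4) (nat_lit 524) (nat_lit 387) (nat_lit 289)) (XT.lf (nat_lit 0) (nat_lit 103266303968) (nat_lit 76)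 (nat_lit 112159292119) (nat_lit 76) (nat_lit 104434872560) (nat_lit 3) (nat_lit 4) (nat_lit 4) (nat_lit 5) (nat_lit 4) (nat_lit 4) (nat_lit 525) (nat_lit 387) (nat_lit 288)))) (XT.nd (nat_lit 156) (nat_lit 0) (nat_lit 0) (XT.nd (nat_lit 78) (nat_lit 0) (nat_lit 0) (XT.lf (nat_lit 0) (nat_lit 131801754995) (nat_lit 76) (nat_lit 105599612755) (nat_lit 76) (nat_lit 97872232543) (nat_lit 3) (nat_lit 4) (nat_lit 4) (nat_lit 5) (nat_lit 4) (nat_lit 4) (nat_lit 526) (nat_lit 387) (nat_lit 287)) (XT.lf (nat_lit 0) (nat_lit 161746894753) (nat_lit 76) (nat_lit 98720558761) (nat_lit 76) (nat_lit 90990358878) (nat_lit 3) (nat_lit 4) (nat_lit 4) (nat_lit 5) (nat_lit 4) (nat_lit 4) (nat_lit 527) (nat_lit 387) (nat_lit 286))) (XT.nd (nat_lit 78) (nat_lit 0) (nat_lit 0) (XT.lf (nat_lit 0) (nat_lit 193173021194) (nat_lit 76) (nat_lit 91505751435) (nat_lit 76) (nat_lit 83772866153) (nat_lit 3) (nat_lit 4) (nat_lit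 4) (nat_lit 5) (nat_lit 4) (nat_lit 4) (nat_lit 528) (nat_lit 387) (nat_lit 285)) (XT.lf (nat_lit 0) (nat_lit 226154958429) (nat_lit 76) (nat_lit 83938012667) (nat_lit 76) (nat_lit 76202569860) (nat_lit 3) (nat_lit 4) (nat_lit 4) (nat_lit 5) (nat_lit 4) (nat_lit 4) (nat_lit 529) (nat_lit 387) (nat_lit 284)))))) (XT.nd (nat_lit 546) (nat_lit 152) (nat_lit 0) (XT.nd (nat_lit 234) (nat_lit 0) (nat_lit 0) (XT.nd (nat_lit 78) (nat_lit 0) (nat_lit 0) (XT.lf (nat_lit 0) (nat_lit 260771234880) (nat_lit 76) (nat_lit 75999324028) (nat_lit 76) (nat_lit 68261445485) (nat_lit 3) (nat_lit 4) (nat_lit 4) (nat_lit 5) (nat_lit 4) (nat_lit 4) (nat_lit 530) (nat_lit 387) (nat_lit 283)) (XT.nd (nat_lit 78) (nat_lit 0) (nat_lit 0) (XT.lf (nat_lit 0) (nat_lit 297104270253) (nat_lit 76) (nat_lit 67670783882) (nat_lit 76) (nat_lit 59930585589) (nat_lit 3) (nat_lit 4) (nat_lit 4) (nat_lit 5) (nat_lit 4) (nat_lit 4)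 (nat_lit 531) (nat_lit 387) (nat_lit 282)) (XT.lf (nat_lit 0) (nat_lit 335240571774) (nat_lit 76) (nat_lit 58932562368) (nat_lit 76) (nat_lit 51190154791) (nat_lit 3) (nat_lit 4) (nat_lit 4) (nat_lit 5) (nat_lit 4) (nat_lit 4) (nat_lit 532) (nat_lit 387) (nat_lit 281)))) (XT.nd (nat_lit 156) (nat_lit 0) (nat_lit 0) (XT.nd (nat_lit 78) (nat_lit 0) (nat_lit 0) (XT.lf (nat_lit 0) (nat_lit 375270940162) (nat_lit 76) (nat_lit 49763854200) (nat_lit 76) (nat_lit 42019342541) (nat_lit 3) (nat_lit 4) (nat_lit 4) (nat_lit 5) (nat_lit 4) (nat_lit 4) (nat_lit 533) (nat_lit 387) (nat_lit 280)) (XT.lf (nat_lit 0) (nat_lit 417290685818) (nat_lit 76) (nat_lit 40142829118) (nat_lit 76) (nat_lit 32396313572) (nat_lit 3) (nat_lit 4) (nat_lit 4) (nat_lit 5) (nat_lit 4) (nat_lit 4) (nat_lit 534) (nat_lit 387) (nat_lit 279))) (XT.nd (nat_lit 78) (nat_lit 0) (nat_lit 0) (XT.lf (nat_lit 0) (nat_lit 461399855754) (nat_lit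 76) (nat_lit 30046579920) (nat_lit 76) (nat_lit 22298155911) (nat_lit 3) (nat_lit 4) (nat_lit 4) (nat_lit 5) (nat_lit 4) (nat_lit 4) (nat_lit 535) (nat_lit 387) (nat_lit 278)) (XT.lf (nat_lit 0) (nat_lit 507703471805) (nat_lit 76) (nat_lit 19451067918) (nat_lit 76) (nat_lit 11700826324) (nat_lit 3) (nat_lit 4) (nat_lit 4) (nat_lit 5) (nat_lit 4) (nat_lit 4) (nat_lit 536) (nat_lit 387) (nat_lit 277))))) (XT.nd (nat_lit 234) (nat_lit 0) (nat_lit 0) (XT.nd (nat_lit 78) (nat_lit 152) (nat_lit 0) (XT.lf (nat_lit 0) (nat_lit 556311780674) (nat_lit 76) (nat_lit 8331065702) (nat_lit 76) (nat_lit 579093076) (nat_lit 3) (nat_lit 4) (nat_lit 4) (nat_lit 5) (nat_lit 4) (nat_lit 4) (nat_lit 537) (nat_lit 387) (nat_lit 276)) (XT.nd (nat_lit 78) (nat_lit 0) (nat_lit 0) (XT.lf (nat_lit 0) (nat_lit 11027220902) (nat_lit 152) (nat_lit 578213950734) (nat_lit 0) (nat_lit 3642819731) (nat_lit 1) (nat_lit 5) (nat_lit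 3) (nat_lit 4) (nat_lit 1) (nat_lit 4) (nat_lit 538) (nat_lit 387) (nat_lit 275)) (XT.lf (nat_lit 0) (nat_lit 23479304673) (nat_lit 152) (nat_lit 582341712671) (nat_lit 0) (nat_lit 16093408171) (nat_lit 1) (nat_lit 5) (nat_lit 3) (nat_lit 4) (nat_lit 1) (nat_lit 4) (nat_lit 539) (nat_lit 387) (nat_lit 274)))) (XT.nd (nat_lit 156) (nat_lit 0) (nat_lit 0) (XT.nd (nat_lit 78) (nat_lit 0) (nat_lit 0) (XT.lf (nat_lit 0) (nat_lit 36549201192) (nat_lit 152) (nat_lit 586685539262) (nat_lit 0) (nat_lit 29161880565) (nat_lit 1) (nat_lit 5) (nat_lit 3) (nat_lit 4) (nat_lit 1) (nat_lit 4) (nat_lit 540) (nat_lit 387) (nat_lit 273)) (XT.lf (nat_lit 0) (nat_lit 50268029259) (nat_lit 152) (nat_lit 591255772951) (nat_lit 0) (nat_lit 42879352322) (nat_lit 1) (nat_lit 5) (nat_lit 3) (nat_lit 4) (nat_lit 1) (nat_lit 4) (nat_lit 541) (nat_lit 387) (nat_lit 272))) (XT.nd (nat_lit 78) (nat_lit 0) (nat_lit 0) (XT.lf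 (nat_lit 0) (nat_lit 64668452750) (nat_lit 152) (nat_lit 596063295247) (nat_lit 0) (nat_lit 57278484090) (nat_lit 1) (nat_lit 5) (nat_lit 3) (nat_lit 4) (nat_lit 1) (nat_lit 4) (nat_lit 542) (nat_lit 387) (nat_lit 271)) (XT.lf (nat_lit 0) (nat_lit 79784758389) (nat_lit 152) (nat_lit 601119552630) (nat_lit 0) (nat_lit 72393559516) (nat_lit 1) (nat_lit 5) (nat_lit 3) (nat_lit 4) (nat_lit 1) (nat_lit 4) (nat_lit 543) (nat_lit 387) (nat_lit 270))))))) (XT.nd (nat_lit 54054) (nat_lit 0) (nat_lit 3040) (XT.nd (nat_lit 53508) (nat_lit 0) (nat_lit 4864) (XT.nd (nat_lit 53196) (nat_lit 0) (nat_lit 6232) (XT.nd (nat_lit 78) (nat_lit 0) (nat_lit 0) (XT.lf (nat_lit 0) (nat_lit 95652937378) (nat_lit 152) (nat_lit 606436583810) (nat_lit 0) (nat_lit 88260566874) (nat_lit 1) (nat_lit 5) (nat_lit 3) (nat_lit 4) (nat_lit 1) (nat_lit 4) (nat_lit 544) (nat_lit 387) (nat_lit 269)) (XT.nd (nat_lit 53040) (nat_lit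 0) (nat_lit 7144) (XT.lf (nat_lit 0) (nat_lit 112310771097) (nat_lit 152) (nat_lit 612027048385) (nat_lit 0) (nat_lit 104917284754) (nat_lit 1) (nat_lit 5) (nat_lit 3) (nat_lit 4) (nat_lit 1) (nat_lit 4) (nat_lit 545) (nat_lit 387) (nat_lit 268)) (XT.lf (nat_lit 0) (nat_lit 681745039) (nat_lit 304) (nat_lit 2710667569) (nat_lit 0) (nat_lit 681745039) (nat_lit 95) (nat_lit 5) (nat_lit 99) (nat_lit 4) (nat_lit 95) (nat_lit 4) (nat_lit 424) (nat_lit 388) (nat_lit 388)))) (XT.nd (nat_lit 156) (nat_lit 532) (nat_lit 0) (XT.nd (nat_lit 78) (nat_lit 76) (nat_lit 0) (XT.lf (nat_lit 0) (nat_lit 1285066544) (nat_lit 304) (nat_lit 4075756715) (nat_lit 304) (nat_lit 2936865941) (nat_lit 91) (nat_lit 4) (nat_lit 95) (nat_lit 5) (nat_lit 95) (nat_lit 4) (nat_lit 425) (nat_lit 388) (nat_lit 387)) (XT.lf (nat_lit 0) (nat_lit 994465720) (nat_lit 380) (nat_lit 184893926) (nat_lit 76) (nat_lit 7278049817) (nat_lit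 90) (nat_lit 5) (nat_lit 95) (nat_lit 5) (nat_lit 91) (nat_lit 4) (nat_lit 426) (nat_lit 388) (nat_lit 386))) (XT.nd (nat_lit 78) (nat_lit 304) (nat_lit 0) (XT.lf (nat_lit 0) (nat_lit 5003594147) (nat_lit 304) (nat_lit 1718057017) (nat_lit 0) (nat_lit 1902112092) (nat_lit 87) (nat_lit 5) (nat_lit 91) (nat_lit 4) (nat_lit 87) (nat_lit 4) (nat_lit 427) (nat_lit 388) (nat_lit 385)) (XT.lf (nat_lit 0) (nat_lit 353058644) (nat_lit 304) (nat_lit 3314680091) (nat_lit 76) (nat_lit 5132839225) (nat_lit 83) (nat_lit 5) (nat_lit 87) (nat_lit 5) (nat_lit 84) (nat_lit 4) (nat_lit 428) (nat_lit 388) (nat_lit 384))))) (XT.nd (nat_lit 234) (nat_lit 684) (nat_lit 0) (XT.nd (nat_lit 78) (nat_lit 456) (nat_lit 0) (XT.lf (nat_lit 0) (nat_lit 3967030803) (nat_lit 228) (nat_lit 373374971) (nat_lit 304) (nat_lit 4646048523) (nat_lit 80) (nat_lit 5) (nat_lit 83) (nat_lit 5) (nat_lit 84) (nat_lit 4) (nat_lit 429) (nat_lit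 388) (nat_lit 383)) (XT.nd (nat_lit 78) (nat_lit 228) (nat_lit 0) (XT.lf (nat_lit 0) (nat_lit 2347253677) (nat_lit 228) (nat_lit 6170144200) (nat_lit 228) (nat_lit 664754805) (nat_lit 77) (nat_lit 4) (nat_lit 80) (nat_lit 5) (nat_lit 80) (nat_lit 4) (nat_lit 430) (nat_lit 388) (nat_lit 382)) (XT.lf (nat_lit 0) (nat_lit 600769396) (nat_lit 152) (nat_lit 2753867138) (nat_lit 228) (nat_lit 6032715519) (nat_lit 74) (nat_lit 5) (nat_lit 76) (nat_lit 5) (nat_lit 77) (nat_lit 4) (nat_lit 431) (nat_lit 388) (nat_lit 381)))) (XT.nd (nat_lit 156) (nat_lit 380) (nat_lit 0) (XT.nd (nat_lit 78) (nat_lit 304) (nat_lit 0) (XT.lf (nat_lit 0) (nat_lit 7535378326) (nat_lit 228) (nat_lit 1208957471) (nat_lit 0) (nat_lit 858831043) (nat_lit 74) (nat_lit 5) (nat_lit 77) (nat_lit 4) (nat_lit 74) (nat_lit 4) (nat_lit 432) (nat_lit 388) (nat_lit 380)) (XT.lf (nat_lit 0) (nat_lit 2037227305) (nat_lit 304) (nat_lit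 3166117154) (nat_lit 76) (nat_lit 4624379769) (nat_lit 70) (nat_lit 5) (nat_lit 74) (nat_lit 5) (nat_lit 71) (nat_lit 4) (nat_lit 433) (nat_lit 388) (nat_lit 379))) (XT.nd (nat_lit 78) (nat_lit 228) (nat_lit 0) (XT.lf (nat_lit 0) (nat_lit 4802967527) (nat_lit 152) (nat_lit 1430972792) (nat_lit 228) (nat_lit 3830108799) (nat_lit 68) (nat_lit 5) (nat_lit 70) (nat_lit 5) (nat_lit 71) (nat_lit 4) (nat_lit 434) (nat_lit 388) (nat_lit 378)) (XT.lf (nat_lit 0) (nat_lit 317537645) (nat_lit 228) (nat_lit 7521036609) (nat_lit 76) (nat_lit 2473400894) (nat_lit 65) (nat_lit 5) (nat_lit 68) (nat_lit 5) (nat_lit 66) (nat_lit 4) (nat_lit 435) (nat_lit 388) (nat_lit 377)))))) (XT.nd (nat_lit 546) (nat_lit 912) (nat_lit 0) (XT.nd (nat_lit 234) (nat_lit 532) (nat_lit 0) (XT.nd (nat_lit 78) (nat_lit 228) (nat_lit 0) (XT.lf (nat_lit 0) (nat_lit 566111810) (nat_lit 152) (nat_lit 3963608447) (nat_lit 228) (nat_lit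 6040171405) (nat_lit 63) (nat_lit 5) (nat_lit 65) (nat_lit 5) (nat_lit 66) (nat_lit 4) (nat_lit 436) (nat_lit 388) (nat_lit 376)) (XT.nd (nat_lit 78) (nat_lit 228) (nat_lit 0) (XT.lf (nat_lit 0) (nat_lit 8948338951) (nat_lit 228) (nat_lit 1745740323) (nat_lit 0) (nat_lit 146859233) (nat_lit 63) (nat_lit 5) (nat_lit 66) (nat_lit 4) (nat_lit 63) (nat_lit 4) (nat_lit 437) (nat_lit 388) (nat_lit 375)) (XT.lf (nat_lit 0) (nat_lit 2427541792) (nat_lit 228) (nat_lit 4298251684) (nat_lit 76) (nat_lit 4395645383) (nat_lit 60) (nat_lit 5) (nat_lit 63) (nat_lit 5) (nat_lit 61) (nat_lit 4) (nat_lit 438) (nat_lit 388) (nat_lit 374)))) (XT.nd (nat_lit 156) (nat_lit 228) (nat_lit 0) (XT.nd (nat_lit 78) (nat_lit 152) (nat_lit 0) (XT.lf (nat_lit 0) (nat_lit 4358258142) (nat_lit 152) (nat_lit 2511823932) (nat_lit 228) (nat_lit 4545853395) (nat_lit 58) (nat_lit 5) (nat_lit 60) (nat_lit 5) (nat_lit 61) (nat_lit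 4) (nat_lit 439) (nat_lit 388) (nat_lit 373)) (XT.lf (nat_lit 0) (nat_lit 1680184905) (nat_lit 152) (nat_lit 9857957556) (nat_lit 152) (nat_lit 186866065) (nat_lit 56) (nat_lit 4) (nat_lit 58) (nat_lit 5) (nat_lit 58) (nat_lit 4) (nat_lit 440) (nat_lit 388) (nat_lit 372))) (XT.nd (nat_lit 78) (nat_lit 152) (nat_lit 0) (XT.lf (nat_lit 0) (nat_lit 4286166805) (nat_lit 228) (nat_lit 1273779204) (nat_lit 76) (nat_lit 6484351161) (nat_lit 55) (nat_lit 5) (nat_lit 58) (nat_lit 5) (nat_lit 56) (nat_lit 4) (nat_lit 441) (nat_lit 388) (nat_lit 371)) (XT.lf (nat_lit 0) (nat_lit 7980062146) (nat_lit 152) (nat_lit 1001046857) (nat_lit 228) (nat_lit 3398079566) (nat_lit 53) (nat_lit 5) (nat_lit 55) (nat_lit 5) (nat_lit 56) (nat_lit 4) (nat_lit 442) (nat_lit 388) (nat_lit 370))))) (XT.nd (nat_lit 312) (nat_lit 380) (nat_lit 0) (XT.nd (nat_lit 156) (nat_lit 228) (nat_lit 0) (XT.nd (nat_lit 78) (nat_lit 76)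 (nat_lit 0) (XT.lf (nat_lit 0) (nat_lit 1181450348) (nat_lit 228) (nat_lit 7848831351) (nat_lit 76) (nat_lit 3697676217) (nat_lit 50) (nat_lit 5) (nat_lit 53) (nat_lit 5) (nat_lit 51) (nat_lit 4) (nat_lit 443) (nat_lit 388) (nat_lit 369)) (XT.lf (nat_lit 0) (nat_lit 1446710816) (nat_lit 76) (nat_lit 4425395456) (nat_lit 152) (nat_lit 7219472653) (nat_lit 49) (nat_lit 5) (nat_lit 50) (nat_lit 5) (nat_lit 51) (nat_lit 4) (nat_lit 444) (nat_lit 388) (nat_lit 368))) (XT.nd (nat_lit 78) (nat_lit 228) (nat_lit 0) (XT.lf (nat_lit 0) (nat_lit 10821422488) (nat_lit 152) (nat_lit 2206637154) (nat_lit 0) (nat_lit 444130085) (nat_lit 49) (nat_lit 5) (nat_lit 51) (nat_lit 4) (nat_lit 49) (nat_lit 4) (nat_lit 445) (nat_lit 388) (nat_lit 367)) (XT.lf (nat_lit 0) (nat_lit 2159588832) (nat_lit 228) (nat_lit 6226824619) (nat_lit 76) (nat_lit 5479660146) (nat_lit 46) (nat_lit 5) (nat_lit 49) (nat_lit 5) (nat_lit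 47) (nat_lit 4) (nat_lit 446) (nat_lit 388) (nat_lit 366)))) (XT.nd (nat_lit 156) (nat_lit 304) (nat_lit 0) (XT.nd (nat_lit 78) (nat_lit 0) (nat_lit 0) (XT.lf (nat_lit 0) (nat_lit 3647670602) (nat_lit 76) (nat_lit 3457288407) (nat_lit 152) (nat_lit 7173353977) (nat_lit 45) (nat_lit 5) (nat_lit 46) (nat_lit 5) (nat_lit 47) (nat_lit 4) (nat_lit 447) (nat_lit 388) (nat_lit 365)) (XT.lf (nat_lit 0) (nat_lit 12321077441) (nat_lit 152) (nat_lit 704477188) (nat_lit 0) (nat_lit 1684448164) (nat_lit 45) (nat_lit 5) (nat_lit 47) (nat_lit 4) (nat_lit 45) (nat_lit 4) (nat_lit 448) (nat_lit 388) (nat_lit 364))) (XT.nd (nat_lit 78) (nat_lit 76) (nat_lit 0) (XT.lf (nat_lit 0) (nat_lit 2656225500) (nat_lit 228) (nat_lit 5418999991) (nat_lit 76) (nat_lit 7080714685) (nat_lit 42) (nat_lit 5) (nat_lit 45) (nat_lit 5) (nat_lit 43) (nat_lit 4) (nat_lit 449) (nat_lit 388) (nat_lit 363)) (XT.lf (nat_lit 0) (nat_lit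 5030091808) (nat_lit 76) (nat_lit 2829004484) (nat_lit 152) (nat_lit 7763843446) (nat_lit 41) (nat_lit 5) (nat_lit 42) (nat_lit 5) (nat_lit 43) (nat_lit 4) (nat_lit 450) (nat_lit 388) (nat_lit 362))))))))
noncomputable def xc66 : XT := (XT.nd (nat_lit 2184) (nat_lit 912) (nat_lit 0) (XT.nd (nat_lit 1092) (nat_lit 760) (nat_lit 0) (XT.nd (nat_lit 546) (nat_lit 456) (nat_lit 0) (XT.nd (nat_lit 234) (nat_lit 228) (nat_lit 0) (XT.nd (nat_lit 78) (nat_lit 304) (nat_lit 0) (XT.lf (nat_lit 0) (nat_lit 13352986657) (nat_lit 152) (nat_lit 155806608) (nat_lit 0) (nat_lit 2602962442) (nat_lit 41) (nat_lit 5) (nat_lit 43) (nat_lit 4) (nat_lit 41) (nat_lit 4) (nat_lit 451) (nat_lit 388) (nat_lit 361)) (XT.nd (nat_lit 78) (nat_lit 76) (nat_lit 0) (XT.lf (nat_lit 0) (nat_lit 2536198807) (nat_lit 228) (nat_lit 5738090884) (nat_lit 76) (nat_lit 8342805888) (nat_lit 38) (nat_lit 5) (nat_lit 41) (nat_lit 5) (nat_lit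 39) (nat_lit 4) (nat_lit 452) (nat_lit 388) (nat_lit 360)) (XT.lf (nat_lit 0) (nat_lit 5261907528) (nat_lit 76) (nat_lit 2727147288) (nat_lit 152) (nat_lit 9157102558) (nat_lit 37) (nat_lit 5) (nat_lit 38) (nat_lit 5) (nat_lit 39) (nat_lit 4) (nat_lit 453) (nat_lit 388) (nat_lit 359)))) (XT.nd (nat_lit 156) (nat_lit 76) (nat_lit 0) (XT.nd (nat_lit 78) (nat_lit 152) (nat_lit 0) (XT.lf (nat_lit 0) (nat_lit 13763257098) (nat_lit 152) (nat_lit 920843770) (nat_lit 0) (nat_lit 3015144633) (nat_lit 37) (nat_lit 5) (nat_lit 39) (nat_lit 4) (nat_lit 37) (nat_lit 4) (nat_lit 454) (nat_lit 388) (nat_lit 358)) (XT.lf (nat_lit 0) (nat_lit 1616845602) (nat_lit 152) (nat_lit 7587649949) (nat_lit 76) (nat_lit 9068285526) (nat_lit 35) (nat_lit 5) (nat_lit 37) (nat_lit 5) (nat_lit 36) (nat_lit 4) (nat_lit 455) (nat_lit 388) (nat_lit 357))) (XT.nd (nat_lit 78) (nat_lit 0) (nat_lit 0) (XT.lf (nat_lit 0) (nat_lit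 3912987318) (nat_lit 76) (nat_lit 3385502929) (nat_lit 152) (nat_lit 11574112038) (nat_lit 34) (nat_lit 5) (nat_lit 35) (nat_lit 5) (nat_lit 36) (nat_lit 4) (nat_lit 456) (nat_lit 388) (nat_lit 356)) (XT.lf (nat_lit 0) (nat_lit 13344319479) (nat_lit 152) (nat_lit 3465648450) (nat_lit 0) (nat_lit 2688448431) (nat_lit 34) (nat_lit 5) (nat_lit 36) (nat_lit 4) (nat_lit 34) (nat_lit 4) (nat_lit 457) (nat_lit 388) (nat_lit 355))))) (XT.nd (nat_lit 234) (nat_lit 228) (nat_lit 0) (XT.nd (nat_lit 78) (nat_lit 152) (nat_lit 0) (XT.lf (nat_lit 0) (nat_lit 8655893522) (nat_lit 76) (nat_lit 11138579102) (nat_lit 76) (nat_lit 355953488) (nat_lit 33) (nat_lit 4) (nat_lit 34) (nat_lit 5) (nat_lit 34) (nat_lit 4) (nat_lit 458) (nat_lit 388) (nat_lit 354)) (XT.nd (nat_lit 78) (nat_lit 0) (nat_lit 0) (XT.lf (nat_lit 0) (nat_lit 426035478) (nat_lit 76) (nat_lit 5100491218) (nat_lit 152) (nat_lit 15305146307) (nat_lit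 31) (nat_lit 5) (nat_lit 32) (nat_lit 5) (nat_lit 33) (nat_lit 4) (nat_lit 459) (nat_lit 388) (nat_lit 353)) (XT.lf (nat_lit 0) (nat_lit 11820340802) (nat_lit 152) (nat_lit 8393188694) (nat_lit 0) (nat_lit 1326708060) (nat_lit 31) (nat_lit 5) (nat_lit 33) (nat_lit 4) (nat_lit 31) (nat_lit 4) (nat_lit 460) (nat_lit 388) (nat_lit 352)))) (XT.nd (nat_lit 156) (nat_lit 76) (nat_lit 0) (XT.nd (nat_lit 78) (nat_lit 76) (nat_lit 0) (XT.lf (nat_lit 0) (nat_lit 4106504352) (nat_lit 76) (nat_lit 14386225615) (nat_lit 76) (nat_lit 3788311577) (nat_lit 30) (nat_lit 4) (nat_lit 31) (nat_lit 5) (nat_lit 31) (nat_lit 4) (nat_lit 461) (nat_lit 388) (nat_lit 351)) (XT.lf (nat_lit 0) (nat_lit 2422552749) (nat_lit 152) (nat_lit 5730996422) (nat_lit 76) (nat_lit 14900397314) (nat_lit 29) (nat_lit 5) (nat_lit 31) (nat_lit 5) (nat_lit 30) (nat_lit 4) (nat_lit 462) (nat_lit 388) (nat_lit 350))) (XT.nd (nat_lit 78)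 (nat_lit 0) (nat_lit 0) (XT.lf (nat_lit 0) (nat_lit 7354316955) (nat_lit 76) (nat_lit 1497455104) (nat_lit 152) (nat_lit 15008867934) (nat_lit 28) (nat_lit 5) (nat_lit 29) (nat_lit 5) (nat_lit 30) (nat_lit 4) (nat_lit 463) (nat_lit 388) (nat_lit 349)) (XT.lf (nat_lit 0) (nat_lit 15707435368) (nat_lit 152) (nat_lit 3651265012) (nat_lit 0) (nat_lit 5343723109) (nat_lit 28) (nat_lit 5) (nat_lit 30) (nat_lit 4) (nat_lit 28) (nat_lit 4) (nat_lit 464) (nat_lit 388) (nat_lit 348)))))) (XT.nd (nat_lit 546) (nat_lit 304) (nat_lit 0) (XT.nd (nat_lit 234) (nat_lit 228) (nat_lit 0) (XT.nd (nat_lit 78) (nat_lit 152) (nat_lit 0) (XT.lf (nat_lit 0) (nat_lit 9995255669) (nat_lit 76) (nat_lit 13015607528) (nat_lit 76) (nat_lit 2570188145) (nat_lit 27) (nat_lit 4) (nat_lit 28) (nat_lit 5) (nat_lit 28) (nat_lit 4) (nat_lit 465) (nat_lit 388) (nat_lit 347)) (XT.nd (nat_lit 78) (nat_lit 76) (nat_lit 0) (XT.lf (nat_lit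 0) (nat_lit 4029553866) (nat_lit 152) (nat_lit 2262650265) (nat_lit 76) (nat_lit 20208782707) (nat_lit 26) (nat_lit 5) (nat_lit 28) (nat_lit 5) (nat_lit 27) (nat_lit 4) (nat_lit 466) (nat_lit 388) (nat_lit 346)) (XT.lf (nat_lit 0) (nat_lit 11001877655) (nat_lit 152) (nat_lit 15547323183) (nat_lit 0) (nat_lit 909166739) (nat_lit 25) (nat_lit 5) (nat_lit 27) (nat_lit 4) (nat_lit 25) (nat_lit 4) (nat_lit 467) (nat_lit 388) (nat_lit 345)))) (XT.nd (nat_lit 156) (nat_lit 152) (nat_lit 0) (XT.nd (nat_lit 78) (nat_lit 76) (nat_lit 0) (XT.lf (nat_lit 0) (nat_lit 18393248029) (nat_lit 152) (nat_lit 1833534843) (nat_lit 0) (nat_lit 8233316459) (nat_lit 25) (nat_lit 5) (nat_lit 27) (nat_lit 4) (nat_lit 25) (nat_lit 4) (nat_lit 468) (nat_lit 388) (nat_lit 344)) (XT.lf (nat_lit 0) (nat_lit 12843656050) (nat_lit 76) (nat_lit 13442801335) (nat_lit 76) (nat_lit 3218850096) (nat_lit 24) (nat_lit 4) (nat_lit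 25) (nat_lit 5) (nat_lit 25) (nat_lit 4) (nat_lit 469) (nat_lit 388) (nat_lit 343))) (XT.nd (nat_lit 78) (nat_lit 76) (nat_lit 0) (XT.lf (nat_lit 0) (nat_lit 3807841904) (nat_lit 152) (nat_lit 2478846449) (nat_lit 76) (nat_lit 24314820095) (nat_lit 23) (nat_lit 5) (nat_lit 25) (nat_lit 5) (nat_lit 24) (nat_lit 4) (nat_lit 470) (nat_lit 388) (nat_lit 342)) (XT.lf (nat_lit 0) (nat_lit 11232382787) (nat_lit 152) (nat_lit 19127850671) (nat_lit 0) (nat_lit 1381916043) (nat_lit 22) (nat_lit 5) (nat_lit 24) (nat_lit 4) (nat_lit 22) (nat_lit 4) (nat_lit 471) (nat_lit 388) (nat_lit 341))))) (XT.nd (nat_lit 234) (nat_lit 152) (nat_lit 0) (XT.nd (nat_lit 78) (nat_lit 152) (nat_lit 0) (XT.lf (nat_lit 0) (nat_lit 19109151112) (nat_lit 152) (nat_lit 4620608989) (nat_lit 0) (nat_lit 9206015227) (nat_lit 22) (nat_lit 5) (nat_lit 24) (nat_lit 4) (nat_lit 22) (nat_lit 4) (nat_lit 472) (nat_lit 388) (nat_lit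 340)) (XT.nd (nat_lit 78) (nat_lit 76) (nat_lit 0) (XT.lf (nat_lit 0) (nat_lit 10837630379) (nat_lit 76) (nat_lit 16649686840) (nat_lit 76) (nat_lit 6696389869) (nat_lit 21) (nat_lit 4) (nat_lit 22) (nat_lit 5) (nat_lit 22) (nat_lit 4) (nat_lit 473) (nat_lit 388) (nat_lit 339)) (XT.lf (nat_lit 0) (nat_lit 783026345) (nat_lit 152) (nat_lit 8395865426) (nat_lit 76) (nat_lit 26313630725) (nat_lit 20) (nat_lit 5) (nat_lit 22) (nat_lit 5) (nat_lit 21) (nat_lit 4) (nat_lit 474) (nat_lit 388) (nat_lit 338)))) (XT.nd (nat_lit 156) (nat_lit 76) (nat_lit 0) (XT.nd (nat_lit 78) (nat_lit 0) (nat_lit 0) (XT.lf (nat_lit 0) (nat_lit 7310519996) (nat_lit 76) (nat_lit 1156351718) (nat_lit 152) (nat_lit 28391645322) (nat_lit 19) (nat_lit 5) (nat_lit 20) (nat_lit 5) (nat_lit 21) (nat_lit 4) (nat_lit 475) (nat_lit 388) (nat_lit 337)) (XT.lf (nat_lit 0) (nat_lit 16734396908) (nat_lit 152) (nat_lit 14423471972)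 (nat_lit 0) (nat_lit 7124970193) (nat_lit 19) (nat_lit 5) (nat_lit 21) (nat_lit 4) (nat_lit 19) (nat_lit 4) (nat_lit 476) (nat_lit 388) (nat_lit 336))) (XT.nd (nat_lit 78) (nat_lit 0) (nat_lit 0) (XT.lf (nat_lit 0) (nat_lit 1372059976) (nat_lit 76) (nat_lit 24027907530) (nat_lit 76) (nat_lit 14379178292) (nat_lit 18) (nat_lit 4) (nat_lit 19) (nat_lit 5) (nat_lit 19) (nat_lit 4) (nat_lit 477) (nat_lit 388) (nat_lit 335)) (XT.lf (nat_lit 0) (nat_lit 18349718679) (nat_lit 76) (nat_lit 16338617679) (nat_lit 76) (nat_lit 6652457465) (nat_lit 18) (nat_lit 4) (nat_lit 19) (nat_lit 5) (nat_lit 19) (nat_lit 4) (nat_lit 478) (nat_lit 388) (nat_lit 334))))))) (XT.nd (nat_lit 1092) (nat_lit 304) (nat_lit 0) (XT.nd (nat_lit 546) (nat_lit 228) (nat_lit 0) (XT.nd (nat_lit 234) (nat_lit 228) (nat_lit 0) (XT.nd (nat_lit 78) (nat_lit 76) (nat_lit 0) (XT.lf (nat_lit 0) (nat_lit 1360852851) (nat_lit 152) (nat_lit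 6932060416) (nat_lit 76) (nat_lit 34689122457) (nat_lit 17) (nat_lit 5) (nat_lit 19) (nat_lit 5) (nat_lit 18) (nat_lit 4) (nat_lit 479) (nat_lit 388) (nat_lit 333)) (XT.nd (nat_lit 78) (nat_lit 0) (nat_lit 0) (XT.lf (nat_lit 0) (nat_lit 9663582126) (nat_lit 152) (nat_lit 34658308104) (nat_lit 0) (nat_lit 372382356) (nat_lit 16) (nat_lit 5) (nat_lit 18) (nat_lit 4) (nat_lit 16) (nat_lit 4) (nat_lit 480) (nat_lit 388) (nat_lit 332)) (XT.lf (nat_lit 0) (nat_lit 18586351169) (nat_lit 152) (nat_lit 18631169717) (nat_lit 0) (nat_lit 9264356843) (nat_lit 16) (nat_lit 5) (nat_lit 18) (nat_lit 4) (nat_lit 16) (nat_lit 4) (nat_lit 481) (nat_lit 388) (nat_lit 331)))) (XT.nd (nat_lit 156) (nat_lit 152) (nat_lit 0) (XT.nd (nat_lit 78) (nat_lit 76) (nat_lit 0) (XT.lf (nat_lit 0) (nat_lit 27907288716) (nat_lit 152) (nat_lit 1898008196) (nat_lit 0) (nat_lit 18555966241) (nat_lit 16) (nat_lit 5) (nat_lit 18)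 (nat_lit 4) (nat_lit 16) (nat_lit 4) (nat_lit 482) (nat_lit 388) (nat_lit 330)) (XT.lf (nat_lit 0) (nat_lit 16096196118) (nat_lit 76) (nat_lit 21803698088) (nat_lit 76) (nat_lit 12424444043) (nat_lit 15) (nat_lit 4) (nat_lit 16) (nat_lit 5) (nat_lit 16) (nat_lit 4) (nat_lit 483) (nat_lit 388) (nat_lit 329))) (XT.nd (nat_lit 78) (nat_lit 152) (nat_lit 0) (XT.lf (nat_lit 0) (nat_lit 34966675546) (nat_lit 76) (nat_lit 13412693267) (nat_lit 76) (nat_lit 4006837727) (nat_lit 15) (nat_lit 4) (nat_lit 16) (nat_lit 5) (nat_lit 16) (nat_lit 4) (nat_lit 484) (nat_lit 388) (nat_lit 328)) (XT.lf (nat_lit 0) (nat_lit 69794581) (nat_lit 76) (nat_lit 4564832188) (nat_lit 152) (nat_lit 49914889914) (nat_lit 13) (nat_lit 5) (nat_lit 14) (nat_lit 5) (nat_lit 15) (nat_lit 4) (nat_lit 485) (nat_lit 388) (nat_lit 327))))) (XT.nd (nat_lit 234) (nat_lit 228) (nat_lit 0) (XT.nd (nat_lit 78) (nat_lit 0) (nat_lit 0)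 (XT.lf (nat_lit 0) (nat_lit 13903740207) (nat_lit 152) (nat_lit 37998782602) (nat_lit 0) (nat_lit 4898674839) (nat_lit 13) (nat_lit 5) (nat_lit 15) (nat_lit 4) (nat_lit 13) (nat_lit 4) (nat_lit 486) (nat_lit 388) (nat_lit 326)) (XT.nd (nat_lit 78) (nat_lit 0) (nat_lit 0) (XT.lf (nat_lit 0) (nat_lit 23669819082) (nat_lit 152) (nat_lit 20851100633) (nat_lit 0) (nat_lit 14642868597) (nat_lit 13) (nat_lit 5) (nat_lit 15) (nat_lit 4) (nat_lit 13) (nat_lit 4) (nat_lit 487) (nat_lit 388) (nat_lit 325)) (XT.lf (nat_lit 0) (nat_lit 33884846137) (nat_lit 152) (nat_lit 2924578559) (nat_lit 0) (nat_lit 24837052685) (nat_lit 13) (nat_lit 5) (nat_lit 15) (nat_lit 4) (nat_lit 13) (nat_lit 4) (nat_lit 488) (nat_lit 388) (nat_lit 324)))) (XT.nd (nat_lit 156) (nat_lit 152) (nat_lit 0) (XT.nd (nat_lit 78) (nat_lit 0) (nat_lit 0) (XT.lf (nat_lit 0) (nat_lit 16346661056) (nat_lit 76) (nat_lit 28481699001) (nat_lit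 76) (nat_lit 19414055104) (nat_lit 12) (nat_lit 4) (nat_lit 13) (nat_lit 5) (nat_lit 13) (nat_lit 4) (nat_lit 489) (nat_lit 388) (nat_lit 323)) (XT.lf (nat_lit 0) (nat_lit 36609400127) (nat_lit 76) (nat_lit 19722332804) (nat_lit 76) (nat_lit 10635783721) (nat_lit 12) (nat_lit 4) (nat_lit 13) (nat_lit 5) (nat_lit 13) (nat_lit 4) (nat_lit 490) (nat_lit 388) (nat_lit 322))) (XT.nd (nat_lit 78) (nat_lit 152) (nat_lit 0) (XT.lf (nat_lit 0) (nat_lit 57815183494) (nat_lit 76) (nat_lit 10559999624) (nat_lit 76) (nat_lit 1455445601) (nat_lit 12) (nat_lit 4) (nat_lit 13) (nat_lit 5) (nat_lit 13) (nat_lit 4) (nat_lit 491) (nat_lit 388) (nat_lit 321)) (XT.lf (nat_lit 0) (nat_lit 7281769030) (nat_lit 76) (nat_lit 719923951) (nat_lit 152) (nat_lit 64824829583) (nat_lit 10) (nat_lit 5) (nat_lit 11) (nat_lit 5) (nat_lit 12) (nat_lit 4) (nat_lit 492) (nat_lit 388) (nat_lit 320)))))) (XT.nd (nat_lit 546) (nat_lit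 228) (nat_lit 0) (XT.nd (nat_lit 234) (nat_lit 76) (nat_lit 0) (XT.nd (nat_lit 78) (nat_lit 0) (nat_lit 0) (XT.lf (nat_lit 0) (nat_lit 18205756426) (nat_lit 152) (nat_lit 48246245232) (nat_lit 0) (nat_lit 9502868242) (nat_lit 10) (nat_lit 5) (nat_lit 12) (nat_lit 4) (nat_lit 10) (nat_lit 4) (nat_lit 493) (nat_lit 388) (nat_lit 319)) (XT.nd (nat_lit 78) (nat_lit 0) (nat_lit 0) (XT.lf (nat_lit 0) (nat_lit 28899524621) (nat_lit 152) (nat_lit 30159311943) (nat_lit 0) (nat_lit 20181823729) (nat_lit 10) (nat_lit 5) (nat_lit 12) (nat_lit 4) (nat_lit 10) (nat_lit 4) (nat_lit 494) (nat_lit 388) (nat_lit 318)) (XT.lf (nat_lit 0) (nat_lit 40097218890) (nat_lit 152) (nat_lit 11229649510) (nat_lit 0) (nat_lit 31365410657) (nat_lit 10) (nat_lit 5) (nat_lit 12) (nat_lit 4) (nat_lit 10) (nat_lit 4) (nat_lit 495) (nat_lit 388) (nat_lit 317)))) (XT.nd (nat_lit 156) (nat_lit 0) (nat_lit 0) (XT.nd (nat_lit 78)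 (nat_lit 0) (nat_lit 0) (XT.lf (nat_lit 0) (nat_lit 8871764562) (nat_lit 76) (nat_lit 43092248955) (nat_lit 76) (nat_lit 34347005160) (nat_lit 9) (nat_lit 4) (nat_lit 10) (nat_lit 5) (nat_lit 10) (nat_lit 4) (nat_lit 496) (nat_lit 388) (nat_lit 316)) (XT.lf (nat_lit 0) (nat_lit 30310380564) (nat_lit 76) (nat_lit 34275143080) (nat_lit 76) (nat_lit 25517103510) (nat_lit 9) (nat_lit 4) (nat_lit 10) (nat_lit 5) (nat_lit 10) (nat_lit 4) (nat_lit 497) (nat_lit 388) (nat_lit 315))) (XT.nd (nat_lit 78) (nat_lit 0) (nat_lit 0) (XT.lf (nat_lit 0) (nat_lit 52765939893) (nat_lit 76) (nat_lit 25044737214) (nat_lit 76) (nat_lit 16274511193) (nat_lit 9) (nat_lit 4) (nat_lit 10) (nat_lit 5) (nat_lit 10) (nat_lit 4) (nat_lit 498) (nat_lit 388) (nat_lit 314)) (XT.lf (nat_lit 0) (nat_lit 76291908165) (nat_lit 76) (nat_lit 15379054199) (nat_lit 76) (nat_lit 6597222034) (nat_lit 9) (nat_lit 4) (nat_lit 10) (nat_lit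 5) (nat_lit 10) (nat_lit 4) (nat_lit 499) (nat_lit 388) (nat_lit 313))))) (XT.nd (nat_lit 312) (nat_lit 76) (nat_lit 0) (XT.nd (nat_lit 156) (nat_lit 0) (nat_lit 0) (XT.nd (nat_lit 78) (nat_lit 76) (nat_lit 0) (XT.lf (nat_lit 0) (nat_lit 3424573271) (nat_lit 152) (nat_lit 1772510429) (nat_lit 76) (nat_lit 97461729514) (nat_lit 8) (nat_lit 5) (nat_lit 10) (nat_lit 5) (nat_lit 9) (nat_lit 4) (nat_lit 500) (nat_lit 388) (nat_lit 312)) (XT.lf (nat_lit 0) (nat_lit 14104981413) (nat_lit 152) (nat_lit 87418844577) (nat_lit 0) (nat_lit 5720778794) (nat_lit 7) (nat_lit 5) (nat_lit 9) (nat_lit 4) (nat_lit 7) (nat_lit 4) (nat_lit 501) (nat_lit 388) (nat_lit 311))) (XT.nd (nat_lit 78) (nat_lit 0) (nat_lit 0) (XT.lf (nat_lit 0) (nat_lit 25411065427) (nat_lit 152) (nat_lit 69626723825) (nat_lit 0) (nat_lit 17017314404) (nat_lit 7) (nat_lit 5) (nat_lit 9) (nat_lit 4) (nat_lit 7) (nat_lit 4) (nat_lit 502)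 (nat_lit 388) (nat_lit 310)) (XT.lf (nat_lit 0) (nat_lit 37259545971) (nat_lit 152) (nat_lit 50991026127) (nat_lit 0) (nat_lit 28856701230) (nat_lit 7) (nat_lit 5) (nat_lit 9) (nat_lit 4) (nat_lit 7) (nat_lit 4) (nat_lit 503) (nat_lit 388) (nat_lit 309)))) (XT.nd (nat_lit 156) (nat_lit 76) (nat_lit 0) (XT.nd (nat_lit 78) (nat_lit 0) (nat_lit 0) (XT.lf (nat_lit 0) (nat_lit 49678633712) (nat_lit 152) (nat_lit 31467380776) (nat_lit 0) (nat_lit 41267128288) (nat_lit 7) (nat_lit 5) (nat_lit 9) (nat_lit 4) (nat_lit 7) (nat_lit 4) (nat_lit 504) (nat_lit 388) (nat_lit 308)) (XT.lf (nat_lit 0) (nat_lit 62697897908) (nat_lit 152) (nat_lit 11009302900) (nat_lit 0) (nat_lit 54278144214) (nat_lit 7) (nat_lit 5) (nat_lit 9) (nat_lit 4) (nat_lit 7) (nat_lit 4) (nat_lit 505) (nat_lit 388) (nat_lit 307))) (XT.nd (nat_lit 78) (nat_lit 0) (nat_lit 0) (XT.lf (nat_lit 0) (nat_lit 10776843502) (nat_lit 76) (nat_lit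 65739750033) (nat_lit 76) (nat_lit 57312140843) (nat_lit 6) (nat_lit 4) (nat_lit 7) (nat_lit 5) (nat_lit 7) (nat_lit 4) (nat_lit 506) (nat_lit 388) (nat_lit 306)) (XT.lf (nat_lit 0) (nat_lit 33995395019) (nat_lit 76) (nat_lit 57197819821) (nat_lit 76) (nat_lit 48762729207) (nat_lit 6) (nat_lit 4) (nat_lit 7) (nat_lit 5) (nat_lit 7) (nat_lit 4) (nat_lit 507) (nat_lit 388) (nat_lit 305))))))))
noncomputable def xc67 : XT := (XT.nd (nat_lit 2184) (nat_lit 152) (nat_lit 0) (XT.nd (nat_lit 1092) (nat_lit 76) (nat_lit 0) (XT.nd (nat_lit 546) (nat_lit 0) (nat_lit 0) (XT.nd (nat_lit 234) (nat_lit 152) (nat_lit 0) (XT.nd (nat_lit 78) (nat_lit 0) (nat_lit 0) (XT.lf (nat_lit 0) (nat_lit 58337616641) (nat_lit 76) (nat_lit 48247520115) (nat_lit 76) (nat_lit 39805304336) (nat_lit 6) (nat_lit 4) (nat_lit 7) (nat_lit 5) (nat_lit 7) (nat_lit 4) (nat_lit 508) (nat_lit 388) (nat_lit 304)) (XT.nd (nat_lit 78)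 (nat_lit 0) (nat_lit 0) (XT.lf (nat_lit 0) (nat_lit 83861466040) (nat_lit 76) (nat_lit 38867540678) (nat_lit 76) (nat_lit 30418539027) (nat_lit 6) (nat_lit 4) (nat_lit 7) (nat_lit 5) (nat_lit 7) (nat_lit 4) (nat_lit 509) (nat_lit 388) (nat_lit 303)) (XT.lf (nat_lit 0) (nat_lit 110627714285) (nat_lit 76) (nat_lit 29035548226) (nat_lit 76) (nat_lit 20580083839) (nat_lit 6) (nat_lit 4) (nat_lit 7) (nat_lit 5) (nat_lit 7) (nat_lit 4) (nat_lit 510) (nat_lit 388) (nat_lit 302)))) (XT.nd (nat_lit 156) (nat_lit 76) (nat_lit 0) (XT.nd (nat_lit 78) (nat_lit 76) (nat_lit 0) (XT.lf (nat_lit 0) (nat_lit 138700090539) (nat_lit 76) (nat_lit 18728133252) (nat_lit 76) (nat_lit 10266513879) (nat_lit 6) (nat_lit 4) (nat_lit 7) (nat_lit 5) (nat_lit 7) (nat_lit 4) (nat_lit 511) (nat_lit 388) (nat_lit 301)) (XT.lf (nat_lit 0) (nat_lit 529228293) (nat_lit 152) (nat_lit 7382563263) (nat_lit 76) (nat_lit 167607242763)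 (nat_lit 5) (nat_lit 5) (nat_lit 7) (nat_lit 5) (nat_lit 6) (nat_lit 4) (nat_lit 512) (nat_lit 388) (nat_lit 300))) (XT.nd (nat_lit 78) (nat_lit 0) (nat_lit 0) (XT.lf (nat_lit 0) (nat_lit 11809035929) (nat_lit 152) (nat_lit 168163178794) (nat_lit 0) (nat_lit 3739451149) (nat_lit 4) (nat_lit 5) (nat_lit 6) (nat_lit 4) (nat_lit 4) (nat_lit 4) (nat_lit 513) (nat_lit 388) (nat_lit 299)) (XT.lf (nat_lit 0) (nat_lit 23894872405) (nat_lit 152) (nat_lit 152586731037) (nat_lit 0) (nat_lit 15820223903) (nat_lit 4) (nat_lit 5) (nat_lit 6) (nat_lit 4) (nat_lit 4) (nat_lit 4) (nat_lit 514) (nat_lit 388) (nat_lit 298))))) (XT.nd (nat_lit 234) (nat_lit 0) (nat_lit 0) (XT.nd (nat_lit 78) (nat_lit 0) (nat_lit 0) (XT.lf (nat_lit 0) (nat_lit 36570962656) (nat_lit 152) (nat_lit 136259744827) (nat_lit 0) (nat_lit 28491491561) (nat_lit 4) (nat_lit 5) (nat_lit 6) (nat_lit 4) (nat_lit 4) (nat_lit 4) (nat_lit 515)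 (nat_lit 388) (nat_lit 297)) (XT.nd (nat_lit 78) (nat_lit 0) (nat_lit 0) (XT.lf (nat_lit 0) (nat_lit 49867487849) (nat_lit 152) (nat_lit 119143346387) (nat_lit 0) (nat_lit 41783423810) (nat_lit 4) (nat_lit 5) (nat_lit 6) (nat_lit 4) (nat_lit 4) (nat_lit 4) (nat_lit 516) (nat_lit 388) (nat_lit 296)) (XT.lf (nat_lit 0) (nat_lit 63816106378) (nat_lit 152) (nat_lit 101196782388) (nat_lit 0) (nat_lit 55727668105) (nat_lit 4) (nat_lit 5) (nat_lit 6) (nat_lit 4) (nat_lit 4) (nat_lit 4) (nat_lit 517) (nat_lit 388) (nat_lit 295)))) (XT.nd (nat_lit 156) (nat_lit 0) (nat_lit 0) (XT.nd (nat_lit 78) (nat_lit 0) (nat_lit 0) (XT.lf (nat_lit 0) (nat_lit 78450029240) (nat_lit 152) (nat_lit 82377322915) (nat_lit 0) (nat_lit 70357425030) (nat_lit 4) (nat_lit 5) (nat_lit 6) (nat_lit 4) (nat_lit 4) (nat_lit 4) (nat_lit 518) (nat_lit 388) (nat_lit 294)) (XT.lf (nat_lit 0) (nat_lit 93804099107) (nat_lit 152) (nat_lit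 62640159732) (nat_lit 0) (nat_lit 85707527338) (nat_lit 4) (nat_lit 5) (nat_lit 6) (nat_lit 4) (nat_lit 4) (nat_lit 4) (nat_lit 519) (nat_lit 388) (nat_lit 293))) (XT.nd (nat_lit 78) (nat_lit 0) (nat_lit 0) (XT.lf (nat_lit 0) (nat_lit 109914873289) (nat_lit 152) (nat_lit 41938299593) (nat_lit 0) (nat_lit 101814522892) (nat_lit 4) (nat_lit 5) (nat_lit 6) (nat_lit 4) (nat_lit 4) (nat_lit 4) (nat_lit 520) (nat_lit 388) (nat_lit 292)) (XT.lf (nat_lit 0) (nat_lit 126820710772) (nat_lit 152) (nat_lit 20222452355) (nat_lit 0) (nat_lit 118716761682) (nat_lit 4) (nat_lit 5) (nat_lit 6) (nat_lit 4) (nat_lit 4) (nat_lit 4) (nat_lit 521) (nat_lit 388) (nat_lit 291)))))) (XT.nd (nat_lit 546) (nat_lit 0) (nat_lit 0) (XT.nd (nat_lit 234) (nat_lit 0) (nat_lit 0) (XT.nd (nat_lit 78) (nat_lit 0) (nat_lit 0) (XT.lf (nat_lit 0) (nat_lit 2643701332) (nat_lit 76) (nat_lit 141959437804) (nat_lit 76) (nat_lit 133852061388)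 (nat_lit 3) (nat_lit 4) (nat_lit 4) (nat_lit 5) (nat_lit 4) (nat_lit 4) (nat_lit 522) (nat_lit 388) (nat_lit 290)) (XT.nd (nat_lit 78) (nat_lit 0) (nat_lit 0) (XT.lf (nat_lit 0) (nat_lit 27335463930) (nat_lit 76) (nat_lit 136271891731) (nat_lit 76) (nat_lit 128161251195) (nat_lit 3) (nat_lit 4) (nat_lit 4) (nat_lit 5) (nat_lit 4) (nat_lit 4) (nat_lit 523) (nat_lit 388) (nat_lit 289)) (XT.lf (nat_lit 0) (nat_lit 53242979747) (nat_lit 76) (nat_lit 130309460150) (nat_lit 76) (nat_lit 122195710927) (nat_lit 3) (nat_lit 4) (nat_lit 4) (nat_lit 5) (nat_lit 4) (nat_lit 4) (nat_lit 524) (nat_lit 388) (nat_lit 288)))) (XT.nd (nat_lit 156) (nat_lit 0) (nat_lit 0) (XT.nd (nat_lit 78) (nat_lit 0) (nat_lit 0) (XT.lf (nat_lit 0) (nat_lit 80427933343) (nat_lit 76) (nat_lit 124057946794) (nat_lit 76) (nat_lit 115941236917) (nat_lit 3) (nat_lit 4) (nat_lit 4) (nat_lit 5) (nat_lit 4) (nat_lit 4) (nat_lit 525)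 (nat_lit 388) (nat_lit 287)) (XT.lf (nat_lit 0) (nat_lit 108955050799) (nat_lit 76) (nat_lit 117502467107) (nat_lit 76) (nat_lit 109382937561) (nat_lit 3) (nat_lit 4) (nat_lit 4) (nat_lit 5) (nat_lit 4) (nat_lit 4) (nat_lit 526) (nat_lit 388) (nat_lit 286))) (XT.nd (nat_lit 78) (nat_lit 0) (nat_lit 0) (XT.lf (nat_lit 0) (nat_lit 138892253823) (nat_lit 76) (nat_lit 110627412805) (nat_lit 76) (nat_lit 102505197858) (nat_lit 3) (nat_lit 4) (nat_lit 4) (nat_lit 5) (nat_lit 4) (nat_lit 4) (nat_lit 527) (nat_lit 388) (nat_lit 285)) (XT.lf (nat_lit 0) (nat_lit 170310821470) (nat_lit 76) (nat_lit 103416414710) (nat_lit 76) (nat_lit 95291642240) (nat_lit 3) (nat_lit 4) (nat_lit 4) (nat_lit 5) (nat_lit 4) (nat_lit 4) (nat_lit 528) (nat_lit 388) (nat_lit 284))))) (XT.nd (nat_lit 234) (nat_lit 0) (nat_lit 0) (XT.nd (nat_lit 78) (nat_lit 0) (nat_lit 0) (XT.lf (nat_lit 0) (nat_lit 203285559854) (nat_lit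 76) (nat_lit 95852303780) (nat_lit 76) (nat_lit 87725095572) (nat_lit 3) (nat_lit 4) (nat_lit 4) (nat_lit 5) (nat_lit 4) (nat_lit 4) (nat_lit 529) (nat_lit 388) (nat_lit 283)) (XT.nd (nat_lit 78) (nat_lit 0) (nat_lit 0) (XT.lf (nat_lit 0) (nat_lit 237894980255) (nat_lit 76) (nat_lit 87917070226) (nat_lit 76) (nat_lit 79787542269) (nat_lit 3) (nat_lit 4) (nat_lit 4) (nat_lit 5) (nat_lit 4) (nat_lit 4) (nat_lit 530) (nat_lit 388) (nat_lit 282)) (XT.lf (nat_lit 0) (nat_lit 274221486057) (nat_lit 76) (nat_lit 79591820636) (nat_lit 76) (nat_lit 71460083394) (nat_lit 3) (nat_lit 4) (nat_lit 4) (nat_lit 5) (nat_lit 4) (nat_lit 4) (nat_lit 531) (nat_lit 388) (nat_lit 281)))) (XT.nd (nat_lit 156) (nat_lit 0) (nat_lit 0) (XT.nd (nat_lit 78) (nat_lit 0) (nat_lit 0) (XT.lf (nat_lit 0) (nat_lit 312351568940) (nat_lit 76) (nat_lit 70856732986) (nat_lit 76) (nat_lit 62722891663) (nat_lit 3) (nat_lit 4) (nat_lit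 4) (nat_lit 5) (nat_lit 4) (nat_lit 4) (nat_lit 532) (nat_lit 388) (nat_lit 280)) (XT.lf (nat_lit 0) (nat_lit 352376014815) (nat_lit 76) (nat_lit 61691009449) (nat_lit 76) (nat_lit 53555164239) (nat_lit 3) (nat_lit 4) (nat_lit 4) (nat_lit 5) (nat_lit 4) (nat_lit 4) (nat_lit 533) (nat_lit 388) (nat_lit 279))) (XT.nd (nat_lit 78) (nat_lit 0) (nat_lit 0) (XT.lf (nat_lit 0) (nat_lit 394390119981) (nat_lit 76) (nat_lit 52072826874) (nat_lit 76) (nat_lit 43935073200) (nat_lit 3) (nat_lit 4) (nat_lit 4) (nat_lit 5) (nat_lit 4) (nat_lit 4) (nat_lit 534) (nat_lit 388) (nat_lit 278)) (XT.lf (nat_lit 0) (nat_lit 438493918024) (nat_lit 76) (nat_lit 41979284825) (nat_lit 76) (nat_lit 33839713567) (nat_lit 3) (nat_lit 4) (nat_lit 4) (nat_lit 5) (nat_lit 4) (nat_lit 4) (nat_lit 535) (nat_lit 388) (nat_lit 277))))))) (XT.nd (nat_lit 53898) (nat_lit 0) (nat_lit 4332) (XT.nd (nat_lit 546) (nat_lit 0) (nat_lit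 0) (XT.nd (nat_lit 234) (nat_lit 152) (nat_lit 0) (XT.nd (nat_lit 78) (nat_lit 0) (nat_lit 0) (XT.lf (nat_lit 0) (nat_lit 484792417985) (nat_lit 76) (nat_lit 31386351060) (nat_lit 76) (nat_lit 23245048769) (nat_lit 3) (nat_lit 4) (nat_lit 4) (nat_lit 5) (nat_lit 4) (nat_lit 4) (nat_lit 536) (nat_lit 388) (nat_lit 276)) (XT.nd (nat_lit 78) (nat_lit 0) (nat_lit 0) (XT.lf (nat_lit 0) (nat_lit 533395854388) (nat_lit 76) (nat_lit 20268804309) (nat_lit 76) (nat_lit 12125853415) (nat_lit 3) (nat_lit 4) (nat_lit 4) (nat_lit 5) (nat_lit 4) (nat_lit 4) (nat_lit 537) (nat_lit 388) (nat_lit 275)) (XT.lf (nat_lit 0) (nat_lit 584419949702) (nat_lit 76) (nat_lit 8600174220) (nat_lit 76) (nat_lit 455653229) (nat_lit 3) (nat_lit 4) (nat_lit 4) (nat_lit 5) (nat_lit 4) (nat_lit 4) (nat_lit 538) (nat_lit 388) (nat_lit 274)))) (XT.nd (nat_lit 156) (nat_lit 0) (nat_lit 0) (XT.nd (nat_lit 78) (nat_lit 0) (nat_lit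 0) (XT.lf (nat_lit 0) (nat_lit 11725947993) (nat_lit 152) (nat_lit 606827035151) (nat_lit 0) (nat_lit 3967837209) (nat_lit 1) (nat_lit 5) (nat_lit 3) (nat_lit 4) (nat_lit 1) (nat_lit 4) (nat_lit 539) (nat_lit 388) (nat_lit 273)) (XT.lf (nat_lit 0) (nat_lit 24793618522) (nat_lit 152) (nat_lit 611175357238) (nat_lit 0) (nat_lit 17034151429) (nat_lit 1) (nat_lit 5) (nat_lit 3) (nat_lit 4) (nat_lit 1) (nat_lit 4) (nat_lit 540) (nat_lit 388) (nat_lit 272))) (XT.nd (nat_lit 78) (nat_lit 0) (nat_lit 0) (XT.lf (nat_lit 0) (nat_lit 38510326600) (nat_lit 152) (nat_lit 615749872353) (nat_lit 0) (nat_lit 30749567783) (nat_lit 1) (nat_lit 5) (nat_lit 3) (nat_lit 4) (nat_lit 1) (nat_lit 4) (nat_lit 541) (nat_lit 388) (nat_lit 271)) (XT.lf (nat_lit 0) (nat_lit 52908731053) (nat_lit 152) (nat_lit 620561472196) (nat_lit 0) (nat_lit 45146742024) (nat_lit 1) (nat_lit 5) (nat_lit 3) (nat_lit 4) (nat_lit 1) (nat_lit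 4) (nat_lit 542) (nat_lit 388) (nat_lit 270))))) (XT.nd (nat_lit 53040) (nat_lit 0) (nat_lit 6840) (XT.nd (nat_lit 78) (nat_lit 0) (nat_lit 0) (XT.lf (nat_lit 0) (nat_lit 68023113799) (nat_lit 152) (nat_lit 625621612959) (nat_lit 0) (nat_lit 60259953138) (nat_lit 1) (nat_lit 5) (nat_lit 3) (nat_lit 4) (nat_lit 1) (nat_lit 4) (nat_lit 543) (nat_lit 388) (nat_lit 269)) (XT.nd (nat_lit 78) (nat_lit 0) (nat_lit 0) (XT.lf (nat_lit 0) (nat_lit 83889461461) (nat_lit 152) (nat_lit 630942342595) (nat_lit 0) (nat_lit 76125184962) (nat_lit 1) (nat_lit 5) (nat_lit 3) (nat_lit 4) (nat_lit 1) (nat_lit 4) (nat_lit 544) (nat_lit 388) (nat_lit 268)) (XT.lf (nat_lit 0) (nat_lit 100545551060) (nat_lit 152) (nat_lit 636536329509) (nat_lit 0) (nat_lit 92780211856) (nat_lit 1) (nat_lit 5) (nat_lit 3) (nat_lit 4) (nat_lit 1) (nat_lit 4) (nat_lit 545) (nat_lit 388) (nat_lit 267)))) (XT.nd (nat_lit 156) (nat_lit 608)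 (nat_lit 0) (XT.nd (nat_lit 78) (nat_lit 304) (nat_lit 0) (XT.lf (nat_lit 0) (nat_lit 1381080666) (nat_lit 380) (nat_lit 1172980168) (nat_lit 0) (nat_lit 1381080666) (nat_lit 103) (nat_lit 5) (nat_lit 108) (nat_lit 4) (nat_lit 103) (nat_lit 4) (nat_lit 422) (nat_lit 389) (nat_lit 389)) (XT.lf (nat_lit 0) (nat_lit 4096594375) (nat_lit 304) (nat_lit 2582984061) (nat_lit 304) (nat_lit 1327356983) (nat_lit 99) (nat_lit 4) (nat_lit 103) (nat_lit 5) (nat_lit 103) (nat_lit 4) (nat_lit 423) (nat_lit 389) (nat_lit 388))) (XT.nd (nat_lit 78) (nat_lit 304) (nat_lit 0) (XT.lf (nat_lit 0) (nat_lit 2476987803) (nat_lit 304) (nat_lit 5533211562) (nat_lit 0) (nat_lit 142261717) (nat_lit 95) (nat_lit 5) (nat_lit 99) (nat_lit 4) (nat_lit 95) (nat_lit 4) (nat_lit 424) (nat_lit 389) (nat_lit 387)) (XT.lf (nat_lit 0) (nat_lit 1059419015) (nat_lit 304) (nat_lit 5332962226) (nat_lit 304) (nat_lit 1913578260) (nat_lit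 91) (nat_lit 4) (nat_lit 95) (nat_lit 5) (nat_lit 95) (nat_lit 4) (nat_lit 425) (nat_lit 389) (nat_lit 386)))))) (XT.nd (nat_lit 546) (nat_lit 1216) (nat_lit 0) (XT.nd (nat_lit 234) (nat_lit 684) (nat_lit 0) (XT.nd (nat_lit 78) (nat_lit 532) (nat_lit 0) (XT.lf (nat_lit 0) (nat_lit 1907405971) (nat_lit 380) (nat_lit 542209228) (nat_lit 76) (nat_lit 6019170509) (nat_lit 90) (nat_lit 5) (nat_lit 95) (nat_lit 5) (nat_lit 91) (nat_lit 4) (nat_lit 426) (nat_lit 389) (nat_lit 385)) (XT.nd (nat_lit 78) (nat_lit 304) (nat_lit 0) (XT.lf (nat_lit 0) (nat_lit 5814823102) (nat_lit 304) (nat_lit 2187943727) (nat_lit 0) (nat_lit 637482016) (nat_lit 87) (nat_lit 5) (nat_lit 91) (nat_lit 4) (nat_lit 87) (nat_lit 4) (nat_lit 427) (nat_lit 389) (nat_lit 384)) (XT.lf (nat_lit 0) (nat_lit 1039349919) (nat_lit 304) (nat_lit 3939024472) (nat_lit 76) (nat_lit 3842241087) (nat_lit 83) (nat_lit 5) (nat_lit 87) (nat_lit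 5) (nat_lit 84) (nat_lit 4) (nat_lit 428) (nat_lit 389) (nat_lit 383)))) (XT.nd (nat_lit 156) (nat_lit 228) (nat_lit 0) (XT.nd (nat_lit 78) (nat_lit 228) (nat_lit 0) (XT.lf (nat_lit 0) (nat_lit 3214040668) (nat_lit 228) (nat_lit 1729174115) (nat_lit 304) (nat_lit 4067471688) (nat_lit 80) (nat_lit 5) (nat_lit 83) (nat_lit 5) (nat_lit 84) (nat_lit 4) (nat_lit 429) (nat_lit 389) (nat_lit 382)) (XT.lf (nat_lit 0) (nat_lit 1456840194) (nat_lit 228) (nat_lit 7557866313) (nat_lit 228) (nat_lit 196972933) (nat_lit 77) (nat_lit 4) (nat_lit 80) (nat_lit 5) (nat_lit 80) (nat_lit 4) (nat_lit 430) (nat_lit 389) (nat_lit 381))) (XT.nd (nat_lit 78) (nat_lit 152) (nat_lit 0) (XT.lf (nat_lit 0) (nat_lit 3728219477) (nat_lit 304) (nat_lit 452182598) (nat_lit 76) (nat_lit 5240090662) (nat_lit 76) (nat_lit 5) (nat_lit 80) (nat_lit 5) (nat_lit 77) (nat_lit 4) (nat_lit 431) (nat_lit 389) (nat_lit 380)) (XT.lf (nat_lit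 0) (nat_lit 7236088318) (nat_lit 152) (nat_lit 583570699) (nat_lit 228) (nat_lit 1821130520) (nat_lit 74) (nat_lit 5) (nat_lit 76) (nat_lit 5) (nat_lit 77) (nat_lit 4) (nat_lit 432) (nat_lit 389) (nat_lit 379))))) (XT.nd (nat_lit 312) (nat_lit 532) (nat_lit 0) (XT.nd (nat_lit 156) (nat_lit 228) (nat_lit 0) (XT.nd (nat_lit 78) (nat_lit 152) (nat_lit 0) (XT.lf (nat_lit 0) (nat_lit 2179052758) (nat_lit 304) (nat_lit 4542559479) (nat_lit 76) (nat_lit 3148404363) (nat_lit 70) (nat_lit 5) (nat_lit 74) (nat_lit 5) (nat_lit 71) (nat_lit 4) (nat_lit 433) (nat_lit 389) (nat_lit 378)) (XT.lf (nat_lit 0) (nat_lit 3274606976) (nat_lit 152) (nat_lit 3012321171) (nat_lit 228) (nat_lit 3823869825) (nat_lit 68) (nat_lit 5) (nat_lit 70) (nat_lit 5) (nat_lit 71) (nat_lit 4) (nat_lit 434) (nat_lit 389) (nat_lit 377))) (XT.nd (nat_lit 78) (nat_lit 0) (nat_lit 0) (XT.lf (nat_lit 0) (nat_lit 206243677) (nat_lit 228)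 (nat_lit 9280831850) (nat_lit 76) (nat_lit 877523509) (nat_lit 65) (nat_lit 5) (nat_lit 68) (nat_lit 5) (nat_lit 66) (nat_lit 4) (nat_lit 435) (nat_lit 389) (nat_lit 376)) (XT.lf (nat_lit 0) (nat_lit 4345947211) (nat_lit 228) (nat_lit 1316178591) (nat_lit 76) (nat_lit 4964026313) (nat_lit 65) (nat_lit 5) (nat_lit 68) (nat_lit 5) (nat_lit 66) (nat_lit 4) (nat_lit 436) (nat_lit 389) (nat_lit 375)))) (XT.nd (nat_lit 156) (nat_lit 152) (nat_lit 0) (XT.nd (nat_lit 78) (nat_lit 228) (nat_lit 0) (XT.lf (nat_lit 0) (nat_lit 7069183542) (nat_lit 152) (nat_lit 1609571671) (nat_lit 228) (nat_lit 2222746292) (nat_lit 63) (nat_lit 5) (nat_lit 65) (nat_lit 5) (nat_lit 66) (nat_lit 4) (nat_lit 437) (nat_lit 389) (nat_lit 374)) (XT.lf (nat_lit 0) (nat_lit 1986138561) (nat_lit 228) (nat_lit 6590794317) (nat_lit 76) (nat_lit 2611428762) (nat_lit 60) (nat_lit 5) (nat_lit 63) (nat_lit 5) (nat_lit 61) (nat_lit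 4) (nat_lit 438) (nat_lit 389) (nat_lit 373))) (XT.nd (nat_lit 78) (nat_lit 0) (nat_lit 0) (XT.lf (nat_lit 0) (nat_lit 1886052595) (nat_lit 152) (nat_lit 4444516633) (nat_lit 228) (nat_lit 5157204879) (nat_lit 58) (nat_lit 5) (nat_lit 60) (nat_lit 5) (nat_lit 61) (nat_lit 4) (nat_lit 439) (nat_lit 389) (nat_lit 372)) (XT.lf (nat_lit 0) (nat_lit 10812782913) (nat_lit 152) (nat_lit 71701664) (nat_lit 228) (nat_lit 918079720) (nat_lit 58) (nat_lit 5) (nat_lit 60) (nat_lit 5) (nat_lit 61) (nat_lit 4) (nat_lit 440) (nat_lit 389) (nat_lit 371))))))))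
noncomputable def xc68 : XT := (XT.nd (nat_lit 2184) (nat_lit 1140) (nat_lit 0) (XT.nd (nat_lit 1092) (nat_lit 912) (nat_lit 0) (XT.nd (nat_lit 546) (nat_lit 684) (nat_lit 0) (XT.nd (nat_lit 234) (nat_lit 304) (nat_lit 0) (XT.nd (nat_lit 78) (nat_lit 380) (nat_lit 0) (XT.lf (nat_lit 0) (nat_lit 3502448470) (nat_lit 228) (nat_lit 4143542668) (nat_lit 76) (nat_lit 4480236984) (nat_lit 55) (nat_lit 5) (nat_lit 58) (nat_lit 5) (nat_lit 56) (nat_lit 4) (nat_lit 441) (nat_lit 389) (nat_lit 370)) (XT.nd (nat_lit 78) (nat_lit 228) (nat_lit 0) (XT.lf (nat_lit 0) (nat_lit 4915534648) (nat_lit 152) (nat_lit 3178236163) (nat_lit 228) (nat_lit 4372538240) (nat_lit 53) (nat_lit 5) (nat_lit 55) (nat_lit 5) (nat_lit 56) (nat_lit 4) (nat_lit 442) (nat_lit 389) (nat_lit 369)) (XT.lf (nat_lit 0) (nat_lit 94779019) (nat_lit 228) (nat_lit 11246667882) (nat_lit 76) (nat_lit 1481570009) (nat_lit 50) (nat_lit 5) (nat_lit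 53) (nat_lit 5) (nat_lit 51) (nat_lit 4) (nat_lit 443) (nat_lit 389) (nat_lit 368)))) (XT.nd (nat_lit 156) (nat_lit 228) (nat_lit 0) (XT.nd (nat_lit 78) (nat_lit 76) (nat_lit 0) (XT.lf (nat_lit 0) (nat_lit 4707854371) (nat_lit 228) (nat_lit 2094913390) (nat_lit 76) (nat_lit 6387756562) (nat_lit 50) (nat_lit 5) (nat_lit 53) (nat_lit 5) (nat_lit 51) (nat_lit 4) (nat_lit 444) (nat_lit 389) (nat_lit 367)) (XT.lf (nat_lit 0) (nat_lit 7566271054) (nat_lit 76) (nat_lit 1996075139) (nat_lit 152) (nat_lit 4013537175) (nat_lit 49) (nat_lit 5) (nat_lit 50) (nat_lit 5) (nat_lit 51) (nat_lit 4) (nat_lit 445) (nat_lit 389) (nat_lit 366))) (XT.nd (nat_lit 78) (nat_lit 0) (nat_lit 0) (XT.lf (nat_lit 0) (nat_lit 692608840) (nat_lit 228) (nat_lit 10307035653) (nat_lit 76) (nat_lit 2978584308) (nat_lit 46) (nat_lit 5) (nat_lit 49) (nat_lit 5) (nat_lit 47) (nat_lit 4) (nat_lit 446) (nat_lit 389) (nat_lit 365))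 (XT.lf (nat_lit 0) (nat_lit 5529296255) (nat_lit 228) (nat_lit 642791827) (nat_lit 76) (nat_lit 8223820313) (nat_lit 46) (nat_lit 5) (nat_lit 49) (nat_lit 5) (nat_lit 47) (nat_lit 4) (nat_lit 447) (nat_lit 389) (nat_lit 364))))) (XT.nd (nat_lit 234) (nat_lit 380) (nat_lit 0) (XT.nd (nat_lit 78) (nat_lit 228) (nat_lit 0) (XT.lf (nat_lit 0) (nat_lit 9630341478) (nat_lit 76) (nat_lit 1026831823) (nat_lit 152) (nat_lit 4174842747) (nat_lit 45) (nat_lit 5) (nat_lit 46) (nat_lit 5) (nat_lit 47) (nat_lit 4) (nat_lit 448) (nat_lit 389) (nat_lit 363)) (XT.nd (nat_lit 78) (nat_lit 0) (nat_lit 0) (XT.lf (nat_lit 0) (nat_lit 786534725) (nat_lit 228) (nat_lit 10239505510) (nat_lit 76) (nat_lit 4260359290) (nat_lit 42) (nat_lit 5) (nat_lit 45) (nat_lit 5) (nat_lit 43) (nat_lit 4) (nat_lit 449) (nat_lit 389) (nat_lit 362)) (XT.lf (nat_lit 0) (nat_lit 5862131096) (nat_lit 228) (nat_lit 41002783) (nat_lit 76)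 (nat_lit 9856633919) (nat_lit 42) (nat_lit 5) (nat_lit 45) (nat_lit 5) (nat_lit 43) (nat_lit 4) (nat_lit 450) (nat_lit 389) (nat_lit 361)))) (XT.nd (nat_lit 156) (nat_lit 76) (nat_lit 0) (XT.nd (nat_lit 78) (nat_lit 228) (nat_lit 0) (XT.lf (nat_lit 0) (nat_lit 10839431553) (nat_lit 76) (nat_lit 426149432) (nat_lit 152) (nat_lit 4987529560) (nat_lit 41) (nat_lit 5) (nat_lit 42) (nat_lit 5) (nat_lit 43) (nat_lit 4) (nat_lit 451) (nat_lit 389) (nat_lit 360)) (XT.lf (nat_lit 0) (nat_lit 237640365) (nat_lit 228) (nat_lit 11362631243) (nat_lit 76) (nat_lit 5166979589) (nat_lit 38) (nat_lit 5) (nat_lit 41) (nat_lit 5) (nat_lit 39) (nat_lit 4) (nat_lit 452) (nat_lit 389) (nat_lit 359))) (XT.nd (nat_lit 78) (nat_lit 76) (nat_lit 0) (XT.lf (nat_lit 0) (nat_lit 5562358325) (nat_lit 228) (nat_lit 616822669) (nat_lit 76) (nat_lit 11123543006) (nat_lit 38) (nat_lit 5) (nat_lit 41) (nat_lit 5) (nat_lit 39)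 (nat_lit 4) (nat_lit 453) (nat_lit 389) (nat_lit 358)) (XT.lf (nat_lit 0) (nat_lit 10845947071) (nat_lit 76) (nat_lit 386920647) (nat_lit 152) (nat_lit 6628132963) (nat_lit 37) (nat_lit 5) (nat_lit 38) (nat_lit 5) (nat_lit 39) (nat_lit 4) (nat_lit 454) (nat_lit 389) (nat_lit 357)))))) (XT.nd (nat_lit 546) (nat_lit 456) (nat_lit 0) (XT.nd (nat_lit 234) (nat_lit 228) (nat_lit 0) (XT.nd (nat_lit 78) (nat_lit 152) (nat_lit 0) (XT.lf (nat_lit 0) (nat_lit 4338390891) (nat_lit 76) (nat_lit 12926503100) (nat_lit 76) (nat_lit 1178405270) (nat_lit 36) (nat_lit 4) (nat_lit 37) (nat_lit 5) (nat_lit 37) (nat_lit 4) (nat_lit 455) (nat_lit 389) (nat_lit 356)) (XT.nd (nat_lit 78) (nat_lit 76) (nat_lit 0) (XT.lf (nat_lit 0) (nat_lit 4436425453) (nat_lit 152) (nat_lit 2793172559) (nat_lit 76) (nat_lit 11819672258) (nat_lit 35) (nat_lit 5) (nat_lit 37) (nat_lit 5) (nat_lit 36) (nat_lit 4) (nat_lit 456) (nat_lit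 389) (nat_lit 355)) (XT.lf (nat_lit 0) (nat_lit 9199047218) (nat_lit 76) (nat_lit 1152164612) (nat_lit 152) (nat_lit 9330427876) (nat_lit 34) (nat_lit 5) (nat_lit 35) (nat_lit 5) (nat_lit 36) (nat_lit 4) (nat_lit 457) (nat_lit 389) (nat_lit 354)))) (XT.nd (nat_lit 156) (nat_lit 76) (nat_lit 0) (XT.nd (nat_lit 78) (nat_lit 76) (nat_lit 0) (XT.lf (nat_lit 0) (nat_lit 1344572115) (nat_lit 76) (nat_lit 15283487877) (nat_lit 76) (nat_lit 3714257779) (nat_lit 33) (nat_lit 4) (nat_lit 34) (nat_lit 5) (nat_lit 34) (nat_lit 4) (nat_lit 458) (nat_lit 389) (nat_lit 353)) (XT.lf (nat_lit 0) (nat_lit 2227982624) (nat_lit 152) (nat_lit 7116835847) (nat_lit 76) (nat_lit 11683756922) (nat_lit 32) (nat_lit 5) (nat_lit 34) (nat_lit 5) (nat_lit 33) (nat_lit 4) (nat_lit 459) (nat_lit 389) (nat_lit 352))) (XT.nd (nat_lit 78) (nat_lit 0) (nat_lit 0) (XT.lf (nat_lit 0) (nat_lit 5314141644) (nat_lit 76) (nat_lit 3031144810)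 (nat_lit 152) (nat_lit 13400681652) (nat_lit 31) (nat_lit 5) (nat_lit 32) (nat_lit 5) (nat_lit 33) (nat_lit 4) (nat_lit 460) (nat_lit 389) (nat_lit 351)) (XT.lf (nat_lit 0) (nat_lit 14867284859) (nat_lit 152) (nat_lit 4091130991) (nat_lit 0) (nat_lit 3535878303) (nat_lit 31) (nat_lit 5) (nat_lit 33) (nat_lit 4) (nat_lit 31) (nat_lit 4) (nat_lit 461) (nat_lit 389) (nat_lit 350))))) (XT.nd (nat_lit 234) (nat_lit 228) (nat_lit 0) (XT.nd (nat_lit 78) (nat_lit 152) (nat_lit 0) (XT.lf (nat_lit 0) (nat_lit 8957389979) (nat_lit 76) (nat_lit 12871484815) (nat_lit 76) (nat_lit 1445492049) (nat_lit 30) (nat_lit 4) (nat_lit 31) (nat_lit 5) (nat_lit 31) (nat_lit 4) (nat_lit 462) (nat_lit 389) (nat_lit 349)) (XT.nd (nat_lit 78) (nat_lit 76) (nat_lit 0) (XT.lf (nat_lit 0) (nat_lit 4878144928) (nat_lit 152) (nat_lit 1515877766) (nat_lit 76) (nat_lit 17695760598) (nat_lit 29) (nat_lit 5) (nat_lit 31) (nat_lit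 5) (nat_lit 30) (nat_lit 4) (nat_lit 463) (nat_lit 389) (nat_lit 348)) (XT.lf (nat_lit 0) (nat_lit 11595620326) (nat_lit 152) (nat_lit 12796635082) (nat_lit 0) (nat_lit 546222849) (nat_lit 28) (nat_lit 5) (nat_lit 30) (nat_lit 4) (nat_lit 28) (nat_lit 4) (nat_lit 464) (nat_lit 389) (nat_lit 347)))) (XT.nd (nat_lit 156) (nat_lit 152) (nat_lit 0) (XT.nd (nat_lit 78) (nat_lit 0) (nat_lit 0) (XT.lf (nat_lit 0) (nat_lit 477114439) (nat_lit 76) (nat_lit 18238197130) (nat_lit 76) (nat_lit 7110983345) (nat_lit 27) (nat_lit 4) (nat_lit 28) (nat_lit 5) (nat_lit 28) (nat_lit 4) (nat_lit 465) (nat_lit 389) (nat_lit 346)) (XT.lf (nat_lit 0) (nat_lit 14721405480) (nat_lit 76) (nat_lit 11615563138) (nat_lit 76) (nat_lit 414238582) (nat_lit 27) (nat_lit 4) (nat_lit 28) (nat_lit 5) (nat_lit 28) (nat_lit 4) (nat_lit 466) (nat_lit 389) (nat_lit 345))) (XT.nd (nat_lit 78) (nat_lit 0) (nat_lit 0) (XT.lf (nat_lit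 0) (nat_lit 1775931383) (nat_lit 76) (nat_lit 4588867458) (nat_lit 152) (nat_lit 21354441406) (nat_lit 25) (nat_lit 5) (nat_lit 26) (nat_lit 5) (nat_lit 27) (nat_lit 4) (nat_lit 467) (nat_lit 389) (nat_lit 344)) (XT.lf (nat_lit 0) (nat_lit 13651229011) (nat_lit 152) (nat_lit 12222931085) (nat_lit 0) (nat_lit 2852060540) (nat_lit 25) (nat_lit 5) (nat_lit 27) (nat_lit 4) (nat_lit 25) (nat_lit 4) (nat_lit 468) (nat_lit 389) (nat_lit 343))))))) (XT.nd (nat_lit 1092) (nat_lit 456) (nat_lit 0) (XT.nd (nat_lit 546) (nat_lit 304) (nat_lit 0) (XT.nd (nat_lit 234) (nat_lit 152) (nat_lit 0) (XT.nd (nat_lit 78) (nat_lit 152) (nat_lit 0) (XT.lf (nat_lit 0) (nat_lit 2046733091) (nat_lit 76) (nat_lit 19297425410) (nat_lit 76) (nat_lit 8437285825) (nat_lit 24) (nat_lit 4) (nat_lit 25) (nat_lit 5) (nat_lit 25) (nat_lit 4) (nat_lit 469) (nat_lit 389) (nat_lit 342)) (XT.nd (nat_lit 78) (nat_lit 152) (nat_lit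 0) (XT.lf (nat_lit 0) (nat_lit 17329268249) (nat_lit 76) (nat_lit 12235607120) (nat_lit 76) (nat_lit 1317399807) (nat_lit 24) (nat_lit 4) (nat_lit 25) (nat_lit 5) (nat_lit 25) (nat_lit 4) (nat_lit 470) (nat_lit 389) (nat_lit 341)) (XT.lf (nat_lit 0) (nat_lit 1157621727) (nat_lit 76) (nat_lit 4760003461) (nat_lit 152) (nat_lit 26117904838) (nat_lit 22) (nat_lit 5) (nat_lit 23) (nat_lit 5) (nat_lit 24) (nat_lit 4) (nat_lit 471) (nat_lit 389) (nat_lit 340)))) (XT.nd (nat_lit 156) (nat_lit 152) (nat_lit 0) (XT.nd (nat_lit 78) (nat_lit 0) (nat_lit 0) (XT.lf (nat_lit 0) (nat_lit 13690005097) (nat_lit 152) (nat_lit 16355489259) (nat_lit 0) (nat_lit 3188882191) (nat_lit 22) (nat_lit 5) (nat_lit 24) (nat_lit 4) (nat_lit 22) (nat_lit 4) (nat_lit 472) (nat_lit 389) (nat_lit 339)) (XT.lf (nat_lit 0) (nat_lit 21870325973) (nat_lit 152) (nat_lit 1300445205) (nat_lit 0) (nat_lit 11321430604) (nat_lit 22)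 (nat_lit 5) (nat_lit 24) (nat_lit 4) (nat_lit 22) (nat_lit 4) (nat_lit 473) (nat_lit 389) (nat_lit 338))) (XT.nd (nat_lit 78) (nat_lit 76) (nat_lit 0) (XT.lf (nat_lit 0) (nat_lit 14873428805) (nat_lit 76) (nat_lit 15762534876) (nat_lit 76) (nat_lit 5168141923) (nat_lit 21) (nat_lit 4) (nat_lit 22) (nat_lit 5) (nat_lit 22) (nat_lit 4) (nat_lit 474) (nat_lit 389) (nat_lit 337)) (XT.lf (nat_lit 0) (nat_lit 2539737325) (nat_lit 152) (nat_lit 5431262467) (nat_lit 76) (nat_lit 29210204806) (nat_lit 20) (nat_lit 5) (nat_lit 22) (nat_lit 5) (nat_lit 21) (nat_lit 4) (nat_lit 475) (nat_lit 389) (nat_lit 336))))) (XT.nd (nat_lit 234) (nat_lit 152) (nat_lit 0) (XT.nd (nat_lit 78) (nat_lit 76) (nat_lit 0) (XT.lf (nat_lit 0) (nat_lit 10584654484) (nat_lit 152) (nat_lit 27617817290) (nat_lit 0) (nat_lit 414186260) (nat_lit 19) (nat_lit 5) (nat_lit 21) (nat_lit 4) (nat_lit 19) (nat_lit 4) (nat_lit 476) (nat_lit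 389) (nat_lit 335)) (XT.nd (nat_lit 78) (nat_lit 76) (nat_lit 0) (XT.lf (nat_lit 0) (nat_lit 19202922248) (nat_lit 152) (nat_lit 11917385555) (nat_lit 0) (nat_lit 8995023049) (nat_lit 19) (nat_lit 5) (nat_lit 21) (nat_lit 4) (nat_lit 19) (nat_lit 4) (nat_lit 477) (nat_lit 389) (nat_lit 334)) (XT.lf (nat_lit 0) (nat_lit 4615870410) (nat_lit 76) (nat_lit 23657769830) (nat_lit 76) (nat_lit 13414222083) (nat_lit 18) (nat_lit 4) (nat_lit 19) (nat_lit 5) (nat_lit 19) (nat_lit 4) (nat_lit 478) (nat_lit 389) (nat_lit 333)))) (XT.nd (nat_lit 156) (nat_lit 76) (nat_lit 0) (XT.nd (nat_lit 78) (nat_lit 76) (nat_lit 0) (XT.lf (nat_lit 0) (nat_lit 22291211694) (nat_lit 76) (nat_lit 15658850394) (nat_lit 76) (nat_lit 5381351649) (nat_lit 18) (nat_lit 4) (nat_lit 19) (nat_lit 5) (nat_lit 19) (nat_lit 4) (nat_lit 479) (nat_lit 389) (nat_lit 332)) (XT.lf (nat_lit 0) (nat_lit 2907371069) (nat_lit 152) (nat_lit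 4349722335) (nat_lit 76) (nat_lit 37800071048) (nat_lit 17) (nat_lit 5) (nat_lit 19) (nat_lit 5) (nat_lit 18) (nat_lit 4) (nat_lit 480) (nat_lit 389) (nat_lit 331))) (XT.nd (nat_lit 78) (nat_lit 0) (nat_lit 0) (XT.lf (nat_lit 0) (nat_lit 11622129648) (nat_lit 152) (nat_lit 33459128313) (nat_lit 0) (nat_lit 1773912901) (nat_lit 16) (nat_lit 5) (nat_lit 18) (nat_lit 4) (nat_lit 16) (nat_lit 4) (nat_lit 481) (nat_lit 389) (nat_lit 330)) (XT.lf (nat_lit 0) (nat_lit 20920781504) (nat_lit 152) (nat_lit 16770256588) (nat_lit 0) (nat_lit 11044633188) (nat_lit 16) (nat_lit 5) (nat_lit 18) (nat_lit 4) (nat_lit 16) (nat_lit 4) (nat_lit 482) (nat_lit 389) (nat_lit 329)))))) (XT.nd (nat_lit 546) (nat_lit 228) (nat_lit 0) (XT.nd (nat_lit 234) (nat_lit 152) (nat_lit 0) (XT.nd (nat_lit 78) (nat_lit 0) (nat_lit 0) (XT.lf (nat_lit 0) (nat_lit 688628585) (nat_lit 76) (nat_lit 29962978633) (nat_lit 76) (nat_lit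 20060228821) (nat_lit 15) (nat_lit 4) (nat_lit 16) (nat_lit 5) (nat_lit 16) (nat_lit 4) (nat_lit 483) (nat_lit 389) (nat_lit 328)) (XT.nd (nat_lit 78) (nat_lit 0) (nat_lit 0) (XT.lf (nat_lit 0) (nat_lit 19517607591) (nat_lit 76) (nat_lit 21592612519) (nat_lit 76) (nat_lit 11664527950) (nat_lit 15) (nat_lit 4) (nat_lit 16) (nat_lit 5) (nat_lit 16) (nat_lit 4) (nat_lit 484) (nat_lit 389) (nat_lit 327)) (XT.lf (nat_lit 0) (nat_lit 39207010911) (nat_lit 76) (nat_lit 12844022717) (nat_lit 76) (nat_lit 2891809808) (nat_lit 15) (nat_lit 4) (nat_lit 16) (nat_lit 5) (nat_lit 16) (nat_lit 4) (nat_lit 485) (nat_lit 389) (nat_lit 326)))) (XT.nd (nat_lit 156) (nat_lit 0) (nat_lit 0) (XT.nd (nat_lit 78) (nat_lit 0) (nat_lit 0) (XT.lf (nat_lit 0) (nat_lit 2566549519) (nat_lit 76) (nat_lit 3551373310) (nat_lit 152) (nat_lit 51096456431) (nat_lit 13) (nat_lit 5) (nat_lit 14) (nat_lit 5) (nat_lit 15) (nat_lit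 4) (nat_lit 486) (nat_lit 389) (nat_lit 325)) (XT.lf (nat_lit 0) (nat_lit 15809356880) (nat_lit 152) (nat_lit 37483015025) (nat_lit 0) (nat_lit 6288330788) (nat_lit 13) (nat_lit 5) (nat_lit 15) (nat_lit 4) (nat_lit 13) (nat_lit 4) (nat_lit 487) (nat_lit 389) (nat_lit 324))) (XT.nd (nat_lit 78) (nat_lit 0) (nat_lit 0) (XT.lf (nat_lit 0) (nat_lit 26006100190) (nat_lit 152) (nat_lit 19592982611) (nat_lit 0) (nat_lit 16465223653) (nat_lit 13) (nat_lit 5) (nat_lit 15) (nat_lit 4) (nat_lit 13) (nat_lit 4) (nat_lit 488) (nat_lit 389) (nat_lit 323)) (XT.lf (nat_lit 0) (nat_lit 36676983829) (nat_lit 152) (nat_lit 879690292) (nat_lit 0) (nat_lit 27117202106) (nat_lit 13) (nat_lit 5) (nat_lit 15) (nat_lit 4) (nat_lit 13) (nat_lit 4) (nat_lit 489) (nat_lit 389) (nat_lit 322))))) (XT.nd (nat_lit 234) (nat_lit 152) (nat_lit 0) (XT.nd (nat_lit 78) (nat_lit 0) (nat_lit 0) (XT.lf (nat_lit 0) (nat_lit 19319770704)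 (nat_lit 76) (nat_lit 28829279724) (nat_lit 76) (nat_lit 19251493061) (nat_lit 12) (nat_lit 4) (nat_lit 13) (nat_lit 5) (nat_lit 13) (nat_lit 4) (nat_lit 490) (nat_lit 389) (nat_lit 321)) (XT.nd (nat_lit 78) (nat_lit 0) (nat_lit 0) (XT.lf (nat_lit 0) (nat_lit 40492990700) (nat_lit 76) (nat_lit 19683207322) (nat_lit 76) (nat_lit 10088273099) (nat_lit 12) (nat_lit 4) (nat_lit 13) (nat_lit 5) (nat_lit 13) (nat_lit 4) (nat_lit 491) (nat_lit 389) (nat_lit 320)) (XT.lf (nat_lit 0) (nat_lit 62661295589) (nat_lit 76) (nat_lit 10111578537) (nat_lit 76) (nat_lit 500313303) (nat_lit 12) (nat_lit 4) (nat_lit 13) (nat_lit 5) (nat_lit 13) (nat_lit 4) (nat_lit 492) (nat_lit 389) (nat_lit 319)))) (XT.nd (nat_lit 156) (nat_lit 0) (nat_lit 0) (XT.nd (nat_lit 78) (nat_lit 0) (nat_lit 0) (XT.lf (nat_lit 0) (nat_lit 9383411484) (nat_lit 152) (nat_lit 66820318972) (nat_lit 0) (nat_lit 215012839) (nat_lit 10) (nat_lit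 5) (nat_lit 12) (nat_lit 4) (nat_lit 10) (nat_lit 4) (nat_lit 493) (nat_lit 389) (nat_lit 318)) (XT.lf (nat_lit 0) (nat_lit 20062173661) (nat_lit 152) (nat_lit 48763443011) (nat_lit 0) (nat_lit 10879667676) (nat_lit 10) (nat_lit 5) (nat_lit 12) (nat_lit 4) (nat_lit 10) (nat_lit 4) (nat_lit 494) (nat_lit 389) (nat_lit 317))) (XT.nd (nat_lit 78) (nat_lit 0) (nat_lit 0) (XT.lf (nat_lit 0) (nat_lit 31245576485) (nat_lit 152) (nat_lit 29862406604) (nat_lit 0) (nat_lit 22049634937) (nat_lit 10) (nat_lit 5) (nat_lit 12) (nat_lit 4) (nat_lit 10) (nat_lit 4) (nat_lit 495) (nat_lit 389) (nat_lit 316)) (XT.lf (nat_lit 0) (nat_lit 42960247104) (nat_lit 152) (nat_lit 10072207284) (nat_lit 0) (nat_lit 33751509782) (nat_lit 10) (nat_lit 5) (nat_lit 12) (nat_lit 4) (nat_lit 10) (nat_lit 4) (nat_lit 496) (nat_lit 389) (nat_lit 315))))))))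
noncomputable def xc69 : XT := (XT.nd (nat_lit 2184) (nat_lit 152) (nat_lit 0) (XT.nd (nat_lit 1092) (nat_lit 228) (nat_lit 0) (XT.nd (nat_lit 546) (nat_lit 76) (nat_lit 0) (XT.nd (nat_lit 234) (nat_lit 152) (nat_lit 0) (XT.nd (nat_lit 78) (nat_lit 0) (nat_lit 0) (XT.lf (nat_lit 0) (nat_lit 11006552899) (nat_lit 76) (nat_lit 44399367829) (nat_lit 76) (nat_lit 35178444055) (nat_lit 9) (nat_lit 4) (nat_lit 10) (nat_lit 5) (nat_lit 10) (nat_lit 4) (nat_lit 497) (nat_lit 389) (nat_lit 314)) (XT.nd (nat_lit 78) (nat_lit 0) (nat_lit 0) (XT.lf (nat_lit 0) (nat_lit 33436566363) (nat_lit 76) (nat_lit 35181763496) (nat_lit 76) (nat_lit 25949233579) (nat_lit 9) (nat_lit 4) (nat_lit 10) (nat_lit 5) (nat_lit 10) (nat_lit 4) (nat_lit 498) (nat_lit 389) (nat_lit 313)) (XT.lf (nat_lit 0) (nat_lit 56938205240) (nat_lit 76) (nat_lit 25528272419) (nat_lit 76) (nat_lit 16284689031) (nat_lit 9) (nat_lit 4) (nat_lit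 10) (nat_lit 5) (nat_lit 10) (nat_lit 4) (nat_lit 499) (nat_lit 389) (nat_lit 312)))) (XT.nd (nat_lit 156) (nat_lit 76) (nat_lit 0) (XT.nd (nat_lit 78) (nat_lit 76) (nat_lit 0) (XT.lf (nat_lit 0) (nat_lit 81567425814) (nat_lit 76) (nat_lit 15415910095) (nat_lit 76) (nat_lit 6161799592) (nat_lit 9) (nat_lit 4) (nat_lit 10) (nat_lit 5) (nat_lit 10) (nat_lit 4) (nat_lit 500) (nat_lit 389) (nat_lit 311)) (XT.lf (nat_lit 0) (nat_lit 4301315926) (nat_lit 152) (nat_lit 446438676) (nat_lit 76) (nat_lit 103008708293) (nat_lit 8) (nat_lit 5) (nat_lit 10) (nat_lit 5) (nat_lit 9) (nat_lit 4) (nat_lit 501) (nat_lit 389) (nat_lit 310))) (XT.nd (nat_lit 78) (nat_lit 0) (nat_lit 0) (XT.lf (nat_lit 0) (nat_lit 15514781045) (nat_lit 152) (nat_lit 90374111549) (nat_lit 0) (nat_lit 6682700349) (nat_lit 7) (nat_lit 5) (nat_lit 9) (nat_lit 4) (nat_lit 7) (nat_lit 4) (nat_lit 502) (nat_lit 389) (nat_lit 309)) (XT.lf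 (nat_lit 0) (nat_lit 27352619233) (nat_lit 152) (nat_lit 71759797867) (nat_lit 0) (nat_lit 18511877853) (nat_lit 7) (nat_lit 5) (nat_lit 9) (nat_lit 4) (nat_lit 7) (nat_lit 4) (nat_lit 503) (nat_lit 389) (nat_lit 308))))) (XT.nd (nat_lit 234) (nat_lit 76) (nat_lit 0) (XT.nd (nat_lit 78) (nat_lit 0) (nat_lit 0) (XT.lf (nat_lit 0) (nat_lit 39761571397) (nat_lit 152) (nat_lit 52256518244) (nat_lit 0) (nat_lit 30912581748) (nat_lit 7) (nat_lit 5) (nat_lit 9) (nat_lit 4) (nat_lit 7) (nat_lit 4) (nat_lit 504) (nat_lit 389) (nat_lit 307)) (XT.nd (nat_lit 78) (nat_lit 0) (nat_lit 0) (XT.lf (nat_lit 0) (nat_lit 52771182662) (nat_lit 152) (nat_lit 31817836300) (nat_lit 0) (nat_lit 43914337518) (nat_lit 7) (nat_lit 5) (nat_lit 9) (nat_lit 4) (nat_lit 7) (nat_lit 4) (nat_lit 505) (nat_lit 389) (nat_lit 306)) (XT.lf (nat_lit 0) (nat_lit 66412428293) (nat_lit 152) (nat_lit 10395088508) (nat_lit 0) (nat_lit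 57548101725) (nat_lit 7) (nat_lit 5) (nat_lit 9) (nat_lit 4) (nat_lit 7) (nat_lit 4) (nat_lit 506) (nat_lit 389) (nat_lit 305)))) (XT.nd (nat_lit 156) (nat_lit 0) (nat_lit 0) (XT.nd (nat_lit 78) (nat_lit 0) (nat_lit 0) (XT.lf (nat_lit 0) (nat_lit 12461580060) (nat_lit 76) (nat_lit 68450767574) (nat_lit 76) (nat_lit 59579315840) (nat_lit 6) (nat_lit 4) (nat_lit 7) (nat_lit 5) (nat_lit 7) (nat_lit 4) (nat_lit 507) (nat_lit 389) (nat_lit 304)) (XT.lf (nat_lit 0) (nat_lit 36786492754) (nat_lit 76) (nat_lit 59509167992) (nat_lit 76) (nat_lit 50630930386) (nat_lit 6) (nat_lit 4) (nat_lit 7) (nat_lit 5) (nat_lit 7) (nat_lit 4) (nat_lit 508) (nat_lit 389) (nat_lit 303))) (XT.nd (nat_lit 78) (nat_lit 0) (nat_lit 0) (XT.lf (nat_lit 0) (nat_lit 62293857458) (nat_lit 76) (nat_lit 50137474388) (nat_lit 76) (nat_lit 41252774046) (nat_lit 6) (nat_lit 4) (nat_lit 7) (nat_lit 5) (nat_lit 7) (nat_lit 4) (nat_lit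 509) (nat_lit 389) (nat_lit 302)) (XT.lf (nat_lit 0) (nat_lit 89044405995) (nat_lit 76) (nat_lit 40313373204) (nat_lit 76) (nat_lit 31422517876) (nat_lit 6) (nat_lit 4) (nat_lit 7) (nat_lit 5) (nat_lit 7) (nat_lit 4) (nat_lit 510) (nat_lit 389) (nat_lit 301)))))) (XT.nd (nat_lit 546) (nat_lit 76) (nat_lit 0) (XT.nd (nat_lit 234) (nat_lit 76) (nat_lit 0) (XT.nd (nat_lit 78) (nat_lit 76) (nat_lit 0) (XT.lf (nat_lit 0) (nat_lit 117101830145) (nat_lit 76) (nat_lit 30013473725) (nat_lit 76) (nat_lit 21116756506) (nat_lit 6) (nat_lit 4) (nat_lit 7) (nat_lit 5) (nat_lit 7) (nat_lit 4) (nat_lit 511) (nat_lit 389) (nat_lit 300)) (XT.nd (nat_lit 78) (nat_lit 76) (nat_lit 0) (XT.lf (nat_lit 0) (nat_lit 146532933300) (nat_lit 76) (nat_lit 19213252380) (nat_lit 76) (nat_lit 10310952406) (nat_lit 6) (nat_lit 4) (nat_lit 7) (nat_lit 5) (nat_lit 7) (nat_lit 4) (nat_lit 512) (nat_lit 389) (nat_lit 299)) (XT.lf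 (nat_lit 0) (nat_lit 987956231) (nat_lit 152) (nat_lit 6882306607) (nat_lit 76) (nat_lit 176403101767) (nat_lit 5) (nat_lit 5) (nat_lit 7) (nat_lit 5) (nat_lit 6) (nat_lit 4) (nat_lit 513) (nat_lit 389) (nat_lit 298)))) (XT.nd (nat_lit 156) (nat_lit 0) (nat_lit 0) (XT.nd (nat_lit 78) (nat_lit 0) (nat_lit 0) (XT.lf (nat_lit 0) (nat_lit 12831243320) (nat_lit 152) (nat_lit 175701434270) (nat_lit 0) (nat_lit 4342976078) (nat_lit 4) (nat_lit 5) (nat_lit 6) (nat_lit 4) (nat_lit 4) (nat_lit 4) (nat_lit 514) (nat_lit 389) (nat_lit 297)) (XT.lf (nat_lit 0) (nat_lit 25500811830) (nat_lit 152) (nat_lit 159387588099) (nat_lit 0) (nat_lit 17007951643) (nat_lit 4) (nat_lit 5) (nat_lit 6) (nat_lit 4) (nat_lit 4) (nat_lit 4) (nat_lit 515) (nat_lit 389) (nat_lit 296))) (XT.nd (nat_lit 78) (nat_lit 0) (nat_lit 0) (XT.lf (nat_lit 0) (nat_lit 38791125841) (nat_lit 152) (nat_lit 142283703983) (nat_lit 0) (nat_lit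 30293891420) (nat_lit 4) (nat_lit 5) (nat_lit 6) (nat_lit 4) (nat_lit 4) (nat_lit 4) (nat_lit 516) (nat_lit 389) (nat_lit 295)) (XT.lf (nat_lit 0) (nat_lit 52733828958) (nat_lit 152) (nat_lit 124349058387) (nat_lit 0) (nat_lit 44232428601) (nat_lit 4) (nat_lit 5) (nat_lit 6) (nat_lit 4) (nat_lit 4) (nat_lit 4) (nat_lit 517) (nat_lit 389) (nat_lit 294))))) (XT.nd (nat_lit 234) (nat_lit 76) (nat_lit 0) (XT.nd (nat_lit 78) (nat_lit 0) (nat_lit 0) (XT.lf (nat_lit 0) (nat_lit 67362118094) (nat_lit 152) (nat_lit 105540949774) (nat_lit 0) (nat_lit 58856750177) (nat_lit 4) (nat_lit 5) (nat_lit 6) (nat_lit 4) (nat_lit 4) (nat_lit 4) (nat_lit 518) (nat_lit 389) (nat_lit 293)) (XT.nd (nat_lit 78) (nat_lit 0) (nat_lit 0) (XT.lf (nat_lit 0) (nat_lit 82710822508) (nat_lit 152) (nat_lit 85814596934) (nat_lit 0) (nat_lit 74201675964) (nat_lit 4) (nat_lit 5) (nat_lit 6) (nat_lit 4) (nat_lit 4) (nat_lit 4) (nat_lit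 519) (nat_lit 389) (nat_lit 292)) (XT.lf (nat_lit 0) (nat_lit 98816486735) (nat_lit 152) (nat_lit 65123032360) (nat_lit 0) (nat_lit 90303741498) (nat_lit 4) (nat_lit 5) (nat_lit 6) (nat_lit 4) (nat_lit 4) (nat_lit 4) (nat_lit 520) (nat_lit 389) (nat_lit 291)))) (XT.nd (nat_lit 156) (nat_lit 76) (nat_lit 0) (XT.nd (nat_lit 78) (nat_lit 0) (nat_lit 0) (XT.lf (nat_lit 0) (nat_lit 115717457594) (nat_lit 152) (nat_lit 43416990422) (nat_lit 0) (nat_lit 107201285030) (nat_lit 4) (nat_lit 5) (nat_lit 6) (nat_lit 4) (nat_lit 4) (nat_lit 4) (nat_lit 521) (nat_lit 389) (nat_lit 290)) (XT.lf (nat_lit 0) (nat_lit 133453975492) (nat_lit 152) (nat_lit 20644790067) (nat_lit 0) (nat_lit 124934538808) (nat_lit 4) (nat_lit 5) (nat_lit 6) (nat_lit 4) (nat_lit 4) (nat_lit 4) (nat_lit 522) (nat_lit 389) (nat_lit 289))) (XT.nd (nat_lit 78) (nat_lit 0) (nat_lit 0) (XT.lf (nat_lit 0) (nat_lit 3355174774) (nat_lit 76)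 (nat_lit 148765479140) (nat_lit 76) (nat_lit 140242933770) (nat_lit 3) (nat_lit 4) (nat_lit 4) (nat_lit 5) (nat_lit 4) (nat_lit 4) (nat_lit 523) (nat_lit 389) (nat_lit 288)) (XT.lf (nat_lit 0) (nat_lit 29253940341) (nat_lit 76) (nat_lit 142807457219) (nat_lit 76) (nat_lit 134281951196) (nat_lit 3) (nat_lit 4) (nat_lit 4) (nat_lit 5) (nat_lit 4) (nat_lit 4) (nat_lit 524) (nat_lit 389) (nat_lit 287))))))) (XT.nd (nat_lit 1092) (nat_lit 152) (nat_lit 0) (XT.nd (nat_lit 546) (nat_lit 0) (nat_lit 0) (XT.nd (nat_lit 234) (nat_lit 0) (nat_lit 0) (XT.nd (nat_lit 78) (nat_lit 0) (nat_lit 0) (XT.lf (nat_lit 0) (nat_lit 56430560366) (nat_lit 76) (nat_lit 136560143540) (nat_lit 76) (nat_lit 128031817846) (nat_lit 3) (nat_lit 4) (nat_lit 4) (nat_lit 5) (nat_lit 4) (nat_lit 4) (nat_lit 525) (nat_lit 389) (nat_lit 286)) (XT.nd (nat_lit 78) (nat_lit 0) (nat_lit 0) (XT.lf (nat_lit 0) (nat_lit 84949741088) (nat_lit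 76) (nat_lit 130008663545) (nat_lit 76) (nat_lit 121477652451) (nat_lit 3) (nat_lit 4) (nat_lit 4) (nat_lit 5) (nat_lit 4) (nat_lit 4) (nat_lit 526) (nat_lit 389) (nat_lit 285)) (XT.lf (nat_lit 0) (nat_lit 114879385318) (nat_lit 76) (nat_lit 123137418473) (nat_lit 76) (nat_lit 114603849856) (nat_lit 3) (nat_lit 4) (nat_lit 4) (nat_lit 5) (nat_lit 4) (nat_lit 4) (nat_lit 527) (nat_lit 389) (nat_lit 284)))) (XT.nd (nat_lit 156) (nat_lit 0) (nat_lit 0) (XT.nd (nat_lit 78) (nat_lit 0) (nat_lit 0) (XT.lf (nat_lit 0) (nat_lit 146290754114) (nat_lit 76) (nat_lit 115930048217) (nat_lit 76) (nat_lit 107394043863) (nat_lit 3) (nat_lit 4) (nat_lit 4) (nat_lit 5) (nat_lit 4) (nat_lit 4) (nat_lit 528) (nat_lit 389) (nat_lit 283)) (XT.lf (nat_lit 0) (nat_lit 179258636448) (nat_lit 76) (nat_lit 108369392372) (nat_lit 76) (nat_lit 99831068267) (nat_lit 3) (nat_lit 4) (nat_lit 4) (nat_lit 5) (nat_lit 4) (nat_lit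 4) (nat_lit 529) (nat_lit 389) (nat_lit 282))) (XT.nd (nat_lit 78) (nat_lit 0) (nat_lit 0) (XT.lf (nat_lit 0) (nat_lit 213861527279) (nat_lit 76) (nat_lit 100437449375) (nat_lit 76) (nat_lit 91896915985) (nat_lit 3) (nat_lit 4) (nat_lit 4) (nat_lit 5) (nat_lit 4) (nat_lit 4) (nat_lit 530) (nat_lit 389) (nat_lit 281)) (XT.lf (nat_lit 0) (nat_lit 250181814442) (nat_lit 76) (nat_lit 92115333648) (nat_lit 76) (nat_lit 83572696177) (nat_lit 3) (nat_lit 4) (nat_lit 4) (nat_lit 5) (nat_lit 4) (nat_lit 4) (nat_lit 531) (nat_lit 389) (nat_lit 280))))) (XT.nd (nat_lit 234) (nat_lit 0) (nat_lit 0) (XT.nd (nat_lit 78) (nat_lit 0) (nat_lit 0) (XT.lf (nat_lit 0) (nat_lit 288305974812) (nat_lit 76) (nat_lit 83383230630) (nat_lit 76) (nat_lit 74838589272) (nat_lit 3) (nat_lit 4) (nat_lit 4) (nat_lit 5) (nat_lit 4) (nat_lit 4) (nat_lit 532) (nat_lit 389) (nat_lit 279)) (XT.nd (nat_lit 78) (nat_lit 0) (nat_lit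 0) (XT.lf (nat_lit 0) (nat_lit 328324780198) (nat_lit 76) (nat_lit 74220349599) (nat_lit 76) (nat_lit 65673799778) (nat_lit 3) (nat_lit 4) (nat_lit 4) (nat_lit 5) (nat_lit 4) (nat_lit 4) (nat_lit 533) (nat_lit 389) (nat_lit 278)) (XT.lf (nat_lit 0) (nat_lit 370333513470) (nat_lit 76) (nat_lit 64604874173) (nat_lit 76) (nat_lit 56056506768) (nat_lit 3) (nat_lit 4) (nat_lit 4) (nat_lit 5) (nat_lit 4) (nat_lit 4) (nat_lit 534) (nat_lit 389) (nat_lit 277)))) (XT.nd (nat_lit 156) (nat_lit 0) (nat_lit 0) (XT.nd (nat_lit 78) (nat_lit 0) (nat_lit 0) (XT.lf (nat_lit 0) (nat_lit 414432195423) (nat_lit 76) (nat_lit 54513910362) (nat_lit 76) (nat_lit 45963811923) (nat_lit 3) (nat_lit 4) (nat_lit 4) (nat_lit 5) (nat_lit 4) (nat_lit 4) (nat_lit 535) (nat_lit 389) (nat_lit 276)) (XT.lf (nat_lit 0) (nat_lit 460725822918) (nat_lit 76) (nat_lit 43923432061) (nat_lit 76) (nat_lit 35371685020) (nat_lit 3) (nat_lit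 4) (nat_lit 4) (nat_lit 5) (nat_lit 4) (nat_lit 4) (nat_lit 536) (nat_lit 389) (nat_lit 275))) (XT.nd (nat_lit 78) (nat_lit 0) (nat_lit 0) (XT.lf (nat_lit 0) (nat_lit 509324618878) (nat_lit 76) (nat_lit 32808223846) (nat_lit 76) (nat_lit 24254906707) (nat_lit 3) (nat_lit 4) (nat_lit 4) (nat_lit 5) (nat_lit 4) (nat_lit 4) (nat_lit 537) (nat_lit 389) (nat_lit 274)) (XT.lf (nat_lit 0) (nat_lit 560344294721) (nat_lit 76) (nat_lit 21141820936) (nat_lit 76) (nat_lit 12587008466) (nat_lit 3) (nat_lit 4) (nat_lit 4) (nat_lit 5) (nat_lit 4) (nat_lit 4) (nat_lit 538) (nat_lit 389) (nat_lit 273)))))) (XT.nd (nat_lit 53196) (nat_lit 0) (nat_lit 6536) (XT.nd (nat_lit 234) (nat_lit 0) (nat_lit 0) (XT.nd (nat_lit 78) (nat_lit 152) (nat_lit 0) (XT.lf (nat_lit 0) (nat_lit 613906325866) (nat_lit 76) (nat_lit 8896446181) (nat_lit 76) (nat_lit 340209586) (nat_lit 3) (nat_lit 4) (nat_lit 4) (nat_lit 5) (nat_lit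 4) (nat_lit 4) (nat_lit 539) (nat_lit 389) (nat_lit 272)) (XT.nd (nat_lit 78) (nat_lit 0) (nat_lit 0) (XT.lf (nat_lit 0) (nat_lit 12445910741) (nat_lit 152) (nat_lit 636898443035) (nat_lit 0) (nat_lit 4295822260) (nat_lit 1) (nat_lit 5) (nat_lit 3) (nat_lit 4) (nat_lit 1) (nat_lit 4) (nat_lit 540) (nat_lit 389) (nat_lit 271)) (XT.lf (nat_lit 0) (nat_lit 26160599780) (nat_lit 152) (nat_lit 641477035698) (nat_lit 0) (nat_lit 18009281087) (nat_lit 1) (nat_lit 5) (nat_lit 3) (nat_lit 4) (nat_lit 1) (nat_lit 4) (nat_lit 541) (nat_lit 389) (nat_lit 270)))) (XT.nd (nat_lit 156) (nat_lit 0) (nat_lit 0) (XT.nd (nat_lit 78) (nat_lit 0) (nat_lit 0) (XT.lf (nat_lit 0) (nat_lit 40557081340) (nat_lit 152) (nat_lit 646292518920) (nat_lit 0) (nat_lit 32404591016) (nat_lit 1) (nat_lit 5) (nat_lit 3) (nat_lit 4) (nat_lit 1) (nat_lit 4) (nat_lit 542) (nat_lit 389) (nat_lit 269)) (XT.lf (nat_lit 0) (nat_lit 55669632759)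 (nat_lit 152) (nat_lit 651356358139) (nat_lit 0) (nat_lit 47516026596) (nat_lit 1) (nat_lit 5) (nat_lit 3) (nat_lit 4) (nat_lit 1) (nat_lit 4) (nat_lit 543) (nat_lit 389) (nat_lit 268))) (XT.nd (nat_lit 78) (nat_lit 0) (nat_lit 0) (XT.lf (nat_lit 0) (nat_lit 71534236301) (nat_lit 152) (nat_lit 656680610115) (nat_lit 0) (nat_lit 63379567434) (nat_lit 1) (nat_lit 5) (nat_lit 3) (nat_lit 4) (nat_lit 1) (nat_lit 4) (nat_lit 544) (nat_lit 389) (nat_lit 267)) (XT.lf (nat_lit 0) (nat_lit 88188664832) (nat_lit 152) (nat_lit 662277951637) (nat_lit 0) (nat_lit 80032983866) (nat_lit 1) (nat_lit 5) (nat_lit 3) (nat_lit 4) (nat_lit 1) (nat_lit 4) (nat_lit 545) (nat_lit 389) (nat_lit 266))))) (XT.nd (nat_lit 312) (nat_lit 912) (nat_lit 0) (XT.nd (nat_lit 156) (nat_lit 608) (nat_lit 0) (XT.nd (nat_lit 78) (nat_lit 76) (nat_lit 0) (XT.lf (nat_lit 0) (nat_lit 390288499) (nat_lit 380) (nat_lit 1709602470) (nat_lit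 380) (nat_lit 1709602470) (nat_lit 108) (nat_lit 4) (nat_lit 113) (nat_lit 5) (nat_lit 113) (nat_lit 4) (nat_lit 420) (nat_lit 390) (nat_lit 390)) (XT.lf (nat_lit 0) (nat_lit 282289540) (nat_lit 456) (nat_lit 805635295) (nat_lit 76) (nat_lit 6655645568) (nat_lit 107) (nat_lit 5) (nat_lit 113) (nat_lit 5) (nat_lit 108) (nat_lit 4) (nat_lit 421) (nat_lit 390) (nat_lit 389))) (XT.nd (nat_lit 78) (nat_lit 304) (nat_lit 0) (XT.lf (nat_lit 0) (nat_lit 3999380117) (nat_lit 380) (nat_lit 2449649629) (nat_lit 0) (nat_lit 1425344607) (nat_lit 103) (nat_lit 5) (nat_lit 108) (nat_lit 4) (nat_lit 103) (nat_lit 4) (nat_lit 422) (nat_lit 390) (nat_lit 388)) (XT.lf (nat_lit 0) (nat_lit 3887459762) (nat_lit 304) (nat_lit 3948748807) (nat_lit 304) (nat_lit 178877985) (nat_lit 99) (nat_lit 4) (nat_lit 103) (nat_lit 5) (nat_lit 103) (nat_lit 4) (nat_lit 423) (nat_lit 390) (nat_lit 387)))) (XT.nd (nat_lit 156)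 (nat_lit 304) (nat_lit 0) (XT.nd (nat_lit 78) (nat_lit 304) (nat_lit 0) (XT.lf (nat_lit 0) (nat_lit 2275654567) (nat_lit 228) (nat_lit 1228938682) (nat_lit 304) (nat_lit 4659355701) (nat_lit 95) (nat_lit 5) (nat_lit 98) (nat_lit 5) (nat_lit 99) (nat_lit 4) (nat_lit 424) (nat_lit 390) (nat_lit 386)) (XT.lf (nat_lit 0) (nat_lit 607586700) (nat_lit 304) (nat_lit 6711475822) (nat_lit 304) (nat_lit 1003457274) (nat_lit 91) (nat_lit 4) (nat_lit 95) (nat_lit 5) (nat_lit 95) (nat_lit 4) (nat_lit 425) (nat_lit 390) (nat_lit 385))) (XT.nd (nat_lit 78) (nat_lit 228) (nat_lit 0) (XT.lf (nat_lit 0) (nat_lit 2714496609) (nat_lit 380) (nat_lit 1127117168) (nat_lit 76) (nat_lit 4646740568) (nat_lit 90) (nat_lit 5) (nat_lit 95) (nat_lit 5) (nat_lit 91) (nat_lit 4) (nat_lit 426) (nat_lit 390) (nat_lit 384)) (XT.lf (nat_lit 0) (nat_lit 5758197847) (nat_lit 228) (nat_lit 772046700) (nat_lit 304) (nat_lit 2134179044)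 (nat_lit 87) (nat_lit 5) (nat_lit 90) (nat_lit 5) (nat_lit 91) (nat_lit 4) (nat_lit 427) (nat_lit 390) (nat_lit 383))))))))
noncomputable def xc70 : XT := (XT.nd (nat_lit 2184) (nat_lit 1672) (nat_lit 0) (XT.nd (nat_lit 1092) (nat_lit 1368) (nat_lit 0) (XT.nd (nat_lit 546) (nat_lit 988) (nat_lit 0) (XT.nd (nat_lit 234) (nat_lit 608) (nat_lit 0) (XT.nd (nat_lit 78) (nat_lit 532) (nat_lit 0) (XT.lf (nat_lit 0) (nat_lit 1612917500) (nat_lit 304) (nat_lit 4808904075) (nat_lit 76) (nat_lit 2427227323) (nat_lit 83) (nat_lit 5) (nat_lit 87) (nat_lit 5) (nat_lit 84) (nat_lit 4) (nat_lit 428) (nat_lit 390) (nat_lit 382)) (XT.nd (nat_lit 78) (nat_lit 304) (nat_lit 0) (XT.lf (nat_lit 0) (nat_lit 2212539766) (nat_lit 228) (nat_lit 3220295905) (nat_lit 304) (nat_lit 3610501119) (nat_lit 80) (nat_lit 5) (nat_lit 83) (nat_lit 5) (nat_lit 84) (nat_lit 4) (nat_lit 429) (nat_lit 390) (nat_lit 381)) (XT.lf (nat_lit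 0) (nat_lit 141594904) (nat_lit 304) (nat_lit 8943653747) (nat_lit 76) (nat_lit 164399949) (nat_lit 76) (nat_lit 5) (nat_lit 80) (nat_lit 5) (nat_lit 77) (nat_lit 4) (nat_lit 430) (nat_lit 390) (nat_lit 380)))) (XT.nd (nat_lit 156) (nat_lit 456) (nat_lit 0) (XT.nd (nat_lit 78) (nat_lit 152) (nat_lit 0) (XT.lf (nat_lit 0) (nat_lit 3993961718) (nat_lit 304) (nat_lit 1745481918) (nat_lit 76) (nat_lit 3722207458) (nat_lit 76) (nat_lit 5) (nat_lit 80) (nat_lit 5) (nat_lit 77) (nat_lit 4) (nat_lit 431) (nat_lit 390) (nat_lit 379)) (XT.lf (nat_lit 0) (nat_lit 5800252800) (nat_lit 152) (nat_lit 2199377487) (nat_lit 228) (nat_lit 1686622251) (nat_lit 74) (nat_lit 5) (nat_lit 76) (nat_lit 5) (nat_lit 77) (nat_lit 4) (nat_lit 432) (nat_lit 390) (nat_lit 378))) (XT.nd (nat_lit 78) (nat_lit 152) (nat_lit 0) (XT.lf (nat_lit 0) (nat_lit 2194769434) (nat_lit 304) (nat_lit 6198976265) (nat_lit 76) (nat_lit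 1527367823) (nat_lit 70) (nat_lit 5) (nat_lit 74) (nat_lit 5) (nat_lit 71) (nat_lit 4) (nat_lit 433) (nat_lit 390) (nat_lit 377)) (XT.lf (nat_lit 0) (nat_lit 1462081735) (nat_lit 152) (nat_lit 4750382934) (nat_lit 228) (nat_lit 3953953137) (nat_lit 68) (nat_lit 5) (nat_lit 70) (nat_lit 5) (nat_lit 71) (nat_lit 4) (nat_lit 434) (nat_lit 390) (nat_lit 376))))) (XT.nd (nat_lit 234) (nat_lit 608) (nat_lit 0) (XT.nd (nat_lit 78) (nat_lit 380) (nat_lit 0) (XT.lf (nat_lit 0) (nat_lit 9523553131) (nat_lit 152) (nat_lit 888568773) (nat_lit 228) (nat_lit 12838684) (nat_lit 68) (nat_lit 5) (nat_lit 70) (nat_lit 5) (nat_lit 71) (nat_lit 4) (nat_lit 435) (nat_lit 390) (nat_lit 375)) (XT.nd (nat_lit 78) (nat_lit 152) (nat_lit 0) (XT.lf (nat_lit 0) (nat_lit 4038015559) (nat_lit 228) (nat_lit 3477340254) (nat_lit 76) (nat_lit 3175642898) (nat_lit 65) (nat_lit 5) (nat_lit 68) (nat_lit 5) (nat_lit 66) (nat_lit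 4) (nat_lit 436) (nat_lit 390) (nat_lit 374)) (XT.lf (nat_lit 0) (nat_lit 4738761673) (nat_lit 152) (nat_lit 3537953675) (nat_lit 228) (nat_lit 2694349603) (nat_lit 63) (nat_lit 5) (nat_lit 65) (nat_lit 5) (nat_lit 66) (nat_lit 4) (nat_lit 437) (nat_lit 390) (nat_lit 373)))) (XT.nd (nat_lit 156) (nat_lit 380) (nat_lit 0) (XT.nd (nat_lit 78) (nat_lit 0) (nat_lit 0) (XT.lf (nat_lit 0) (nat_lit 1400666474) (nat_lit 228) (nat_lit 9204064722) (nat_lit 76) (nat_lit 660020569) (nat_lit 60) (nat_lit 5) (nat_lit 63) (nat_lit 5) (nat_lit 61) (nat_lit 4) (nat_lit 438) (nat_lit 390) (nat_lit 372)) (XT.lf (nat_lit 0) (nat_lit 5658972899) (nat_lit 228) (nat_lit 883332697) (nat_lit 76) (nat_lit 5026174729) (nat_lit 60) (nat_lit 5) (nat_lit 63) (nat_lit 5) (nat_lit 61) (nat_lit 4) (nat_lit 439) (nat_lit 390) (nat_lit 371))) (XT.nd (nat_lit 78) (nat_lit 228) (nat_lit 0) (XT.lf (nat_lit 0) (nat_lit 7919985570)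 (nat_lit 152) (nat_lit 2223205832) (nat_lit 228) (nat_lit 1743573366) (nat_lit 58) (nat_lit 5) (nat_lit 60) (nat_lit 5) (nat_lit 61) (nat_lit 4) (nat_lit 440) (nat_lit 390) (nat_lit 370)) (XT.lf (nat_lit 0) (nat_lit 2565207528) (nat_lit 228) (nat_lit 7354988338) (nat_lit 76) (nat_lit 2297794088) (nat_lit 55) (nat_lit 5) (nat_lit 58) (nat_lit 5) (nat_lit 56) (nat_lit 4) (nat_lit 441) (nat_lit 390) (nat_lit 369)))))) (XT.nd (nat_lit 546) (nat_lit 608) (nat_lit 0) (XT.nd (nat_lit 234) (nat_lit 380) (nat_lit 0) (XT.nd (nat_lit 78) (nat_lit 228) (nat_lit 0) (XT.lf (nat_lit 0) (nat_lit 1502783419) (nat_lit 152) (nat_lit 5547345748) (nat_lit 228) (nat_lit 5513269882) (nat_lit 53) (nat_lit 5) (nat_lit 55) (nat_lit 5) (nat_lit 56) (nat_lit 4) (nat_lit 442) (nat_lit 390) (nat_lit 368)) (XT.nd (nat_lit 78) (nat_lit 228) (nat_lit 0) (XT.lf (nat_lit 0) (nat_lit 10873080587) (nat_lit 152) (nat_lit 904170359)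 (nat_lit 228) (nat_lit 1147945821) (nat_lit 53) (nat_lit 5) (nat_lit 55) (nat_lit 5) (nat_lit 56) (nat_lit 4) (nat_lit 443) (nat_lit 390) (nat_lit 367)) (XT.lf (nat_lit 0) (nat_lit 3401738453) (nat_lit 228) (nat_lit 5955325535) (nat_lit 76) (nat_lit 3941549972) (nat_lit 50) (nat_lit 5) (nat_lit 53) (nat_lit 5) (nat_lit 51) (nat_lit 4) (nat_lit 444) (nat_lit 390) (nat_lit 366)))) (XT.nd (nat_lit 156) (nat_lit 304) (nat_lit 0) (XT.nd (nat_lit 78) (nat_lit 0) (nat_lit 0) (XT.lf (nat_lit 0) (nat_lit 3486871893) (nat_lit 76) (nat_lit 4655786926) (nat_lit 152) (nat_lit 5546999445) (nat_lit 49) (nat_lit 5) (nat_lit 50) (nat_lit 5) (nat_lit 51) (nat_lit 4) (nat_lit 445) (nat_lit 390) (nat_lit 365)) (XT.lf (nat_lit 0) (nat_lit 13126124403) (nat_lit 152) (nat_lit 675451057) (nat_lit 0) (nat_lit 298417423) (nat_lit 49) (nat_lit 5) (nat_lit 51) (nat_lit 4) (nat_lit 49) (nat_lit 4) (nat_lit 446) (nat_lit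 390) (nat_lit 364))) (XT.nd (nat_lit 78) (nat_lit 76) (nat_lit 0) (XT.lf (nat_lit 0) (nat_lit 3833646883) (nat_lit 228) (nat_lit 5207745509) (nat_lit 76) (nat_lit 5480063198) (nat_lit 46) (nat_lit 5) (nat_lit 49) (nat_lit 5) (nat_lit 47) (nat_lit 4) (nat_lit 447) (nat_lit 390) (nat_lit 363)) (XT.lf (nat_lit 0) (nat_lit 4826835486) (nat_lit 76) (nat_lit 4012769439) (nat_lit 152) (nat_lit 6124059771) (nat_lit 45) (nat_lit 5) (nat_lit 46) (nat_lit 5) (nat_lit 47) (nat_lit 4) (nat_lit 448) (nat_lit 390) (nat_lit 362))))) (XT.nd (nat_lit 234) (nat_lit 304) (nat_lit 0) (XT.nd (nat_lit 78) (nat_lit 304) (nat_lit 0) (XT.lf (nat_lit 0) (nat_lit 14109807709) (nat_lit 152) (nat_lit 75442182) (nat_lit 0) (nat_lit 1242047768) (nat_lit 45) (nat_lit 5) (nat_lit 47) (nat_lit 4) (nat_lit 45) (nat_lit 4) (nat_lit 449) (nat_lit 390) (nat_lit 361)) (XT.nd (nat_lit 78) (nat_lit 76) (nat_lit 0) (XT.lf (nat_lit 0)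 (nat_lit 3752617957) (nat_lit 228) (nat_lit 5371531064) (nat_lit 76) (nat_lit 6779932969) (nat_lit 42) (nat_lit 5) (nat_lit 45) (nat_lit 5) (nat_lit 43) (nat_lit 4) (nat_lit 450) (nat_lit 390) (nat_lit 360)) (XT.lf (nat_lit 0) (nat_lit 5248699891) (nat_lit 76) (nat_lit 3775871813) (nat_lit 152) (nat_lit 7379432367) (nat_lit 41) (nat_lit 5) (nat_lit 42) (nat_lit 5) (nat_lit 43) (nat_lit 4) (nat_lit 451) (nat_lit 390) (nat_lit 359)))) (XT.nd (nat_lit 156) (nat_lit 76) (nat_lit 0) (XT.nd (nat_lit 78) (nat_lit 228) (nat_lit 0) (XT.lf (nat_lit 0) (nat_lit 14591265011) (nat_lit 152) (nat_lit 535347317) (nat_lit 0) (nat_lit 1800761671) (nat_lit 41) (nat_lit 5) (nat_lit 43) (nat_lit 4) (nat_lit 41) (nat_lit 4) (nat_lit 452) (nat_lit 390) (nat_lit 358)) (XT.lf (nat_lit 0) (nat_lit 3010807695) (nat_lit 228) (nat_lit 6780122082) (nat_lit 76) (nat_lit 7676373163) (nat_lit 38) (nat_lit 5) (nat_lit 41) (nat_lit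 5) (nat_lit 39) (nat_lit 4) (nat_lit 453) (nat_lit 390) (nat_lit 357))) (XT.nd (nat_lit 78) (nat_lit 0) (nat_lit 0) (XT.lf (nat_lit 0) (nat_lit 4398487380) (nat_lit 76) (nat_lit 4140457110) (nat_lit 152) (nat_lit 9493757485) (nat_lit 37) (nat_lit 5) (nat_lit 38) (nat_lit 5) (nat_lit 39) (nat_lit 4) (nat_lit 454) (nat_lit 390) (nat_lit 356)) (XT.lf (nat_lit 0) (nat_lit 14403158237) (nat_lit 152) (nat_lit 2439062142) (nat_lit 0) (nat_lit 1781174350) (nat_lit 37) (nat_lit 5) (nat_lit 39) (nat_lit 4) (nat_lit 37) (nat_lit 4) (nat_lit 455) (nat_lit 390) (nat_lit 355))))))) (XT.nd (nat_lit 1092) (nat_lit 760) (nat_lit 0) (XT.nd (nat_lit 546) (nat_lit 456) (nat_lit 0) (XT.nd (nat_lit 234) (nat_lit 228) (nat_lit 0) (XT.nd (nat_lit 78) (nat_lit 76) (nat_lit 0) (XT.lf (nat_lit 0) (nat_lit 1410598106) (nat_lit 152) (nat_lit 9863350063) (nat_lit 76) (nat_lit 7961863046) (nat_lit 35) (nat_lit 5) (nat_lit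 37) (nat_lit 5) (nat_lit 36) (nat_lit 4) (nat_lit 456) (nat_lit 390) (nat_lit 354)) (XT.nd (nat_lit 78) (nat_lit 0) (nat_lit 0) (XT.lf (nat_lit 0) (nat_lit 1818206200) (nat_lit 76) (nat_lit 5352543531) (nat_lit 152) (nat_lit 12705165722) (nat_lit 34) (nat_lit 5) (nat_lit 35) (nat_lit 5) (nat_lit 36) (nat_lit 4) (nat_lit 457) (nat_lit 390) (nat_lit 353)) (XT.lf (nat_lit 0) (nat_lit 13321819716) (nat_lit 152) (nat_lit 6282626279) (nat_lit 0) (nat_lit 938439349) (nat_lit 34) (nat_lit 5) (nat_lit 36) (nat_lit 4) (nat_lit 34) (nat_lit 4) (nat_lit 458) (nat_lit 390) (nat_lit 352)))) (XT.nd (nat_lit 156) (nat_lit 76) (nat_lit 0) (XT.nd (nat_lit 78) (nat_lit 76) (nat_lit 0) (XT.lf (nat_lit 0) (nat_lit 6041118160) (nat_lit 76) (nat_lit 13844845487) (nat_lit 76) (nat_lit 1351969760) (nat_lit 33) (nat_lit 4) (nat_lit 34) (nat_lit 5) (nat_lit 34) (nat_lit 4) (nat_lit 459) (nat_lit 390) (nat_lit 351)) (XT.lf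 (nat_lit 0) (nat_lit 4688380771) (nat_lit 152) (nat_lit 2985976442) (nat_lit 76) (nat_lit 14288038068) (nat_lit 32) (nat_lit 5) (nat_lit 34) (nat_lit 5) (nat_lit 33) (nat_lit 4) (nat_lit 460) (nat_lit 390) (nat_lit 350))) (XT.nd (nat_lit 78) (nat_lit 0) (nat_lit 0) (XT.lf (nat_lit 0) (nat_lit 9994183775) (nat_lit 76) (nat_lit 1074429063) (nat_lit 152) (nat_lit 11649199208) (nat_lit 31) (nat_lit 5) (nat_lit 32) (nat_lit 5) (nat_lit 33) (nat_lit 4) (nat_lit 461) (nat_lit 390) (nat_lit 349)) (XT.lf (nat_lit 0) (nat_lit 17838247303) (nat_lit 152) (nat_lit 12950908) (nat_lit 0) (nat_lit 5656286585) (nat_lit 31) (nat_lit 5) (nat_lit 33) (nat_lit 4) (nat_lit 31) (nat_lit 4) (nat_lit 462) (nat_lit 390) (nat_lit 348))))) (XT.nd (nat_lit 234) (nat_lit 228) (nat_lit 0) (XT.nd (nat_lit 78) (nat_lit 76) (nat_lit 0) (XT.lf (nat_lit 0) (nat_lit 754110923) (nat_lit 152) (nat_lit 10721825805) (nat_lit 76) (nat_lit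 12852037556) (nat_lit 29) (nat_lit 5) (nat_lit 31) (nat_lit 5) (nat_lit 30) (nat_lit 4) (nat_lit 463) (nat_lit 390) (nat_lit 347)) (XT.nd (nat_lit 78) (nat_lit 0) (nat_lit 0) (XT.lf (nat_lit 0) (nat_lit 2573853750) (nat_lit 76) (nat_lit 4705811650) (nat_lit 152) (nat_lit 17906601869) (nat_lit 28) (nat_lit 5) (nat_lit 29) (nat_lit 5) (nat_lit 30) (nat_lit 4) (nat_lit 464) (nat_lit 390) (nat_lit 346)) (XT.lf (nat_lit 0) (nat_lit 14284977857) (nat_lit 152) (nat_lit 9345350587) (nat_lit 0) (nat_lit 2449476304) (nat_lit 28) (nat_lit 5) (nat_lit 30) (nat_lit 4) (nat_lit 28) (nat_lit 4) (nat_lit 465) (nat_lit 390) (nat_lit 345)))) (XT.nd (nat_lit 156) (nat_lit 76) (nat_lit 0) (XT.nd (nat_lit 78) (nat_lit 76) (nat_lit 0) (XT.lf (nat_lit 0) (nat_lit 4526100664) (nat_lit 76) (nat_lit 17196940542) (nat_lit 76) (nat_lit 5290857303) (nat_lit 27) (nat_lit 4) (nat_lit 28) (nat_lit 5) (nat_lit 28) (nat_lit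 4) (nat_lit 466) (nat_lit 390) (nat_lit 344)) (XT.lf (nat_lit 0) (nat_lit 1584723016) (nat_lit 152) (nat_lit 8724621708) (nat_lit 76) (nat_lit 17679372308) (nat_lit 26) (nat_lit 5) (nat_lit 28) (nat_lit 5) (nat_lit 27) (nat_lit 4) (nat_lit 467) (nat_lit 390) (nat_lit 343))) (XT.nd (nat_lit 78) (nat_lit 0) (nat_lit 0) (XT.lf (nat_lit 0) (nat_lit 5701705974) (nat_lit 76) (nat_lit 2951479165) (nat_lit 152) (nat_lit 20353412232) (nat_lit 25) (nat_lit 5) (nat_lit 26) (nat_lit 5) (nat_lit 27) (nat_lit 4) (nat_lit 468) (nat_lit 390) (nat_lit 342)) (XT.lf (nat_lit 0) (nat_lit 16237878872) (nat_lit 152) (nat_lit 9113661986) (nat_lit 0) (nat_lit 4715693465) (nat_lit 25) (nat_lit 5) (nat_lit 27) (nat_lit 4) (nat_lit 25) (nat_lit 4) (nat_lit 469) (nat_lit 390) (nat_lit 341)))))) (XT.nd (nat_lit 546) (nat_lit 380) (nat_lit 0) (XT.nd (nat_lit 234) (nat_lit 152) (nat_lit 0) (XT.nd (nat_lit 78) (nat_lit 152)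 (nat_lit 0) (XT.lf (nat_lit 0) (nat_lit 5809478694) (nat_lit 76) (nat_lit 18472454507) (nat_lit 76) (nat_lit 6894966503) (nat_lit 24) (nat_lit 4) (nat_lit 25) (nat_lit 5) (nat_lit 25) (nat_lit 4) (nat_lit 470) (nat_lit 390) (nat_lit 340)) (XT.nd (nat_lit 78) (nat_lit 76) (nat_lit 0) (XT.lf (nat_lit 0) (nat_lit 471782017) (nat_lit 152) (nat_lit 10663004008) (nat_lit 76) (nat_lit 21202063548) (nat_lit 23) (nat_lit 5) (nat_lit 25) (nat_lit 5) (nat_lit 24) (nat_lit 4) (nat_lit 471) (nat_lit 390) (nat_lit 339)) (XT.lf (nat_lit 0) (nat_lit 4704364901) (nat_lit 76) (nat_lit 3288163455) (nat_lit 152) (nat_lit 25555750628) (nat_lit 22) (nat_lit 5) (nat_lit 23) (nat_lit 5) (nat_lit 24) (nat_lit 4) (nat_lit 472) (nat_lit 390) (nat_lit 338)))) (XT.nd (nat_lit 156) (nat_lit 76) (nat_lit 0) (XT.nd (nat_lit 78) (nat_lit 76) (nat_lit 0) (XT.lf (nat_lit 0) (nat_lit 16094236119) (nat_lit 152) (nat_lit 13791173976)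 (nat_lit 0) (nat_lit 4924625934) (nat_lit 22) (nat_lit 5) (nat_lit 24) (nat_lit 4) (nat_lit 22) (nat_lit 4) (nat_lit 473) (nat_lit 390) (nat_lit 337)) (XT.lf (nat_lit 0) (nat_lit 1916923924) (nat_lit 76) (nat_lit 22714685727) (nat_lit 76) (nat_lit 11501744510) (nat_lit 21) (nat_lit 4) (nat_lit 22) (nat_lit 5) (nat_lit 22) (nat_lit 4) (nat_lit 474) (nat_lit 390) (nat_lit 336))) (XT.nd (nat_lit 78) (nat_lit 76) (nat_lit 0) (XT.lf (nat_lit 0) (nat_lit 18786185876) (nat_lit 76) (nat_lit 14990900799) (nat_lit 76) (nat_lit 3736691931) (nat_lit 21) (nat_lit 4) (nat_lit 22) (nat_lit 5) (nat_lit 22) (nat_lit 4) (nat_lit 475) (nat_lit 390) (nat_lit 335)) (XT.lf (nat_lit 0) (nat_lit 4224601437) (nat_lit 152) (nat_lit 2633078443) (nat_lit 76) (nat_lit 32104631186) (nat_lit 20) (nat_lit 5) (nat_lit 22) (nat_lit 5) (nat_lit 21) (nat_lit 4) (nat_lit 476) (nat_lit 390) (nat_lit 334))))) (XT.nd (nat_lit 312)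 (nat_lit 228) (nat_lit 0) (XT.nd (nat_lit 156) (nat_lit 76) (nat_lit 0) (XT.nd (nat_lit 78) (nat_lit 0) (nat_lit 0) (XT.lf (nat_lit 0) (nat_lit 12667987680) (nat_lit 152) (nat_lit 25925127187) (nat_lit 0) (nat_lit 1876613998) (nat_lit 19) (nat_lit 5) (nat_lit 21) (nat_lit 4) (nat_lit 19) (nat_lit 4) (nat_lit 477) (nat_lit 390) (nat_lit 333)) (XT.lf (nat_lit 0) (nat_lit 21643164048) (nat_lit 152) (nat_lit 9586034863) (nat_lit 0) (nat_lit 10817839368) (nat_lit 19) (nat_lit 5) (nat_lit 21) (nat_lit 4) (nat_lit 19) (nat_lit 4) (nat_lit 478) (nat_lit 390) (nat_lit 332))) (XT.nd (nat_lit 78) (nat_lit 0) (nat_lit 0) (XT.lf (nat_lit 0) (nat_lit 7726670674) (nat_lit 76) (nat_lit 23415231495) (nat_lit 76) (nat_lit 12557572532) (nat_lit 18) (nat_lit 4) (nat_lit 19) (nat_lit 5) (nat_lit 19) (nat_lit 4) (nat_lit 479) (nat_lit 390) (nat_lit 331)) (XT.lf (nat_lit 0) (nat_lit 26148635844) (nat_lit 76) (nat_lit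 15084243555) (nat_lit 76) (nat_lit 4195790036) (nat_lit 18) (nat_lit 4) (nat_lit 19) (nat_lit 5) (nat_lit 19) (nat_lit 4) (nat_lit 480) (nat_lit 390) (nat_lit 330)))) (XT.nd (nat_lit 156) (nat_lit 76) (nat_lit 0) (XT.nd (nat_lit 78) (nat_lit 76) (nat_lit 0) (XT.lf (nat_lit 0) (nat_lit 4393760554) (nat_lit 152) (nat_lit 1910572531) (nat_lit 76) (nat_lit 40938593846) (nat_lit 17) (nat_lit 5) (nat_lit 19) (nat_lit 5) (nat_lit 18) (nat_lit 4) (nat_lit 481) (nat_lit 390) (nat_lit 329)) (XT.lf (nat_lit 0) (nat_lit 13541438775) (nat_lit 152) (nat_lit 32472587953) (nat_lit 0) (nat_lit 3116949977) (nat_lit 16) (nat_lit 5) (nat_lit 18) (nat_lit 4) (nat_lit 16) (nat_lit 4) (nat_lit 482) (nat_lit 390) (nat_lit 328))) (XT.nd (nat_lit 78) (nat_lit 76) (nat_lit 0) (XT.lf (nat_lit 0) (nat_lit 23241299288) (nat_lit 152) (nat_lit 15075915345) (nat_lit 0) (nat_lit 12791475734) (nat_lit 16) (nat_lit 5) (nat_lit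 18) (nat_lit 4) (nat_lit 16) (nat_lit 4) (nat_lit 483) (nat_lit 390) (nat_lit 327)) (XT.lf (nat_lit 0) (nat_lit 3215061602) (nat_lit 76) (nat_lit 30221822352) (nat_lit 76) (nat_lit 19747870457) (nat_lit 15) (nat_lit 4) (nat_lit 16) (nat_lit 5) (nat_lit 16) (nat_lit 4) (nat_lit 484) (nat_lit 390) (nat_lit 326))))))))
noncomputable def xc71 : XT := (XT.nd (nat_lit 2184) (nat_lit 380) (nat_lit 0) (XT.nd (nat_lit 1092) (nat_lit 228) (nat_lit 0) (XT.nd (nat_lit 546) (nat_lit 228) (nat_lit 0) (XT.nd (nat_lit 234) (nat_lit 76) (nat_lit 0) (XT.nd (nat_lit 78) (nat_lit 152) (nat_lit 0) (XT.lf (nat_lit 0) (nat_lit 22866822816) (nat_lit 76) (nat_lit 21491952466) (nat_lit 76) (nat_lit 10995021200) (nat_lit 15) (nat_lit 4) (nat_lit 16) (nat_lit 5) (nat_lit 16) (nat_lit 4) (nat_lit 485) (nat_lit 390) (nat_lit 325)) (XT.nd (nat_lit 78) (nat_lit 152) (nat_lit 0) (XT.lf (nat_lit 0) (nat_lit 43427680357) (nat_lit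 76) (nat_lit 12362137493) (nat_lit 76) (nat_lit 1843321110) (nat_lit 15) (nat_lit 4) (nat_lit 16) (nat_lit 5) (nat_lit 16) (nat_lit 4) (nat_lit 486) (nat_lit 390) (nat_lit 324)) (XT.lf (nat_lit 0) (nat_lit 4956342037) (nat_lit 76) (nat_lit 2602683029) (nat_lit 152) (nat_lit 52459281086) (nat_lit 13) (nat_lit 5) (nat_lit 14) (nat_lit 5) (nat_lit 15) (nat_lit 4) (nat_lit 487) (nat_lit 390) (nat_lit 323)))) (XT.nd (nat_lit 156) (nat_lit 76) (nat_lit 0) (XT.nd (nat_lit 78) (nat_lit 0) (nat_lit 0) (XT.lf (nat_lit 0) (nat_lit 17697720109) (nat_lit 152) (nat_lit 37166048582) (nat_lit 0) (nat_lit 7641044114) (nat_lit 13) (nat_lit 5) (nat_lit 15) (nat_lit 4) (nat_lit 13) (nat_lit 4) (nat_lit 488) (nat_lit 390) (nat_lit 322)) (XT.lf (nat_lit 0) (nat_lit 28352019852) (nat_lit 152) (nat_lit 18485853461) (nat_lit 0) (nat_lit 18277338918) (nat_lit 13) (nat_lit 5) (nat_lit 15) (nat_lit 4) (nat_lit 13) (nat_lit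 4) (nat_lit 489) (nat_lit 390) (nat_lit 321))) (XT.nd (nat_lit 78) (nat_lit 0) (nat_lit 0) (XT.lf (nat_lit 0) (nat_lit 1098904898) (nat_lit 76) (nat_lit 38424908587) (nat_lit 76) (nat_lit 28333080091) (nat_lit 12) (nat_lit 4) (nat_lit 13) (nat_lit 5) (nat_lit 13) (nat_lit 4) (nat_lit 490) (nat_lit 390) (nat_lit 320)) (XT.lf (nat_lit 0) (nat_lit 22241112159) (nat_lit 76) (nat_lit 29294322642) (nat_lit 76) (nat_lit 19186163136) (nat_lit 12) (nat_lit 4) (nat_lit 13) (nat_lit 5) (nat_lit 13) (nat_lit 4) (nat_lit 491) (nat_lit 390) (nat_lit 319))))) (XT.nd (nat_lit 234) (nat_lit 76) (nat_lit 0) (XT.nd (nat_lit 78) (nat_lit 152) (nat_lit 0) (XT.lf (nat_lit 0) (nat_lit 44379881111) (nat_lit 76) (nat_lit 19737442862) (nat_lit 76) (nat_lit 9613730013) (nat_lit 12) (nat_lit 4) (nat_lit 13) (nat_lit 5) (nat_lit 13) (nat_lit 4) (nat_lit 492) (nat_lit 390) (nat_lit 318)) (XT.nd (nat_lit 78) (nat_lit 76)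 (nat_lit 0) (XT.lf (nat_lit 0) (nat_lit 393983897) (nat_lit 152) (nat_lit 9330858566) (nat_lit 76) (nat_lit 67167266902) (nat_lit 11) (nat_lit 5) (nat_lit 13) (nat_lit 5) (nat_lit 12) (nat_lit 4) (nat_lit 493) (nat_lit 390) (nat_lit 317)) (XT.lf (nat_lit 0) (nat_lit 10753657691) (nat_lit 152) (nat_lit 68356463985) (nat_lit 0) (nat_lit 1084483502) (nat_lit 10) (nat_lit 5) (nat_lit 12) (nat_lit 4) (nat_lit 10) (nat_lit 4) (nat_lit 494) (nat_lit 390) (nat_lit 316)))) (XT.nd (nat_lit 156) (nat_lit 76) (nat_lit 0) (XT.nd (nat_lit 78) (nat_lit 0) (nat_lit 0) (XT.lf (nat_lit 0) (nat_lit 21923449614) (nat_lit 152) (nat_lit 49482690460) (nat_lit 0) (nat_lit 12241479652) (nat_lit 10) (nat_lit 5) (nat_lit 12) (nat_lit 4) (nat_lit 10) (nat_lit 4) (nat_lit 495) (nat_lit 390) (nat_lit 315)) (XT.lf (nat_lit 0) (nat_lit 33625157470) (nat_lit 152) (nat_lit 29718455790) (nat_lit 0) (nat_lit 23931001057) (nat_lit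 10) (nat_lit 5) (nat_lit 12) (nat_lit 4) (nat_lit 10) (nat_lit 4) (nat_lit 496) (nat_lit 390) (nat_lit 314))) (XT.nd (nat_lit 78) (nat_lit 76) (nat_lit 0) (XT.lf (nat_lit 0) (nat_lit 45886642470) (nat_lit 152) (nat_lit 9016702274) (nat_lit 0) (nat_lit 36180879912) (nat_lit 10) (nat_lit 5) (nat_lit 12) (nat_lit 4) (nat_lit 10) (nat_lit 4) (nat_lit 497) (nat_lit 390) (nat_lit 313)) (XT.lf (nat_lit 0) (nat_lit 13090848897) (nat_lit 76) (nat_lit 45850634565) (nat_lit 76) (nat_lit 36133818537) (nat_lit 9) (nat_lit 4) (nat_lit 10) (nat_lit 5) (nat_lit 10) (nat_lit 4) (nat_lit 498) (nat_lit 390) (nat_lit 312)))))) (XT.nd (nat_lit 546) (nat_lit 76) (nat_lit 0) (XT.nd (nat_lit 234) (nat_lit 152) (nat_lit 0) (XT.nd (nat_lit 78) (nat_lit 0) (nat_lit 0) (XT.lf (nat_lit 0) (nat_lit 36569316922) (nat_lit 76) (nat_lit 36208754857) (nat_lit 76) (nat_lit 26481411714) (nat_lit 9) (nat_lit 4) (nat_lit 10) (nat_lit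 5) (nat_lit 10) (nat_lit 4) (nat_lit 499) (nat_lit 390) (nat_lit 311)) (XT.nd (nat_lit 78) (nat_lit 0) (nat_lit 0) (XT.lf (nat_lit 0) (nat_lit 61176470017) (nat_lit 76) (nat_lit 26107450979) (nat_lit 76) (nat_lit 16370082012) (nat_lit 9) (nat_lit 4) (nat_lit 10) (nat_lit 5) (nat_lit 10) (nat_lit 4) (nat_lit 500) (nat_lit 390) (nat_lit 310)) (XT.lf (nat_lit 0) (nat_lit 86970896643) (nat_lit 76) (nat_lit 15522672208) (nat_lit 76) (nat_lit 5775754837) (nat_lit 9) (nat_lit 4) (nat_lit 10) (nat_lit 5) (nat_lit 10) (nat_lit 4) (nat_lit 501) (nat_lit 390) (nat_lit 309)))) (XT.nd (nat_lit 156) (nat_lit 0) (nat_lit 0) (XT.nd (nat_lit 78) (nat_lit 0) (nat_lit 0) (XT.lf (nat_lit 0) (nat_lit 841339642) (nat_lit 76) (nat_lit 4328099738) (nat_lit 152) (nat_lit 107942179918) (nat_lit 7) (nat_lit 5) (nat_lit 8) (nat_lit 5) (nat_lit 9) (nat_lit 4) (nat_lit 502) (nat_lit 390) (nat_lit 308)) (XT.lf (nat_lit 0)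 (nat_lit 16929568225) (nat_lit 152) (nat_lit 93608757937) (nat_lit 0) (nat_lit 7629880823) (nat_lit 7) (nat_lit 5) (nat_lit 9) (nat_lit 4) (nat_lit 7) (nat_lit 4) (nat_lit 503) (nat_lit 390) (nat_lit 307))) (XT.nd (nat_lit 78) (nat_lit 0) (nat_lit 0) (XT.lf (nat_lit 0) (nat_lit 29328867459) (nat_lit 152) (nat_lit 74124874246) (nat_lit 0) (nat_lit 20021324562) (nat_lit 7) (nat_lit 5) (nat_lit 9) (nat_lit 4) (nat_lit 7) (nat_lit 4) (nat_lit 504) (nat_lit 390) (nat_lit 306)) (XT.lf (nat_lit 0) (nat_lit 42329285457) (nat_lit 152) (nat_lit 53704664619) (nat_lit 0) (nat_lit 33014261136) (nat_lit 7) (nat_lit 5) (nat_lit 9) (nat_lit 4) (nat_lit 7) (nat_lit 4) (nat_lit 505) (nat_lit 390) (nat_lit 305))))) (XT.nd (nat_lit 234) (nat_lit 0) (nat_lit 0) (XT.nd (nat_lit 78) (nat_lit 76) (nat_lit 0) (XT.lf (nat_lit 0) (nat_lit 55961775596) (nat_lit 152) (nat_lit 32299509509) (nat_lit 0) (nat_lit 46639626109)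 (nat_lit 7) (nat_lit 5) (nat_lit 9) (nat_lit 4) (nat_lit 7) (nat_lit 4) (nat_lit 506) (nat_lit 390) (nat_lit 304)) (XT.nd (nat_lit 78) (nat_lit 76) (nat_lit 0) (XT.lf (nat_lit 0) (nat_lit 70258796184) (nat_lit 152) (nat_lit 9858444260) (nat_lit 0) (nat_lit 60929860825) (nat_lit 7) (nat_lit 5) (nat_lit 9) (nat_lit 4) (nat_lit 7) (nat_lit 4) (nat_lit 507) (nat_lit 390) (nat_lit 303)) (XT.lf (nat_lit 0) (nat_lit 14124019048) (nat_lit 76) (nat_lit 71350884220) (nat_lit 76) (nat_lit 62015486125) (nat_lit 6) (nat_lit 4) (nat_lit 7) (nat_lit 5) (nat_lit 7) (nat_lit 4) (nat_lit 508) (nat_lit 390) (nat_lit 302)))) (XT.nd (nat_lit 156) (nat_lit 0) (nat_lit 0) (XT.nd (nat_lit 78) (nat_lit 0) (nat_lit 0) (XT.lf (nat_lit 0) (nat_lit 39615684044) (nat_lit 76) (nat_lit 61987081884) (nat_lit 76) (nat_lit 52645528804) (nat_lit 6) (nat_lit 4) (nat_lit 7) (nat_lit 5) (nat_lit 7) (nat_lit 4) (nat_lit 509) (nat_lit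 390) (nat_lit 301)) (XT.lf (nat_lit 0) (nat_lit 66351280476) (nat_lit 76) (nat_lit 52170496195) (nat_lit 76) (nat_lit 42823081223) (nat_lit 6) (nat_lit 4) (nat_lit 7) (nat_lit 5) (nat_lit 7) (nat_lit 4) (nat_lit 510) (nat_lit 390) (nat_lit 300))) (XT.nd (nat_lit 78) (nat_lit 0) (nat_lit 0) (XT.lf (nat_lit 0) (nat_lit 94394464528) (nat_lit 76) (nat_lit 41877754329) (nat_lit 76) (nat_lit 32524756604) (nat_lit 6) (nat_lit 4) (nat_lit 7) (nat_lit 5) (nat_lit 7) (nat_lit 4) (nat_lit 511) (nat_lit 390) (nat_lit 299)) (XT.lf (nat_lit 0) (nat_lit 123812005684) (nat_lit 76) (nat_lit 31084349759) (nat_lit 76) (nat_lit 21726035125) (nat_lit 6) (nat_lit 4) (nat_lit 7) (nat_lit 5) (nat_lit 7) (nat_lit 4) (nat_lit 512) (nat_lit 390) (nat_lit 298))))))) (XT.nd (nat_lit 1092) (nat_lit 152) (nat_lit 0) (XT.nd (nat_lit 546) (nat_lit 76) (nat_lit 0) (XT.nd (nat_lit 234) (nat_lit 0) (nat_lit 0) (XT.nd (nat_lit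 78) (nat_lit 152) (nat_lit 0) (XT.lf (nat_lit 0) (nat_lit 154673945710) (nat_lit 76) (nat_lit 19764583901) (nat_lit 76) (nat_lit 10401205544) (nat_lit 6) (nat_lit 4) (nat_lit 7) (nat_lit 5) (nat_lit 7) (nat_lit 4) (nat_lit 513) (nat_lit 390) (nat_lit 297)) (XT.nd (nat_lit 78) (nat_lit 76) (nat_lit 0) (XT.lf (nat_lit 0) (nat_lit 1429432521) (nat_lit 152) (nat_lit 6437864279) (nat_lit 76) (nat_lit 185600124761) (nat_lit 5) (nat_lit 5) (nat_lit 7) (nat_lit 5) (nat_lit 6) (nat_lit 4) (nat_lit 514) (nat_lit 390) (nat_lit 296)) (XT.lf (nat_lit 0) (nat_lit 13864420538) (nat_lit 152) (nat_lit 183697477899) (nat_lit 0) (nat_lit 4937950163) (nat_lit 4) (nat_lit 5) (nat_lit 6) (nat_lit 4) (nat_lit 4) (nat_lit 4) (nat_lit 515) (nat_lit 390) (nat_lit 295)))) (XT.nd (nat_lit 156) (nat_lit 0) (nat_lit 0) (XT.nd (nat_lit 78) (nat_lit 0) (nat_lit 0) (XT.lf (nat_lit 0) (nat_lit 27148819138) (nat_lit 152) (nat_lit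 166605512185) (nat_lit 0) (nat_lit 18218182825) (nat_lit 4) (nat_lit 5) (nat_lit 6) (nat_lit 4) (nat_lit 4) (nat_lit 4) (nat_lit 516) (nat_lit 390) (nat_lit 294)) (XT.lf (nat_lit 0) (nat_lit 41085888529) (nat_lit 152) (nat_lit 148682217449) (nat_lit 0) (nat_lit 32151284658) (nat_lit 4) (nat_lit 5) (nat_lit 6) (nat_lit 4) (nat_lit 4) (nat_lit 4) (nat_lit 517) (nat_lit 390) (nat_lit 293))) (XT.nd (nat_lit 78) (nat_lit 0) (nat_lit 0) (XT.lf (nat_lit 0) (nat_lit 55708812212) (nat_lit 152) (nat_lit 129884919180) (nat_lit 0) (nat_lit 46770429714) (nat_lit 4) (nat_lit 5) (nat_lit 6) (nat_lit 4) (nat_lit 4) (nat_lit 4) (nat_lit 518) (nat_lit 390) (nat_lit 292)) (XT.lf (nat_lit 0) (nat_lit 71052406671) (nat_lit 152) (nat_lit 110168861905) (nat_lit 0) (nat_lit 62110425480) (nat_lit 4) (nat_lit 5) (nat_lit 6) (nat_lit 4) (nat_lit 4) (nat_lit 4) (nat_lit 519) (nat_lit 390) (nat_lit 291))))) (XT.nd (nat_lit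 234) (nat_lit 76) (nat_lit 0) (XT.nd (nat_lit 78) (nat_lit 0) (nat_lit 0) (XT.lf (nat_lit 0) (nat_lit 87153204274) (nat_lit 152) (nat_lit 89487102630) (nat_lit 0) (nat_lit 78207795756) (nat_lit 4) (nat_lit 5) (nat_lit 6) (nat_lit 4) (nat_lit 4) (nat_lit 4) (nat_lit 520) (nat_lit 390) (nat_lit 290)) (XT.nd (nat_lit 78) (nat_lit 0) (nat_lit 0) (XT.lf (nat_lit 0) (nat_lit 104049540253) (nat_lit 152) (nat_lit 67790399073) (nat_lit 0) (nat_lit 95100867614) (nat_lit 4) (nat_lit 5) (nat_lit 6) (nat_lit 4) (nat_lit 4) (nat_lit 4) (nat_lit 521) (nat_lit 390) (nat_lit 289)) (XT.lf (nat_lit 0) (nat_lit 121781643980) (nat_lit 152) (nat_lit 45027092414) (nat_lit 0) (nat_lit 112829862655) (nat_lit 4) (nat_lit 5) (nat_lit 6) (nat_lit 4) (nat_lit 4) (nat_lit 4) (nat_lit 522) (nat_lit 390) (nat_lit 288)))) (XT.nd (nat_lit 156) (nat_lit 0) (nat_lit 0) (XT.nd (nat_lit 78) (nat_lit 76) (nat_lit 0) (XT.lf (nat_lit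 0) (nat_lit 140391734748) (nat_lit 152) (nat_lit 21142984305) (nat_lit 0) (nat_lit 131436992770) (nat_lit 4) (nat_lit 5) (nat_lit 6) (nat_lit 4) (nat_lit 4) (nat_lit 4) (nat_lit 523) (nat_lit 390) (nat_lit 287)) (XT.lf (nat_lit 0) (nat_lit 4048365145) (nat_lit 76) (nat_lit 155938963479) (nat_lit 76) (nat_lit 146981401831) (nat_lit 3) (nat_lit 4) (nat_lit 4) (nat_lit 5) (nat_lit 4) (nat_lit 4) (nat_lit 524) (nat_lit 390) (nat_lit 286))) (XT.nd (nat_lit 78) (nat_lit 0) (nat_lit 0) (XT.lf (nat_lit 0) (nat_lit 31217048436) (nat_lit 76) (nat_lit 149695649492) (nat_lit 76) (nat_lit 140735402444) (nat_lit 3) (nat_lit 4) (nat_lit 4) (nat_lit 5) (nat_lit 4) (nat_lit 4) (nat_lit 525) (nat_lit 390) (nat_lit 285)) (XT.lf (nat_lit 0) (nat_lit 59728670364) (nat_lit 76) (nat_lit 143147978728) (nat_lit 76) (nat_lit 134185174156) (nat_lit 3) (nat_lit 4) (nat_lit 4) (nat_lit 5) (nat_lit 4) (nat_lit 4) (nat_lit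 526) (nat_lit 390) (nat_lit 284)))))) (XT.nd (nat_lit 546) (nat_lit 152) (nat_lit 0) (XT.nd (nat_lit 234) (nat_lit 0) (nat_lit 0) (XT.nd (nat_lit 78) (nat_lit 0) (nat_lit 0) (XT.lf (nat_lit 0) (nat_lit 89651115742) (nat_lit 76) (nat_lit 136280361495) (nat_lit 76) (nat_lit 127315121185) (nat_lit 3) (nat_lit 4) (nat_lit 4) (nat_lit 5) (nat_lit 4) (nat_lit 4) (nat_lit 527) (nat_lit 390) (nat_lit 283)) (XT.nd (nat_lit 78) (nat_lit 0) (nat_lit 0) (XT.lf (nat_lit 0) (nat_lit 121055628489) (nat_lit 76) (nat_lit 129076446323) (nat_lit 76) (nat_lit 120108886264) (nat_lit 3) (nat_lit 4) (nat_lit 4) (nat_lit 5) (nat_lit 4) (nat_lit 4) (nat_lit 528) (nat_lit 390) (nat_lit 282)) (XT.lf (nat_lit 0) (nat_lit 154016981252) (nat_lit 76) (nat_lit 121519081034) (nat_lit 76) (nat_lit 112549311690) (nat_lit 3) (nat_lit 4) (nat_lit 4) (nat_lit 5) (nat_lit 4) (nat_lit 4) (nat_lit 529) (nat_lit 390) (nat_lit 281))))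 (XT.nd (nat_lit 156) (nat_lit 0) (nat_lit 0) (XT.nd (nat_lit 78) (nat_lit 0) (nat_lit 0) (XT.lf (nat_lit 0) (nat_lit 188613653444) (nat_lit 76) (nat_lit 113590271900) (nat_lit 76) (nat_lit 104618398475) (nat_lit 3) (nat_lit 4) (nat_lit 4) (nat_lit 5) (nat_lit 4) (nat_lit 4) (nat_lit 530) (nat_lit 390) (nat_lit 280)) (XT.lf (nat_lit 0) (nat_lit 224928018094) (nat_lit 76) (nat_lit 105271140805) (nat_lit 76) (nat_lit 96297263493) (nat_lit 3) (nat_lit 4) (nat_lit 4) (nat_lit 5) (nat_lit 4) (nat_lit 4) (nat_lit 531) (nat_lit 390) (nat_lit 279))) (XT.nd (nat_lit 78) (nat_lit 0) (nat_lit 0) (XT.lf (nat_lit 0) (nat_lit 263046537975) (nat_lit 76) (nat_lit 96541880294) (nat_lit 76) (nat_lit 87566094518) (nat_lit 3) (nat_lit 4) (nat_lit 4) (nat_lit 5) (nat_lit 4) (nat_lit 4) (nat_lit 532) (nat_lit 390) (nat_lit 278)) (XT.lf (nat_lit 0) (nat_lit 303059971467) (nat_lit 76) (nat_lit 87381706413) (nat_lit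 76) (nat_lit 78404103053) (nat_lit 3) (nat_lit 4) (nat_lit 4) (nat_lit 5) (nat_lit 4) (nat_lit 4) (nat_lit 533) (nat_lit 390) (nat_lit 277))))) (XT.nd (nat_lit 312) (nat_lit 152) (nat_lit 0) (XT.nd (nat_lit 156) (nat_lit 0) (nat_lit 0) (XT.nd (nat_lit 78) (nat_lit 0) (nat_lit 0) (XT.lf (nat_lit 0) (nat_lit 345063588651) (nat_lit 76) (nat_lit 77768809224) (nat_lit 76) (nat_lit 68789474831) (nat_lit 3) (nat_lit 4) (nat_lit 4) (nat_lit 5) (nat_lit 4) (nat_lit 4) (nat_lit 534) (nat_lit 390) (nat_lit 276)) (XT.lf (nat_lit 0) (nat_lit 389157398137) (nat_lit 76) (nat_lit 67680300876) (nat_lit 76) (nat_lit 58699317881) (nat_lit 3) (nat_lit 4) (nat_lit 4) (nat_lit 5) (nat_lit 4) (nat_lit 4) (nat_lit 535) (nat_lit 390) (nat_lit 275))) (XT.nd (nat_lit 78) (nat_lit 0) (nat_lit 0) (XT.lf (nat_lit 0) (nat_lit 435446385188) (nat_lit 76) (nat_lit 57092161113) (nat_lit 76) (nat_lit 48109608019) (nat_lit 3)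 (nat_lit 4) (nat_lit 4) (nat_lit 5) (nat_lit 4) (nat_lit 4) (nat_lit 536) (nat_lit 390) (nat_lit 274)) (XT.lf (nat_lit 0) (nat_lit 484040761677) (nat_lit 76) (nat_lit 45979180076) (nat_lit 76) (nat_lit 36995131651) (nat_lit 3) (nat_lit 4) (nat_lit 4) (nat_lit 5) (nat_lit 4) (nat_lit 4) (nat_lit 537) (nat_lit 390) (nat_lit 273)))) (XT.nd (nat_lit 156) (nat_lit 152) (nat_lit 0) (XT.nd (nat_lit 78) (nat_lit 0) (nat_lit 0) (XT.lf (nat_lit 0) (nat_lit 535056228501) (nat_lit 76) (nat_lit 34314898288) (nat_lit 76) (nat_lit 25329425739) (nat_lit 3) (nat_lit 4) (nat_lit 4) (nat_lit 5) (nat_lit 4) (nat_lit 4) (nat_lit 538) (nat_lit 390) (nat_lit 272)) (XT.lf (nat_lit 0) (nat_lit 588614251056) (nat_lit 76) (nat_lit 22071543650) (nat_lit 76) (nat_lit 13084714790) (nat_lit 3) (nat_lit 4) (nat_lit 4) (nat_lit 5) (nat_lit 4) (nat_lit 4) (nat_lit 539) (nat_lit 390) (nat_lit 271))) (XT.nd (nat_lit 78) (nat_lit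 152) (nat_lit 0) (XT.lf (nat_lit 0) (nat_lit 644842348444) (nat_lit 76) (nat_lit 9219965315) (nat_lit 76) (nat_lit 231844733) (nat_lit 3) (nat_lit 4) (nat_lit 4) (nat_lit 5) (nat_lit 4) (nat_lit 4) (nat_lit 540) (nat_lit 390) (nat_lit 270)) (XT.lf (nat_lit 0) (nat_lit 13189444689) (nat_lit 152) (nat_lit 668498518137) (nat_lit 0) (nat_lit 4628158217) (nat_lit 1) (nat_lit 5) (nat_lit 3) (nat_lit 4) (nat_lit 1) (nat_lit 4) (nat_lit 541) (nat_lit 390) (nat_lit 269))))))))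
noncomputable def xc72 : XT := (XT.nd (nat_lit 54678) (nat_lit 0) (nat_lit 1824) (XT.nd (nat_lit 53586) (nat_lit 0) (nat_lit 4104) (XT.nd (nat_lit 53040) (nat_lit 0) (nat_lit 6536) (XT.nd (nat_lit 234) (nat_lit 0) (nat_lit 0) (XT.nd (nat_lit 78) (nat_lit 0) (nat_lit 0) (XT.lf (nat_lit 0) (nat_lit 27584094922) (nat_lit 152) (nat_lit 673317699816) (nat_lit 0) (nat_lit 19021692611) (nat_lit 1) (nat_lit 5) (nat_lit 3) (nat_lit 4) (nat_lit 1) (nat_lit 4) (nat_lit 542) (nat_lit 390) (nat_lit 268)) (XT.nd (nat_lit 78) (nat_lit 0) (nat_lit 0) (XT.lf (nat_lit 0) (nat_lit 42694902220) (nat_lit 152) (nat_lit 678385061374) (nat_lit 0) (nat_lit 34131437205) (nat_lit 1) (nat_lit 5) (nat_lit 3) (nat_lit 4) (nat_lit 1) (nat_lit 4) (nat_lit 543) (nat_lit 390) (nat_lit 267)) (XT.lf (nat_lit 0) (nat_lit 58557844695) (nat_lit 152) (nat_lit 683712667959) (nat_lit 0) (nat_lit 49993367581) (nat_lit 1) (nat_lit 5)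 (nat_lit 3) (nat_lit 4) (nat_lit 1) (nat_lit 4) (nat_lit 544) (nat_lit 390) (nat_lit 266)))) (XT.nd (nat_lit 52650) (nat_lit 0) (nat_lit 8132) (XT.nd (nat_lit 52572) (nat_lit 0) (nat_lit 8968) (XT.lf (nat_lit 0) (nat_lit 75210691257) (nat_lit 152) (nat_lit 689313204347) (nat_lit 0) (nat_lit 66645250239) (nat_lit 1) (nat_lit 5) (nat_lit 3) (nat_lit 4) (nat_lit 1) (nat_lit 4) (nat_lit 545) (nat_lit 390) (nat_lit 265)) (XT.lf (nat_lit 0) (nat_lit 2024995248) (nat_lit 380) (nat_lit 835686089) (nat_lit 380) (nat_lit 835686089) (nat_lit 119) (nat_lit 4) (nat_lit 124) (nat_lit 5) (nat_lit 124) (nat_lit 4) (nat_lit 418) (nat_lit 391) (nat_lit 391))) (XT.nd (nat_lit 78) (nat_lit 380) (nat_lit 0) (XT.lf (nat_lit 0) (nat_lit 1922843685) (nat_lit 456) (nat_lit 5111920296) (nat_lit 0) (nat_lit 469298388) (nat_lit 113) (nat_lit 5) (nat_lit 119) (nat_lit 4) (nat_lit 113) (nat_lit 4) (nat_lit 419) (nat_lit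 391) (nat_lit 390)) (XT.lf (nat_lit 0) (nat_lit 681817159) (nat_lit 380) (nat_lit 4889587564) (nat_lit 380) (nat_lit 2051713415) (nat_lit 108) (nat_lit 4) (nat_lit 113) (nat_lit 5) (nat_lit 113) (nat_lit 4) (nat_lit 420) (nat_lit 391) (nat_lit 389))))) (XT.nd (nat_lit 234) (nat_lit 836) (nat_lit 0) (XT.nd (nat_lit 78) (nat_lit 684) (nat_lit 0) (XT.lf (nat_lit 0) (nat_lit 1526679927) (nat_lit 456) (nat_lit 1026588729) (nat_lit 76) (nat_lit 5197364000) (nat_lit 107) (nat_lit 5) (nat_lit 113) (nat_lit 5) (nat_lit 108) (nat_lit 4) (nat_lit 421) (nat_lit 391) (nat_lit 388)) (XT.nd (nat_lit 78) (nat_lit 380) (nat_lit 0) (XT.lf (nat_lit 0) (nat_lit 5125452382) (nat_lit 304) (nat_lit 14724222) (nat_lit 380) (nat_lit 2746470048) (nat_lit 103) (nat_lit 5) (nat_lit 107) (nat_lit 5) (nat_lit 108) (nat_lit 4) (nat_lit 422) (nat_lit 391) (nat_lit 387)) (XT.lf (nat_lit 0) (nat_lit 837496006) (nat_lit 380)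 (nat_lit 4576223635) (nat_lit 76) (nat_lit 2617013189) (nat_lit 98) (nat_lit 5) (nat_lit 103) (nat_lit 5) (nat_lit 99) (nat_lit 4) (nat_lit 423) (nat_lit 391) (nat_lit 386)))) (XT.nd (nat_lit 156) (nat_lit 608) (nat_lit 0) (XT.nd (nat_lit 78) (nat_lit 0) (nat_lit 0) (XT.lf (nat_lit 0) (nat_lit 1711235031) (nat_lit 228) (nat_lit 2722415388) (nat_lit 304) (nat_lit 3749910968) (nat_lit 95) (nat_lit 5) (nat_lit 98) (nat_lit 5) (nat_lit 99) (nat_lit 4) (nat_lit 424) (nat_lit 391) (nat_lit 385)) (XT.lf (nat_lit 0) (nat_lit 8144189899) (nat_lit 304) (nat_lit 69217545) (nat_lit 0) (nat_lit 133946248) (nat_lit 95) (nat_lit 5) (nat_lit 99) (nat_lit 4) (nat_lit 95) (nat_lit 4) (nat_lit 425) (nat_lit 391) (nat_lit 384))) (XT.nd (nat_lit 78) (nat_lit 228) (nat_lit 0) (XT.lf (nat_lit 0) (nat_lit 3417659278) (nat_lit 380) (nat_lit 1941010387) (nat_lit 76) (nat_lit 3157492305) (nat_lit 90) (nat_lit 5) (nat_lit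 95) (nat_lit 5) (nat_lit 91) (nat_lit 4) (nat_lit 426) (nat_lit 391) (nat_lit 383)) (XT.lf (nat_lit 0) (nat_lit 4821531073) (nat_lit 228) (nat_lit 2330221952) (nat_lit 304) (nat_lit 1544582470) (nat_lit 87) (nat_lit 5) (nat_lit 90) (nat_lit 5) (nat_lit 91) (nat_lit 4) (nat_lit 427) (nat_lit 391) (nat_lit 382)))))) (XT.nd (nat_lit 546) (nat_lit 1140) (nat_lit 0) (XT.nd (nat_lit 234) (nat_lit 684) (nat_lit 0) (XT.nd (nat_lit 78) (nat_lit 304) (nat_lit 0) (XT.lf (nat_lit 0) (nat_lit 2075127023) (nat_lit 304) (nat_lit 5926390041) (nat_lit 76) (nat_lit 884428854) (nat_lit 83) (nat_lit 5) (nat_lit 87) (nat_lit 5) (nat_lit 84) (nat_lit 4) (nat_lit 428) (nat_lit 391) (nat_lit 381)) (XT.nd (nat_lit 78) (nat_lit 76) (nat_lit 0) (XT.lf (nat_lit 0) (nat_lit 960143570) (nat_lit 228) (nat_lit 4850290631) (nat_lit 304) (nat_lit 3274048792) (nat_lit 80) (nat_lit 5) (nat_lit 83) (nat_lit 5) (nat_lit 84) (nat_lit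 4) (nat_lit 429) (nat_lit 391) (nat_lit 380)) (XT.lf (nat_lit 0) (nat_lit 395333135) (nat_lit 304) (nat_lit 1095344125) (nat_lit 76) (nat_lit 7803469071) (nat_lit 79) (nat_lit 5) (nat_lit 83) (nat_lit 5) (nat_lit 80) (nat_lit 5) (nat_lit 430) (nat_lit 391) (nat_lit 379)))) (XT.nd (nat_lit 156) (nat_lit 304) (nat_lit 0) (XT.nd (nat_lit 78) (nat_lit 152) (nat_lit 0) (XT.lf (nat_lit 0) (nat_lit 4143116284) (nat_lit 304) (nat_lit 3301436218) (nat_lit 76) (nat_lit 2066841602) (nat_lit 76) (nat_lit 5) (nat_lit 80) (nat_lit 5) (nat_lit 77) (nat_lit 4) (nat_lit 431) (nat_lit 391) (nat_lit 378)) (XT.lf (nat_lit 0) (nat_lit 4097828878) (nat_lit 152) (nat_lit 3964039647) (nat_lit 228) (nat_lit 1678488169) (nat_lit 74) (nat_lit 5) (nat_lit 76) (nat_lit 5) (nat_lit 77) (nat_lit 4) (nat_lit 432) (nat_lit 391) (nat_lit 377))) (XT.nd (nat_lit 78) (nat_lit 0) (nat_lit 0) (XT.lf (nat_lit 0) (nat_lit 1837716922)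 (nat_lit 228) (nat_lit 250610566) (nat_lit 304) (nat_lit 7892613529) (nat_lit 70) (nat_lit 5) (nat_lit 73) (nat_lit 5) (nat_lit 74) (nat_lit 5) (nat_lit 433) (nat_lit 391) (nat_lit 376)) (XT.lf (nat_lit 0) (nat_lit 6020347982) (nat_lit 304) (nat_lit 618474181) (nat_lit 76) (nat_lit 3591720116) (nat_lit 70) (nat_lit 5) (nat_lit 74) (nat_lit 5) (nat_lit 71) (nat_lit 4) (nat_lit 434) (nat_lit 391) (nat_lit 375))))) (XT.nd (nat_lit 234) (nat_lit 608) (nat_lit 0) (XT.nd (nat_lit 78) (nat_lit 380) (nat_lit 0) (XT.lf (nat_lit 0) (nat_lit 7330629447) (nat_lit 152) (nat_lit 2821836884) (nat_lit 228) (nat_lit 340008287) (nat_lit 68) (nat_lit 5) (nat_lit 70) (nat_lit 5) (nat_lit 71) (nat_lit 4) (nat_lit 435) (nat_lit 391) (nat_lit 374)) (XT.nd (nat_lit 78) (nat_lit 152) (nat_lit 0) (XT.lf (nat_lit 0) (nat_lit 3596353540) (nat_lit 228) (nat_lit 5940637912) (nat_lit 76) (nat_lit 1228036323) (nat_lit 65)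 (nat_lit 5) (nat_lit 68) (nat_lit 5) (nat_lit 66) (nat_lit 4) (nat_lit 436) (nat_lit 391) (nat_lit 373)) (XT.lf (nat_lit 0) (nat_lit 2100871087) (nat_lit 152) (nat_lit 5638022332) (nat_lit 228) (nat_lit 3311019487) (nat_lit 63) (nat_lit 5) (nat_lit 65) (nat_lit 5) (nat_lit 66) (nat_lit 4) (nat_lit 437) (nat_lit 391) (nat_lit 372)))) (XT.nd (nat_lit 156) (nat_lit 380) (nat_lit 0) (XT.nd (nat_lit 78) (nat_lit 152) (nat_lit 0) (XT.lf (nat_lit 0) (nat_lit 706107512) (nat_lit 228) (nat_lit 792084398) (nat_lit 76) (nat_lit 9850780406) (nat_lit 62) (nat_lit 5) (nat_lit 65) (nat_lit 5) (nat_lit 63) (nat_lit 5) (nat_lit 438) (nat_lit 391) (nat_lit 371)) (XT.lf (nat_lit 0) (nat_lit 4874059235) (nat_lit 228) (nat_lit 3914742877) (nat_lit 76) (nat_lit 2868425911) (nat_lit 60) (nat_lit 5) (nat_lit 63) (nat_lit 5) (nat_lit 61) (nat_lit 4) (nat_lit 439) (nat_lit 391) (nat_lit 370))) (XT.nd (nat_lit 78) (nat_lit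 228) (nat_lit 0) (XT.lf (nat_lit 0) (nat_lit 4698624156) (nat_lit 152) (nat_lit 4557950781) (nat_lit 228) (nat_lit 2724031632) (nat_lit 58) (nat_lit 5) (nat_lit 60) (nat_lit 5) (nat_lit 61) (nat_lit 4) (nat_lit 440) (nat_lit 391) (nat_lit 369)) (XT.lf (nat_lit 0) (nat_lit 1402884080) (nat_lit 152) (nat_lit 70427951) (nat_lit 228) (nat_lit 10846434140) (nat_lit 55) (nat_lit 5) (nat_lit 57) (nat_lit 5) (nat_lit 58) (nat_lit 5) (nat_lit 441) (nat_lit 391) (nat_lit 368))))))) (XT.nd (nat_lit 1092) (nat_lit 912) (nat_lit 0) (XT.nd (nat_lit 546) (nat_lit 684) (nat_lit 0) (XT.nd (nat_lit 234) (nat_lit 304) (nat_lit 0) (XT.nd (nat_lit 78) (nat_lit 380) (nat_lit 0) (XT.lf (nat_lit 0) (nat_lit 5883082775) (nat_lit 228) (nat_lit 2193780834) (nat_lit 76) (nat_lit 4592056943) (nat_lit 55) (nat_lit 5) (nat_lit 58) (nat_lit 5) (nat_lit 56) (nat_lit 4) (nat_lit 442) (nat_lit 391) (nat_lit 367)) (XT.nd (nat_lit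 78) (nat_lit 228) (nat_lit 0) (XT.lf (nat_lit 0) (nat_lit 7017702787) (nat_lit 152) (nat_lit 3507591500) (nat_lit 228) (nat_lit 2509676869) (nat_lit 53) (nat_lit 5) (nat_lit 55) (nat_lit 5) (nat_lit 56) (nat_lit 4) (nat_lit 443) (nat_lit 391) (nat_lit 366)) (XT.lf (nat_lit 0) (nat_lit 1928061506) (nat_lit 228) (nat_lit 10190020858) (nat_lit 76) (nat_lit 1299152186) (nat_lit 50) (nat_lit 5) (nat_lit 53) (nat_lit 5) (nat_lit 51) (nat_lit 4) (nat_lit 444) (nat_lit 391) (nat_lit 365)))) (XT.nd (nat_lit 156) (nat_lit 228) (nat_lit 0) (XT.nd (nat_lit 78) (nat_lit 76) (nat_lit 0) (XT.lf (nat_lit 0) (nat_lit 6567036697) (nat_lit 228) (nat_lit 943635358) (nat_lit 76) (nat_lit 6302710429) (nat_lit 50) (nat_lit 5) (nat_lit 53) (nat_lit 5) (nat_lit 51) (nat_lit 4) (nat_lit 445) (nat_lit 391) (nat_lit 364)) (XT.lf (nat_lit 0) (nat_lit 8885035548) (nat_lit 76) (nat_lit 2598896894) (nat_lit 152) (nat_lit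 2743119217) (nat_lit 49) (nat_lit 5) (nat_lit 50) (nat_lit 5) (nat_lit 51) (nat_lit 4) (nat_lit 446) (nat_lit 391) (nat_lit 363))) (XT.nd (nat_lit 78) (nat_lit 0) (nat_lit 0) (XT.lf (nat_lit 0) (nat_lit 1957023274) (nat_lit 228) (nat_lit 10174807620) (nat_lit 76) (nat_lit 2526270120) (nat_lit 46) (nat_lit 5) (nat_lit 49) (nat_lit 5) (nat_lit 47) (nat_lit 4) (nat_lit 447) (nat_lit 391) (nat_lit 362)) (XT.lf (nat_lit 0) (nat_lit 6842932494) (nat_lit 228) (nat_lit 375487046) (nat_lit 76) (nat_lit 7887898263) (nat_lit 46) (nat_lit 5) (nat_lit 49) (nat_lit 5) (nat_lit 47) (nat_lit 4) (nat_lit 448) (nat_lit 391) (nat_lit 361))))) (XT.nd (nat_lit 234) (nat_lit 380) (nat_lit 0) (XT.nd (nat_lit 78) (nat_lit 228) (nat_lit 0) (XT.lf (nat_lit 0) (nat_lit 10078683552) (nat_lit 76) (nat_lit 1964561347) (nat_lit 152) (nat_lit 3530205376) (nat_lit 45) (nat_lit 5) (nat_lit 46) (nat_lit 5) (nat_lit 47) (nat_lit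 4) (nat_lit 449) (nat_lit 391) (nat_lit 360)) (XT.nd (nat_lit 78) (nat_lit 0) (nat_lit 0) (XT.lf (nat_lit 0) (nat_lit 1447000396) (nat_lit 228) (nat_lit 11135179119) (nat_lit 76) (nat_lit 3477973094) (nat_lit 42) (nat_lit 5) (nat_lit 45) (nat_lit 5) (nat_lit 43) (nat_lit 4) (nat_lit 450) (nat_lit 391) (nat_lit 359)) (XT.lf (nat_lit 0) (nat_lit 6594903272) (nat_lit 228) (nat_lit 760334628) (nat_lit 76) (nat_lit 9211043644) (nat_lit 42) (nat_lit 5) (nat_lit 45) (nat_lit 5) (nat_lit 43) (nat_lit 4) (nat_lit 451) (nat_lit 391) (nat_lit 358)))) (XT.nd (nat_lit 156) (nat_lit 76) (nat_lit 0) (XT.nd (nat_lit 78) (nat_lit 228) (nat_lit 0) (XT.lf (nat_lit 0) (nat_lit 10312201858) (nat_lit 76) (nat_lit 1766798843) (nat_lit 152) (nat_lit 5014784671) (nat_lit 41) (nat_lit 5) (nat_lit 42) (nat_lit 5) (nat_lit 43) (nat_lit 4) (nat_lit 452) (nat_lit 391) (nat_lit 357)) (XT.lf (nat_lit 0) (nat_lit 246174682)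 (nat_lit 228) (nat_lit 13411079136) (nat_lit 76) (nat_lit 3987139885) (nat_lit 38) (nat_lit 5) (nat_lit 41) (nat_lit 5) (nat_lit 39) (nat_lit 4) (nat_lit 453) (nat_lit 391) (nat_lit 356))) (XT.nd (nat_lit 78) (nat_lit 76) (nat_lit 0) (XT.lf (nat_lit 0) (nat_lit 5665915255) (nat_lit 228) (nat_lit 2447345217) (nat_lit 76) (nat_lit 10101955625) (nat_lit 38) (nat_lit 5) (nat_lit 41) (nat_lit 5) (nat_lit 39) (nat_lit 4) (nat_lit 454) (nat_lit 391) (nat_lit 355)) (XT.lf (nat_lit 0) (nat_lit 9214843379) (nat_lit 76) (nat_lit 2208113586) (nat_lit 152) (nat_lit 7388313864) (nat_lit 37) (nat_lit 5) (nat_lit 38) (nat_lit 5) (nat_lit 39) (nat_lit 4) (nat_lit 455) (nat_lit 391) (nat_lit 354)))))) (XT.nd (nat_lit 546) (nat_lit 456) (nat_lit 0) (XT.nd (nat_lit 234) (nat_lit 228) (nat_lit 0) (XT.nd (nat_lit 78) (nat_lit 152) (nat_lit 0) (XT.lf (nat_lit 0) (nat_lit 1964820191) (nat_lit 76) (nat_lit 15561045408)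 (nat_lit 76) (nat_lit 1908368554) (nat_lit 36) (nat_lit 4) (nat_lit 37) (nat_lit 5) (nat_lit 37) (nat_lit 4) (nat_lit 456) (nat_lit 391) (nat_lit 353)) (XT.nd (nat_lit 78) (nat_lit 76) (nat_lit 0) (XT.lf (nat_lit 0) (nat_lit 3846952499) (nat_lit 152) (nat_lit 5887142867) (nat_lit 76) (nat_lit 10345031206) (nat_lit 35) (nat_lit 5) (nat_lit 37) (nat_lit 5) (nat_lit 36) (nat_lit 4) (nat_lit 457) (nat_lit 391) (nat_lit 352)) (XT.lf (nat_lit 0) (nat_lit 6306404522) (nat_lit 76) (nat_lit 3544702863) (nat_lit 152) (nat_lit 10902337612) (nat_lit 34) (nat_lit 5) (nat_lit 35) (nat_lit 5) (nat_lit 36) (nat_lit 4) (nat_lit 458) (nat_lit 391) (nat_lit 351)))) (XT.nd (nat_lit 156) (nat_lit 76) (nat_lit 0) (XT.nd (nat_lit 78) (nat_lit 152) (nat_lit 0) (XT.lf (nat_lit 0) (nat_lit 16230028832) (nat_lit 152) (nat_lit 2328995336) (nat_lit 0) (nat_lit 2898732661) (nat_lit 34) (nat_lit 5) (nat_lit 36) (nat_lit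 4) (nat_lit 34) (nat_lit 4) (nat_lit 459) (nat_lit 391) (nat_lit 350)) (XT.lf (nat_lit 0) (nat_lit 863008721) (nat_lit 152) (nat_lit 11661443812) (nat_lit 76) (nat_lit 9664477258) (nat_lit 32) (nat_lit 5) (nat_lit 34) (nat_lit 5) (nat_lit 33) (nat_lit 4) (nat_lit 460) (nat_lit 391) (nat_lit 349))) (XT.nd (nat_lit 78) (nat_lit 0) (nat_lit 0) (XT.lf (nat_lit 0) (nat_lit 965186994) (nat_lit 76) (nat_lit 6103293442) (nat_lit 152) (nat_lit 15884606424) (nat_lit 31) (nat_lit 5) (nat_lit 32) (nat_lit 5) (nat_lit 33) (nat_lit 4) (nat_lit 461) (nat_lit 391) (nat_lit 348)) (XT.lf (nat_lit 0) (nat_lit 13725951985) (nat_lit 152) (nat_lit 9263399300) (nat_lit 0) (nat_lit 759018647) (nat_lit 31) (nat_lit 5) (nat_lit 33) (nat_lit 4) (nat_lit 31) (nat_lit 4) (nat_lit 462) (nat_lit 391) (nat_lit 347))))) (XT.nd (nat_lit 234) (nat_lit 228) (nat_lit 0) (XT.nd (nat_lit 78) (nat_lit 152) (nat_lit 0) (XT.lf (nat_lit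 0) (nat_lit 3998961667) (nat_lit 76) (nat_lit 16814130233) (nat_lit 76) (nat_lit 3765489771) (nat_lit 30) (nat_lit 4) (nat_lit 31) (nat_lit 5) (nat_lit 31) (nat_lit 4) (nat_lit 463) (nat_lit 391) (nat_lit 346)) (XT.nd (nat_lit 78) (nat_lit 76) (nat_lit 0) (XT.lf (nat_lit 0) (nat_lit 2808414713) (nat_lit 152) (nat_lit 7369206608) (nat_lit 76) (nat_lit 15265803169) (nat_lit 29) (nat_lit 5) (nat_lit 31) (nat_lit 5) (nat_lit 30) (nat_lit 4) (nat_lit 464) (nat_lit 391) (nat_lit 345)) (XT.lf (nat_lit 0) (nat_lit 6528535788) (nat_lit 76) (nat_lit 3095417055) (nat_lit 152) (nat_lit 16722499633) (nat_lit 28) (nat_lit 5) (nat_lit 29) (nat_lit 5) (nat_lit 30) (nat_lit 4) (nat_lit 465) (nat_lit 391) (nat_lit 344)))) (XT.nd (nat_lit 156) (nat_lit 152) (nat_lit 0) (XT.nd (nat_lit 78) (nat_lit 76) (nat_lit 0) (XT.lf (nat_lit 0) (nat_lit 16912674836) (nat_lit 152) (nat_lit 6101855079) (nat_lit 0) (nat_lit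 4273485096) (nat_lit 28) (nat_lit 5) (nat_lit 30) (nat_lit 4) (nat_lit 28) (nat_lit 4) (nat_lit 466) (nat_lit 391) (nat_lit 343)) (XT.lf (nat_lit 0) (nat_lit 8403317718) (nat_lit 76) (nat_lit 16285208028) (nat_lit 76) (nat_lit 3581998618) (nat_lit 27) (nat_lit 4) (nat_lit 28) (nat_lit 5) (nat_lit 28) (nat_lit 4) (nat_lit 467) (nat_lit 391) (nat_lit 342))) (XT.nd (nat_lit 78) (nat_lit 76) (nat_lit 0) (XT.lf (nat_lit 0) (nat_lit 3483235716) (nat_lit 152) (nat_lit 5623547304) (nat_lit 76) (nat_lit 20190313113) (nat_lit 26) (nat_lit 5) (nat_lit 28) (nat_lit 5) (nat_lit 27) (nat_lit 4) (nat_lit 468) (nat_lit 391) (nat_lit 341)) (XT.lf (nat_lit 0) (nat_lit 9467043448) (nat_lit 76) (nat_lit 1405781771) (nat_lit 152) (nat_lit 19494664482) (nat_lit 25) (nat_lit 5) (nat_lit 26) (nat_lit 5) (nat_lit 27) (nat_lit 4) (nat_lit 469) (nat_lit 391) (nat_lit 340))))))))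
noncomputable def xc73 : XT := (XT.nd (nat_lit 2184) (nat_lit 532) (nat_lit 0) (XT.nd (nat_lit 1092) (nat_lit 456) (nat_lit 0) (XT.nd (nat_lit 546) (nat_lit 380) (nat_lit 0) (XT.nd (nat_lit 234) (nat_lit 152) (nat_lit 0) (XT.nd (nat_lit 78) (nat_lit 152) (nat_lit 0) (XT.lf (nat_lit 0) (nat_lit 18776837133) (nat_lit 152) (nat_lit 6194818416) (nat_lit 0) (nat_lit 6512502990) (nat_lit 25) (nat_lit 5) (nat_lit 27) (nat_lit 4) (nat_lit 25) (nat_lit 4) (nat_lit 470) (nat_lit 391) (nat_lit 339)) (XT.nd (nat_lit 78) (nat_lit 76) (nat_lit 0) (XT.lf (nat_lit 0) (nat_lit 9420051449) (nat_lit 76) (nat_lit 17772637619) (nat_lit 76) (nat_lit 5458142391) (nat_lit 24) (nat_lit 4) (nat_lit 25) (nat_lit 5) (nat_lit 25) (nat_lit 4) (nat_lit 471) (nat_lit 391) (nat_lit 338)) (XT.lf (nat_lit 0) (nat_lit 2137800636) (nat_lit 152) (nat_lit 7979776387) (nat_lit 76) (nat_lit 23753920745) (nat_lit 23) (nat_lit 5) (nat_lit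 25) (nat_lit 5) (nat_lit 24) (nat_lit 4) (nat_lit 472) (nat_lit 391) (nat_lit 337)))) (XT.nd (nat_lit 156) (nat_lit 76) (nat_lit 0) (XT.nd (nat_lit 78) (nat_lit 0) (nat_lit 0) (XT.lf (nat_lit 0) (nat_lit 8104083906) (nat_lit 76) (nat_lit 1901696182) (nat_lit 152) (nat_lit 25139162240) (nat_lit 22) (nat_lit 5) (nat_lit 23) (nat_lit 5) (nat_lit 24) (nat_lit 4) (nat_lit 473) (nat_lit 391) (nat_lit 336)) (XT.lf (nat_lit 0) (nat_lit 18458794426) (nat_lit 152) (nat_lit 11413077576) (nat_lit 0) (nat_lit 6600607465) (nat_lit 22) (nat_lit 5) (nat_lit 24) (nat_lit 4) (nat_lit 22) (nat_lit 4) (nat_lit 474) (nat_lit 391) (nat_lit 335))) (XT.nd (nat_lit 78) (nat_lit 0) (nat_lit 0) (XT.lf (nat_lit 0) (nat_lit 5030946911) (nat_lit 76) (nat_lit 22364933517) (nat_lit 76) (nat_lit 10467444032) (nat_lit 21) (nat_lit 4) (nat_lit 22) (nat_lit 5) (nat_lit 22) (nat_lit 4) (nat_lit 475) (nat_lit 391) (nat_lit 334))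 (XT.lf (nat_lit 0) (nat_lit 22599949256) (nat_lit 76) (nat_lit 14325696794) (nat_lit 76) (nat_lit 2390776335) (nat_lit 21) (nat_lit 4) (nat_lit 22) (nat_lit 5) (nat_lit 22) (nat_lit 4) (nat_lit 476) (nat_lit 391) (nat_lit 333))))) (XT.nd (nat_lit 234) (nat_lit 228) (nat_lit 0) (XT.nd (nat_lit 78) (nat_lit 0) (nat_lit 0) (XT.lf (nat_lit 0) (nat_lit 20267473) (nat_lit 76) (nat_lit 5828921053) (nat_lit 152) (nat_lit 34990515913) (nat_lit 19) (nat_lit 5) (nat_lit 20) (nat_lit 5) (nat_lit 21) (nat_lit 4) (nat_lit 477) (nat_lit 391) (nat_lit 332)) (XT.nd (nat_lit 78) (nat_lit 0) (nat_lit 0) (XT.lf (nat_lit 0) (nat_lit 14711002005) (nat_lit 152) (nat_lit 24433555005) (nat_lit 0) (nat_lit 3278125810) (nat_lit 19) (nat_lit 5) (nat_lit 21) (nat_lit 4) (nat_lit 19) (nat_lit 4) (nat_lit 478) (nat_lit 391) (nat_lit 331)) (XT.lf (nat_lit 0) (nat_lit 24067812670) (nat_lit 152) (nat_lit 7410261805) (nat_lit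 0) (nat_lit 12604141919) (nat_lit 19) (nat_lit 5) (nat_lit 21) (nat_lit 4) (nat_lit 19) (nat_lit 4) (nat_lit 479) (nat_lit 391) (nat_lit 330)))) (XT.nd (nat_lit 156) (nat_lit 152) (nat_lit 0) (XT.nd (nat_lit 78) (nat_lit 0) (nat_lit 0) (XT.lf (nat_lit 0) (nat_lit 10725255223) (nat_lit 76) (nat_lit 23293088918) (nat_lit 76) (nat_lit 11800090019) (nat_lit 18) (nat_lit 4) (nat_lit 19) (nat_lit 5) (nat_lit 19) (nat_lit 4) (nat_lit 480) (nat_lit 391) (nat_lit 329)) (XT.lf (nat_lit 0) (nat_lit 29943925745) (nat_lit 76) (nat_lit 14607118446) (nat_lit 76) (nat_lit 3086187977) (nat_lit 18) (nat_lit 4) (nat_lit 19) (nat_lit 5) (nat_lit 19) (nat_lit 4) (nat_lit 481) (nat_lit 391) (nat_lit 328))) (XT.nd (nat_lit 78) (nat_lit 0) (nat_lit 0) (XT.lf (nat_lit 0) (nat_lit 416888986) (nat_lit 76) (nat_lit 5419413916) (nat_lit 152) (nat_lit 43707587117) (nat_lit 16) (nat_lit 5) (nat_lit 17) (nat_lit 5) (nat_lit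 18) (nat_lit 4) (nat_lit 482) (nat_lit 391) (nat_lit 327)) (XT.lf (nat_lit 0) (nat_lit 15432299960) (nat_lit 152) (nat_lit 31683975376) (nat_lit 0) (nat_lit 4410522130) (nat_lit 16) (nat_lit 5) (nat_lit 18) (nat_lit 4) (nat_lit 16) (nat_lit 4) (nat_lit 483) (nat_lit 391) (nat_lit 326)))))) (XT.nd (nat_lit 546) (nat_lit 228) (nat_lit 0) (XT.nd (nat_lit 234) (nat_lit 152) (nat_lit 0) (XT.nd (nat_lit 78) (nat_lit 76) (nat_lit 0) (XT.lf (nat_lit 0) (nat_lit 25559354011) (nat_lit 152) (nat_lit 13532337803) (nat_lit 0) (nat_lit 14514596810) (nat_lit 16) (nat_lit 5) (nat_lit 18) (nat_lit 4) (nat_lit 16) (nat_lit 4) (nat_lit 484) (nat_lit 391) (nat_lit 325)) (XT.nd (nat_lit 78) (nat_lit 0) (nat_lit 0) (XT.lf (nat_lit 0) (nat_lit 5636133582) (nat_lit 76) (nat_lit 30608827109) (nat_lit 76) (nat_lit 19542184791) (nat_lit 15) (nat_lit 4) (nat_lit 16) (nat_lit 5) (nat_lit 16) (nat_lit 4) (nat_lit 485) (nat_lit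 391) (nat_lit 324)) (XT.lf (nat_lit 0) (nat_lit 26162848623) (nat_lit 76) (nat_lit 21495991651) (nat_lit 76) (nat_lit 10408506366) (nat_lit 15) (nat_lit 4) (nat_lit 16) (nat_lit 5) (nat_lit 16) (nat_lit 4) (nat_lit 486) (nat_lit 391) (nat_lit 323)))) (XT.nd (nat_lit 156) (nat_lit 0) (nat_lit 0) (XT.nd (nat_lit 78) (nat_lit 152) (nat_lit 0) (XT.lf (nat_lit 0) (nat_lit 47649240249) (nat_lit 76) (nat_lit 11960664902) (nat_lit 76) (nat_lit 853329172) (nat_lit 15) (nat_lit 4) (nat_lit 16) (nat_lit 5) (nat_lit 16) (nat_lit 4) (nat_lit 487) (nat_lit 391) (nat_lit 322)) (XT.lf (nat_lit 0) (nat_lit 7255374596) (nat_lit 76) (nat_lit 1711267116) (nat_lit 152) (nat_lit 54001067665) (nat_lit 13) (nat_lit 5) (nat_lit 14) (nat_lit 5) (nat_lit 15) (nat_lit 4) (nat_lit 488) (nat_lit 391) (nat_lit 321))) (XT.nd (nat_lit 78) (nat_lit 0) (nat_lit 0) (XT.lf (nat_lit 0) (nat_lit 19578429594) (nat_lit 152) (nat_lit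 37036943125) (nat_lit 0) (nat_lit 8964862113) (nat_lit 13) (nat_lit 5) (nat_lit 15) (nat_lit 4) (nat_lit 13) (nat_lit 4) (nat_lit 489) (nat_lit 391) (nat_lit 320)) (XT.lf (nat_lit 0) (nat_lit 30718024158) (nat_lit 152) (nat_lit 17517376719) (nat_lit 0) (nat_lit 20088125667) (nat_lit 13) (nat_lit 5) (nat_lit 15) (nat_lit 4) (nat_lit 13) (nat_lit 4) (nat_lit 490) (nat_lit 391) (nat_lit 319))))) (XT.nd (nat_lit 234) (nat_lit 152) (nat_lit 0) (XT.nd (nat_lit 78) (nat_lit 0) (nat_lit 0) (XT.lf (nat_lit 0) (nat_lit 3016091019) (nat_lit 76) (nat_lit 39416229189) (nat_lit 76) (nat_lit 28770777355) (nat_lit 12) (nat_lit 4) (nat_lit 13) (nat_lit 5) (nat_lit 13) (nat_lit 4) (nat_lit 491) (nat_lit 391) (nat_lit 318)) (XT.nd (nat_lit 78) (nat_lit 0) (nat_lit 0) (XT.lf (nat_lit 0) (nat_lit 25126730506) (nat_lit 76) (nat_lit 29873396082) (nat_lit 76) (nat_lit 19213131539) (nat_lit 12) (nat_lit 4) (nat_lit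 13) (nat_lit 5) (nat_lit 13) (nat_lit 4) (nat_lit 492) (nat_lit 391) (nat_lit 317)) (XT.lf (nat_lit 0) (nat_lit 48287982537) (nat_lit 76) (nat_lit 19880845774) (nat_lit 76) (nat_lit 9206473891) (nat_lit 12) (nat_lit 4) (nat_lit 13) (nat_lit 5) (nat_lit 13) (nat_lit 4) (nat_lit 493) (nat_lit 391) (nat_lit 316)))) (XT.nd (nat_lit 156) (nat_lit 0) (nat_lit 0) (XT.nd (nat_lit 78) (nat_lit 76) (nat_lit 0) (XT.lf (nat_lit 0) (nat_lit 1232276343) (nat_lit 152) (nat_lit 8161640941) (nat_lit 76) (nat_lit 71301847410) (nat_lit 11) (nat_lit 5) (nat_lit 13) (nat_lit 5) (nat_lit 12) (nat_lit 4) (nat_lit 494) (nat_lit 391) (nat_lit 315)) (XT.lf (nat_lit 0) (nat_lit 12108642736) (nat_lit 152) (nat_lit 70137216041) (nat_lit 0) (nat_lit 1917592051) (nat_lit 10) (nat_lit 5) (nat_lit 12) (nat_lit 4) (nat_lit 10) (nat_lit 4) (nat_lit 495) (nat_lit 391) (nat_lit 314))) (XT.nd (nat_lit 78) (nat_lit 0) (nat_lit 0)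 (XT.lf (nat_lit 0) (nat_lit 23798005105) (nat_lit 152) (nat_lit 50397709608) (nat_lit 0) (nat_lit 13595348275) (nat_lit 10) (nat_lit 5) (nat_lit 12) (nat_lit 4) (nat_lit 10) (nat_lit 4) (nat_lit 496) (nat_lit 391) (nat_lit 313)) (XT.lf (nat_lit 0) (nat_lit 36047732497) (nat_lit 152) (nat_lit 29719506794) (nat_lit 0) (nat_lit 25834022196) (nat_lit 10) (nat_lit 5) (nat_lit 12) (nat_lit 4) (nat_lit 10) (nat_lit 4) (nat_lit 497) (nat_lit 391) (nat_lit 312))))))) (XT.nd (nat_lit 1092) (nat_lit 228) (nat_lit 0) (XT.nd (nat_lit 546) (nat_lit 76) (nat_lit 0) (XT.nd (nat_lit 234) (nat_lit 152) (nat_lit 0) (XT.nd (nat_lit 78) (nat_lit 76) (nat_lit 0) (XT.lf (nat_lit 0) (nat_lit 48886990930) (nat_lit 152) (nat_lit 8053373782) (nat_lit 0) (nat_lit 38662753514) (nat_lit 10) (nat_lit 5) (nat_lit 12) (nat_lit 4) (nat_lit 10) (nat_lit 4) (nat_lit 498) (nat_lit 391) (nat_lit 311)) (XT.nd (nat_lit 78) (nat_lit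 0) (nat_lit 0) (XT.lf (nat_lit 0) (nat_lit 15136745856) (nat_lit 76) (nat_lit 47445931232) (nat_lit 76) (nat_lit 37211667993) (nat_lit 9) (nat_lit 4) (nat_lit 10) (nat_lit 5) (nat_lit 10) (nat_lit 4) (nat_lit 499) (nat_lit 391) (nat_lit 310)) (XT.lf (nat_lit 0) (nat_lit 39722882306) (nat_lit 76) (nat_lit 37355159208) (nat_lit 76) (nat_lit 27111347566) (nat_lit 9) (nat_lit 4) (nat_lit 10) (nat_lit 5) (nat_lit 10) (nat_lit 4) (nat_lit 500) (nat_lit 391) (nat_lit 309)))) (XT.nd (nat_lit 156) (nat_lit 152) (nat_lit 0) (XT.nd (nat_lit 78) (nat_lit 0) (nat_lit 0) (XT.lf (nat_lit 0) (nat_lit 65497293078) (nat_lit 76) (nat_lit 26780410774) (nat_lit 76) (nat_lit 16527505414) (nat_lit 9) (nat_lit 4) (nat_lit 10) (nat_lit 5) (nat_lit 10) (nat_lit 4) (nat_lit 501) (nat_lit 391) (nat_lit 308)) (XT.lf (nat_lit 0) (nat_lit 92521345818) (nat_lit 76) (nat_lit 15696507958) (nat_lit 76) (nat_lit 5434941914) (nat_lit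 9) (nat_lit 4) (nat_lit 10) (nat_lit 5) (nat_lit 10) (nat_lit 4) (nat_lit 502) (nat_lit 391) (nat_lit 307))) (XT.nd (nat_lit 78) (nat_lit 0) (nat_lit 0) (XT.lf (nat_lit 0) (nat_lit 2085764534) (nat_lit 76) (nat_lit 3941347098) (nat_lit 152) (nat_lit 112710116046) (nat_lit 7) (nat_lit 5) (nat_lit 8) (nat_lit 5) (nat_lit 9) (nat_lit 4) (nat_lit 503) (nat_lit 391) (nat_lit 306)) (XT.lf (nat_lit 0) (nat_lit 18355682126) (nat_lit 152) (nat_lit 97124516296) (nat_lit 0) (nat_lit 8567425165) (nat_lit 7) (nat_lit 5) (nat_lit 9) (nat_lit 4) (nat_lit 7) (nat_lit 4) (nat_lit 504) (nat_lit 391) (nat_lit 305))))) (XT.nd (nat_lit 234) (nat_lit 76) (nat_lit 0) (XT.nd (nat_lit 78) (nat_lit 0) (nat_lit 0) (XT.lf (nat_lit 0) (nat_lit 31347344632) (nat_lit 152) (nat_lit 76721899351) (nat_lit 0) (nat_lit 21551962505) (nat_lit 7) (nat_lit 5) (nat_lit 9) (nat_lit 4) (nat_lit 7) (nat_lit 4) (nat_lit 505) (nat_lit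 391) (nat_lit 304)) (XT.nd (nat_lit 78) (nat_lit 0) (nat_lit 0) (XT.lf (nat_lit 0) (nat_lit 44971496206) (nat_lit 152) (nat_lit 55333499176) (nat_lit 0) (nat_lit 35169328207) (nat_lit 7) (nat_lit 5) (nat_lit 9) (nat_lit 4) (nat_lit 7) (nat_lit 4) (nat_lit 506) (nat_lit 391) (nat_lit 303)) (XT.lf (nat_lit 0) (nat_lit 59260575305) (nat_lit 152) (nat_lit 32908391009) (nat_lit 0) (nat_lit 49451944571) (nat_lit 7) (nat_lit 5) (nat_lit 9) (nat_lit 4) (nat_lit 7) (nat_lit 4) (nat_lit 507) (nat_lit 391) (nat_lit 302)))) (XT.nd (nat_lit 156) (nat_lit 0) (nat_lit 0) (XT.nd (nat_lit 78) (nat_lit 76) (nat_lit 0) (XT.lf (nat_lit 0) (nat_lit 74248603546) (nat_lit 152) (nat_lit 9393181736) (nat_lit 0) (nat_lit 64433817825) (nat_lit 7) (nat_lit 5) (nat_lit 9) (nat_lit 4) (nat_lit 7) (nat_lit 4) (nat_lit 508) (nat_lit 391) (nat_lit 301)) (XT.lf (nat_lit 0) (nat_lit 15772950146) (nat_lit 76) (nat_lit 74444576518)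 (nat_lit 76) (nat_lit 64623928907) (nat_lit 6) (nat_lit 4) (nat_lit 7) (nat_lit 5) (nat_lit 7) (nat_lit 4) (nat_lit 509) (nat_lit 391) (nat_lit 300))) (XT.nd (nat_lit 78) (nat_lit 0) (nat_lit 0) (XT.lf (nat_lit 0) (nat_lit 42494306479) (nat_lit 76) (nat_lit 64635148443) (nat_lit 76) (nat_lit 54808918077) (nat_lit 6) (nat_lit 4) (nat_lit 7) (nat_lit 5) (nat_lit 7) (nat_lit 4) (nat_lit 510) (nat_lit 391) (nat_lit 299)) (XT.lf (nat_lit 0) (nat_lit 70523928532) (nat_lit 76) (nat_lit 54349223352) (nat_lit 76) (nat_lit 44517676078) (nat_lit 6) (nat_lit 4) (nat_lit 7) (nat_lit 5) (nat_lit 7) (nat_lit 4) (nat_lit 511) (nat_lit 391) (nat_lit 298)))))) (XT.nd (nat_lit 546) (nat_lit 76) (nat_lit 0) (XT.nd (nat_lit 234) (nat_lit 152) (nat_lit 0) (XT.nd (nat_lit 78) (nat_lit 0) (nat_lit 0) (XT.lf (nat_lit 0) (nat_lit 99928553499) (nat_lit 76) (nat_lit 43562310948) (nat_lit 76) (nat_lit 33725699951) (nat_lit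 6) (nat_lit 4) (nat_lit 7) (nat_lit 5) (nat_lit 7) (nat_lit 4) (nat_lit 512) (nat_lit 391) (nat_lit 297)) (XT.nd (nat_lit 78) (nat_lit 0) (nat_lit 0) (XT.lf (nat_lit 0) (nat_lit 130778192392) (nat_lit 76) (nat_lit 32248728106) (nat_lit 76) (nat_lit 22407294517) (nat_lit 6) (nat_lit 4) (nat_lit 7) (nat_lit 5) (nat_lit 7) (nat_lit 4) (nat_lit 513) (nat_lit 391) (nat_lit 296)) (XT.lf (nat_lit 0) (nat_lit 163146296732) (nat_lit 76) (nat_lit 20381537723) (nat_lit 76) (nat_lit 10535511189) (nat_lit 6) (nat_lit 4) (nat_lit 7) (nat_lit 5) (nat_lit 7) (nat_lit 4) (nat_lit 514) (nat_lit 391) (nat_lit 295)))) (XT.nd (nat_lit 156) (nat_lit 0) (nat_lit 0) (XT.nd (nat_lit 78) (nat_lit 76) (nat_lit 0) (XT.lf (nat_lit 0) (nat_lit 1856530885) (nat_lit 152) (nat_lit 6044512451) (nat_lit 76) (nat_lit 195221961299) (nat_lit 5) (nat_lit 5) (nat_lit 7) (nat_lit 5) (nat_lit 6) (nat_lit 4) (nat_lit 515) (nat_lit 391)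 (nat_lit 294)) (XT.lf (nat_lit 0) (nat_lit 14912847962) (nat_lit 152) (nat_lit 192166680061) (nat_lit 0) (nat_lit 5527546338) (nat_lit 4) (nat_lit 5) (nat_lit 6) (nat_lit 4) (nat_lit 4) (nat_lit 4) (nat_lit 516) (nat_lit 391) (nat_lit 293))) (XT.nd (nat_lit 78) (nat_lit 0) (nat_lit 0) (XT.lf (nat_lit 0) (nat_lit 28844551901) (nat_lit 152) (nat_lit 174254195668) (nat_lit 0) (nat_lit 19455471650) (nat_lit 4) (nat_lit 5) (nat_lit 6) (nat_lit 4) (nat_lit 4) (nat_lit 4) (nat_lit 517) (nat_lit 391) (nat_lit 292)) (XT.lf (nat_lit 0) (nat_lit 43462365628) (nat_lit 152) (nat_lit 155467192964) (nat_lit 0) (nat_lit 34069686684) (nat_lit 4) (nat_lit 5) (nat_lit 6) (nat_lit 4) (nat_lit 4) (nat_lit 4) (nat_lit 518) (nat_lit 391) (nat_lit 291))))) (XT.nd (nat_lit 312) (nat_lit 76) (nat_lit 0) (XT.nd (nat_lit 156) (nat_lit 0) (nat_lit 0) (XT.nd (nat_lit 78) (nat_lit 0) (nat_lit 0) (XT.lf (nat_lit 0) (nat_lit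 58801093463) (nat_lit 152) (nat_lit 135760940988) (nat_lit 0) (nat_lit 49404987193) (nat_lit 4) (nat_lit 5) (nat_lit 6) (nat_lit 4) (nat_lit 4) (nat_lit 4) (nat_lit 519) (nat_lit 391) (nat_lit 290)) (XT.lf (nat_lit 0) (nat_lit 74897256186) (nat_lit 152) (nat_lit 115088520095) (nat_lit 0) (nat_lit 65497885795) (nat_lit 4) (nat_lit 5) (nat_lit 6) (nat_lit 4) (nat_lit 4) (nat_lit 4) (nat_lit 520) (nat_lit 391) (nat_lit 289))) (XT.nd (nat_lit 78) (nat_lit 0) (nat_lit 0) (XT.lf (nat_lit 0) (nat_lit 91789177994) (nat_lit 152) (nat_lit 93400710233) (nat_lit 0) (nat_lit 82386698917) (nat_lit 4) (nat_lit 5) (nat_lit 6) (nat_lit 4) (nat_lit 4) (nat_lit 4) (nat_lit 521) (nat_lit 391) (nat_lit 288)) (XT.lf (nat_lit 0) (nat_lit 109517077748) (nat_lit 152) (nat_lit 70645873761) (nat_lit 0) (nat_lit 100111638017) (nat_lit 4) (nat_lit 5) (nat_lit 6) (nat_lit 4) (nat_lit 4) (nat_lit 4) (nat_lit 522) (nat_lit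 391) (nat_lit 287)))) (XT.nd (nat_lit 156) (nat_lit 76) (nat_lit 0) (XT.nd (nat_lit 78) (nat_lit 0) (nat_lit 0) (XT.lf (nat_lit 0) (nat_lit 128123164733) (nat_lit 152) (nat_lit 46769832496) (nat_lit 0) (nat_lit 118714905332) (nat_lit 4) (nat_lit 5) (nat_lit 6) (nat_lit 4) (nat_lit 4) (nat_lit 4) (nat_lit 523) (nat_lit 391) (nat_lit 286)) (XT.lf (nat_lit 0) (nat_lit 147651739157) (nat_lit 152) (nat_lit 21715738721) (nat_lit 0) (nat_lit 138240794356) (nat_lit 4) (nat_lit 5) (nat_lit 6) (nat_lit 4) (nat_lit 4) (nat_lit 4) (nat_lit 524) (nat_lit 391) (nat_lit 285))) (XT.nd (nat_lit 78) (nat_lit 0) (nat_lit 0) (XT.lf (nat_lit 0) (nat_lit 4727365382) (nat_lit 76) (nat_lit 163495739665) (nat_lit 76) (nat_lit 154082237340) (nat_lit 3) (nat_lit 4) (nat_lit 4) (nat_lit 5) (nat_lit 4) (nat_lit 4) (nat_lit 525) (nat_lit 391) (nat_lit 284)) (XT.lf (nat_lit 0) (nat_lit 33231788458) (nat_lit 76) (nat_lit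 156951696739) (nat_lit 76) (nat_lit 147535758677) (nat_lit 3) (nat_lit 4) (nat_lit 4) (nat_lit 5) (nat_lit 4) (nat_lit 4) (nat_lit 526) (nat_lit 391) (nat_lit 283))))))))
noncomputable def xc74 : XT := (XT.nd (nat_lit 54522) (nat_lit 0) (nat_lit 3040) (XT.nd (nat_lit 1092) (nat_lit 152) (nat_lit 0) (XT.nd (nat_lit 546) (nat_lit 0) (nat_lit 0) (XT.nd (nat_lit 234) (nat_lit 0) (nat_lit 0) (XT.nd (nat_lit 78) (nat_lit 0) (nat_lit 0) (XT.lf (nat_lit 0) (nat_lit 63147377787) (nat_lit 76) (nat_lit 150087534590) (nat_lit 76) (nat_lit 140669276779) (nat_lit 3) (nat_lit 4) (nat_lit 4) (nat_lit 5) (nat_lit 4) (nat_lit 4) (nat_lit 527) (nat_lit 391) (nat_lit 282)) (XT.nd (nat_lit 78) (nat_lit 0) (nat_lit 0) (XT.lf (nat_lit 0) (nat_lit 94545360962) (nat_lit 76) (nat_lit 142886909975) (nat_lit 76) (nat_lit 133466442879) (nat_lit 3) (nat_lit 4) (nat_lit 4) (nat_lit 5) (nat_lit 4) (nat_lit 4) (nat_lit 528)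 (nat_lit 391) (nat_lit 281)) (XT.lf (nat_lit 0) (nat_lit 127500495087) (nat_lit 76) (nat_lit 135332678550) (nat_lit 76) (nat_lit 125910107372) (nat_lit 3) (nat_lit 4) (nat_lit 4) (nat_lit 5) (nat_lit 4) (nat_lit 4) (nat_lit 529) (nat_lit 391) (nat_lit 280)))) (XT.nd (nat_lit 156) (nat_lit 0) (nat_lit 0) (XT.nd (nat_lit 78) (nat_lit 0) (nat_lit 0) (XT.lf (nat_lit 0) (nat_lit 162091244766) (nat_lit 76) (nat_lit 127406854048) (nat_lit 76) (nat_lit 117982278983) (nat_lit 3) (nat_lit 4) (nat_lit 4) (nat_lit 5) (nat_lit 4) (nat_lit 4) (nat_lit 530) (nat_lit 391) (nat_lit 279)) (XT.lf (nat_lit 0) (nat_lit 198399968928) (nat_lit 76) (nat_lit 119090565460) (nat_lit 76) (nat_lit 109664081931) (nat_lit 3) (nat_lit 4) (nat_lit 4) (nat_lit 5) (nat_lit 4) (nat_lit 4) (nat_lit 531) (nat_lit 391) (nat_lit 278))) (XT.nd (nat_lit 78) (nat_lit 0) (nat_lit 0) (XT.lf (nat_lit 0) (nat_lit 236513116914) (nat_lit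 76) (nat_lit 110364012097) (nat_lit 76) (nat_lit 100935710985) (nat_lit 3) (nat_lit 4) (nat_lit 4) (nat_lit 5) (nat_lit 4) (nat_lit 4) (nat_lit 532) (nat_lit 391) (nat_lit 277)) (XT.lf (nat_lit 0) (nat_lit 276521434317) (nat_lit 76) (nat_lit 101206416453) (nat_lit 76) (nat_lit 91776384308) (nat_lit 3) (nat_lit 4) (nat_lit 4) (nat_lit 5) (nat_lit 4) (nat_lit 4) (nat_lit 533) (nat_lit 391) (nat_lit 276))))) (XT.nd (nat_lit 234) (nat_lit 0) (nat_lit 0) (XT.nd (nat_lit 78) (nat_lit 0) (nat_lit 0) (XT.lf (nat_lit 0) (nat_lit 318520179034) (nat_lit 76) (nat_lit 91595974728) (nat_lit 76) (nat_lit 82164293980) (nat_lit 3) (nat_lit 4) (nat_lit 4) (nat_lit 5) (nat_lit 4) (nat_lit 4) (nat_lit 534) (nat_lit 391) (nat_lit 275)) (XT.nd (nat_lit 78) (nat_lit 0) (nat_lit 0) (XT.lf (nat_lit 0) (nat_lit 362609348077) (nat_lit 76) (nat_lit 81509804918) (nat_lit 76) (nat_lit 72076554072) (nat_lit 3) (nat_lit 4)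 (nat_lit 4) (nat_lit 5) (nat_lit 4) (nat_lit 4) (nat_lit 535) (nat_lit 391) (nat_lit 274)) (XT.lf (nat_lit 0) (nat_lit 408893915657) (nat_lit 76) (nat_lit 70923892332) (nat_lit 76) (nat_lit 61489146155) (nat_lit 3) (nat_lit 4) (nat_lit 4) (nat_lit 5) (nat_lit 4) (nat_lit 4) (nat_lit 536) (nat_lit 391) (nat_lit 273)))) (XT.nd (nat_lit 156) (nat_lit 0) (nat_lit 0) (XT.nd (nat_lit 78) (nat_lit 0) (nat_lit 0) (XT.lf (nat_lit 0) (nat_lit 457484083127) (nat_lit 76) (nat_lit 59813032418) (nat_lit 76) (nat_lit 50376862116) (nat_lit 3) (nat_lit 4) (nat_lit 4) (nat_lit 5) (nat_lit 4) (nat_lit 4) (nat_lit 537) (nat_lit 391) (nat_lit 272)) (XT.lf (nat_lit 0) (nat_lit 508495541360) (nat_lit 76) (nat_lit 48150770747) (nat_lit 76) (nat_lit 38713244135) (nat_lit 3) (nat_lit 4) (nat_lit 4) (nat_lit 5) (nat_lit 4) (nat_lit 4) (nat_lit 538) (nat_lit 391) (nat_lit 271))) (XT.nd (nat_lit 78) (nat_lit 0) (nat_lit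 0) (XT.lf (nat_lit 0) (nat_lit 562049746211) (nat_lit 76) (nat_lit 35909340028) (nat_lit 76) (nat_lit 26470521693) (nat_lit 3) (nat_lit 4) (nat_lit 4) (nat_lit 5) (nat_lit 4) (nat_lit 4) (nat_lit 539) (nat_lit 391) (nat_lit 270)) (XT.lf (nat_lit 0) (nat_lit 618274207689) (nat_lit 76) (nat_lit 23059593999) (nat_lit 76) (nat_lit 13619545451) (nat_lit 3) (nat_lit 4) (nat_lit 4) (nat_lit 5) (nat_lit 4) (nat_lit 4) (nat_lit 540) (nat_lit 391) (nat_lit 269)))))) (XT.nd (nat_lit 52884) (nat_lit 0) (nat_lit 7144) (XT.nd (nat_lit 234) (nat_lit 0) (nat_lit 0) (XT.nd (nat_lit 78) (nat_lit 152) (nat_lit 0) (XT.lf (nat_lit 0) (nat_lit 677302793562) (nat_lit 76) (nat_lit 9570938026) (nat_lit 76) (nat_lit 129717847) (nat_lit 3) (nat_lit 4) (nat_lit 4) (nat_lit 5) (nat_lit 4) (nat_lit 4) (nat_lit 541) (nat_lit 391) (nat_lit 268)) (XT.nd (nat_lit 78) (nat_lit 0) (nat_lit 0) (XT.lf (nat_lit 0) (nat_lit 13958883736)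 (nat_lit 152) (nat_lit 701701360552) (nat_lit 0) (nat_lit 4966182766) (nat_lit 1) (nat_lit 5) (nat_lit 3) (nat_lit 4) (nat_lit 1) (nat_lit 4) (nat_lit 542) (nat_lit 391) (nat_lit 267)) (XT.lf (nat_lit 0) (nat_lit 29068029966) (nat_lit 152) (nat_lit 706772076719) (nat_lit 0) (nat_lit 20074316898) (nat_lit 1) (nat_lit 5) (nat_lit 3) (nat_lit 4) (nat_lit 1) (nat_lit 4) (nat_lit 543) (nat_lit 391) (nat_lit 266)))) (XT.nd (nat_lit 52494) (nat_lit 0) (nat_lit 9348) (XT.nd (nat_lit 78) (nat_lit 0) (nat_lit 0) (XT.lf (nat_lit 0) (nat_lit 44929390472) (nat_lit 152) (nat_lit 712102878169) (nat_lit 0) (nat_lit 35934713499) (nat_lit 1) (nat_lit 5) (nat_lit 3) (nat_lit 4) (nat_lit 1) (nat_lit 4) (nat_lit 544) (nat_lit 391) (nat_lit 265)) (XT.lf (nat_lit 0) (nat_lit 61580730397) (nat_lit 152) (nat_lit 717706457286) (nat_lit 0) (nat_lit 52585135421) (nat_lit 1) (nat_lit 5) (nat_lit 3) (nat_lit 4) (nat_lit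 1) (nat_lit 4) (nat_lit 545) (nat_lit 391) (nat_lit 264))) (XT.nd (nat_lit 78) (nat_lit 0) (nat_lit 0) (XT.lf (nat_lit 0) (nat_lit 57985611) (nat_lit 836) (nat_lit 3480463410) (nat_lit 0) (nat_lit 57985611) (nat_lit 124) (nat_lit 5) (nat_lit 135) (nat_lit 4) (nat_lit 124) (nat_lit 4) (nat_lit 416) (nat_lit 392) (nat_lit 392)) (XT.lf (nat_lit 0) (nat_lit 3642123920) (nat_lit 836) (nat_lit 1608126100) (nat_lit 0) (nat_lit 2039590231) (nat_lit 124) (nat_lit 5) (nat_lit 135) (nat_lit 4) (nat_lit 124) (nat_lit 4) (nat_lit 417) (nat_lit 392) (nat_lit 391))))) (XT.nd (nat_lit 234) (nat_lit 988) (nat_lit 0) (XT.nd (nat_lit 78) (nat_lit 836) (nat_lit 0) (XT.lf (nat_lit 0) (nat_lit 3959524401) (nat_lit 380) (nat_lit 3283036115) (nat_lit 380) (nat_lit 154279865) (nat_lit 119) (nat_lit 4) (nat_lit 124) (nat_lit 5) (nat_lit 124) (nat_lit 4) (nat_lit 418) (nat_lit 392) (nat_lit 390)) (XT.nd (nat_lit 78)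 (nat_lit 380) (nat_lit 0) (XT.lf (nat_lit 0) (nat_lit 2186188236) (nat_lit 380) (nat_lit 1115514096) (nat_lit 456) (nat_lit 4209800259) (nat_lit 113) (nat_lit 5) (nat_lit 118) (nat_lit 5) (nat_lit 119) (nat_lit 4) (nat_lit 419) (nat_lit 392) (nat_lit 389)) (XT.lf (nat_lit 0) (nat_lit 385302502) (nat_lit 380) (nat_lit 6466362199) (nat_lit 380) (nat_lit 783857056) (nat_lit 108) (nat_lit 4) (nat_lit 113) (nat_lit 5) (nat_lit 113) (nat_lit 4) (nat_lit 420) (nat_lit 392) (nat_lit 388)))) (XT.nd (nat_lit 156) (nat_lit 608) (nat_lit 0) (XT.nd (nat_lit 78) (nat_lit 304) (nat_lit 0) (XT.lf (nat_lit 0) (nat_lit 2678401851) (nat_lit 456) (nat_lit 1447408425) (nat_lit 76) (nat_lit 3640044367) (nat_lit 107) (nat_lit 5) (nat_lit 113) (nat_lit 5) (nat_lit 108) (nat_lit 4) (nat_lit 421) (nat_lit 392) (nat_lit 387)) (XT.lf (nat_lit 0) (nat_lit 4600097449) (nat_lit 304) (nat_lit 1611641566) (nat_lit 380) (nat_lit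 1694166506) (nat_lit 103) (nat_lit 5) (nat_lit 107) (nat_lit 5) (nat_lit 108) (nat_lit 4) (nat_lit 422) (nat_lit 392) (nat_lit 386))) (XT.nd (nat_lit 78) (nat_lit 228) (nat_lit 0) (XT.lf (nat_lit 0) (nat_lit 1749479374) (nat_lit 380) (nat_lit 5244860908) (nat_lit 76) (nat_lit 1060188160) (nat_lit 98) (nat_lit 5) (nat_lit 103) (nat_lit 5) (nat_lit 99) (nat_lit 4) (nat_lit 423) (nat_lit 392) (nat_lit 385)) (XT.lf (nat_lit 0) (nat_lit 927056327) (nat_lit 228) (nat_lit 4337020480) (nat_lit 304) (nat_lit 2947383009) (nat_lit 95) (nat_lit 5) (nat_lit 98) (nat_lit 5) (nat_lit 99) (nat_lit 4) (nat_lit 424) (nat_lit 392) (nat_lit 384))))))) (XT.nd (nat_lit 1092) (nat_lit 1672) (nat_lit 0) (XT.nd (nat_lit 546) (nat_lit 988) (nat_lit 0) (XT.nd (nat_lit 234) (nat_lit 836) (nat_lit 0) (XT.nd (nat_lit 78) (nat_lit 532) (nat_lit 0) (XT.lf (nat_lit 0) (nat_lit 509454563) (nat_lit 304) (nat_lit 979729226) (nat_lit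 76) (nat_lit 6889159403) (nat_lit 94) (nat_lit 5) (nat_lit 98) (nat_lit 5) (nat_lit 95) (nat_lit 5) (nat_lit 425) (nat_lit 392) (nat_lit 383)) (XT.nd (nat_lit 78) (nat_lit 228) (nat_lit 0) (XT.lf (nat_lit 0) (nat_lit 4018568175) (nat_lit 380) (nat_lit 2985826723) (nat_lit 76) (nat_lit 1547879892) (nat_lit 90) (nat_lit 5) (nat_lit 95) (nat_lit 5) (nat_lit 91) (nat_lit 4) (nat_lit 426) (nat_lit 392) (nat_lit 382)) (XT.lf (nat_lit 0) (nat_lit 3650870704) (nat_lit 228) (nat_lit 4019675646) (nat_lit 304) (nat_lit 1066028287) (nat_lit 87) (nat_lit 5) (nat_lit 90) (nat_lit 5) (nat_lit 91) (nat_lit 4) (nat_lit 427) (nat_lit 392) (nat_lit 381)))) (XT.nd (nat_lit 156) (nat_lit 532) (nat_lit 0) (XT.nd (nat_lit 78) (nat_lit 0) (nat_lit 0) (XT.lf (nat_lit 0) (nat_lit 1623875224) (nat_lit 228) (nat_lit 815942917) (nat_lit 304) (nat_lit 6490939289) (nat_lit 83) (nat_lit 5) (nat_lit 86) (nat_lit 5) (nat_lit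 87) (nat_lit 5) (nat_lit 428) (nat_lit 392) (nat_lit 380)) (XT.lf (nat_lit 0) (nat_lit 6085436036) (nat_lit 304) (nat_lit 528650248) (nat_lit 76) (nat_lit 2519710432) (nat_lit 83) (nat_lit 5) (nat_lit 87) (nat_lit 5) (nat_lit 84) (nat_lit 4) (nat_lit 429) (nat_lit 392) (nat_lit 379))) (XT.nd (nat_lit 78) (nat_lit 228) (nat_lit 0) (XT.lf (nat_lit 0) (nat_lit 543728560) (nat_lit 304) (nat_lit 2745641360) (nat_lit 76) (nat_lit 6057433511) (nat_lit 79) (nat_lit 5) (nat_lit 83) (nat_lit 5) (nat_lit 80) (nat_lit 5) (nat_lit 430) (nat_lit 392) (nat_lit 378)) (XT.lf (nat_lit 0) (nat_lit 4176038304) (nat_lit 304) (nat_lit 5123750153) (nat_lit 76) (nat_lit 270051747) (nat_lit 76) (nat_lit 5) (nat_lit 80) (nat_lit 5) (nat_lit 77) (nat_lit 4) (nat_lit 431) (nat_lit 392) (nat_lit 377))))) (XT.nd (nat_lit 234) (nat_lit 532) (nat_lit 0) (XT.nd (nat_lit 78) (nat_lit 304) (nat_lit 0) (XT.lf (nat_lit 0) (nat_lit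 2124763162) (nat_lit 152) (nat_lit 5881758755) (nat_lit 228) (nat_lit 1796708907) (nat_lit 74) (nat_lit 5) (nat_lit 76) (nat_lit 5) (nat_lit 77) (nat_lit 4) (nat_lit 432) (nat_lit 392) (nat_lit 376)) (XT.nd (nat_lit 78) (nat_lit 228) (nat_lit 0) (XT.lf (nat_lit 0) (nat_lit 1888193130) (nat_lit 228) (nat_lit 343282117) (nat_lit 76) (nat_lit 7816730302) (nat_lit 73) (nat_lit 5) (nat_lit 76) (nat_lit 5) (nat_lit 74) (nat_lit 5) (nat_lit 433) (nat_lit 392) (nat_lit 375)) (XT.lf (nat_lit 0) (nat_lit 5727530804) (nat_lit 304) (nat_lit 2936323695) (nat_lit 76) (nat_lit 1638599065) (nat_lit 70) (nat_lit 5) (nat_lit 74) (nat_lit 5) (nat_lit 71) (nat_lit 4) (nat_lit 434) (nat_lit 392) (nat_lit 374)))) (XT.nd (nat_lit 156) (nat_lit 152) (nat_lit 0) (XT.nd (nat_lit 78) (nat_lit 228) (nat_lit 0) (XT.lf (nat_lit 0) (nat_lit 4848600201) (nat_lit 152) (nat_lit 4918841905) (nat_lit 228) (nat_lit 801566160)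 (nat_lit 68) (nat_lit 5) (nat_lit 70) (nat_lit 5) (nat_lit 71) (nat_lit 4) (nat_lit 435) (nat_lit 392) (nat_lit 373)) (XT.lf (nat_lit 0) (nat_lit 2121517684) (nat_lit 152) (nat_lit 912640773) (nat_lit 228) (nat_lit 7813544668) (nat_lit 65) (nat_lit 5) (nat_lit 67) (nat_lit 5) (nat_lit 68) (nat_lit 5) (nat_lit 436) (nat_lit 392) (nat_lit 372))) (XT.nd (nat_lit 78) (nat_lit 152) (nat_lit 0) (XT.lf (nat_lit 0) (nat_lit 7077291786) (nat_lit 228) (nat_lit 823538989) (nat_lit 76) (nat_lit 3236738183) (nat_lit 65) (nat_lit 5) (nat_lit 68) (nat_lit 5) (nat_lit 66) (nat_lit 4) (nat_lit 437) (nat_lit 392) (nat_lit 371)) (XT.lf (nat_lit 0) (nat_lit 7532720769) (nat_lit 152) (nat_lit 3820208044) (nat_lit 228) (nat_lit 87502175) (nat_lit 63) (nat_lit 5) (nat_lit 65) (nat_lit 5) (nat_lit 66) (nat_lit 4) (nat_lit 438) (nat_lit 392) (nat_lit 370)))))) (XT.nd (nat_lit 546) (nat_lit 684) (nat_lit 0) (XT.nd (nat_lit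 234) (nat_lit 532) (nat_lit 0) (XT.nd (nat_lit 78) (nat_lit 228) (nat_lit 0) (XT.lf (nat_lit 0) (nat_lit 3944512828) (nat_lit 228) (nat_lit 7275761047) (nat_lit 76) (nat_lit 535426957) (nat_lit 60) (nat_lit 5) (nat_lit 63) (nat_lit 5) (nat_lit 61) (nat_lit 4) (nat_lit 439) (nat_lit 392) (nat_lit 369)) (XT.nd (nat_lit 78) (nat_lit 76) (nat_lit 0) (XT.lf (nat_lit 0) (nat_lit 1141028760) (nat_lit 152) (nat_lit 7081495428) (nat_lit 228) (nat_lit 3861788942) (nat_lit 58) (nat_lit 5) (nat_lit 60) (nat_lit 5) (nat_lit 61) (nat_lit 4) (nat_lit 440) (nat_lit 392) (nat_lit 368)) (XT.lf (nat_lit 0) (nat_lit 301374603) (nat_lit 228) (nat_lit 2368550975) (nat_lit 76) (nat_lit 9757952850) (nat_lit 57) (nat_lit 5) (nat_lit 60) (nat_lit 5) (nat_lit 58) (nat_lit 5) (nat_lit 441) (nat_lit 392) (nat_lit 367)))) (XT.nd (nat_lit 156) (nat_lit 228) (nat_lit 0) (XT.nd (nat_lit 78) (nat_lit 152) (nat_lit 0) (XT.lf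 (nat_lit 0) (nat_lit 4583551524) (nat_lit 228) (nat_lit 6195877381) (nat_lit 76) (nat_lit 2004010968) (nat_lit 55) (nat_lit 5) (nat_lit 58) (nat_lit 5) (nat_lit 56) (nat_lit 4) (nat_lit 442) (nat_lit 392) (nat_lit 366)) (XT.lf (nat_lit 0) (nat_lit 2801110051) (nat_lit 152) (nat_lit 6312934753) (nat_lit 228) (nat_lit 4041038609) (nat_lit 53) (nat_lit 5) (nat_lit 55) (nat_lit 5) (nat_lit 56) (nat_lit 4) (nat_lit 443) (nat_lit 392) (nat_lit 365))) (XT.nd (nat_lit 78) (nat_lit 152) (nat_lit 0) (XT.lf (nat_lit 0) (nat_lit 328364395) (nat_lit 228) (nat_lit 1247348132) (nat_lit 76) (nat_lit 11968703515) (nat_lit 52) (nat_lit 5) (nat_lit 55) (nat_lit 5) (nat_lit 53) (nat_lit 5) (nat_lit 444) (nat_lit 392) (nat_lit 364)) (XT.lf (nat_lit 0) (nat_lit 4877046792) (nat_lit 228) (nat_lit 5642896706) (nat_lit 76) (nat_lit 3425141185) (nat_lit 50) (nat_lit 5) (nat_lit 53) (nat_lit 5) (nat_lit 51) (nat_lit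 4) (nat_lit 445) (nat_lit 392) (nat_lit 363))))) (XT.nd (nat_lit 312) (nat_lit 304) (nat_lit 0) (XT.nd (nat_lit 156) (nat_lit 304) (nat_lit 0) (XT.nd (nat_lit 78) (nat_lit 0) (nat_lit 0) (XT.lf (nat_lit 0) (nat_lit 3951488708) (nat_lit 76) (nat_lit 5722338598) (nat_lit 152) (nat_lit 4690938091) (nat_lit 49) (nat_lit 5) (nat_lit 50) (nat_lit 5) (nat_lit 51) (nat_lit 4) (nat_lit 446) (nat_lit 392) (nat_lit 362)) (XT.lf (nat_lit 0) (nat_lit 14067446110) (nat_lit 76) (nat_lit 652035047) (nat_lit 152) (nat_lit 85508557) (nat_lit 49) (nat_lit 5) (nat_lit 50) (nat_lit 5) (nat_lit 51) (nat_lit 4) (nat_lit 447) (nat_lit 392) (nat_lit 361))) (XT.nd (nat_lit 78) (nat_lit 76) (nat_lit 0) (XT.lf (nat_lit 0) (nat_lit 4738306120) (nat_lit 228) (nat_lit 5833409203) (nat_lit 76) (nat_lit 4684804488) (nat_lit 46) (nat_lit 5) (nat_lit 49) (nat_lit 5) (nat_lit 47) (nat_lit 4) (nat_lit 448) (nat_lit 392) (nat_lit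 360)) (XT.lf (nat_lit 0) (nat_lit 4364613292) (nat_lit 76) (nat_lit 5444258892) (nat_lit 152) (nat_lit 5921272169) (nat_lit 45) (nat_lit 5) (nat_lit 46) (nat_lit 5) (nat_lit 47) (nat_lit 4) (nat_lit 449) (nat_lit 392) (nat_lit 359)))) (XT.nd (nat_lit 156) (nat_lit 76) (nat_lit 0) (XT.nd (nat_lit 78) (nat_lit 228) (nat_lit 0) (XT.lf (nat_lit 0) (nat_lit 15127294637) (nat_lit 76) (nat_lit 23019289) (nat_lit 152) (nat_lit 1076278108) (nat_lit 45) (nat_lit 5) (nat_lit 46) (nat_lit 5) (nat_lit 47) (nat_lit 4) (nat_lit 450) (nat_lit 392) (nat_lit 358)) (XT.lf (nat_lit 0) (nat_lit 4047592718) (nat_lit 228) (nat_lit 7044535228) (nat_lit 76) (nat_lit 5644361298) (nat_lit 42) (nat_lit 5) (nat_lit 45) (nat_lit 5) (nat_lit 43) (nat_lit 4) (nat_lit 451) (nat_lit 392) (nat_lit 357))) (XT.nd (nat_lit 78) (nat_lit 0) (nat_lit 0) (XT.lf (nat_lit 0) (nat_lit 3747696275) (nat_lit 76) (nat_lit 5643314015) (nat_lit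 152) (nat_lit 7880020687) (nat_lit 41) (nat_lit 5) (nat_lit 42) (nat_lit 5) (nat_lit 43) (nat_lit 4) (nat_lit 452) (nat_lit 392) (nat_lit 356)) (XT.lf (nat_lit 0) (nat_lit 15046290921) (nat_lit 152) (nat_lit 2649820301) (nat_lit 0) (nat_lit 133961599) (nat_lit 41) (nat_lit 5) (nat_lit 43) (nat_lit 4) (nat_lit 41) (nat_lit 4) (nat_lit 453) (nat_lit 392) (nat_lit 355))))))))
noncomputable def xc75 : XT := (XT.nd (nat_lit 2184) (nat_lit 912) (nat_lit 0) (XT.nd (nat_lit 1092) (nat_lit 760) (nat_lit 0) (XT.nd (nat_lit 546) (nat_lit 380) (nat_lit 0) (XT.nd (nat_lit 234) (nat_lit 304) (nat_lit 0) (XT.nd (nat_lit 78) (nat_lit 76) (nat_lit 0) (XT.lf (nat_lit 0) (nat_lit 2643785488) (nat_lit 228) (nat_lit 9632315980) (nat_lit 76) (nat_lit 6131033835) (nat_lit 38) (nat_lit 5) (nat_lit 41) (nat_lit 5) (nat_lit 39) (nat_lit 4) (nat_lit 454) (nat_lit 392) (nat_lit 354)) (XT.nd (nat_lit 78) (nat_lit 0) (nat_lit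 0) (XT.lf (nat_lit 0) (nat_lit 1722875155) (nat_lit 76) (nat_lit 6524951031) (nat_lit 152) (nat_lit 10763017118) (nat_lit 37) (nat_lit 5) (nat_lit 38) (nat_lit 5) (nat_lit 39) (nat_lit 4) (nat_lit 455) (nat_lit 392) (nat_lit 353)) (XT.lf (nat_lit 0) (nat_lit 13844684533) (nat_lit 76) (nat_lit 378050894) (nat_lit 152) (nat_lit 5417474233) (nat_lit 37) (nat_lit 5) (nat_lit 38) (nat_lit 5) (nat_lit 39) (nat_lit 4) (nat_lit 456) (nat_lit 392) (nat_lit 352)))) (XT.nd (nat_lit 156) (nat_lit 152) (nat_lit 0) (XT.nd (nat_lit 78) (nat_lit 0) (nat_lit 0) (XT.lf (nat_lit 0) (nat_lit 313512893) (nat_lit 152) (nat_lit 14055052597) (nat_lit 76) (nat_lit 5926111078) (nat_lit 35) (nat_lit 5) (nat_lit 37) (nat_lit 5) (nat_lit 36) (nat_lit 4) (nat_lit 457) (nat_lit 392) (nat_lit 351)) (XT.lf (nat_lit 0) (nat_lit 6185172674) (nat_lit 152) (nat_lit 2127645407) (nat_lit 76) (nat_lit 12662804315) (nat_lit 35) (nat_lit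 5) (nat_lit 37) (nat_lit 5) (nat_lit 36) (nat_lit 4) (nat_lit 458) (nat_lit 392) (nat_lit 350))) (XT.nd (nat_lit 78) (nat_lit 76) (nat_lit 0) (XT.lf (nat_lit 0) (nat_lit 10610194599) (nat_lit 76) (nat_lit 1839427490) (nat_lit 152) (nat_lit 9236038261) (nat_lit 34) (nat_lit 5) (nat_lit 35) (nat_lit 5) (nat_lit 36) (nat_lit 4) (nat_lit 459) (nat_lit 392) (nat_lit 349)) (XT.lf (nat_lit 0) (nat_lit 1472675897) (nat_lit 76) (nat_lit 17625514213) (nat_lit 76) (nat_lit 3329470207) (nat_lit 33) (nat_lit 4) (nat_lit 34) (nat_lit 5) (nat_lit 34) (nat_lit 4) (nat_lit 460) (nat_lit 392) (nat_lit 348))))) (XT.nd (nat_lit 234) (nat_lit 228) (nat_lit 0) (XT.nd (nat_lit 78) (nat_lit 76) (nat_lit 0) (XT.lf (nat_lit 0) (nat_lit 2935312826) (nat_lit 152) (nat_lit 8368734815) (nat_lit 76) (nat_lit 11892733666) (nat_lit 32) (nat_lit 5) (nat_lit 34) (nat_lit 5) (nat_lit 33) (nat_lit 4) (nat_lit 461) (nat_lit 392)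 (nat_lit 347)) (XT.nd (nat_lit 78) (nat_lit 0) (nat_lit 0) (XT.lf (nat_lit 0) (nat_lit 4826714932) (nat_lit 76) (nat_lit 4587252639) (nat_lit 152) (nat_lit 14587039724) (nat_lit 31) (nat_lit 5) (nat_lit 32) (nat_lit 5) (nat_lit 33) (nat_lit 4) (nat_lit 462) (nat_lit 392) (nat_lit 346)) (XT.lf (nat_lit 0) (nat_lit 16336532665) (nat_lit 152) (nat_lit 6026980337) (nat_lit 0) (nat_lit 2475936747) (nat_lit 31) (nat_lit 5) (nat_lit 33) (nat_lit 4) (nat_lit 31) (nat_lit 4) (nat_lit 463) (nat_lit 392) (nat_lit 345)))) (XT.nd (nat_lit 156) (nat_lit 76) (nat_lit 0) (XT.nd (nat_lit 78) (nat_lit 76) (nat_lit 0) (XT.lf (nat_lit 0) (nat_lit 7838827890) (nat_lit 76) (nat_lit 15904398482) (nat_lit 76) (nat_lit 1969691794) (nat_lit 30) (nat_lit 4) (nat_lit 31) (nat_lit 5) (nat_lit 31) (nat_lit 4) (nat_lit 464) (nat_lit 392) (nat_lit 344)) (XT.lf (nat_lit 0) (nat_lit 4777949502) (nat_lit 152) (nat_lit 4210491894)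 (nat_lit 76) (nat_lit 17635591046) (nat_lit 29) (nat_lit 5) (nat_lit 31) (nat_lit 5) (nat_lit 30) (nat_lit 4) (nat_lit 465) (nat_lit 392) (nat_lit 343))) (XT.nd (nat_lit 78) (nat_lit 0) (nat_lit 0) (XT.lf (nat_lit 0) (nat_lit 10325247702) (nat_lit 76) (nat_lit 1576097043) (nat_lit 152) (nat_lit 15672518194) (nat_lit 28) (nat_lit 5) (nat_lit 29) (nat_lit 5) (nat_lit 30) (nat_lit 4) (nat_lit 466) (nat_lit 392) (nat_lit 342)) (XT.lf (nat_lit 0) (nat_lit 19493862398) (nat_lit 152) (nat_lit 3041176371) (nat_lit 0) (nat_lit 6030501733) (nat_lit 28) (nat_lit 5) (nat_lit 30) (nat_lit 4) (nat_lit 28) (nat_lit 4) (nat_lit 467) (nat_lit 392) (nat_lit 341)))))) (XT.nd (nat_lit 546) (nat_lit 304) (nat_lit 0) (XT.nd (nat_lit 234) (nat_lit 228) (nat_lit 0) (XT.nd (nat_lit 78) (nat_lit 152) (nat_lit 0) (XT.lf (nat_lit 0) (nat_lit 12134968429) (nat_lit 76) (nat_lit 15492593562) (nat_lit 76) (nat_lit 1971165169)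 (nat_lit 27) (nat_lit 4) (nat_lit 28) (nat_lit 5) (nat_lit 28) (nat_lit 4) (nat_lit 468) (nat_lit 392) (nat_lit 340)) (XT.nd (nat_lit 78) (nat_lit 76) (nat_lit 0) (XT.lf (nat_lit 0) (nat_lit 5307534962) (nat_lit 152) (nat_lit 2696284317) (nat_lit 76) (nat_lit 22675540505) (nat_lit 26) (nat_lit 5) (nat_lit 28) (nat_lit 5) (nat_lit 27) (nat_lit 4) (nat_lit 469) (nat_lit 392) (nat_lit 339)) (XT.lf (nat_lit 0) (nat_lit 13038244037) (nat_lit 152) (nat_lit 18708588040) (nat_lit 0) (nat_lit 57862960) (nat_lit 25) (nat_lit 5) (nat_lit 27) (nat_lit 4) (nat_lit 25) (nat_lit 4) (nat_lit 470) (nat_lit 392) (nat_lit 338)))) (XT.nd (nat_lit 156) (nat_lit 152) (nat_lit 0) (XT.nd (nat_lit 78) (nat_lit 76) (nat_lit 0) (XT.lf (nat_lit 0) (nat_lit 21282177237) (nat_lit 152) (nat_lit 3443764172) (nat_lit 0) (nat_lit 8254023697) (nat_lit 25) (nat_lit 5) (nat_lit 27) (nat_lit 4) (nat_lit 25) (nat_lit 4) (nat_lit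 471) (nat_lit 392) (nat_lit 337)) (XT.lf (nat_lit 0) (nat_lit 12902481522) (nat_lit 76) (nat_lit 17188761915) (nat_lit 76) (nat_lit 4115110791) (nat_lit 24) (nat_lit 4) (nat_lit 25) (nat_lit 5) (nat_lit 25) (nat_lit 4) (nat_lit 472) (nat_lit 392) (nat_lit 336))) (XT.nd (nat_lit 78) (nat_lit 76) (nat_lit 0) (XT.lf (nat_lit 0) (nat_lit 3734422657) (nat_lit 152) (nat_lit 5461415709) (nat_lit 76) (nat_lit 26294681653) (nat_lit 23) (nat_lit 5) (nat_lit 25) (nat_lit 5) (nat_lit 24) (nat_lit 4) (nat_lit 473) (nat_lit 392) (nat_lit 335)) (XT.lf (nat_lit 0) (nat_lit 11379583574) (nat_lit 76) (nat_lit 590091245) (nat_lit 152) (nat_lit 24859271445) (nat_lit 22) (nat_lit 5) (nat_lit 23) (nat_lit 5) (nat_lit 24) (nat_lit 4) (nat_lit 474) (nat_lit 392) (nat_lit 334))))) (XT.nd (nat_lit 234) (nat_lit 228) (nat_lit 0) (XT.nd (nat_lit 78) (nat_lit 76) (nat_lit 0) (XT.lf (nat_lit 0) (nat_lit 20796560905) (nat_lit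 152) (nat_lit 9201277850) (nat_lit 0) (nat_lit 8227463448) (nat_lit 22) (nat_lit 5) (nat_lit 24) (nat_lit 4) (nat_lit 22) (nat_lit 4) (nat_lit 475) (nat_lit 392) (nat_lit 333)) (XT.nd (nat_lit 78) (nat_lit 0) (nat_lit 0) (XT.lf (nat_lit 0) (nat_lit 8020069577) (nat_lit 76) (nat_lit 22135800150) (nat_lit 76) (nat_lit 9531054145) (nat_lit 21) (nat_lit 4) (nat_lit 22) (nat_lit 5) (nat_lit 22) (nat_lit 4) (nat_lit 476) (nat_lit 392) (nat_lit 332)) (XT.lf (nat_lit 0) (nat_lit 26337161310) (nat_lit 76) (nat_lit 13758762546) (nat_lit 76) (nat_lit 1120065543) (nat_lit 21) (nat_lit 4) (nat_lit 22) (nat_lit 5) (nat_lit 22) (nat_lit 4) (nat_lit 477) (nat_lit 392) (nat_lit 331)))) (XT.nd (nat_lit 156) (nat_lit 76) (nat_lit 0) (XT.nd (nat_lit 78) (nat_lit 0) (nat_lit 0) (XT.lf (nat_lit 0) (nat_lit 2630273479) (nat_lit 76) (nat_lit 4833777625) (nat_lit 152) (nat_lit 35351469120) (nat_lit 19) (nat_lit 5)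 (nat_lit 20) (nat_lit 5) (nat_lit 21) (nat_lit 4) (nat_lit 478) (nat_lit 392) (nat_lit 330)) (XT.lf (nat_lit 0) (nat_lit 16725114409) (nat_lit 152) (nat_lit 23126590086) (nat_lit 0) (nat_lit 4628137417) (nat_lit 19) (nat_lit 5) (nat_lit 21) (nat_lit 4) (nat_lit 19) (nat_lit 4) (nat_lit 479) (nat_lit 392) (nat_lit 329))) (XT.nd (nat_lit 78) (nat_lit 76) (nat_lit 0) (XT.lf (nat_lit 0) (nat_lit 26488881689) (nat_lit 152) (nat_lit 5372543782) (nat_lit 0) (nat_lit 14363973126) (nat_lit 19) (nat_lit 5) (nat_lit 21) (nat_lit 4) (nat_lit 19) (nat_lit 4) (nat_lit 480) (nat_lit 392) (nat_lit 328)) (XT.lf (nat_lit 0) (nat_lit 13630906660) (nat_lit 76) (nat_lit 23285041186) (nat_lit 76) (nat_lit 11133531129) (nat_lit 18) (nat_lit 4) (nat_lit 19) (nat_lit 5) (nat_lit 19) (nat_lit 4) (nat_lit 481) (nat_lit 392) (nat_lit 327))))))) (XT.nd (nat_lit 1092) (nat_lit 380) (nat_lit 0) (XT.nd (nat_lit 546) (nat_lit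 228) (nat_lit 0) (XT.nd (nat_lit 234) (nat_lit 152) (nat_lit 0) (XT.nd (nat_lit 78) (nat_lit 152) (nat_lit 0) (XT.lf (nat_lit 0) (nat_lit 33697682676) (nat_lit 76) (nat_lit 14220615151) (nat_lit 76) (nat_lit 2043770336) (nat_lit 18) (nat_lit 4) (nat_lit 19) (nat_lit 5) (nat_lit 19) (nat_lit 4) (nat_lit 482) (nat_lit 392) (nat_lit 326)) (XT.nd (nat_lit 78) (nat_lit 0) (nat_lit 0) (XT.lf (nat_lit 0) (nat_lit 2695620881) (nat_lit 76) (nat_lit 4571010355) (nat_lit 152) (nat_lit 44697490851) (nat_lit 16) (nat_lit 5) (nat_lit 17) (nat_lit 5) (nat_lit 18) (nat_lit 4) (nat_lit 483) (nat_lit 392) (nat_lit 325)) (XT.lf (nat_lit 0) (nat_lit 17304857585) (nat_lit 152) (nat_lit 31080199566) (nat_lit 0) (nat_lit 5662998036) (nat_lit 16) (nat_lit 5) (nat_lit 18) (nat_lit 4) (nat_lit 16) (nat_lit 4) (nat_lit 484) (nat_lit 392) (nat_lit 324)))) (XT.nd (nat_lit 156) (nat_lit 76) (nat_lit 0) (XT.nd (nat_lit 78)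 (nat_lit 76) (nat_lit 0) (XT.lf (nat_lit 0) (nat_lit 27885838499) (nat_lit 152) (nat_lit 12125169380) (nat_lit 0) (nat_lit 16223135983) (nat_lit 16) (nat_lit 5) (nat_lit 18) (nat_lit 4) (nat_lit 16) (nat_lit 4) (nat_lit 485) (nat_lit 392) (nat_lit 323)) (XT.lf (nat_lit 0) (nat_lit 7968116135) (nat_lit 76) (nat_lit 31119688999) (nat_lit 76) (nat_lit 19437136037) (nat_lit 15) (nat_lit 4) (nat_lit 16) (nat_lit 5) (nat_lit 16) (nat_lit 4) (nat_lit 486) (nat_lit 392) (nat_lit 322))) (XT.nd (nat_lit 78) (nat_lit 76) (nat_lit 0) (XT.lf (nat_lit 0) (nat_lit 29423539505) (nat_lit 76) (nat_lit 21599763171) (nat_lit 76) (nat_lit 9898305023) (nat_lit 15) (nat_lit 4) (nat_lit 16) (nat_lit 5) (nat_lit 16) (nat_lit 4) (nat_lit 487) (nat_lit 392) (nat_lit 321)) (XT.lf (nat_lit 0) (nat_lit 82815321) (nat_lit 152) (nat_lit 11549691677) (nat_lit 76) (nat_lit 51807054375) (nat_lit 14) (nat_lit 5) (nat_lit 16)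 (nat_lit 5) (nat_lit 15) (nat_lit 4) (nat_lit 488) (nat_lit 392) (nat_lit 320))))) (XT.nd (nat_lit 234) (nat_lit 152) (nat_lit 0) (XT.nd (nat_lit 78) (nat_lit 0) (nat_lit 0) (XT.lf (nat_lit 0) (nat_lit 9478656213) (nat_lit 76) (nat_lit 870254450) (nat_lit 152) (nat_lit 55720461206) (nat_lit 13) (nat_lit 5) (nat_lit 14) (nat_lit 5) (nat_lit 15) (nat_lit 4) (nat_lit 489) (nat_lit 392) (nat_lit 319)) (XT.nd (nat_lit 78) (nat_lit 0) (nat_lit 0) (XT.lf (nat_lit 0) (nat_lit 21460592324) (nat_lit 152) (nat_lit 37086152743) (nat_lit 0) (nat_lit 10267314554) (nat_lit 13) (nat_lit 5) (nat_lit 15) (nat_lit 4) (nat_lit 13) (nat_lit 4) (nat_lit 490) (nat_lit 392) (nat_lit 318)) (XT.lf (nat_lit 0) (nat_lit 33114155128) (nat_lit 152) (nat_lit 16676447899) (nat_lit 0) (nat_lit 21906064651) (nat_lit 13) (nat_lit 5) (nat_lit 15) (nat_lit 4) (nat_lit 13) (nat_lit 4) (nat_lit 491) (nat_lit 392) (nat_lit 317))))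 (XT.nd (nat_lit 156) (nat_lit 76) (nat_lit 0) (XT.nd (nat_lit 78) (nat_lit 0) (nat_lit 0) (XT.lf (nat_lit 0) (nat_lit 4856002941) (nat_lit 76) (nat_lit 40543571418) (nat_lit 76) (nat_lit 29321373600) (nat_lit 12) (nat_lit 4) (nat_lit 13) (nat_lit 5) (nat_lit 13) (nat_lit 4) (nat_lit 492) (nat_lit 392) (nat_lit 316)) (XT.lf (nat_lit 0) (nat_lit 27991740718) (nat_lit 76) (nat_lit 30563761857) (nat_lit 76) (nat_lit 19328128476) (nat_lit 12) (nat_lit 4) (nat_lit 13) (nat_lit 5) (nat_lit 13) (nat_lit 4) (nat_lit 493) (nat_lit 392) (nat_lit 315))) (XT.nd (nat_lit 78) (nat_lit 76) (nat_lit 0) (XT.lf (nat_lit 0) (nat_lit 52234451842) (nat_lit 76) (nat_lit 20109836607) (nat_lit 76) (nat_lit 8861407452) (nat_lit 12) (nat_lit 4) (nat_lit 13) (nat_lit 5) (nat_lit 13) (nat_lit 4) (nat_lit 494) (nat_lit 392) (nat_lit 314)) (XT.lf (nat_lit 0) (nat_lit 2036378370) (nat_lit 152) (nat_lit 7086039947) (nat_lit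 76) (nat_lit 75570991629) (nat_lit 11) (nat_lit 5) (nat_lit 13) (nat_lit 5) (nat_lit 12) (nat_lit 4) (nat_lit 495) (nat_lit 392) (nat_lit 313)))))) (XT.nd (nat_lit 546) (nat_lit 228) (nat_lit 0) (XT.nd (nat_lit 234) (nat_lit 76) (nat_lit 0) (XT.nd (nat_lit 78) (nat_lit 0) (nat_lit 0) (XT.lf (nat_lit 0) (nat_lit 13455392026) (nat_lit 152) (nat_lit 72159205057) (nat_lit 0) (nat_lit 2719942740) (nat_lit 10) (nat_lit 5) (nat_lit 12) (nat_lit 4) (nat_lit 10) (nat_lit 4) (nat_lit 496) (nat_lit 392) (nat_lit 312)) (XT.nd (nat_lit 78) (nat_lit 0) (nat_lit 0) (XT.lf (nat_lit 0) (nat_lit 25693921697) (nat_lit 152) (nat_lit 51503431483) (nat_lit 0) (nat_lit 14947945295) (nat_lit 10) (nat_lit 5) (nat_lit 12) (nat_lit 4) (nat_lit 10) (nat_lit 4) (nat_lit 497) (nat_lit 392) (nat_lit 311)) (XT.lf (nat_lit 0) (nat_lit 38522515632) (nat_lit 152) (nat_lit 29858659652) (nat_lit 0) (nat_lit 27766513408) (nat_lit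 10) (nat_lit 5) (nat_lit 12) (nat_lit 4) (nat_lit 10) (nat_lit 4) (nat_lit 498) (nat_lit 392) (nat_lit 310)))) (XT.nd (nat_lit 156) (nat_lit 0) (nat_lit 0) (XT.nd (nat_lit 78) (nat_lit 76) (nat_lit 0) (XT.lf (nat_lit 0) (nat_lit 51971718105) (nat_lit 152) (nat_lit 7173354394) (nat_lit 0) (nat_lit 41206167477) (nat_lit 10) (nat_lit 5) (nat_lit 12) (nat_lit 4) (nat_lit 10) (nat_lit 4) (nat_lit 499) (nat_lit 392) (nat_lit 309)) (XT.lf (nat_lit 0) (nat_lit 17155582709) (nat_lit 76) (nat_lit 49185815040) (nat_lit 76) (nat_lit 38411170694) (nat_lit 9) (nat_lit 4) (nat_lit 10) (nat_lit 5) (nat_lit 10) (nat_lit 4) (nat_lit 500) (nat_lit 392) (nat_lit 308))) (XT.nd (nat_lit 78) (nat_lit 0) (nat_lit 0) (XT.lf (nat_lit 0) (nat_lit 42910930764) (nat_lit 76) (nat_lit 38620619308) (nat_lit 76) (nat_lit 27837314279) (nat_lit 9) (nat_lit 4) (nat_lit 10) (nat_lit 5) (nat_lit 10) (nat_lit 4) (nat_lit 501) (nat_lit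 392) (nat_lit 307)) (XT.lf (nat_lit 0) (nat_lit 69916828535) (nat_lit 76) (nat_lit 27545814303) (nat_lit 76) (nat_lit 16754261003) (nat_lit 9) (nat_lit 4) (nat_lit 10) (nat_lit 5) (nat_lit 10) (nat_lit 4) (nat_lit 502) (nat_lit 392) (nat_lit 306))))) (XT.nd (nat_lit 312) (nat_lit 76) (nat_lit 0) (XT.nd (nat_lit 156) (nat_lit 0) (nat_lit 0) (XT.nd (nat_lit 78) (nat_lit 152) (nat_lit 0) (XT.lf (nat_lit 0) (nat_lit 98237575778) (nat_lit 76) (nat_lit 15935031441) (nat_lit 76) (nat_lit 5135622646) (nat_lit 9) (nat_lit 4) (nat_lit 10) (nat_lit 5) (nat_lit 10) (nat_lit 4) (nat_lit 503) (nat_lit 392) (nat_lit 305)) (XT.lf (nat_lit 0) (nat_lit 3280626829) (nat_lit 76) (nat_lit 3591332706) (nat_lit 152) (nat_lit 117774943509) (nat_lit 7) (nat_lit 5) (nat_lit 8) (nat_lit 5) (nat_lit 9) (nat_lit 4) (nat_lit 504) (nat_lit 392) (nat_lit 304))) (XT.nd (nat_lit 78) (nat_lit 0) (nat_lit 0) (XT.lf (nat_lit 0)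 (nat_lit 19799212708) (nat_lit 152) (nat_lit 100924343438) (nat_lit 0) (nat_lit 9500150437) (nat_lit 7) (nat_lit 5) (nat_lit 9) (nat_lit 4) (nat_lit 7) (nat_lit 4) (nat_lit 505) (nat_lit 392) (nat_lit 303)) (XT.lf (nat_lit 0) (nat_lit 33415422793) (nat_lit 152) (nat_lit 79551900344) (nat_lit 0) (nat_lit 23109897787) (nat_lit 7) (nat_lit 5) (nat_lit 9) (nat_lit 4) (nat_lit 7) (nat_lit 4) (nat_lit 506) (nat_lit 392) (nat_lit 302)))) (XT.nd (nat_lit 156) (nat_lit 76) (nat_lit 0) (XT.nd (nat_lit 78) (nat_lit 0) (nat_lit 0) (XT.lf (nat_lit 0) (nat_lit 47696938568) (nat_lit 152) (nat_lit 57141989398) (nat_lit 0) (nat_lit 37385258576) (nat_lit 7) (nat_lit 5) (nat_lit 9) (nat_lit 4) (nat_lit 7) (nat_lit 4) (nat_lit 507) (nat_lit 392) (nat_lit 301)) (XT.lf (nat_lit 0) (nat_lit 62677763644) (nat_lit 152) (nat_lit 33641253667) (nat_lit 0) (nat_lit 52360221760) (nat_lit 7) (nat_lit 5) (nat_lit 9) (nat_lit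 4) (nat_lit 7) (nat_lit 4) (nat_lit 508) (nat_lit 392) (nat_lit 300))) (XT.nd (nat_lit 78) (nat_lit 76) (nat_lit 0) (XT.lf (nat_lit 0) (nat_lit 78393566650) (nat_lit 152) (nat_lit 8993739020) (nat_lit 0) (nat_lit 68070442012) (nat_lit 7) (nat_lit 5) (nat_lit 9) (nat_lit 4) (nat_lit 7) (nat_lit 4) (nat_lit 509) (nat_lit 392) (nat_lit 299)) (XT.lf (nat_lit 0) (nat_lit 17416681685) (nat_lit 76) (nat_lit 77737007692) (nat_lit 76) (nat_lit 67408566145) (nat_lit 6) (nat_lit 4) (nat_lit 7) (nat_lit 5) (nat_lit 7) (nat_lit 4) (nat_lit 510) (nat_lit 392) (nat_lit 298))))))))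
noncomputable def xc76 : XT := (XT.nd (nat_lit 2184) (nat_lit 152) (nat_lit 0) (XT.nd (nat_lit 1092) (nat_lit 76) (nat_lit 0) (XT.nd (nat_lit 546) (nat_lit 0) (nat_lit 0) (XT.nd (nat_lit 234) (nat_lit 152) (nat_lit 0) (XT.nd (nat_lit 78) (nat_lit 0) (nat_lit 0) (XT.lf (nat_lit 0) (nat_lit 45433387548) (nat_lit 76) (nat_lit 67457574767) (nat_lit 76) (nat_lit 57124069499) (nat_lit 6) (nat_lit 4) (nat_lit 7) (nat_lit 5) (nat_lit 7) (nat_lit 4) (nat_lit 511) (nat_lit 392) (nat_lit 297)) (XT.nd (nat_lit 78) (nat_lit 0) (nat_lit 0) (XT.lf (nat_lit 0) (nat_lit 74825711382) (nat_lit 76) (nat_lit 56676845379) (nat_lit 76) (nat_lit 46338517518) (nat_lit 6) (nat_lit 4) (nat_lit 7) (nat_lit 5) (nat_lit 7) (nat_lit 4) (nat_lit 512) (nat_lit 392) (nat_lit 296)) (XT.lf (nat_lit 0) (nat_lit 105663634910) (nat_lit 76) (nat_lit 45369151123) (nat_lit 76) (nat_lit 35026230317) (nat_lit 6) (nat_lit 4) (nat_lit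 7) (nat_lit 5) (nat_lit 7) (nat_lit 4) (nat_lit 513) (nat_lit 392) (nat_lit 295)))) (XT.nd (nat_lit 156) (nat_lit 152) (nat_lit 0) (XT.nd (nat_lit 78) (nat_lit 0) (nat_lit 0) (XT.lf (nat_lit 0) (nat_lit 138020581760) (nat_lit 76) (nat_lit 33507568918) (nat_lit 76) (nat_lit 23160273878) (nat_lit 6) (nat_lit 4) (nat_lit 7) (nat_lit 5) (nat_lit 7) (nat_lit 4) (nat_lit 514) (nat_lit 392) (nat_lit 294)) (XT.lf (nat_lit 0) (nat_lit 171973592282) (nat_lit 76) (nat_lit 21063856902) (nat_lit 76) (nat_lit 10712395926) (nat_lit 6) (nat_lit 4) (nat_lit 7) (nat_lit 5) (nat_lit 7) (nat_lit 4) (nat_lit 515) (nat_lit 392) (nat_lit 293))) (XT.nd (nat_lit 78) (nat_lit 76) (nat_lit 0) (XT.lf (nat_lit 0) (nat_lit 2271921365) (nat_lit 152) (nat_lit 5697989737) (nat_lit 76) (nat_lit 205293109523) (nat_lit 5) (nat_lit 5) (nat_lit 7) (nat_lit 5) (nat_lit 6) (nat_lit 4) (nat_lit 516) (nat_lit 392) (nat_lit 292)) (XT.lf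 (nat_lit 0) (nat_lit 15980673033) (nat_lit 152) (nat_lit 201125878706) (nat_lit 0) (nat_lit 6114761448) (nat_lit 4) (nat_lit 5) (nat_lit 6) (nat_lit 4) (nat_lit 4) (nat_lit 4) (nat_lit 517) (nat_lit 392) (nat_lit 291))))) (XT.nd (nat_lit 234) (nat_lit 0) (nat_lit 0) (XT.nd (nat_lit 78) (nat_lit 0) (nat_lit 0) (XT.lf (nat_lit 0) (nat_lit 30593620136) (nat_lit 152) (nat_lit 182348681301) (nat_lit 0) (nat_lit 20724281226) (nat_lit 4) (nat_lit 5) (nat_lit 6) (nat_lit 4) (nat_lit 4) (nat_lit 4) (nat_lit 518) (nat_lit 392) (nat_lit 290)) (XT.nd (nat_lit 78) (nat_lit 0) (nat_lit 0) (XT.lf (nat_lit 0) (nat_lit 45927713091) (nat_lit 152) (nat_lit 162651767706) (nat_lit 0) (nat_lit 36055110060) (nat_lit 4) (nat_lit 5) (nat_lit 6) (nat_lit 4) (nat_lit 4) (nat_lit 4) (nat_lit 519) (nat_lit 392) (nat_lit 289)) (XT.lf (nat_lit 0) (nat_lit 62019461643) (nat_lit 152) (nat_lit 141988240509) (nat_lit 0) (nat_lit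 52143749925) (nat_lit 4) (nat_lit 5) (nat_lit 6) (nat_lit 4) (nat_lit 4) (nat_lit 4) (nat_lit 520) (nat_lit 392) (nat_lit 288)))) (XT.nd (nat_lit 156) (nat_lit 0) (nat_lit 0) (XT.nd (nat_lit 78) (nat_lit 0) (nat_lit 0) (XT.lf (nat_lit 0) (nat_lit 78907179478) (nat_lit 152) (nat_lit 120308900834) (nat_lit 0) (nat_lit 69028507107) (nat_lit 4) (nat_lit 5) (nat_lit 6) (nat_lit 4) (nat_lit 4) (nat_lit 4) (nat_lit 521) (nat_lit 392) (nat_lit 287)) (XT.lf (nat_lit 0) (nat_lit 96631075448) (nat_lit 152) (nat_lit 97562131206) (nat_lit 0) (nat_lit 86749583407) (nat_lit 4) (nat_lit 5) (nat_lit 6) (nat_lit 4) (nat_lit 4) (nat_lit 4) (nat_lit 522) (nat_lit 392) (nat_lit 286))) (XT.nd (nat_lit 78) (nat_lit 0) (nat_lit 0) (XT.lf (nat_lit 0) (nat_lit 115233349306) (nat_lit 152) (nat_lit 73693772650) (nat_lit 0) (nat_lit 105349171865) (nat_lit 4) (nat_lit 5) (nat_lit 6) (nat_lit 4) (nat_lit 4) (nat_lit 4) (nat_lit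 523) (nat_lit 392) (nat_lit 285)) (XT.lf (nat_lit 0) (nat_lit 134758292180) (nat_lit 152) (nat_lit 48646995741) (nat_lit 0) (nat_lit 124871557215) (nat_lit 4) (nat_lit 5) (nat_lit 6) (nat_lit 4) (nat_lit 4) (nat_lit 4) (nat_lit 524) (nat_lit 392) (nat_lit 284)))))) (XT.nd (nat_lit 546) (nat_lit 0) (nat_lit 0) (XT.nd (nat_lit 234) (nat_lit 0) (nat_lit 0) (XT.nd (nat_lit 78) (nat_lit 76) (nat_lit 0) (XT.lf (nat_lit 0) (nat_lit 155252392029) (nat_lit 152) (nat_lit 22362165296) (nat_lit 0) (nat_lit 145363221327) (nat_lit 4) (nat_lit 5) (nat_lit 6) (nat_lit 4) (nat_lit 4) (nat_lit 4) (nat_lit 525) (nat_lit 392) (nat_lit 283)) (XT.nd (nat_lit 78) (nat_lit 0) (nat_lit 0) (XT.lf (nat_lit 0) (nat_lit 5396007555) (nat_lit 76) (nat_lit 171452683574) (nat_lit 76) (nat_lit 161561193123) (nat_lit 3) (nat_lit 4) (nat_lit 4) (nat_lit 5) (nat_lit 4) (nat_lit 4) (nat_lit 526) (nat_lit 392) (nat_lit 282)) (XT.lf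 (nat_lit 0) (nat_lit 35305067313) (nat_lit 76) (nat_lit 164591811982) (nat_lit 76) (nat_lit 154698112245) (nat_lit 3) (nat_lit 4) (nat_lit 4) (nat_lit 5) (nat_lit 4) (nat_lit 4) (nat_lit 527) (nat_lit 392) (nat_lit 281)))) (XT.nd (nat_lit 156) (nat_lit 0) (nat_lit 0) (XT.nd (nat_lit 78) (nat_lit 0) (nat_lit 0) (XT.lf (nat_lit 0) (nat_lit 66696831850) (nat_lit 76) (nat_lit 157394321230) (nat_lit 76) (nat_lit 147498517412) (nat_lit 3) (nat_lit 4) (nat_lit 4) (nat_lit 5) (nat_lit 4) (nat_lit 4) (nat_lit 528) (nat_lit 392) (nat_lit 280)) (XT.lf (nat_lit 0) (nat_lit 99646043462) (nat_lit 76) (nat_lit 149843074436) (nat_lit 76) (nat_lit 139945266732) (nat_lit 3) (nat_lit 4) (nat_lit 4) (nat_lit 5) (nat_lit 4) (nat_lit 4) (nat_lit 529) (nat_lit 392) (nat_lit 279))) (XT.nd (nat_lit 78) (nat_lit 0) (nat_lit 0) (XT.lf (nat_lit 0) (nat_lit 134231152652) (nat_lit 76) (nat_lit 141920092441) (nat_lit 76)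 (nat_lit 132020376273) (nat_lit 3) (nat_lit 4) (nat_lit 4) (nat_lit 5) (nat_lit 4) (nat_lit 4) (nat_lit 530) (nat_lit 392) (nat_lit 278)) (XT.lf (nat_lit 0) (nat_lit 170534504920) (nat_lit 76) (nat_lit 133606511002) (nat_lit 76) (nat_lit 123704977249) (nat_lit 3) (nat_lit 4) (nat_lit 4) (nat_lit 5) (nat_lit 4) (nat_lit 4) (nat_lit 531) (nat_lit 392) (nat_lit 277))))) (XT.nd (nat_lit 234) (nat_lit 0) (nat_lit 0) (XT.nd (nat_lit 78) (nat_lit 0) (nat_lit 0) (XT.lf (nat_lit 0) (nat_lit 208642536817) (nat_lit 76) (nat_lit 124882535877) (nat_lit 76) (nat_lit 114979271091) (nat_lit 3) (nat_lit 4) (nat_lit 4) (nat_lit 5) (nat_lit 4) (nat_lit 4) (nat_lit 532) (nat_lit 392) (nat_lit 276)) (XT.nd (nat_lit 78) (nat_lit 0) (nat_lit 0) (XT.lf (nat_lit 0) (nat_lit 248645981753) (nat_lit 76) (nat_lit 115727395697) (nat_lit 76) (nat_lit 105822482308) (nat_lit 3) (nat_lit 4) (nat_lit 4) (nat_lit 5) (nat_lit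 4) (nat_lit 4) (nat_lit 533) (nat_lit 392) (nat_lit 275)) (XT.lf (nat_lit 0) (nat_lit 290640086027) (nat_lit 76) (nat_lit 106119292509) (nat_lit 76) (nat_lit 96212809023) (nat_lit 3) (nat_lit 4) (nat_lit 4) (nat_lit 5) (nat_lit 4) (nat_lit 4) (nat_lit 534) (nat_lit 392) (nat_lit 274)))) (XT.nd (nat_lit 156) (nat_lit 0) (nat_lit 0) (XT.nd (nat_lit 78) (nat_lit 0) (nat_lit 0) (XT.lf (nat_lit 0) (nat_lit 334724835599) (nat_lit 76) (nat_lit 96035349877) (nat_lit 76) (nat_lit 86127371059) (nat_lit 3) (nat_lit 4) (nat_lit 4) (nat_lit 5) (nat_lit 4) (nat_lit 4) (nat_lit 535) (nat_lit 392) (nat_lit 273)) (XT.lf (nat_lit 0) (nat_lit 381005194160) (nat_lit 76) (nat_lit 85451558413) (nat_lit 76) (nat_lit 75542155471) (nat_lit 3) (nat_lit 4) (nat_lit 4) (nat_lit 5) (nat_lit 4) (nat_lit 4) (nat_lit 536) (nat_lit 392) (nat_lit 272))) (XT.nd (nat_lit 78) (nat_lit 0) (nat_lit 0) (XT.lf (nat_lit 0) (nat_lit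 429591353039) (nat_lit 76) (nat_lit 74342718615) (nat_lit 76) (nat_lit 64431959364) (nat_lit 3) (nat_lit 4) (nat_lit 4) (nat_lit 5) (nat_lit 4) (nat_lit 4) (nat_lit 537) (nat_lit 392) (nat_lit 271)) (XT.lf (nat_lit 0) (nat_lit 480598993568) (nat_lit 76) (nat_lit 62682380864) (nat_lit 76) (nat_lit 52770329889) (nat_lit 3) (nat_lit 4) (nat_lit 4) (nat_lit 5) (nat_lit 4) (nat_lit 4) (nat_lit 538) (nat_lit 392) (nat_lit 270))))))) (XT.nd (nat_lit 53274) (nat_lit 0) (nat_lit 5244) (XT.nd (nat_lit 52728) (nat_lit 0) (nat_lit 8436) (XT.nd (nat_lit 234) (nat_lit 152) (nat_lit 0) (XT.nd (nat_lit 78) (nat_lit 0) (nat_lit 0) (XT.lf (nat_lit 0) (nat_lit 534149562509) (nat_lit 76) (nat_lit 50442782451) (nat_lit 76) (nat_lit 40529501263) (nat_lit 3) (nat_lit 4) (nat_lit 4) (nat_lit 5) (nat_lit 4) (nat_lit 4) (nat_lit 539) (nat_lit 392) (nat_lit 269)) (XT.nd (nat_lit 78) (nat_lit 0) (nat_lit 0) (XT.lf (nat_lit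 0) (nat_lit 590370561217) (nat_lit 76) (nat_lit 37594781474) (nat_lit 76) (nat_lit 27680328655) (nat_lit 3) (nat_lit 4) (nat_lit 4) (nat_lit 5) (nat_lit 4) (nat_lit 4) (nat_lit 540) (nat_lit 392) (nat_lit 268)) (XT.lf (nat_lit 0) (nat_lit 649395849213) (nat_lit 76) (nat_lit 24107787456) (nat_lit 76) (nat_lit 14192218798) (nat_lit 3) (nat_lit 4) (nat_lit 4) (nat_lit 5) (nat_lit 4) (nat_lit 4) (nat_lit 541) (nat_lit 392) (nat_lit 267)))) (XT.nd (nat_lit 156) (nat_lit 0) (nat_lit 0) (XT.nd (nat_lit 78) (nat_lit 152) (nat_lit 0) (XT.lf (nat_lit 0) (nat_lit 711365962896) (nat_lit 76) (nat_lit 9949688505) (nat_lit 76) (nat_lit 33057143) (nat_lit 3) (nat_lit 4) (nat_lit 4) (nat_lit 5) (nat_lit 4) (nat_lit 4) (nat_lit 542) (nat_lit 392) (nat_lit 266)) (XT.lf (nat_lit 0) (nat_lit 14756571063) (nat_lit 152) (nat_lit 736584992305) (nat_lit 0) (nat_lit 5311196338) (nat_lit 1) (nat_lit 5) (nat_lit 3) (nat_lit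 4) (nat_lit 1) (nat_lit 4) (nat_lit 543) (nat_lit 392) (nat_lit 265))) (XT.nd (nat_lit 78) (nat_lit 0) (nat_lit 0) (XT.lf (nat_lit 0) (nat_lit 30616424932) (nat_lit 152) (nat_lit 741918836484) (nat_lit 0) (nat_lit 21170132203) (nat_lit 1) (nat_lit 5) (nat_lit 3) (nat_lit 4) (nat_lit 1) (nat_lit 4) (nat_lit 544) (nat_lit 392) (nat_lit 264)) (XT.lf (nat_lit 0) (nat_lit 47266329964) (nat_lit 152) (nat_lit 747525313439) (nat_lit 0) (nat_lit 37819162947) (nat_lit 1) (nat_lit 5) (nat_lit 3) (nat_lit 4) (nat_lit 1) (nat_lit 4) (nat_lit 545) (nat_lit 392) (nat_lit 263))))) (XT.nd (nat_lit 234) (nat_lit 912) (nat_lit 0) (XT.nd (nat_lit 78) (nat_lit 1520) (nat_lit 0) (XT.lf (nat_lit 0) (nat_lit 993618613) (nat_lit 684) (nat_lit 1519883051) (nat_lit 0) (nat_lit 993618613) (nat_lit 144) (nat_lit 5) (nat_lit 153) (nat_lit 4) (nat_lit 144) (nat_lit 4) (nat_lit 414) (nat_lit 393) (nat_lit 393)) (XT.nd (nat_lit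 78) (nat_lit 836) (nat_lit 0) (XT.lf (nat_lit 0) (nat_lit 2053881397) (nat_lit 684) (nat_lit 3406811500) (nat_lit 684) (nat_lit 1640018108) (nat_lit 135) (nat_lit 4) (nat_lit 144) (nat_lit 5) (nat_lit 144) (nat_lit 4) (nat_lit 415) (nat_lit 393) (nat_lit 392)) (XT.lf (nat_lit 0) (nat_lit 117633080) (nat_lit 760) (nat_lit 1622409283) (nat_lit 836) (nat_lit 5455797038) (nat_lit 124) (nat_lit 5) (nat_lit 134) (nat_lit 5) (nat_lit 135) (nat_lit 4) (nat_lit 416) (nat_lit 393) (nat_lit 391)))) (XT.nd (nat_lit 156) (nat_lit 456) (nat_lit 0) (XT.nd (nat_lit 78) (nat_lit 456) (nat_lit 0) (XT.lf (nat_lit 0) (nat_lit 5160941286) (nat_lit 836) (nat_lit 1787645862) (nat_lit 0) (nat_lit 349524663) (nat_lit 124) (nat_lit 5) (nat_lit 135) (nat_lit 4) (nat_lit 124) (nat_lit 4) (nat_lit 417) (nat_lit 393) (nat_lit 390)) (XT.lf (nat_lit 0) (nat_lit 1231145710) (nat_lit 456) (nat_lit 3741113212) (nat_lit 76) (nat_lit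 2435914961) (nat_lit 118) (nat_lit 5) (nat_lit 124) (nat_lit 5) (nat_lit 119) (nat_lit 4) (nat_lit 418) (nat_lit 393) (nat_lit 389))) (XT.nd (nat_lit 78) (nat_lit 76) (nat_lit 0) (XT.lf (nat_lit 0) (nat_lit 1782492175) (nat_lit 380) (nat_lit 2818377555) (nat_lit 456) (nat_lit 2925945402) (nat_lit 113) (nat_lit 5) (nat_lit 118) (nat_lit 5) (nat_lit 119) (nat_lit 4) (nat_lit 419) (nat_lit 393) (nat_lit 388)) (XT.lf (nat_lit 0) (nat_lit 384844928) (nat_lit 456) (nat_lit 120359328) (nat_lit 76) (nat_lit 7150227566) (nat_lit 112) (nat_lit 5) (nat_lit 118) (nat_lit 5) (nat_lit 113) (nat_lit 5) (nat_lit 420) (nat_lit 393) (nat_lit 387)))))) (XT.nd (nat_lit 546) (nat_lit 1292) (nat_lit 0) (XT.nd (nat_lit 234) (nat_lit 836) (nat_lit 0) (XT.nd (nat_lit 78) (nat_lit 684) (nat_lit 0) (XT.lf (nat_lit 0) (nat_lit 3740197506) (nat_lit 456) (nat_lit 2069096333) (nat_lit 76) (nat_lit 1979978764) (nat_lit 107)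 (nat_lit 5) (nat_lit 113) (nat_lit 5) (nat_lit 108) (nat_lit 4) (nat_lit 421) (nat_lit 393) (nat_lit 386)) (XT.nd (nat_lit 78) (nat_lit 380) (nat_lit 0) (XT.lf (nat_lit 0) (nat_lit 3871547980) (nat_lit 304) (nat_lit 3322081275) (nat_lit 380) (nat_lit 739717026) (nat_lit 103) (nat_lit 5) (nat_lit 107) (nat_lit 5) (nat_lit 108) (nat_lit 4) (nat_lit 422) (nat_lit 393) (nat_lit 385)) (XT.lf (nat_lit 0) (nat_lit 1943990432) (nat_lit 304) (nat_lit 630827267) (nat_lit 380) (nat_lit 5511359531) (nat_lit 98) (nat_lit 5) (nat_lit 102) (nat_lit 5) (nat_lit 103) (nat_lit 5) (nat_lit 423) (nat_lit 393) (nat_lit 384)))) (XT.nd (nat_lit 156) (nat_lit 532) (nat_lit 0) (XT.nd (nat_lit 78) (nat_lit 304) (nat_lit 0) (XT.lf (nat_lit 0) (nat_lit 5999079108) (nat_lit 380) (nat_lit 76228189) (nat_lit 76) (nat_lit 2172341891) (nat_lit 98) (nat_lit 5) (nat_lit 103) (nat_lit 5) (nat_lit 99) (nat_lit 4) (nat_lit 424)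 (nat_lit 393) (nat_lit 383)) (XT.lf (nat_lit 0) (nat_lit 1119384458) (nat_lit 304) (nat_lit 2119601626) (nat_lit 76) (nat_lit 5178348361) (nat_lit 94) (nat_lit 5) (nat_lit 98) (nat_lit 5) (nat_lit 95) (nat_lit 5) (nat_lit 425) (nat_lit 393) (nat_lit 382))) (XT.nd (nat_lit 78) (nat_lit 228) (nat_lit 0) (XT.lf (nat_lit 0) (nat_lit 4329576153) (nat_lit 304) (nat_lit 192076738) (nat_lit 380) (nat_lit 4074975954) (nat_lit 90) (nat_lit 5) (nat_lit 94) (nat_lit 5) (nat_lit 95) (nat_lit 5) (nat_lit 426) (nat_lit 393) (nat_lit 381)) (XT.lf (nat_lit 0) (nat_lit 2243429453) (nat_lit 228) (nat_lit 5844430289) (nat_lit 304) (nat_lit 697377080) (nat_lit 87) (nat_lit 5) (nat_lit 90) (nat_lit 5) (nat_lit 91) (nat_lit 4) (nat_lit 427) (nat_lit 393) (nat_lit 380))))) (XT.nd (nat_lit 234) (nat_lit 684) (nat_lit 0) (XT.nd (nat_lit 78) (nat_lit 304) (nat_lit 0) (XT.lf (nat_lit 0) (nat_lit 26058587) (nat_lit 228)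 (nat_lit 2685480665) (nat_lit 304) (nat_lit 6271866874) (nat_lit 83) (nat_lit 5) (nat_lit 86) (nat_lit 5) (nat_lit 87) (nat_lit 5) (nat_lit 428) (nat_lit 393) (nat_lit 379)) (XT.nd (nat_lit 78) (nat_lit 304) (nat_lit 0) (XT.lf (nat_lit 0) (nat_lit 6268959281) (nat_lit 304) (nat_lit 2235936590) (nat_lit 76) (nat_lit 685976334) (nat_lit 83) (nat_lit 5) (nat_lit 87) (nat_lit 5) (nat_lit 84) (nat_lit 4) (nat_lit 429) (nat_lit 393) (nat_lit 378)) (XT.lf (nat_lit 0) (nat_lit 579661984) (nat_lit 304) (nat_lit 4655924795) (nat_lit 76) (nat_lit 4172532120) (nat_lit 79) (nat_lit 5) (nat_lit 83) (nat_lit 5) (nat_lit 80) (nat_lit 5) (nat_lit 430) (nat_lit 393) (nat_lit 377)))) (XT.nd (nat_lit 156) (nat_lit 456) (nat_lit 0) (XT.nd (nat_lit 78) (nat_lit 0) (nat_lit 0) (XT.lf (nat_lit 0) (nat_lit 2392042403) (nat_lit 228) (nat_lit 1727738602) (nat_lit 304) (nat_lit 5515998802) (nat_lit 76) (nat_lit 5) (nat_lit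 79) (nat_lit 5) (nat_lit 80) (nat_lit 5) (nat_lit 431) (nat_lit 393) (nat_lit 376)) (XT.lf (nat_lit 0) (nat_lit 7835389088) (nat_lit 304) (nat_lit 119684801) (nat_lit 76) (nat_lit 1919854220) (nat_lit 76) (nat_lit 5) (nat_lit 80) (nat_lit 5) (nat_lit 77) (nat_lit 4) (nat_lit 432) (nat_lit 393) (nat_lit 375))) (XT.nd (nat_lit 78) (nat_lit 228) (nat_lit 0) (XT.lf (nat_lit 0) (nat_lit 1596882086) (nat_lit 228) (nat_lit 2743550239) (nat_lit 76) (nat_lit 5782485335) (nat_lit 73) (nat_lit 5) (nat_lit 76) (nat_lit 5) (nat_lit 74) (nat_lit 5) (nat_lit 433) (nat_lit 393) (nat_lit 374)) (XT.lf (nat_lit 0) (nat_lit 4831709672) (nat_lit 228) (nat_lit 486372726) (nat_lit 304) (nat_lit 5065002155) (nat_lit 70) (nat_lit 5) (nat_lit 73) (nat_lit 5) (nat_lit 74) (nat_lit 5) (nat_lit 434) (nat_lit 393) (nat_lit 373))))))))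
noncomputable def xc77 : XT := (XT.nd (nat_lit 2184) (nat_lit 1444) (nat_lit 0) (XT.nd (nat_lit 1092) (nat_lit 1064) (nat_lit 0) (XT.nd (nat_lit 546) (nat_lit 912) (nat_lit 0) (XT.nd (nat_lit 234) (nat_lit 532) (nat_lit 0) (XT.nd (nat_lit 78) (nat_lit 228) (nat_lit 0) (XT.lf (nat_lit 0) (nat_lit 2071555800) (nat_lit 152) (nat_lit 7184576704) (nat_lit 228) (nat_lit 1398611249) (nat_lit 68) (nat_lit 5) (nat_lit 70) (nat_lit 5) (nat_lit 71) (nat_lit 4) (nat_lit 435) (nat_lit 393) (nat_lit 372)) (XT.nd (nat_lit 78) (nat_lit 152) (nat_lit 0) (XT.lf (nat_lit 0) (nat_lit 2372548473) (nat_lit 228) (nat_lit 880926712) (nat_lit 76) (nat_lit 7684623584) (nat_lit 67) (nat_lit 5) (nat_lit 70) (nat_lit 5) (nat_lit 68) (nat_lit 5) (nat_lit 436) (nat_lit 393) (nat_lit 371)) (XT.lf (nat_lit 0) (nat_lit 6314829408) (nat_lit 228) (nat_lit 3991218324) (nat_lit 76) (nat_lit 926969372) (nat_lit 65) (nat_lit 5) (nat_lit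 68) (nat_lit 5) (nat_lit 66) (nat_lit 4) (nat_lit 437) (nat_lit 393) (nat_lit 370)))) (XT.nd (nat_lit 156) (nat_lit 152) (nat_lit 0) (XT.nd (nat_lit 78) (nat_lit 228) (nat_lit 0) (XT.lf (nat_lit 0) (nat_lit 4179841339) (nat_lit 152) (nat_lit 6310787740) (nat_lit 228) (nat_lit 1050251333) (nat_lit 63) (nat_lit 5) (nat_lit 65) (nat_lit 5) (nat_lit 66) (nat_lit 4) (nat_lit 438) (nat_lit 393) (nat_lit 369)) (XT.lf (nat_lit 0) (nat_lit 856238809) (nat_lit 152) (nat_lit 2043790967) (nat_lit 228) (nat_lit 8962507971) (nat_lit 60) (nat_lit 5) (nat_lit 62) (nat_lit 5) (nat_lit 63) (nat_lit 5) (nat_lit 439) (nat_lit 393) (nat_lit 368))) (XT.nd (nat_lit 78) (nat_lit 152) (nat_lit 0) (XT.lf (nat_lit 0) (nat_lit 7081688313) (nat_lit 228) (nat_lit 2672893161) (nat_lit 76) (nat_lit 2441394343) (nat_lit 60) (nat_lit 5) (nat_lit 63) (nat_lit 5) (nat_lit 61) (nat_lit 4) (nat_lit 440) (nat_lit 393) (nat_lit 367))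 (XT.lf (nat_lit 0) (nat_lit 6084628783) (nat_lit 152) (nat_lit 5425266565) (nat_lit 228) (nat_lit 1034333034) (nat_lit 58) (nat_lit 5) (nat_lit 60) (nat_lit 5) (nat_lit 61) (nat_lit 4) (nat_lit 441) (nat_lit 393) (nat_lit 366))))) (XT.nd (nat_lit 234) (nat_lit 532) (nat_lit 0) (XT.nd (nat_lit 78) (nat_lit 152) (nat_lit 0) (XT.lf (nat_lit 0) (nat_lit 2334098451) (nat_lit 152) (nat_lit 803423880) (nat_lit 228) (nat_lit 9770253295) (nat_lit 55) (nat_lit 5) (nat_lit 57) (nat_lit 5) (nat_lit 58) (nat_lit 5) (nat_lit 442) (nat_lit 393) (nat_lit 365)) (XT.nd (nat_lit 78) (nat_lit 152) (nat_lit 0) (XT.lf (nat_lit 0) (nat_lit 7568038350) (nat_lit 228) (nat_lit 1729550381) (nat_lit 76) (nat_lit 3986835984) (nat_lit 55) (nat_lit 5) (nat_lit 58) (nat_lit 5) (nat_lit 56) (nat_lit 4) (nat_lit 443) (nat_lit 393) (nat_lit 364)) (XT.lf (nat_lit 0) (nat_lit 7640252215) (nat_lit 152) (nat_lit 4626964788) (nat_lit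 228) (nat_lit 1410345474) (nat_lit 53) (nat_lit 5) (nat_lit 55) (nat_lit 5) (nat_lit 56) (nat_lit 4) (nat_lit 444) (nat_lit 393) (nat_lit 363)))) (XT.nd (nat_lit 156) (nat_lit 304) (nat_lit 0) (XT.nd (nat_lit 78) (nat_lit 0) (nat_lit 0) (XT.lf (nat_lit 0) (nat_lit 3014225478) (nat_lit 228) (nat_lit 10733702544) (nat_lit 76) (nat_lit 339872409) (nat_lit 50) (nat_lit 5) (nat_lit 53) (nat_lit 5) (nat_lit 51) (nat_lit 4) (nat_lit 445) (nat_lit 393) (nat_lit 362)) (XT.lf (nat_lit 0) (nat_lit 7708275287) (nat_lit 228) (nat_lit 1338533428) (nat_lit 76) (nat_lit 5465814470) (nat_lit 50) (nat_lit 5) (nat_lit 53) (nat_lit 5) (nat_lit 51) (nat_lit 4) (nat_lit 446) (nat_lit 393) (nat_lit 361))) (XT.nd (nat_lit 78) (nat_lit 228) (nat_lit 0) (XT.lf (nat_lit 0) (nat_lit 8661595320) (nat_lit 76) (nat_lit 4030544393) (nat_lit 152) (nat_lit 2263802499) (nat_lit 49) (nat_lit 5) (nat_lit 50) (nat_lit 5) (nat_lit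 51) (nat_lit 4) (nat_lit 447) (nat_lit 393) (nat_lit 360)) (XT.lf (nat_lit 0) (nat_lit 2445354362) (nat_lit 228) (nat_lit 11714414915) (nat_lit 76) (nat_lit 1258627090) (nat_lit 46) (nat_lit 5) (nat_lit 49) (nat_lit 5) (nat_lit 47) (nat_lit 4) (nat_lit 448) (nat_lit 393) (nat_lit 359)))))) (XT.nd (nat_lit 546) (nat_lit 456) (nat_lit 0) (XT.nd (nat_lit 234) (nat_lit 304) (nat_lit 0) (XT.nd (nat_lit 78) (nat_lit 304) (nat_lit 0) (XT.lf (nat_lit 0) (nat_lit 7409173065) (nat_lit 228) (nat_lit 1725860798) (nat_lit 76) (nat_lit 6762328941) (nat_lit 46) (nat_lit 5) (nat_lit 49) (nat_lit 5) (nat_lit 47) (nat_lit 4) (nat_lit 449) (nat_lit 393) (nat_lit 358)) (XT.nd (nat_lit 78) (nat_lit 228) (nat_lit 0) (XT.lf (nat_lit 0) (nat_lit 8911107679) (nat_lit 76) (nat_lit 3773833622) (nat_lit 152) (nat_lit 3712157171) (nat_lit 45) (nat_lit 5) (nat_lit 46) (nat_lit 5) (nat_lit 47) (nat_lit 4) (nat_lit 450) (nat_lit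 393) (nat_lit 357)) (XT.lf (nat_lit 0) (nat_lit 1294628102) (nat_lit 228) (nat_lit 13786855467) (nat_lit 76) (nat_lit 1837646204) (nat_lit 42) (nat_lit 5) (nat_lit 45) (nat_lit 5) (nat_lit 43) (nat_lit 4) (nat_lit 451) (nat_lit 393) (nat_lit 356)))) (XT.nd (nat_lit 156) (nat_lit 228) (nat_lit 0) (XT.nd (nat_lit 78) (nat_lit 76) (nat_lit 0) (XT.lf (nat_lit 0) (nat_lit 6543162651) (nat_lit 228) (nat_lit 3181430609) (nat_lit 76) (nat_lit 7733826119) (nat_lit 42) (nat_lit 5) (nat_lit 45) (nat_lit 5) (nat_lit 43) (nat_lit 4) (nat_lit 452) (nat_lit 393) (nat_lit 355)) (XT.lf (nat_lit 0) (nat_lit 8082423253) (nat_lit 76) (nat_lit 4026879944) (nat_lit 152) (nat_lit 5912618578) (nat_lit 41) (nat_lit 5) (nat_lit 42) (nat_lit 5) (nat_lit 43) (nat_lit 4) (nat_lit 453) (nat_lit 393) (nat_lit 354))) (XT.nd (nat_lit 78) (nat_lit 76) (nat_lit 0) (XT.lf (nat_lit 0) (nat_lit 1287821737) (nat_lit 152) (nat_lit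 16700780575) (nat_lit 152) (nat_lit 623261325) (nat_lit 39) (nat_lit 4) (nat_lit 41) (nat_lit 5) (nat_lit 41) (nat_lit 4) (nat_lit 454) (nat_lit 393) (nat_lit 353)) (XT.lf (nat_lit 0) (nat_lit 4939514057) (nat_lit 228) (nat_lit 6078269998) (nat_lit 76) (nat_lit 8201337868) (nat_lit 38) (nat_lit 5) (nat_lit 41) (nat_lit 5) (nat_lit 39) (nat_lit 4) (nat_lit 455) (nat_lit 393) (nat_lit 352))))) (XT.nd (nat_lit 234) (nat_lit 228) (nat_lit 0) (XT.nd (nat_lit 78) (nat_lit 152) (nat_lit 0) (XT.lf (nat_lit 0) (nat_lit 5779589375) (nat_lit 76) (nat_lit 5003133467) (nat_lit 152) (nat_lit 9072353379) (nat_lit 37) (nat_lit 5) (nat_lit 38) (nat_lit 5) (nat_lit 39) (nat_lit 4) (nat_lit 456) (nat_lit 393) (nat_lit 351)) (XT.nd (nat_lit 78) (nat_lit 152) (nat_lit 0) (XT.lf (nat_lit 0) (nat_lit 16976587808) (nat_lit 152) (nat_lit 2223840748) (nat_lit 0) (nat_lit 1319480587) (nat_lit 37) (nat_lit 5) (nat_lit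 39) (nat_lit 4) (nat_lit 37) (nat_lit 4) (nat_lit 457) (nat_lit 393) (nat_lit 350)) (XT.lf (nat_lit 0) (nat_lit 2372876681) (nat_lit 152) (nat_lit 10896991319) (nat_lit 76) (nat_lit 7937199059) (nat_lit 35) (nat_lit 5) (nat_lit 37) (nat_lit 5) (nat_lit 36) (nat_lit 4) (nat_lit 458) (nat_lit 393) (nat_lit 349)))) (XT.nd (nat_lit 156) (nat_lit 152) (nat_lit 0) (XT.nd (nat_lit 78) (nat_lit 0) (nat_lit 0) (XT.lf (nat_lit 0) (nat_lit 1490647993) (nat_lit 76) (nat_lit 6973426167) (nat_lit 152) (nat_lit 13461695851) (nat_lit 34) (nat_lit 5) (nat_lit 35) (nat_lit 5) (nat_lit 36) (nat_lit 4) (nat_lit 459) (nat_lit 393) (nat_lit 348)) (XT.lf (nat_lit 0) (nat_lit 14758364058) (nat_lit 76) (nat_lit 223906333) (nat_lit 152) (nat_lit 7692020462) (nat_lit 34) (nat_lit 5) (nat_lit 35) (nat_lit 5) (nat_lit 36) (nat_lit 4) (nat_lit 460) (nat_lit 393) (nat_lit 347))) (XT.nd (nat_lit 78) (nat_lit 76) (nat_lit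 0) (XT.lf (nat_lit 0) (nat_lit 5173501038) (nat_lit 76) (nat_lit 16780825334) (nat_lit 76) (nat_lit 1499518334) (nat_lit 33) (nat_lit 4) (nat_lit 34) (nat_lit 5) (nat_lit 34) (nat_lit 4) (nat_lit 461) (nat_lit 393) (nat_lit 346)) (XT.lf (nat_lit 0) (nat_lit 4922580662) (nat_lit 152) (nat_lit 5271723766) (nat_lit 76) (nat_lit 14070166309) (nat_lit 32) (nat_lit 5) (nat_lit 34) (nat_lit 5) (nat_lit 33) (nat_lit 4) (nat_lit 462) (nat_lit 393) (nat_lit 345))))))) (XT.nd (nat_lit 1092) (nat_lit 684) (nat_lit 0) (XT.nd (nat_lit 546) (nat_lit 380) (nat_lit 0) (XT.nd (nat_lit 234) (nat_lit 228) (nat_lit 0) (XT.nd (nat_lit 78) (nat_lit 76) (nat_lit 0) (XT.lf (nat_lit 0) (nat_lit 8526797697) (nat_lit 76) (nat_lit 3164728220) (nat_lit 152) (nat_lit 13419070149) (nat_lit 31) (nat_lit 5) (nat_lit 32) (nat_lit 5) (nat_lit 33) (nat_lit 4) (nat_lit 463) (nat_lit 393) (nat_lit 344)) (XT.nd (nat_lit 78) (nat_lit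 76) (nat_lit 0) (XT.lf (nat_lit 0) (nat_lit 18898740778) (nat_lit 152) (nat_lit 2972693139) (nat_lit 0) (nat_lit 4122606298) (nat_lit 31) (nat_lit 5) (nat_lit 33) (nat_lit 4) (nat_lit 31) (nat_lit 4) (nat_lit 464) (nat_lit 393) (nat_lit 343)) (XT.lf (nat_lit 0) (nat_lit 11532282335) (nat_lit 76) (nat_lit 15111919302) (nat_lit 76) (nat_lit 268564169) (nat_lit 30) (nat_lit 4) (nat_lit 31) (nat_lit 5) (nat_lit 31) (nat_lit 4) (nat_lit 465) (nat_lit 393) (nat_lit 342)))) (XT.nd (nat_lit 156) (nat_lit 76) (nat_lit 0) (XT.nd (nat_lit 78) (nat_lit 76) (nat_lit 0) (XT.lf (nat_lit 0) (nat_lit 6675907343) (nat_lit 152) (nat_lit 1221764747) (nat_lit 76) (nat_lit 19974511386) (nat_lit 29) (nat_lit 5) (nat_lit 31) (nat_lit 5) (nat_lit 30) (nat_lit 4) (nat_lit 466) (nat_lit 393) (nat_lit 341)) (XT.lf (nat_lit 0) (nat_lit 13989160994) (nat_lit 76) (nat_lit 136452132) (nat_lit 152) (nat_lit 14745389980) (nat_lit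 28) (nat_lit 5) (nat_lit 29) (nat_lit 5) (nat_lit 30) (nat_lit 4) (nat_lit 467) (nat_lit 393) (nat_lit 340))) (XT.nd (nat_lit 78) (nat_lit 76) (nat_lit 0) (XT.lf (nat_lit 0) (nat_lit 22042753993) (nat_lit 152) (nat_lit 140381256) (nat_lit 0) (nat_lit 7731883856) (nat_lit 28) (nat_lit 5) (nat_lit 30) (nat_lit 4) (nat_lit 28) (nat_lit 4) (nat_lit 468) (nat_lit 393) (nat_lit 339)) (XT.lf (nat_lit 0) (nat_lit 15745331205) (nat_lit 76) (nat_lit 14809740367) (nat_lit 76) (nat_lit 446201089) (nat_lit 27) (nat_lit 4) (nat_lit 28) (nat_lit 5) (nat_lit 28) (nat_lit 4) (nat_lit 469) (nat_lit 393) (nat_lit 338))))) (XT.nd (nat_lit 234) (nat_lit 228) (nat_lit 0) (XT.nd (nat_lit 78) (nat_lit 0) (nat_lit 0) (XT.lf (nat_lit 0) (nat_lit 81665244) (nat_lit 76) (nat_lit 6989244808) (nat_lit 152) (nat_lit 25067441355) (nat_lit 25) (nat_lit 5) (nat_lit 26) (nat_lit 5) (nat_lit 27) (nat_lit 4) (nat_lit 470) (nat_lit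 393) (nat_lit 337)) (XT.nd (nat_lit 78) (nat_lit 0) (nat_lit 0) (XT.lf (nat_lit 0) (nat_lit 15182059332) (nat_lit 152) (nat_lit 16728974427) (nat_lit 0) (nat_lit 1409228067) (nat_lit 25) (nat_lit 5) (nat_lit 27) (nat_lit 4) (nat_lit 25) (nat_lit 4) (nat_lit 471) (nat_lit 393) (nat_lit 336)) (XT.lf (nat_lit 0) (nat_lit 23767146187) (nat_lit 152) (nat_lit 839720938) (nat_lit 0) (nat_lit 9950983891) (nat_lit 25) (nat_lit 5) (nat_lit 27) (nat_lit 4) (nat_lit 25) (nat_lit 4) (nat_lit 472) (nat_lit 393) (nat_lit 335)))) (XT.nd (nat_lit 156) (nat_lit 76) (nat_lit 0) (XT.nd (nat_lit 78) (nat_lit 76) (nat_lit 0) (XT.lf (nat_lit 0) (nat_lit 16279059114) (nat_lit 76) (nat_lit 16712592224) (nat_lit 76) (nat_lit 2855162277) (nat_lit 24) (nat_lit 4) (nat_lit 25) (nat_lit 5) (nat_lit 25) (nat_lit 4) (nat_lit 473) (nat_lit 393) (nat_lit 334)) (XT.lf (nat_lit 0) (nat_lit 5272374618) (nat_lit 152) (nat_lit 3088364501)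 (nat_lit 76) (nat_lit 28836685459) (nat_lit 23) (nat_lit 5) (nat_lit 25) (nat_lit 5) (nat_lit 24) (nat_lit 4) (nat_lit 474) (nat_lit 393) (nat_lit 333))) (XT.nd (nat_lit 78) (nat_lit 0) (nat_lit 0) (XT.lf (nat_lit 0) (nat_lit 13905938989) (nat_lit 152) (nat_lit 24062201384) (nat_lit 0) (nat_lit 635307136) (nat_lit 22) (nat_lit 5) (nat_lit 24) (nat_lit 4) (nat_lit 22) (nat_lit 4) (nat_lit 475) (nat_lit 393) (nat_lit 332)) (XT.lf (nat_lit 0) (nat_lit 23119678527) (nat_lit 152) (nat_lit 7137574301) (nat_lit 0) (nat_lit 9815095676) (nat_lit 22) (nat_lit 5) (nat_lit 24) (nat_lit 4) (nat_lit 22) (nat_lit 4) (nat_lit 476) (nat_lit 393) (nat_lit 331)))))) (XT.nd (nat_lit 546) (nat_lit 380) (nat_lit 0) (XT.nd (nat_lit 234) (nat_lit 76) (nat_lit 0) (XT.nd (nat_lit 78) (nat_lit 152) (nat_lit 0) (XT.lf (nat_lit 0) (nat_lit 10904134571) (nat_lit 76) (nat_lit 22020476741) (nat_lit 76) (nat_lit 8683559607)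 (nat_lit 21) (nat_lit 4) (nat_lit 22) (nat_lit 5) (nat_lit 22) (nat_lit 4) (nat_lit 477) (nat_lit 393) (nat_lit 330)) (XT.nd (nat_lit 78) (nat_lit 76) (nat_lit 0) (XT.lf (nat_lit 0) (nat_lit 82210311) (nat_lit 152) (nat_lit 13199180550) (nat_lit 76) (nat_lit 29935237283) (nat_lit 20) (nat_lit 5) (nat_lit 22) (nat_lit 5) (nat_lit 21) (nat_lit 4) (nat_lit 478) (nat_lit 393) (nat_lit 329)) (XT.lf (nat_lit 0) (nat_lit 5128220380) (nat_lit 76) (nat_lit 3908491921) (nat_lit 152) (nat_lit 35859566305) (nat_lit 19) (nat_lit 5) (nat_lit 20) (nat_lit 5) (nat_lit 21) (nat_lit 4) (nat_lit 479) (nat_lit 393) (nat_lit 328)))) (XT.nd (nat_lit 156) (nat_lit 76) (nat_lit 0) (XT.nd (nat_lit 78) (nat_lit 0) (nat_lit 0) (XT.lf (nat_lit 0) (nat_lit 18721063830) (nat_lit 152) (nat_lit 21989366150) (nat_lit 0) (nat_lit 5935376774) (nat_lit 19) (nat_lit 5) (nat_lit 21) (nat_lit 4) (nat_lit 19) (nat_lit 4) (nat_lit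 480) (nat_lit 393) (nat_lit 327)) (XT.lf (nat_lit 0) (nat_lit 28917795964) (nat_lit 152) (nat_lit 3456834361) (nat_lit 0) (nat_lit 16106774151) (nat_lit 19) (nat_lit 5) (nat_lit 21) (nat_lit 4) (nat_lit 19) (nat_lit 4) (nat_lit 481) (nat_lit 393) (nat_lit 326))) (XT.nd (nat_lit 78) (nat_lit 0) (nat_lit 0) (XT.lf (nat_lit 0) (nat_lit 16461557367) (nat_lit 76) (nat_lit 23385617800) (nat_lit 76) (nat_lit 10550467648) (nat_lit 18) (nat_lit 4) (nat_lit 19) (nat_lit 5) (nat_lit 19) (nat_lit 4) (nat_lit 482) (nat_lit 393) (nat_lit 325)) (XT.lf (nat_lit 0) (nat_lit 37429333833) (nat_lit 76) (nat_lit 13918621675) (nat_lit 76) (nat_lit 1060492151) (nat_lit 18) (nat_lit 4) (nat_lit 19) (nat_lit 5) (nat_lit 19) (nat_lit 4) (nat_lit 483) (nat_lit 393) (nat_lit 324))))) (XT.nd (nat_lit 312) (nat_lit 152) (nat_lit 0) (XT.nd (nat_lit 156) (nat_lit 76) (nat_lit 0) (XT.nd (nat_lit 78) (nat_lit 0) (nat_lit 0)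 (XT.lf (nat_lit 0) (nat_lit 4878372397) (nat_lit 76) (nat_lit 3784255425) (nat_lit 152) (nat_lit 45848033764) (nat_lit 16) (nat_lit 5) (nat_lit 17) (nat_lit 5) (nat_lit 18) (nat_lit 4) (nat_lit 484) (nat_lit 393) (nat_lit 323)) (XT.lf (nat_lit 0) (nat_lit 19168687881) (nat_lit 152) (nat_lit 30649652102) (nat_lit 0) (nat_lit 6882156826) (nat_lit 16) (nat_lit 5) (nat_lit 18) (nat_lit 4) (nat_lit 16) (nat_lit 4) (nat_lit 485) (nat_lit 393) (nat_lit 322))) (XT.nd (nat_lit 78) (nat_lit 76) (nat_lit 0) (XT.lf (nat_lit 0) (nat_lit 30231166060) (nat_lit 152) (nat_lit 10841373142) (nat_lit 0) (nat_lit 17925729819) (nat_lit 16) (nat_lit 5) (nat_lit 18) (nat_lit 4) (nat_lit 16) (nat_lit 4) (nat_lit 486) (nat_lit 393) (nat_lit 321)) (XT.lf (nat_lit 0) (nat_lit 10226091895) (nat_lit 76) (nat_lit 31750884818) (nat_lit 76) (nat_lit 19427443638) (nat_lit 15) (nat_lit 4) (nat_lit 16) (nat_lit 5) (nat_lit 16)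 (nat_lit 4) (nat_lit 487) (nat_lit 393) (nat_lit 320)))) (XT.nd (nat_lit 156) (nat_lit 76) (nat_lit 0) (XT.nd (nat_lit 78) (nat_lit 76) (nat_lit 0) (XT.lf (nat_lit 0) (nat_lit 32665735484) (nat_lit 76) (nat_lit 21799000252) (nat_lit 76) (nat_lit 9458411512) (nat_lit 15) (nat_lit 4) (nat_lit 16) (nat_lit 5) (nat_lit 16) (nat_lit 4) (nat_lit 488) (nat_lit 393) (nat_lit 319)) (XT.lf (nat_lit 0) (nat_lit 948755177) (nat_lit 152) (nat_lit 10411971637) (nat_lit 76) (nat_lit 55207697784) (nat_lit 14) (nat_lit 5) (nat_lit 16) (nat_lit 5) (nat_lit 15) (nat_lit 4) (nat_lit 489) (nat_lit 393) (nat_lit 318))) (XT.nd (nat_lit 78) (nat_lit 0) (nat_lit 0) (XT.lf (nat_lit 0) (nat_lit 11640129056) (nat_lit 76) (nat_lit 73335407) (nat_lit 152) (nat_lit 57616996882) (nat_lit 13) (nat_lit 5) (nat_lit 14) (nat_lit 5) (nat_lit 15) (nat_lit 4) (nat_lit 490) (nat_lit 393) (nat_lit 317)) (XT.lf (nat_lit 0) (nat_lit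 23352888380) (nat_lit 152) (nat_lit 37305414994) (nat_lit 0) (nat_lit 11555473331) (nat_lit 13) (nat_lit 5) (nat_lit 15) (nat_lit 4) (nat_lit 13) (nat_lit 4) (nat_lit 491) (nat_lit 393) (nat_lit 316))))))))
noncomputable def xc78 : XT := (XT.nd (nat_lit 2184) (nat_lit 228) (nat_lit 0) (XT.nd (nat_lit 1092) (nat_lit 228) (nat_lit 0) (XT.nd (nat_lit 546) (nat_lit 228) (nat_lit 0) (XT.nd (nat_lit 234) (nat_lit 152) (nat_lit 0) (XT.nd (nat_lit 78) (nat_lit 76) (nat_lit 0) (XT.lf (nat_lit 0) (nat_lit 35550116638) (nat_lit 152) (nat_lit 15953084212) (nat_lit 0) (nat_lit 23739266025) (nat_lit 13) (nat_lit 5) (nat_lit 15) (nat_lit 4) (nat_lit 13) (nat_lit 4) (nat_lit 492) (nat_lit 393) (nat_lit 315)) (XT.nd (nat_lit 78) (nat_lit 0) (nat_lit 0) (XT.lf (nat_lit 0) (nat_lit 6630873265) (nat_lit 76) (nat_lit 41805698533) (nat_lit 76) (nat_lit 29982052146) (nat_lit 12) (nat_lit 4) (nat_lit 13) (nat_lit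 5) (nat_lit 13) (nat_lit 4) (nat_lit 493) (nat_lit 393) (nat_lit 314)) (XT.lf (nat_lit 0) (nat_lit 30850442209) (nat_lit 76) (nat_lit 31363329515) (nat_lit 76) (nat_lit 19527496677) (nat_lit 12) (nat_lit 4) (nat_lit 13) (nat_lit 5) (nat_lit 13) (nat_lit 4) (nat_lit 494) (nat_lit 393) (nat_lit 313)))) (XT.nd (nat_lit 156) (nat_lit 76) (nat_lit 0) (XT.nd (nat_lit 78) (nat_lit 76) (nat_lit 0) (XT.lf (nat_lit 0) (nat_lit 56235807248) (nat_lit 76) (nat_lit 20421404214) (nat_lit 76) (nat_lit 8573965232) (nat_lit 12) (nat_lit 4) (nat_lit 13) (nat_lit 5) (nat_lit 13) (nat_lit 4) (nat_lit 495) (nat_lit 393) (nat_lit 312)) (XT.lf (nat_lit 0) (nat_lit 2811655981) (nat_lit 152) (nat_lit 6094597690) (nat_lit 76) (nat_lit 79988136992) (nat_lit 11) (nat_lit 5) (nat_lit 13) (nat_lit 5) (nat_lit 12) (nat_lit 4) (nat_lit 496) (nat_lit 393) (nat_lit 311))) (XT.nd (nat_lit 78) (nat_lit 0) (nat_lit 0) (XT.lf (nat_lit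 0) (nat_lit 14800558138) (nat_lit 152) (nat_lit 74420342829) (nat_lit 0) (nat_lit 3496729978) (nat_lit 10) (nat_lit 5) (nat_lit 12) (nat_lit 4) (nat_lit 10) (nat_lit 4) (nat_lit 497) (nat_lit 393) (nat_lit 310)) (XT.lf (nat_lit 0) (nat_lit 27618995411) (nat_lit 152) (nat_lit 52795914980) (nat_lit 0) (nat_lit 16305618847) (nat_lit 10) (nat_lit 5) (nat_lit 12) (nat_lit 4) (nat_lit 10) (nat_lit 4) (nat_lit 498) (nat_lit 393) (nat_lit 309))))) (XT.nd (nat_lit 234) (nat_lit 152) (nat_lit 0) (XT.nd (nat_lit 78) (nat_lit 76) (nat_lit 0) (XT.lf (nat_lit 0) (nat_lit 41058524870) (nat_lit 152) (nat_lit 30129984942) (nat_lit 0) (nat_lit 29736054589) (nat_lit 10) (nat_lit 5) (nat_lit 12) (nat_lit 4) (nat_lit 10) (nat_lit 4) (nat_lit 499) (nat_lit 393) (nat_lit 308)) (XT.nd (nat_lit 78) (nat_lit 76) (nat_lit 0) (XT.lf (nat_lit 0) (nat_lit 55151145397) (nat_lit 152) (nat_lit 6368586215) (nat_lit 0) (nat_lit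 43820014433) (nat_lit 10) (nat_lit 5) (nat_lit 12) (nat_lit 4) (nat_lit 10) (nat_lit 4) (nat_lit 500) (nat_lit 393) (nat_lit 307)) (XT.lf (nat_lit 0) (nat_lit 19158032648) (nat_lit 76) (nat_lit 51071488782) (nat_lit 76) (nat_lit 39732109547) (nat_lit 9) (nat_lit 4) (nat_lit 10) (nat_lit 5) (nat_lit 10) (nat_lit 4) (nat_lit 501) (nat_lit 393) (nat_lit 306)))) (XT.nd (nat_lit 156) (nat_lit 152) (nat_lit 0) (XT.nd (nat_lit 78) (nat_lit 0) (nat_lit 0) (XT.lf (nat_lit 0) (nat_lit 46146639972) (nat_lit 76) (nat_lit 40005348359) (nat_lit 76) (nat_lit 28658113629) (nat_lit 9) (nat_lit 4) (nat_lit 10) (nat_lit 5) (nat_lit 10) (nat_lit 4) (nat_lit 502) (nat_lit 393) (nat_lit 305)) (XT.lf (nat_lit 0) (nat_lit 74450920123) (nat_lit 76) (nat_lit 28402817480) (nat_lit 76) (nat_lit 17048101327) (nat_lit 9) (nat_lit 4) (nat_lit 10) (nat_lit 5) (nat_lit 10) (nat_lit 4) (nat_lit 503) (nat_lit 393) (nat_lit 304)))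 (XT.nd (nat_lit 78) (nat_lit 152) (nat_lit 0) (XT.lf (nat_lit 0) (nat_lit 104138264245) (nat_lit 76) (nat_lit 16236271073) (nat_lit 76) (nat_lit 4874429753) (nat_lit 9) (nat_lit 4) (nat_lit 10) (nat_lit 5) (nat_lit 10) (nat_lit 4) (nat_lit 504) (nat_lit 393) (nat_lit 303)) (XT.lf (nat_lit 0) (nat_lit 4433840999) (nat_lit 76) (nat_lit 3274680069) (nat_lit 152) (nat_lit 123146068609) (nat_lit 7) (nat_lit 5) (nat_lit 8) (nat_lit 5) (nat_lit 9) (nat_lit 4) (nat_lit 505) (nat_lit 393) (nat_lit 302)))))) (XT.nd (nat_lit 546) (nat_lit 152) (nat_lit 0) (XT.nd (nat_lit 234) (nat_lit 76) (nat_lit 0) (XT.nd (nat_lit 78) (nat_lit 0) (nat_lit 0) (XT.lf (nat_lit 0) (nat_lit 21266040896) (nat_lit 152) (nat_lit 105012375872) (nat_lit 0) (nat_lit 10432621918) (nat_lit 7) (nat_lit 5) (nat_lit 9) (nat_lit 4) (nat_lit 7) (nat_lit 4) (nat_lit 506) (nat_lit 393) (nat_lit 301)) (XT.nd (nat_lit 78) (nat_lit 0) (nat_lit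 0) (XT.lf (nat_lit 0) (nat_lit 35540353506) (nat_lit 152) (nat_lit 82616938468) (nat_lit 0) (nat_lit 24701072636) (nat_lit 7) (nat_lit 5) (nat_lit 9) (nat_lit 4) (nat_lit 7) (nat_lit 4) (nat_lit 507) (nat_lit 393) (nat_lit 300)) (XT.lf (nat_lit 0) (nat_lit 50514318424) (nat_lit 152) (nat_lit 59129987065) (nat_lit 0) (nat_lit 39669454800) (nat_lit 7) (nat_lit 5) (nat_lit 9) (nat_lit 4) (nat_lit 7) (nat_lit 4) (nat_lit 508) (nat_lit 393) (nat_lit 299)))) (XT.nd (nat_lit 156) (nat_lit 76) (nat_lit 0) (XT.nd (nat_lit 78) (nat_lit 0) (nat_lit 0) (XT.lf (nat_lit 0) (nat_lit 66223587947) (nat_lit 152) (nat_lit 34495600348) (nat_lit 0) (nat_lit 55373407415) (nat_lit 7) (nat_lit 5) (nat_lit 9) (nat_lit 4) (nat_lit 7) (nat_lit 4) (nat_lit 509) (nat_lit 393) (nat_lit 298)) (XT.lf (nat_lit 0) (nat_lit 82705565098) (nat_lit 152) (nat_lit 8655125016) (nat_lit 0) (nat_lit 71850320844) (nat_lit 7) (nat_lit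 5) (nat_lit 9) (nat_lit 4) (nat_lit 7) (nat_lit 4) (nat_lit 510) (nat_lit 393) (nat_lit 297))) (XT.nd (nat_lit 78) (nat_lit 0) (nat_lit 0) (XT.lf (nat_lit 0) (nat_lit 19063102193) (nat_lit 76) (nat_lit 81234018935) (nat_lit 76) (nat_lit 70373952089) (nat_lit 6) (nat_lit 4) (nat_lit 7) (nat_lit 5) (nat_lit 7) (nat_lit 4) (nat_lit 511) (nat_lit 393) (nat_lit 296)) (XT.lf (nat_lit 0) (nat_lit 48443710662) (nat_lit 76) (nat_lit 70459178133) (nat_lit 76) (nat_lit 59594518341) (nat_lit 6) (nat_lit 4) (nat_lit 7) (nat_lit 5) (nat_lit 7) (nat_lit 4) (nat_lit 512) (nat_lit 393) (nat_lit 295))))) (XT.nd (nat_lit 234) (nat_lit 152) (nat_lit 0) (XT.nd (nat_lit 78) (nat_lit 0) (nat_lit 0) (XT.lf (nat_lit 0) (nat_lit 79270476700) (nat_lit 76) (nat_lit 59157092055) (nat_lit 76) (nat_lit 48288058029) (nat_lit 6) (nat_lit 4) (nat_lit 7) (nat_lit 5) (nat_lit 7) (nat_lit 4) (nat_lit 513) (nat_lit 393) (nat_lit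 294)) (XT.nd (nat_lit 78) (nat_lit 0) (nat_lit 0) (XT.lf (nat_lit 0) (nat_lit 111616797369) (nat_lit 76) (nat_lit 47300850972) (nat_lit 76) (nat_lit 36427651009) (nat_lit 6) (nat_lit 4) (nat_lit 7) (nat_lit 5) (nat_lit 7) (nat_lit 4) (nat_lit 514) (nat_lit 393) (nat_lit 293)) (XT.lf (nat_lit 0) (nat_lit 145559687718) (nat_lit 76) (nat_lit 34862225738) (nat_lit 76) (nat_lit 23985058217) (nat_lit 6) (nat_lit 4) (nat_lit 7) (nat_lit 5) (nat_lit 7) (nat_lit 4) (nat_lit 515) (nat_lit 393) (nat_lit 292)))) (XT.nd (nat_lit 156) (nat_lit 76) (nat_lit 0) (XT.nd (nat_lit 78) (nat_lit 76) (nat_lit 0) (XT.lf (nat_lit 0) (nat_lit 181179964153) (nat_lit 76) (nat_lit 21811600580) (nat_lit 76) (nat_lit 10930654431) (nat_lit 6) (nat_lit 4) (nat_lit 7) (nat_lit 5) (nat_lit 7) (nat_lit 4) (nat_lit 516) (nat_lit 393) (nat_lit 291)) (XT.lf (nat_lit 0) (nat_lit 2678092431) (nat_lit 152) (nat_lit 5394455358) (nat_lit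 76) (nat_lit 215838989633) (nat_lit 5) (nat_lit 5) (nat_lit 7) (nat_lit 5) (nat_lit 6) (nat_lit 4) (nat_lit 517) (nat_lit 393) (nat_lit 290))) (XT.nd (nat_lit 78) (nat_lit 0) (nat_lit 0) (XT.lf (nat_lit 0) (nat_lit 17071935866) (nat_lit 152) (nat_lit 210593387736) (nat_lit 0) (nat_lit 6702438562) (nat_lit 4) (nat_lit 5) (nat_lit 6) (nat_lit 4) (nat_lit 4) (nat_lit 4) (nat_lit 518) (nat_lit 393) (nat_lit 289)) (XT.lf (nat_lit 0) (nat_lit 32401614649) (nat_lit 152) (nat_lit 190905367837) (nat_lit 0) (nat_lit 22029008660) (nat_lit 4) (nat_lit 5) (nat_lit 6) (nat_lit 4) (nat_lit 4) (nat_lit 4) (nat_lit 519) (nat_lit 393) (nat_lit 288))))))) (XT.nd (nat_lit 1092) (nat_lit 152) (nat_lit 0) (XT.nd (nat_lit 546) (nat_lit 76) (nat_lit 0) (XT.nd (nat_lit 234) (nat_lit 0) (nat_lit 0) (XT.nd (nat_lit 78) (nat_lit 0) (nat_lit 0) (XT.lf (nat_lit 0) (nat_lit 48489159228) (nat_lit 152) (nat_lit 170250310826)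 (nat_lit 0) (nat_lit 38113592585) (nat_lit 4) (nat_lit 5) (nat_lit 6) (nat_lit 4) (nat_lit 4) (nat_lit 4) (nat_lit 520) (nat_lit 393) (nat_lit 287)) (XT.nd (nat_lit 78) (nat_lit 0) (nat_lit 0) (XT.lf (nat_lit 0) (nat_lit 65372873279) (nat_lit 152) (nat_lit 148579037995) (nat_lit 0) (nat_lit 54994486966) (nat_lit 4) (nat_lit 5) (nat_lit 6) (nat_lit 4) (nat_lit 4) (nat_lit 4) (nat_lit 521) (nat_lit 393) (nat_lit 286)) (XT.lf (nat_lit 0) (nat_lit 83092956122) (nat_lit 152) (nat_lit 125839951076) (nat_lit 0) (nat_lit 72711884409) (nat_lit 4) (nat_lit 5) (nat_lit 6) (nat_lit 4) (nat_lit 4) (nat_lit 4) (nat_lit 522) (nat_lit 393) (nat_lit 285)))) (XT.nd (nat_lit 156) (nat_lit 0) (nat_lit 0) (XT.nd (nat_lit 78) (nat_lit 0) (nat_lit 0) (XT.lf (nat_lit 0) (nat_lit 101691598431) (nat_lit 152) (nat_lit 101978909386) (nat_lit 0) (nat_lit 91307969194) (nat_lit 4) (nat_lit 5) (nat_lit 6) (nat_lit 4) (nat_lit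 4) (nat_lit 4) (nat_lit 523) (nat_lit 393) (nat_lit 284)) (XT.lf (nat_lit 0) (nat_lit 121213082686) (nat_lit 152) (nat_lit 76939100921) (nat_lit 0) (nat_lit 110827017712) (nat_lit 4) (nat_lit 5) (nat_lit 6) (nat_lit 4) (nat_lit 4) (nat_lit 4) (nat_lit 524) (nat_lit 393) (nat_lit 283))) (XT.nd (nat_lit 78) (nat_lit 0) (nat_lit 0) (XT.lf (nat_lit 0) (nat_lit 141703888612) (nat_lit 152) (nat_lit 50660907088) (nat_lit 0) (nat_lit 131315503889) (nat_lit 4) (nat_lit 5) (nat_lit 6) (nat_lit 4) (nat_lit 4) (nat_lit 4) (nat_lit 525) (nat_lit 393) (nat_lit 282)) (XT.lf (nat_lit 0) (nat_lit 163212803843) (nat_lit 152) (nat_lit 23081760761) (nat_lit 0) (nat_lit 152822209835) (nat_lit 4) (nat_lit 5) (nat_lit 6) (nat_lit 4) (nat_lit 4) (nat_lit 4) (nat_lit 526) (nat_lit 393) (nat_lit 281))))) (XT.nd (nat_lit 234) (nat_lit 0) (nat_lit 0) (XT.nd (nat_lit 78) (nat_lit 0) (nat_lit 0) (XT.lf (nat_lit 0) (nat_lit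 6057893107) (nat_lit 76) (nat_lit 179827727663) (nat_lit 76) (nat_lit 169435029573) (nat_lit 3) (nat_lit 4) (nat_lit 4) (nat_lit 5) (nat_lit 4) (nat_lit 4) (nat_lit 527) (nat_lit 393) (nat_lit 280)) (XT.nd (nat_lit 78) (nat_lit 0) (nat_lit 0) (XT.lf (nat_lit 0) (nat_lit 37443735131) (nat_lit 76) (nat_lit 172633221543) (nat_lit 76) (nat_lit 162238519566) (nat_lit 3) (nat_lit 4) (nat_lit 4) (nat_lit 5) (nat_lit 4) (nat_lit 4) (nat_lit 528) (nat_lit 393) (nat_lit 279)) (XT.lf (nat_lit 0) (nat_lit 70387306254) (nat_lit 76) (nat_lit 165084817256) (nat_lit 76) (nat_lit 154688206815) (nat_lit 3) (nat_lit 4) (nat_lit 4) (nat_lit 5) (nat_lit 4) (nat_lit 4) (nat_lit 529) (nat_lit 393) (nat_lit 278)))) (XT.nd (nat_lit 156) (nat_lit 0) (nat_lit 0) (XT.nd (nat_lit 78) (nat_lit 0) (nat_lit 0) (XT.lf (nat_lit 0) (nat_lit 104967043550) (nat_lit 76) (nat_lit 157164542410) (nat_lit 76) (nat_lit 146766114385)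 (nat_lit 3) (nat_lit 4) (nat_lit 4) (nat_lit 5) (nat_lit 4) (nat_lit 4) (nat_lit 530) (nat_lit 393) (nat_lit 277)) (XT.lf (nat_lit 0) (nat_lit 141265279728) (nat_lit 76) (nat_lit 148853539208) (nat_lit 76) (nat_lit 138453380150) (nat_lit 3) (nat_lit 4) (nat_lit 4) (nat_lit 5) (nat_lit 4) (nat_lit 4) (nat_lit 531) (nat_lit 393) (nat_lit 276))) (XT.nd (nat_lit 78) (nat_lit 0) (nat_lit 0) (XT.lf (nat_lit 0) (nat_lit 179368439159) (nat_lit 76) (nat_lit 140132019546) (nat_lit 76) (nat_lit 129730211886) (nat_lit 3) (nat_lit 4) (nat_lit 4) (nat_lit 5) (nat_lit 4) (nat_lit 4) (nat_lit 532) (nat_lit 393) (nat_lit 275)) (XT.lf (nat_lit 0) (nat_lit 219367243652) (nat_lit 76) (nat_lit 130979217903) (nat_lit 76) (nat_lit 120575840145) (nat_lit 3) (nat_lit 4) (nat_lit 4) (nat_lit 5) (nat_lit 4) (nat_lit 4) (nat_lit 533) (nat_lit 393) (nat_lit 274)))))) (XT.nd (nat_lit 546) (nat_lit 152) (nat_lit 0) (XT.nd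 (nat_lit 234) (nat_lit 0) (nat_lit 0) (XT.nd (nat_lit 78) (nat_lit 0) (nat_lit 0) (XT.lf (nat_lit 0) (nat_lit 261356928454) (nat_lit 76) (nat_lit 121373341894) (nat_lit 76) (nat_lit 110968468804) (nat_lit 3) (nat_lit 4) (nat_lit 4) (nat_lit 5) (nat_lit 4) (nat_lit 4) (nat_lit 534) (nat_lit 393) (nat_lit 273)) (XT.nd (nat_lit 78) (nat_lit 0) (nat_lit 0) (XT.lf (nat_lit 0) (nat_lit 305437469007) (nat_lit 76) (nat_lit 111291520384) (nat_lit 76) (nat_lit 100885223170) (nat_lit 3) (nat_lit 4) (nat_lit 4) (nat_lit 5) (nat_lit 4) (nat_lit 4) (nat_lit 535) (nat_lit 393) (nat_lit 272)) (XT.lf (nat_lit 0) (nat_lit 351713818978) (nat_lit 76) (nat_lit 100709749037) (nat_lit 76) (nat_lit 90302095513) (nat_lit 3) (nat_lit 4) (nat_lit 4) (nat_lit 5) (nat_lit 4) (nat_lit 4) (nat_lit 536) (nat_lit 393) (nat_lit 271)))) (XT.nd (nat_lit 156) (nat_lit 0) (nat_lit 0) (XT.nd (nat_lit 78) (nat_lit 0) (nat_lit 0)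 (XT.lf (nat_lit 0) (nat_lit 400296160153) (nat_lit 76) (nat_lit 89602833159) (nat_lit 76) (nat_lit 79193887912) (nat_lit 3) (nat_lit 4) (nat_lit 4) (nat_lit 5) (nat_lit 4) (nat_lit 4) (nat_lit 537) (nat_lit 393) (nat_lit 270)) (XT.lf (nat_lit 0) (nat_lit 451300164772) (nat_lit 76) (nat_lit 77944327713) (nat_lit 76) (nat_lit 67534152253) (nat_lit 3) (nat_lit 4) (nat_lit 4) (nat_lit 5) (nat_lit 4) (nat_lit 4) (nat_lit 538) (nat_lit 393) (nat_lit 269))) (XT.nd (nat_lit 78) (nat_lit 0) (nat_lit 0) (XT.lf (nat_lit 0) (nat_lit 504847270942) (nat_lit 76) (nat_lit 65706474352) (nat_lit 76) (nat_lit 55295127261) (nat_lit 3) (nat_lit 4) (nat_lit 4) (nat_lit 5) (nat_lit 4) (nat_lit 4) (nat_lit 539) (nat_lit 393) (nat_lit 268)) (XT.lf (nat_lit 0) (nat_lit 561064971774) (nat_lit 76) (nat_lit 52860135330) (nat_lit 76) (nat_lit 42447672400) (nat_lit 3) (nat_lit 4) (nat_lit 4) (nat_lit 5) (nat_lit 4) (nat_lit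 4) (nat_lit 540) (nat_lit 393) (nat_lit 267))))) (XT.nd (nat_lit 312) (nat_lit 0) (nat_lit 0) (XT.nd (nat_lit 156) (nat_lit 152) (nat_lit 0) (XT.nd (nat_lit 78) (nat_lit 0) (nat_lit 0) (XT.lf (nat_lit 0) (nat_lit 620087118934) (nat_lit 76) (nat_lit 39374724126) (nat_lit 76) (nat_lit 28961198491) (nat_lit 3) (nat_lit 4) (nat_lit 4) (nat_lit 5) (nat_lit 4) (nat_lit 4) (nat_lit 541) (nat_lit 393) (nat_lit 266)) (XT.lf (nat_lit 0) (nat_lit 682054241346) (nat_lit 76) (nat_lit 25218132617) (nat_lit 76) (nat_lit 14803594884) (nat_lit 3) (nat_lit 4) (nat_lit 4) (nat_lit 5) (nat_lit 4) (nat_lit 4) (nat_lit 542) (nat_lit 393) (nat_lit 265))) (XT.nd (nat_lit 78) (nat_lit 76) (nat_lit 0) (XT.lf (nat_lit 0) (nat_lit 56963531) (nat_lit 152) (nat_lit 10298726397) (nat_lit 76) (nat_lit 747055951541) (nat_lit 2) (nat_lit 5) (nat_lit 4) (nat_lit 5) (nat_lit 3) (nat_lit 4) (nat_lit 543) (nat_lit 393) (nat_lit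 264)) (XT.lf (nat_lit 0) (nat_lit 15584869585) (nat_lit 152) (nat_lit 773231533282) (nat_lit 0) (nat_lit 5664469927) (nat_lit 1) (nat_lit 5) (nat_lit 3) (nat_lit 4) (nat_lit 1) (nat_lit 4) (nat_lit 544) (nat_lit 393) (nat_lit 263)))) (XT.nd (nat_lit 52182) (nat_lit 0) (nat_lit 10868) (XT.nd (nat_lit 52104) (nat_lit 0) (nat_lit 11552) (XT.lf (nat_lit 0) (nat_lit 32233408054) (nat_lit 152) (nat_lit 778840770081) (nat_lit 0) (nat_lit 22312175739) (nat_lit 1) (nat_lit 5) (nat_lit 3) (nat_lit 4) (nat_lit 1) (nat_lit 4) (nat_lit 545) (nat_lit 393) (nat_lit 262)) (XT.lf (nat_lit 0) (nat_lit 518576485) (nat_lit 532) (nat_lit 1456096163) (nat_lit 532) (nat_lit 1456096163) (nat_lit 153) (nat_lit 4) (nat_lit 160) (nat_lit 5) (nat_lit 160) (nat_lit 4) (nat_lit 412) (nat_lit 394) (nat_lit 394))) (XT.nd (nat_lit 78) (nat_lit 608) (nat_lit 0) (XT.lf (nat_lit 0) (nat_lit 441469624) (nat_lit 608) (nat_lit 1042876984)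 (nat_lit 76) (nat_lit 5452271067) (nat_lit 152) (nat_lit 5) (nat_lit 160) (nat_lit 5) (nat_lit 153) (nat_lit 4) (nat_lit 413) (nat_lit 394) (nat_lit 393)) (XT.lf (nat_lit 0) (nat_lit 3758545126) (nat_lit 684) (nat_lit 3123312857) (nat_lit 0) (nat_lit 136618672) (nat_lit 144) (nat_lit 5) (nat_lit 153) (nat_lit 4) (nat_lit 144) (nat_lit 4) (nat_lit 414) (nat_lit 394) (nat_lit 392))))))))
noncomputable def xc79 : XT := (XT.nd (nat_lit 2184) (nat_lit 2432) (nat_lit 0) (XT.nd (nat_lit 1092) (nat_lit 2204) (nat_lit 0) (XT.nd (nat_lit 546) (nat_lit 1596) (nat_lit 0) (XT.nd (nat_lit 234) (nat_lit 1292) (nat_lit 0) (XT.nd (nat_lit 78) (nat_lit 760) (nat_lit 0) (XT.lf (nat_lit 0) (nat_lit 39129588) (nat_lit 760) (nat_lit 5224371170) (nat_lit 76) (nat_lit 1845580717) (nat_lit 134) (nat_lit 5) (nat_lit 144) (nat_lit 5) (nat_lit 135) (nat_lit 4) (nat_lit 415) (nat_lit 394) (nat_lit 391)) (XT.nd (nat_lit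 78) (nat_lit 760) (nat_lit 0) (XT.lf (nat_lit 0) (nat_lit 3286302683) (nat_lit 760) (nat_lit 170200015) (nat_lit 76) (nat_lit 3750485474) (nat_lit 134) (nat_lit 5) (nat_lit 144) (nat_lit 5) (nat_lit 135) (nat_lit 4) (nat_lit 416) (nat_lit 394) (nat_lit 390)) (XT.lf (nat_lit 0) (nat_lit 5143308562) (nat_lit 760) (nat_lit 1479448334) (nat_lit 836) (nat_lit 690762813) (nat_lit 124) (nat_lit 5) (nat_lit 134) (nat_lit 5) (nat_lit 135) (nat_lit 4) (nat_lit 417) (nat_lit 394) (nat_lit 389)))) (XT.nd (nat_lit 156) (nat_lit 456) (nat_lit 0) (XT.nd (nat_lit 78) (nat_lit 380) (nat_lit 0) (XT.lf (nat_lit 0) (nat_lit 2526872014) (nat_lit 456) (nat_lit 4235996534) (nat_lit 76) (nat_lit 664836938) (nat_lit 118) (nat_lit 5) (nat_lit 124) (nat_lit 5) (nat_lit 119) (nat_lit 4) (nat_lit 418) (nat_lit 394) (nat_lit 388)) (XT.lf (nat_lit 0) (nat_lit 1188040504) (nat_lit 380) (nat_lit 4627829300) (nat_lit 456) (nat_lit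 1734545111) (nat_lit 113) (nat_lit 5) (nat_lit 118) (nat_lit 5) (nat_lit 119) (nat_lit 4) (nat_lit 419) (nat_lit 394) (nat_lit 387))) (XT.nd (nat_lit 78) (nat_lit 380) (nat_lit 0) (XT.lf (nat_lit 0) (nat_lit 1467667619) (nat_lit 456) (nat_lit 838613143) (nat_lit 76) (nat_lit 5375371961) (nat_lit 112) (nat_lit 5) (nat_lit 118) (nat_lit 5) (nat_lit 113) (nat_lit 5) (nat_lit 420) (nat_lit 394) (nat_lit 386)) (XT.lf (nat_lit 0) (nat_lit 4714594977) (nat_lit 456) (nat_lit 2893132664) (nat_lit 76) (nat_lit 213214654) (nat_lit 107) (nat_lit 5) (nat_lit 113) (nat_lit 5) (nat_lit 108) (nat_lit 4) (nat_lit 421) (nat_lit 394) (nat_lit 385))))) (XT.nd (nat_lit 234) (nat_lit 912) (nat_lit 0) (XT.nd (nat_lit 78) (nat_lit 304) (nat_lit 0) (XT.lf (nat_lit 0) (nat_lit 115337318) (nat_lit 380) (nat_lit 5032825216) (nat_lit 76) (nat_lit 2820778722) (nat_lit 102) (nat_lit 5) (nat_lit 107) (nat_lit 5) (nat_lit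 103) (nat_lit 5) (nat_lit 422) (nat_lit 394) (nat_lit 384)) (XT.nd (nat_lit 78) (nat_lit 0) (nat_lit 0) (XT.lf (nat_lit 0) (nat_lit 845829993) (nat_lit 304) (nat_lit 2478776332) (nat_lit 380) (nat_lit 4800691715) (nat_lit 98) (nat_lit 5) (nat_lit 102) (nat_lit 5) (nat_lit 103) (nat_lit 5) (nat_lit 423) (nat_lit 394) (nat_lit 383)) (XT.lf (nat_lit 0) (nat_lit 6657146454) (nat_lit 380) (nat_lit 1266692075) (nat_lit 76) (nat_lit 367540181) (nat_lit 98) (nat_lit 5) (nat_lit 103) (nat_lit 5) (nat_lit 99) (nat_lit 4) (nat_lit 424) (nat_lit 394) (nat_lit 382)))) (XT.nd (nat_lit 156) (nat_lit 304) (nat_lit 0) (XT.nd (nat_lit 78) (nat_lit 304) (nat_lit 0) (XT.lf (nat_lit 0) (nat_lit 1632384772) (nat_lit 304) (nat_lit 3486180932) (nat_lit 76) (nat_lit 3346122973) (nat_lit 94) (nat_lit 5) (nat_lit 98) (nat_lit 5) (nat_lit 95) (nat_lit 5) (nat_lit 425) (nat_lit 394) (nat_lit 381)) (XT.lf (nat_lit 0) (nat_lit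 2836359869) (nat_lit 304) (nat_lit 2115780940) (nat_lit 380) (nat_lit 3695987452) (nat_lit 90) (nat_lit 5) (nat_lit 94) (nat_lit 5) (nat_lit 95) (nat_lit 5) (nat_lit 426) (nat_lit 394) (nat_lit 380))) (XT.nd (nat_lit 78) (nat_lit 76) (nat_lit 0) (XT.lf (nat_lit 0) (nat_lit 595856269) (nat_lit 228) (nat_lit 7808830537) (nat_lit 304) (nat_lit 437751108) (nat_lit 87) (nat_lit 5) (nat_lit 90) (nat_lit 5) (nat_lit 91) (nat_lit 4) (nat_lit 427) (nat_lit 394) (nat_lit 379)) (XT.lf (nat_lit 0) (nat_lit 2905130094) (nat_lit 304) (nat_lit 1764381702) (nat_lit 76) (nat_lit 4373795922) (nat_lit 86) (nat_lit 5) (nat_lit 90) (nat_lit 5) (nat_lit 87) (nat_lit 5) (nat_lit 428) (nat_lit 394) (nat_lit 378)))))) (XT.nd (nat_lit 546) (nat_lit 988) (nat_lit 0) (XT.nd (nat_lit 234) (nat_lit 456) (nat_lit 0) (XT.nd (nat_lit 78) (nat_lit 532) (nat_lit 0) (XT.lf (nat_lit 0) (nat_lit 5038298631) (nat_lit 228) (nat_lit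 1328899580) (nat_lit 304) (nat_lit 2888359277) (nat_lit 83) (nat_lit 5) (nat_lit 86) (nat_lit 5) (nat_lit 87) (nat_lit 5) (nat_lit 429) (nat_lit 394) (nat_lit 377)) (XT.nd (nat_lit 78) (nat_lit 228) (nat_lit 0) (XT.lf (nat_lit 0) (nat_lit 503218962) (nat_lit 304) (nat_lit 6830742725) (nat_lit 76) (nat_lit 2144277040) (nat_lit 79) (nat_lit 5) (nat_lit 83) (nat_lit 5) (nat_lit 80) (nat_lit 5) (nat_lit 430) (nat_lit 394) (nat_lit 376)) (XT.lf (nat_lit 0) (nat_lit 64196054) (nat_lit 228) (nat_lit 3889755625) (nat_lit 304) (nat_lit 5756431175) (nat_lit 76) (nat_lit 5) (nat_lit 79) (nat_lit 5) (nat_lit 80) (nat_lit 5) (nat_lit 431) (nat_lit 394) (nat_lit 375)))) (XT.nd (nat_lit 156) (nat_lit 228) (nat_lit 0) (XT.nd (nat_lit 78) (nat_lit 228) (nat_lit 0) (XT.lf (nat_lit 0) (nat_lit 7382654319) (nat_lit 228) (nat_lit 204217581) (nat_lit 304) (nat_lit 2366806892) (nat_lit 76) (nat_lit 5) (nat_lit 79)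 (nat_lit 5) (nat_lit 80) (nat_lit 5) (nat_lit 432) (nat_lit 394) (nat_lit 374)) (XT.lf (nat_lit 0) (nat_lit 1185008847) (nat_lit 228) (nat_lit 5427620784) (nat_lit 76) (nat_lit 3594060199) (nat_lit 73) (nat_lit 5) (nat_lit 76) (nat_lit 5) (nat_lit 74) (nat_lit 5) (nat_lit 433) (nat_lit 394) (nat_lit 373))) (XT.nd (nat_lit 78) (nat_lit 0) (nat_lit 0) (XT.lf (nat_lit 0) (nat_lit 1980283214) (nat_lit 228) (nat_lit 2832163683) (nat_lit 304) (nat_lit 5659109379) (nat_lit 70) (nat_lit 5) (nat_lit 73) (nat_lit 5) (nat_lit 74) (nat_lit 5) (nat_lit 434) (nat_lit 394) (nat_lit 372)) (XT.lf (nat_lit 0) (nat_lit 8633044023) (nat_lit 304) (nat_lit 974881771) (nat_lit 76) (nat_lit 1141173225) (nat_lit 70) (nat_lit 5) (nat_lit 74) (nat_lit 5) (nat_lit 71) (nat_lit 4) (nat_lit 435) (nat_lit 394) (nat_lit 371))))) (XT.nd (nat_lit 234) (nat_lit 456) (nat_lit 0) (XT.nd (nat_lit 78) (nat_lit 304) (nat_lit 0) (XT.lf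 (nat_lit 0) (nat_lit 1613941708) (nat_lit 228) (nat_lit 4120503748) (nat_lit 76) (nat_lit 5301784810) (nat_lit 67) (nat_lit 5) (nat_lit 70) (nat_lit 5) (nat_lit 68) (nat_lit 5) (nat_lit 436) (nat_lit 394) (nat_lit 370)) (XT.nd (nat_lit 78) (nat_lit 152) (nat_lit 0) (XT.lf (nat_lit 0) (nat_lit 3834827819) (nat_lit 152) (nat_lit 1607154784) (nat_lit 228) (nat_lit 5894887412) (nat_lit 65) (nat_lit 5) (nat_lit 67) (nat_lit 5) (nat_lit 68) (nat_lit 5) (nat_lit 437) (nat_lit 394) (nat_lit 369)) (XT.lf (nat_lit 0) (nat_lit 502224855) (nat_lit 152) (nat_lit 8987819225) (nat_lit 228) (nat_lit 2161085116) (nat_lit 63) (nat_lit 5) (nat_lit 65) (nat_lit 5) (nat_lit 66) (nat_lit 4) (nat_lit 438) (nat_lit 394) (nat_lit 368)))) (XT.nd (nat_lit 156) (nat_lit 228) (nat_lit 0) (XT.nd (nat_lit 78) (nat_lit 152) (nat_lit 0) (XT.lf (nat_lit 0) (nat_lit 1766434409) (nat_lit 228) (nat_lit 3016164183) (nat_lit 76)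 (nat_lit 7193978988) (nat_lit 62) (nat_lit 5) (nat_lit 65) (nat_lit 5) (nat_lit 63) (nat_lit 5) (nat_lit 439) (nat_lit 394) (nat_lit 367)) (XT.lf (nat_lit 0) (nat_lit 5519023108) (nat_lit 152) (nat_lit 297094091) (nat_lit 228) (nat_lit 6500504982) (nat_lit 60) (nat_lit 5) (nat_lit 62) (nat_lit 5) (nat_lit 63) (nat_lit 5) (nat_lit 440) (nat_lit 394) (nat_lit 366))) (XT.nd (nat_lit 78) (nat_lit 76) (nat_lit 0) (XT.lf (nat_lit 0) (nat_lit 1754521160) (nat_lit 152) (nat_lit 8375265734) (nat_lit 228) (nat_lit 2540822093) (nat_lit 58) (nat_lit 5) (nat_lit 60) (nat_lit 5) (nat_lit 61) (nat_lit 4) (nat_lit 441) (nat_lit 394) (nat_lit 365)) (XT.lf (nat_lit 0) (nat_lit 1600746096) (nat_lit 228) (nat_lit 2245269730) (nat_lit 76) (nat_lit 9193248331) (nat_lit 57) (nat_lit 5) (nat_lit 60) (nat_lit 5) (nat_lit 58) (nat_lit 5) (nat_lit 442) (nat_lit 394) (nat_lit 364))))))) (XT.nd (nat_lit 1092) (nat_lit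 988) (nat_lit 0) (XT.nd (nat_lit 546) (nat_lit 608) (nat_lit 0) (XT.nd (nat_lit 234) (nat_lit 456) (nat_lit 0) (XT.nd (nat_lit 78) (nat_lit 228) (nat_lit 0) (XT.lf (nat_lit 0) (nat_lit 5905331613) (nat_lit 228) (nat_lit 6540503609) (nat_lit 76) (nat_lit 976380920) (nat_lit 55) (nat_lit 5) (nat_lit 58) (nat_lit 5) (nat_lit 56) (nat_lit 4) (nat_lit 443) (nat_lit 394) (nat_lit 363)) (XT.nd (nat_lit 78) (nat_lit 76) (nat_lit 0) (XT.lf (nat_lit 0) (nat_lit 2599246645) (nat_lit 152) (nat_lit 7886921859) (nat_lit 228) (nat_lit 3335108553) (nat_lit 53) (nat_lit 5) (nat_lit 55) (nat_lit 5) (nat_lit 56) (nat_lit 4) (nat_lit 444) (nat_lit 394) (nat_lit 362)) (XT.lf (nat_lit 0) (nat_lit 1053681076) (nat_lit 228) (nat_lit 1971261999) (nat_lit 76) (nat_lit 11212949274) (nat_lit 52) (nat_lit 5) (nat_lit 55) (nat_lit 5) (nat_lit 53) (nat_lit 5) (nat_lit 445) (nat_lit 394) (nat_lit 361)))) (XT.nd (nat_lit 156)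 (nat_lit 228) (nat_lit 0) (XT.nd (nat_lit 78) (nat_lit 76) (nat_lit 0) (XT.lf (nat_lit 0) (nat_lit 5629104519) (nat_lit 228) (nat_lit 6902284707) (nat_lit 76) (nat_lit 2137262435) (nat_lit 50) (nat_lit 5) (nat_lit 53) (nat_lit 5) (nat_lit 51) (nat_lit 4) (nat_lit 446) (nat_lit 394) (nat_lit 360)) (XT.lf (nat_lit 0) (nat_lit 2845718733) (nat_lit 76) (nat_lit 7639226407) (nat_lit 152) (nat_lit 4633431729) (nat_lit 49) (nat_lit 5) (nat_lit 50) (nat_lit 5) (nat_lit 51) (nat_lit 4) (nat_lit 447) (nat_lit 394) (nat_lit 359))) (XT.nd (nat_lit 78) (nat_lit 152) (nat_lit 0) (XT.lf (nat_lit 0) (nat_lit 36040209) (nat_lit 152) (nat_lit 2401397339) (nat_lit 76) (nat_lit 13151024224) (nat_lit 48) (nat_lit 5) (nat_lit 50) (nat_lit 5) (nat_lit 49) (nat_lit 5) (nat_lit 448) (nat_lit 394) (nat_lit 358)) (XT.lf (nat_lit 0) (nat_lit 4885671260) (nat_lit 228) (nat_lit 8110403409) (nat_lit 76) (nat_lit 3077067234)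 (nat_lit 46) (nat_lit 5) (nat_lit 49) (nat_lit 5) (nat_lit 47) (nat_lit 4) (nat_lit 449) (nat_lit 394) (nat_lit 357))))) (XT.nd (nat_lit 234) (nat_lit 304) (nat_lit 0) (XT.nd (nat_lit 78) (nat_lit 228) (nat_lit 0) (XT.lf (nat_lit 0) (nat_lit 2250084097) (nat_lit 76) (nat_lit 7772343625) (nat_lit 152) (nat_lit 6557404542) (nat_lit 45) (nat_lit 5) (nat_lit 46) (nat_lit 5) (nat_lit 47) (nat_lit 4) (nat_lit 450) (nat_lit 394) (nat_lit 356)) (XT.nd (nat_lit 78) (nat_lit 228) (nat_lit 0) (XT.lf (nat_lit 0) (nat_lit 13282525849) (nat_lit 76) (nat_lit 2200495176) (nat_lit 152) (nat_lit 1625494185) (nat_lit 45) (nat_lit 5) (nat_lit 46) (nat_lit 5) (nat_lit 47) (nat_lit 4) (nat_lit 451) (nat_lit 394) (nat_lit 355)) (XT.lf (nat_lit 0) (nat_lit 3543350266) (nat_lit 228) (nat_lit 10461596926) (nat_lit 76) (nat_lit 3650715901) (nat_lit 42) (nat_lit 5) (nat_lit 45) (nat_lit 5) (nat_lit 43) (nat_lit 4) (nat_lit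 452) (nat_lit 394) (nat_lit 354)))) (XT.nd (nat_lit 156) (nat_lit 228) (nat_lit 0) (XT.nd (nat_lit 78) (nat_lit 0) (nat_lit 0) (XT.lf (nat_lit 0) (nat_lit 498895453) (nat_lit 76) (nat_lit 8459205686) (nat_lit 152) (nat_lit 9268637211) (nat_lit 41) (nat_lit 5) (nat_lit 42) (nat_lit 5) (nat_lit 43) (nat_lit 4) (nat_lit 453) (nat_lit 394) (nat_lit 353)) (XT.lf (nat_lit 0) (nat_lit 12248306016) (nat_lit 76) (nat_lit 2506137980) (nat_lit 152) (nat_lit 4066387246) (nat_lit 41) (nat_lit 5) (nat_lit 42) (nat_lit 5) (nat_lit 43) (nat_lit 4) (nat_lit 454) (nat_lit 394) (nat_lit 352))) (XT.nd (nat_lit 78) (nat_lit 0) (nat_lit 0) (XT.lf (nat_lit 0) (nat_lit 1427034889) (nat_lit 228) (nat_lit 14336539187) (nat_lit 76) (nat_lit 3676183952) (nat_lit 38) (nat_lit 5) (nat_lit 41) (nat_lit 5) (nat_lit 39) (nat_lit 4) (nat_lit 455) (nat_lit 394) (nat_lit 351)) (XT.lf (nat_lit 0) (nat_lit 7148883678) (nat_lit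 228) (nat_lit 2721719297) (nat_lit 76) (nat_lit 10211180128) (nat_lit 38) (nat_lit 5) (nat_lit 41) (nat_lit 5) (nat_lit 39) (nat_lit 4) (nat_lit 456) (nat_lit 394) (nat_lit 350)))))) (XT.nd (nat_lit 546) (nat_lit 532) (nat_lit 0) (XT.nd (nat_lit 234) (nat_lit 228) (nat_lit 0) (XT.nd (nat_lit 78) (nat_lit 152) (nat_lit 0) (XT.lf (nat_lit 0) (nat_lit 9669993299) (nat_lit 76) (nat_lit 3577040602) (nat_lit 152) (nat_lit 7504370508) (nat_lit 37) (nat_lit 5) (nat_lit 38) (nat_lit 5) (nat_lit 39) (nat_lit 4) (nat_lit 457) (nat_lit 394) (nat_lit 349)) (XT.nd (nat_lit 78) (nat_lit 76) (nat_lit 0) (XT.lf (nat_lit 0) (nat_lit 1200218978) (nat_lit 76) (nat_lit 18502361639) (nat_lit 76) (nat_lit 1749306881) (nat_lit 36) (nat_lit 4) (nat_lit 37) (nat_lit 5) (nat_lit 37) (nat_lit 4) (nat_lit 458) (nat_lit 394) (nat_lit 348)) (XT.lf (nat_lit 0) (nat_lit 4345205906) (nat_lit 152) (nat_lit 7939968860) (nat_lit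 76) (nat_lit 9889417223) (nat_lit 35) (nat_lit 5) (nat_lit 37) (nat_lit 5) (nat_lit 36) (nat_lit 4) (nat_lit 459) (nat_lit 394) (nat_lit 347)))) (XT.nd (nat_lit 156) (nat_lit 152) (nat_lit 0) (XT.nd (nat_lit 78) (nat_lit 0) (nat_lit 0) (XT.lf (nat_lit 0) (nat_lit 5010570611) (nat_lit 76) (nat_lit 5695914112) (nat_lit 152) (nat_lit 12224476156) (nat_lit 34) (nat_lit 5) (nat_lit 35) (nat_lit 5) (nat_lit 36) (nat_lit 4) (nat_lit 460) (nat_lit 394) (nat_lit 346)) (XT.lf (nat_lit 0) (nat_lit 17484471539) (nat_lit 152) (nat_lit 4964149139) (nat_lit 0) (nat_lit 1271599585) (nat_lit 34) (nat_lit 5) (nat_lit 36) (nat_lit 4) (nat_lit 34) (nat_lit 4) (nat_lit 461) (nat_lit 394) (nat_lit 345))) (XT.nd (nat_lit 78) (nat_lit 0) (nat_lit 0) (XT.lf (nat_lit 0) (nat_lit 228758630) (nat_lit 152) (nat_lit 15821733070) (nat_lit 76) (nat_lit 8489512796) (nat_lit 32) (nat_lit 5) (nat_lit 34) (nat_lit 5) (nat_lit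 33) (nat_lit 4) (nat_lit 462) (nat_lit 394) (nat_lit 344)) (XT.lf (nat_lit 0) (nat_lit 6838099440) (nat_lit 152) (nat_lit 2346695179) (nat_lit 76) (nat_lit 16209317218) (nat_lit 32) (nat_lit 5) (nat_lit 34) (nat_lit 5) (nat_lit 33) (nat_lit 4) (nat_lit 463) (nat_lit 394) (nat_lit 343))))) (XT.nd (nat_lit 312) (nat_lit 228) (nat_lit 0) (XT.nd (nat_lit 156) (nat_lit 228) (nat_lit 0) (XT.nd (nat_lit 78) (nat_lit 0) (nat_lit 0) (XT.lf (nat_lit 0) (nat_lit 12090323086) (nat_lit 76) (nat_lit 1824654379) (nat_lit 152) (nat_lit 12369097070) (nat_lit 31) (nat_lit 5) (nat_lit 32) (nat_lit 5) (nat_lit 33) (nat_lit 4) (nat_lit 464) (nat_lit 394) (nat_lit 342)) (XT.lf (nat_lit 0) (nat_lit 21426790269) (nat_lit 152) (nat_lit 77666829) (nat_lit 0) (nat_lit 5710027057) (nat_lit 31) (nat_lit 5) (nat_lit 33) (nat_lit 4) (nat_lit 31) (nat_lit 4) (nat_lit 465) (nat_lit 394) (nat_lit 341))) (XT.nd (nat_lit 78)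 (nat_lit 76) (nat_lit 0) (XT.lf (nat_lit 0) (nat_lit 1307090630) (nat_lit 152) (nat_lit 13098198534) (nat_lit 76) (nat_lit 13774239270) (nat_lit 29) (nat_lit 5) (nat_lit 31) (nat_lit 5) (nat_lit 30) (nat_lit 4) (nat_lit 466) (nat_lit 394) (nat_lit 340)) (XT.lf (nat_lit 0) (nat_lit 1672492870) (nat_lit 76) (nat_lit 6868138800) (nat_lit 152) (nat_lit 20648526035) (nat_lit 28) (nat_lit 5) (nat_lit 29) (nat_lit 5) (nat_lit 30) (nat_lit 4) (nat_lit 467) (nat_lit 394) (nat_lit 339)))) (XT.nd (nat_lit 156) (nat_lit 152) (nat_lit 0) (XT.nd (nat_lit 78) (nat_lit 76) (nat_lit 0) (XT.lf (nat_lit 0) (nat_lit 16328893507) (nat_lit 152) (nat_lit 12716217361) (nat_lit 0) (nat_lit 1194508124) (nat_lit 28) (nat_lit 5) (nat_lit 30) (nat_lit 4) (nat_lit 28) (nat_lit 4) (nat_lit 468) (nat_lit 394) (nat_lit 338)) (XT.lf (nat_lit 0) (nat_lit 2708311060) (nat_lit 76) (nat_lit 21906709381) (nat_lit 76) (nat_lit 6722162912)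 (nat_lit 27) (nat_lit 4) (nat_lit 28) (nat_lit 5) (nat_lit 28) (nat_lit 4) (nat_lit 469) (nat_lit 394) (nat_lit 337))) (XT.nd (nat_lit 78) (nat_lit 76) (nat_lit 0) (XT.lf (nat_lit 0) (nat_lit 971934919) (nat_lit 152) (nat_lit 13239852347) (nat_lit 76) (nat_lit 18268569420) (nat_lit 26) (nat_lit 5) (nat_lit 28) (nat_lit 5) (nat_lit 27) (nat_lit 4) (nat_lit 470) (nat_lit 394) (nat_lit 336)) (XT.lf (nat_lit 0) (nat_lit 2812617151) (nat_lit 76) (nat_lit 6011984637) (nat_lit 152) (nat_lit 24850590537) (nat_lit 25) (nat_lit 5) (nat_lit 26) (nat_lit 5) (nat_lit 27) (nat_lit 4) (nat_lit 471) (nat_lit 394) (nat_lit 335))))))))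
noncomputable def xc80 : XT := (XT.nd (nat_lit 2184) (nat_lit 456) (nat_lit 0) (XT.nd (nat_lit 1092) (nat_lit 456) (nat_lit 0) (XT.nd (nat_lit 546) (nat_lit 380) (nat_lit 0) (XT.nd (nat_lit 234) (nat_lit 228) (nat_lit 0) (XT.nd (nat_lit 78) (nat_lit 76) (nat_lit 0) (XT.lf (nat_lit 0) (nat_lit 17294362383) (nat_lit 152) (nat_lit 14921393204) (nat_lit 0) (nat_lit 2702793289) (nat_lit 25) (nat_lit 5) (nat_lit 27) (nat_lit 4) (nat_lit 25) (nat_lit 4) (nat_lit 472) (nat_lit 394) (nat_lit 334)) (XT.nd (nat_lit 78) (nat_lit 0) (nat_lit 0) (XT.lf (nat_lit 0) (nat_lit 1690524100) (nat_lit 76) (nat_lit 24580135201) (nat_lit 76) (nat_lit 9949263583) (nat_lit 24) (nat_lit 4) (nat_lit 25) (nat_lit 5) (nat_lit 25) (nat_lit 4) (nat_lit 473) (nat_lit 394) (nat_lit 333)) (XT.lf (nat_lit 0) (nat_lit 19570520928) (nat_lit 76) (nat_lit 16336786200) (nat_lit 76) (nat_lit 1668483607) (nat_lit 24) (nat_lit 4) (nat_lit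 25) (nat_lit 5) (nat_lit 25) (nat_lit 4) (nat_lit 474) (nat_lit 394) (nat_lit 332)))) (XT.nd (nat_lit 156) (nat_lit 76) (nat_lit 0) (XT.nd (nat_lit 78) (nat_lit 76) (nat_lit 0) (XT.lf (nat_lit 0) (nat_lit 6761599543) (nat_lit 152) (nat_lit 842672075) (nat_lit 76) (nat_lit 31391689550) (nat_lit 23) (nat_lit 5) (nat_lit 25) (nat_lit 5) (nat_lit 24) (nat_lit 4) (nat_lit 475) (nat_lit 394) (nat_lit 331)) (XT.lf (nat_lit 0) (nat_lit 15823416487) (nat_lit 152) (nat_lit 22861723414) (nat_lit 0) (nat_lit 1787319213) (nat_lit 22) (nat_lit 5) (nat_lit 24) (nat_lit 4) (nat_lit 22) (nat_lit 4) (nat_lit 476) (nat_lit 394) (nat_lit 330))) (XT.nd (nat_lit 78) (nat_lit 76) (nat_lit 0) (XT.lf (nat_lit 0) (nat_lit 25439643929) (nat_lit 152) (nat_lit 5205321550) (nat_lit 0) (nat_lit 11372752099) (nat_lit 22) (nat_lit 5) (nat_lit 24) (nat_lit 4) (nat_lit 22) (nat_lit 4) (nat_lit 477) (nat_lit 394) (nat_lit 329))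 (XT.lf (nat_lit 0) (nat_lit 13701551291) (nat_lit 76) (nat_lit 22013007683) (nat_lit 76) (nat_lit 7916787704) (nat_lit 21) (nat_lit 4) (nat_lit 22) (nat_lit 5) (nat_lit 22) (nat_lit 4) (nat_lit 478) (nat_lit 394) (nat_lit 328))))) (XT.nd (nat_lit 234) (nat_lit 228) (nat_lit 0) (XT.nd (nat_lit 78) (nat_lit 76) (nat_lit 0) (XT.lf (nat_lit 0) (nat_lit 1193475100) (nat_lit 152) (nat_lit 11677527592) (nat_lit 76) (nat_lit 32451056577) (nat_lit 20) (nat_lit 5) (nat_lit 22) (nat_lit 5) (nat_lit 21) (nat_lit 4) (nat_lit 479) (nat_lit 394) (nat_lit 327)) (XT.nd (nat_lit 78) (nat_lit 0) (nat_lit 0) (XT.lf (nat_lit 0) (nat_lit 7531056095) (nat_lit 76) (nat_lit 3045436167) (nat_lit 152) (nat_lit 36510162516) (nat_lit 19) (nat_lit 5) (nat_lit 20) (nat_lit 5) (nat_lit 21) (nat_lit 4) (nat_lit 480) (nat_lit 394) (nat_lit 326)) (XT.lf (nat_lit 0) (nat_lit 20708993393) (nat_lit 152) (nat_lit 21008513876) (nat_lit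 0) (nat_lit 7207957392) (nat_lit 19) (nat_lit 5) (nat_lit 21) (nat_lit 4) (nat_lit 19) (nat_lit 4) (nat_lit 481) (nat_lit 394) (nat_lit 325)))) (XT.nd (nat_lit 156) (nat_lit 152) (nat_lit 0) (XT.nd (nat_lit 78) (nat_lit 76) (nat_lit 0) (XT.lf (nat_lit 0) (nat_lit 31365472783) (nat_lit 152) (nat_lit 1648418383) (nat_lit 0) (nat_lit 17841457410) (nat_lit 19) (nat_lit 5) (nat_lit 21) (nat_lit 4) (nat_lit 19) (nat_lit 4) (nat_lit 482) (nat_lit 394) (nat_lit 324)) (XT.lf (nat_lit 0) (nat_lit 19233937163) (nat_lit 76) (nat_lit 23590113706) (nat_lit 76) (nat_lit 10044213218) (nat_lit 18) (nat_lit 4) (nat_lit 19) (nat_lit 5) (nat_lit 19) (nat_lit 4) (nat_lit 483) (nat_lit 394) (nat_lit 323))) (XT.nd (nat_lit 78) (nat_lit 152) (nat_lit 0) (XT.lf (nat_lit 0) (nat_lit 41157278551) (nat_lit 76) (nat_lit 13695709917) (nat_lit 76) (nat_lit 128966461) (nat_lit 18) (nat_lit 4) (nat_lit 19) (nat_lit 5) (nat_lit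 19) (nat_lit 4) (nat_lit 484) (nat_lit 394) (nat_lit 322)) (XT.lf (nat_lit 0) (nat_lit 6979860606) (nat_lit 76) (nat_lit 3052556226) (nat_lit 152) (nat_lit 47156914700) (nat_lit 16) (nat_lit 5) (nat_lit 17) (nat_lit 5) (nat_lit 18) (nat_lit 4) (nat_lit 485) (nat_lit 394) (nat_lit 321)))))) (XT.nd (nat_lit 546) (nat_lit 228) (nat_lit 0) (XT.nd (nat_lit 234) (nat_lit 152) (nat_lit 0) (XT.nd (nat_lit 78) (nat_lit 76) (nat_lit 0) (XT.lf (nat_lit 0) (nat_lit 21032870499) (nat_lit 152) (nat_lit 30382082606) (nat_lit 0) (nat_lit 8075252321) (nat_lit 16) (nat_lit 5) (nat_lit 18) (nat_lit 4) (nat_lit 16) (nat_lit 4) (nat_lit 486) (nat_lit 394) (nat_lit 320)) (XT.nd (nat_lit 78) (nat_lit 76) (nat_lit 0) (XT.lf (nat_lit 0) (nat_lit 32605341719) (nat_lit 152) (nat_lit 9669106464) (nat_lit 0) (nat_lit 19630575980) (nat_lit 16) (nat_lit 5) (nat_lit 18) (nat_lit 4) (nat_lit 16) (nat_lit 4) (nat_lit 487) (nat_lit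 394) (nat_lit 319)) (XT.lf (nat_lit 0) (nat_lit 12424081254) (nat_lit 76) (nat_lit 32499618509) (nat_lit 76) (nat_lit 19508521760) (nat_lit 15) (nat_lit 4) (nat_lit 16) (nat_lit 5) (nat_lit 16) (nat_lit 4) (nat_lit 488) (nat_lit 394) (nat_lit 318)))) (XT.nd (nat_lit 156) (nat_lit 76) (nat_lit 0) (XT.nd (nat_lit 78) (nat_lit 76) (nat_lit 0) (XT.lf (nat_lit 0) (nat_lit 35905388701) (nat_lit 76) (nat_lit 22090083075) (nat_lit 76) (nat_lit 9083432983) (nat_lit 15) (nat_lit 4) (nat_lit 16) (nat_lit 5) (nat_lit 16) (nat_lit 4) (nat_lit 489) (nat_lit 394) (nat_lit 317)) (XT.lf (nat_lit 0) (nat_lit 1777870115) (nat_lit 152) (nat_lit 9376829063) (nat_lit 76) (nat_lit 58703040216) (nat_lit 14) (nat_lit 5) (nat_lit 16) (nat_lit 5) (nat_lit 15) (nat_lit 4) (nat_lit 490) (nat_lit 394) (nat_lit 316))) (XT.nd (nat_lit 78) (nat_lit 0) (nat_lit 0) (XT.lf (nat_lit 0) (nat_lit 13078189220) (nat_lit 152) (nat_lit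 59016460602) (nat_lit 0) (nat_lit 663360514) (nat_lit 13) (nat_lit 5) (nat_lit 15) (nat_lit 4) (nat_lit 13) (nat_lit 4) (nat_lit 491) (nat_lit 394) (nat_lit 315)) (XT.lf (nat_lit 0) (nat_lit 25263631612) (nat_lit 152) (nat_lit 37687651380) (nat_lit 0) (nat_lit 12836007132) (nat_lit 13) (nat_lit 5) (nat_lit 15) (nat_lit 4) (nat_lit 13) (nat_lit 4) (nat_lit 492) (nat_lit 394) (nat_lit 314))))) (XT.nd (nat_lit 234) (nat_lit 152) (nat_lit 0) (XT.nd (nat_lit 78) (nat_lit 76) (nat_lit 0) (XT.lf (nat_lit 0) (nat_lit 38035335624) (nat_lit 152) (nat_lit 15338324742) (nat_lit 0) (nat_lit 25595524693) (nat_lit 13) (nat_lit 5) (nat_lit 15) (nat_lit 4) (nat_lit 13) (nat_lit 4) (nat_lit 493) (nat_lit 394) (nat_lit 313)) (XT.nd (nat_lit 78) (nat_lit 0) (nat_lit 0) (XT.lf (nat_lit 0) (nat_lit 8352049743) (nat_lit 76) (nat_lit 43202059236) (nat_lit 76) (nat_lit 30750642160) (nat_lit 12) (nat_lit 4) (nat_lit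 13) (nat_lit 5) (nat_lit 13) (nat_lit 4) (nat_lit 494) (nat_lit 394) (nat_lit 312)) (XT.lf (nat_lit 0) (nat_lit 33716424142) (nat_lit 76) (nat_lit 32270615778) (nat_lit 76) (nat_lit 19808145232) (nat_lit 12) (nat_lit 4) (nat_lit 13) (nat_lit 5) (nat_lit 13) (nat_lit 4) (nat_lit 495) (nat_lit 394) (nat_lit 311)))) (XT.nd (nat_lit 156) (nat_lit 76) (nat_lit 0) (XT.nd (nat_lit 78) (nat_lit 76) (nat_lit 0) (XT.lf (nat_lit 0) (nat_lit 60308035537) (nat_lit 76) (nat_lit 20813064698) (nat_lit 76) (nat_lit 8340067037) (nat_lit 12) (nat_lit 4) (nat_lit 13) (nat_lit 5) (nat_lit 13) (nat_lit 4) (nat_lit 496) (nat_lit 394) (nat_lit 310)) (XT.lf (nat_lit 0) (nat_lit 3563085668) (nat_lit 152) (nat_lit 5178697865) (nat_lit 76) (nat_lit 84566769039) (nat_lit 11) (nat_lit 5) (nat_lit 13) (nat_lit 5) (nat_lit 12) (nat_lit 4) (nat_lit 497) (nat_lit 394) (nat_lit 309))) (XT.nd (nat_lit 78) (nat_lit 0) (nat_lit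 0) (XT.lf (nat_lit 0) (nat_lit 16150469501) (nat_lit 152) (nat_lit 76919752277) (nat_lit 0) (nat_lit 4252781989) (nat_lit 10) (nat_lit 5) (nat_lit 12) (nat_lit 4) (nat_lit 10) (nat_lit 4) (nat_lit 498) (nat_lit 394) (nat_lit 308)) (XT.lf (nat_lit 0) (nat_lit 29580786568) (nat_lit 152) (nat_lit 54272274831) (nat_lit 0) (nat_lit 17674438372) (nat_lit 10) (nat_lit 5) (nat_lit 12) (nat_lit 4) (nat_lit 10) (nat_lit 4) (nat_lit 499) (nat_lit 394) (nat_lit 307))))))) (XT.nd (nat_lit 1092) (nat_lit 152) (nat_lit 0) (XT.nd (nat_lit 546) (nat_lit 76) (nat_lit 0) (XT.nd (nat_lit 234) (nat_lit 152) (nat_lit 0) (XT.nd (nat_lit 78) (nat_lit 76) (nat_lit 0) (XT.lf (nat_lit 0) (nat_lit 43664633387) (nat_lit 152) (nat_lit 30528450001) (nat_lit 0) (nat_lit 31750036921) (nat_lit 10) (nat_lit 5) (nat_lit 12) (nat_lit 4) (nat_lit 10) (nat_lit 4) (nat_lit 500) (nat_lit 394) (nat_lit 306)) (XT.nd (nat_lit 78) (nat_lit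 76) (nat_lit 0) (XT.lf (nat_lit 0) (nat_lit 58435542928) (nat_lit 152) (nat_lit 5631744870) (nat_lit 0) (nat_lit 46513090966) (nat_lit 10) (nat_lit 5) (nat_lit 12) (nat_lit 4) (nat_lit 10) (nat_lit 4) (nat_lit 501) (nat_lit 394) (nat_lit 305)) (XT.lf (nat_lit 0) (nat_lit 21154184441) (nat_lit 76) (nat_lit 53104775683) (nat_lit 76) (nat_lit 41174842298) (nat_lit 9) (nat_lit 4) (nat_lit 10) (nat_lit 5) (nat_lit 10) (nat_lit 4) (nat_lit 502) (nat_lit 394) (nat_lit 304)))) (XT.nd (nat_lit 156) (nat_lit 152) (nat_lit 0) (XT.nd (nat_lit 78) (nat_lit 0) (nat_lit 0) (XT.lf (nat_lit 0) (nat_lit 49442781648) (nat_lit 76) (nat_lit 41510103836) (nat_lit 76) (nat_lit 29573045285) (nat_lit 9) (nat_lit 4) (nat_lit 10) (nat_lit 5) (nat_lit 10) (nat_lit 4) (nat_lit 503) (nat_lit 394) (nat_lit 303)) (XT.lf (nat_lit 0) (nat_lit 79115189631) (nat_lit 76) (nat_lit 29351042220) (nat_lit 76) (nat_lit 17407197797)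 (nat_lit 9) (nat_lit 4) (nat_lit 10) (nat_lit 5) (nat_lit 10) (nat_lit 4) (nat_lit 504) (nat_lit 394) (nat_lit 302))) (XT.nd (nat_lit 78) (nat_lit 152) (nat_lit 0) (XT.lf (nat_lit 0) (nat_lit 110242056983) (nat_lit 76) (nat_lit 16598640689) (nat_lit 76) (nat_lit 4648333530) (nat_lit 9) (nat_lit 4) (nat_lit 10) (nat_lit 5) (nat_lit 10) (nat_lit 4) (nat_lit 505) (nat_lit 394) (nat_lit 301)) (XT.lf (nat_lit 0) (nat_lit 5552751033) (nat_lit 76) (nat_lit 2988328565) (nat_lit 152) (nat_lit 128833873558) (nat_lit 7) (nat_lit 5) (nat_lit 8) (nat_lit 5) (nat_lit 9) (nat_lit 4) (nat_lit 506) (nat_lit 394) (nat_lit 300))))) (XT.nd (nat_lit 234) (nat_lit 76) (nat_lit 0) (XT.nd (nat_lit 78) (nat_lit 0) (nat_lit 0) (XT.lf (nat_lit 0) (nat_lit 22761875868) (nat_lit 152) (nat_lit 109393892863) (nat_lit 0) (nat_lit 11369186309) (nat_lit 7) (nat_lit 5) (nat_lit 9) (nat_lit 4) (nat_lit 7) (nat_lit 4) (nat_lit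 507) (nat_lit 394) (nat_lit 299)) (XT.nd (nat_lit 78) (nat_lit 0) (nat_lit 0) (XT.lf (nat_lit 0) (nat_lit 37729307302) (nat_lit 152) (nat_lit 85920069389) (nat_lit 0) (nat_lit 26331300836) (nat_lit 7) (nat_lit 5) (nat_lit 9) (nat_lit 4) (nat_lit 7) (nat_lit 4) (nat_lit 508) (nat_lit 394) (nat_lit 298)) (XT.lf (nat_lit 0) (nat_lit 53432354460) (nat_lit 152) (nat_lit 61298185463) (nat_lit 0) (nat_lit 42029284271) (nat_lit 7) (nat_lit 5) (nat_lit 9) (nat_lit 4) (nat_lit 7) (nat_lit 4) (nat_lit 509) (nat_lit 394) (nat_lit 297)))) (XT.nd (nat_lit 156) (nat_lit 76) (nat_lit 0) (XT.nd (nat_lit 78) (nat_lit 0) (nat_lit 0) (XT.lf (nat_lit 0) (nat_lit 69908405549) (nat_lit 152) (nat_lit 35469617551) (nat_lit 0) (nat_lit 58500512767) (nat_lit 7) (nat_lit 5) (nat_lit 9) (nat_lit 4) (nat_lit 7) (nat_lit 4) (nat_lit 510) (nat_lit 394) (nat_lit 296)) (XT.lf (nat_lit 0) (nat_lit 87196689262) (nat_lit 152)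 (nat_lit 8372869063) (nat_lit 0) (nat_lit 75784203535) (nat_lit 7) (nat_lit 5) (nat_lit 9) (nat_lit 4) (nat_lit 7) (nat_lit 4) (nat_lit 511) (nat_lit 394) (nat_lit 295))) (XT.nd (nat_lit 78) (nat_lit 0) (nat_lit 0) (XT.lf (nat_lit 0) (nat_lit 20719737052) (nat_lit 76) (nat_lit 84942124290) (nat_lit 76) (nat_lit 73525264329) (nat_lit 6) (nat_lit 4) (nat_lit 7) (nat_lit 5) (nat_lit 7) (nat_lit 4) (nat_lit 512) (nat_lit 394) (nat_lit 294)) (XT.lf (nat_lit 0) (nat_lit 51535876909) (nat_lit 76) (nat_lit 73645379333) (nat_lit 76) (nat_lit 62224353435) (nat_lit 6) (nat_lit 4) (nat_lit 7) (nat_lit 5) (nat_lit 7) (nat_lit 4) (nat_lit 513) (nat_lit 394) (nat_lit 293)))))) (XT.nd (nat_lit 546) (nat_lit 0) (nat_lit 0) (XT.nd (nat_lit 234) (nat_lit 152) (nat_lit 0) (XT.nd (nat_lit 78) (nat_lit 0) (nat_lit 0) (XT.lf (nat_lit 0) (nat_lit 83872077405) (nat_lit 76) (nat_lit 61794225032) (nat_lit 76) (nat_lit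 50369231575) (nat_lit 6) (nat_lit 4) (nat_lit 7) (nat_lit 5) (nat_lit 7) (nat_lit 4) (nat_lit 514) (nat_lit 394) (nat_lit 292)) (XT.nd (nat_lit 78) (nat_lit 0) (nat_lit 0) (XT.lf (nat_lit 0) (nat_lit 117805329495) (nat_lit 76) (nat_lit 49360444353) (nat_lit 76) (nat_lit 37931672269) (nat_lit 6) (nat_lit 4) (nat_lit 7) (nat_lit 5) (nat_lit 7) (nat_lit 4) (nat_lit 515) (nat_lit 394) (nat_lit 291)) (XT.lf (nat_lit 0) (nat_lit 153416426635) (nat_lit 76) (nat_lit 36314433056) (nat_lit 76) (nat_lit 24882062279) (nat_lit 6) (nat_lit 4) (nat_lit 7) (nat_lit 5) (nat_lit 7) (nat_lit 4) (nat_lit 516) (nat_lit 394) (nat_lit 290)))) (XT.nd (nat_lit 156) (nat_lit 76) (nat_lit 0) (XT.nd (nat_lit 78) (nat_lit 76) (nat_lit 0) (XT.lf (nat_lit 0) (nat_lit 190790157152) (nat_lit 76) (nat_lit 22625129210) (nat_lit 76) (nat_lit 11189331106) (nat_lit 6) (nat_lit 4) (nat_lit 7) (nat_lit 5) (nat_lit 7) (nat_lit 4)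 (nat_lit 517) (nat_lit 394) (nat_lit 289)) (XT.lf (nat_lit 0) (nat_lit 3077371200) (nat_lit 152) (nat_lit 5130451263) (nat_lit 76) (nat_lit 226886018148) (nat_lit 5) (nat_lit 5) (nat_lit 7) (nat_lit 5) (nat_lit 6) (nat_lit 4) (nat_lit 518) (nat_lit 394) (nat_lit 288))) (XT.nd (nat_lit 78) (nat_lit 0) (nat_lit 0) (XT.lf (nat_lit 0) (nat_lit 18190593141) (nat_lit 152) (nat_lit 220589011857) (nat_lit 0) (nat_lit 7293287512) (nat_lit 4) (nat_lit 5) (nat_lit 6) (nat_lit 4) (nat_lit 4) (nat_lit 4) (nat_lit 519) (nat_lit 394) (nat_lit 287)) (XT.lf (nat_lit 0) (nat_lit 34274133936) (nat_lit 152) (nat_lit 199942021690) (nat_lit 0) (nat_lit 23374008637) (nat_lit 4) (nat_lit 5) (nat_lit 6) (nat_lit 4) (nat_lit 4) (nat_lit 4) (nat_lit 520) (nat_lit 394) (nat_lit 286))))) (XT.nd (nat_lit 234) (nat_lit 0) (nat_lit 0) (XT.nd (nat_lit 78) (nat_lit 0) (nat_lit 0) (XT.lf (nat_lit 0) (nat_lit 51154034860) (nat_lit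 152) (nat_lit 178278431568) (nat_lit 0) (nat_lit 40251224162) (nat_lit 4) (nat_lit 5) (nat_lit 6) (nat_lit 4) (nat_lit 4) (nat_lit 4) (nat_lit 521) (nat_lit 394) (nat_lit 285)) (XT.nd (nat_lit 78) (nat_lit 0) (nat_lit 0) (XT.lf (nat_lit 0) (nat_lit 68870486154) (nat_lit 152) (nat_lit 155546661515) (nat_lit 0) (nat_lit 57965117931) (nat_lit 4) (nat_lit 5) (nat_lit 6) (nat_lit 4) (nat_lit 4) (nat_lit 4) (nat_lit 522) (nat_lit 394) (nat_lit 284)) (XT.lf (nat_lit 0) (nat_lit 87465669843) (nat_lit 152) (nat_lit 131692588268) (nat_lit 0) (nat_lit 76557865884) (nat_lit 4) (nat_lit 5) (nat_lit 6) (nat_lit 4) (nat_lit 4) (nat_lit 4) (nat_lit 523) (nat_lit 394) (nat_lit 283)))) (XT.nd (nat_lit 156) (nat_lit 0) (nat_lit 0) (XT.nd (nat_lit 78) (nat_lit 0) (nat_lit 0) (XT.lf (nat_lit 0) (nat_lit 106983860176) (nat_lit 152) (nat_lit 106659416416) (nat_lit 0) (nat_lit 96073736467) (nat_lit 4) (nat_lit 5)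 (nat_lit 6) (nat_lit 4) (nat_lit 4) (nat_lit 4) (nat_lit 524) (nat_lit 394) (nat_lit 282)) (XT.lf (nat_lit 0) (nat_lit 127471529033) (nat_lit 152) (nat_lit 80387543167) (nat_lit 0) (nat_lit 116559196039) (nat_lit 4) (nat_lit 5) (nat_lit 6) (nat_lit 4) (nat_lit 4) (nat_lit 4) (nat_lit 525) (nat_lit 394) (nat_lit 281))) (XT.nd (nat_lit 78) (nat_lit 0) (nat_lit 0) (XT.lf (nat_lit 0) (nat_lit 148977456579) (nat_lit 152) (nat_lit 52814416443) (nat_lit 0) (nat_lit 138063019503) (nat_lit 4) (nat_lit 5) (nat_lit 6) (nat_lit 4) (nat_lit 4) (nat_lit 4) (nat_lit 526) (nat_lit 394) (nat_lit 280)) (XT.lf (nat_lit 0) (nat_lit 171552847403) (nat_lit 152) (nat_lit 23874385942) (nat_lit 0) (nat_lit 160636406441) (nat_lit 4) (nat_lit 5) (nat_lit 6) (nat_lit 4) (nat_lit 4) (nat_lit 4) (nat_lit 527) (nat_lit 394) (nat_lit 279))))))))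
noncomputable def xc81 : XT := (XT.nd (nat_lit 54132) (nat_lit 0) (nat_lit 3344) (XT.nd (nat_lit 1092) (nat_lit 76) (nat_lit 0) (XT.nd (nat_lit 546) (nat_lit 0) (nat_lit 0) (XT.nd (nat_lit 234) (nat_lit 0) (nat_lit 0) (XT.nd (nat_lit 78) (nat_lit 0) (nat_lit 0) (XT.lf (nat_lit 0) (nat_lit 6716420573) (nat_lit 76) (nat_lit 188639894010) (nat_lit 76) (nat_lit 177721544584) (nat_lit 3) (nat_lit 4) (nat_lit 4) (nat_lit 5) (nat_lit 4) (nat_lit 4) (nat_lit 528) (nat_lit 394) (nat_lit 278)) (XT.nd (nat_lit 78) (nat_lit 0) (nat_lit 0) (XT.lf (nat_lit 0) (nat_lit 39654619802) (nat_lit 76) (nat_lit 181094196872) (nat_lit 76) (nat_lit 170174029861) (nat_lit 3) (nat_lit 4) (nat_lit 4) (nat_lit 5) (nat_lit 4) (nat_lit 4) (nat_lit 529) (nat_lit 394) (nat_lit 277)) (XT.lf (nat_lit 0) (nat_lit 74229241009) (nat_lit 76) (nat_lit 173176500263) (nat_lit 76) (nat_lit 162254602220) (nat_lit 3) (nat_lit 4) (nat_lit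 4) (nat_lit 5) (nat_lit 4) (nat_lit 4) (nat_lit 530) (nat_lit 394) (nat_lit 276)))) (XT.nd (nat_lit 156) (nat_lit 0) (nat_lit 0) (XT.nd (nat_lit 78) (nat_lit 0) (nat_lit 0) (XT.lf (nat_lit 0) (nat_lit 110522604721) (nat_lit 76) (nat_lit 164867952525) (nat_lit 76) (nat_lit 153944405879) (nat_lit 3) (nat_lit 4) (nat_lit 4) (nat_lit 5) (nat_lit 4) (nat_lit 4) (nat_lit 531) (nat_lit 394) (nat_lit 275)) (XT.lf (nat_lit 0) (nat_lit 148621123708) (nat_lit 76) (nat_lit 156148771401) (nat_lit 76) (nat_lit 145223654657) (nat_lit 3) (nat_lit 4) (nat_lit 4) (nat_lit 5) (nat_lit 4) (nat_lit 4) (nat_lit 532) (nat_lit 394) (nat_lit 274))) (XT.nd (nat_lit 78) (nat_lit 0) (nat_lit 0) (XT.lf (nat_lit 0) (nat_lit 188615508730) (nat_lit 76) (nat_lit 146998196936) (nat_lit 76) (nat_lit 136071584861) (nat_lit 3) (nat_lit 4) (nat_lit 4) (nat_lit 5) (nat_lit 4) (nat_lit 4) (nat_lit 533) (nat_lit 394) (nat_lit 273))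 (XT.lf (nat_lit 0) (nat_lit 230600984513) (nat_lit 76) (nat_lit 137394442048) (nat_lit 76) (nat_lit 126466405848) (nat_lit 3) (nat_lit 4) (nat_lit 4) (nat_lit 5) (nat_lit 4) (nat_lit 4) (nat_lit 534) (nat_lit 394) (nat_lit 272))))) (XT.nd (nat_lit 234) (nat_lit 0) (nat_lit 0) (XT.nd (nat_lit 78) (nat_lit 0) (nat_lit 0) (XT.lf (nat_lit 0) (nat_lit 274677516476) (nat_lit 76) (nat_lit 127314640655) (nat_lit 76) (nat_lit 116385248145) (nat_lit 3) (nat_lit 4) (nat_lit 4) (nat_lit 5) (nat_lit 4) (nat_lit 4) (nat_lit 535) (nat_lit 394) (nat_lit 271)) (XT.nd (nat_lit 78) (nat_lit 0) (nat_lit 0) (XT.lf (nat_lit 0) (nat_lit 320950048742) (nat_lit 76) (nat_lit 116734793228) (nat_lit 76) (nat_lit 105804108995) (nat_lit 3) (nat_lit 4) (nat_lit 4) (nat_lit 5) (nat_lit 4) (nat_lit 4) (nat_lit 536) (nat_lit 394) (nat_lit 270)) (XT.lf (nat_lit 0) (nat_lit 369528754008) (nat_lit 76) (nat_lit 105629709656) (nat_lit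 76) (nat_lit 94697795210) (nat_lit 3) (nat_lit 4) (nat_lit 4) (nat_lit 5) (nat_lit 4) (nat_lit 4) (nat_lit 537) (nat_lit 394) (nat_lit 269)))) (XT.nd (nat_lit 156) (nat_lit 0) (nat_lit 0) (XT.nd (nat_lit 78) (nat_lit 0) (nat_lit 0) (XT.lf (nat_lit 0) (nat_lit 420529295856) (nat_lit 76) (nat_lit 93972949262) (nat_lit 76) (nat_lit 83039863185) (nat_lit 3) (nat_lit 4) (nat_lit 4) (nat_lit 5) (nat_lit 4) (nat_lit 4) (nat_lit 538) (nat_lit 394) (nat_lit 268)) (XT.lf (nat_lit 0) (nat_lit 474073104150) (nat_lit 76) (nat_lit 81736757856) (nat_lit 76) (nat_lit 70802555940) (nat_lit 3) (nat_lit 4) (nat_lit 4) (nat_lit 5) (nat_lit 4) (nat_lit 4) (nat_lit 539) (nat_lit 394) (nat_lit 267))) (XT.nd (nat_lit 78) (nat_lit 0) (nat_lit 0) (XT.lf (nat_lit 0) (nat_lit 530287664146) (nat_lit 76) (nat_lit 68892001648) (nat_lit 76) (nat_lit 57956737028) (nat_lit 3) (nat_lit 4) (nat_lit 4) (nat_lit 5) (nat_lit 4)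 (nat_lit 4) (nat_lit 540) (nat_lit 394) (nat_lit 266)) (XT.lf (nat_lit 0) (nat_lit 589306820035) (nat_lit 76) (nat_lit 55408097885) (nat_lit 76) (nat_lit 44471821166) (nat_lit 3) (nat_lit 4) (nat_lit 4) (nat_lit 5) (nat_lit 4) (nat_lit 4) (nat_lit 541) (nat_lit 394) (nat_lit 265)))))) (XT.nd (nat_lit 52494) (nat_lit 0) (nat_lit 8360) (XT.nd (nat_lit 52182) (nat_lit 0) (nat_lit 11400) (XT.nd (nat_lit 78) (nat_lit 76) (nat_lit 0) (XT.lf (nat_lit 0) (nat_lit 651271093617) (nat_lit 76) (nat_lit 41252942035) (nat_lit 76) (nat_lit 30315701413) (nat_lit 3) (nat_lit 4) (nat_lit 4) (nat_lit 5) (nat_lit 4) (nat_lit 4) (nat_lit 542) (nat_lit 394) (nat_lit 264)) (XT.nd (nat_lit 78) (nat_lit 76) (nat_lit 0) (XT.lf (nat_lit 0) (nat_lit 716328018876) (nat_lit 76) (nat_lit 26392831346) (nat_lit 76) (nat_lit 15454672720) (nat_lit 3) (nat_lit 4) (nat_lit 4) (nat_lit 5) (nat_lit 4) (nat_lit 4) (nat_lit 543) (nat_lit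 394) (nat_lit 263)) (XT.lf (nat_lit 0) (nat_lit 141954651) (nat_lit 152) (nat_lit 10648025880) (nat_lit 76) (nat_lit 784488134532) (nat_lit 2) (nat_lit 5) (nat_lit 4) (nat_lit 5) (nat_lit 3) (nat_lit 4) (nat_lit 544) (nat_lit 394) (nat_lit 262)))) (XT.nd (nat_lit 156) (nat_lit 608) (nat_lit 0) (XT.nd (nat_lit 78) (nat_lit 532) (nat_lit 0) (XT.lf (nat_lit 0) (nat_lit 2689330154) (nat_lit 380) (nat_lit 338668006) (nat_lit 380) (nat_lit 338668006) (nat_lit 167) (nat_lit 4) (nat_lit 172) (nat_lit 5) (nat_lit 172) (nat_lit 4) (nat_lit 410) (nat_lit 395) (nat_lit 395)) (XT.lf (nat_lit 0) (nat_lit 2606788621) (nat_lit 532) (nat_lit 3626903788) (nat_lit 0) (nat_lit 561504421) (nat_lit 160) (nat_lit 5) (nat_lit 167) (nat_lit 4) (nat_lit 160) (nat_lit 4) (nat_lit 411) (nat_lit 395) (nat_lit 394))) (XT.nd (nat_lit 78) (nat_lit 76) (nat_lit 0) (XT.lf (nat_lit 0) (nat_lit 959536734) (nat_lit 532) (nat_lit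 4949745795) (nat_lit 532) (nat_lit 956571880) (nat_lit 153) (nat_lit 4) (nat_lit 160) (nat_lit 5) (nat_lit 160) (nat_lit 4) (nat_lit 412) (nat_lit 395) (nat_lit 393)) (XT.lf (nat_lit 0) (nat_lit 2251837095) (nat_lit 608) (nat_lit 1232040931) (nat_lit 76) (nat_lit 3459707689) (nat_lit 152) (nat_lit 5) (nat_lit 160) (nat_lit 5) (nat_lit 153) (nat_lit 4) (nat_lit 413) (nat_lit 395) (nat_lit 392))))) (XT.nd (nat_lit 234) (nat_lit 1672) (nat_lit 0) (XT.nd (nat_lit 78) (nat_lit 760) (nat_lit 0) (XT.lf (nat_lit 0) (nat_lit 3626597798) (nat_lit 608) (nat_lit 1857157404) (nat_lit 684) (nat_lit 1545990068) (nat_lit 144) (nat_lit 5) (nat_lit 152) (nat_lit 5) (nat_lit 153) (nat_lit 4) (nat_lit 414) (nat_lit 395) (nat_lit 391)) (XT.nd (nat_lit 78) (nat_lit 0) (nat_lit 0) (XT.lf (nat_lit 0) (nat_lit 1519993638) (nat_lit 684) (nat_lit 67125743) (nat_lit 760) (nat_lit 5537486217) (nat_lit 134) (nat_lit 5)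 (nat_lit 143) (nat_lit 5) (nat_lit 144) (nat_lit 5) (nat_lit 415) (nat_lit 395) (nat_lit 390)) (XT.lf (nat_lit 0) (nat_lit 4758425433) (nat_lit 760) (nat_lit 626460652) (nat_lit 76) (nat_lit 1841456454) (nat_lit 134) (nat_lit 5) (nat_lit 144) (nat_lit 5) (nat_lit 135) (nat_lit 4) (nat_lit 416) (nat_lit 395) (nat_lit 389)))) (XT.nd (nat_lit 156) (nat_lit 456) (nat_lit 0) (XT.nd (nat_lit 78) (nat_lit 380) (nat_lit 0) (XT.lf (nat_lit 0) (nat_lit 656475347) (nat_lit 836) (nat_lit 2751350429) (nat_lit 76) (nat_lit 3928543975) (nat_lit 123) (nat_lit 5) (nat_lit 134) (nat_lit 5) (nat_lit 124) (nat_lit 5) (nat_lit 417) (nat_lit 395) (nat_lit 388)) (XT.lf (nat_lit 0) (nat_lit 2514441501) (nat_lit 380) (nat_lit 1245933033) (nat_lit 456) (nat_lit 3694254971) (nat_lit 118) (nat_lit 5) (nat_lit 123) (nat_lit 5) (nat_lit 124) (nat_lit 5) (nat_lit 418) (nat_lit 395) (nat_lit 387))) (XT.nd (nat_lit 78) (nat_lit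 76) (nat_lit 0) (XT.lf (nat_lit 0) (nat_lit 401417861) (nat_lit 380) (nat_lit 6548177551) (nat_lit 456) (nat_lit 632762718) (nat_lit 113) (nat_lit 5) (nat_lit 118) (nat_lit 5) (nat_lit 119) (nat_lit 4) (nat_lit 419) (nat_lit 395) (nat_lit 386)) (XT.lf (nat_lit 0) (nat_lit 2467095284) (nat_lit 456) (nat_lit 1752096401) (nat_lit 76) (nat_lit 3496926228) (nat_lit 112) (nat_lit 5) (nat_lit 118) (nat_lit 5) (nat_lit 113) (nat_lit 5) (nat_lit 420) (nat_lit 395) (nat_lit 385))))))) (XT.nd (nat_lit 1092) (nat_lit 2052) (nat_lit 0) (XT.nd (nat_lit 546) (nat_lit 1292) (nat_lit 0) (XT.nd (nat_lit 234) (nat_lit 912) (nat_lit 0) (XT.nd (nat_lit 78) (nat_lit 380) (nat_lit 0) (XT.lf (nat_lit 0) (nat_lit 3911271372) (nat_lit 380) (nat_lit 1719488927) (nat_lit 456) (nat_lit 2228836521) (nat_lit 107) (nat_lit 5) (nat_lit 112) (nat_lit 5) (nat_lit 113) (nat_lit 5) (nat_lit 421) (nat_lit 395) (nat_lit 384)) (XT.nd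 (nat_lit 78) (nat_lit 0) (nat_lit 0) (XT.lf (nat_lit 0) (nat_lit 856173215) (nat_lit 380) (nat_lit 6229424762) (nat_lit 76) (nat_lit 926766020) (nat_lit 102) (nat_lit 5) (nat_lit 107) (nat_lit 5) (nat_lit 103) (nat_lit 5) (nat_lit 422) (nat_lit 395) (nat_lit 383)) (XT.lf (nat_lit 0) (nat_lit 3990860455) (nat_lit 380) (nat_lit 454447562) (nat_lit 76) (nat_lit 3727164501) (nat_lit 102) (nat_lit 5) (nat_lit 107) (nat_lit 5) (nat_lit 103) (nat_lit 5) (nat_lit 423) (nat_lit 395) (nat_lit 382)))) (XT.nd (nat_lit 156) (nat_lit 304) (nat_lit 0) (XT.nd (nat_lit 78) (nat_lit 304) (nat_lit 0) (XT.lf (nat_lit 0) (nat_lit 5640236877) (nat_lit 304) (nat_lit 1610275768) (nat_lit 380) (nat_lit 1091706510) (nat_lit 98) (nat_lit 5) (nat_lit 102) (nat_lit 5) (nat_lit 103) (nat_lit 5) (nat_lit 424) (nat_lit 395) (nat_lit 381)) (XT.lf (nat_lit 0) (nat_lit 2049676936) (nat_lit 304) (nat_lit 5082720903) (nat_lit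 76) (nat_lit 1388120798) (nat_lit 94) (nat_lit 5) (nat_lit 98) (nat_lit 5) (nat_lit 95) (nat_lit 5) (nat_lit 425) (nat_lit 395) (nat_lit 380))) (XT.nd (nat_lit 78) (nat_lit 0) (nat_lit 0) (XT.lf (nat_lit 0) (nat_lit 1109458033) (nat_lit 304) (nat_lit 4176633062) (nat_lit 380) (nat_lit 3422052853) (nat_lit 90) (nat_lit 5) (nat_lit 94) (nat_lit 5) (nat_lit 95) (nat_lit 5) (nat_lit 426) (nat_lit 395) (nat_lit 379)) (XT.lf (nat_lit 0) (nat_lit 7636254379) (nat_lit 304) (nat_lit 1021709895) (nat_lit 380) (nat_lit 248540713) (nat_lit 90) (nat_lit 5) (nat_lit 94) (nat_lit 5) (nat_lit 95) (nat_lit 5) (nat_lit 427) (nat_lit 395) (nat_lit 378))))) (XT.nd (nat_lit 234) (nat_lit 456) (nat_lit 0) (XT.nd (nat_lit 78) (nat_lit 532) (nat_lit 0) (XT.lf (nat_lit 0) (nat_lit 2996919869) (nat_lit 304) (nat_lit 3801178647) (nat_lit 76) (nat_lit 2313712902) (nat_lit 86) (nat_lit 5) (nat_lit 90) (nat_lit 5) (nat_lit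 87) (nat_lit 5) (nat_lit 428) (nat_lit 395) (nat_lit 377)) (XT.nd (nat_lit 78) (nat_lit 304) (nat_lit 0) (XT.lf (nat_lit 0) (nat_lit 2858464925) (nat_lit 228) (nat_lit 3514500060) (nat_lit 304) (nat_lit 2955412681) (nat_lit 83) (nat_lit 5) (nat_lit 86) (nat_lit 5) (nat_lit 87) (nat_lit 5) (nat_lit 429) (nat_lit 395) (nat_lit 376)) (XT.lf (nat_lit 0) (nat_lit 281511916) (nat_lit 228) (nat_lit 33224294) (nat_lit 304) (nat_lit 9242567718) (nat_lit 79) (nat_lit 5) (nat_lit 82) (nat_lit 5) (nat_lit 83) (nat_lit 5) (nat_lit 430) (nat_lit 395) (nat_lit 375)))) (XT.nd (nat_lit 156) (nat_lit 228) (nat_lit 0) (XT.nd (nat_lit 78) (nat_lit 228) (nat_lit 0) (XT.lf (nat_lit 0) (nat_lit 3713431639) (nat_lit 304) (nat_lit 2457172800) (nat_lit 76) (nat_lit 3621458723) (nat_lit 79) (nat_lit 5) (nat_lit 83) (nat_lit 5) (nat_lit 80) (nat_lit 5) (nat_lit 431) (nat_lit 395) (nat_lit 374)) (XT.lf (nat_lit 0) (nat_lit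 4706462805) (nat_lit 228) (nat_lit 2550997738) (nat_lit 304) (nat_lit 2782355734) (nat_lit 76) (nat_lit 5) (nat_lit 79) (nat_lit 5) (nat_lit 80) (nat_lit 5) (nat_lit 432) (nat_lit 395) (nat_lit 373))) (XT.nd (nat_lit 78) (nat_lit 0) (nat_lit 0) (XT.lf (nat_lit 0) (nat_lit 651592762) (nat_lit 228) (nat_lit 8401884398) (nat_lit 76) (nat_lit 1246244358) (nat_lit 73) (nat_lit 5) (nat_lit 76) (nat_lit 5) (nat_lit 74) (nat_lit 5) (nat_lit 433) (nat_lit 395) (nat_lit 372)) (XT.lf (nat_lit 0) (nat_lit 4201214467) (nat_lit 228) (nat_lit 1129830837) (nat_lit 76) (nat_lit 5237444371) (nat_lit 73) (nat_lit 5) (nat_lit 76) (nat_lit 5) (nat_lit 74) (nat_lit 5) (nat_lit 434) (nat_lit 395) (nat_lit 371)))))) (XT.nd (nat_lit 546) (nat_lit 1064) (nat_lit 0) (XT.nd (nat_lit 234) (nat_lit 380) (nat_lit 0) (XT.nd (nat_lit 78) (nat_lit 380) (nat_lit 0) (XT.lf (nat_lit 0) (nat_lit 6574772054) (nat_lit 228) (nat_lit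 1364631935) (nat_lit 304) (nat_lit 2910759186) (nat_lit 70) (nat_lit 5) (nat_lit 73) (nat_lit 5) (nat_lit 74) (nat_lit 5) (nat_lit 435) (nat_lit 395) (nat_lit 370)) (XT.nd (nat_lit 78) (nat_lit 152) (nat_lit 0) (XT.lf (nat_lit 0) (nat_lit 723409121) (nat_lit 228) (nat_lit 7672828518) (nat_lit 76) (nat_lit 2747749767) (nat_lit 67) (nat_lit 5) (nat_lit 70) (nat_lit 5) (nat_lit 68) (nat_lit 5) (nat_lit 436) (nat_lit 395) (nat_lit 369)) (XT.lf (nat_lit 0) (nat_lit 92687576) (nat_lit 152) (nat_lit 4356669089) (nat_lit 228) (nat_lit 7000384118) (nat_lit 65) (nat_lit 5) (nat_lit 67) (nat_lit 5) (nat_lit 68) (nat_lit 5) (nat_lit 437) (nat_lit 395) (nat_lit 368)))) (XT.nd (nat_lit 156) (nat_lit 152) (nat_lit 0) (XT.nd (nat_lit 78) (nat_lit 228) (nat_lit 0) (XT.lf (nat_lit 0) (nat_lit 8371589304) (nat_lit 152) (nat_lit 32492997) (nat_lit 228) (nat_lit 3364592992) (nat_lit 65) (nat_lit 5) (nat_lit 67)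 (nat_lit 5) (nat_lit 68) (nat_lit 5) (nat_lit 438) (nat_lit 395) (nat_lit 367)) (XT.lf (nat_lit 0) (nat_lit 502442475) (nat_lit 228) (nat_lit 7198817544) (nat_lit 76) (nat_lit 4398761099) (nat_lit 62) (nat_lit 5) (nat_lit 65) (nat_lit 5) (nat_lit 63) (nat_lit 5) (nat_lit 439) (nat_lit 395) (nat_lit 366))) (XT.nd (nat_lit 78) (nat_lit 0) (nat_lit 0) (XT.lf (nat_lit 0) (nat_lit 1128286871) (nat_lit 152) (nat_lit 3314518519) (nat_lit 228) (nat_lit 8002733695) (nat_lit 60) (nat_lit 5) (nat_lit 62) (nat_lit 5) (nat_lit 63) (nat_lit 5) (nat_lit 440) (nat_lit 395) (nat_lit 365)) (XT.lf (nat_lit 0) (nat_lit 8641691877) (nat_lit 228) (nat_lit 2842224493) (nat_lit 76) (nat_lit 1321355706) (nat_lit 60) (nat_lit 5) (nat_lit 63) (nat_lit 5) (nat_lit 61) (nat_lit 4) (nat_lit 441) (nat_lit 395) (nat_lit 364))))) (XT.nd (nat_lit 312) (nat_lit 532) (nat_lit 0) (XT.nd (nat_lit 156) (nat_lit 152) (nat_lit 0)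 (XT.nd (nat_lit 78) (nat_lit 228) (nat_lit 0) (XT.lf (nat_lit 0) (nat_lit 6063431613) (nat_lit 152) (nat_lit 7057453156) (nat_lit 228) (nat_lit 58602552) (nat_lit 58) (nat_lit 5) (nat_lit 60) (nat_lit 5) (nat_lit 61) (nat_lit 4) (nat_lit 442) (nat_lit 395) (nat_lit 363)) (XT.lf (nat_lit 0) (nat_lit 1800177652) (nat_lit 152) (nat_lit 2314185862) (nat_lit 228) (nat_lit 9454802362) (nat_lit 55) (nat_lit 5) (nat_lit 57) (nat_lit 5) (nat_lit 58) (nat_lit 5) (nat_lit 443) (nat_lit 395) (nat_lit 362))) (XT.nd (nat_lit 78) (nat_lit 152) (nat_lit 0) (XT.lf (nat_lit 0) (nat_lit 8580737919) (nat_lit 228) (nat_lit 2741736008) (nat_lit 76) (nat_lit 2651481765) (nat_lit 55) (nat_lit 5) (nat_lit 58) (nat_lit 5) (nat_lit 56) (nat_lit 4) (nat_lit 444) (nat_lit 395) (nat_lit 361)) (XT.lf (nat_lit 0) (nat_lit 6788456714) (nat_lit 152) (nat_lit 6552196186) (nat_lit 228) (nat_lit 1054832286) (nat_lit 53) (nat_lit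 5) (nat_lit 55) (nat_lit 5) (nat_lit 56) (nat_lit 4) (nat_lit 445) (nat_lit 395) (nat_lit 360)))) (XT.nd (nat_lit 156) (nat_lit 304) (nat_lit 0) (XT.nd (nat_lit 78) (nat_lit 0) (nat_lit 0) (XT.lf (nat_lit 0) (nat_lit 1932895275) (nat_lit 152) (nat_lit 1459563384) (nat_lit 228) (nat_lit 11442708960) (nat_lit 50) (nat_lit 5) (nat_lit 52) (nat_lit 5) (nat_lit 53) (nat_lit 5) (nat_lit 446) (nat_lit 395) (nat_lit 359)) (XT.lf (nat_lit 0) (nat_lit 8145632550) (nat_lit 228) (nat_lit 3285400788) (nat_lit 76) (nat_lit 3858997580) (nat_lit 50) (nat_lit 5) (nat_lit 53) (nat_lit 5) (nat_lit 51) (nat_lit 4) (nat_lit 447) (nat_lit 395) (nat_lit 358))) (XT.nd (nat_lit 78) (nat_lit 228) (nat_lit 0) (XT.lf (nat_lit 0) (nat_lit 6886099627) (nat_lit 76) (nat_lit 6312593722) (nat_lit 152) (nat_lit 2565841900) (nat_lit 49) (nat_lit 5) (nat_lit 50) (nat_lit 5) (nat_lit 51) (nat_lit 4) (nat_lit 448) (nat_lit 395)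 (nat_lit 357)) (XT.lf (nat_lit 0) (nat_lit 1303055376) (nat_lit 152) (nat_lit 874817562) (nat_lit 228) (nat_lit 14082751506) (nat_lit 46) (nat_lit 5) (nat_lit 48) (nat_lit 5) (nat_lit 49) (nat_lit 5) (nat_lit 449) (nat_lit 395) (nat_lit 356))))))))
noncomputable def xc82 : XT := (XT.nd (nat_lit 2184) (nat_lit 988) (nat_lit 0) (XT.nd (nat_lit 1092) (nat_lit 760) (nat_lit 0) (XT.nd (nat_lit 546) (nat_lit 456) (nat_lit 0) (XT.nd (nat_lit 234) (nat_lit 456) (nat_lit 0) (XT.nd (nat_lit 78) (nat_lit 152) (nat_lit 0) (XT.lf (nat_lit 0) (nat_lit 7232493762) (nat_lit 228) (nat_lit 4715712919) (nat_lit 76) (nat_lit 4823218817) (nat_lit 46) (nat_lit 5) (nat_lit 49) (nat_lit 5) (nat_lit 47) (nat_lit 4) (nat_lit 450) (nat_lit 395) (nat_lit 355)) (XT.nd (nat_lit 78) (nat_lit 76) (nat_lit 0) (XT.lf (nat_lit 0) (nat_lit 6101505242) (nat_lit 76) (nat_lit 6482836876) (nat_lit 152) (nat_lit 4721207297) (nat_lit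 45) (nat_lit 5) (nat_lit 46) (nat_lit 5) (nat_lit 47) (nat_lit 4) (nat_lit 451) (nat_lit 395) (nat_lit 354)) (XT.lf (nat_lit 0) (nat_lit 342909604) (nat_lit 152) (nat_lit 363589723) (nat_lit 76) (nat_lit 17158808473) (nat_lit 44) (nat_lit 5) (nat_lit 46) (nat_lit 5) (nat_lit 45) (nat_lit 5) (nat_lit 452) (nat_lit 395) (nat_lit 353)))) (XT.nd (nat_lit 156) (nat_lit 228) (nat_lit 0) (XT.nd (nat_lit 78) (nat_lit 76) (nat_lit 0) (XT.lf (nat_lit 0) (nat_lit 5701461779) (nat_lit 228) (nat_lit 7343315035) (nat_lit 76) (nat_lit 5394419394) (nat_lit 42) (nat_lit 5) (nat_lit 45) (nat_lit 5) (nat_lit 43) (nat_lit 4) (nat_lit 453) (nat_lit 395) (nat_lit 352)) (XT.lf (nat_lit 0) (nat_lit 4106470321) (nat_lit 76) (nat_lit 7242084103) (nat_lit 152) (nat_lit 7692200251) (nat_lit 41) (nat_lit 5) (nat_lit 42) (nat_lit 5) (nat_lit 43) (nat_lit 4) (nat_lit 454) (nat_lit 395) (nat_lit 351))) (XT.nd (nat_lit 78)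 (nat_lit 228) (nat_lit 0) (XT.lf (nat_lit 0) (nat_lit 16272749980) (nat_lit 76) (nat_lit 1069462149) (nat_lit 152) (nat_lit 2326974398) (nat_lit 41) (nat_lit 5) (nat_lit 42) (nat_lit 5) (nat_lit 43) (nat_lit 4) (nat_lit 455) (nat_lit 395) (nat_lit 350)) (XT.lf (nat_lit 0) (nat_lit 3367333222) (nat_lit 228) (nat_lit 11567209765) (nat_lit 76) (nat_lit 5383588736) (nat_lit 38) (nat_lit 5) (nat_lit 41) (nat_lit 5) (nat_lit 39) (nat_lit 4) (nat_lit 456) (nat_lit 395) (nat_lit 349))))) (XT.nd (nat_lit 234) (nat_lit 304) (nat_lit 0) (XT.nd (nat_lit 78) (nat_lit 76) (nat_lit 0) (XT.lf (nat_lit 0) (nat_lit 477630841) (nat_lit 76) (nat_lit 8816103309) (nat_lit 152) (nat_lit 11702608865) (nat_lit 37) (nat_lit 5) (nat_lit 38) (nat_lit 5) (nat_lit 39) (nat_lit 4) (nat_lit 457) (nat_lit 395) (nat_lit 348)) (XT.nd (nat_lit 78) (nat_lit 76) (nat_lit 0) (XT.lf (nat_lit 0) (nat_lit 13420091109) (nat_lit 76)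 (nat_lit 2235484888) (nat_lit 152) (nat_lit 6045937751) (nat_lit 37) (nat_lit 5) (nat_lit 38) (nat_lit 5) (nat_lit 39) (nat_lit 4) (nat_lit 458) (nat_lit 395) (nat_lit 347)) (XT.lf (nat_lit 0) (nat_lit 4536836270) (nat_lit 76) (nat_lit 17887676316) (nat_lit 76) (nat_lit 12984986) (nat_lit 36) (nat_lit 4) (nat_lit 37) (nat_lit 5) (nat_lit 37) (nat_lit 4) (nat_lit 459) (nat_lit 395) (nat_lit 346)))) (XT.nd (nat_lit 156) (nat_lit 152) (nat_lit 0) (XT.nd (nat_lit 78) (nat_lit 76) (nat_lit 0) (XT.lf (nat_lit 0) (nat_lit 6243813494) (nat_lit 152) (nat_lit 5160666146) (nat_lit 76) (nat_lit 11794643831) (nat_lit 35) (nat_lit 5) (nat_lit 37) (nat_lit 5) (nat_lit 36) (nat_lit 4) (nat_lit 460) (nat_lit 395) (nat_lit 345)) (XT.lf (nat_lit 0) (nat_lit 8386169635) (nat_lit 76) (nat_lit 4505713569) (nat_lit 152) (nat_lit 11102997481) (nat_lit 34) (nat_lit 5) (nat_lit 35) (nat_lit 5) (nat_lit 36) (nat_lit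 4) (nat_lit 461) (nat_lit 395) (nat_lit 344))) (XT.nd (nat_lit 78) (nat_lit 152) (nat_lit 0) (XT.lf (nat_lit 0) (nat_lit 19952126611) (nat_lit 152) (nat_lit 2179337638) (nat_lit 0) (nat_lit 2694976856) (nat_lit 34) (nat_lit 5) (nat_lit 36) (nat_lit 4) (nat_lit 34) (nat_lit 4) (nat_lit 462) (nat_lit 395) (nat_lit 343)) (XT.lf (nat_lit 0) (nat_lit 1830091557) (nat_lit 152) (nat_lit 13576043748) (nat_lit 76) (nat_lit 10281267097) (nat_lit 32) (nat_lit 5) (nat_lit 34) (nat_lit 5) (nat_lit 33) (nat_lit 4) (nat_lit 463) (nat_lit 395) (nat_lit 342)))))) (XT.nd (nat_lit 546) (nat_lit 380) (nat_lit 0) (XT.nd (nat_lit 234) (nat_lit 228) (nat_lit 0) (XT.nd (nat_lit 78) (nat_lit 76) (nat_lit 0) (XT.lf (nat_lit 0) (nat_lit 442293821) (nat_lit 76) (nat_lit 8258801747) (nat_lit 152) (nat_lit 17886564857) (nat_lit 31) (nat_lit 5) (nat_lit 32) (nat_lit 5) (nat_lit 33) (nat_lit 4) (nat_lit 464) (nat_lit 395)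 (nat_lit 341)) (XT.nd (nat_lit 78) (nat_lit 76) (nat_lit 0) (XT.lf (nat_lit 0) (nat_lit 15540358972) (nat_lit 76) (nat_lit 556875533) (nat_lit 152) (nat_lit 11426620780) (nat_lit 31) (nat_lit 5) (nat_lit 32) (nat_lit 5) (nat_lit 33) (nat_lit 4) (nat_lit 465) (nat_lit 395) (nat_lit 340)) (XT.lf (nat_lit 0) (nat_lit 2767724517) (nat_lit 76) (nat_lit 21209546863) (nat_lit 76) (nat_lit 4523886979) (nat_lit 30) (nat_lit 4) (nat_lit 31) (nat_lit 5) (nat_lit 31) (nat_lit 4) (nat_lit 466) (nat_lit 395) (nat_lit 339)))) (XT.nd (nat_lit 156) (nat_lit 76) (nat_lit 0) (XT.nd (nat_lit 78) (nat_lit 76) (nat_lit 0) (XT.lf (nat_lit 0) (nat_lit 2805603884) (nat_lit 152) (nat_lit 10989474519) (nat_lit 76) (nat_lit 15721684233) (nat_lit 29) (nat_lit 5) (nat_lit 31) (nat_lit 5) (nat_lit 30) (nat_lit 4) (nat_lit 467) (nat_lit 395) (nat_lit 338)) (XT.lf (nat_lit 0) (nat_lit 4475176714) (nat_lit 76) (nat_lit 5899851742)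 (nat_lit 152) (nat_lit 20203138603) (nat_lit 28) (nat_lit 5) (nat_lit 29) (nat_lit 5) (nat_lit 30) (nat_lit 4) (nat_lit 468) (nat_lit 395) (nat_lit 337))) (XT.nd (nat_lit 78) (nat_lit 76) (nat_lit 0) (XT.lf (nat_lit 0) (nat_lit 18505190013) (nat_lit 152) (nat_lit 10714858218) (nat_lit 0) (nat_lit 2463482671) (nat_lit 28) (nat_lit 5) (nat_lit 30) (nat_lit 4) (nat_lit 28) (nat_lit 4) (nat_lit 469) (nat_lit 395) (nat_lit 336)) (XT.lf (nat_lit 0) (nat_lit 5438361624) (nat_lit 76) (nat_lit 21743016345) (nat_lit 76) (nat_lit 5655811418) (nat_lit 27) (nat_lit 4) (nat_lit 28) (nat_lit 5) (nat_lit 28) (nat_lit 4) (nat_lit 470) (nat_lit 395) (nat_lit 335))))) (XT.nd (nat_lit 234) (nat_lit 228) (nat_lit 0) (XT.nd (nat_lit 78) (nat_lit 76) (nat_lit 0) (XT.lf (nat_lit 0) (nat_lit 2313457543) (nat_lit 152) (nat_lit 11387947994) (nat_lit 76) (nat_lit 20338256650) (nat_lit 26) (nat_lit 5) (nat_lit 28) (nat_lit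 5) (nat_lit 27) (nat_lit 4) (nat_lit 471) (nat_lit 395) (nat_lit 334)) (XT.nd (nat_lit 78) (nat_lit 0) (nat_lit 0) (XT.lf (nat_lit 0) (nat_lit 5426598253) (nat_lit 76) (nat_lit 5109207532) (nat_lit 152) (nat_lit 24759584567) (nat_lit 25) (nat_lit 5) (nat_lit 26) (nat_lit 5) (nat_lit 27) (nat_lit 4) (nat_lit 472) (nat_lit 395) (nat_lit 333)) (XT.lf (nat_lit 0) (nat_lit 19386472869) (nat_lit 152) (nat_lit 13269249762) (nat_lit 0) (nat_lit 3947324171) (nat_lit 25) (nat_lit 5) (nat_lit 27) (nat_lit 4) (nat_lit 25) (nat_lit 4) (nat_lit 473) (nat_lit 395) (nat_lit 332)))) (XT.nd (nat_lit 156) (nat_lit 152) (nat_lit 0) (XT.nd (nat_lit 78) (nat_lit 0) (nat_lit 0) (XT.lf (nat_lit 0) (nat_lit 4134582550) (nat_lit 76) (nat_lit 24655393737) (nat_lit 76) (nat_lit 9180596492) (nat_lit 24) (nat_lit 4) (nat_lit 25) (nat_lit 5) (nat_lit 25) (nat_lit 4) (nat_lit 474) (nat_lit 395) (nat_lit 331)) (XT.lf (nat_lit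 0) (nat_lit 22796220541) (nat_lit 76) (nat_lit 16054817678) (nat_lit 76) (nat_lit 546069436) (nat_lit 24) (nat_lit 4) (nat_lit 25) (nat_lit 5) (nat_lit 25) (nat_lit 4) (nat_lit 475) (nat_lit 395) (nat_lit 330))) (XT.nd (nat_lit 78) (nat_lit 0) (nat_lit 0) (XT.lf (nat_lit 0) (nat_lit 1334890258) (nat_lit 76) (nat_lit 6897291588) (nat_lit 152) (nat_lit 32656902986) (nat_lit 22) (nat_lit 5) (nat_lit 23) (nat_lit 5) (nat_lit 24) (nat_lit 4) (nat_lit 476) (nat_lit 395) (nat_lit 329)) (XT.lf (nat_lit 0) (nat_lit 17723141098) (nat_lit 152) (nat_lit 21824684378) (nat_lit 0) (nat_lit 2892781972) (nat_lit 22) (nat_lit 5) (nat_lit 24) (nat_lit 4) (nat_lit 22) (nat_lit 4) (nat_lit 477) (nat_lit 395) (nat_lit 328))))))) (XT.nd (nat_lit 1092) (nat_lit 380) (nat_lit 0) (XT.nd (nat_lit 546) (nat_lit 304) (nat_lit 0) (XT.nd (nat_lit 234) (nat_lit 152) (nat_lit 0) (XT.nd (nat_lit 78) (nat_lit 152) (nat_lit 0)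 (XT.lf (nat_lit 0) (nat_lit 27767391636) (nat_lit 152) (nat_lit 3389277907) (nat_lit 0) (nat_lit 12909100940) (nat_lit 22) (nat_lit 5) (nat_lit 24) (nat_lit 4) (nat_lit 22) (nat_lit 4) (nat_lit 478) (nat_lit 395) (nat_lit 327)) (XT.nd (nat_lit 78) (nat_lit 76) (nat_lit 0) (XT.lf (nat_lit 0) (nat_lit 16429449709) (nat_lit 76) (nat_lit 22108222334) (nat_lit 76) (nat_lit 7223330143) (nat_lit 21) (nat_lit 4) (nat_lit 22) (nat_lit 5) (nat_lit 22) (nat_lit 4) (nat_lit 479) (nat_lit 395) (nat_lit 326)) (XT.lf (nat_lit 0) (nat_lit 2257370418) (nat_lit 152) (nat_lit 10282617590) (nat_lit 76) (nat_lit 34997924535) (nat_lit 20) (nat_lit 5) (nat_lit 22) (nat_lit 5) (nat_lit 21) (nat_lit 4) (nat_lit 480) (nat_lit 395) (nat_lit 325)))) (XT.nd (nat_lit 156) (nat_lit 76) (nat_lit 0) (XT.nd (nat_lit 78) (nat_lit 0) (nat_lit 0) (XT.lf (nat_lit 0) (nat_lit 9854479372) (nat_lit 76) (nat_lit 2237635096) (nat_lit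 152) (nat_lit 37299496396) (nat_lit 19) (nat_lit 5) (nat_lit 20) (nat_lit 5) (nat_lit 21) (nat_lit 4) (nat_lit 481) (nat_lit 395) (nat_lit 324)) (XT.lf (nat_lit 0) (nat_lit 22698525940) (nat_lit 152) (nat_lit 20172027478) (nat_lit 0) (nat_lit 8453445311) (nat_lit 19) (nat_lit 5) (nat_lit 21) (nat_lit 4) (nat_lit 19) (nat_lit 4) (nat_lit 482) (nat_lit 395) (nat_lit 323))) (XT.nd (nat_lit 78) (nat_lit 0) (nat_lit 0) (XT.lf (nat_lit 0) (nat_lit 68409359) (nat_lit 76) (nat_lit 33775055483) (nat_lit 76) (nat_lit 19509131887) (nat_lit 18) (nat_lit 4) (nat_lit 19) (nat_lit 5) (nat_lit 19) (nat_lit 4) (nat_lit 483) (nat_lit 395) (nat_lit 322)) (XT.lf (nat_lit 0) (nat_lit 21963708331) (nat_lit 76) (nat_lit 23894530971) (nat_lit 76) (nat_lit 9608756930) (nat_lit 18) (nat_lit 4) (nat_lit 19) (nat_lit 5) (nat_lit 19) (nat_lit 4) (nat_lit 484) (nat_lit 395) (nat_lit 321))))) (XT.nd (nat_lit 234) (nat_lit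 152) (nat_lit 0) (XT.nd (nat_lit 78) (nat_lit 76) (nat_lit 0) (XT.lf (nat_lit 0) (nat_lit 733353382) (nat_lit 152) (nat_lit 12801304792) (nat_lit 76) (nat_lit 44153249696) (nat_lit 17) (nat_lit 5) (nat_lit 19) (nat_lit 5) (nat_lit 18) (nat_lit 4) (nat_lit 485) (nat_lit 395) (nat_lit 320)) (XT.nd (nat_lit 78) (nat_lit 0) (nat_lit 0) (XT.lf (nat_lit 0) (nat_lit 9013724012) (nat_lit 76) (nat_lit 2369889732) (nat_lit 152) (nat_lit 48622678120) (nat_lit 16) (nat_lit 5) (nat_lit 17) (nat_lit 5) (nat_lit 18) (nat_lit 4) (nat_lit 486) (nat_lit 395) (nat_lit 319)) (XT.lf (nat_lit 0) (nat_lit 22906054363) (nat_lit 152) (nat_lit 30268486417) (nat_lit 0) (nat_lit 9249071766) (nat_lit 16) (nat_lit 5) (nat_lit 18) (nat_lit 4) (nat_lit 16) (nat_lit 4) (nat_lit 487) (nat_lit 395) (nat_lit 318)))) (XT.nd (nat_lit 156) (nat_lit 76) (nat_lit 0) (XT.nd (nat_lit 78) (nat_lit 76) (nat_lit 0) (XT.lf (nat_lit 0) (nat_lit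 35018028175) (nat_lit 152) (nat_lit 8597609103) (nat_lit 0) (nat_lit 21345492235) (nat_lit 16) (nat_lit 5) (nat_lit 18) (nat_lit 4) (nat_lit 16) (nat_lit 4) (nat_lit 488) (nat_lit 395) (nat_lit 317)) (XT.lf (nat_lit 0) (nat_lit 14575158119) (nat_lit 76) (nat_lit 33363773540) (nat_lit 76) (nat_lit 19676424891) (nat_lit 15) (nat_lit 4) (nat_lit 16) (nat_lit 5) (nat_lit 16) (nat_lit 4) (nat_lit 489) (nat_lit 395) (nat_lit 316))) (XT.nd (nat_lit 78) (nat_lit 76) (nat_lit 0) (XT.lf (nat_lit 0) (nat_lit 39157679852) (nat_lit 76) (nat_lit 22469991138) (nat_lit 76) (nat_lit 8768535149) (nat_lit 15) (nat_lit 4) (nat_lit 16) (nat_lit 5) (nat_lit 16) (nat_lit 4) (nat_lit 490) (nat_lit 395) (nat_lit 315)) (XT.lf (nat_lit 0) (nat_lit 2575767865) (nat_lit 152) (nat_lit 8434567428) (nat_lit 76) (nat_lit 62304820383) (nat_lit 14) (nat_lit 5) (nat_lit 16) (nat_lit 5) (nat_lit 15) (nat_lit 4) (nat_lit 491) (nat_lit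 395) (nat_lit 314)))))) (XT.nd (nat_lit 546) (nat_lit 152) (nat_lit 0) (XT.nd (nat_lit 234) (nat_lit 152) (nat_lit 0) (XT.nd (nat_lit 78) (nat_lit 0) (nat_lit 0) (XT.lf (nat_lit 0) (nat_lit 14439811835) (nat_lit 152) (nat_lit 60554869952) (nat_lit 0) (nat_lit 1365823906) (nat_lit 13) (nat_lit 5) (nat_lit 15) (nat_lit 4) (nat_lit 13) (nat_lit 4) (nat_lit 492) (nat_lit 395) (nat_lit 313)) (XT.nd (nat_lit 78) (nat_lit 0) (nat_lit 0) (XT.lf (nat_lit 0) (nat_lit 27200825720) (nat_lit 152) (nat_lit 38226878063) (nat_lit 0) (nat_lit 14115231647) (nat_lit 13) (nat_lit 5) (nat_lit 15) (nat_lit 4) (nat_lit 13) (nat_lit 4) (nat_lit 493) (nat_lit 395) (nat_lit 312)) (XT.lf (nat_lit 0) (nat_lit 40579019099) (nat_lit 152) (nat_lit 14824140136) (nat_lit 0) (nat_lit 27482371554) (nat_lit 13) (nat_lit 5) (nat_lit 15) (nat_lit 4) (nat_lit 13) (nat_lit 4) (nat_lit 494) (nat_lit 395) (nat_lit 311)))) (XT.nd (nat_lit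 156) (nat_lit 76) (nat_lit 0) (XT.nd (nat_lit 78) (nat_lit 0) (nat_lit 0) (XT.lf (nat_lit 0) (nat_lit 10030090156) (nat_lit 76) (nat_lit 44732752471) (nat_lit 76) (nat_lit 31625577812) (nat_lit 12) (nat_lit 4) (nat_lit 13) (nat_lit 5) (nat_lit 13) (nat_lit 4) (nat_lit 495) (nat_lit 395) (nat_lit 310)) (XT.lf (nat_lit 0) (nat_lit 36602662422) (nat_lit 76) (nat_lit 33284708732) (nat_lit 76) (nat_lit 20167508249) (nat_lit 12) (nat_lit 4) (nat_lit 13) (nat_lit 5) (nat_lit 13) (nat_lit 4) (nat_lit 496) (nat_lit 395) (nat_lit 309))) (XT.nd (nat_lit 78) (nat_lit 76) (nat_lit 0) (XT.lf (nat_lit 0) (nat_lit 64466691669) (nat_lit 76) (nat_lit 21282824757) (nat_lit 76) (nat_lit 8156075871) (nat_lit 12) (nat_lit 4) (nat_lit 13) (nat_lit 5) (nat_lit 13) (nat_lit 4) (nat_lit 497) (nat_lit 395) (nat_lit 308)) (XT.lf (nat_lit 0) (nat_lit 4295296085) (nat_lit 152) (nat_lit 4330485629) (nat_lit 76) (nat_lit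 89320481821) (nat_lit 11) (nat_lit 5) (nat_lit 13) (nat_lit 5) (nat_lit 12) (nat_lit 4) (nat_lit 498) (nat_lit 395) (nat_lit 307))))) (XT.nd (nat_lit 312) (nat_lit 76) (nat_lit 0) (XT.nd (nat_lit 156) (nat_lit 0) (nat_lit 0) (XT.nd (nat_lit 78) (nat_lit 0) (nat_lit 0) (XT.lf (nat_lit 0) (nat_lit 17511175250) (nat_lit 152) (nat_lit 79657705703) (nat_lit 0) (nat_lit 4992600690) (nat_lit 10) (nat_lit 5) (nat_lit 12) (nat_lit 4) (nat_lit 10) (nat_lit 4) (nat_lit 499) (nat_lit 395) (nat_lit 306)) (XT.lf (nat_lit 0) (nat_lit 31586666157) (nat_lit 152) (nat_lit 55930617917) (nat_lit 0) (nat_lit 19060236102) (nat_lit 10) (nat_lit 5) (nat_lit 12) (nat_lit 4) (nat_lit 10) (nat_lit 4) (nat_lit 500) (nat_lit 395) (nat_lit 305))) (XT.nd (nat_lit 78) (nat_lit 0) (nat_lit 0) (XT.lf (nat_lit 0) (nat_lit 46349617686) (nat_lit 152) (nat_lit 31049852829) (nat_lit 0) (nat_lit 33815706207) (nat_lit 10) (nat_lit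 5) (nat_lit 12) (nat_lit 4) (nat_lit 10) (nat_lit 4) (nat_lit 501) (nat_lit 395) (nat_lit 304)) (XT.lf (nat_lit 0) (nat_lit 61835179721) (nat_lit 152) (nat_lit 4956170522) (nat_lit 0) (nat_lit 49294143076) (nat_lit 10) (nat_lit 5) (nat_lit 12) (nat_lit 4) (nat_lit 10) (nat_lit 4) (nat_lit 502) (nat_lit 395) (nat_lit 303)))) (XT.nd (nat_lit 156) (nat_lit 0) (nat_lit 0) (XT.nd (nat_lit 78) (nat_lit 0) (nat_lit 0) (XT.lf (nat_lit 0) (nat_lit 23153617166) (nat_lit 76) (nat_lit 55288098334) (nat_lit 76) (nat_lit 42740275817) (nat_lit 9) (nat_lit 4) (nat_lit 10) (nat_lit 5) (nat_lit 10) (nat_lit 4) (nat_lit 503) (nat_lit 395) (nat_lit 302)) (XT.lf (nat_lit 0) (nat_lit 52811800256) (nat_lit 76) (nat_lit 43136165091) (nat_lit 76) (nat_lit 30581879839) (nat_lit 9) (nat_lit 4) (nat_lit 10) (nat_lit 5) (nat_lit 10) (nat_lit 4) (nat_lit 504) (nat_lit 395) (nat_lit 301))) (XT.nd (nat_lit 78) (nat_lit 0)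 (nat_lit 0) (XT.lf (nat_lit 0) (nat_lit 83925120090) (nat_lit 76) (nat_lit 30390552487) (nat_lit 76) (nat_lit 17830112248) (nat_lit 9) (nat_lit 4) (nat_lit 10) (nat_lit 5) (nat_lit 10) (nat_lit 4) (nat_lit 505) (nat_lit 395) (nat_lit 300)) (XT.lf (nat_lit 0) (nat_lit 116567656001) (nat_lit 76) (nat_lit 17020913824) (nat_lit 76) (nat_lit 4454611694) (nat_lit 9) (nat_lit 4) (nat_lit 10) (nat_lit 5) (nat_lit 10) (nat_lit 4) (nat_lit 506) (nat_lit 395) (nat_lit 299))))))))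
noncomputable def xc83 : XT := (XT.nd (nat_lit 2184) (nat_lit 0) (nat_lit 0) (XT.nd (nat_lit 1092) (nat_lit 76) (nat_lit 0) (XT.nd (nat_lit 546) (nat_lit 152) (nat_lit 0) (XT.nd (nat_lit 234) (nat_lit 76) (nat_lit 0) (XT.nd (nat_lit 78) (nat_lit 0) (nat_lit 0) (XT.lf (nat_lit 0) (nat_lit 6644191746) (nat_lit 76) (nat_lit 2729504170) (nat_lit 152) (nat_lit 134849718273) (nat_lit 7) (nat_lit 5) (nat_lit 8) (nat_lit 5) (nat_lit 9) (nat_lit 4) (nat_lit 507) (nat_lit 395) (nat_lit 298)) (XT.nd (nat_lit 78) (nat_lit 0) (nat_lit 0) (XT.lf (nat_lit 0) (nat_lit 24292289776) (nat_lit 152) (nat_lit 114075286551) (nat_lit 0) (nat_lit 12314002356) (nat_lit 7) (nat_lit 5) (nat_lit 9) (nat_lit 4) (nat_lit 7) (nat_lit 4) (nat_lit 508) (nat_lit 395) (nat_lit 297)) (XT.lf (nat_lit 0) (nat_lit 39989410872) (nat_lit 152) (nat_lit 89465310044) (nat_lit 0) (nat_lit 28006300859) (nat_lit 7) (nat_lit 5) (nat_lit 9)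 (nat_lit 4) (nat_lit 7) (nat_lit 4) (nat_lit 509) (nat_lit 395) (nat_lit 296)))) (XT.nd (nat_lit 156) (nat_lit 76) (nat_lit 0) (XT.nd (nat_lit 78) (nat_lit 0) (nat_lit 0) (XT.lf (nat_lit 0) (nat_lit 56459818093) (nat_lit 152) (nat_lit 63648082532) (nat_lit 0) (nat_lit 44472115134) (nat_lit 7) (nat_lit 5) (nat_lit 9) (nat_lit 4) (nat_lit 7) (nat_lit 4) (nat_lit 510) (nat_lit 395) (nat_lit 295)) (XT.lf (nat_lit 0) (nat_lit 73742726693) (nat_lit 152) (nat_lit 36562134424) (nat_lit 0) (nat_lit 61750649500) (nat_lit 7) (nat_lit 5) (nat_lit 9) (nat_lit 4) (nat_lit 7) (nat_lit 4) (nat_lit 511) (nat_lit 395) (nat_lit 294))) (XT.nd (nat_lit 78) (nat_lit 76) (nat_lit 0) (XT.lf (nat_lit 0) (nat_lit 91879286455) (nat_lit 152) (nat_lit 8142975369) (nat_lit 0) (nat_lit 79883043326) (nat_lit 7) (nat_lit 5) (nat_lit 9) (nat_lit 4) (nat_lit 7) (nat_lit 4) (nat_lit 512) (nat_lit 395) (nat_lit 293)) (XT.lf (nat_lit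 0) (nat_lit 22393800774) (nat_lit 76) (nat_lit 88868508878) (nat_lit 76) (nat_lit 76868298190) (nat_lit 6) (nat_lit 4) (nat_lit 7) (nat_lit 5) (nat_lit 7) (nat_lit 4) (nat_lit 513) (nat_lit 395) (nat_lit 292))))) (XT.nd (nat_lit 234) (nat_lit 152) (nat_lit 0) (XT.nd (nat_lit 78) (nat_lit 0) (nat_lit 0) (XT.lf (nat_lit 0) (nat_lit 54720363011) (nat_lit 76) (nat_lit 77022199132) (nat_lit 76) (nat_lit 65018209816) (nat_lit 6) (nat_lit 4) (nat_lit 7) (nat_lit 5) (nat_lit 7) (nat_lit 4) (nat_lit 514) (nat_lit 395) (nat_lit 291)) (XT.nd (nat_lit 78) (nat_lit 0) (nat_lit 0) (XT.lf (nat_lit 0) (nat_lit 88644435806) (nat_lit 76) (nat_lit 64593032314) (nat_lit 76) (nat_lit 52585444306) (nat_lit 6) (nat_lit 4) (nat_lit 7) (nat_lit 5) (nat_lit 7) (nat_lit 4) (nat_lit 515) (nat_lit 395) (nat_lit 290)) (XT.lf (nat_lit 0) (nat_lit 124246790761) (nat_lit 76) (nat_lit 51551415171) (nat_lit 76) (nat_lit 39540399836)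 (nat_lit 6) (nat_lit 4) (nat_lit 7) (nat_lit 5) (nat_lit 7) (nat_lit 4) (nat_lit 516) (nat_lit 395) (nat_lit 289)))) (XT.nd (nat_lit 156) (nat_lit 152) (nat_lit 0) (XT.nd (nat_lit 78) (nat_lit 0) (nat_lit 0) (XT.lf (nat_lit 0) (nat_lit 161612195387) (nat_lit 76) (nat_lit 37866296234) (nat_lit 76) (nat_lit 25852016778) (nat_lit 6) (nat_lit 4) (nat_lit 7) (nat_lit 5) (nat_lit 7) (nat_lit 4) (nat_lit 517) (nat_lit 395) (nat_lit 288)) (XT.lf (nat_lit 0) (nat_lit 200829614933) (nat_lit 76) (nat_lit 23505091884) (nat_lit 76) (nat_lit 11487703742) (nat_lit 6) (nat_lit 4) (nat_lit 7) (nat_lit 5) (nat_lit 7) (nat_lit 4) (nat_lit 518) (nat_lit 395) (nat_lit 287))) (XT.nd (nat_lit 78) (nat_lit 76) (nat_lit 0) (XT.lf (nat_lit 0) (nat_lit 3471941934) (nat_lit 152) (nat_lit 4902867829) (nat_lit 76) (nat_lit 238461683257) (nat_lit 5) (nat_lit 5) (nat_lit 7) (nat_lit 5) (nat_lit 6) (nat_lit 4) (nat_lit 519)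 (nat_lit 395) (nat_lit 286)) (XT.lf (nat_lit 0) (nat_lit 19340540469) (nat_lit 152) (nat_lit 231134067651) (nat_lit 0) (nat_lit 7889903835) (nat_lit 4) (nat_lit 5) (nat_lit 6) (nat_lit 4) (nat_lit 4) (nat_lit 4) (nat_lit 520) (nat_lit 395) (nat_lit 285)))))) (XT.nd (nat_lit 546) (nat_lit 76) (nat_lit 0) (XT.nd (nat_lit 234) (nat_lit 0) (nat_lit 0) (XT.nd (nat_lit 78) (nat_lit 0) (nat_lit 0) (XT.lf (nat_lit 0) (nat_lit 36216809843) (nat_lit 152) (nat_lit 209477794395) (nat_lit 0) (nat_lit 24763615686) (nat_lit 4) (nat_lit 5) (nat_lit 6) (nat_lit 4) (nat_lit 4) (nat_lit 4) (nat_lit 521) (nat_lit 395) (nat_lit 284)) (XT.nd (nat_lit 78) (nat_lit 0) (nat_lit 0) (XT.lf (nat_lit 0) (nat_lit 53929802518) (nat_lit 152) (nat_lit 186752992785) (nat_lit 0) (nat_lit 42474172623) (nat_lit 4) (nat_lit 5) (nat_lit 6) (nat_lit 4) (nat_lit 4) (nat_lit 4) (nat_lit 522) (nat_lit 395) (nat_lit 283)) (XT.lf (nat_lit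 0) (nat_lit 72521692285) (nat_lit 152) (nat_lit 162905556151) (nat_lit 0) (nat_lit 61063742641) (nat_lit 4) (nat_lit 5) (nat_lit 6) (nat_lit 4) (nat_lit 4) (nat_lit 4) (nat_lit 523) (nat_lit 395) (nat_lit 282)))) (XT.nd (nat_lit 156) (nat_lit 0) (nat_lit 0) (XT.nd (nat_lit 78) (nat_lit 0) (nat_lit 0) (XT.lf (nat_lit 0) (nat_lit 92036745548) (nat_lit 152) (nat_lit 137878704882) (nat_lit 0) (nat_lit 80576586619) (nat_lit 4) (nat_lit 5) (nat_lit 6) (nat_lit 4) (nat_lit 4) (nat_lit 4) (nat_lit 524) (nat_lit 395) (nat_lit 281)) (XT.lf (nat_lit 0) (nat_lit 112521426721) (nat_lit 152) (nat_lit 111612851237) (nat_lit 0) (nat_lit 101059163710) (nat_lit 4) (nat_lit 5) (nat_lit 6) (nat_lit 4) (nat_lit 4) (nat_lit 4) (nat_lit 525) (nat_lit 395) (nat_lit 280))) (XT.nd (nat_lit 78) (nat_lit 0) (nat_lit 0) (XT.lf (nat_lit 0) (nat_lit 134024508852) (nat_lit 152) (nat_lit 84045457468) (nat_lit 0) (nat_lit 122560241955)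 (nat_lit 4) (nat_lit 5) (nat_lit 6) (nat_lit 4) (nat_lit 4) (nat_lit 4) (nat_lit 526) (nat_lit 395) (nat_lit 279)) (XT.lf (nat_lit 0) (nat_lit 156597189758) (nat_lit 152) (nat_lit 55110886925) (nat_lit 0) (nat_lit 145131014397) (nat_lit 4) (nat_lit 5) (nat_lit 6) (nat_lit 4) (nat_lit 4) (nat_lit 4) (nat_lit 527) (nat_lit 395) (nat_lit 278))))) (XT.nd (nat_lit 234) (nat_lit 0) (nat_lit 0) (XT.nd (nat_lit 78) (nat_lit 76) (nat_lit 0) (XT.lf (nat_lit 0) (nat_lit 180293213916) (nat_lit 152) (nat_lit 24740247772) (nat_lit 0) (nat_lit 168825220971) (nat_lit 4) (nat_lit 5) (nat_lit 6) (nat_lit 4) (nat_lit 4) (nat_lit 4) (nat_lit 528) (nat_lit 395) (nat_lit 277)) (XT.nd (nat_lit 78) (nat_lit 0) (nat_lit 0) (XT.lf (nat_lit 0) (nat_lit 7374811045) (nat_lit 76) (nat_lit 197909330855) (nat_lit 76) (nat_lit 186439606877) (nat_lit 3) (nat_lit 4) (nat_lit 4) (nat_lit 5) (nat_lit 4) (nat_lit 4) (nat_lit 529)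 (nat_lit 395) (nat_lit 276)) (XT.lf (nat_lit 0) (nat_lit 41944559786) (nat_lit 76) (nat_lit 189994089710) (nat_lit 76) (nat_lit 178522717129) (nat_lit 3) (nat_lit 4) (nat_lit 4) (nat_lit 5) (nat_lit 4) (nat_lit 4) (nat_lit 530) (nat_lit 395) (nat_lit 275)))) (XT.nd (nat_lit 156) (nat_lit 0) (nat_lit 0) (XT.nd (nat_lit 78) (nat_lit 0) (nat_lit 0) (XT.lf (nat_lit 0) (nat_lit 78233283053) (nat_lit 76) (nat_lit 181687880509) (nat_lit 76) (nat_lit 170214937830) (nat_lit 3) (nat_lit 4) (nat_lit 4) (nat_lit 5) (nat_lit 4) (nat_lit 4) (nat_lit 531) (nat_lit 395) (nat_lit 274)) (XT.lf (nat_lit 0) (nat_lit 116327382570) (nat_lit 76) (nat_lit 172970926563) (nat_lit 76) (nat_lit 161496488553) (nat_lit 3) (nat_lit 4) (nat_lit 4) (nat_lit 5) (nat_lit 4) (nat_lit 4) (nat_lit 532) (nat_lit 395) (nat_lit 273))) (XT.nd (nat_lit 78) (nat_lit 0) (nat_lit 0) (XT.lf (nat_lit 0) (nat_lit 156317558573) (nat_lit 76)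 (nat_lit 163822473221) (nat_lit 76) (nat_lit 152346611086) (nat_lit 3) (nat_lit 4) (nat_lit 4) (nat_lit 5) (nat_lit 4) (nat_lit 4) (nat_lit 533) (nat_lit 395) (nat_lit 272)) (XT.lf (nat_lit 0) (nat_lit 198299025766) (nat_lit 76) (nat_lit 154220738449) (nat_lit 76) (nat_lit 142743520005) (nat_lit 3) (nat_lit 4) (nat_lit 4) (nat_lit 5) (nat_lit 4) (nat_lit 4) (nat_lit 534) (nat_lit 395) (nat_lit 271))))))) (XT.nd (nat_lit 52884) (nat_lit 0) (nat_lit 6916) (XT.nd (nat_lit 546) (nat_lit 0) (nat_lit 0) (XT.nd (nat_lit 234) (nat_lit 0) (nat_lit 0) (XT.nd (nat_lit 78) (nat_lit 0) (nat_lit 0) (XT.lf (nat_lit 0) (nat_lit 242371740024) (nat_lit 76) (nat_lit 144142860976) (nat_lit 76) (nat_lit 132664350808) (nat_lit 3) (nat_lit 4) (nat_lit 4) (nat_lit 5) (nat_lit 4) (nat_lit 4) (nat_lit 535) (nat_lit 395) (nat_lit 270)) (XT.nd (nat_lit 78) (nat_lit 0) (nat_lit 0) (XT.lf (nat_lit 0) (nat_lit 288640636381)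 (nat_lit 76) (nat_lit 133564845854) (nat_lit 76) (nat_lit 122085105474) (nat_lit 3) (nat_lit 4) (nat_lit 4) (nat_lit 5) (nat_lit 4) (nat_lit 4) (nat_lit 536) (nat_lit 395) (nat_lit 269)) (XT.lf (nat_lit 0) (nat_lit 337215878875) (nat_lit 76) (nat_lit 122461507334) (nat_lit 76) (nat_lit 110980595323) (nat_lit 3) (nat_lit 4) (nat_lit 4) (nat_lit 5) (nat_lit 4) (nat_lit 4) (nat_lit 537) (nat_lit 395) (nat_lit 268)))) (XT.nd (nat_lit 156) (nat_lit 0) (nat_lit 0) (XT.nd (nat_lit 78) (nat_lit 0) (nat_lit 0) (XT.lf (nat_lit 0) (nat_lit 388213122847) (nat_lit 76) (nat_lit 110806408895) (nat_lit 76) (nat_lit 99324381044) (nat_lit 3) (nat_lit 4) (nat_lit 4) (nat_lit 5) (nat_lit 4) (nat_lit 4) (nat_lit 538) (nat_lit 395) (nat_lit 267)) (XT.lf (nat_lit 0) (nat_lit 441753790305) (nat_lit 76) (nat_lit 98571800303) (nat_lit 76) (nat_lit 87088709748) (nat_lit 3) (nat_lit 4) (nat_lit 4) (nat_lit 5) (nat_lit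 4) (nat_lit 4) (nat_lit 539) (nat_lit 395) (nat_lit 266))) (XT.nd (nat_lit 78) (nat_lit 0) (nat_lit 0) (XT.lf (nat_lit 0) (nat_lit 497965359030) (nat_lit 76) (nat_lit 85728551537) (nat_lit 76) (nat_lit 74244448883) (nat_lit 3) (nat_lit 4) (nat_lit 4) (nat_lit 5) (nat_lit 4) (nat_lit 4) (nat_lit 540) (nat_lit 395) (nat_lit 265)) (XT.lf (nat_lit 0) (nat_lit 556981666089) (nat_lit 76) (nat_lit 72246083433) (nat_lit 76) (nat_lit 60761016876) (nat_lit 3) (nat_lit 4) (nat_lit 4) (nat_lit 5) (nat_lit 4) (nat_lit 4) (nat_lit 541) (nat_lit 395) (nat_lit 264))))) (XT.nd (nat_lit 52026) (nat_lit 0) (nat_lit 11932) (XT.nd (nat_lit 78) (nat_lit 0) (nat_lit 0) (XT.lf (nat_lit 0) (nat_lit 618943226499) (nat_lit 76) (nat_lit 58092294878) (nat_lit 76) (nat_lit 46606310316) (nat_lit 3) (nat_lit 4) (nat_lit 4) (nat_lit 5) (nat_lit 4) (nat_lit 4) (nat_lit 542) (nat_lit 395) (nat_lit 263)) (XT.nd (nat_lit 78) (nat_lit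 0) (nat_lit 0) (XT.lf (nat_lit 0) (nat_lit 683997567786) (nat_lit 76) (nat_lit 43233486374) (nat_lit 76) (nat_lit 31746627523) (nat_lit 3) (nat_lit 4) (nat_lit 4) (nat_lit 5) (nat_lit 4) (nat_lit 4) (nat_lit 543) (nat_lit 395) (nat_lit 262)) (XT.lf (nat_lit 0) (nat_lit 752299581237) (nat_lit 76) (nat_lit 27634279805) (nat_lit 76) (nat_lit 16146588299) (nat_lit 3) (nat_lit 4) (nat_lit 4) (nat_lit 5) (nat_lit 4) (nat_lit 4) (nat_lit 544) (nat_lit 395) (nat_lit 261)))) (XT.nd (nat_lit 156) (nat_lit 532) (nat_lit 0) (XT.nd (nat_lit 78) (nat_lit 380) (nat_lit 0) (XT.lf (nat_lit 0) (nat_lit 835957927) (nat_lit 380) (nat_lit 1641742820) (nat_lit 0) (nat_lit 835957927) (nat_lit 172) (nat_lit 5) (nat_lit 177) (nat_lit 4) (nat_lit 172) (nat_lit 4) (nat_lit 408) (nat_lit 396) (nat_lit 396)) (XT.lf (nat_lit 0) (nat_lit 921617574) (nat_lit 380) (nat_lit 4005733762) (nat_lit 380) (nat_lit 1750807931) (nat_lit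 167) (nat_lit 4) (nat_lit 172) (nat_lit 5) (nat_lit 172) (nat_lit 4) (nat_lit 409) (nat_lit 396) (nat_lit 395))) (XT.nd (nat_lit 78) (nat_lit 456) (nat_lit 0) (XT.lf (nat_lit 0) (nat_lit 1439688838) (nat_lit 456) (nat_lit 1451112122) (nat_lit 76) (nat_lit 3845722167) (nat_lit 166) (nat_lit 5) (nat_lit 172) (nat_lit 5) (nat_lit 167) (nat_lit 4) (nat_lit 410) (nat_lit 396) (nat_lit 394)) (XT.lf (nat_lit 0) (nat_lit 2996597495) (nat_lit 456) (nat_lit 1610405401) (nat_lit 532) (nat_lit 2195661991) (nat_lit 160) (nat_lit 5) (nat_lit 166) (nat_lit 5) (nat_lit 167) (nat_lit 4) (nat_lit 411) (nat_lit 396) (nat_lit 393)))))) (XT.nd (nat_lit 546) (nat_lit 1824) (nat_lit 0) (XT.nd (nat_lit 234) (nat_lit 1900) (nat_lit 0) (XT.nd (nat_lit 78) (nat_lit 684) (nat_lit 0) (XT.lf (nat_lit 0) (nat_lit 708328974) (nat_lit 532) (nat_lit 186857727) (nat_lit 608) (nat_lit 5982762907) (nat_lit 152) (nat_lit 5) (nat_lit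 159) (nat_lit 5) (nat_lit 160) (nat_lit 5) (nat_lit 412) (nat_lit 396) (nat_lit 392)) (XT.nd (nat_lit 78) (nat_lit 684) (nat_lit 0) (XT.lf (nat_lit 0) (nat_lit 3991337356) (nat_lit 608) (nat_lit 1580407199) (nat_lit 76) (nat_lit 1387314430) (nat_lit 152) (nat_lit 5) (nat_lit 160) (nat_lit 5) (nat_lit 153) (nat_lit 4) (nat_lit 413) (nat_lit 396) (nat_lit 391)) (XT.lf (nat_lit 0) (nat_lit 89242890) (nat_lit 684) (nat_lit 3855939238) (nat_lit 76) (nat_lit 3104090953) (nat_lit 143) (nat_lit 5) (nat_lit 152) (nat_lit 5) (nat_lit 144) (nat_lit 5) (nat_lit 414) (nat_lit 396) (nat_lit 390)))) (XT.nd (nat_lit 156) (nat_lit 1216) (nat_lit 0) (XT.nd (nat_lit 78) (nat_lit 0) (nat_lit 0) (XT.lf (nat_lit 0) (nat_lit 954031077) (nat_lit 684) (nat_lit 2136303838) (nat_lit 760) (nat_lit 4056755328) (nat_lit 134) (nat_lit 5) (nat_lit 143) (nat_lit 5) (nat_lit 144) (nat_lit 5) (nat_lit 415) (nat_lit 396) (nat_lit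 389)) (XT.lf (nat_lit 0) (nat_lit 5995329920) (nat_lit 684) (nat_lit 165330437) (nat_lit 760) (nat_lit 1093250992) (nat_lit 134) (nat_lit 5) (nat_lit 143) (nat_lit 5) (nat_lit 144) (nat_lit 5) (nat_lit 416) (nat_lit 396) (nat_lit 388))) (XT.nd (nat_lit 78) (nat_lit 380) (nat_lit 0) (XT.lf (nat_lit 0) (nat_lit 1904045746) (nat_lit 836) (nat_lit 3525730145) (nat_lit 76) (nat_lit 1937276310) (nat_lit 123) (nat_lit 5) (nat_lit 134) (nat_lit 5) (nat_lit 124) (nat_lit 5) (nat_lit 417) (nat_lit 396) (nat_lit 387)) (XT.lf (nat_lit 0) (nat_lit 1641094360) (nat_lit 380) (nat_lit 3286401932) (nat_lit 456) (nat_lit 2561868447) (nat_lit 118) (nat_lit 5) (nat_lit 123) (nat_lit 5) (nat_lit 124) (nat_lit 5) (nat_lit 418) (nat_lit 396) (nat_lit 386))))) (XT.nd (nat_lit 312) (nat_lit 608) (nat_lit 0) (XT.nd (nat_lit 156) (nat_lit 760) (nat_lit 0) (XT.nd (nat_lit 78) (nat_lit 380) (nat_lit 0) (XT.lf (nat_lit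 0) (nat_lit 394600159) (nat_lit 456) (nat_lit 582432155) (nat_lit 76) (nat_lit 6644150182) (nat_lit 117) (nat_lit 5) (nat_lit 123) (nat_lit 5) (nat_lit 118) (nat_lit 5) (nat_lit 419) (nat_lit 396) (nat_lit 385)) (XT.lf (nat_lit 0) (nat_lit 3385507514) (nat_lit 456) (nat_lit 2862984061) (nat_lit 76) (nat_lit 1510417876) (nat_lit 112) (nat_lit 5) (nat_lit 118) (nat_lit 5) (nat_lit 113) (nat_lit 5) (nat_lit 420) (nat_lit 396) (nat_lit 384))) (XT.nd (nat_lit 78) (nat_lit 380) (nat_lit 0) (XT.lf (nat_lit 0) (nat_lit 2690831783) (nat_lit 380) (nat_lit 3778432921) (nat_lit 456) (nat_lit 1437144016) (nat_lit 107) (nat_lit 5) (nat_lit 112) (nat_lit 5) (nat_lit 113) (nat_lit 5) (nat_lit 421) (nat_lit 396) (nat_lit 383)) (XT.lf (nat_lit 0) (nat_lit 402992391) (nat_lit 304) (nat_lit 1122767276) (nat_lit 380) (nat_lit 6537659198) (nat_lit 102) (nat_lit 5) (nat_lit 106) (nat_lit 5) (nat_lit 107) (nat_lit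 5) (nat_lit 422) (nat_lit 396) (nat_lit 382)))) (XT.nd (nat_lit 156) (nat_lit 304) (nat_lit 0) (XT.nd (nat_lit 78) (nat_lit 304) (nat_lit 0) (XT.lf (nat_lit 0) (nat_lit 4584464039) (nat_lit 380) (nat_lit 1940877986) (nat_lit 76) (nat_lit 1702006075) (nat_lit 102) (nat_lit 5) (nat_lit 107) (nat_lit 5) (nat_lit 103) (nat_lit 5) (nat_lit 423) (nat_lit 396) (nat_lit 381)) (XT.lf (nat_lit 0) (nat_lit 4032876841) (nat_lit 304) (nat_lit 3730474159) (nat_lit 380) (nat_lit 637802541) (nat_lit 98) (nat_lit 5) (nat_lit 102) (nat_lit 5) (nat_lit 103) (nat_lit 5) (nat_lit 424) (nat_lit 396) (nat_lit 380))) (XT.nd (nat_lit 78) (nat_lit 0) (nat_lit 0) (XT.lf (nat_lit 0) (nat_lit 1660074168) (nat_lit 228) (nat_lit 723475819) (nat_lit 304) (nat_lit 6200842491) (nat_lit 94) (nat_lit 5) (nat_lit 97) (nat_lit 5) (nat_lit 98) (nat_lit 5) (nat_lit 425) (nat_lit 396) (nat_lit 379)) (XT.lf (nat_lit 0) (nat_lit 5537651579)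 (nat_lit 304) (nat_lit 827867970) (nat_lit 76) (nat_lit 2410631614) (nat_lit 94) (nat_lit 5) (nat_lit 98) (nat_lit 5) (nat_lit 95) (nat_lit 5) (nat_lit 426) (nat_lit 396) (nat_lit 378))))))))
noncomputable def xc84 : XT := (XT.nd (nat_lit 2184) (nat_lit 1748) (nat_lit 0) (XT.nd (nat_lit 1092) (nat_lit 1520) (nat_lit 0) (XT.nd (nat_lit 546) (nat_lit 988) (nat_lit 0) (XT.nd (nat_lit 234) (nat_lit 608) (nat_lit 0) (XT.nd (nat_lit 78) (nat_lit 532) (nat_lit 0) (XT.lf (nat_lit 0) (nat_lit 5601194284) (nat_lit 304) (nat_lit 3242740818) (nat_lit 380) (nat_lit 133873484) (nat_lit 90) (nat_lit 5) (nat_lit 94) (nat_lit 5) (nat_lit 95) (nat_lit 5) (nat_lit 427) (nat_lit 396) (nat_lit 377)) (XT.nd (nat_lit 78) (nat_lit 228) (nat_lit 0) (XT.lf (nat_lit 0) (nat_lit 2986720274) (nat_lit 304) (nat_lit 6090015801) (nat_lit 76) (nat_lit 112364595) (nat_lit 86) (nat_lit 5) (nat_lit 90) (nat_lit 5) (nat_lit 87)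 (nat_lit 5) (nat_lit 428) (nat_lit 396) (nat_lit 376)) (XT.lf (nat_lit 0) (nat_lit 421861759) (nat_lit 228) (nat_lit 5853347441) (nat_lit 304) (nat_lit 3134850128) (nat_lit 83) (nat_lit 5) (nat_lit 86) (nat_lit 5) (nat_lit 87) (nat_lit 5) (nat_lit 429) (nat_lit 396) (nat_lit 375)))) (XT.nd (nat_lit 156) (nat_lit 304) (nat_lit 0) (XT.nd (nat_lit 78) (nat_lit 228) (nat_lit 0) (XT.lf (nat_lit 0) (nat_lit 87614549) (nat_lit 304) (nat_lit 2313270014) (nat_lit 76) (nat_lit 7240925711) (nat_lit 82) (nat_lit 5) (nat_lit 86) (nat_lit 5) (nat_lit 83) (nat_lit 5) (nat_lit 430) (nat_lit 396) (nat_lit 374)) (XT.lf (nat_lit 0) (nat_lit 3363310960) (nat_lit 304) (nat_lit 5248458798) (nat_lit 76) (nat_lit 1270962312) (nat_lit 79) (nat_lit 5) (nat_lit 83) (nat_lit 5) (nat_lit 80) (nat_lit 5) (nat_lit 431) (nat_lit 396) (nat_lit 373))) (XT.nd (nat_lit 78) (nat_lit 76) (nat_lit 0) (XT.lf (nat_lit 0) (nat_lit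 1752810543) (nat_lit 228) (nat_lit 5062594772) (nat_lit 304) (nat_lit 3319688608) (nat_lit 76) (nat_lit 5) (nat_lit 79) (nat_lit 5) (nat_lit 80) (nat_lit 5) (nat_lit 432) (nat_lit 396) (nat_lit 372)) (XT.lf (nat_lit 0) (nat_lit 35973759) (nat_lit 304) (nat_lit 1251265613) (nat_lit 76) (nat_lit 9112964357) (nat_lit 75) (nat_lit 5) (nat_lit 79) (nat_lit 5) (nat_lit 76) (nat_lit 5) (nat_lit 433) (nat_lit 396) (nat_lit 371))))) (XT.nd (nat_lit 234) (nat_lit 608) (nat_lit 0) (XT.nd (nat_lit 78) (nat_lit 228) (nat_lit 0) (XT.lf (nat_lit 0) (nat_lit 3500320189) (nat_lit 228) (nat_lit 4470387202) (nat_lit 76) (nat_lit 2702538635) (nat_lit 73) (nat_lit 5) (nat_lit 76) (nat_lit 5) (nat_lit 74) (nat_lit 5) (nat_lit 434) (nat_lit 396) (nat_lit 370)) (XT.nd (nat_lit 78) (nat_lit 0) (nat_lit 0) (XT.lf (nat_lit 0) (nat_lit 3055856901) (nat_lit 228) (nat_lit 4085174292) (nat_lit 304) (nat_lit 3818772140) (nat_lit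 70) (nat_lit 5) (nat_lit 73) (nat_lit 5) (nat_lit 74) (nat_lit 5) (nat_lit 435) (nat_lit 396) (nat_lit 369)) (XT.lf (nat_lit 0) (nat_lit 10954781342) (nat_lit 304) (nat_lit 280556183) (nat_lit 76) (nat_lit 25820093) (nat_lit 70) (nat_lit 5) (nat_lit 74) (nat_lit 5) (nat_lit 71) (nat_lit 4) (nat_lit 436) (nat_lit 396) (nat_lit 368)))) (XT.nd (nat_lit 156) (nat_lit 228) (nat_lit 0) (XT.nd (nat_lit 78) (nat_lit 152) (nat_lit 0) (XT.lf (nat_lit 0) (nat_lit 3381742205) (nat_lit 228) (nat_lit 3850517628) (nat_lit 76) (nat_lit 4337280618) (nat_lit 67) (nat_lit 5) (nat_lit 70) (nat_lit 5) (nat_lit 68) (nat_lit 5) (nat_lit 437) (nat_lit 396) (nat_lit 367)) (XT.lf (nat_lit 0) (nat_lit 4235436331) (nat_lit 152) (nat_lit 2998293471) (nat_lit 228) (nat_lit 4659890190) (nat_lit 65) (nat_lit 5) (nat_lit 67) (nat_lit 5) (nat_lit 68) (nat_lit 5) (nat_lit 438) (nat_lit 396) (nat_lit 366))) (XT.nd (nat_lit 78)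 (nat_lit 76) (nat_lit 0) (XT.lf (nat_lit 0) (nat_lit 489362825) (nat_lit 152) (nat_lit 10805378239) (nat_lit 228) (nat_lit 938357104) (nat_lit 63) (nat_lit 5) (nat_lit 65) (nat_lit 5) (nat_lit 66) (nat_lit 4) (nat_lit 439) (nat_lit 396) (nat_lit 365)) (XT.lf (nat_lit 0) (nat_lit 2975596543) (nat_lit 228) (nat_lit 3502427909) (nat_lit 76) (nat_lit 6104153353) (nat_lit 62) (nat_lit 5) (nat_lit 65) (nat_lit 5) (nat_lit 63) (nat_lit 5) (nat_lit 440) (nat_lit 396) (nat_lit 364)))))) (XT.nd (nat_lit 546) (nat_lit 608) (nat_lit 0) (XT.nd (nat_lit 234) (nat_lit 532) (nat_lit 0) (XT.nd (nat_lit 78) (nat_lit 228) (nat_lit 0) (XT.lf (nat_lit 0) (nat_lit 5175607041) (nat_lit 152) (nat_lit 1883106837) (nat_lit 228) (nat_lit 5888992062) (nat_lit 60) (nat_lit 5) (nat_lit 62) (nat_lit 5) (nat_lit 63) (nat_lit 5) (nat_lit 441) (nat_lit 396) (nat_lit 363)) (XT.nd (nat_lit 78) (nat_lit 76) (nat_lit 0) (XT.lf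 (nat_lit 0) (nat_lit 937164279) (nat_lit 152) (nat_lit 10454771582) (nat_lit 228) (nat_lit 1937290240) (nat_lit 58) (nat_lit 5) (nat_lit 60) (nat_lit 5) (nat_lit 61) (nat_lit 4) (nat_lit 442) (nat_lit 396) (nat_lit 362)) (XT.lf (nat_lit 0) (nat_lit 2231364649) (nat_lit 228) (nat_lit 3566046424) (nat_lit 76) (nat_lit 7926187984) (nat_lit 57) (nat_lit 5) (nat_lit 60) (nat_lit 5) (nat_lit 58) (nat_lit 5) (nat_lit 443) (nat_lit 396) (nat_lit 361)))) (XT.nd (nat_lit 156) (nat_lit 228) (nat_lit 0) (XT.nd (nat_lit 78) (nat_lit 152) (nat_lit 0) (XT.lf (nat_lit 0) (nat_lit 5732056433) (nat_lit 152) (nat_lit 829843707) (nat_lit 228) (nat_lit 7573286182) (nat_lit 55) (nat_lit 5) (nat_lit 57) (nat_lit 5) (nat_lit 58) (nat_lit 5) (nat_lit 444) (nat_lit 396) (nat_lit 360)) (XT.lf (nat_lit 0) (nat_lit 891940534) (nat_lit 152) (nat_lit 10290616866) (nat_lit 228) (nat_lit 3381126544) (nat_lit 53) (nat_lit 5)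 (nat_lit 55) (nat_lit 5) (nat_lit 56) (nat_lit 4) (nat_lit 445) (nat_lit 396) (nat_lit 359))) (XT.nd (nat_lit 78) (nat_lit 152) (nat_lit 0) (XT.lf (nat_lit 0) (nat_lit 1076366445) (nat_lit 228) (nat_lit 4216891702) (nat_lit 76) (nat_lit 9715141675) (nat_lit 52) (nat_lit 5) (nat_lit 55) (nat_lit 5) (nat_lit 53) (nat_lit 5) (nat_lit 446) (nat_lit 396) (nat_lit 358)) (XT.lf (nat_lit 0) (nat_lit 5666795090) (nat_lit 228) (nat_lit 9750127118) (nat_lit 76) (nat_lit 54482702) (nat_lit 50) (nat_lit 5) (nat_lit 53) (nat_lit 5) (nat_lit 51) (nat_lit 4) (nat_lit 447) (nat_lit 396) (nat_lit 357))))) (XT.nd (nat_lit 234) (nat_lit 304) (nat_lit 0) (XT.nd (nat_lit 78) (nat_lit 228) (nat_lit 0) (XT.lf (nat_lit 0) (nat_lit 148738864) (nat_lit 76) (nat_lit 10433774464) (nat_lit 152) (nat_lit 5370267354) (nat_lit 49) (nat_lit 5) (nat_lit 50) (nat_lit 5) (nat_lit 51) (nat_lit 4) (nat_lit 448) (nat_lit 396) (nat_lit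 356)) (XT.nd (nat_lit 78) (nat_lit 228) (nat_lit 0) (XT.lf (nat_lit 0) (nat_lit 10766091646) (nat_lit 76) (nat_lit 5078478279) (nat_lit 152) (nat_lit 608636112) (nat_lit 49) (nat_lit 5) (nat_lit 50) (nat_lit 5) (nat_lit 51) (nat_lit 4) (nat_lit 449) (nat_lit 396) (nat_lit 355)) (XT.lf (nat_lit 0) (nat_lit 4274843351) (nat_lit 228) (nat_lit 12071858003) (nat_lit 76) (nat_lit 627315662) (nat_lit 46) (nat_lit 5) (nat_lit 49) (nat_lit 5) (nat_lit 47) (nat_lit 4) (nat_lit 450) (nat_lit 396) (nat_lit 354)))) (XT.nd (nat_lit 156) (nat_lit 228) (nat_lit 0) (XT.nd (nat_lit 78) (nat_lit 76) (nat_lit 0) (XT.lf (nat_lit 0) (nat_lit 9501183247) (nat_lit 228) (nat_lit 1504595472) (nat_lit 76) (nat_lit 6508641183) (nat_lit 46) (nat_lit 5) (nat_lit 49) (nat_lit 5) (nat_lit 47) (nat_lit 4) (nat_lit 451) (nat_lit 396) (nat_lit 353)) (XT.lf (nat_lit 0) (nat_lit 9797888385) (nat_lit 76) (nat_lit 5284870846) (nat_lit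 152) (nat_lit 2994394673) (nat_lit 45) (nat_lit 5) (nat_lit 46) (nat_lit 5) (nat_lit 47) (nat_lit 4) (nat_lit 452) (nat_lit 396) (nat_lit 352))) (XT.nd (nat_lit 78) (nat_lit 0) (nat_lit 0) (XT.lf (nat_lit 0) (nat_lit 2228827949) (nat_lit 228) (nat_lit 15673626833) (nat_lit 76) (nat_lit 762486583) (nat_lit 42) (nat_lit 5) (nat_lit 45) (nat_lit 5) (nat_lit 43) (nat_lit 4) (nat_lit 453) (nat_lit 396) (nat_lit 351)) (XT.lf (nat_lit 0) (nat_lit 7783309470) (nat_lit 228) (nat_lit 4407658350) (nat_lit 76) (nat_lit 7080165487) (nat_lit 42) (nat_lit 5) (nat_lit 45) (nat_lit 5) (nat_lit 43) (nat_lit 4) (nat_lit 454) (nat_lit 396) (nat_lit 350))))))) (XT.nd (nat_lit 1092) (nat_lit 760) (nat_lit 0) (XT.nd (nat_lit 546) (nat_lit 456) (nat_lit 0) (XT.nd (nat_lit 234) (nat_lit 228) (nat_lit 0) (XT.nd (nat_lit 78) (nat_lit 228) (nat_lit 0) (XT.lf (nat_lit 0) (nat_lit 7561344945) (nat_lit 76) (nat_lit 6116585708)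 (nat_lit 152) (nat_lit 6226589111) (nat_lit 41) (nat_lit 5) (nat_lit 42) (nat_lit 5) (nat_lit 43) (nat_lit 4) (nat_lit 455) (nat_lit 396) (nat_lit 349)) (XT.nd (nat_lit 78) (nat_lit 228) (nat_lit 0) (XT.lf (nat_lit 0) (nat_lit 19891956429) (nat_lit 152) (nat_lit 391966106) (nat_lit 0) (nat_lit 284424757) (nat_lit 41) (nat_lit 5) (nat_lit 43) (nat_lit 4) (nat_lit 41) (nat_lit 4) (nat_lit 456) (nat_lit 396) (nat_lit 348)) (XT.lf (nat_lit 0) (nat_lit 5230889532) (nat_lit 228) (nat_lit 8983523649) (nat_lit 76) (nat_lit 7034714283) (nat_lit 38) (nat_lit 5) (nat_lit 41) (nat_lit 5) (nat_lit 39) (nat_lit 4) (nat_lit 457) (nat_lit 396) (nat_lit 347)))) (XT.nd (nat_lit 156) (nat_lit 152) (nat_lit 0) (XT.nd (nat_lit 78) (nat_lit 0) (nat_lit 0) (XT.lf (nat_lit 0) (nat_lit 3612558236) (nat_lit 76) (nat_lit 7808901099) (nat_lit 152) (nat_lit 10541404753) (nat_lit 37) (nat_lit 5) (nat_lit 38) (nat_lit 5)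 (nat_lit 39) (nat_lit 4) (nat_lit 458) (nat_lit 396) (nat_lit 346)) (XT.lf (nat_lit 0) (nat_lit 17053996476) (nat_lit 76) (nat_lit 968204490) (nat_lit 152) (nat_lit 4685058871) (nat_lit 37) (nat_lit 5) (nat_lit 38) (nat_lit 5) (nat_lit 39) (nat_lit 4) (nat_lit 459) (nat_lit 396) (nat_lit 345))) (XT.nd (nat_lit 78) (nat_lit 0) (nat_lit 0) (XT.lf (nat_lit 0) (nat_lit 1588085281) (nat_lit 152) (nat_lit 15770432779) (nat_lit 76) (nat_lit 6120676353) (nat_lit 35) (nat_lit 5) (nat_lit 37) (nat_lit 5) (nat_lit 36) (nat_lit 4) (nat_lit 460) (nat_lit 396) (nat_lit 344)) (XT.lf (nat_lit 0) (nat_lit 8081035727) (nat_lit 152) (nat_lit 2537700672) (nat_lit 76) (nat_lit 13663973071) (nat_lit 35) (nat_lit 5) (nat_lit 37) (nat_lit 5) (nat_lit 36) (nat_lit 4) (nat_lit 461) (nat_lit 396) (nat_lit 343))))) (XT.nd (nat_lit 234) (nat_lit 228) (nat_lit 0) (XT.nd (nat_lit 78) (nat_lit 152) (nat_lit 0) (XT.lf (nat_lit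 0) (nat_lit 11640009176) (nat_lit 76) (nat_lit 3393134170) (nat_lit 152) (nat_lit 10086535126) (nat_lit 34) (nat_lit 5) (nat_lit 35) (nat_lit 5) (nat_lit 36) (nat_lit 4) (nat_lit 462) (nat_lit 396) (nat_lit 342)) (XT.nd (nat_lit 78) (nat_lit 76) (nat_lit 0) (XT.lf (nat_lit 0) (nat_lit 478033128) (nat_lit 76) (nat_lit 21924452588) (nat_lit 76) (nat_lit 3592532236) (nat_lit 33) (nat_lit 4) (nat_lit 34) (nat_lit 5) (nat_lit 34) (nat_lit 4) (nat_lit 463) (nat_lit 396) (nat_lit 341)) (XT.lf (nat_lit 0) (nat_lit 3363677764) (nat_lit 152) (nat_lit 11500400605) (nat_lit 76) (nat_lit 12035492502) (nat_lit 32) (nat_lit 5) (nat_lit 34) (nat_lit 5) (nat_lit 33) (nat_lit 4) (nat_lit 464) (nat_lit 396) (nat_lit 340)))) (XT.nd (nat_lit 156) (nat_lit 152) (nat_lit 0) (XT.nd (nat_lit 78) (nat_lit 0) (nat_lit 0) (XT.lf (nat_lit 0) (nat_lit 3174427305) (nat_lit 76) (nat_lit 7377445105) (nat_lit 152) (nat_lit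 17294292010) (nat_lit 31) (nat_lit 5) (nat_lit 32) (nat_lit 5) (nat_lit 33) (nat_lit 4) (nat_lit 465) (nat_lit 396) (nat_lit 339)) (XT.lf (nat_lit 0) (nat_lit 18260519183) (nat_lit 152) (nat_lit 9944313242) (nat_lit 0) (nat_lit 627205979) (nat_lit 31) (nat_lit 5) (nat_lit 33) (nat_lit 4) (nat_lit 31) (nat_lit 4) (nat_lit 466) (nat_lit 396) (nat_lit 338))) (XT.nd (nat_lit 78) (nat_lit 76) (nat_lit 0) (XT.lf (nat_lit 0) (nat_lit 5492932608) (nat_lit 76) (nat_lit 21026020414) (nat_lit 76) (nat_lit 3340038069) (nat_lit 30) (nat_lit 4) (nat_lit 31) (nat_lit 5) (nat_lit 31) (nat_lit 4) (nat_lit 467) (nat_lit 396) (nat_lit 337)) (XT.lf (nat_lit 0) (nat_lit 4245801286) (nat_lit 152) (nat_lit 9032250793) (nat_lit 76) (nat_lit 17649476380) (nat_lit 29) (nat_lit 5) (nat_lit 31) (nat_lit 5) (nat_lit 30) (nat_lit 4) (nat_lit 468) (nat_lit 396) (nat_lit 336)))))) (XT.nd (nat_lit 546) (nat_lit 380) (nat_lit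 0) (XT.nd (nat_lit 234) (nat_lit 228) (nat_lit 0) (XT.nd (nat_lit 78) (nat_lit 76) (nat_lit 0) (XT.lf (nat_lit 0) (nat_lit 7165202398) (nat_lit 76) (nat_lit 5005099207) (nat_lit 152) (nat_lit 19872874913) (nat_lit 28) (nat_lit 5) (nat_lit 29) (nat_lit 5) (nat_lit 30) (nat_lit 4) (nat_lit 469) (nat_lit 396) (nat_lit 335)) (XT.nd (nat_lit 78) (nat_lit 76) (nat_lit 0) (XT.lf (nat_lit 0) (nat_lit 20663875211) (nat_lit 152) (nat_lit 8858610189) (nat_lit 0) (nat_lit 3683481422) (nat_lit 28) (nat_lit 5) (nat_lit 30) (nat_lit 4) (nat_lit 28) (nat_lit 4) (nat_lit 470) (nat_lit 396) (nat_lit 334)) (XT.lf (nat_lit 0) (nat_lit 8063690146) (nat_lit 76) (nat_lit 21688191194) (nat_lit 76) (nat_lit 4666529755) (nat_lit 27) (nat_lit 4) (nat_lit 28) (nat_lit 5) (nat_lit 28) (nat_lit 4) (nat_lit 471) (nat_lit 396) (nat_lit 333)))) (XT.nd (nat_lit 156) (nat_lit 76) (nat_lit 0) (XT.nd (nat_lit 78) (nat_lit 76)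 (nat_lit 0) (XT.lf (nat_lit 0) (nat_lit 3601852305) (nat_lit 152) (nat_lit 9677166736) (nat_lit 76) (nat_lit 22403930262) (nat_lit 26) (nat_lit 5) (nat_lit 28) (nat_lit 5) (nat_lit 27) (nat_lit 4) (nat_lit 472) (nat_lit 396) (nat_lit 332)) (XT.lf (nat_lit 0) (nat_lit 7941329749) (nat_lit 76) (nat_lit 4273170098) (nat_lit 152) (nat_lit 24788007788) (nat_lit 25) (nat_lit 5) (nat_lit 26) (nat_lit 5) (nat_lit 27) (nat_lit 4) (nat_lit 473) (nat_lit 396) (nat_lit 331))) (XT.nd (nat_lit 78) (nat_lit 76) (nat_lit 0) (XT.lf (nat_lit 0) (nat_lit 21469077570) (nat_lit 152) (nat_lit 11757462271) (nat_lit 0) (nat_lit 5150940917) (nat_lit 25) (nat_lit 5) (nat_lit 27) (nat_lit 4) (nat_lit 25) (nat_lit 4) (nat_lit 474) (nat_lit 396) (nat_lit 330)) (XT.lf (nat_lit 0) (nat_lit 6481476980) (nat_lit 76) (nat_lit 24841679775) (nat_lit 76) (nat_lit 8491208838) (nat_lit 24) (nat_lit 4) (nat_lit 25) (nat_lit 5) (nat_lit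 25) (nat_lit 4) (nat_lit 475) (nat_lit 396) (nat_lit 329))))) (XT.nd (nat_lit 234) (nat_lit 228) (nat_lit 0) (XT.nd (nat_lit 78) (nat_lit 76) (nat_lit 0) (XT.lf (nat_lit 0) (nat_lit 503703317) (nat_lit 152) (nat_lit 15348673691) (nat_lit 76) (nat_lit 25462050460) (nat_lit 23) (nat_lit 5) (nat_lit 25) (nat_lit 5) (nat_lit 24) (nat_lit 4) (nat_lit 476) (nat_lit 396) (nat_lit 328)) (XT.nd (nat_lit 78) (nat_lit 0) (nat_lit 0) (XT.lf (nat_lit 0) (nat_lit 3441500175) (nat_lit 76) (nat_lit 6242448027) (nat_lit 152) (nat_lit 33197538310) (nat_lit 22) (nat_lit 5) (nat_lit 23) (nat_lit 5) (nat_lit 24) (nat_lit 4) (nat_lit 477) (nat_lit 396) (nat_lit 327)) (XT.lf (nat_lit 0) (nat_lit 19614789115) (nat_lit 152) (nat_lit 20938480769) (nat_lit 0) (nat_lit 3959050820) (nat_lit 22) (nat_lit 5) (nat_lit 24) (nat_lit 4) (nat_lit 22) (nat_lit 4) (nat_lit 478) (nat_lit 396) (nat_lit 326)))) (XT.nd (nat_lit 156)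 (nat_lit 152) (nat_lit 0) (XT.nd (nat_lit 78) (nat_lit 76) (nat_lit 0) (XT.lf (nat_lit 0) (nat_lit 30113371658) (nat_lit 152) (nat_lit 1675467680) (nat_lit 0) (nat_lit 14432298605) (nat_lit 22) (nat_lit 5) (nat_lit 24) (nat_lit 4) (nat_lit 22) (nat_lit 4) (nat_lit 479) (nat_lit 396) (nat_lit 325)) (XT.lf (nat_lit 0) (nat_lit 19103820928) (nat_lit 76) (nat_lit 22301673603) (nat_lit 76) (nat_lit 6596472210) (nat_lit 21) (nat_lit 4) (nat_lit 22) (nat_lit 5) (nat_lit 22) (nat_lit 4) (nat_lit 480) (nat_lit 396) (nat_lit 324))) (XT.nd (nat_lit 78) (nat_lit 76) (nat_lit 0) (XT.lf (nat_lit 0) (nat_lit 3281097499) (nat_lit 152) (nat_lit 9001930890) (nat_lit 76) (nat_lit 37586201831) (nat_lit 20) (nat_lit 5) (nat_lit 22) (nat_lit 5) (nat_lit 21) (nat_lit 4) (nat_lit 481) (nat_lit 396) (nat_lit 323)) (XT.lf (nat_lit 0) (nat_lit 12113072249) (nat_lit 76) (nat_lit 1478702447) (nat_lit 152) (nat_lit 38224630631)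 (nat_lit 19) (nat_lit 5) (nat_lit 20) (nat_lit 5) (nat_lit 21) (nat_lit 4) (nat_lit 482) (nat_lit 396) (nat_lit 322))))))))
noncomputable def xc85 : XT := (XT.nd (nat_lit 2184) (nat_lit 304) (nat_lit 0) (XT.nd (nat_lit 1092) (nat_lit 380) (nat_lit 0) (XT.nd (nat_lit 546) (nat_lit 304) (nat_lit 0) (XT.nd (nat_lit 234) (nat_lit 152) (nat_lit 0) (XT.nd (nat_lit 78) (nat_lit 76) (nat_lit 0) (XT.lf (nat_lit 0) (nat_lit 24698833531) (nat_lit 152) (nat_lit 19469143962) (nat_lit 0) (nat_lit 9678920342) (nat_lit 19) (nat_lit 5) (nat_lit 21) (nat_lit 4) (nat_lit 19) (nat_lit 4) (nat_lit 483) (nat_lit 396) (nat_lit 321)) (XT.nd (nat_lit 78) (nat_lit 0) (nat_lit 0) (XT.lf (nat_lit 0) (nat_lit 1755710122) (nat_lit 76) (nat_lit 34630390714) (nat_lit 76) (nat_lit 19591572339) (nat_lit 18) (nat_lit 4) (nat_lit 19) (nat_lit 5) (nat_lit 19) (nat_lit 4) (nat_lit 484) (nat_lit 396) (nat_lit 320)) (XT.lf (nat_lit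 0) (nat_lit 24665589267) (nat_lit 76) (nat_lit 24295526525) (nat_lit 76) (nat_lit 9238703212) (nat_lit 18) (nat_lit 4) (nat_lit 19) (nat_lit 5) (nat_lit 19) (nat_lit 4) (nat_lit 485) (nat_lit 396) (nat_lit 319)))) (XT.nd (nat_lit 156) (nat_lit 0) (nat_lit 0) (XT.nd (nat_lit 78) (nat_lit 76) (nat_lit 0) (XT.lf (nat_lit 0) (nat_lit 1554088216) (nat_lit 152) (nat_lit 11888090030) (nat_lit 76) (nat_lit 47090895526) (nat_lit 17) (nat_lit 5) (nat_lit 19) (nat_lit 5) (nat_lit 18) (nat_lit 4) (nat_lit 486) (nat_lit 396) (nat_lit 318)) (XT.lf (nat_lit 0) (nat_lit 10992637311) (nat_lit 76) (nat_lit 1730747662) (nat_lit 152) (nat_lit 50244667069) (nat_lit 16) (nat_lit 5) (nat_lit 17) (nat_lit 5) (nat_lit 18) (nat_lit 4) (nat_lit 487) (nat_lit 396) (nat_lit 317))) (XT.nd (nat_lit 78) (nat_lit 0) (nat_lit 0) (XT.lf (nat_lit 0) (nat_lit 24796518387) (nat_lit 152) (nat_lit 30301003420) (nat_lit 0) (nat_lit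 10409989598) (nat_lit 16) (nat_lit 5) (nat_lit 18) (nat_lit 4) (nat_lit 16) (nat_lit 4) (nat_lit 488) (nat_lit 396) (nat_lit 316)) (XT.lf (nat_lit 0) (nat_lit 37478607018) (nat_lit 152) (nat_lit 7617101636) (nat_lit 0) (nat_lit 23077970888) (nat_lit 16) (nat_lit 5) (nat_lit 18) (nat_lit 4) (nat_lit 16) (nat_lit 4) (nat_lit 489) (nat_lit 396) (nat_lit 315))))) (XT.nd (nat_lit 234) (nat_lit 152) (nat_lit 0) (XT.nd (nat_lit 78) (nat_lit 76) (nat_lit 0) (XT.lf (nat_lit 0) (nat_lit 16691555756) (nat_lit 76) (nat_lit 34341870702) (nat_lit 76) (nat_lit 19927799010) (nat_lit 15) (nat_lit 4) (nat_lit 16) (nat_lit 5) (nat_lit 16) (nat_lit 4) (nat_lit 490) (nat_lit 396) (nat_lit 314)) (XT.nd (nat_lit 78) (nat_lit 76) (nat_lit 0) (XT.lf (nat_lit 0) (nat_lit 42437125493) (nat_lit 76) (nat_lit 22936260681) (nat_lit 76) (nat_lit 8509393215) (nat_lit 15) (nat_lit 4) (nat_lit 16) (nat_lit 5) (nat_lit 16) (nat_lit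 4) (nat_lit 491) (nat_lit 396) (nat_lit 313)) (XT.lf (nat_lit 0) (nat_lit 3347644008) (nat_lit 152) (nat_lit 7576383700) (nat_lit 76) (nat_lit 66024712791) (nat_lit 14) (nat_lit 5) (nat_lit 16) (nat_lit 5) (nat_lit 15) (nat_lit 4) (nat_lit 492) (nat_lit 396) (nat_lit 312)))) (XT.nd (nat_lit 156) (nat_lit 76) (nat_lit 0) (XT.nd (nat_lit 78) (nat_lit 0) (nat_lit 0) (XT.lf (nat_lit 0) (nat_lit 15803719120) (nat_lit 152) (nat_lit 62301512606) (nat_lit 0) (nat_lit 2041185728) (nat_lit 13) (nat_lit 5) (nat_lit 15) (nat_lit 4) (nat_lit 13) (nat_lit 4) (nat_lit 493) (nat_lit 396) (nat_lit 311)) (XT.lf (nat_lit 0) (nat_lit 29172216238) (nat_lit 152) (nat_lit 38918125925) (nat_lit 0) (nat_lit 15399155731) (nat_lit 13) (nat_lit 5) (nat_lit 15) (nat_lit 4) (nat_lit 13) (nat_lit 4) (nat_lit 494) (nat_lit 396) (nat_lit 310))) (XT.nd (nat_lit 78) (nat_lit 76) (nat_lit 0) (XT.lf (nat_lit 0) (nat_lit 43190207417)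 (nat_lit 152) (nat_lit 14403350913) (nat_lit 0) (nat_lit 29407121087) (nat_lit 13) (nat_lit 5) (nat_lit 15) (nat_lit 4) (nat_lit 13) (nat_lit 4) (nat_lit 495) (nat_lit 396) (nat_lit 309)) (XT.lf (nat_lit 0) (nat_lit 11674849020) (nat_lit 76) (nat_lit 46398496919) (nat_lit 76) (nat_lit 32605862185) (nat_lit 12) (nat_lit 4) (nat_lit 13) (nat_lit 5) (nat_lit 13) (nat_lit 4) (nat_lit 496) (nat_lit 396) (nat_lit 308)))))) (XT.nd (nat_lit 546) (nat_lit 228) (nat_lit 0) (XT.nd (nat_lit 234) (nat_lit 76) (nat_lit 0) (XT.nd (nat_lit 78) (nat_lit 76) (nat_lit 0) (XT.lf (nat_lit 0) (nat_lit 39521609215) (nat_lit 76) (nat_lit 34405236382) (nat_lit 76) (nat_lit 20603507930) (nat_lit 12) (nat_lit 4) (nat_lit 13) (nat_lit 5) (nat_lit 13) (nat_lit 4) (nat_lit 497) (nat_lit 396) (nat_lit 307)) (XT.nd (nat_lit 78) (nat_lit 76) (nat_lit 0) (XT.lf (nat_lit 0) (nat_lit 68726991654) (nat_lit 76) (nat_lit 21829149055)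 (nat_lit 76) (nat_lit 8018759920) (nat_lit 12) (nat_lit 4) (nat_lit 13) (nat_lit 5) (nat_lit 13) (nat_lit 4) (nat_lit 498) (nat_lit 396) (nat_lit 306)) (XT.lf (nat_lit 0) (nat_lit 5012606135) (nat_lit 152) (nat_lit 3542794828) (nat_lit 76) (nat_lit 94263035916) (nat_lit 11) (nat_lit 5) (nat_lit 13) (nat_lit 5) (nat_lit 12) (nat_lit 4) (nat_lit 499) (nat_lit 396) (nat_lit 305)))) (XT.nd (nat_lit 156) (nat_lit 0) (nat_lit 0) (XT.nd (nat_lit 78) (nat_lit 0) (nat_lit 0) (XT.lf (nat_lit 0) (nat_lit 18888486641) (nat_lit 152) (nat_lit 82635571316) (nat_lit 0) (nat_lit 5720398164) (nat_lit 10) (nat_lit 5) (nat_lit 12) (nat_lit 4) (nat_lit 10) (nat_lit 4) (nat_lit 500) (nat_lit 396) (nat_lit 304)) (XT.lf (nat_lit 0) (nat_lit 33643859111) (nat_lit 152) (nat_lit 57769987220) (nat_lit 0) (nat_lit 20468645469) (nat_lit 10) (nat_lit 5) (nat_lit 12) (nat_lit 4) (nat_lit 10) (nat_lit 4) (nat_lit 501) (nat_lit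 396) (nat_lit 303))) (XT.nd (nat_lit 78) (nat_lit 0) (nat_lit 0) (XT.lf (nat_lit 0) (nat_lit 49122202995) (nat_lit 152) (nat_lit 31690763001) (nat_lit 0) (nat_lit 35940203481) (nat_lit 10) (nat_lit 5) (nat_lit 12) (nat_lit 4) (nat_lit 10) (nat_lit 4) (nat_lit 502) (nat_lit 396) (nat_lit 302)) (XT.lf (nat_lit 0) (nat_lit 65360371493) (nat_lit 152) (nat_lit 4335805268) (nat_lit 0) (nat_lit 52171909243) (nat_lit 10) (nat_lit 5) (nat_lit 12) (nat_lit 4) (nat_lit 10) (nat_lit 4) (nat_lit 503) (nat_lit 396) (nat_lit 301))))) (XT.nd (nat_lit 234) (nat_lit 152) (nat_lit 0) (XT.nd (nat_lit 78) (nat_lit 0) (nat_lit 0) (XT.lf (nat_lit 0) (nat_lit 25165469001) (nat_lit 76) (nat_lit 57624461405) (nat_lit 76) (nat_lit 44429844169) (nat_lit 9) (nat_lit 4) (nat_lit 10) (nat_lit 5) (nat_lit 10) (nat_lit 4) (nat_lit 504) (nat_lit 396) (nat_lit 300)) (XT.nd (nat_lit 78) (nat_lit 0) (nat_lit 0) (XT.lf (nat_lit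 0) (nat_lit 56265886438) (nat_lit 76) (nat_lit 44885314446) (nat_lit 76) (nat_lit 31684835318) (nat_lit 9) (nat_lit 4) (nat_lit 10) (nat_lit 5) (nat_lit 10) (nat_lit 4) (nat_lit 505) (nat_lit 396) (nat_lit 299)) (XT.lf (nat_lit 0) (nat_lit 88896134350) (nat_lit 76) (nat_lit 31521833540) (nat_lit 76) (nat_lit 18315771658) (nat_lit 9) (nat_lit 4) (nat_lit 10) (nat_lit 5) (nat_lit 10) (nat_lit 4) (nat_lit 506) (nat_lit 396) (nat_lit 298)))) (XT.nd (nat_lit 156) (nat_lit 0) (nat_lit 0) (XT.nd (nat_lit 78) (nat_lit 152) (nat_lit 0) (XT.lf (nat_lit 0) (nat_lit 123133903806) (nat_lit 76) (nat_lit 17502200876) (nat_lit 76) (nat_lit 4290822086) (nat_lit 9) (nat_lit 4) (nat_lit 10) (nat_lit 5) (nat_lit 10) (nat_lit 4) (nat_lit 507) (nat_lit 396) (nat_lit 297)) (XT.lf (nat_lit 0) (nat_lit 7714544790) (nat_lit 76) (nat_lit 2495692918) (nat_lit 152) (nat_lit 141205946623) (nat_lit 7) (nat_lit 5) (nat_lit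 8) (nat_lit 5) (nat_lit 9) (nat_lit 4) (nat_lit 508) (nat_lit 396) (nat_lit 296))) (XT.nd (nat_lit 78) (nat_lit 0) (nat_lit 0) (XT.lf (nat_lit 0) (nat_lit 25862750175) (nat_lit 152) (nat_lit 119064038674) (nat_lit 0) (nat_lit 13271069123) (nat_lit 7) (nat_lit 5) (nat_lit 9) (nat_lit 4) (nat_lit 7) (nat_lit 4) (nat_lit 509) (nat_lit 396) (nat_lit 295)) (XT.lf (nat_lit 0) (nat_lit 42327782282) (nat_lit 152) (nat_lit 93257611543) (nat_lit 0) (nat_lit 29731726996) (nat_lit 7) (nat_lit 5) (nat_lit 9) (nat_lit 4) (nat_lit 7) (nat_lit 4) (nat_lit 510) (nat_lit 396) (nat_lit 294))))))) (XT.nd (nat_lit 1092) (nat_lit 76) (nat_lit 0) (XT.nd (nat_lit 546) (nat_lit 152) (nat_lit 0) (XT.nd (nat_lit 234) (nat_lit 76) (nat_lit 0) (XT.nd (nat_lit 78) (nat_lit 0) (nat_lit 0) (XT.lf (nat_lit 0) (nat_lit 59605571727) (nat_lit 152) (nat_lit 66181949512) (nat_lit 0) (nat_lit 47005350505) (nat_lit 7) (nat_lit 5)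 (nat_lit 9) (nat_lit 4) (nat_lit 7) (nat_lit 4) (nat_lit 511) (nat_lit 396) (nat_lit 293)) (XT.nd (nat_lit 78) (nat_lit 0) (nat_lit 0) (XT.lf (nat_lit 0) (nat_lit 77737256103) (nat_lit 152) (nat_lit 37772586720) (nat_lit 0) (nat_lit 65133067322) (nat_lit 7) (nat_lit 5) (nat_lit 9) (nat_lit 4) (nat_lit 7) (nat_lit 4) (nat_lit 512) (nat_lit 396) (nat_lit 292)) (XT.lf (nat_lit 0) (nat_lit 96766006088) (nat_lit 152) (nat_lit 7961881828) (nat_lit 0) (nat_lit 84158038679) (nat_lit 7) (nat_lit 5) (nat_lit 9) (nat_lit 4) (nat_lit 7) (nat_lit 4) (nat_lit 513) (nat_lit 396) (nat_lit 291)))) (XT.nd (nat_lit 156) (nat_lit 0) (nat_lit 0) (XT.nd (nat_lit 78) (nat_lit 0) (nat_lit 0) (XT.lf (nat_lit 0) (nat_lit 24092245344) (nat_lit 76) (nat_lit 93021030353) (nat_lit 76) (nat_lit 80409464251) (nat_lit 6) (nat_lit 4) (nat_lit 7) (nat_lit 5) (nat_lit 7) (nat_lit 4) (nat_lit 514) (nat_lit 396) (nat_lit 290))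 (XT.lf (nat_lit 0) (nat_lit 58007575953) (nat_lit 76) (nat_lit 80596257689) (nat_lit 76) (nat_lit 67981264261) (nat_lit 6) (nat_lit 4) (nat_lit 7) (nat_lit 5) (nat_lit 7) (nat_lit 4) (nat_lit 515) (nat_lit 396) (nat_lit 289))) (XT.nd (nat_lit 78) (nat_lit 0) (nat_lit 0) (XT.lf (nat_lit 0) (nat_lit 93601605017) (nat_lit 76) (nat_lit 67558825455) (nat_lit 76) (nat_lit 54940567906) (nat_lit 6) (nat_lit 4) (nat_lit 7) (nat_lit 5) (nat_lit 7) (nat_lit 4) (nat_lit 516) (nat_lit 396) (nat_lit 288)) (XT.lf (nat_lit 0) (nat_lit 130959080223) (nat_lit 76) (nat_lit 53877692144) (nat_lit 76) (nat_lit 41256325909) (nat_lit 6) (nat_lit 4) (nat_lit 7) (nat_lit 5) (nat_lit 7) (nat_lit 4) (nat_lit 517) (nat_lit 396) (nat_lit 287))))) (XT.nd (nat_lit 234) (nat_lit 76) (nat_lit 0) (XT.nd (nat_lit 78) (nat_lit 76) (nat_lit 0) (XT.lf (nat_lit 0) (nat_lit 170168947941) (nat_lit 76) (nat_lit 39520283630) (nat_lit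 76) (nat_lit 26895956741) (nat_lit 6) (nat_lit 4) (nat_lit 7) (nat_lit 5) (nat_lit 7) (nat_lit 4) (nat_lit 518) (nat_lit 396) (nat_lit 286)) (XT.nd (nat_lit 78) (nat_lit 76) (nat_lit 0) (XT.lf (nat_lit 0) (nat_lit 211324564999) (nat_lit 76) (nat_lit 24452415607) (nat_lit 76) (nat_lit 11825269048) (nat_lit 6) (nat_lit 4) (nat_lit 7) (nat_lit 5) (nat_lit 7) (nat_lit 4) (nat_lit 519) (nat_lit 396) (nat_lit 285)) (XT.lf (nat_lit 0) (nat_lit 3863862999) (nat_lit 152) (nat_lit 4708912809) (nat_lit 76) (nat_lit 250594621572) (nat_lit 5) (nat_lit 5) (nat_lit 7) (nat_lit 5) (nat_lit 6) (nat_lit 4) (nat_lit 520) (nat_lit 396) (nat_lit 284)))) (XT.nd (nat_lit 156) (nat_lit 0) (nat_lit 0) (XT.nd (nat_lit 78) (nat_lit 0) (nat_lit 0) (XT.lf (nat_lit 0) (nat_lit 20525633407) (nat_lit 152) (nat_lit 242251410671) (nat_lit 0) (nat_lit 8494786281) (nat_lit 4) (nat_lit 5) (nat_lit 6) (nat_lit 4) (nat_lit 4) (nat_lit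 4) (nat_lit 521) (nat_lit 396) (nat_lit 283)) (XT.lf (nat_lit 0) (nat_lit 38235332159) (nat_lit 152) (nat_lit 219533245674) (nat_lit 0) (nat_lit 26202165283) (nat_lit 4) (nat_lit 5) (nat_lit 6) (nat_lit 4) (nat_lit 4) (nat_lit 4) (nat_lit 522) (nat_lit 396) (nat_lit 282))) (XT.nd (nat_lit 78) (nat_lit 0) (nat_lit 0) (XT.lf (nat_lit 0) (nat_lit 56824084857) (nat_lit 152) (nat_lit 195692129624) (nat_lit 0) (nat_lit 44788708696) (nat_lit 4) (nat_lit 5) (nat_lit 6) (nat_lit 4) (nat_lit 4) (nat_lit 4) (nat_lit 523) (nat_lit 396) (nat_lit 281)) (XT.lf (nat_lit 0) (nat_lit 76336150435) (nat_lit 152) (nat_lit 170671297959) (nat_lit 0) (nat_lit 64298670193) (nat_lit 4) (nat_lit 5) (nat_lit 6) (nat_lit 4) (nat_lit 4) (nat_lit 4) (nat_lit 524) (nat_lit 396) (nat_lit 280)))))) (XT.nd (nat_lit 546) (nat_lit 0) (nat_lit 0) (XT.nd (nat_lit 234) (nat_lit 76) (nat_lit 0) (XT.nd (nat_lit 78) (nat_lit 0) (nat_lit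 0) (XT.lf (nat_lit 0) (nat_lit 96817986193) (nat_lit 152) (nat_lit 144411177269) (nat_lit 0) (nat_lit 84778502064) (nat_lit 4) (nat_lit 5) (nat_lit 6) (nat_lit 4) (nat_lit 4) (nat_lit 4) (nat_lit 525) (nat_lit 396) (nat_lit 279)) (XT.nd (nat_lit 78) (nat_lit 0) (nat_lit 0) (XT.lf (nat_lit 0) (nat_lit 118318358407) (nat_lit 152) (nat_lit 116849243459) (nat_lit 0) (nat_lit 106276965814) (nat_lit 4) (nat_lit 5) (nat_lit 6) (nat_lit 4) (nat_lit 4) (nat_lit 4) (nat_lit 526) (nat_lit 396) (nat_lit 278)) (XT.lf (nat_lit 0) (nat_lit 140888458438) (nat_lit 152) (nat_lit 87919872875) (nat_lit 0) (nat_lit 128845248261) (nat_lit 4) (nat_lit 5) (nat_lit 6) (nat_lit 4) (nat_lit 4) (nat_lit 4) (nat_lit 527) (nat_lit 396) (nat_lit 277)))) (XT.nd (nat_lit 156) (nat_lit 76) (nat_lit 0) (XT.nd (nat_lit 78) (nat_lit 0) (nat_lit 0) (XT.lf (nat_lit 0) (nat_lit 164582024620) (nat_lit 152) (nat_lit 57554186065) (nat_lit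 0) (nat_lit 152537083410) (nat_lit 4) (nat_lit 5) (nat_lit 6) (nat_lit 4) (nat_lit 4) (nat_lit 4) (nat_lit 528) (nat_lit 396) (nat_lit 276)) (XT.lf (nat_lit 0) (nat_lit 189455470207) (nat_lit 152) (nat_lit 25679883774) (nat_lit 0) (nat_lit 177408880394) (nat_lit 4) (nat_lit 5) (nat_lit 6) (nat_lit 4) (nat_lit 4) (nat_lit 4) (nat_lit 529) (nat_lit 396) (nat_lit 275))) (XT.nd (nat_lit 78) (nat_lit 0) (nat_lit 0) (XT.lf (nat_lit 0) (nat_lit 8036131591) (nat_lit 76) (nat_lit 207657352631) (nat_lit 76) (nat_lit 195609192720) (nat_lit 3) (nat_lit 4) (nat_lit 4) (nat_lit 5) (nat_lit 4) (nat_lit 4) (nat_lit 530) (nat_lit 396) (nat_lit 274)) (XT.lf (nat_lit 0) (nat_lit 44320435388) (nat_lit 76) (nat_lit 199353370608) (nat_lit 76) (nat_lit 187303715366) (nat_lit 3) (nat_lit 4) (nat_lit 4) (nat_lit 5) (nat_lit 4) (nat_lit 4) (nat_lit 531) (nat_lit 396) (nat_lit 273))))) (XT.nd (nat_lit 312) (nat_lit 0)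 (nat_lit 0) (XT.nd (nat_lit 156) (nat_lit 0) (nat_lit 0) (XT.nd (nat_lit 78) (nat_lit 0) (nat_lit 0) (XT.lf (nat_lit 0) (nat_lit 82410325885) (nat_lit 76) (nat_lit 190638537784) (nat_lit 76) (nat_lit 178587458417) (nat_lit 3) (nat_lit 4) (nat_lit 4) (nat_lit 5) (nat_lit 4) (nat_lit 4) (nat_lit 532) (nat_lit 396) (nat_lit 272)) (XT.lf (nat_lit 0) (nat_lit 122396493298) (nat_lit 76) (nat_lit 181492104558) (nat_lit 76) (nat_lit 169439668882) (nat_lit 3) (nat_lit 4) (nat_lit 4) (nat_lit 5) (nat_lit 4) (nat_lit 4) (nat_lit 533) (nat_lit 396) (nat_lit 271))) (XT.nd (nat_lit 78) (nat_lit 0) (nat_lit 0) (XT.lf (nat_lit 0) (nat_lit 164374142786) (nat_lit 76) (nat_lit 171892293707) (nat_lit 76) (nat_lit 159838566307) (nat_lit 3) (nat_lit 4) (nat_lit 4) (nat_lit 5) (nat_lit 4) (nat_lit 4) (nat_lit 534) (nat_lit 396) (nat_lit 270)) (XT.lf (nat_lit 0) (nat_lit 208443221135) (nat_lit 76) (nat_lit 161816248539)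 (nat_lit 76) (nat_lit 149761290926) (nat_lit 3) (nat_lit 4) (nat_lit 4) (nat_lit 5) (nat_lit 4) (nat_lit 4) (nat_lit 535) (nat_lit 396) (nat_lit 269)))) (XT.nd (nat_lit 156) (nat_lit 0) (nat_lit 0) (XT.nd (nat_lit 78) (nat_lit 0) (nat_lit 0) (XT.lf (nat_lit 0) (nat_lit 254708654721) (nat_lit 76) (nat_lit 151239978470) (nat_lit 76) (nat_lit 139183849226) (nat_lit 3) (nat_lit 4) (nat_lit 4) (nat_lit 5) (nat_lit 4) (nat_lit 4) (nat_lit 536) (nat_lit 396) (nat_lit 268)) (XT.lf (nat_lit 0) (nat_lit 303280599339) (nat_lit 76) (nat_lit 140138301904) (nat_lit 76) (nat_lit 128081056821) (nat_lit 3) (nat_lit 4) (nat_lit 4) (nat_lit 5) (nat_lit 4) (nat_lit 4) (nat_lit 537) (nat_lit 396) (nat_lit 267))) (XT.nd (nat_lit 78) (nat_lit 0) (nat_lit 0) (XT.lf (nat_lit 0) (nat_lit 354274702475) (nat_lit 76) (nat_lit 128484786279) (nat_lit 76) (nat_lit 116426478492) (nat_lit 3) (nat_lit 4) (nat_lit 4) (nat_lit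 5) (nat_lit 4) (nat_lit 4) (nat_lit 538) (nat_lit 396) (nat_lit 266)) (XT.lf (nat_lit 0) (nat_lit 407812378662) (nat_lit 76) (nat_lit 116251685128) (nat_lit 76) (nat_lit 104192365243) (nat_lit 3) (nat_lit 4) (nat_lit 4) (nat_lit 5) (nat_lit 4) (nat_lit 4) (nat_lit 539) (nat_lit 396) (nat_lit 265))))))))
noncomputable def xc86 : XT := (XT.nd (nat_lit 53820) (nat_lit 0) (nat_lit 2660) (XT.nd (nat_lit 52728) (nat_lit 0) (nat_lit 6308) (XT.nd (nat_lit 52182) (nat_lit 0) (nat_lit 10640) (XT.nd (nat_lit 234) (nat_lit 0) (nat_lit 0) (XT.nd (nat_lit 78) (nat_lit 0) (nat_lit 0) (XT.lf (nat_lit 0) (nat_lit 464021098556) (nat_lit 76) (nat_lit 103409872021) (nat_lit 76) (nat_lit 91349588232) (nat_lit 3) (nat_lit 4) (nat_lit 4) (nat_lit 5) (nat_lit 4) (nat_lit 4) (nat_lit 540) (nat_lit 396) (nat_lit 264)) (XT.nd (nat_lit 78) (nat_lit 0) (nat_lit 0) (XT.lf (nat_lit 0) (nat_lit 523034692444) (nat_lit 76)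 (nat_lit 89928771212) (nat_lit 76) (nat_lit 77867569419) (nat_lit 3) (nat_lit 4) (nat_lit 4) (nat_lit 5) (nat_lit 4) (nat_lit 4) (nat_lit 541) (nat_lit 396) (nat_lit 263)) (XT.lf (nat_lit 0) (nat_lit 584993668882) (nat_lit 76) (nat_lit 75776284841) (nat_lit 76) (nat_lit 63714208759) (nat_lit 3) (nat_lit 4) (nat_lit 4) (nat_lit 5) (nat_lit 4) (nat_lit 4) (nat_lit 542) (nat_lit 396) (nat_lit 262)))) (XT.nd (nat_lit 51792) (nat_lit 0) (nat_lit 13148) (XT.nd (nat_lit 78) (nat_lit 0) (nat_lit 0) (XT.lf (nat_lit 0) (nat_lit 650045549242) (nat_lit 76) (nat_lit 60918716514) (nat_lit 76) (nat_lit 48855807775) (nat_lit 3) (nat_lit 4) (nat_lit 4) (nat_lit 5) (nat_lit 4) (nat_lit 4) (nat_lit 543) (nat_lit 396) (nat_lit 261)) (XT.lf (nat_lit 0) (nat_lit 718345218954) (nat_lit 76) (nat_lit 45320691066) (nat_lit 76) (nat_lit 33256989321) (nat_lit 3) (nat_lit 4) (nat_lit 4) (nat_lit 5) (nat_lit 4) (nat_lit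 4) (nat_lit 544) (nat_lit 396) (nat_lit 260))) (XT.nd (nat_lit 78) (nat_lit 76) (nat_lit 0) (XT.lf (nat_lit 0) (nat_lit 896088378) (nat_lit 228) (nat_lit 1188343865) (nat_lit 228) (nat_lit 1188343865) (nat_lit 177) (nat_lit 4) (nat_lit 180) (nat_lit 5) (nat_lit 180) (nat_lit 4) (nat_lit 406) (nat_lit 397) (nat_lit 397)) (XT.lf (nat_lit 0) (nat_lit 817581125) (nat_lit 304) (nat_lit 810014421) (nat_lit 76) (nat_lit 4957492275) (nat_lit 176) (nat_lit 5) (nat_lit 180) (nat_lit 5) (nat_lit 177) (nat_lit 4) (nat_lit 407) (nat_lit 397) (nat_lit 396))))) (XT.nd (nat_lit 234) (nat_lit 1748) (nat_lit 0) (XT.nd (nat_lit 78) (nat_lit 456) (nat_lit 0) (XT.lf (nat_lit 0) (nat_lit 3266965475) (nat_lit 304) (nat_lit 694348342) (nat_lit 380) (nat_lit 2669974473) (nat_lit 172) (nat_lit 5) (nat_lit 176) (nat_lit 5) (nat_lit 177) (nat_lit 4) (nat_lit 408) (nat_lit 397) (nat_lit 395)) (XT.nd (nat_lit 78) (nat_lit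 0) (nat_lit 0) (XT.lf (nat_lit 0) (nat_lit 417933765) (nat_lit 456) (nat_lit 5913382144) (nat_lit 76) (nat_lit 355427572) (nat_lit 166) (nat_lit 5) (nat_lit 172) (nat_lit 5) (nat_lit 167) (nat_lit 4) (nat_lit 409) (nat_lit 397) (nat_lit 394)) (XT.lf (nat_lit 0) (nat_lit 3469147792) (nat_lit 456) (nat_lit 1703677590) (nat_lit 76) (nat_lit 1575126945) (nat_lit 166) (nat_lit 5) (nat_lit 172) (nat_lit 5) (nat_lit 167) (nat_lit 4) (nat_lit 410) (nat_lit 397) (nat_lit 393)))) (XT.nd (nat_lit 156) (nat_lit 684) (nat_lit 0) (XT.nd (nat_lit 78) (nat_lit 608) (nat_lit 0) (XT.lf (nat_lit 0) (nat_lit 2668394137) (nat_lit 456) (nat_lit 3883661675) (nat_lit 532) (nat_lit 266305661) (nat_lit 160) (nat_lit 5) (nat_lit 166) (nat_lit 5) (nat_lit 167) (nat_lit 4) (nat_lit 411) (nat_lit 397) (nat_lit 392)) (XT.lf (nat_lit 0) (nat_lit 253036080) (nat_lit 532) (nat_lit 2424842433) (nat_lit 608) (nat_lit 4218549908)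 (nat_lit 152) (nat_lit 5) (nat_lit 159) (nat_lit 5) (nat_lit 160) (nat_lit 5) (nat_lit 412) (nat_lit 397) (nat_lit 391))) (XT.nd (nat_lit 78) (nat_lit 684) (nat_lit 0) (XT.lf (nat_lit 0) (nat_lit 4881231433) (nat_lit 532) (nat_lit 795297463) (nat_lit 608) (nat_lit 1305924589) (nat_lit 152) (nat_lit 5) (nat_lit 159) (nat_lit 5) (nat_lit 160) (nat_lit 5) (nat_lit 413) (nat_lit 397) (nat_lit 390)) (XT.lf (nat_lit 0) (nat_lit 1603197451) (nat_lit 684) (nat_lit 4502099095) (nat_lit 76) (nat_lit 970843393) (nat_lit 143) (nat_lit 5) (nat_lit 152) (nat_lit 5) (nat_lit 144) (nat_lit 5) (nat_lit 414) (nat_lit 397) (nat_lit 389)))))) (XT.nd (nat_lit 546) (nat_lit 1596) (nat_lit 0) (XT.nd (nat_lit 234) (nat_lit 1216) (nat_lit 0) (XT.nd (nat_lit 78) (nat_lit 836) (nat_lit 0) (XT.lf (nat_lit 0) (nat_lit 216730896) (nat_lit 684) (nat_lit 4305856949) (nat_lit 760) (nat_lit 2655489473) (nat_lit 134) (nat_lit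 5) (nat_lit 143) (nat_lit 5) (nat_lit 144) (nat_lit 5) (nat_lit 415) (nat_lit 397) (nat_lit 388)) (XT.nd (nat_lit 78) (nat_lit 760) (nat_lit 0) (XT.lf (nat_lit 0) (nat_lit 229125768) (nat_lit 760) (nat_lit 2100444722) (nat_lit 76) (nat_lit 4958570889) (nat_lit 133) (nat_lit 5) (nat_lit 143) (nat_lit 5) (nat_lit 134) (nat_lit 5) (nat_lit 416) (nat_lit 397) (nat_lit 387)) (XT.lf (nat_lit 0) (nat_lit 2919140678) (nat_lit 760) (nat_lit 160390987) (nat_lit 836) (nat_lit 4326522479) (nat_lit 123) (nat_lit 5) (nat_lit 133) (nat_lit 5) (nat_lit 134) (nat_lit 5) (nat_lit 417) (nat_lit 397) (nat_lit 386)))) (XT.nd (nat_lit 156) (nat_lit 760) (nat_lit 0) (XT.nd (nat_lit 78) (nat_lit 76) (nat_lit 0) (XT.lf (nat_lit 0) (nat_lit 580847467) (nat_lit 380) (nat_lit 5439445504) (nat_lit 456) (nat_lit 1512237079) (nat_lit 118) (nat_lit 5) (nat_lit 123) (nat_lit 5) (nat_lit 124) (nat_lit 5) (nat_lit 418) (nat_lit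 397) (nat_lit 385)) (XT.lf (nat_lit 0) (nat_lit 1347959125) (nat_lit 456) (nat_lit 1770873014) (nat_lit 76) (nat_lit 4547856384) (nat_lit 117) (nat_lit 5) (nat_lit 123) (nat_lit 5) (nat_lit 118) (nat_lit 5) (nat_lit 419) (nat_lit 397) (nat_lit 384))) (XT.nd (nat_lit 78) (nat_lit 380) (nat_lit 0) (XT.lf (nat_lit 0) (nat_lit 3626235111) (nat_lit 380) (nat_lit 608354002) (nat_lit 456) (nat_lit 3575065204) (nat_lit 112) (nat_lit 5) (nat_lit 117) (nat_lit 5) (nat_lit 118) (nat_lit 5) (nat_lit 420) (nat_lit 397) (nat_lit 383)) (XT.lf (nat_lit 0) (nat_lit 1267195951) (nat_lit 380) (nat_lit 5961469734) (nat_lit 456) (nat_lit 732995713) (nat_lit 107) (nat_lit 5) (nat_lit 112) (nat_lit 5) (nat_lit 113) (nat_lit 5) (nat_lit 421) (nat_lit 397) (nat_lit 382))))) (XT.nd (nat_lit 234) (nat_lit 912) (nat_lit 0) (XT.nd (nat_lit 78) (nat_lit 608) (nat_lit 0) (XT.lf (nat_lit 0) (nat_lit 2143908295) (nat_lit 456)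 (nat_lit 1167750773) (nat_lit 76) (nat_lit 4809657484) (nat_lit 106) (nat_lit 5) (nat_lit 112) (nat_lit 5) (nat_lit 107) (nat_lit 5) (nat_lit 422) (nat_lit 397) (nat_lit 381)) (XT.nd (nat_lit 78) (nat_lit 304) (nat_lit 0) (XT.lf (nat_lit 0) (nat_lit 4639073650) (nat_lit 304) (nat_lit 461760365) (nat_lit 380) (nat_lit 3189521247) (nat_lit 102) (nat_lit 5) (nat_lit 106) (nat_lit 5) (nat_lit 107) (nat_lit 5) (nat_lit 423) (nat_lit 397) (nat_lit 380)) (XT.lf (nat_lit 0) (nat_lit 2205003951) (nat_lit 304) (nat_lit 5985950545) (nat_lit 380) (nat_lit 277664096) (nat_lit 98) (nat_lit 5) (nat_lit 102) (nat_lit 5) (nat_lit 103) (nat_lit 5) (nat_lit 424) (nat_lit 397) (nat_lit 379)))) (XT.nd (nat_lit 156) (nat_lit 608) (nat_lit 0) (XT.nd (nat_lit 78) (nat_lit 228) (nat_lit 0) (XT.lf (nat_lit 0) (nat_lit 2653870171) (nat_lit 380) (nat_lit 360876668) (nat_lit 76) (nat_lit 5640761877) (nat_lit 97) (nat_lit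 5) (nat_lit 102) (nat_lit 5) (nat_lit 98) (nat_lit 5) (nat_lit 425) (nat_lit 397) (nat_lit 378)) (XT.lf (nat_lit 0) (nat_lit 5715144176) (nat_lit 304) (nat_lit 2964398750) (nat_lit 76) (nat_lit 172382755) (nat_lit 94) (nat_lit 5) (nat_lit 98) (nat_lit 5) (nat_lit 95) (nat_lit 5) (nat_lit 426) (nat_lit 397) (nat_lit 377))) (XT.nd (nat_lit 78) (nat_lit 304) (nat_lit 0) (XT.lf (nat_lit 0) (nat_lit 3327009637) (nat_lit 304) (nat_lit 5610208416) (nat_lit 380) (nat_lit 120591630) (nat_lit 90) (nat_lit 5) (nat_lit 94) (nat_lit 5) (nat_lit 95) (nat_lit 5) (nat_lit 427) (nat_lit 397) (nat_lit 376)) (XT.lf (nat_lit 0) (nat_lit 601157611) (nat_lit 228) (nat_lit 2309405710) (nat_lit 304) (nat_lit 6362993361) (nat_lit 86) (nat_lit 5) (nat_lit 89) (nat_lit 5) (nat_lit 90) (nat_lit 5) (nat_lit 428) (nat_lit 397) (nat_lit 375))))))) (XT.nd (nat_lit 1092) (nat_lit 1672) (nat_lit 0) (XT.nd (nat_lit 546) (nat_lit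 988) (nat_lit 0) (XT.nd (nat_lit 234) (nat_lit 456) (nat_lit 0) (XT.nd (nat_lit 78) (nat_lit 532) (nat_lit 0) (XT.lf (nat_lit 0) (nat_lit 6109253330) (nat_lit 304) (nat_lit 2204424088) (nat_lit 76) (nat_lit 1185341773) (nat_lit 86) (nat_lit 5) (nat_lit 90) (nat_lit 5) (nat_lit 87) (nat_lit 5) (nat_lit 429) (nat_lit 397) (nat_lit 374)) (XT.nd (nat_lit 78) (nat_lit 304) (nat_lit 0) (XT.lf (nat_lit 0) (nat_lit 4565465212) (nat_lit 228) (nat_lit 4919484618) (nat_lit 304) (nat_lit 249978541) (nat_lit 83) (nat_lit 5) (nat_lit 86) (nat_lit 5) (nat_lit 87) (nat_lit 5) (nat_lit 430) (nat_lit 397) (nat_lit 373)) (XT.lf (nat_lit 0) (nat_lit 1643336042) (nat_lit 228) (nat_lit 1278376741) (nat_lit 304) (nat_lit 7059944836) (nat_lit 79) (nat_lit 5) (nat_lit 82) (nat_lit 5) (nat_lit 83) (nat_lit 5) (nat_lit 431) (nat_lit 397) (nat_lit 372)))) (XT.nd (nat_lit 156) (nat_lit 228) (nat_lit 0) (XT.nd (nat_lit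 78) (nat_lit 228) (nat_lit 0) (XT.lf (nat_lit 0) (nat_lit 6282843945) (nat_lit 304) (nat_lit 1437794977) (nat_lit 76) (nat_lit 2517940149) (nat_lit 79) (nat_lit 5) (nat_lit 83) (nat_lit 5) (nat_lit 80) (nat_lit 5) (nat_lit 432) (nat_lit 397) (nat_lit 371)) (XT.lf (nat_lit 0) (nat_lit 5847842883) (nat_lit 228) (nat_lit 3991249254) (nat_lit 304) (nat_lit 667923767) (nat_lit 76) (nat_lit 5) (nat_lit 79) (nat_lit 5) (nat_lit 80) (nat_lit 5) (nat_lit 433) (nat_lit 397) (nat_lit 370))) (XT.nd (nat_lit 78) (nat_lit 0) (nat_lit 0) (XT.lf (nat_lit 0) (nat_lit 2674861044) (nat_lit 152) (nat_lit 2353191) (nat_lit 228) (nat_lit 8110404564) (nat_lit 73) (nat_lit 5) (nat_lit 75) (nat_lit 5) (nat_lit 76) (nat_lit 5) (nat_lit 434) (nat_lit 397) (nat_lit 369)) (XT.lf (nat_lit 0) (nat_lit 6229665258) (nat_lit 228) (nat_lit 746884871) (nat_lit 76) (nat_lit 4102048388) (nat_lit 73) (nat_lit 5) (nat_lit 76) (nat_lit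 5) (nat_lit 74) (nat_lit 5) (nat_lit 435) (nat_lit 397) (nat_lit 368))))) (XT.nd (nat_lit 234) (nat_lit 532) (nat_lit 0) (XT.nd (nat_lit 78) (nat_lit 228) (nat_lit 0) (XT.lf (nat_lit 0) (nat_lit 7092009797) (nat_lit 228) (nat_lit 2899397431) (nat_lit 304) (nat_lit 1391154944) (nat_lit 70) (nat_lit 5) (nat_lit 73) (nat_lit 5) (nat_lit 74) (nat_lit 5) (nat_lit 436) (nat_lit 397) (nat_lit 367)) (XT.nd (nat_lit 78) (nat_lit 0) (nat_lit 0) (XT.lf (nat_lit 0) (nat_lit 2181069656) (nat_lit 228) (nat_lit 8118008012) (nat_lit 76) (nat_lit 1400252969) (nat_lit 67) (nat_lit 5) (nat_lit 70) (nat_lit 5) (nat_lit 68) (nat_lit 5) (nat_lit 437) (nat_lit 397) (nat_lit 366)) (XT.lf (nat_lit 0) (nat_lit 5929208116) (nat_lit 228) (nat_lit 228120774) (nat_lit 76) (nat_lit 5871281487) (nat_lit 67) (nat_lit 5) (nat_lit 70) (nat_lit 5) (nat_lit 68) (nat_lit 5) (nat_lit 438) (nat_lit 397) (nat_lit 365)))) (XT.nd (nat_lit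 156) (nat_lit 152) (nat_lit 0) (XT.nd (nat_lit 78) (nat_lit 228) (nat_lit 0) (XT.lf (nat_lit 0) (nat_lit 8200599871) (nat_lit 152) (nat_lit 1718540052) (nat_lit 228) (nat_lit 2452509975) (nat_lit 65) (nat_lit 5) (nat_lit 67) (nat_lit 5) (nat_lit 68) (nat_lit 5) (nat_lit 439) (nat_lit 397) (nat_lit 364)) (XT.lf (nat_lit 0) (nat_lit 1377718985) (nat_lit 228) (nat_lit 8452367291) (nat_lit 76) (nat_lit 2898441307) (nat_lit 62) (nat_lit 5) (nat_lit 65) (nat_lit 5) (nat_lit 63) (nat_lit 5) (nat_lit 440) (nat_lit 397) (nat_lit 363))) (XT.nd (nat_lit 78) (nat_lit 0) (nat_lit 0) (XT.lf (nat_lit 0) (nat_lit 1716999) (nat_lit 152) (nat_lit 5343123314) (nat_lit 228) (nat_lit 7755021576) (nat_lit 60) (nat_lit 5) (nat_lit 62) (nat_lit 5) (nat_lit 63) (nat_lit 5) (nat_lit 441) (nat_lit 397) (nat_lit 362)) (XT.lf (nat_lit 0) (nat_lit 9054256624) (nat_lit 152) (nat_lit 528611286) (nat_lit 228) (nat_lit 3903279926)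 (nat_lit 60) (nat_lit 5) (nat_lit 62) (nat_lit 5) (nat_lit 63) (nat_lit 5) (nat_lit 442) (nat_lit 397) (nat_lit 361)))))) (XT.nd (nat_lit 546) (nat_lit 836) (nat_lit 0) (XT.nd (nat_lit 234) (nat_lit 456) (nat_lit 0) (XT.nd (nat_lit 78) (nat_lit 152) (nat_lit 0) (XT.lf (nat_lit 0) (nat_lit 212786998) (nat_lit 228) (nat_lit 9260999988) (nat_lit 76) (nat_lit 4414049634) (nat_lit 57) (nat_lit 5) (nat_lit 60) (nat_lit 5) (nat_lit 58) (nat_lit 5) (nat_lit 443) (nat_lit 397) (nat_lit 360)) (XT.nd (nat_lit 78) (nat_lit 152) (nat_lit 0) (XT.lf (nat_lit 0) (nat_lit 4420872020) (nat_lit 228) (nat_lit 202533441) (nat_lit 76) (nat_lit 9682146188) (nat_lit 57) (nat_lit 5) (nat_lit 60) (nat_lit 5) (nat_lit 58) (nat_lit 5) (nat_lit 444) (nat_lit 397) (nat_lit 359)) (XT.lf (nat_lit 0) (nat_lit 8932445337) (nat_lit 228) (nat_lit 5245667459) (nat_lit 76) (nat_lit 561395662) (nat_lit 55) (nat_lit 5) (nat_lit 58)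 (nat_lit 5) (nat_lit 56) (nat_lit 4) (nat_lit 445) (nat_lit 397) (nat_lit 358)))) (XT.nd (nat_lit 156) (nat_lit 228) (nat_lit 0) (XT.nd (nat_lit 78) (nat_lit 76) (nat_lit 0) (XT.lf (nat_lit 0) (nat_lit 4443068377) (nat_lit 152) (nat_lit 9311510508) (nat_lit 228) (nat_lit 1436344888) (nat_lit 53) (nat_lit 5) (nat_lit 55) (nat_lit 5) (nat_lit 56) (nat_lit 4) (nat_lit 446) (nat_lit 397) (nat_lit 357)) (XT.lf (nat_lit 0) (nat_lit 3078929497) (nat_lit 228) (nat_lit 1023477002) (nat_lit 76) (nat_lit 11558704254) (nat_lit 52) (nat_lit 5) (nat_lit 55) (nat_lit 5) (nat_lit 53) (nat_lit 5) (nat_lit 447) (nat_lit 397) (nat_lit 356))) (XT.nd (nat_lit 78) (nat_lit 76) (nat_lit 0) (XT.lf (nat_lit 0) (nat_lit 7880874768) (nat_lit 228) (nat_lit 6815110503) (nat_lit 76) (nat_lit 1452194008) (nat_lit 50) (nat_lit 5) (nat_lit 53) (nat_lit 5) (nat_lit 51) (nat_lit 4) (nat_lit 448) (nat_lit 397) (nat_lit 355))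 (XT.lf (nat_lit 0) (nat_lit 3523496794) (nat_lit 76) (nat_lit 9479515444) (nat_lit 152) (nat_lit 3652592262) (nat_lit 49) (nat_lit 5) (nat_lit 50) (nat_lit 5) (nat_lit 51) (nat_lit 4) (nat_lit 449) (nat_lit 397) (nat_lit 354))))) (XT.nd (nat_lit 312) (nat_lit 532) (nat_lit 0) (XT.nd (nat_lit 156) (nat_lit 76) (nat_lit 0) (XT.nd (nat_lit 78) (nat_lit 152) (nat_lit 0) (XT.lf (nat_lit 0) (nat_lit 1212451032) (nat_lit 152) (nat_lit 2693753199) (nat_lit 76) (nat_lit 13278384119) (nat_lit 48) (nat_lit 5) (nat_lit 50) (nat_lit 5) (nat_lit 49) (nat_lit 5) (nat_lit 450) (nat_lit 397) (nat_lit 353)) (XT.lf (nat_lit 0) (nat_lit 6304837707) (nat_lit 228) (nat_lit 9392686053) (nat_lit 76) (nat_lit 2034168517) (nat_lit 46) (nat_lit 5) (nat_lit 49) (nat_lit 5) (nat_lit 47) (nat_lit 4) (nat_lit 451) (nat_lit 397) (nat_lit 352))) (XT.nd (nat_lit 78) (nat_lit 0) (nat_lit 0) (XT.lf (nat_lit 0) (nat_lit 1597755626)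 (nat_lit 76) (nat_lit 10133196215) (nat_lit 152) (nat_lit 6571250747) (nat_lit 45) (nat_lit 5) (nat_lit 46) (nat_lit 5) (nat_lit 47) (nat_lit 4) (nat_lit 452) (nat_lit 397) (nat_lit 351)) (XT.lf (nat_lit 0) (nat_lit 13363799024) (nat_lit 76) (nat_lit 4168517678) (nat_lit 152) (nat_lit 1363730742) (nat_lit 45) (nat_lit 5) (nat_lit 46) (nat_lit 5) (nat_lit 47) (nat_lit 4) (nat_lit 453) (nat_lit 397) (nat_lit 350)))) (XT.nd (nat_lit 156) (nat_lit 304) (nat_lit 0) (XT.nd (nat_lit 78) (nat_lit 0) (nat_lit 0) (XT.lf (nat_lit 0) (nat_lit 4051483253) (nat_lit 228) (nat_lit 13311762997) (nat_lit 76) (nat_lit 2149206268) (nat_lit 42) (nat_lit 5) (nat_lit 45) (nat_lit 5) (nat_lit 43) (nat_lit 4) (nat_lit 454) (nat_lit 397) (nat_lit 349)) (XT.lf (nat_lit 0) (nat_lit 9802202474) (nat_lit 228) (nat_lit 1632283955) (nat_lit 76) (nat_lit 8718550290) (nat_lit 42) (nat_lit 5) (nat_lit 45) (nat_lit 5) (nat_lit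 43) (nat_lit 4) (nat_lit 455) (nat_lit 397) (nat_lit 348))) (XT.nd (nat_lit 78) (nat_lit 228) (nat_lit 0) (XT.lf (nat_lit 0) (nat_lit 10886850838) (nat_lit 76) (nat_lit 5073115582) (nat_lit 152) (nat_lit 4859713440) (nat_lit 41) (nat_lit 5) (nat_lit 42) (nat_lit 5) (nat_lit 43) (nat_lit 4) (nat_lit 456) (nat_lit 397) (nat_lit 347)) (XT.lf (nat_lit 0) (nat_lit 920240136) (nat_lit 228) (nat_lit 18999599001) (nat_lit 76) (nat_lit 1596949815) (nat_lit 38) (nat_lit 5) (nat_lit 41) (nat_lit 5) (nat_lit 39) (nat_lit 4) (nat_lit 457) (nat_lit 397) (nat_lit 346))))))))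
noncomputable def xc87 : XT := (XT.nd (nat_lit 2184) (nat_lit 836) (nat_lit 0) (XT.nd (nat_lit 1092) (nat_lit 760) (nat_lit 0) (XT.nd (nat_lit 546) (nat_lit 380) (nat_lit 0) (XT.nd (nat_lit 234) (nat_lit 304) (nat_lit 0) (XT.nd (nat_lit 78) (nat_lit 76) (nat_lit 0) (XT.lf (nat_lit 0) (nat_lit 7030020992) (nat_lit 228) (nat_lit 6564630350) (nat_lit 76) (nat_lit 8639915857) (nat_lit 38) (nat_lit 5) (nat_lit 41) (nat_lit 5) (nat_lit 39) (nat_lit 4) (nat_lit 458) (nat_lit 397) (nat_lit 345)) (XT.nd (nat_lit 78) (nat_lit 0) (nat_lit 0) (XT.lf (nat_lit 0) (nat_lit 6614996444) (nat_lit 76) (nat_lit 6885960779) (nat_lit 152) (nat_lit 9484498069) (nat_lit 37) (nat_lit 5) (nat_lit 38) (nat_lit 5) (nat_lit 39) (nat_lit 4) (nat_lit 459) (nat_lit 397) (nat_lit 344)) (XT.lf (nat_lit 0) (nat_lit 20363563142) (nat_lit 152) (nat_lit 3180190831) (nat_lit 0) (nat_lit 226731724) (nat_lit 37) (nat_lit 5) (nat_lit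 39) (nat_lit 4) (nat_lit 37) (nat_lit 4) (nat_lit 460) (nat_lit 397) (nat_lit 343)))) (XT.nd (nat_lit 156) (nat_lit 152) (nat_lit 0) (XT.nd (nat_lit 78) (nat_lit 0) (nat_lit 0) (XT.lf (nat_lit 0) (nat_lit 3119900553) (nat_lit 152) (nat_lit 13815146054) (nat_lit 76) (nat_lit 7645374027) (nat_lit 35) (nat_lit 5) (nat_lit 37) (nat_lit 5) (nat_lit 36) (nat_lit 4) (nat_lit 461) (nat_lit 397) (nat_lit 342)) (XT.lf (nat_lit 0) (nat_lit 9868336093) (nat_lit 152) (nat_lit 51434884) (nat_lit 76) (nat_lit 15507803969) (nat_lit 35) (nat_lit 5) (nat_lit 37) (nat_lit 5) (nat_lit 36) (nat_lit 4) (nat_lit 462) (nat_lit 397) (nat_lit 341))) (XT.nd (nat_lit 78) (nat_lit 76) (nat_lit 0) (XT.lf (nat_lit 0) (nat_lit 14793012863) (nat_lit 76) (nat_lit 2349307815) (nat_lit 152) (nat_lit 9165363262) (nat_lit 34) (nat_lit 5) (nat_lit 35) (nat_lit 5) (nat_lit 36) (nat_lit 4) (nat_lit 463) (nat_lit 397) (nat_lit 340))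 (XT.lf (nat_lit 0) (nat_lit 3079711955) (nat_lit 76) (nat_lit 21794064407) (nat_lit 76) (nat_lit 2353336600) (nat_lit 33) (nat_lit 4) (nat_lit 34) (nat_lit 5) (nat_lit 34) (nat_lit 4) (nat_lit 464) (nat_lit 397) (nat_lit 339))))) (XT.nd (nat_lit 234) (nat_lit 228) (nat_lit 0) (XT.nd (nat_lit 78) (nat_lit 76) (nat_lit 0) (XT.lf (nat_lit 0) (nat_lit 4839872200) (nat_lit 152) (nat_lit 9577057525) (nat_lit 76) (nat_lit 13762130665) (nat_lit 32) (nat_lit 5) (nat_lit 34) (nat_lit 5) (nat_lit 33) (nat_lit 4) (nat_lit 465) (nat_lit 397) (nat_lit 338)) (XT.nd (nat_lit 78) (nat_lit 0) (nat_lit 0) (XT.lf (nat_lit 0) (nat_lit 5791215602) (nat_lit 76) (nat_lit 6572352073) (nat_lit 152) (nat_lit 16810615600) (nat_lit 31) (nat_lit 5) (nat_lit 32) (nat_lit 5) (nat_lit 33) (nat_lit 4) (nat_lit 466) (nat_lit 397) (nat_lit 337)) (XT.lf (nat_lit 0) (nat_lit 20413955173) (nat_lit 152) (nat_lit 8056740895) (nat_lit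 0) (nat_lit 1740843484) (nat_lit 31) (nat_lit 5) (nat_lit 33) (nat_lit 4) (nat_lit 31) (nat_lit 4) (nat_lit 467) (nat_lit 397) (nat_lit 336)))) (XT.nd (nat_lit 156) (nat_lit 76) (nat_lit 0) (XT.nd (nat_lit 78) (nat_lit 76) (nat_lit 0) (XT.lf (nat_lit 0) (nat_lit 8113902925) (nat_lit 76) (nat_lit 20948973323) (nat_lit 76) (nat_lit 2228089171) (nat_lit 30) (nat_lit 4) (nat_lit 31) (nat_lit 5) (nat_lit 31) (nat_lit 4) (nat_lit 468) (nat_lit 397) (nat_lit 335)) (XT.lf (nat_lit 0) (nat_lit 5637154578) (nat_lit 152) (nat_lit 7210214849) (nat_lit 76) (nat_lit 19567512952) (nat_lit 29) (nat_lit 5) (nat_lit 31) (nat_lit 5) (nat_lit 30) (nat_lit 4) (nat_lit 469) (nat_lit 397) (nat_lit 334))) (XT.nd (nat_lit 78) (nat_lit 0) (nat_lit 0) (XT.lf (nat_lit 0) (nat_lit 9760439251) (nat_lit 76) (nat_lit 4176220270) (nat_lit 152) (nat_lit 19650717642) (nat_lit 28) (nat_lit 5) (nat_lit 29) (nat_lit 5) (nat_lit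 30) (nat_lit 4) (nat_lit 470) (nat_lit 397) (nat_lit 333)) (XT.lf (nat_lit 0) (nat_lit 22815822438) (nat_lit 152) (nat_lit 7131934404) (nat_lit 0) (nat_lit 4862507753) (nat_lit 28) (nat_lit 5) (nat_lit 30) (nat_lit 4) (nat_lit 28) (nat_lit 4) (nat_lit 471) (nat_lit 397) (nat_lit 332)))))) (XT.nd (nat_lit 546) (nat_lit 304) (nat_lit 0) (XT.nd (nat_lit 234) (nat_lit 228) (nat_lit 0) (XT.nd (nat_lit 78) (nat_lit 152) (nat_lit 0) (XT.lf (nat_lit 0) (nat_lit 10601487298) (nat_lit 76) (nat_lit 21736794886) (nat_lit 76) (nat_lit 3746049227) (nat_lit 27) (nat_lit 4) (nat_lit 28) (nat_lit 5) (nat_lit 28) (nat_lit 4) (nat_lit 472) (nat_lit 397) (nat_lit 331)) (XT.nd (nat_lit 78) (nat_lit 76) (nat_lit 0) (XT.lf (nat_lit 0) (nat_lit 4845638240) (nat_lit 152) (nat_lit 8092835815) (nat_lit 76) (nat_lit 24475383718) (nat_lit 26) (nat_lit 5) (nat_lit 28) (nat_lit 5) (nat_lit 27) (nat_lit 4) (nat_lit 473) (nat_lit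 397) (nat_lit 330)) (XT.lf (nat_lit 0) (nat_lit 10373227603) (nat_lit 76) (nat_lit 3496807912) (nat_lit 152) (nat_lit 24930305224) (nat_lit 25) (nat_lit 5) (nat_lit 26) (nat_lit 5) (nat_lit 27) (nat_lit 4) (nat_lit 474) (nat_lit 397) (nat_lit 329)))) (XT.nd (nat_lit 156) (nat_lit 152) (nat_lit 0) (XT.nd (nat_lit 78) (nat_lit 76) (nat_lit 0) (XT.lf (nat_lit 0) (nat_lit 23552310186) (nat_lit 152) (nat_lit 10372319531) (nat_lit 0) (nat_lit 6321186864) (nat_lit 25) (nat_lit 5) (nat_lit 27) (nat_lit 4) (nat_lit 25) (nat_lit 4) (nat_lit 475) (nat_lit 397) (nat_lit 328)) (XT.lf (nat_lit 0) (nat_lit 8746743846) (nat_lit 76) (nat_lit 25134572245) (nat_lit 76) (nat_lit 7874120774) (nat_lit 24) (nat_lit 4) (nat_lit 25) (nat_lit 5) (nat_lit 25) (nat_lit 4) (nat_lit 476) (nat_lit 397) (nat_lit 327))) (XT.nd (nat_lit 78) (nat_lit 76) (nat_lit 0) (XT.lf (nat_lit 0) (nat_lit 1489183006) (nat_lit 152) (nat_lit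 14235557878) (nat_lit 76) (nat_lit 27607350663) (nat_lit 23) (nat_lit 5) (nat_lit 25) (nat_lit 5) (nat_lit 24) (nat_lit 4) (nat_lit 477) (nat_lit 397) (nat_lit 326)) (XT.lf (nat_lit 0) (nat_lit 5463793238) (nat_lit 76) (nat_lit 5647805675) (nat_lit 152) (nat_lit 33866748717) (nat_lit 22) (nat_lit 5) (nat_lit 23) (nat_lit 5) (nat_lit 24) (nat_lit 4) (nat_lit 478) (nat_lit 397) (nat_lit 325))))) (XT.nd (nat_lit 234) (nat_lit 228) (nat_lit 0) (XT.nd (nat_lit 78) (nat_lit 76) (nat_lit 0) (XT.lf (nat_lit 0) (nat_lit 21507538514) (nat_lit 152) (nat_lit 20191810405) (nat_lit 0) (nat_lit 4992948711) (nat_lit 22) (nat_lit 5) (nat_lit 24) (nat_lit 4) (nat_lit 22) (nat_lit 4) (nat_lit 479) (nat_lit 397) (nat_lit 324)) (XT.nd (nat_lit 78) (nat_lit 76) (nat_lit 0) (XT.lf (nat_lit 0) (nat_lit 32487621139) (nat_lit 152) (nat_lit 51055919) (nat_lit 0) (nat_lit 15950051964) (nat_lit 22) (nat_lit 5) (nat_lit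 24) (nat_lit 4) (nat_lit 22) (nat_lit 4) (nat_lit 480) (nat_lit 397) (nat_lit 323)) (XT.lf (nat_lit 0) (nat_lit 21739645746) (nat_lit 76) (nat_lit 22589582817) (nat_lit 76) (nat_lit 6030128527) (nat_lit 21) (nat_lit 4) (nat_lit 22) (nat_lit 5) (nat_lit 22) (nat_lit 4) (nat_lit 481) (nat_lit 397) (nat_lit 322)))) (XT.nd (nat_lit 156) (nat_lit 76) (nat_lit 0) (XT.nd (nat_lit 78) (nat_lit 76) (nat_lit 0) (XT.lf (nat_lit 0) (nat_lit 4271327939) (nat_lit 152) (nat_lit 7824074981) (nat_lit 76) (nat_lit 40225948267) (nat_lit 20) (nat_lit 5) (nat_lit 22) (nat_lit 5) (nat_lit 21) (nat_lit 4) (nat_lit 482) (nat_lit 397) (nat_lit 321)) (XT.lf (nat_lit 0) (nat_lit 14320421017) (nat_lit 76) (nat_lit 762783236) (nat_lit 152) (nat_lit 39283399047) (nat_lit 19) (nat_lit 5) (nat_lit 20) (nat_lit 5) (nat_lit 21) (nat_lit 4) (nat_lit 483) (nat_lit 397) (nat_lit 320))) (XT.nd (nat_lit 78) (nat_lit 76) (nat_lit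 0) (XT.lf (nat_lit 0) (nat_lit 26718701552) (nat_lit 152) (nat_lit 18890233912) (nat_lit 0) (nat_lit 10891032134) (nat_lit 19) (nat_lit 5) (nat_lit 21) (nat_lit 4) (nat_lit 19) (nat_lit 4) (nat_lit 484) (nat_lit 397) (nat_lit 319)) (XT.lf (nat_lit 0) (nat_lit 3370824695) (nat_lit 76) (nat_lit 35605975969) (nat_lit 76) (nat_lit 19761158990) (nat_lit 18) (nat_lit 4) (nat_lit 19) (nat_lit 5) (nat_lit 19) (nat_lit 4) (nat_lit 485) (nat_lit 397) (nat_lit 318))))))) (XT.nd (nat_lit 1092) (nat_lit 380) (nat_lit 0) (XT.nd (nat_lit 546) (nat_lit 228) (nat_lit 0) (XT.nd (nat_lit 234) (nat_lit 76) (nat_lit 0) (XT.nd (nat_lit 78) (nat_lit 152) (nat_lit 0) (XT.lf (nat_lit 0) (nat_lit 27353467841) (nat_lit 76) (nat_lit 24790365442) (nat_lit 76) (nat_lit 8929217453) (nat_lit 18) (nat_lit 4) (nat_lit 19) (nat_lit 5) (nat_lit 19) (nat_lit 4) (nat_lit 486) (nat_lit 397) (nat_lit 317)) (XT.nd (nat_lit 78) (nat_lit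 76) (nat_lit 0) (XT.lf (nat_lit 0) (nat_lit 2342964658) (nat_lit 152) (nat_lit 11073623782) (nat_lit 76) (nat_lit 50107556715) (nat_lit 17) (nat_lit 5) (nat_lit 19) (nat_lit 5) (nat_lit 18) (nat_lit 4) (nat_lit 487) (nat_lit 397) (nat_lit 316)) (XT.lf (nat_lit 0) (nat_lit 12928416205) (nat_lit 76) (nat_lit 1130086353) (nat_lit 152) (nat_lit 52022982094) (nat_lit 16) (nat_lit 5) (nat_lit 17) (nat_lit 5) (nat_lit 18) (nat_lit 4) (nat_lit 488) (nat_lit 397) (nat_lit 315)))) (XT.nd (nat_lit 156) (nat_lit 76) (nat_lit 0) (XT.nd (nat_lit 78) (nat_lit 0) (nat_lit 0) (XT.lf (nat_lit 0) (nat_lit 26712227576) (nat_lit 152) (nat_lit 30472826998) (nat_lit 0) (nat_lit 11564016737) (nat_lit 16) (nat_lit 5) (nat_lit 18) (nat_lit 4) (nat_lit 16) (nat_lit 4) (nat_lit 489) (nat_lit 397) (nat_lit 314)) (XT.lf (nat_lit 0) (nat_lit 39996235721) (nat_lit 152) (nat_lit 6718693296) (nat_lit 0) (nat_lit 24835229108)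 (nat_lit 16) (nat_lit 5) (nat_lit 18) (nat_lit 4) (nat_lit 16) (nat_lit 4) (nat_lit 490) (nat_lit 397) (nat_lit 313))) (XT.nd (nat_lit 78) (nat_lit 0) (nat_lit 0) (XT.lf (nat_lit 0) (nat_lit 18784763684) (nat_lit 76) (nat_lit 35433030890) (nat_lit 76) (nat_lit 20259837825) (nat_lit 15) (nat_lit 4) (nat_lit 16) (nat_lit 5) (nat_lit 16) (nat_lit 4) (nat_lit 491) (nat_lit 397) (nat_lit 312)) (XT.lf (nat_lit 0) (nat_lit 45757677140) (nat_lit 76) (nat_lit 23486946718) (nat_lit 76) (nat_lit 8302147509) (nat_lit 15) (nat_lit 4) (nat_lit 16) (nat_lit 5) (nat_lit 16) (nat_lit 4) (nat_lit 492) (nat_lit 397) (nat_lit 311))))) (XT.nd (nat_lit 234) (nat_lit 76) (nat_lit 0) (XT.nd (nat_lit 78) (nat_lit 76) (nat_lit 0) (XT.lf (nat_lit 0) (nat_lit 4098325754) (nat_lit 152) (nat_lit 6794284882) (nat_lit 76) (nat_lit 69874385064) (nat_lit 14) (nat_lit 5) (nat_lit 16) (nat_lit 5) (nat_lit 15) (nat_lit 4) (nat_lit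 493) (nat_lit 397) (nat_lit 310)) (XT.nd (nat_lit 78) (nat_lit 0) (nat_lit 0) (XT.lf (nat_lit 0) (nat_lit 17176142440) (nat_lit 152) (nat_lit 64254592006) (nat_lit 0) (nat_lit 2693875969) (nat_lit 13) (nat_lit 5) (nat_lit 15) (nat_lit 4) (nat_lit 13) (nat_lit 4) (nat_lit 494) (nat_lit 397) (nat_lit 309)) (XT.lf (nat_lit 0) (nat_lit 31185338825) (nat_lit 152) (nat_lit 39757369145) (nat_lit 0) (nat_lit 16693523950) (nat_lit 13) (nat_lit 5) (nat_lit 15) (nat_lit 4) (nat_lit 13) (nat_lit 4) (nat_lit 495) (nat_lit 397) (nat_lit 308)))) (XT.nd (nat_lit 156) (nat_lit 0) (nat_lit 0) (XT.nd (nat_lit 78) (nat_lit 76) (nat_lit 0) (XT.lf (nat_lit 0) (nat_lit 45877824240) (nat_lit 152) (nat_lit 14069553624) (nat_lit 0) (nat_lit 31376915648) (nat_lit 13) (nat_lit 5) (nat_lit 15) (nat_lit 4) (nat_lit 13) (nat_lit 4) (nat_lit 496) (nat_lit 397) (nat_lit 307)) (XT.lf (nat_lit 0) (nat_lit 13295556872) (nat_lit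 76) (nat_lit 48200604825) (nat_lit 76) (nat_lit 33691035550) (nat_lit 12) (nat_lit 4) (nat_lit 13) (nat_lit 5) (nat_lit 13) (nat_lit 4) (nat_lit 497) (nat_lit 397) (nat_lit 306))) (XT.nd (nat_lit 78) (nat_lit 0) (nat_lit 0) (XT.lf (nat_lit 0) (nat_lit 42485275773) (nat_lit 76) (nat_lit 35632339211) (nat_lit 76) (nat_lit 21114521665) (nat_lit 12) (nat_lit 4) (nat_lit 13) (nat_lit 5) (nat_lit 13) (nat_lit 4) (nat_lit 498) (nat_lit 397) (nat_lit 305)) (XT.lf (nat_lit 0) (nat_lit 73103899424) (nat_lit 76) (nat_lit 22450931279) (nat_lit 76) (nat_lit 7925258238) (nat_lit 12) (nat_lit 4) (nat_lit 13) (nat_lit 5) (nat_lit 13) (nat_lit 4) (nat_lit 499) (nat_lit 397) (nat_lit 304)))))) (XT.nd (nat_lit 546) (nat_lit 152) (nat_lit 0) (XT.nd (nat_lit 234) (nat_lit 76) (nat_lit 0) (XT.nd (nat_lit 78) (nat_lit 76) (nat_lit 0) (XT.lf (nat_lit 0) (nat_lit 5719059794) (nat_lit 152) (nat_lit 2809081886) (nat_lit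 76) (nat_lit 99408414472) (nat_lit 11) (nat_lit 5) (nat_lit 13) (nat_lit 5) (nat_lit 12) (nat_lit 4) (nat_lit 500) (nat_lit 397) (nat_lit 303)) (XT.nd (nat_lit 78) (nat_lit 0) (nat_lit 0) (XT.lf (nat_lit 0) (nat_lit 20288015398) (nat_lit 152) (nat_lit 85855767413) (nat_lit 0) (nat_lit 6440130036) (nat_lit 10) (nat_lit 5) (nat_lit 12) (nat_lit 4) (nat_lit 10) (nat_lit 4) (nat_lit 501) (nat_lit 397) (nat_lit 302)) (XT.lf (nat_lit 0) (nat_lit 35759484853) (nat_lit 152) (nat_lit 59790312801) (nat_lit 0) (nat_lit 21905136755) (nat_lit 10) (nat_lit 5) (nat_lit 12) (nat_lit 4) (nat_lit 10) (nat_lit 4) (nat_lit 502) (nat_lit 397) (nat_lit 301)))) (XT.nd (nat_lit 156) (nat_lit 76) (nat_lit 0) (XT.nd (nat_lit 78) (nat_lit 0) (nat_lit 0) (XT.lf (nat_lit 0) (nat_lit 51991106275) (nat_lit 152) (nat_lit 32448468980) (nat_lit 0) (nat_lit 38130603191) (nat_lit 10) (nat_lit 5) (nat_lit 12) (nat_lit 4) (nat_lit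 10) (nat_lit 4) (nat_lit 503) (nat_lit 397) (nat_lit 300)) (XT.lf (nat_lit 0) (nat_lit 69021526381) (nat_lit 152) (nat_lit 3765136320) (nat_lit 0) (nat_lit 55155161406) (nat_lit 10) (nat_lit 5) (nat_lit 12) (nat_lit 4) (nat_lit 10) (nat_lit 4) (nat_lit 504) (nat_lit 397) (nat_lit 299))) (XT.nd (nat_lit 78) (nat_lit 0) (nat_lit 0) (XT.lf (nat_lit 0) (nat_lit 27198500707) (nat_lit 76) (nat_lit 60117437904) (nat_lit 76) (nat_lit 46245490175) (nat_lit 9) (nat_lit 4) (nat_lit 10) (nat_lit 5) (nat_lit 10) (nat_lit 4) (nat_lit 505) (nat_lit 397) (nat_lit 298)) (XT.lf (nat_lit 0) (nat_lit 59817045765) (nat_lit 76) (nat_lit 46759821529) (nat_lit 76) (nat_lit 32882556891) (nat_lit 9) (nat_lit 4) (nat_lit 10) (nat_lit 5) (nat_lit 10) (nat_lit 4) (nat_lit 506) (nat_lit 397) (nat_lit 297))))) (XT.nd (nat_lit 312) (nat_lit 0) (nat_lit 0) (XT.nd (nat_lit 156) (nat_lit 152) (nat_lit 0) (XT.nd (nat_lit 78)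 (nat_lit 0) (nat_lit 0) (XT.lf (nat_lit 0) (nat_lit 94043669645) (nat_lit 76) (nat_lit 32745774132) (nat_lit 76) (nat_lit 18863445772) (nat_lit 9) (nat_lit 4) (nat_lit 10) (nat_lit 5) (nat_lit 10) (nat_lit 4) (nat_lit 507) (nat_lit 397) (nat_lit 296)) (XT.lf (nat_lit 0) (nat_lit 129959864308) (nat_lit 76) (nat_lit 18041928934) (nat_lit 76) (nat_lit 4154777981) (nat_lit 9) (nat_lit 4) (nat_lit 10) (nat_lit 5) (nat_lit 10) (nat_lit 4) (nat_lit 508) (nat_lit 397) (nat_lit 295))) (XT.nd (nat_lit 78) (nat_lit 0) (nat_lit 0) (XT.lf (nat_lit 0) (nat_lit 8769789903) (nat_lit 76) (nat_lit 2284616828) (nat_lit 152) (nat_lit 147915896959) (nat_lit 7) (nat_lit 5) (nat_lit 8) (nat_lit 5) (nat_lit 9) (nat_lit 4) (nat_lit 509) (nat_lit 397) (nat_lit 294)) (XT.lf (nat_lit 0) (nat_lit 27478650413) (nat_lit 152) (nat_lit 124368703462) (nat_lit 0) (nat_lit 14244252193) (nat_lit 7) (nat_lit 5) (nat_lit 9) (nat_lit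 4) (nat_lit 7) (nat_lit 4) (nat_lit 510) (nat_lit 397) (nat_lit 293)))) (XT.nd (nat_lit 156) (nat_lit 0) (nat_lit 0) (XT.nd (nat_lit 78) (nat_lit 0) (nat_lit 0) (XT.lf (nat_lit 0) (nat_lit 44751564472) (nat_lit 152) (nat_lit 97302837695) (nat_lit 0) (nat_lit 31513198693) (nat_lit 7) (nat_lit 5) (nat_lit 9) (nat_lit 4) (nat_lit 7) (nat_lit 4) (nat_lit 511) (nat_lit 397) (nat_lit 292)) (XT.lf (nat_lit 0) (nat_lit 62878605624) (nat_lit 152) (nat_lit 68902804678) (nat_lit 0) (nat_lit 49636461217) (nat_lit 7) (nat_lit 5) (nat_lit 9) (nat_lit 4) (nat_lit 7) (nat_lit 4) (nat_lit 512) (nat_lit 397) (nat_lit 291))) (XT.nd (nat_lit 78) (nat_lit 0) (nat_lit 0) (XT.lf (nat_lit 0) (nat_lit 81902933490) (nat_lit 152) (nat_lit 39100985285) (nat_lit 0) (nat_lit 68657190390) (nat_lit 7) (nat_lit 5) (nat_lit 9) (nat_lit 4) (nat_lit 7) (nat_lit 4) (nat_lit 513) (nat_lit 397) (nat_lit 290)) (XT.lf (nat_lit 0)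 (nat_lit 101869844089) (nat_lit 152) (nat_lit 7826422804) (nat_lit 0) (nat_lit 88620673663) (nat_lit 7) (nat_lit 5) (nat_lit 9) (nat_lit 4) (nat_lit 7) (nat_lit 4) (nat_lit 514) (nat_lit 397) (nat_lit 289))))))))
noncomputable def xc88 : XT := (XT.nd (nat_lit 2184) (nat_lit 0) (nat_lit 0) (XT.nd (nat_lit 1092) (nat_lit 76) (nat_lit 0) (XT.nd (nat_lit 546) (nat_lit 76) (nat_lit 0) (XT.nd (nat_lit 234) (nat_lit 76) (nat_lit 0) (XT.nd (nat_lit 78) (nat_lit 0) (nat_lit 0) (XT.lf (nat_lit 0) (nat_lit 25821805031) (nat_lit 76) (nat_lit 97408223395) (nat_lit 76) (nat_lit 84155788848) (nat_lit 6) (nat_lit 4) (nat_lit 7) (nat_lit 5) (nat_lit 7) (nat_lit 4) (nat_lit 515) (nat_lit 397) (nat_lit 288)) (XT.nd (nat_lit 78) (nat_lit 0) (nat_lit 0) (XT.lf (nat_lit 0) (nat_lit 61407904675) (nat_lit 76) (nat_lit 84374776788) (nat_lit 76) (nat_lit 71119233555) (nat_lit 6) (nat_lit 4) (nat_lit 7) (nat_lit 5) (nat_lit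 7) (nat_lit 4) (nat_lit 516) (nat_lit 397) (nat_lit 287)) (XT.lf (nat_lit 0) (nat_lit 98757828052) (nat_lit 76) (nat_lit 70697439312) (nat_lit 76) (nat_lit 57438935426) (nat_lit 6) (nat_lit 4) (nat_lit 7) (nat_lit 5) (nat_lit 7) (nat_lit 4) (nat_lit 517) (nat_lit 397) (nat_lit 286)))) (XT.nd (nat_lit 156) (nat_lit 76) (nat_lit 0) (XT.nd (nat_lit 78) (nat_lit 0) (nat_lit 0) (XT.lf (nat_lit 0) (nat_lit 137960503553) (nat_lit 76) (nat_lit 56343645880) (nat_lit 76) (nat_lit 43082322323) (nat_lit 6) (nat_lit 4) (nat_lit 7) (nat_lit 5) (nat_lit 7) (nat_lit 4) (nat_lit 518) (nat_lit 397) (nat_lit 285)) (XT.lf (nat_lit 0) (nat_lit 179109270879) (nat_lit 76) (nat_lit 41279220791) (nat_lit 76) (nat_lit 28015211834) (nat_lit 6) (nat_lit 4) (nat_lit 7) (nat_lit 5) (nat_lit 7) (nat_lit 4) (nat_lit 519) (nat_lit 397) (nat_lit 284))) (XT.nd (nat_lit 78) (nat_lit 76) (nat_lit 0) (XT.lf (nat_lit 0) (nat_lit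 222302103288) (nat_lit 76) (nat_lit 25468296368) (nat_lit 76) (nat_lit 12201729887) (nat_lit 6) (nat_lit 4) (nat_lit 7) (nat_lit 5) (nat_lit 7) (nat_lit 4) (nat_lit 520) (nat_lit 397) (nat_lit 283)) (XT.lf (nat_lit 0) (nat_lit 4255082424) (nat_lit 152) (nat_lit 4546083247) (nat_lit 76) (nat_lit 263314696552) (nat_lit 5) (nat_lit 5) (nat_lit 7) (nat_lit 5) (nat_lit 6) (nat_lit 4) (nat_lit 521) (nat_lit 397) (nat_lit 282))))) (XT.nd (nat_lit 234) (nat_lit 0) (nat_lit 0) (XT.nd (nat_lit 78) (nat_lit 0) (nat_lit 0) (XT.lf (nat_lit 0) (nat_lit 21749707290) (nat_lit 152) (nat_lit 253965468405) (nat_lit 0) (nat_lit 9110353036) (nat_lit 4) (nat_lit 5) (nat_lit 6) (nat_lit 4) (nat_lit 4) (nat_lit 4) (nat_lit 522) (nat_lit 397) (nat_lit 281)) (XT.nd (nat_lit 78) (nat_lit 0) (nat_lit 0) (XT.lf (nat_lit 0) (nat_lit 40335472303) (nat_lit 152) (nat_lit 230130371958) (nat_lit 0) (nat_lit 27694013967) (nat_lit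 4) (nat_lit 5) (nat_lit 6) (nat_lit 4) (nat_lit 4) (nat_lit 4) (nat_lit 523) (nat_lit 397) (nat_lit 280)) (XT.lf (nat_lit 0) (nat_lit 59844692467) (nat_lit 152) (nat_lit 205115273249) (nat_lit 0) (nat_lit 47201230245) (nat_lit 4) (nat_lit 5) (nat_lit 6) (nat_lit 4) (nat_lit 4) (nat_lit 4) (nat_lit 524) (nat_lit 397) (nat_lit 279)))) (XT.nd (nat_lit 156) (nat_lit 0) (nat_lit 0) (XT.nd (nat_lit 78) (nat_lit 0) (nat_lit 0) (XT.lf (nat_lit 0) (nat_lit 80323818307) (nat_lit 152) (nat_lit 178860612517) (nat_lit 0) (nat_lit 67678447621) (nat_lit 4) (nat_lit 5) (nat_lit 6) (nat_lit 4) (nat_lit 4) (nat_lit 4) (nat_lit 525) (nat_lit 397) (nat_lit 278)) (XT.lf (nat_lit 0) (nat_lit 101821609646) (nat_lit 152) (nat_lit 151303878666) (nat_lit 0) (nat_lit 89174421375) (nat_lit 4) (nat_lit 5) (nat_lit 6) (nat_lit 4) (nat_lit 4) (nat_lit 4) (nat_lit 526) (nat_lit 397) (nat_lit 277))) (XT.nd (nat_lit 78) (nat_lit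 0) (nat_lit 0) (XT.lf (nat_lit 0) (nat_lit 124389251701) (nat_lit 152) (nat_lit 122379460425) (nat_lit 0) (nat_lit 111740332398) (nat_lit 4) (nat_lit 5) (nat_lit 6) (nat_lit 4) (nat_lit 4) (nat_lit 4) (nat_lit 527) (nat_lit 397) (nat_lit 276)) (XT.lf (nat_lit 0) (nat_lit 148080476954) (nat_lit 152) (nat_lit 92018490132) (nat_lit 0) (nat_lit 135429909048) (nat_lit 4) (nat_lit 5) (nat_lit 6) (nat_lit 4) (nat_lit 4) (nat_lit 4) (nat_lit 528) (nat_lit 397) (nat_lit 275)))))) (XT.nd (nat_lit 546) (nat_lit 0) (nat_lit 0) (XT.nd (nat_lit 234) (nat_lit 0) (nat_lit 0) (XT.nd (nat_lit 78) (nat_lit 76) (nat_lit 0) (XT.lf (nat_lit 0) (nat_lit 172951693084) (nat_lit 152) (nat_lit 60148679761) (nat_lit 0) (nat_lit 160299555080) (nat_lit 4) (nat_lit 5) (nat_lit 6) (nat_lit 4) (nat_lit 4) (nat_lit 4) (nat_lit 529) (nat_lit 397) (nat_lit 274)) (XT.nd (nat_lit 78) (nat_lit 76) (nat_lit 0) (XT.lf (nat_lit 0)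 (nat_lit 199062117272) (nat_lit 152) (nat_lit 26694148813) (nat_lit 0) (nat_lit 186408483937) (nat_lit 4) (nat_lit 5) (nat_lit 6) (nat_lit 4) (nat_lit 4) (nat_lit 4) (nat_lit 530) (nat_lit 397) (nat_lit 273)) (XT.lf (nat_lit 0) (nat_lit 8703316850) (nat_lit 76) (nat_lit 217906483512) (nat_lit 76) (nat_lit 205251426052) (nat_lit 3) (nat_lit 4) (nat_lit 4) (nat_lit 5) (nat_lit 4) (nat_lit 4) (nat_lit 531) (nat_lit 397) (nat_lit 272)))) (XT.nd (nat_lit 156) (nat_lit 0) (nat_lit 0) (XT.nd (nat_lit 78) (nat_lit 0) (nat_lit 0) (XT.lf (nat_lit 0) (nat_lit 46789198757) (nat_lit 76) (nat_lit 209193670805) (nat_lit 76) (nat_lit 196537257035) (nat_lit 3) (nat_lit 4) (nat_lit 4) (nat_lit 5) (nat_lit 4) (nat_lit 4) (nat_lit 532) (nat_lit 397) (nat_lit 271)) (XT.lf (nat_lit 0) (nat_lit 86771548464) (nat_lit 76) (nat_lit 200049161499) (nat_lit 76) (nat_lit 187391456006) (nat_lit 3) (nat_lit 4) (nat_lit 4)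 (nat_lit 5) (nat_lit 4) (nat_lit 4) (nat_lit 533) (nat_lit 397) (nat_lit 270))) (XT.nd (nat_lit 78) (nat_lit 0) (nat_lit 0) (XT.lf (nat_lit 0) (nat_lit 128745562043) (nat_lit 76) (nat_lit 190451182953) (nat_lit 76) (nat_lit 177792247247) (nat_lit 3) (nat_lit 4) (nat_lit 4) (nat_lit 5) (nat_lit 4) (nat_lit 4) (nat_lit 534) (nat_lit 397) (nat_lit 269)) (XT.lf (nat_lit 0) (nat_lit 172811177621) (nat_lit 76) (nat_lit 180376882837) (nat_lit 76) (nat_lit 167716775500) (nat_lit 3) (nat_lit 4) (nat_lit 4) (nat_lit 5) (nat_lit 4) (nat_lit 4) (nat_lit 535) (nat_lit 397) (nat_lit 268))))) (XT.nd (nat_lit 234) (nat_lit 0) (nat_lit 0) (XT.nd (nat_lit 78) (nat_lit 0) (nat_lit 0) (XT.lf (nat_lit 0) (nat_lit 219073313331) (nat_lit 76) (nat_lit 169802274722) (nat_lit 76) (nat_lit 157141051547) (nat_lit 3) (nat_lit 4) (nat_lit 4) (nat_lit 5) (nat_lit 4) (nat_lit 4) (nat_lit 536) (nat_lit 397) (nat_lit 267))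 (XT.nd (nat_lit 78) (nat_lit 0) (nat_lit 0) (XT.lf (nat_lit 0) (nat_lit 267642117113) (nat_lit 76) (nat_lit 158702180971) (nat_lit 76) (nat_lit 146039895091) (nat_lit 3) (nat_lit 4) (nat_lit 4) (nat_lit 5) (nat_lit 4) (nat_lit 4) (nat_lit 537) (nat_lit 397) (nat_lit 266)) (XT.lf (nat_lit 0) (nat_lit 318633228978) (nat_lit 76) (nat_lit 147050172788) (nat_lit 76) (nat_lit 134386874809) (nat_lit 3) (nat_lit 4) (nat_lit 4) (nat_lit 5) (nat_lit 4) (nat_lit 4) (nat_lit 538) (nat_lit 397) (nat_lit 265)))) (XT.nd (nat_lit 156) (nat_lit 0) (nat_lit 0) (XT.nd (nat_lit 78) (nat_lit 0) (nat_lit 0) (XT.lf (nat_lit 0) (nat_lit 372168056335) (nat_lit 76) (nat_lit 134818507296) (nat_lit 76) (nat_lit 122154245413) (nat_lit 3) (nat_lit 4) (nat_lit 4) (nat_lit 5) (nat_lit 4) (nat_lit 4) (nat_lit 539) (nat_lit 397) (nat_lit 264)) (XT.lf (nat_lit 0) (nat_lit 428374063058) (nat_lit 76) (nat_lit 121978061483) (nat_lit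 76) (nat_lit 109312881597) (nat_lit 3) (nat_lit 4) (nat_lit 4) (nat_lit 5) (nat_lit 4) (nat_lit 4) (nat_lit 540) (nat_lit 397) (nat_lit 263))) (XT.nd (nat_lit 78) (nat_lit 0) (nat_lit 0) (XT.lf (nat_lit 0) (nat_lit 487385072973) (nat_lit 76) (nat_lit 108498262859) (nat_lit 76) (nat_lit 95832208683) (nat_lit 3) (nat_lit 4) (nat_lit 4) (nat_lit 5) (nat_lit 4) (nat_lit 4) (nat_lit 541) (nat_lit 397) (nat_lit 262)) (XT.lf (nat_lit 0) (nat_lit 549341588484) (nat_lit 76) (nat_lit 94347016665) (nat_lit 76) (nat_lit 81680129833) (nat_lit 3) (nat_lit 4) (nat_lit 4) (nat_lit 5) (nat_lit 4) (nat_lit 4) (nat_lit 542) (nat_lit 397) (nat_lit 261))))))) (XT.nd (nat_lit 52572) (nat_lit 0) (nat_lit 6308) (XT.nd (nat_lit 52026) (nat_lit 0) (nat_lit 10640) (XT.nd (nat_lit 51714) (nat_lit 0) (nat_lit 12844) (XT.nd (nat_lit 78) (nat_lit 0) (nat_lit 0) (XT.lf (nat_lit 0) (nat_lit 614391125104) (nat_lit 76) (nat_lit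 79490629457) (nat_lit 76) (nat_lit 66822949619) (nat_lit 3) (nat_lit 4) (nat_lit 4) (nat_lit 5) (nat_lit 4) (nat_lit 4) (nat_lit 543) (nat_lit 397) (nat_lit 260)) (XT.nd (nat_lit 51558) (nat_lit 0) (nat_lit 13452) (XT.lf (nat_lit 0) (nat_lit 682688562683) (nat_lit 76) (nat_lit 63893728885) (nat_lit 76) (nat_lit 51225293803) (nat_lit 3) (nat_lit 4) (nat_lit 4) (nat_lit 5) (nat_lit 4) (nat_lit 4) (nat_lit 544) (nat_lit 397) (nat_lit 259)) (XT.lf (nat_lit 0) (nat_lit 184004218) (nat_lit 228) (nat_lit 2876218870) (nat_lit 0) (nat_lit 184004218) (nat_lit 180) (nat_lit 5) (nat_lit 183) (nat_lit 4) (nat_lit 180) (nat_lit 4) (nat_lit 404) (nat_lit 398) (nat_lit 398)))) (XT.nd (nat_lit 156) (nat_lit 304) (nat_lit 0) (XT.nd (nat_lit 78) (nat_lit 304) (nat_lit 0) (XT.lf (nat_lit 0) (nat_lit 3528063656) (nat_lit 228) (nat_lit 2068874313) (nat_lit 0) (nat_lit 917705141) (nat_lit 180) (nat_lit 5) (nat_lit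 183) (nat_lit 4) (nat_lit 180) (nat_lit 4) (nat_lit 405) (nat_lit 398) (nat_lit 397)) (XT.lf (nat_lit 0) (nat_lit 133287961) (nat_lit 304) (nat_lit 4823173922) (nat_lit 76) (nat_lit 1593613210) (nat_lit 176) (nat_lit 5) (nat_lit 180) (nat_lit 5) (nat_lit 177) (nat_lit 4) (nat_lit 406) (nat_lit 398) (nat_lit 396))) (XT.nd (nat_lit 78) (nat_lit 304) (nat_lit 0) (XT.lf (nat_lit 0) (nat_lit 3163008064) (nat_lit 304) (nat_lit 979919833) (nat_lit 76) (nat_lit 2449308688) (nat_lit 176) (nat_lit 5) (nat_lit 180) (nat_lit 5) (nat_lit 177) (nat_lit 4) (nat_lit 407) (nat_lit 398) (nat_lit 395)) (XT.lf (nat_lit 0) (nat_lit 3029458159) (nat_lit 304) (nat_lit 3189307868) (nat_lit 380) (nat_lit 424124270) (nat_lit 172) (nat_lit 5) (nat_lit 176) (nat_lit 5) (nat_lit 177) (nat_lit 4) (nat_lit 408) (nat_lit 398) (nat_lit 394))))) (XT.nd (nat_lit 234) (nat_lit 1216) (nat_lit 0) (XT.nd (nat_lit 78) (nat_lit 532)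 (nat_lit 0) (XT.lf (nat_lit 0) (nat_lit 421955942) (nat_lit 380) (nat_lit 2076077151) (nat_lit 456) (nat_lit 4203302116) (nat_lit 166) (nat_lit 5) (nat_lit 171) (nat_lit 5) (nat_lit 172) (nat_lit 5) (nat_lit 409) (nat_lit 398) (nat_lit 393)) (XT.nd (nat_lit 78) (nat_lit 532) (nat_lit 0) (XT.lf (nat_lit 0) (nat_lit 4652710929) (nat_lit 380) (nat_lit 797288859) (nat_lit 456) (nat_lit 1317553717) (nat_lit 166) (nat_lit 5) (nat_lit 171) (nat_lit 5) (nat_lit 172) (nat_lit 5) (nat_lit 410) (nat_lit 398) (nat_lit 392)) (XT.lf (nat_lit 0) (nat_lit 1543703335) (nat_lit 532) (nat_lit 4675264346) (nat_lit 76) (nat_lit 622564185) (nat_lit 159) (nat_lit 5) (nat_lit 166) (nat_lit 5) (nat_lit 160) (nat_lit 5) (nat_lit 411) (nat_lit 398) (nat_lit 391)))) (XT.nd (nat_lit 156) (nat_lit 608) (nat_lit 0) (XT.nd (nat_lit 78) (nat_lit 608) (nat_lit 0) (XT.lf (nat_lit 0) (nat_lit 4401313780) (nat_lit 532) (nat_lit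 348039418) (nat_lit 76) (nat_lit 2173980917) (nat_lit 159) (nat_lit 5) (nat_lit 166) (nat_lit 5) (nat_lit 160) (nat_lit 5) (nat_lit 412) (nat_lit 398) (nat_lit 390)) (XT.lf (nat_lit 0) (nat_lit 299640336) (nat_lit 608) (nat_lit 2811938093) (nat_lit 76) (nat_lit 3901435861) (nat_lit 151) (nat_lit 5) (nat_lit 159) (nat_lit 5) (nat_lit 152) (nat_lit 5) (nat_lit 413) (nat_lit 398) (nat_lit 389))) (XT.nd (nat_lit 78) (nat_lit 0) (nat_lit 0) (XT.lf (nat_lit 0) (nat_lit 1771311139) (nat_lit 608) (nat_lit 1297912517) (nat_lit 684) (nat_lit 4041379814) (nat_lit 143) (nat_lit 5) (nat_lit 151) (nat_lit 5) (nat_lit 152) (nat_lit 5) (nat_lit 414) (nat_lit 398) (nat_lit 388)) (XT.lf (nat_lit 0) (nat_lit 5898118308) (nat_lit 684) (nat_lit 671460854) (nat_lit 76) (nat_lit 647519936) (nat_lit 143) (nat_lit 5) (nat_lit 152) (nat_lit 5) (nat_lit 144) (nat_lit 5) (nat_lit 415) (nat_lit 398) (nat_lit 387))))))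 (XT.nd (nat_lit 546) (nat_lit 1520) (nat_lit 0) (XT.nd (nat_lit 234) (nat_lit 1292) (nat_lit 0) (XT.nd (nat_lit 78) (nat_lit 760) (nat_lit 0) (XT.lf (nat_lit 0) (nat_lit 1446106752) (nat_lit 760) (nat_lit 3136582827) (nat_lit 76) (nat_lit 2747298153) (nat_lit 133) (nat_lit 5) (nat_lit 143) (nat_lit 5) (nat_lit 134) (nat_lit 5) (nat_lit 416) (nat_lit 398) (nat_lit 386)) (XT.nd (nat_lit 78) (nat_lit 0) (nat_lit 0) (XT.lf (nat_lit 0) (nat_lit 1784307059) (nat_lit 760) (nat_lit 2431874783) (nat_lit 836) (nat_lit 3235764102) (nat_lit 123) (nat_lit 5) (nat_lit 133) (nat_lit 5) (nat_lit 134) (nat_lit 5) (nat_lit 417) (nat_lit 398) (nat_lit 385)) (XT.lf (nat_lit 0) (nat_lit 6934332680) (nat_lit 760) (nat_lit 119339220) (nat_lit 836) (nat_lit 529941041) (nat_lit 123) (nat_lit 5) (nat_lit 133) (nat_lit 5) (nat_lit 134) (nat_lit 5) (nat_lit 418) (nat_lit 398) (nat_lit 384)))) (XT.nd (nat_lit 156) (nat_lit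 456) (nat_lit 0) (XT.nd (nat_lit 78) (nat_lit 380) (nat_lit 0) (XT.lf (nat_lit 0) (nat_lit 2226615403) (nat_lit 456) (nat_lit 3152749235) (nat_lit 76) (nat_lit 2341274934) (nat_lit 117) (nat_lit 5) (nat_lit 123) (nat_lit 5) (nat_lit 118) (nat_lit 5) (nat_lit 419) (nat_lit 398) (nat_lit 383)) (XT.lf (nat_lit 0) (nat_lit 2134349864) (nat_lit 380) (nat_lit 2898752547) (nat_lit 456) (nat_lit 2834533885) (nat_lit 112) (nat_lit 5) (nat_lit 117) (nat_lit 5) (nat_lit 118) (nat_lit 5) (nat_lit 420) (nat_lit 398) (nat_lit 382))) (XT.nd (nat_lit 78) (nat_lit 456) (nat_lit 0) (XT.lf (nat_lit 0) (nat_lit 7669687098) (nat_lit 380) (nat_lit 250665682) (nat_lit 456) (nat_lit 104654555) (nat_lit 112) (nat_lit 5) (nat_lit 117) (nat_lit 5) (nat_lit 118) (nat_lit 5) (nat_lit 421) (nat_lit 398) (nat_lit 381)) (XT.lf (nat_lit 0) (nat_lit 2687951820) (nat_lit 456) (nat_lit 2936176898) (nat_lit 76) (nat_lit 2563273146)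 (nat_lit 106) (nat_lit 5) (nat_lit 112) (nat_lit 5) (nat_lit 107) (nat_lit 5) (nat_lit 422) (nat_lit 398) (nat_lit 380))))) (XT.nd (nat_lit 234) (nat_lit 836) (nat_lit 0) (XT.nd (nat_lit 78) (nat_lit 380) (nat_lit 0) (XT.lf (nat_lit 0) (nat_lit 2748493007) (nat_lit 304) (nat_lit 2815011769) (nat_lit 380) (nat_lit 2797024001) (nat_lit 102) (nat_lit 5) (nat_lit 106) (nat_lit 5) (nat_lit 107) (nat_lit 5) (nat_lit 423) (nat_lit 398) (nat_lit 379)) (XT.nd (nat_lit 78) (nat_lit 76) (nat_lit 0) (XT.lf (nat_lit 0) (nat_lit 152266129) (nat_lit 304) (nat_lit 8382075108) (nat_lit 380) (nat_lit 10433704) (nat_lit 98) (nat_lit 5) (nat_lit 102) (nat_lit 5) (nat_lit 103) (nat_lit 5) (nat_lit 424) (nat_lit 398) (nat_lit 378)) (XT.lf (nat_lit 0) (nat_lit 2862668310) (nat_lit 380) (nat_lit 2557616754) (nat_lit 76) (nat_lit 3313682252) (nat_lit 97) (nat_lit 5) (nat_lit 102) (nat_lit 5) (nat_lit 98) (nat_lit 5)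 (nat_lit 425) (nat_lit 398) (nat_lit 377)))) (XT.nd (nat_lit 156) (nat_lit 304) (nat_lit 0) (XT.nd (nat_lit 78) (nat_lit 304) (nat_lit 0) (XT.lf (nat_lit 0) (nat_lit 3558425380) (nat_lit 228) (nat_lit 2278823175) (nat_lit 304) (nat_lit 3097486509) (nat_lit 94) (nat_lit 5) (nat_lit 97) (nat_lit 5) (nat_lit 98) (nat_lit 5) (nat_lit 426) (nat_lit 398) (nat_lit 376)) (XT.lf (nat_lit 0) (nat_lit 808285713) (nat_lit 304) (nat_lit 8129749516) (nat_lit 380) (nat_lit 208663526) (nat_lit 90) (nat_lit 5) (nat_lit 94) (nat_lit 5) (nat_lit 95) (nat_lit 5) (nat_lit 427) (nat_lit 398) (nat_lit 375))) (XT.nd (nat_lit 78) (nat_lit 228) (nat_lit 0) (XT.lf (nat_lit 0) (nat_lit 2770046409) (nat_lit 380) (nat_lit 2086632484) (nat_lit 76) (nat_lit 4508612712) (nat_lit 89) (nat_lit 5) (nat_lit 94) (nat_lit 5) (nat_lit 90) (nat_lit 5) (nat_lit 428) (nat_lit 398) (nat_lit 374)) (XT.lf (nat_lit 0) (nat_lit 4496579521)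 (nat_lit 228) (nat_lit 1374732514) (nat_lit 304) (nat_lit 3724326540) (nat_lit 86) (nat_lit 5) (nat_lit 89) (nat_lit 5) (nat_lit 90) (nat_lit 5) (nat_lit 429) (nat_lit 398) (nat_lit 373))))))))
noncomputable def xc89 : XT := (XT.nd (nat_lit 2184) (nat_lit 1748) (nat_lit 0) (XT.nd (nat_lit 1092) (nat_lit 1444) (nat_lit 0) (XT.nd (nat_lit 546) (nat_lit 760) (nat_lit 0) (XT.nd (nat_lit 234) (nat_lit 684) (nat_lit 0) (XT.nd (nat_lit 78) (nat_lit 304) (nat_lit 0) (XT.lf (nat_lit 0) (nat_lit 1535022428) (nat_lit 228) (nat_lit 7600436932) (nat_lit 304) (nat_lit 701678465) (nat_lit 83) (nat_lit 5) (nat_lit 86) (nat_lit 5) (nat_lit 87) (nat_lit 5) (nat_lit 430) (nat_lit 398) (nat_lit 372)) (XT.nd (nat_lit 78) (nat_lit 228) (nat_lit 0) (XT.lf (nat_lit 0) (nat_lit 2416457188) (nat_lit 304) (nat_lit 1595578745) (nat_lit 76) (nat_lit 6075595839) (nat_lit 82) (nat_lit 5) (nat_lit 86) (nat_lit 5) (nat_lit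 83) (nat_lit 5) (nat_lit 431) (nat_lit 398) (nat_lit 371)) (XT.lf (nat_lit 0) (nat_lit 5492016286) (nat_lit 228) (nat_lit 177953433) (nat_lit 304) (nat_lit 4679975331) (nat_lit 79) (nat_lit 5) (nat_lit 82) (nat_lit 5) (nat_lit 83) (nat_lit 5) (nat_lit 432) (nat_lit 398) (nat_lit 370)))) (XT.nd (nat_lit 156) (nat_lit 380) (nat_lit 0) (XT.nd (nat_lit 78) (nat_lit 76) (nat_lit 0) (XT.lf (nat_lit 0) (nat_lit 2256961910) (nat_lit 228) (nat_lit 6870833104) (nat_lit 304) (nat_lit 1495518390) (nat_lit 76) (nat_lit 5) (nat_lit 79) (nat_lit 5) (nat_lit 80) (nat_lit 5) (nat_lit 433) (nat_lit 398) (nat_lit 369)) (XT.lf (nat_lit 0) (nat_lit 1795107340) (nat_lit 304) (nat_lit 1163965264) (nat_lit 76) (nat_lit 7949549182) (nat_lit 75) (nat_lit 5) (nat_lit 79) (nat_lit 5) (nat_lit 76) (nat_lit 5) (nat_lit 434) (nat_lit 398) (nat_lit 368))) (XT.nd (nat_lit 78) (nat_lit 228) (nat_lit 0) (XT.lf (nat_lit 0) (nat_lit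 5243730714) (nat_lit 228) (nat_lit 4759288789) (nat_lit 76) (nat_lit 1201782346) (nat_lit 73) (nat_lit 5) (nat_lit 76) (nat_lit 5) (nat_lit 74) (nat_lit 5) (nat_lit 435) (nat_lit 398) (nat_lit 367)) (XT.lf (nat_lit 0) (nat_lit 2888278872) (nat_lit 228) (nat_lit 6014815530) (nat_lit 304) (nat_lit 2610798552) (nat_lit 70) (nat_lit 5) (nat_lit 73) (nat_lit 5) (nat_lit 74) (nat_lit 5) (nat_lit 436) (nat_lit 398) (nat_lit 366))))) (XT.nd (nat_lit 234) (nat_lit 380) (nat_lit 0) (XT.nd (nat_lit 78) (nat_lit 304) (nat_lit 0) (XT.lf (nat_lit 0) (nat_lit 885128274) (nat_lit 304) (nat_lit 883445710) (nat_lit 76) (nat_lit 10068813979) (nat_lit 69) (nat_lit 5) (nat_lit 73) (nat_lit 5) (nat_lit 70) (nat_lit 5) (nat_lit 437) (nat_lit 398) (nat_lit 365)) (XT.nd (nat_lit 78) (nat_lit 152) (nat_lit 0) (XT.lf (nat_lit 0) (nat_lit 4555245806) (nat_lit 228) (nat_lit 4890648664) (nat_lit 76) (nat_lit 2724681653)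 (nat_lit 67) (nat_lit 5) (nat_lit 70) (nat_lit 5) (nat_lit 68) (nat_lit 5) (nat_lit 438) (nat_lit 398) (nat_lit 364)) (XT.lf (nat_lit 0) (nat_lit 3327212133) (nat_lit 152) (nat_lit 5107663178) (nat_lit 228) (nat_lit 4084262472) (nat_lit 65) (nat_lit 5) (nat_lit 67) (nat_lit 5) (nat_lit 68) (nat_lit 5) (nat_lit 439) (nat_lit 398) (nat_lit 363)))) (XT.nd (nat_lit 156) (nat_lit 152) (nat_lit 0) (XT.nd (nat_lit 78) (nat_lit 228) (nat_lit 0) (XT.lf (nat_lit 0) (nat_lit 12015066802) (nat_lit 152) (nat_lit 507715950) (nat_lit 228) (nat_lit 361643661) (nat_lit 65) (nat_lit 5) (nat_lit 67) (nat_lit 5) (nat_lit 68) (nat_lit 5) (nat_lit 440) (nat_lit 398) (nat_lit 362)) (XT.lf (nat_lit 0) (nat_lit 3561306970) (nat_lit 228) (nat_lit 5370974846) (nat_lit 76) (nat_lit 4326554561) (nat_lit 62) (nat_lit 5) (nat_lit 65) (nat_lit 5) (nat_lit 63) (nat_lit 5) (nat_lit 441) (nat_lit 398) (nat_lit 361))) (XT.nd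 (nat_lit 78) (nat_lit 0) (nat_lit 0) (XT.lf (nat_lit 0) (nat_lit 3449297354) (nat_lit 152) (nat_lit 4230611964) (nat_lit 228) (nat_lit 5971190046) (nat_lit 60) (nat_lit 5) (nat_lit 62) (nat_lit 5) (nat_lit 63) (nat_lit 5) (nat_lit 442) (nat_lit 398) (nat_lit 360)) (XT.lf (nat_lit 0) (nat_lit 12043219324) (nat_lit 228) (nat_lit 1283191778) (nat_lit 76) (nat_lit 734636801) (nat_lit 60) (nat_lit 5) (nat_lit 63) (nat_lit 5) (nat_lit 61) (nat_lit 4) (nat_lit 443) (nat_lit 398) (nat_lit 359)))))) (XT.nd (nat_lit 546) (nat_lit 608) (nat_lit 0) (XT.nd (nat_lit 234) (nat_lit 456) (nat_lit 0) (XT.nd (nat_lit 78) (nat_lit 152) (nat_lit 0) (XT.lf (nat_lit 0) (nat_lit 2202416003) (nat_lit 228) (nat_lit 6350892555) (nat_lit 76) (nat_lit 5929655740) (nat_lit 57) (nat_lit 5) (nat_lit 60) (nat_lit 5) (nat_lit 58) (nat_lit 5) (nat_lit 444) (nat_lit 398) (nat_lit 358)) (XT.nd (nat_lit 78) (nat_lit 0) (nat_lit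 0) (XT.lf (nat_lit 0) (nat_lit 3099060050) (nat_lit 152) (nat_lit 3475992636) (nat_lit 228) (nat_lit 8348820006) (nat_lit 55) (nat_lit 5) (nat_lit 57) (nat_lit 5) (nat_lit 58) (nat_lit 5) (nat_lit 445) (nat_lit 398) (nat_lit 357)) (XT.lf (nat_lit 0) (nat_lit 11243969359) (nat_lit 228) (nat_lit 2275284230) (nat_lit 76) (nat_lit 1863699789) (nat_lit 55) (nat_lit 5) (nat_lit 58) (nat_lit 5) (nat_lit 56) (nat_lit 4) (nat_lit 446) (nat_lit 398) (nat_lit 356)))) (XT.nd (nat_lit 156) (nat_lit 76) (nat_lit 0) (XT.nd (nat_lit 78) (nat_lit 152) (nat_lit 0) (XT.lf (nat_lit 0) (nat_lit 396055835) (nat_lit 228) (nat_lit 8019549829) (nat_lit 76) (nat_lit 7442985382) (nat_lit 52) (nat_lit 5) (nat_lit 55) (nat_lit 5) (nat_lit 53) (nat_lit 5) (nat_lit 447) (nat_lit 398) (nat_lit 355)) (XT.lf (nat_lit 0) (nat_lit 2079675267) (nat_lit 152) (nat_lit 2953239179) (nat_lit 228) (nat_lit 11321003368) (nat_lit 50)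 (nat_lit 5) (nat_lit 52) (nat_lit 5) (nat_lit 53) (nat_lit 5) (nat_lit 448) (nat_lit 398) (nat_lit 354))) (XT.nd (nat_lit 78) (nat_lit 76) (nat_lit 0) (XT.lf (nat_lit 0) (nat_lit 10026156533) (nat_lit 228) (nat_lit 4051536803) (nat_lit 76) (nat_lit 2790098194) (nat_lit 50) (nat_lit 5) (nat_lit 53) (nat_lit 5) (nat_lit 51) (nat_lit 4) (nat_lit 449) (nat_lit 398) (nat_lit 353)) (XT.lf (nat_lit 0) (nat_lit 6753931033) (nat_lit 76) (nat_lit 8614763106) (nat_lit 152) (nat_lit 2033690392) (nat_lit 49) (nat_lit 5) (nat_lit 50) (nat_lit 5) (nat_lit 51) (nat_lit 4) (nat_lit 450) (nat_lit 398) (nat_lit 352))))) (XT.nd (nat_lit 234) (nat_lit 304) (nat_lit 0) (XT.nd (nat_lit 78) (nat_lit 76) (nat_lit 0) (XT.lf (nat_lit 0) (nat_lit 139975063) (nat_lit 152) (nat_lit 2796113661) (nat_lit 228) (nat_lit 15024375447) (nat_lit 46) (nat_lit 5) (nat_lit 48) (nat_lit 5) (nat_lit 49) (nat_lit 5) (nat_lit 451) (nat_lit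 398) (nat_lit 351)) (XT.nd (nat_lit 78) (nat_lit 76) (nat_lit 0) (XT.lf (nat_lit 0) (nat_lit 8267473867) (nat_lit 228) (nat_lit 6884755865) (nat_lit 76) (nat_lit 3383484264) (nat_lit 46) (nat_lit 5) (nat_lit 49) (nat_lit 5) (nat_lit 47) (nat_lit 4) (nat_lit 452) (nat_lit 398) (nat_lit 350)) (XT.lf (nat_lit 0) (nat_lit 4607182663) (nat_lit 76) (nat_lit 9325002015) (nat_lit 152) (nat_lit 5204209794) (nat_lit 45) (nat_lit 5) (nat_lit 46) (nat_lit 5) (nat_lit 47) (nat_lit 4) (nat_lit 453) (nat_lit 398) (nat_lit 349)))) (XT.nd (nat_lit 156) (nat_lit 76) (nat_lit 0) (XT.nd (nat_lit 78) (nat_lit 152) (nat_lit 0) (XT.lf (nat_lit 0) (nat_lit 177087862) (nat_lit 152) (nat_lit 2944614716) (nat_lit 76) (nat_lit 16641939431) (nat_lit 44) (nat_lit 5) (nat_lit 46) (nat_lit 5) (nat_lit 45) (nat_lit 5) (nat_lit 454) (nat_lit 398) (nat_lit 348)) (XT.lf (nat_lit 0) (nat_lit 5806178874) (nat_lit 228) (nat_lit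 11124248945) (nat_lit 76) (nat_lit 3479882323) (nat_lit 42) (nat_lit 5) (nat_lit 45) (nat_lit 5) (nat_lit 43) (nat_lit 4) (nat_lit 455) (nat_lit 398) (nat_lit 347))) (XT.nd (nat_lit 78) (nat_lit 0) (nat_lit 0) (XT.lf (nat_lit 0) (nat_lit 1036517058) (nat_lit 76) (nat_lit 10750189388) (nat_lit 152) (nat_lit 9299111055) (nat_lit 41) (nat_lit 5) (nat_lit 42) (nat_lit 5) (nat_lit 43) (nat_lit 4) (nat_lit 456) (nat_lit 398) (nat_lit 346)) (XT.lf (nat_lit 0) (nat_lit 14104607118) (nat_lit 76) (nat_lit 4102917020) (nat_lit 152) (nat_lit 3580517591) (nat_lit 41) (nat_lit 5) (nat_lit 42) (nat_lit 5) (nat_lit 43) (nat_lit 4) (nat_lit 457) (nat_lit 398) (nat_lit 345))))))) (XT.nd (nat_lit 1092) (nat_lit 760) (nat_lit 0) (XT.nd (nat_lit 546) (nat_lit 456) (nat_lit 0) (XT.nd (nat_lit 234) (nat_lit 228) (nat_lit 0) (XT.nd (nat_lit 78) (nat_lit 76) (nat_lit 0) (XT.lf (nat_lit 0) (nat_lit 2430620698) (nat_lit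 228) (nat_lit 17218084206) (nat_lit 76) (nat_lit 2870574316) (nat_lit 38) (nat_lit 5) (nat_lit 41) (nat_lit 5) (nat_lit 39) (nat_lit 4) (nat_lit 458) (nat_lit 398) (nat_lit 344)) (XT.nd (nat_lit 78) (nat_lit 76) (nat_lit 0) (XT.lf (nat_lit 0) (nat_lit 8776158762) (nat_lit 228) (nat_lit 4291438300) (nat_lit 76) (nat_lit 10208842135) (nat_lit 38) (nat_lit 5) (nat_lit 41) (nat_lit 5) (nat_lit 39) (nat_lit 4) (nat_lit 459) (nat_lit 398) (nat_lit 343)) (XT.lf (nat_lit 0) (nat_lit 9505211389) (nat_lit 76) (nat_lit 6038979567) (nat_lit 152) (nat_lit 8522009213) (nat_lit 37) (nat_lit 5) (nat_lit 38) (nat_lit 5) (nat_lit 39) (nat_lit 4) (nat_lit 460) (nat_lit 398) (nat_lit 342)))) (XT.nd (nat_lit 156) (nat_lit 76) (nat_lit 0) (XT.nd (nat_lit 78) (nat_lit 152) (nat_lit 0) (XT.lf (nat_lit 0) (nat_lit 22702488993) (nat_lit 152) (nat_lit 854063416) (nat_lit 0) (nat_lit 1336307239) (nat_lit 37) (nat_lit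 5) (nat_lit 39) (nat_lit 4) (nat_lit 37) (nat_lit 4) (nat_lit 461) (nat_lit 398) (nat_lit 341)) (XT.lf (nat_lit 0) (nat_lit 4593275179) (nat_lit 152) (nat_lit 12017188288) (nat_lit 76) (nat_lit 9133006770) (nat_lit 35) (nat_lit 5) (nat_lit 37) (nat_lit 5) (nat_lit 36) (nat_lit 4) (nat_lit 462) (nat_lit 398) (nat_lit 340))) (XT.nd (nat_lit 78) (nat_lit 0) (nat_lit 0) (XT.lf (nat_lit 0) (nat_lit 2392782171) (nat_lit 76) (nat_lit 9260975998) (nat_lit 152) (nat_lit 14980497690) (nat_lit 34) (nat_lit 5) (nat_lit 35) (nat_lit 5) (nat_lit 36) (nat_lit 4) (nat_lit 463) (nat_lit 398) (nat_lit 339)) (XT.lf (nat_lit 0) (nat_lit 17864639223) (nat_lit 76) (nat_lit 1366108295) (nat_lit 152) (nat_lit 8330662154) (nat_lit 34) (nat_lit 5) (nat_lit 35) (nat_lit 5) (nat_lit 36) (nat_lit 4) (nat_lit 464) (nat_lit 398) (nat_lit 338))))) (XT.nd (nat_lit 234) (nat_lit 228) (nat_lit 0) (XT.nd (nat_lit 78) (nat_lit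 152) (nat_lit 0) (XT.lf (nat_lit 0) (nat_lit 5571817436) (nat_lit 76) (nat_lit 21771195464) (nat_lit 76) (nat_lit 1184089827) (nat_lit 33) (nat_lit 4) (nat_lit 34) (nat_lit 5) (nat_lit 34) (nat_lit 4) (nat_lit 465) (nat_lit 398) (nat_lit 337)) (XT.nd (nat_lit 78) (nat_lit 76) (nat_lit 0) (XT.lf (nat_lit 0) (nat_lit 6268269934) (nat_lit 152) (nat_lit 7789821411) (nat_lit 76) (nat_lit 15470521586) (nat_lit 32) (nat_lit 5) (nat_lit 34) (nat_lit 5) (nat_lit 33) (nat_lit 4) (nat_lit 466) (nat_lit 398) (nat_lit 336)) (XT.lf (nat_lit 0) (nat_lit 8310315549) (nat_lit 76) (nat_lit 5836148554) (nat_lit 152) (nat_lit 16428115985) (nat_lit 31) (nat_lit 5) (nat_lit 32) (nat_lit 5) (nat_lit 33) (nat_lit 4) (nat_lit 467) (nat_lit 398) (nat_lit 335)))) (XT.nd (nat_lit 156) (nat_lit 152) (nat_lit 0) (XT.nd (nat_lit 78) (nat_lit 76) (nat_lit 0) (XT.lf (nat_lit 0) (nat_lit 22559741395) (nat_lit 152) (nat_lit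 6296504915) (nat_lit 0) (nat_lit 2809542988) (nat_lit 31) (nat_lit 5) (nat_lit 33) (nat_lit 4) (nat_lit 31) (nat_lit 4) (nat_lit 468) (nat_lit 398) (nat_lit 334)) (XT.lf (nat_lit 0) (nat_lit 10647782821) (nat_lit 76) (nat_lit 20972976990) (nat_lit 76) (nat_lit 1179447550) (nat_lit 30) (nat_lit 4) (nat_lit 31) (nat_lit 5) (nat_lit 31) (nat_lit 4) (nat_lit 469) (nat_lit 398) (nat_lit 333))) (XT.nd (nat_lit 78) (nat_lit 76) (nat_lit 0) (XT.lf (nat_lit 0) (nat_lit 6988457412) (nat_lit 152) (nat_lit 5508459394) (nat_lit 76) (nat_lit 21485174544) (nat_lit 29) (nat_lit 5) (nat_lit 31) (nat_lit 5) (nat_lit 30) (nat_lit 4) (nat_lit 470) (nat_lit 398) (nat_lit 332)) (XT.lf (nat_lit 0) (nat_lit 12277465053) (nat_lit 76) (nat_lit 3406225027) (nat_lit 152) (nat_lit 19530486163) (nat_lit 28) (nat_lit 5) (nat_lit 29) (nat_lit 5) (nat_lit 30) (nat_lit 4) (nat_lit 471) (nat_lit 398) (nat_lit 331)))))) (XT.nd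 (nat_lit 546) (nat_lit 380) (nat_lit 0) (XT.nd (nat_lit 234) (nat_lit 228) (nat_lit 0) (XT.nd (nat_lit 78) (nat_lit 152) (nat_lit 0) (XT.lf (nat_lit 0) (nat_lit 24971355933) (nat_lit 152) (nat_lit 5520634258) (nat_lit 0) (nat_lit 6007993468) (nat_lit 28) (nat_lit 5) (nat_lit 30) (nat_lit 4) (nat_lit 28) (nat_lit 4) (nat_lit 472) (nat_lit 398) (nat_lit 330)) (XT.nd (nat_lit 78) (nat_lit 76) (nat_lit 0) (XT.lf (nat_lit 0) (nat_lit 13067718257) (nat_lit 76) (nat_lit 21884128175) (nat_lit 76) (nat_lit 2886814712) (nat_lit 27) (nat_lit 4) (nat_lit 28) (nat_lit 5) (nat_lit 28) (nat_lit 4) (nat_lit 473) (nat_lit 398) (nat_lit 329)) (XT.lf (nat_lit 0) (nat_lit 6052721348) (nat_lit 152) (nat_lit 6621568981) (nat_lit 76) (nat_lit 26561970993) (nat_lit 26) (nat_lit 5) (nat_lit 28) (nat_lit 5) (nat_lit 27) (nat_lit 4) (nat_lit 474) (nat_lit 398) (nat_lit 328)))) (XT.nd (nat_lit 156) (nat_lit 152) (nat_lit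 0) (XT.nd (nat_lit 78) (nat_lit 0) (nat_lit 0) (XT.lf (nat_lit 0) (nat_lit 12737541018) (nat_lit 76) (nat_lit 2773670357) (nat_lit 152) (nat_lit 25181715765) (nat_lit 25) (nat_lit 5) (nat_lit 26) (nat_lit 5) (nat_lit 27) (nat_lit 4) (nat_lit 475) (nat_lit 398) (nat_lit 327)) (XT.lf (nat_lit 0) (nat_lit 25645824777) (nat_lit 152) (nat_lit 9101351966) (nat_lit 0) (nat_lit 7465091015) (nat_lit 25) (nat_lit 5) (nat_lit 27) (nat_lit 4) (nat_lit 25) (nat_lit 4) (nat_lit 476) (nat_lit 398) (nat_lit 326))) (XT.nd (nat_lit 78) (nat_lit 76) (nat_lit 0) (XT.lf (nat_lit 0) (nat_lit 10944800329) (nat_lit 76) (nat_lit 25530356169) (nat_lit 76) (nat_lit 7323020911) (nat_lit 24) (nat_lit 4) (nat_lit 25) (nat_lit 5) (nat_lit 25) (nat_lit 4) (nat_lit 477) (nat_lit 398) (nat_lit 325)) (XT.lf (nat_lit 0) (nat_lit 2434657596) (nat_lit 152) (nat_lit 13241621941) (nat_lit 76) (nat_lit 29778827202) (nat_lit 23) (nat_lit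 5) (nat_lit 25) (nat_lit 5) (nat_lit 24) (nat_lit 4) (nat_lit 478) (nat_lit 398) (nat_lit 324))))) (XT.nd (nat_lit 312) (nat_lit 228) (nat_lit 0) (XT.nd (nat_lit 156) (nat_lit 76) (nat_lit 0) (XT.nd (nat_lit 78) (nat_lit 0) (nat_lit 0) (XT.lf (nat_lit 0) (nat_lit 7415185217) (nat_lit 76) (nat_lit 5107733598) (nat_lit 152) (nat_lit 34661522426) (nat_lit 22) (nat_lit 5) (nat_lit 23) (nat_lit 5) (nat_lit 24) (nat_lit 4) (nat_lit 479) (nat_lit 398) (nat_lit 323)) (XT.lf (nat_lit 0) (nat_lit 23410135343) (nat_lit 152) (nat_lit 19574557930) (nat_lit 0) (nat_lit 6000823222) (nat_lit 22) (nat_lit 5) (nat_lit 24) (nat_lit 4) (nat_lit 22) (nat_lit 4) (nat_lit 480) (nat_lit 398) (nat_lit 322))) (XT.nd (nat_lit 78) (nat_lit 0) (nat_lit 0) (XT.lf (nat_lit 0) (nat_lit 1545222330) (nat_lit 76) (nat_lit 33378733596) (nat_lit 76) (nat_lit 15948578508) (nat_lit 21) (nat_lit 4) (nat_lit 22) (nat_lit 5) (nat_lit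 22) (nat_lit 4) (nat_lit 481) (nat_lit 398) (nat_lit 321)) (XT.lf (nat_lit 0) (nat_lit 24351012407) (nat_lit 76) (nat_lit 22968790334) (nat_lit 76) (nat_lit 5518784801) (nat_lit 21) (nat_lit 4) (nat_lit 22) (nat_lit 5) (nat_lit 22) (nat_lit 4) (nat_lit 482) (nat_lit 398) (nat_lit 320)))) (XT.nd (nat_lit 156) (nat_lit 76) (nat_lit 0) (XT.nd (nat_lit 78) (nat_lit 76) (nat_lit 0) (XT.lf (nat_lit 0) (nat_lit 5234259928) (nat_lit 152) (nat_lit 6738677866) (nat_lit 76) (nat_lit 42926983861) (nat_lit 20) (nat_lit 5) (nat_lit 22) (nat_lit 5) (nat_lit 21) (nat_lit 4) (nat_lit 483) (nat_lit 398) (nat_lit 319)) (XT.lf (nat_lit 0) (nat_lit 16489226790) (nat_lit 76) (nat_lit 84501233) (nat_lit 152) (nat_lit 40474359824) (nat_lit 19) (nat_lit 5) (nat_lit 20) (nat_lit 5) (nat_lit 21) (nat_lit 4) (nat_lit 484) (nat_lit 398) (nat_lit 318))) (XT.nd (nat_lit 78) (nat_lit 76) (nat_lit 0) (XT.lf (nat_lit 0) (nat_lit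 28766587962) (nat_lit 152) (nat_lit 18426702753) (nat_lit 0) (nat_lit 12096051562) (nat_lit 19) (nat_lit 5) (nat_lit 21) (nat_lit 4) (nat_lit 19) (nat_lit 4) (nat_lit 485) (nat_lit 398) (nat_lit 317)) (XT.lf (nat_lit 0) (nat_lit 4924698416) (nat_lit 76) (nat_lit 36700620092) (nat_lit 76) (nat_lit 20014530349) (nat_lit 18) (nat_lit 4) (nat_lit 19) (nat_lit 5) (nat_lit 19) (nat_lit 4) (nat_lit 486) (nat_lit 398) (nat_lit 316))))))))
noncomputable def xc90 : XT := (XT.nd (nat_lit 2184) (nat_lit 304) (nat_lit 0) (XT.nd (nat_lit 1092) (nat_lit 380) (nat_lit 0) (XT.nd (nat_lit 546) (nat_lit 228) (nat_lit 0) (XT.nd (nat_lit 234) (nat_lit 76) (nat_lit 0) (XT.nd (nat_lit 78) (nat_lit 152) (nat_lit 0) (XT.lf (nat_lit 0) (nat_lit 30040505506) (nat_lit 76) (nat_lit 25376879261) (nat_lit 76) (nat_lit 8675976811) (nat_lit 18) (nat_lit 4) (nat_lit 19) (nat_lit 5) (nat_lit 19) (nat_lit 4) (nat_lit 487) (nat_lit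 398) (nat_lit 315)) (XT.nd (nat_lit 78) (nat_lit 76) (nat_lit 0) (XT.lf (nat_lit 0) (nat_lit 3105166888) (nat_lit 152) (nat_lit 10349417670) (nat_lit 76) (nat_lit 53213493655) (nat_lit 17) (nat_lit 5) (nat_lit 19) (nat_lit 5) (nat_lit 18) (nat_lit 4) (nat_lit 488) (nat_lit 398) (nat_lit 314)) (XT.lf (nat_lit 0) (nat_lit 14832113230) (nat_lit 76) (nat_lit 563281200) (nat_lit 152) (nat_lit 53958445640) (nat_lit 16) (nat_lit 5) (nat_lit 17) (nat_lit 5) (nat_lit 18) (nat_lit 4) (nat_lit 489) (nat_lit 398) (nat_lit 313)))) (XT.nd (nat_lit 156) (nat_lit 76) (nat_lit 0) (XT.nd (nat_lit 78) (nat_lit 0) (nat_lit 0) (XT.lf (nat_lit 0) (nat_lit 28660885005) (nat_lit 152) (nat_lit 30778122232) (nat_lit 0) (nat_lit 12716845836) (nat_lit 16) (nat_lit 5) (nat_lit 18) (nat_lit 4) (nat_lit 16) (nat_lit 4) (nat_lit 490) (nat_lit 398) (nat_lit 312)) (XT.lf (nat_lit 0) (nat_lit 42579900888) (nat_lit 152) (nat_lit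 5894298327) (nat_lit 0) (nat_lit 26624255575) (nat_lit 16) (nat_lit 5) (nat_lit 18) (nat_lit 4) (nat_lit 16) (nat_lit 4) (nat_lit 491) (nat_lit 398) (nat_lit 311))) (XT.nd (nat_lit 78) (nat_lit 0) (nat_lit 0) (XT.lf (nat_lit 0) (nat_lit 20865616509) (nat_lit 76) (nat_lit 36636942437) (nat_lit 76) (nat_lit 20670243653) (nat_lit 15) (nat_lit 4) (nat_lit 16) (nat_lit 5) (nat_lit 16) (nat_lit 4) (nat_lit 492) (nat_lit 398) (nat_lit 310)) (XT.lf (nat_lit 0) (nat_lit 49132813035) (nat_lit 76) (nat_lit 24120589295) (nat_lit 76) (nat_lit 8143363395) (nat_lit 15) (nat_lit 4) (nat_lit 16) (nat_lit 5) (nat_lit 16) (nat_lit 4) (nat_lit 493) (nat_lit 398) (nat_lit 309))))) (XT.nd (nat_lit 234) (nat_lit 76) (nat_lit 0) (XT.nd (nat_lit 78) (nat_lit 76) (nat_lit 0) (XT.lf (nat_lit 0) (nat_lit 4832311925) (nat_lit 152) (nat_lit 6081012275) (nat_lit 76) (nat_lit 73865552511) (nat_lit 14) (nat_lit 5) (nat_lit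 16) (nat_lit 5) (nat_lit 15) (nat_lit 4) (nat_lit 494) (nat_lit 398) (nat_lit 308)) (XT.nd (nat_lit 78) (nat_lit 0) (nat_lit 0) (XT.lf (nat_lit 0) (nat_lit 18563056014) (nat_lit 152) (nat_lit 66413356772) (nat_lit 0) (nat_lit 3328008275) (nat_lit 13) (nat_lit 5) (nat_lit 15) (nat_lit 4) (nat_lit 13) (nat_lit 4) (nat_lit 495) (nat_lit 398) (nat_lit 307)) (XT.lf (nat_lit 0) (nat_lit 33247564292) (nat_lit 152) (nat_lit 40741461569) (nat_lit 0) (nat_lit 18003855869) (nat_lit 13) (nat_lit 5) (nat_lit 15) (nat_lit 4) (nat_lit 13) (nat_lit 4) (nat_lit 496) (nat_lit 398) (nat_lit 306)))) (XT.nd (nat_lit 156) (nat_lit 0) (nat_lit 0) (XT.nd (nat_lit 78) (nat_lit 76) (nat_lit 0) (XT.lf (nat_lit 0) (nat_lit 48650723572) (nat_lit 152) (nat_lit 13817054132) (nat_lit 0) (nat_lit 33398766879) (nat_lit 13) (nat_lit 5) (nat_lit 15) (nat_lit 4) (nat_lit 13) (nat_lit 4) (nat_lit 497) (nat_lit 398) (nat_lit 305))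 (XT.lf (nat_lit 0) (nat_lit 14900892903) (nat_lit 76) (nat_lit 50140959838) (nat_lit 76) (nat_lit 34881147650) (nat_lit 12) (nat_lit 4) (nat_lit 13) (nat_lit 5) (nat_lit 13) (nat_lit 4) (nat_lit 498) (nat_lit 398) (nat_lit 304))) (XT.nd (nat_lit 78) (nat_lit 0) (nat_lit 0) (XT.lf (nat_lit 0) (nat_lit 45505309264) (nat_lit 76) (nat_lit 36966646430) (nat_lit 76) (nat_lit 21699352818) (nat_lit 12) (nat_lit 4) (nat_lit 13) (nat_lit 5) (nat_lit 13) (nat_lit 4) (nat_lit 499) (nat_lit 398) (nat_lit 303)) (XT.lf (nat_lit 0) (nat_lit 77612208398) (nat_lit 76) (nat_lit 23147468566) (nat_lit 76) (nat_lit 7873049788) (nat_lit 12) (nat_lit 4) (nat_lit 13) (nat_lit 5) (nat_lit 13) (nat_lit 4) (nat_lit 500) (nat_lit 398) (nat_lit 302)))))) (XT.nd (nat_lit 546) (nat_lit 152) (nat_lit 0) (XT.nd (nat_lit 234) (nat_lit 76) (nat_lit 0) (XT.nd (nat_lit 78) (nat_lit 76) (nat_lit 0) (XT.lf (nat_lit 0) (nat_lit 6418458001)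 (nat_lit 152) (nat_lit 2123365746) (nat_lit 76) (nat_lit 104770877610) (nat_lit 11) (nat_lit 5) (nat_lit 13) (nat_lit 5) (nat_lit 12) (nat_lit 4) (nat_lit 501) (nat_lit 398) (nat_lit 301)) (XT.nd (nat_lit 78) (nat_lit 0) (nat_lit 0) (XT.lf (nat_lit 0) (nat_lit 21715209298) (nat_lit 152) (nat_lit 89321723612) (nat_lit 0) (nat_lit 7155526074) (nat_lit 10) (nat_lit 5) (nat_lit 12) (nat_lit 4) (nat_lit 10) (nat_lit 4) (nat_lit 502) (nat_lit 398) (nat_lit 300)) (XT.lf (nat_lit 0) (nat_lit 37940595409) (nat_lit 152) (nat_lit 61992369231) (nat_lit 0) (nat_lit 23375050294) (nat_lit 10) (nat_lit 5) (nat_lit 12) (nat_lit 4) (nat_lit 10) (nat_lit 4) (nat_lit 503) (nat_lit 398) (nat_lit 299)))) (XT.nd (nat_lit 156) (nat_lit 76) (nat_lit 0) (XT.nd (nat_lit 78) (nat_lit 0) (nat_lit 0) (XT.lf (nat_lit 0) (nat_lit 54965077125) (nat_lit 152) (nat_lit 33320931276) (nat_lit 0) (nat_lit 40393949256) (nat_lit 10)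 (nat_lit 5) (nat_lit 12) (nat_lit 4) (nat_lit 10) (nat_lit 4) (nat_lit 504) (nat_lit 398) (nat_lit 298)) (XT.lf (nat_lit 0) (nat_lit 72829188926) (nat_lit 152) (nat_lit 3239144419) (nat_lit 0) (nat_lit 58252744148) (nat_lit 10) (nat_lit 5) (nat_lit 12) (nat_lit 4) (nat_lit 10) (nat_lit 4) (nat_lit 505) (nat_lit 398) (nat_lit 297))) (XT.nd (nat_lit 78) (nat_lit 0) (nat_lit 0) (XT.lf (nat_lit 0) (nat_lit 29261154319) (nat_lit 76) (nat_lit 62771158715) (nat_lit 76) (nat_lit 48189650214) (nat_lit 9) (nat_lit 4) (nat_lit 10) (nat_lit 5) (nat_lit 10) (nat_lit 4) (nat_lit 506) (nat_lit 398) (nat_lit 296)) (XT.lf (nat_lit 0) (nat_lit 63477163365) (nat_lit 76) (nat_lit 48762430619) (nat_lit 76) (nat_lit 34176099527) (nat_lit 9) (nat_lit 4) (nat_lit 10) (nat_lit 5) (nat_lit 10) (nat_lit 4) (nat_lit 507) (nat_lit 398) (nat_lit 295))))) (XT.nd (nat_lit 234) (nat_lit 0) (nat_lit 0) (XT.nd (nat_lit 78) (nat_lit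 152) (nat_lit 0) (XT.lf (nat_lit 0) (nat_lit 99383248662) (nat_lit 76) (nat_lit 34063651423) (nat_lit 76) (nat_lit 19472727385) (nat_lit 9) (nat_lit 4) (nat_lit 10) (nat_lit 5) (nat_lit 10) (nat_lit 4) (nat_lit 508) (nat_lit 398) (nat_lit 294)) (XT.nd (nat_lit 78) (nat_lit 152) (nat_lit 0) (XT.lf (nat_lit 0) (nat_lit 137064900890) (nat_lit 76) (nat_lit 18639824033) (nat_lit 76) (nat_lit 4044525761) (nat_lit 9) (nat_lit 4) (nat_lit 10) (nat_lit 5) (nat_lit 10) (nat_lit 4) (nat_lit 509) (nat_lit 398) (nat_lit 293)) (XT.lf (nat_lit 0) (nat_lit 9815551847) (nat_lit 76) (nat_lit 2094212082) (nat_lit 152) (nat_lit 154993916754) (nat_lit 7) (nat_lit 5) (nat_lit 8) (nat_lit 5) (nat_lit 9) (nat_lit 4) (nat_lit 510) (nat_lit 398) (nat_lit 292)))) (XT.nd (nat_lit 156) (nat_lit 0) (nat_lit 0) (XT.nd (nat_lit 78) (nat_lit 0) (nat_lit 0) (XT.lf (nat_lit 0) (nat_lit 29145338244) (nat_lit 152) (nat_lit 129998896325)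 (nat_lit 0) (nat_lit 15237307989) (nat_lit 7) (nat_lit 5) (nat_lit 9) (nat_lit 4) (nat_lit 7) (nat_lit 4) (nat_lit 511) (nat_lit 398) (nat_lit 291)) (XT.lf (nat_lit 0) (nat_lit 47267957277) (nat_lit 152) (nat_lit 101607748808) (nat_lit 0) (nat_lit 33356328329) (nat_lit 7) (nat_lit 5) (nat_lit 9) (nat_lit 4) (nat_lit 7) (nat_lit 4) (nat_lit 512) (nat_lit 398) (nat_lit 290))) (XT.nd (nat_lit 78) (nat_lit 0) (nat_lit 0) (XT.lf (nat_lit 0) (nat_lit 66288073602) (nat_lit 152) (nat_lit 71814391796) (nat_lit 0) (nat_lit 52373017327) (nat_lit 7) (nat_lit 5) (nat_lit 9) (nat_lit 4) (nat_lit 7) (nat_lit 4) (nat_lit 513) (nat_lit 398) (nat_lit 289)) (XT.lf (nat_lit 0) (nat_lit 86250973209) (nat_lit 152) (nat_lit 40547888725) (nat_lit 0) (nat_lit 72332652814) (nat_lit 7) (nat_lit 5) (nat_lit 9) (nat_lit 4) (nat_lit 7) (nat_lit 4) (nat_lit 514) (nat_lit 398) (nat_lit 288))))))) (XT.nd (nat_lit 1092) (nat_lit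 76) (nat_lit 0) (XT.nd (nat_lit 546) (nat_lit 152) (nat_lit 0) (XT.nd (nat_lit 234) (nat_lit 0) (nat_lit 0) (XT.nd (nat_lit 78) (nat_lit 76) (nat_lit 0) (XT.lf (nat_lit 0) (nat_lit 107204186812) (nat_lit 152) (nat_lit 7733795540) (nat_lit 0) (nat_lit 93282757731) (nat_lit 7) (nat_lit 5) (nat_lit 9) (nat_lit 4) (nat_lit 7) (nat_lit 4) (nat_lit 515) (nat_lit 398) (nat_lit 287)) (XT.nd (nat_lit 78) (nat_lit 0) (nat_lit 0) (XT.lf (nat_lit 0) (nat_lit 27589038067) (nat_lit 76) (nat_lit 102039307150) (nat_lit 76) (nat_lit 88114917415) (nat_lit 6) (nat_lit 4) (nat_lit 7) (nat_lit 5) (nat_lit 7) (nat_lit 4) (nat_lit 516) (nat_lit 398) (nat_lit 286)) (XT.lf (nat_lit 0) (nat_lit 64931769227) (nat_lit 76) (nat_lit 88365584755) (nat_lit 76) (nat_lit 74438375351) (nat_lit 6) (nat_lit 4) (nat_lit 7) (nat_lit 5) (nat_lit 7) (nat_lit 4) (nat_lit 517) (nat_lit 398) (nat_lit 285)))) (XT.nd (nat_lit 156) (nat_lit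 0) (nat_lit 0) (XT.nd (nat_lit 78) (nat_lit 0) (nat_lit 0) (XT.lf (nat_lit 0) (nat_lit 104127594996) (nat_lit 76) (nat_lit 74015234257) (nat_lit 76) (nat_lit 60085339453) (nat_lit 6) (nat_lit 4) (nat_lit 7) (nat_lit 5) (nat_lit 7) (nat_lit 4) (nat_lit 518) (nat_lit 398) (nat_lit 284)) (XT.lf (nat_lit 0) (nat_lit 145269838770) (nat_lit 76) (nat_lit 58954088154) (nat_lit 76) (nat_lit 45021635825) (nat_lit 6) (nat_lit 4) (nat_lit 7) (nat_lit 5) (nat_lit 7) (nat_lit 4) (nat_lit 519) (nat_lit 398) (nat_lit 283))) (XT.nd (nat_lit 78) (nat_lit 0) (nat_lit 0) (XT.lf (nat_lit 0) (nat_lit 188456458271) (nat_lit 76) (nat_lit 43146286574) (nat_lit 76) (nat_lit 29211398508) (nat_lit 6) (nat_lit 4) (nat_lit 7) (nat_lit 5) (nat_lit 7) (nat_lit 4) (nat_lit 520) (nat_lit 398) (nat_lit 282)) (XT.lf (nat_lit 0) (nat_lit 233790278783) (nat_lit 76) (nat_lit 26554191894) (nat_lit 76) (nat_lit 12616984079) (nat_lit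 6) (nat_lit 4) (nat_lit 7) (nat_lit 5) (nat_lit 7) (nat_lit 4) (nat_lit 521) (nat_lit 398) (nat_lit 281))))) (XT.nd (nat_lit 234) (nat_lit 0) (nat_lit 0) (XT.nd (nat_lit 78) (nat_lit 76) (nat_lit 0) (XT.lf (nat_lit 0) (nat_lit 4647452214) (nat_lit 152) (nat_lit 4412140061) (nat_lit 76) (nat_lit 276653078910) (nat_lit 5) (nat_lit 5) (nat_lit 7) (nat_lit 5) (nat_lit 6) (nat_lit 4) (nat_lit 522) (nat_lit 398) (nat_lit 280)) (XT.nd (nat_lit 78) (nat_lit 0) (nat_lit 0) (XT.lf (nat_lit 0) (nat_lit 23016596022) (nat_lit 152) (nat_lit 266302278968) (nat_lit 0) (nat_lit 9738956802) (nat_lit 4) (nat_lit 5) (nat_lit 6) (nat_lit 4) (nat_lit 4) (nat_lit 4) (nat_lit 523) (nat_lit 398) (nat_lit 279)) (XT.lf (nat_lit 0) (nat_lit 42523106268) (nat_lit 152) (nat_lit 241292640216) (nat_lit 0) (nat_lit 29243558584) (nat_lit 4) (nat_lit 5) (nat_lit 6) (nat_lit 4) (nat_lit 4) (nat_lit 4) (nat_lit 524) (nat_lit 398)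 (nat_lit 278)))) (XT.nd (nat_lit 156) (nat_lit 0) (nat_lit 0) (XT.nd (nat_lit 78) (nat_lit 0) (nat_lit 0) (XT.lf (nat_lit 0) (nat_lit 62999651233) (nat_lit 152) (nat_lit 215043179444) (nat_lit 0) (nat_lit 49718285965) (nat_lit 4) (nat_lit 5) (nat_lit 6) (nat_lit 4) (nat_lit 4) (nat_lit 4) (nat_lit 525) (nat_lit 398) (nat_lit 277)) (XT.lf (nat_lit 0) (nat_lit 84494984596) (nat_lit 152) (nat_lit 187491397936) (nat_lit 0) (nat_lit 71211888295) (nat_lit 4) (nat_lit 5) (nat_lit 6) (nat_lit 4) (nat_lit 4) (nat_lit 4) (nat_lit 526) (nat_lit 398) (nat_lit 276))) (XT.nd (nat_lit 78) (nat_lit 0) (nat_lit 0) (XT.lf (nat_lit 0) (nat_lit 107060285723) (nat_lit 152) (nat_lit 158571696212) (nat_lit 0) (nat_lit 93775540819) (nat_lit 4) (nat_lit 5) (nat_lit 6) (nat_lit 4) (nat_lit 4) (nat_lit 4) (nat_lit 527) (nat_lit 398) (nat_lit 275)) (XT.lf (nat_lit 0) (nat_lit 130749281519) (nat_lit 152) (nat_lit 128215217840)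 (nat_lit 0) (nat_lit 117462966517) (nat_lit 4) (nat_lit 5) (nat_lit 6) (nat_lit 4) (nat_lit 4) (nat_lit 4) (nat_lit 528) (nat_lit 398) (nat_lit 274)))))) (XT.nd (nat_lit 546) (nat_lit 0) (nat_lit 0) (XT.nd (nat_lit 234) (nat_lit 76) (nat_lit 0) (XT.nd (nat_lit 78) (nat_lit 0) (nat_lit 0) (XT.lf (nat_lit 0) (nat_lit 155618374357) (nat_lit 152) (nat_lit 96349685489) (nat_lit 0) (nat_lit 142330564024) (nat_lit 4) (nat_lit 5) (nat_lit 6) (nat_lit 4) (nat_lit 4) (nat_lit 4) (nat_lit 529) (nat_lit 398) (nat_lit 273)) (XT.nd (nat_lit 78) (nat_lit 0) (nat_lit 0) (XT.lf (nat_lit 0) (nat_lit 181726776362) (nat_lit 152) (nat_lit 62899228846) (nat_lit 0) (nat_lit 168437541904) (nat_lit 4) (nat_lit 5) (nat_lit 6) (nat_lit 4) (nat_lit 4) (nat_lit 4) (nat_lit 530) (nat_lit 398) (nat_lit 272)) (XT.lf (nat_lit 0) (nat_lit 209136650397) (nat_lit 152) (nat_lit 27784203964) (nat_lit 0) (nat_lit 195846059629) (nat_lit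 4) (nat_lit 5) (nat_lit 6) (nat_lit 4) (nat_lit 4) (nat_lit 4) (nat_lit 531) (nat_lit 398) (nat_lit 271)))) (XT.nd (nat_lit 156) (nat_lit 0) (nat_lit 0) (XT.nd (nat_lit 78) (nat_lit 0) (nat_lit 0) (XT.lf (nat_lit 0) (nat_lit 9379188977) (nat_lit 76) (nat_lit 228680504513) (nat_lit 76) (nat_lit 215388622022) (nat_lit 3) (nat_lit 4) (nat_lit 4) (nat_lit 5) (nat_lit 4) (nat_lit 4) (nat_lit 532) (nat_lit 398) (nat_lit 270)) (XT.lf (nat_lit 0) (nat_lit 49357902775) (nat_lit 76) (nat_lit 219537827512) (nat_lit 76) (nat_lit 206244714808) (nat_lit 3) (nat_lit 4) (nat_lit 4) (nat_lit 5) (nat_lit 4) (nat_lit 4) (nat_lit 533) (nat_lit 398) (nat_lit 269))) (XT.nd (nat_lit 78) (nat_lit 0) (nat_lit 0) (XT.lf (nat_lit 0) (nat_lit 91328453584) (nat_lit 76) (nat_lit 209941594018) (nat_lit 76) (nat_lit 196647309684) (nat_lit 3) (nat_lit 4) (nat_lit 4) (nat_lit 5) (nat_lit 4) (nat_lit 4) (nat_lit 534) (nat_lit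 398) (nat_lit 268)) (XT.lf (nat_lit 0) (nat_lit 135390771285) (nat_lit 76) (nat_lit 199868955857) (nat_lit 76) (nat_lit 186573555683) (nat_lit 3) (nat_lit 4) (nat_lit 4) (nat_lit 5) (nat_lit 4) (nat_lit 4) (nat_lit 535) (nat_lit 398) (nat_lit 267))))) (XT.nd (nat_lit 312) (nat_lit 0) (nat_lit 0) (XT.nd (nat_lit 156) (nat_lit 0) (nat_lit 0) (XT.nd (nat_lit 78) (nat_lit 0) (nat_lit 0) (XT.lf (nat_lit 0) (nat_lit 181649766159) (nat_lit 76) (nat_lit 189295930557) (nat_lit 76) (nat_lit 175999467679) (nat_lit 3) (nat_lit 4) (nat_lit 4) (nat_lit 5) (nat_lit 4) (nat_lit 4) (nat_lit 536) (nat_lit 398) (nat_lit 266)) (XT.lf (nat_lit 0) (nat_lit 230215578670) (nat_lit 76) (nat_lit 178197344247) (nat_lit 76) (nat_lit 164899869270) (nat_lit 3) (nat_lit 4) (nat_lit 4) (nat_lit 5) (nat_lit 4) (nat_lit 4) (nat_lit 537) (nat_lit 398) (nat_lit 265))) (XT.nd (nat_lit 78) (nat_lit 0) (nat_lit 0) (XT.lf (nat_lit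 0) (nat_lit 281203841705) (nat_lit 76) (nat_lit 166546771723) (nat_lit 76) (nat_lit 153248332842) (nat_lit 3) (nat_lit 4) (nat_lit 4) (nat_lit 5) (nat_lit 4) (nat_lit 4) (nat_lit 538) (nat_lit 398) (nat_lit 264)) (XT.lf (nat_lit 0) (nat_lit 334735955890) (nat_lit 76) (nat_lit 154316473525) (nat_lit 76) (nat_lit 141017116641) (nat_lit 3) (nat_lit 4) (nat_lit 4) (nat_lit 5) (nat_lit 4) (nat_lit 4) (nat_lit 539) (nat_lit 398) (nat_lit 263)))) (XT.nd (nat_lit 156) (nat_lit 0) (nat_lit 0) (XT.nd (nat_lit 78) (nat_lit 0) (nat_lit 0) (XT.lf (nat_lit 0) (nat_lit 390939378640) (nat_lit 76) (nat_lit 141477329898) (nat_lit 76) (nat_lit 128177098724) (nat_lit 3) (nat_lit 4) (nat_lit 4) (nat_lit 5) (nat_lit 4) (nat_lit 4) (nat_lit 540) (nat_lit 398) (nat_lit 262)) (XT.lf (nat_lit 0) (nat_lit 449947927628) (nat_lit 76) (nat_lit 127998771449) (nat_lit 76) (nat_lit 114697707619) (nat_lit 3) (nat_lit 4) (nat_lit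 4) (nat_lit 5) (nat_lit 4) (nat_lit 4) (nat_lit 541) (nat_lit 398) (nat_lit 261))) (XT.nd (nat_lit 78) (nat_lit 0) (nat_lit 0) (XT.lf (nat_lit 0) (nat_lit 511902099400) (nat_lit 76) (nat_lit 113848706375) (nat_lit 76) (nat_lit 100546849539) (nat_lit 3) (nat_lit 4) (nat_lit 4) (nat_lit 5) (nat_lit 4) (nat_lit 4) (nat_lit 542) (nat_lit 398) (nat_lit 260)) (XT.lf (nat_lit 0) (nat_lit 576949403887) (nat_lit 76) (nat_lit 98993444044) (nat_lit 76) (nat_lit 85690831964) (nat_lit 3) (nat_lit 4) (nat_lit 4) (nat_lit 5) (nat_lit 4) (nat_lit 4) (nat_lit 543) (nat_lit 398) (nat_lit 259))))))))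
noncomputable def xc91 : XT := (XT.nd (nat_lit 53508) (nat_lit 0) (nat_lit 2888) (XT.nd (nat_lit 52416) (nat_lit 0) (nat_lit 6536) (XT.nd (nat_lit 51870) (nat_lit 0) (nat_lit 10640) (XT.nd (nat_lit 51558) (nat_lit 0) (nat_lit 13148) (XT.nd (nat_lit 51402) (nat_lit 0) (nat_lit 13604) (XT.lf (nat_lit 0) (nat_lit 645244715626) (nat_lit 76) (nat_lit 83397614783) (nat_lit 76) (nat_lit 70094283423) (nat_lit 3) (nat_lit 4) (nat_lit 4) (nat_lit 5) (nat_lit 4) (nat_lit 4) (nat_lit 544) (nat_lit 398) (nat_lit 258)) (XT.nd (nat_lit 78) (nat_lit 76) (nat_lit 0) (XT.lf (nat_lit 0) (nat_lit 54873803) (nat_lit 76) (nat_lit 1585751717) (nat_lit 76) (nat_lit 1585751717) (nat_lit 183) (nat_lit 4) (nat_lit 184) (nat_lit 5) (nat_lit 184) (nat_lit 4) (nat_lit 402) (nat_lit 399) (nat_lit 399)) (XT.lf (nat_lit 0) (nat_lit 5884666) (nat_lit 152) (nat_lit 2865856696) (nat_lit 76) (nat_lit 3596572365) (nat_lit 182)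 (nat_lit 5) (nat_lit 184) (nat_lit 5) (nat_lit 183) (nat_lit 4) (nat_lit 403) (nat_lit 399) (nat_lit 398)))) (XT.nd (nat_lit 156) (nat_lit 304) (nat_lit 0) (XT.nd (nat_lit 78) (nat_lit 0) (nat_lit 0) (XT.lf (nat_lit 0) (nat_lit 637193612) (nat_lit 152) (nat_lit 2414508980) (nat_lit 228) (nat_lit 3439677387) (nat_lit 180) (nat_lit 5) (nat_lit 182) (nat_lit 5) (nat_lit 183) (nat_lit 4) (nat_lit 404) (nat_lit 399) (nat_lit 397)) (XT.lf (nat_lit 0) (nat_lit 4300409590) (nat_lit 152) (nat_lit 1811573243) (nat_lit 228) (nat_lit 410637491) (nat_lit 180) (nat_lit 5) (nat_lit 182) (nat_lit 5) (nat_lit 183) (nat_lit 4) (nat_lit 405) (nat_lit 399) (nat_lit 396))) (XT.nd (nat_lit 78) (nat_lit 0) (nat_lit 0) (XT.lf (nat_lit 0) (nat_lit 1480382569) (nat_lit 228) (nat_lit 1043414398) (nat_lit 304) (nat_lit 4037451025) (nat_lit 176) (nat_lit 5) (nat_lit 179) (nat_lit 5) (nat_lit 180) (nat_lit 5) (nat_lit 406)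 (nat_lit 399) (nat_lit 395)) (XT.lf (nat_lit 0) (nat_lit 5325040657) (nat_lit 228) (nat_lit 129948069) (nat_lit 304) (nat_lit 1153401681) (nat_lit 176) (nat_lit 5) (nat_lit 179) (nat_lit 5) (nat_lit 180) (nat_lit 5) (nat_lit 407) (nat_lit 399) (nat_lit 394))))) (XT.nd (nat_lit 234) (nat_lit 1672) (nat_lit 0) (XT.nd (nat_lit 78) (nat_lit 456) (nat_lit 0) (XT.lf (nat_lit 0) (nat_lit 1702876870) (nat_lit 380) (nat_lit 4031906097) (nat_lit 76) (nat_lit 927343059) (nat_lit 171) (nat_lit 5) (nat_lit 176) (nat_lit 5) (nat_lit 172) (nat_lit 5) (nat_lit 408) (nat_lit 399) (nat_lit 393)) (XT.nd (nat_lit 78) (nat_lit 456) (nat_lit 0) (XT.lf (nat_lit 0) (nat_lit 4526246421) (nat_lit 380) (nat_lit 75513173) (nat_lit 76) (nat_lit 2122788000) (nat_lit 171) (nat_lit 5) (nat_lit 176) (nat_lit 5) (nat_lit 172) (nat_lit 5) (nat_lit 409) (nat_lit 399) (nat_lit 392)) (XT.lf (nat_lit 0) (nat_lit 587135420) (nat_lit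 456) (nat_lit 2709304502) (nat_lit 76) (nat_lit 3497747487) (nat_lit 165) (nat_lit 5) (nat_lit 171) (nat_lit 5) (nat_lit 166) (nat_lit 5) (nat_lit 410) (nat_lit 399) (nat_lit 391)))) (XT.nd (nat_lit 156) (nat_lit 1216) (nat_lit 0) (XT.nd (nat_lit 78) (nat_lit 0) (nat_lit 0) (XT.lf (nat_lit 0) (nat_lit 1481908812) (nat_lit 456) (nat_lit 1830021767) (nat_lit 532) (nat_lit 3559961925) (nat_lit 159) (nat_lit 5) (nat_lit 165) (nat_lit 5) (nat_lit 166) (nat_lit 5) (nat_lit 411) (nat_lit 399) (nat_lit 390)) (XT.lf (nat_lit 0) (nat_lit 5860511176) (nat_lit 456) (nat_lit 213215848) (nat_lit 532) (nat_lit 884797165) (nat_lit 159) (nat_lit 5) (nat_lit 165) (nat_lit 5) (nat_lit 166) (nat_lit 5) (nat_lit 412) (nat_lit 399) (nat_lit 389))) (XT.nd (nat_lit 78) (nat_lit 608) (nat_lit 0) (XT.lf (nat_lit 0) (nat_lit 1799545941) (nat_lit 608) (nat_lit 3706386164) (nat_lit 76) (nat_lit 1545275123) (nat_lit 151)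 (nat_lit 5) (nat_lit 159) (nat_lit 5) (nat_lit 152) (nat_lit 5) (nat_lit 413) (nat_lit 399) (nat_lit 388)) (XT.lf (nat_lit 0) (nat_lit 786438494) (nat_lit 608) (nat_lit 3701321143) (nat_lit 684) (nat_lit 2665138715) (nat_lit 143) (nat_lit 5) (nat_lit 151) (nat_lit 5) (nat_lit 152) (nat_lit 5) (nat_lit 414) (nat_lit 399) (nat_lit 387)))))) (XT.nd (nat_lit 546) (nat_lit 1672) (nat_lit 0) (XT.nd (nat_lit 234) (nat_lit 912) (nat_lit 0) (XT.nd (nat_lit 78) (nat_lit 1520) (nat_lit 0) (XT.lf (nat_lit 0) (nat_lit 5513779204) (nat_lit 608) (nat_lit 1728675937) (nat_lit 684) (nat_lit 20680666) (nat_lit 143) (nat_lit 5) (nat_lit 151) (nat_lit 5) (nat_lit 152) (nat_lit 5) (nat_lit 415) (nat_lit 399) (nat_lit 386)) (XT.nd (nat_lit 78) (nat_lit 760) (nat_lit 0) (XT.lf (nat_lit 0) (nat_lit 2595580392) (nat_lit 760) (nat_lit 4352394028) (nat_lit 76) (nat_lit 432429059) (nat_lit 133) (nat_lit 5) (nat_lit 143)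 (nat_lit 5) (nat_lit 134) (nat_lit 5) (nat_lit 416) (nat_lit 399) (nat_lit 385)) (XT.lf (nat_lit 0) (nat_lit 466927925) (nat_lit 760) (nat_lit 4818528267) (nat_lit 836) (nat_lit 2220942993) (nat_lit 123) (nat_lit 5) (nat_lit 133) (nat_lit 5) (nat_lit 134) (nat_lit 5) (nat_lit 417) (nat_lit 399) (nat_lit 384)))) (XT.nd (nat_lit 156) (nat_lit 456) (nat_lit 0) (XT.nd (nat_lit 78) (nat_lit 380) (nat_lit 0) (XT.lf (nat_lit 0) (nat_lit 410685306) (nat_lit 836) (nat_lit 2089093474) (nat_lit 76) (nat_lit 5140867634) (nat_lit 122) (nat_lit 5) (nat_lit 133) (nat_lit 5) (nat_lit 123) (nat_lit 5) (nat_lit 418) (nat_lit 399) (nat_lit 383)) (XT.lf (nat_lit 0) (nat_lit 3032661030) (nat_lit 456) (nat_lit 4731350999) (nat_lit 76) (nat_lit 19152068) (nat_lit 117) (nat_lit 5) (nat_lit 123) (nat_lit 5) (nat_lit 118) (nat_lit 5) (nat_lit 419) (nat_lit 399) (nat_lit 382))) (XT.nd (nat_lit 78) (nat_lit 76) (nat_lit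 0) (XT.lf (nat_lit 0) (nat_lit 442297199) (nat_lit 380) (nat_lit 5316289851) (nat_lit 456) (nat_lit 2175624470) (nat_lit 112) (nat_lit 5) (nat_lit 117) (nat_lit 5) (nat_lit 118) (nat_lit 5) (nat_lit 420) (nat_lit 399) (nat_lit 381)) (XT.lf (nat_lit 0) (nat_lit 483158226) (nat_lit 456) (nat_lit 2182724649) (nat_lit 76) (nat_lit 5427955404) (nat_lit 111) (nat_lit 5) (nat_lit 117) (nat_lit 5) (nat_lit 112) (nat_lit 5) (nat_lit 421) (nat_lit 399) (nat_lit 380))))) (XT.nd (nat_lit 234) (nat_lit 912) (nat_lit 0) (XT.nd (nat_lit 78) (nat_lit 380) (nat_lit 0) (XT.lf (nat_lit 0) (nat_lit 3152893742) (nat_lit 456) (nat_lit 4919394796) (nat_lit 76) (nat_lit 189858200) (nat_lit 106) (nat_lit 5) (nat_lit 112) (nat_lit 5) (nat_lit 107) (nat_lit 5) (nat_lit 422) (nat_lit 399) (nat_lit 379)) (XT.nd (nat_lit 78) (nat_lit 76) (nat_lit 0) (XT.lf (nat_lit 0) (nat_lit 639051100) (nat_lit 304) (nat_lit 5307075106)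 (nat_lit 380) (nat_lit 2493282102) (nat_lit 102) (nat_lit 5) (nat_lit 106) (nat_lit 5) (nat_lit 107) (nat_lit 5) (nat_lit 423) (nat_lit 399) (nat_lit 378)) (XT.lf (nat_lit 0) (nat_lit 230136678) (nat_lit 380) (nat_lit 2102231151) (nat_lit 76) (nat_lit 6293763767) (nat_lit 101) (nat_lit 5) (nat_lit 106) (nat_lit 5) (nat_lit 102) (nat_lit 5) (nat_lit 424) (nat_lit 399) (nat_lit 377)))) (XT.nd (nat_lit 156) (nat_lit 380) (nat_lit 0) (XT.nd (nat_lit 78) (nat_lit 228) (nat_lit 0) (XT.lf (nat_lit 0) (nat_lit 2984523134) (nat_lit 380) (nat_lit 4988509161) (nat_lit 76) (nat_lit 848218707) (nat_lit 97) (nat_lit 5) (nat_lit 102) (nat_lit 5) (nat_lit 98) (nat_lit 5) (nat_lit 425) (nat_lit 399) (nat_lit 376)) (XT.lf (nat_lit 0) (nat_lit 987493163) (nat_lit 228) (nat_lit 4886228844) (nat_lit 304) (nat_lit 3152581142) (nat_lit 94) (nat_lit 5) (nat_lit 97) (nat_lit 5) (nat_lit 98) (nat_lit 5) (nat_lit 426)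 (nat_lit 399) (nat_lit 375))) (XT.nd (nat_lit 78) (nat_lit 380) (nat_lit 0) (XT.lf (nat_lit 0) (nat_lit 7318999443) (nat_lit 228) (nat_lit 1582716072) (nat_lit 304) (nat_lit 340205582) (nat_lit 94) (nat_lit 5) (nat_lit 97) (nat_lit 5) (nat_lit 98) (nat_lit 5) (nat_lit 427) (nat_lit 399) (nat_lit 374)) (XT.lf (nat_lit 0) (nat_lit 2542787141) (nat_lit 380) (nat_lit 5010264741) (nat_lit 76) (nat_lit 1912574362) (nat_lit 89) (nat_lit 5) (nat_lit 94) (nat_lit 5) (nat_lit 90) (nat_lit 5) (nat_lit 428) (nat_lit 399) (nat_lit 373))))))) (XT.nd (nat_lit 1092) (nat_lit 1596) (nat_lit 0) (XT.nd (nat_lit 546) (nat_lit 836) (nat_lit 0) (XT.nd (nat_lit 234) (nat_lit 684) (nat_lit 0) (XT.nd (nat_lit 78) (nat_lit 304) (nat_lit 0) (XT.lf (nat_lit 0) (nat_lit 1417891798) (nat_lit 228) (nat_lit 4136481226) (nat_lit 304) (nat_lit 4146096789) (nat_lit 86) (nat_lit 5) (nat_lit 89) (nat_lit 5) (nat_lit 90) (nat_lit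 5) (nat_lit 429) (nat_lit 399) (nat_lit 372)) (XT.nd (nat_lit 78) (nat_lit 304) (nat_lit 0) (XT.lf (nat_lit 0) (nat_lit 8227407616) (nat_lit 228) (nat_lit 490958045) (nat_lit 304) (nat_lit 1228623148) (nat_lit 86) (nat_lit 5) (nat_lit 89) (nat_lit 5) (nat_lit 90) (nat_lit 5) (nat_lit 430) (nat_lit 399) (nat_lit 371)) (XT.lf (nat_lit 0) (nat_lit 1830184074) (nat_lit 304) (nat_lit 5059756752) (nat_lit 76) (nat_lit 3311773876) (nat_lit 82) (nat_lit 5) (nat_lit 86) (nat_lit 5) (nat_lit 83) (nat_lit 5) (nat_lit 431) (nat_lit 399) (nat_lit 370)))) (XT.nd (nat_lit 156) (nat_lit 456) (nat_lit 0) (XT.nd (nat_lit 78) (nat_lit 0) (nat_lit 0) (XT.lf (nat_lit 0) (nat_lit 1856403084) (nat_lit 228) (nat_lit 3132113442) (nat_lit 304) (nat_lit 5480280833) (nat_lit 79) (nat_lit 5) (nat_lit 82) (nat_lit 5) (nat_lit 83) (nat_lit 5) (nat_lit 432) (nat_lit 399) (nat_lit 369)) (XT.lf (nat_lit 0) (nat_lit 8327285576)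 (nat_lit 304) (nat_lit 1579422446) (nat_lit 76) (nat_lit 841420385) (nat_lit 79) (nat_lit 5) (nat_lit 83) (nat_lit 5) (nat_lit 80) (nat_lit 5) (nat_lit 433) (nat_lit 399) (nat_lit 368))) (XT.nd (nat_lit 78) (nat_lit 152) (nat_lit 0) (XT.lf (nat_lit 0) (nat_lit 836136989) (nat_lit 304) (nat_lit 5219945860) (nat_lit 76) (nat_lit 4981248353) (nat_lit 75) (nat_lit 5) (nat_lit 79) (nat_lit 5) (nat_lit 76) (nat_lit 5) (nat_lit 434) (nat_lit 399) (nat_lit 367)) (XT.lf (nat_lit 0) (nat_lit 2220532634) (nat_lit 152) (nat_lit 1942972214) (nat_lit 228) (nat_lit 7176077727) (nat_lit 73) (nat_lit 5) (nat_lit 75) (nat_lit 5) (nat_lit 76) (nat_lit 5) (nat_lit 435) (nat_lit 399) (nat_lit 366))))) (XT.nd (nat_lit 234) (nat_lit 380) (nat_lit 0) (XT.nd (nat_lit 78) (nat_lit 456) (nat_lit 0) (XT.lf (nat_lit 0) (nat_lit 7712442730) (nat_lit 228) (nat_lit 1587667489) (nat_lit 76) (nat_lit 2354092882) (nat_lit 73)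 (nat_lit 5) (nat_lit 76) (nat_lit 5) (nat_lit 74) (nat_lit 5) (nat_lit 436) (nat_lit 399) (nat_lit 365)) (XT.nd (nat_lit 78) (nat_lit 228) (nat_lit 0) (XT.lf (nat_lit 0) (nat_lit 6387285237) (nat_lit 228) (nat_lit 5114791313) (nat_lit 304) (nat_lit 479331523) (nat_lit 70) (nat_lit 5) (nat_lit 73) (nat_lit 5) (nat_lit 74) (nat_lit 5) (nat_lit 437) (nat_lit 399) (nat_lit 364)) (XT.lf (nat_lit 0) (nat_lit 2413884902) (nat_lit 152) (nat_lit 638528824) (nat_lit 228) (nat_lit 9270249410) (nat_lit 67) (nat_lit 5) (nat_lit 69) (nat_lit 5) (nat_lit 70) (nat_lit 5) (nat_lit 438) (nat_lit 399) (nat_lit 363)))) (XT.nd (nat_lit 156) (nat_lit 228) (nat_lit 0) (XT.nd (nat_lit 78) (nat_lit 152) (nat_lit 0) (XT.lf (nat_lit 0) (nat_lit 6837541128) (nat_lit 228) (nat_lit 1839707403) (nat_lit 76) (nat_lit 3998708059) (nat_lit 67) (nat_lit 5) (nat_lit 70) (nat_lit 5) (nat_lit 68) (nat_lit 5) (nat_lit 439) (nat_lit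 399) (nat_lit 362)) (XT.lf (nat_lit 0) (nat_lit 6735893633) (nat_lit 152) (nat_lit 4128045285) (nat_lit 228) (nat_lit 2180388155) (nat_lit 65) (nat_lit 5) (nat_lit 67) (nat_lit 5) (nat_lit 68) (nat_lit 5) (nat_lit 440) (nat_lit 399) (nat_lit 361))) (XT.nd (nat_lit 78) (nat_lit 0) (nat_lit 0) (XT.lf (nat_lit 0) (nat_lit 1623142093) (nat_lit 228) (nat_lit 11120747372) (nat_lit 76) (nat_lit 685154711) (nat_lit 62) (nat_lit 5) (nat_lit 65) (nat_lit 5) (nat_lit 63) (nat_lit 5) (nat_lit 441) (nat_lit 399) (nat_lit 360)) (XT.lf (nat_lit 0) (nat_lit 5657469402) (nat_lit 228) (nat_lit 2461282492) (nat_lit 76) (nat_lit 5706774523) (nat_lit 62) (nat_lit 5) (nat_lit 65) (nat_lit 5) (nat_lit 63) (nat_lit 5) (nat_lit 442) (nat_lit 399) (nat_lit 359)))))) (XT.nd (nat_lit 546) (nat_lit 684) (nat_lit 0) (XT.nd (nat_lit 234) (nat_lit 532) (nat_lit 0) (XT.nd (nat_lit 78) (nat_lit 228) (nat_lit 0) (XT.lf (nat_lit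 0) (nat_lit 6748741365) (nat_lit 152) (nat_lit 3190743454) (nat_lit 228) (nat_lit 4300060107) (nat_lit 60) (nat_lit 5) (nat_lit 62) (nat_lit 5) (nat_lit 63) (nat_lit 5) (nat_lit 443) (nat_lit 399) (nat_lit 358)) (XT.nd (nat_lit 78) (nat_lit 76) (nat_lit 0) (XT.lf (nat_lit 0) (nat_lit 1758011899) (nat_lit 152) (nat_lit 12719690057) (nat_lit 228) (nat_lit 194467588) (nat_lit 58) (nat_lit 5) (nat_lit 60) (nat_lit 5) (nat_lit 61) (nat_lit 4) (nat_lit 444) (nat_lit 399) (nat_lit 357)) (XT.lf (nat_lit 0) (nat_lit 4107538759) (nat_lit 228) (nat_lit 3608883956) (nat_lit 76) (nat_lit 7400654285) (nat_lit 57) (nat_lit 5) (nat_lit 60) (nat_lit 5) (nat_lit 58) (nat_lit 5) (nat_lit 445) (nat_lit 399) (nat_lit 356)))) (XT.nd (nat_lit 156) (nat_lit 228) (nat_lit 0) (XT.nd (nat_lit 78) (nat_lit 152) (nat_lit 0) (XT.lf (nat_lit 0) (nat_lit 6264218647) (nat_lit 152) (nat_lit 2396110090) (nat_lit 228) (nat_lit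 6921639594) (nat_lit 55) (nat_lit 5) (nat_lit 57) (nat_lit 5) (nat_lit 58) (nat_lit 5) (nat_lit 446) (nat_lit 399) (nat_lit 355)) (XT.lf (nat_lit 0) (nat_lit 561031987) (nat_lit 152) (nat_lit 12945415987) (nat_lit 228) (nat_lit 2560380185) (nat_lit 53) (nat_lit 5) (nat_lit 55) (nat_lit 5) (nat_lit 56) (nat_lit 4) (nat_lit 447) (nat_lit 399) (nat_lit 354))) (XT.nd (nat_lit 78) (nat_lit 152) (nat_lit 0) (XT.lf (nat_lit 0) (nat_lit 2099257594) (nat_lit 228) (nat_lit 5479800155) (nat_lit 76) (nat_lit 8988058089) (nat_lit 52) (nat_lit 5) (nat_lit 55) (nat_lit 5) (nat_lit 53) (nat_lit 5) (nat_lit 448) (nat_lit 399) (nat_lit 353)) (XT.lf (nat_lit 0) (nat_lit 5076955112) (nat_lit 152) (nat_lit 1856014628) (nat_lit 228) (nat_lit 10155999855) (nat_lit 50) (nat_lit 5) (nat_lit 52) (nat_lit 5) (nat_lit 53) (nat_lit 5) (nat_lit 449) (nat_lit 399) (nat_lit 352))))) (XT.nd (nat_lit 312) (nat_lit 380) (nat_lit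 0) (XT.nd (nat_lit 156) (nat_lit 228) (nat_lit 0) (XT.nd (nat_lit 78) (nat_lit 76) (nat_lit 0) (XT.lf (nat_lit 0) (nat_lit 12115888873) (nat_lit 228) (nat_lit 1438395525) (nat_lit 76) (nat_lit 4077262501) (nat_lit 50) (nat_lit 5) (nat_lit 53) (nat_lit 5) (nat_lit 51) (nat_lit 4) (nat_lit 450) (nat_lit 399) (nat_lit 351)) (XT.lf (nat_lit 0) (nat_lit 9861930894) (nat_lit 76) (nat_lit 7831235401) (nat_lit 152) (nat_lit 501332750) (nat_lit 49) (nat_lit 5) (nat_lit 50) (nat_lit 5) (nat_lit 51) (nat_lit 4) (nat_lit 451) (nat_lit 399) (nat_lit 350))) (XT.nd (nat_lit 78) (nat_lit 0) (nat_lit 0) (XT.lf (nat_lit 0) (nat_lit 2924240892) (nat_lit 152) (nat_lit 1708434722) (nat_lit 228) (nat_lit 14148138662) (nat_lit 46) (nat_lit 5) (nat_lit 48) (nat_lit 5) (nat_lit 49) (nat_lit 5) (nat_lit 452) (nat_lit 399) (nat_lit 349)) (XT.lf (nat_lit 0) (nat_lit 10175082730) (nat_lit 228) (nat_lit 4528254892) (nat_lit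 76) (nat_lit 4684275095) (nat_lit 46) (nat_lit 5) (nat_lit 49) (nat_lit 5) (nat_lit 47) (nat_lit 4) (nat_lit 453) (nat_lit 399) (nat_lit 348)))) (XT.nd (nat_lit 156) (nat_lit 228) (nat_lit 0) (XT.nd (nat_lit 78) (nat_lit 76) (nat_lit 0) (XT.lf (nat_lit 0) (nat_lit 7494720260) (nat_lit 76) (nat_lit 8598640769) (nat_lit 152) (nat_lit 3926457935) (nat_lit 45) (nat_lit 5) (nat_lit 46) (nat_lit 5) (nat_lit 47) (nat_lit 4) (nat_lit 454) (nat_lit 399) (nat_lit 347)) (XT.lf (nat_lit 0) (nat_lit 1603787921) (nat_lit 152) (nat_lit 514167553) (nat_lit 76) (nat_lit 18562824991) (nat_lit 44) (nat_lit 5) (nat_lit 46) (nat_lit 5) (nat_lit 45) (nat_lit 5) (nat_lit 455) (nat_lit 399) (nat_lit 346))) (XT.nd (nat_lit 78) (nat_lit 76) (nat_lit 0) (XT.lf (nat_lit 0) (nat_lit 7504307734) (nat_lit 228) (nat_lit 9092613589) (nat_lit 76) (nat_lit 4763369175) (nat_lit 42) (nat_lit 5) (nat_lit 45) (nat_lit 5) (nat_lit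 43) (nat_lit 4) (nat_lit 456) (nat_lit 399) (nat_lit 345)) (XT.lf (nat_lit 0) (nat_lit 3634451233) (nat_lit 76) (nat_lit 10122123294) (nat_lit 152) (nat_lit 8314369922) (nat_lit 41) (nat_lit 5) (nat_lit 42) (nat_lit 5) (nat_lit 43) (nat_lit 4) (nat_lit 457) (nat_lit 399) (nat_lit 344))))))))
noncomputable def xc92 : XT := (XT.nd (nat_lit 2184) (nat_lit 912) (nat_lit 0) (XT.nd (nat_lit 1092) (nat_lit 760) (nat_lit 0) (XT.nd (nat_lit 546) (nat_lit 380) (nat_lit 0) (XT.nd (nat_lit 234) (nat_lit 304) (nat_lit 0) (XT.nd (nat_lit 78) (nat_lit 228) (nat_lit 0) (XT.lf (nat_lit 0) (nat_lit 17234702542) (nat_lit 76) (nat_lit 3197990906) (nat_lit 152) (nat_lit 2378879959) (nat_lit 41) (nat_lit 5) (nat_lit 42) (nat_lit 5) (nat_lit 43) (nat_lit 4) (nat_lit 458) (nat_lit 399) (nat_lit 343)) (XT.nd (nat_lit 78) (nat_lit 0) (nat_lit 0) (XT.lf (nat_lit 0) (nat_lit 3880377181) (nat_lit 228) (nat_lit 15601442162)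 (nat_lit 76) (nat_lit 4096893970) (nat_lit 38) (nat_lit 5) (nat_lit 41) (nat_lit 5) (nat_lit 39) (nat_lit 4) (nat_lit 459) (nat_lit 399) (nat_lit 342)) (XT.lf (nat_lit 0) (nat_lit 10479943316) (nat_lit 228) (nat_lit 2146442354) (nat_lit 76) (nat_lit 11750513707) (nat_lit 38) (nat_lit 5) (nat_lit 41) (nat_lit 5) (nat_lit 39) (nat_lit 4) (nat_lit 460) (nat_lit 399) (nat_lit 341)))) (XT.nd (nat_lit 156) (nat_lit 152) (nat_lit 0) (XT.nd (nat_lit 78) (nat_lit 76) (nat_lit 0) (XT.lf (nat_lit 0) (nat_lit 12301982273) (nat_lit 76) (nat_lit 5260403147) (nat_lit 152) (nat_lit 7644967940) (nat_lit 37) (nat_lit 5) (nat_lit 38) (nat_lit 5) (nat_lit 39) (nat_lit 4) (nat_lit 461) (nat_lit 399) (nat_lit 340)) (XT.lf (nat_lit 0) (nat_lit 1402205213) (nat_lit 76) (nat_lit 23655257674) (nat_lit 76) (nat_lit 1018944823) (nat_lit 36) (nat_lit 4) (nat_lit 37) (nat_lit 5) (nat_lit 37) (nat_lit 4) (nat_lit 462) (nat_lit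 399) (nat_lit 339))) (XT.nd (nat_lit 78) (nat_lit 76) (nat_lit 0) (XT.lf (nat_lit 0) (nat_lit 6017841069) (nat_lit 152) (nat_lit 10360709772) (nat_lit 76) (nat_lit 10592254879) (nat_lit 35) (nat_lit 5) (nat_lit 37) (nat_lit 5) (nat_lit 36) (nat_lit 4) (nat_lit 463) (nat_lit 399) (nat_lit 338)) (XT.lf (nat_lit 0) (nat_lit 4733350535) (nat_lit 76) (nat_lit 8675772502) (nat_lit 152) (nat_lit 14498123269) (nat_lit 34) (nat_lit 5) (nat_lit 35) (nat_lit 5) (nat_lit 36) (nat_lit 4) (nat_lit 464) (nat_lit 399) (nat_lit 337))))) (XT.nd (nat_lit 234) (nat_lit 228) (nat_lit 0) (XT.nd (nat_lit 78) (nat_lit 152) (nat_lit 0) (XT.lf (nat_lit 0) (nat_lit 20873041903) (nat_lit 76) (nat_lit 436078191) (nat_lit 152) (nat_lit 7574434019) (nat_lit 34) (nat_lit 5) (nat_lit 35) (nat_lit 5) (nat_lit 36) (nat_lit 4) (nat_lit 465) (nat_lit 399) (nat_lit 336)) (XT.nd (nat_lit 78) (nat_lit 76) (nat_lit 0) (XT.lf (nat_lit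 0) (nat_lit 7971151965) (nat_lit 76) (nat_lit 21850619488) (nat_lit 76) (nat_lit 76025744) (nat_lit 33) (nat_lit 4) (nat_lit 34) (nat_lit 5) (nat_lit 34) (nat_lit 4) (nat_lit 466) (nat_lit 399) (nat_lit 335)) (XT.lf (nat_lit 0) (nat_lit 7657786945) (nat_lit 152) (nat_lit 6123902968) (nat_lit 76) (nat_lit 17169475682) (nat_lit 32) (nat_lit 5) (nat_lit 34) (nat_lit 5) (nat_lit 33) (nat_lit 4) (nat_lit 467) (nat_lit 399) (nat_lit 334)))) (XT.nd (nat_lit 156) (nat_lit 152) (nat_lit 0) (XT.nd (nat_lit 78) (nat_lit 0) (nat_lit 0) (XT.lf (nat_lit 0) (nat_lit 10748089074) (nat_lit 76) (nat_lit 5162131835) (nat_lit 152) (nat_lit 16140197163) (nat_lit 31) (nat_lit 5) (nat_lit 32) (nat_lit 5) (nat_lit 33) (nat_lit 4) (nat_lit 468) (nat_lit 399) (nat_lit 333)) (XT.lf (nat_lit 0) (nat_lit 24708216868) (nat_lit 152) (nat_lit 4649359164) (nat_lit 0) (nat_lit 3840412273) (nat_lit 31) (nat_lit 5) (nat_lit 33)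 (nat_lit 4) (nat_lit 31) (nat_lit 4) (nat_lit 469) (nat_lit 399) (nat_lit 332))) (XT.nd (nat_lit 78) (nat_lit 76) (nat_lit 0) (XT.lf (nat_lit 0) (nat_lit 13110498265) (nat_lit 76) (nat_lit 21093331056) (nat_lit 76) (nat_lit 186223938) (nat_lit 30) (nat_lit 4) (nat_lit 31) (nat_lit 5) (nat_lit 31) (nat_lit 4) (nat_lit 470) (nat_lit 399) (nat_lit 331)) (XT.lf (nat_lit 0) (nat_lit 8307898518) (nat_lit 152) (nat_lit 3913346130) (nat_lit 76) (nat_lit 23411393311) (nat_lit 29) (nat_lit 5) (nat_lit 31) (nat_lit 5) (nat_lit 30) (nat_lit 4) (nat_lit 471) (nat_lit 399) (nat_lit 330)))))) (XT.nd (nat_lit 546) (nat_lit 380) (nat_lit 0) (XT.nd (nat_lit 234) (nat_lit 228) (nat_lit 0) (XT.nd (nat_lit 78) (nat_lit 76) (nat_lit 0) (XT.lf (nat_lit 0) (nat_lit 14731704600) (nat_lit 76) (nat_lit 2688730151) (nat_lit 152) (nat_lit 19506767966) (nat_lit 28) (nat_lit 5) (nat_lit 29) (nat_lit 5) (nat_lit 30) (nat_lit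 4) (nat_lit 472) (nat_lit 399) (nat_lit 329)) (XT.nd (nat_lit 78) (nat_lit 76) (nat_lit 0) (XT.lf (nat_lit 0) (nat_lit 27140324976) (nat_lit 152) (nat_lit 4011725503) (nat_lit 0) (nat_lit 7126860558) (nat_lit 28) (nat_lit 5) (nat_lit 30) (nat_lit 4) (nat_lit 28) (nat_lit 4) (nat_lit 473) (nat_lit 399) (nat_lit 328)) (XT.lf (nat_lit 0) (nat_lit 15477255275) (nat_lit 76) (nat_lit 22126174534) (nat_lit 76) (nat_lit 2081915561) (nat_lit 27) (nat_lit 4) (nat_lit 28) (nat_lit 5) (nat_lit 28) (nat_lit 4) (nat_lit 474) (nat_lit 399) (nat_lit 327)))) (XT.nd (nat_lit 156) (nat_lit 76) (nat_lit 0) (XT.nd (nat_lit 78) (nat_lit 76) (nat_lit 0) (XT.lf (nat_lit 0) (nat_lit 7230460542) (nat_lit 152) (nat_lit 5251143008) (nat_lit 76) (nat_lit 28672670984) (nat_lit 26) (nat_lit 5) (nat_lit 28) (nat_lit 5) (nat_lit 27) (nat_lit 4) (nat_lit 475) (nat_lit 399) (nat_lit 326)) (XT.lf (nat_lit 0) (nat_lit 15048478870)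 (nat_lit 76) (nat_lit 2097861403) (nat_lit 152) (nat_lit 25538212238) (nat_lit 25) (nat_lit 5) (nat_lit 26) (nat_lit 5) (nat_lit 27) (nat_lit 4) (nat_lit 476) (nat_lit 399) (nat_lit 325))) (XT.nd (nat_lit 78) (nat_lit 76) (nat_lit 0) (XT.lf (nat_lit 0) (nat_lit 27758863483) (nat_lit 152) (nat_lit 7933214539) (nat_lit 0) (nat_lit 8589225210) (nat_lit 25) (nat_lit 5) (nat_lit 27) (nat_lit 4) (nat_lit 25) (nat_lit 4) (nat_lit 477) (nat_lit 399) (nat_lit 324)) (XT.lf (nat_lit 0) (nat_lit 13089064645) (nat_lit 76) (nat_lit 26025971766) (nat_lit 76) (nat_lit 6832205153) (nat_lit 24) (nat_lit 4) (nat_lit 25) (nat_lit 5) (nat_lit 25) (nat_lit 4) (nat_lit 478) (nat_lit 399) (nat_lit 323))))) (XT.nd (nat_lit 234) (nat_lit 228) (nat_lit 0) (XT.nd (nat_lit 78) (nat_lit 76) (nat_lit 0) (XT.lf (nat_lit 0) (nat_lit 3346427156) (nat_lit 152) (nat_lit 12356570313) (nat_lit 76) (nat_lit 31985327752) (nat_lit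 23) (nat_lit 5) (nat_lit 25) (nat_lit 5) (nat_lit 24) (nat_lit 4) (nat_lit 479) (nat_lit 399) (nat_lit 322)) (XT.nd (nat_lit 78) (nat_lit 0) (nat_lit 0) (XT.lf (nat_lit 0) (nat_lit 9308123450) (nat_lit 76) (nat_lit 4617122671) (nat_lit 152) (nat_lit 35579574760) (nat_lit 22) (nat_lit 5) (nat_lit 23) (nat_lit 5) (nat_lit 24) (nat_lit 4) (nat_lit 480) (nat_lit 399) (nat_lit 321)) (XT.lf (nat_lit 0) (nat_lit 25330954947) (nat_lit 152) (nat_lit 19077691273) (nat_lit 0) (nat_lit 6988598692) (nat_lit 22) (nat_lit 5) (nat_lit 24) (nat_lit 4) (nat_lit 22) (nat_lit 4) (nat_lit 481) (nat_lit 399) (nat_lit 320)))) (XT.nd (nat_lit 156) (nat_lit 152) (nat_lit 0) (XT.nd (nat_lit 78) (nat_lit 0) (nat_lit 0) (XT.lf (nat_lit 0) (nat_lit 3074278088) (nat_lit 76) (nat_lit 34333125872) (nat_lit 76) (nat_lit 15971864431) (nat_lit 21) (nat_lit 4) (nat_lit 22) (nat_lit 5) (nat_lit 22) (nat_lit 4) (nat_lit 482) (nat_lit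 399) (nat_lit 319)) (XT.lf (nat_lit 0) (nat_lit 26951224590) (nat_lit 76) (nat_lit 23436711371) (nat_lit 76) (nat_lit 5057444991) (nat_lit 21) (nat_lit 4) (nat_lit 22) (nat_lit 5) (nat_lit 22) (nat_lit 4) (nat_lit 483) (nat_lit 399) (nat_lit 318))) (XT.nd (nat_lit 78) (nat_lit 76) (nat_lit 0) (XT.lf (nat_lit 0) (nat_lit 6175669606) (nat_lit 152) (nat_lit 5736291247) (nat_lit 76) (nat_lit 45698945916) (nat_lit 20) (nat_lit 5) (nat_lit 22) (nat_lit 5) (nat_lit 21) (nat_lit 4) (nat_lit 484) (nat_lit 399) (nat_lit 317)) (XT.lf (nat_lit 0) (nat_lit 18079078046) (nat_lit 152) (nat_lit 41244425649) (nat_lit 0) (nat_lit 543130473) (nat_lit 19) (nat_lit 5) (nat_lit 21) (nat_lit 4) (nat_lit 19) (nat_lit 4) (nat_lit 485) (nat_lit 399) (nat_lit 316))))))) (XT.nd (nat_lit 1092) (nat_lit 380) (nat_lit 0) (XT.nd (nat_lit 546) (nat_lit 304) (nat_lit 0) (XT.nd (nat_lit 234) (nat_lit 152) (nat_lit 0) (XT.nd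 (nat_lit 78) (nat_lit 76) (nat_lit 0) (XT.lf (nat_lit 0) (nat_lit 30850678206) (nat_lit 152) (nat_lit 18070901514) (nat_lit 0) (nat_lit 13299917925) (nat_lit 19) (nat_lit 5) (nat_lit 21) (nat_lit 4) (nat_lit 19) (nat_lit 4) (nat_lit 486) (nat_lit 399) (nat_lit 315)) (XT.nd (nat_lit 78) (nat_lit 0) (nat_lit 0) (XT.lf (nat_lit 0) (nat_lit 6427470739) (nat_lit 76) (nat_lit 37913742093) (nat_lit 76) (nat_lit 20348874472) (nat_lit 18) (nat_lit 4) (nat_lit 19) (nat_lit 5) (nat_lit 19) (nat_lit 4) (nat_lit 487) (nat_lit 399) (nat_lit 314)) (XT.lf (nat_lit 0) (nat_lit 32739233070) (nat_lit 76) (nat_lit 26053428935) (nat_lit 76) (nat_lit 8475125751) (nat_lit 18) (nat_lit 4) (nat_lit 19) (nat_lit 5) (nat_lit 19) (nat_lit 4) (nat_lit 488) (nat_lit 399) (nat_lit 313)))) (XT.nd (nat_lit 156) (nat_lit 0) (nat_lit 0) (XT.nd (nat_lit 78) (nat_lit 76) (nat_lit 0) (XT.lf (nat_lit 0) (nat_lit 3845508222) (nat_lit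 152) (nat_lit 9707807101) (nat_lit 76) (nat_lit 56418893149) (nat_lit 17) (nat_lit 5) (nat_lit 19) (nat_lit 5) (nat_lit 18) (nat_lit 4) (nat_lit 489) (nat_lit 399) (nat_lit 312)) (XT.lf (nat_lit 0) (nat_lit 16714105482) (nat_lit 76) (nat_lit 26085196) (nat_lit 152) (nat_lit 56052571497) (nat_lit 16) (nat_lit 5) (nat_lit 17) (nat_lit 5) (nat_lit 18) (nat_lit 4) (nat_lit 490) (nat_lit 399) (nat_lit 311))) (XT.nd (nat_lit 78) (nat_lit 0) (nat_lit 0) (XT.lf (nat_lit 0) (nat_lit 30649980094) (nat_lit 152) (nat_lit 31211952501) (nat_lit 0) (nat_lit 13873892900) (nat_lit 16) (nat_lit 5) (nat_lit 18) (nat_lit 4) (nat_lit 16) (nat_lit 4) (nat_lit 491) (nat_lit 399) (nat_lit 310)) (XT.lf (nat_lit 0) (nat_lit 45238468161) (nat_lit 152) (nat_lit 5136560060) (nat_lit 0) (nat_lit 28451853851) (nat_lit 16) (nat_lit 5) (nat_lit 18) (nat_lit 4) (nat_lit 16) (nat_lit 4) (nat_lit 492) (nat_lit 399) (nat_lit 309)))))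 (XT.nd (nat_lit 234) (nat_lit 152) (nat_lit 0) (XT.nd (nat_lit 78) (nat_lit 76) (nat_lit 0) (XT.lf (nat_lit 0) (nat_lit 22944375466) (nat_lit 76) (nat_lit 37953832646) (nat_lit 76) (nat_lit 21157192513) (nat_lit 15) (nat_lit 4) (nat_lit 16) (nat_lit 5) (nat_lit 16) (nat_lit 4) (nat_lit 493) (nat_lit 399) (nat_lit 308)) (XT.nd (nat_lit 78) (nat_lit 76) (nat_lit 0) (XT.lf (nat_lit 0) (nat_lit 52575623336) (nat_lit 76) (nat_lit 24836183604) (nat_lit 76) (nat_lit 8029995067) (nat_lit 15) (nat_lit 4) (nat_lit 16) (nat_lit 5) (nat_lit 16) (nat_lit 4) (nat_lit 494) (nat_lit 399) (nat_lit 307)) (XT.lf (nat_lit 0) (nat_lit 5553809502) (nat_lit 152) (nat_lit 5429972774) (nat_lit 76) (nat_lit 78010030313) (nat_lit 14) (nat_lit 5) (nat_lit 16) (nat_lit 5) (nat_lit 15) (nat_lit 4) (nat_lit 495) (nat_lit 399) (nat_lit 306)))) (XT.nd (nat_lit 156) (nat_lit 76) (nat_lit 0) (XT.nd (nat_lit 78) (nat_lit 0) (nat_lit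 0) (XT.lf (nat_lit 0) (nat_lit 19970216935) (nat_lit 152) (nat_lit 68778047437) (nat_lit 0) (nat_lit 3947414137) (nat_lit 13) (nat_lit 5) (nat_lit 15) (nat_lit 4) (nat_lit 13) (nat_lit 4) (nat_lit 496) (nat_lit 399) (nat_lit 305)) (XT.lf (nat_lit 0) (nat_lit 35366140716) (nat_lit 152) (nat_lit 41868080196) (nat_lit 0) (nat_lit 19335482423) (nat_lit 13) (nat_lit 5) (nat_lit 15) (nat_lit 4) (nat_lit 13) (nat_lit 4) (nat_lit 497) (nat_lit 399) (nat_lit 304))) (XT.nd (nat_lit 78) (nat_lit 76) (nat_lit 0) (XT.lf (nat_lit 0) (nat_lit 51517734236) (nat_lit 152) (nat_lit 13640807361) (nat_lit 0) (nat_lit 35479594519) (nat_lit 13) (nat_lit 5) (nat_lit 15) (nat_lit 4) (nat_lit 13) (nat_lit 4) (nat_lit 498) (nat_lit 399) (nat_lit 303)) (XT.lf (nat_lit 0) (nat_lit 16499051551) (nat_lit 76) (nat_lit 52221998552) (nat_lit 76) (nat_lit 36176733669) (nat_lit 12) (nat_lit 4) (nat_lit 13) (nat_lit 5) (nat_lit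 13) (nat_lit 4) (nat_lit 499) (nat_lit 399) (nat_lit 302)))))) (XT.nd (nat_lit 546) (nat_lit 228) (nat_lit 0) (XT.nd (nat_lit 234) (nat_lit 76) (nat_lit 0) (XT.nd (nat_lit 78) (nat_lit 76) (nat_lit 0) (XT.lf (nat_lit 0) (nat_lit 48593064253) (nat_lit 76) (nat_lit 38409255630) (nat_lit 76) (nat_lit 22357204875) (nat_lit 12) (nat_lit 4) (nat_lit 13) (nat_lit 5) (nat_lit 13) (nat_lit 4) (nat_lit 500) (nat_lit 399) (nat_lit 301)) (XT.nd (nat_lit 78) (nat_lit 76) (nat_lit 0) (XT.lf (nat_lit 0) (nat_lit 82266618366) (nat_lit 76) (nat_lit 23918439021) (nat_lit 76) (nat_lit 7859925531) (nat_lit 12) (nat_lit 4) (nat_lit 13) (nat_lit 5) (nat_lit 13) (nat_lit 4) (nat_lit 501) (nat_lit 399) (nat_lit 300)) (XT.lf (nat_lit 0) (nat_lit 7114387901) (nat_lit 152) (nat_lit 1480173277) (nat_lit 76) (nat_lit 110365015516) (nat_lit 11) (nat_lit 5) (nat_lit 13) (nat_lit 5) (nat_lit 12) (nat_lit 4) (nat_lit 502)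 (nat_lit 399) (nat_lit 299)))) (XT.nd (nat_lit 156) (nat_lit 0) (nat_lit 0) (XT.nd (nat_lit 78) (nat_lit 0) (nat_lit 0) (XT.lf (nat_lit 0) (nat_lit 23175385300) (nat_lit 152) (nat_lit 93037848639) (nat_lit 0) (nat_lit 7870118283) (nat_lit 10) (nat_lit 5) (nat_lit 12) (nat_lit 4) (nat_lit 10) (nat_lit 4) (nat_lit 503) (nat_lit 399) (nat_lit 298)) (XT.lf (nat_lit 0) (nat_lit 40194211406) (nat_lit 152) (nat_lit 64377738975) (nat_lit 0) (nat_lit 24883627480) (nat_lit 10) (nat_lit 5) (nat_lit 12) (nat_lit 4) (nat_lit 10) (nat_lit 4) (nat_lit 504) (nat_lit 399) (nat_lit 297))) (XT.nd (nat_lit 78) (nat_lit 0) (nat_lit 0) (XT.lf (nat_lit 0) (nat_lit 58052936911) (nat_lit 152) (nat_lit 34306740966) (nat_lit 0) (nat_lit 42737289263) (nat_lit 10) (nat_lit 5) (nat_lit 12) (nat_lit 4) (nat_lit 10) (nat_lit 4) (nat_lit 505) (nat_lit 399) (nat_lit 296)) (XT.lf (nat_lit 0) (nat_lit 76794082591) (nat_lit 152)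 (nat_lit 2753256998) (nat_lit 0) (nat_lit 61473612350) (nat_lit 10) (nat_lit 5) (nat_lit 12) (nat_lit 4) (nat_lit 10) (nat_lit 4) (nat_lit 506) (nat_lit 399) (nat_lit 295))))) (XT.nd (nat_lit 312) (nat_lit 152) (nat_lit 0) (XT.nd (nat_lit 156) (nat_lit 0) (nat_lit 0) (XT.nd (nat_lit 78) (nat_lit 0) (nat_lit 0) (XT.lf (nat_lit 0) (nat_lit 31361607570) (nat_lit 76) (nat_lit 65590305235) (nat_lit 76) (nat_lit 50265242050) (nat_lit 9) (nat_lit 4) (nat_lit 10) (nat_lit 5) (nat_lit 10) (nat_lit 4) (nat_lit 507) (nat_lit 399) (nat_lit 294)) (XT.lf (nat_lit 0) (nat_lit 67258064899) (nat_lit 76) (nat_lit 50896350803) (nat_lit 76) (nat_lit 35566913384) (nat_lit 9) (nat_lit 4) (nat_lit 10) (nat_lit 5) (nat_lit 10) (nat_lit 4) (nat_lit 508) (nat_lit 399) (nat_lit 293))) (XT.nd (nat_lit 78) (nat_lit 0) (nat_lit 0) (XT.lf (nat_lit 0) (nat_lit 104930547634) (nat_lit 76) (nat_lit 35477118425) (nat_lit 76)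 (nat_lit 20143515069) (nat_lit 9) (nat_lit 4) (nat_lit 10) (nat_lit 5) (nat_lit 10) (nat_lit 4) (nat_lit 509) (nat_lit 399) (nat_lit 292)) (XT.lf (nat_lit 0) (nat_lit 144468752162) (nat_lit 76) (nat_lit 19295895645) (nat_lit 76) (nat_lit 3958324730) (nat_lit 9) (nat_lit 4) (nat_lit 10) (nat_lit 5) (nat_lit 10) (nat_lit 4) (nat_lit 510) (nat_lit 399) (nat_lit 291)))) (XT.nd (nat_lit 156) (nat_lit 0) (nat_lit 0) (XT.nd (nat_lit 78) (nat_lit 0) (nat_lit 0) (XT.lf (nat_lit 0) (nat_lit 10857143452) (nat_lit 76) (nat_lit 1922609228) (nat_lit 152) (nat_lit 162455381252) (nat_lit 7) (nat_lit 5) (nat_lit 8) (nat_lit 5) (nat_lit 9) (nat_lit 4) (nat_lit 511) (nat_lit 399) (nat_lit 290)) (XT.lf (nat_lit 0) (nat_lit 30868142853) (nat_lit 152) (nat_lit 135965288026) (nat_lit 0) (nat_lit 16253906438) (nat_lit 7) (nat_lit 5) (nat_lit 9) (nat_lit 4) (nat_lit 7) (nat_lit 4) (nat_lit 512) (nat_lit 399) (nat_lit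 289))) (XT.nd (nat_lit 78) (nat_lit 0) (nat_lit 0) (XT.lf (nat_lit 0) (nat_lit 49884248185) (nat_lit 152) (nat_lit 106179990424) (nat_lit 0) (nat_lit 35266747650) (nat_lit 7) (nat_lit 5) (nat_lit 9) (nat_lit 4) (nat_lit 7) (nat_lit 4) (nat_lit 513) (nat_lit 399) (nat_lit 288)) (XT.lf (nat_lit 0) (nat_lit 69843327800) (nat_lit 152) (nat_lit 74921162982) (nat_lit 0) (nat_lit 55222718579) (nat_lit 7) (nat_lit 5) (nat_lit 9) (nat_lit 4) (nat_lit 7) (nat_lit 4) (nat_lit 514) (nat_lit 399) (nat_lit 287))))))))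
noncomputable def xc93 : XT := (XT.nd (nat_lit 2184) (nat_lit 0) (nat_lit 0) (XT.nd (nat_lit 1092) (nat_lit 76) (nat_lit 0) (XT.nd (nat_lit 546) (nat_lit 152) (nat_lit 0) (XT.nd (nat_lit 234) (nat_lit 0) (nat_lit 0) (XT.nd (nat_lit 78) (nat_lit 76) (nat_lit 0) (XT.lf (nat_lit 0) (nat_lit 90792903315) (nat_lit 152) (nat_lit 42114379920) (nat_lit 0) (nat_lit 76169333440) (nat_lit 7) (nat_lit 5) (nat_lit 9) (nat_lit 4) (nat_lit 7) (nat_lit 4) (nat_lit 515) (nat_lit 399) (nat_lit 286)) (XT.nd (nat_lit 78) (nat_lit 76) (nat_lit 0) (XT.lf (nat_lit 0) (nat_lit 112782854672) (nat_lit 152) (nat_lit 7681529848) (nat_lit 0) (nat_lit 98156465128) (nat_lit 7) (nat_lit 5) (nat_lit 9) (nat_lit 4) (nat_lit 7) (nat_lit 4) (nat_lit 516) (nat_lit 399) (nat_lit 285)) (XT.lf (nat_lit 0) (nat_lit 29400365512) (nat_lit 76) (nat_lit 106924195487) (nat_lit 76) (nat_lit 92295120542) (nat_lit 6) (nat_lit 4) (nat_lit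 7) (nat_lit 5) (nat_lit 7) (nat_lit 4) (nat_lit 517) (nat_lit 399) (nat_lit 284)))) (XT.nd (nat_lit 156) (nat_lit 0) (nat_lit 0) (XT.nd (nat_lit 78) (nat_lit 0) (nat_lit 0) (XT.lf (nat_lit 0) (nat_lit 68589667728) (nat_lit 76) (nat_lit 92577123974) (nat_lit 76) (nat_lit 77945491505) (nat_lit 6) (nat_lit 4) (nat_lit 7) (nat_lit 5) (nat_lit 7) (nat_lit 4) (nat_lit 518) (nat_lit 399) (nat_lit 283)) (XT.lf (nat_lit 0) (nat_lit 109725698593) (nat_lit 76) (nat_lit 77519100713) (nat_lit 76) (nat_lit 62885032507) (nat_lit 6) (nat_lit 4) (nat_lit 7) (nat_lit 5) (nat_lit 7) (nat_lit 4) (nat_lit 519) (nat_lit 399) (nat_lit 282))) (XT.nd (nat_lit 78) (nat_lit 0) (nat_lit 0) (XT.lf (nat_lit 0) (nat_lit 152906401039) (nat_lit 76) (nat_lit 61714273269) (nat_lit 76) (nat_lit 47077885314) (nat_lit 6) (nat_lit 4) (nat_lit 7) (nat_lit 5) (nat_lit 7) (nat_lit 4) (nat_lit 520) (nat_lit 399) (nat_lit 281)) (XT.lf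 (nat_lit 0) (nat_lit 198234586261) (nat_lit 76) (nat_lit 45125011100) (nat_lit 76) (nat_lit 30486413860) (nat_lit 6) (nat_lit 4) (nat_lit 7) (nat_lit 5) (nat_lit 7) (nat_lit 4) (nat_lit 521) (nat_lit 399) (nat_lit 280))))) (XT.nd (nat_lit 234) (nat_lit 0) (nat_lit 0) (XT.nd (nat_lit 78) (nat_lit 152) (nat_lit 0) (XT.lf (nat_lit 0) (nat_lit 245818178510) (nat_lit 76) (nat_lit 27711815963) (nat_lit 76) (nat_lit 13071114641) (nat_lit 6) (nat_lit 4) (nat_lit 7) (nat_lit 5) (nat_lit 7) (nat_lit 4) (nat_lit 522) (nat_lit 399) (nat_lit 279)) (XT.nd (nat_lit 78) (nat_lit 76) (nat_lit 0) (XT.lf (nat_lit 0) (nat_lit 5042741531) (nat_lit 152) (nat_lit 4305085069) (nat_lit 76) (nat_lit 290642329254) (nat_lit 5) (nat_lit 5) (nat_lit 7) (nat_lit 5) (nat_lit 6) (nat_lit 4) (nat_lit 523) (nat_lit 399) (nat_lit 278)) (XT.lf (nat_lit 0) (nat_lit 24330149966) (nat_lit 152) (nat_lit 279289535450) (nat_lit 0) (nat_lit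 10382898850) (nat_lit 4) (nat_lit 5) (nat_lit 6) (nat_lit 4) (nat_lit 4) (nat_lit 4) (nat_lit 524) (nat_lit 399) (nat_lit 277)))) (XT.nd (nat_lit 156) (nat_lit 0) (nat_lit 0) (XT.nd (nat_lit 78) (nat_lit 0) (nat_lit 0) (XT.lf (nat_lit 0) (nat_lit 44804236956) (nat_lit 152) (nat_lit 253045027021) (nat_lit 0) (nat_lit 30855254807) (nat_lit 4) (nat_lit 5) (nat_lit 6) (nat_lit 4) (nat_lit 4) (nat_lit 4) (nat_lit 525) (nat_lit 399) (nat_lit 276)) (XT.lf (nat_lit 0) (nat_lit 66297229390) (nat_lit 152) (nat_lit 225497962030) (nat_lit 0) (nat_lit 52346598638) (nat_lit 4) (nat_lit 5) (nat_lit 6) (nat_lit 4) (nat_lit 4) (nat_lit 4) (nat_lit 526) (nat_lit 399) (nat_lit 275))) (XT.nd (nat_lit 78) (nat_lit 0) (nat_lit 0) (XT.lf (nat_lit 0) (nat_lit 88860301059) (nat_lit 152) (nat_lit 196582752226) (nat_lit 0) (nat_lit 74908100209) (nat_lit 4) (nat_lit 5) (nat_lit 6) (nat_lit 4) (nat_lit 4) (nat_lit 4) (nat_lit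 527) (nat_lit 399) (nat_lit 274)) (XT.lf (nat_lit 0) (nat_lit 112547173564) (nat_lit 152) (nat_lit 166230551874) (nat_lit 0) (nat_lit 98593477383) (nat_lit 4) (nat_lit 5) (nat_lit 6) (nat_lit 4) (nat_lit 4) (nat_lit 4) (nat_lit 528) (nat_lit 399) (nat_lit 273)))))) (XT.nd (nat_lit 546) (nat_lit 0) (nat_lit 0) (XT.nd (nat_lit 234) (nat_lit 76) (nat_lit 0) (XT.nd (nat_lit 78) (nat_lit 0) (nat_lit 0) (XT.lf (nat_lit 0) (nat_lit 137414244219) (nat_lit 152) (nat_lit 134369093828) (nat_lit 0) (nat_lit 123459123913) (nat_lit 4) (nat_lit 5) (nat_lit 6) (nat_lit 4) (nat_lit 4) (nat_lit 4) (nat_lit 529) (nat_lit 399) (nat_lit 272)) (XT.nd (nat_lit 78) (nat_lit 0) (nat_lit 0) (XT.lf (nat_lit 0) (nat_lit 163520720336) (nat_lit 152) (nat_lit 100922517474) (nat_lit 0) (nat_lit 149564243721) (nat_lit 4) (nat_lit 5) (nat_lit 6) (nat_lit 4) (nat_lit 4) (nat_lit 4) (nat_lit 530) (nat_lit 399) (nat_lit 271))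 (XT.lf (nat_lit 0) (nat_lit 190928760191) (nat_lit 152) (nat_lit 65811188107) (nat_lit 0) (nat_lit 176970991852) (nat_lit 4) (nat_lit 5) (nat_lit 6) (nat_lit 4) (nat_lit 4) (nat_lit 4) (nat_lit 531) (nat_lit 399) (nat_lit 270)))) (XT.nd (nat_lit 156) (nat_lit 0) (nat_lit 0) (XT.nd (nat_lit 78) (nat_lit 76) (nat_lit 0) (XT.lf (nat_lit 0) (nat_lit 219703621022) (nat_lit 152) (nat_lit 28951507324) (nat_lit 0) (nat_lit 205744622470) (nat_lit 4) (nat_lit 5) (nat_lit 6) (nat_lit 4) (nat_lit 4) (nat_lit 4) (nat_lit 532) (nat_lit 399) (nat_lit 269)) (XT.lf (nat_lit 0) (nat_lit 10066476122) (nat_lit 76) (nat_lit 240004504183) (nat_lit 76) (nat_lit 226044334000) (nat_lit 3) (nat_lit 4) (nat_lit 4) (nat_lit 5) (nat_lit 4) (nat_lit 4) (nat_lit 533) (nat_lit 399) (nat_lit 268))) (XT.nd (nat_lit 78) (nat_lit 0) (nat_lit 0) (XT.lf (nat_lit 0) (nat_lit 52033729053) (nat_lit 76) (nat_lit 230409932644) (nat_lit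 76) (nat_lit 216448646622) (nat_lit 3) (nat_lit 4) (nat_lit 4) (nat_lit 5) (nat_lit 4) (nat_lit 4) (nat_lit 534) (nat_lit 399) (nat_lit 267)) (XT.lf (nat_lit 0) (nat_lit 96092905919) (nat_lit 76) (nat_lit 220338877297) (nat_lit 76) (nat_lit 206376528571) (nat_lit 3) (nat_lit 4) (nat_lit 4) (nat_lit 5) (nat_lit 4) (nat_lit 4) (nat_lit 535) (nat_lit 399) (nat_lit 266))))) (XT.nd (nat_lit 234) (nat_lit 0) (nat_lit 0) (XT.nd (nat_lit 78) (nat_lit 0) (nat_lit 0) (XT.lf (nat_lit 0) (nat_lit 142348909522) (nat_lit 76) (nat_lit 209767359438) (nat_lit 76) (nat_lit 195803998614) (nat_lit 3) (nat_lit 4) (nat_lit 4) (nat_lit 5) (nat_lit 4) (nat_lit 4) (nat_lit 536) (nat_lit 399) (nat_lit 265)) (XT.nd (nat_lit 78) (nat_lit 0) (nat_lit 0) (XT.lf (nat_lit 0) (nat_lit 190911873203) (nat_lit 76) (nat_lit 198670208788) (nat_lit 76) (nat_lit 184705884059) (nat_lit 3) (nat_lit 4) (nat_lit 4) (nat_lit 5) (nat_lit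 4) (nat_lit 4) (nat_lit 537) (nat_lit 399) (nat_lit 264)) (XT.lf (nat_lit 0) (nat_lit 241897423066) (nat_lit 76) (nat_lit 187021003558) (nat_lit 76) (nat_lit 173055760826) (nat_lit 3) (nat_lit 4) (nat_lit 4) (nat_lit 5) (nat_lit 4) (nat_lit 4) (nat_lit 538) (nat_lit 399) (nat_lit 263)))) (XT.nd (nat_lit 156) (nat_lit 0) (nat_lit 0) (XT.nd (nat_lit 78) (nat_lit 0) (nat_lit 0) (XT.lf (nat_lit 0) (nat_lit 295426953278) (nat_lit 76) (nat_lit 174792007545) (nat_lit 76) (nat_lit 160825890524) (nat_lit 3) (nat_lit 4) (nat_lit 4) (nat_lit 5) (nat_lit 4) (nat_lit 4) (nat_lit 539) (nat_lit 399) (nat_lit 262)) (XT.lf (nat_lit 0) (nat_lit 351627915102) (nat_lit 76) (nat_lit 161954104094) (nat_lit 76) (nat_lit 147987154416) (nat_lit 3) (nat_lit 4) (nat_lit 4) (nat_lit 5) (nat_lit 4) (nat_lit 4) (nat_lit 540) (nat_lit 399) (nat_lit 261))) (XT.nd (nat_lit 78) (nat_lit 0) (nat_lit 0) (XT.lf (nat_lit 0) (nat_lit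 410634120350) (nat_lit 76) (nat_lit 148476726766) (nat_lit 76) (nat_lit 134508984082) (nat_lit 3) (nat_lit 4) (nat_lit 4) (nat_lit 5) (nat_lit 4) (nat_lit 4) (nat_lit 541) (nat_lit 399) (nat_lit 260)) (XT.lf (nat_lit 0) (nat_lit 472586059989) (nat_lit 76) (nat_lit 134327786568) (nat_lit 76) (nat_lit 120359288640) (nat_lit 3) (nat_lit 4) (nat_lit 4) (nat_lit 5) (nat_lit 4) (nat_lit 4) (nat_lit 542) (nat_lit 399) (nat_lit 259))))))) (XT.nd (nat_lit 52260) (nat_lit 0) (nat_lit 7144) (XT.nd (nat_lit 51714) (nat_lit 0) (nat_lit 11856) (XT.nd (nat_lit 51402) (nat_lit 0) (nat_lit 13452) (XT.nd (nat_lit 78) (nat_lit 0) (nat_lit 0) (XT.lf (nat_lit 0) (nat_lit 537631238636) (nat_lit 76) (nat_lit 119473595547) (nat_lit 76) (nat_lit 105504378340) (nat_lit 3) (nat_lit 4) (nat_lit 4) (nat_lit 5) (nat_lit 4) (nat_lit 4) (nat_lit 543) (nat_lit 399) (nat_lit 258)) (XT.nd (nat_lit 51246) (nat_lit 0) (nat_lit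 13832) (XT.lf (nat_lit 0) (nat_lit 605924525764) (nat_lit 76) (nat_lit 103878786583) (nat_lit 76) (nat_lit 89908884346) (nat_lit 3) (nat_lit 4) (nat_lit 4) (nat_lit 5) (nat_lit 4) (nat_lit 4) (nat_lit 544) (nat_lit 399) (nat_lit 257)) (XT.lf (nat_lit 0) (nat_lit 1073741823) (nat_lit 0) (nat_lit 0) (nat_lit 0) (nat_lit 0) (nat_lit 185) (nat_lit 0) (nat_lit 1) (nat_lit 0) (nat_lit 1) (nat_lit 0) (nat_lit 400) (nat_lit 400) (nat_lit 400)))) (XT.nd (nat_lit 156) (nat_lit 228) (nat_lit 0) (XT.nd (nat_lit 78) (nat_lit 76) (nat_lit 0) (XT.lf (nat_lit 0) (nat_lit 3123369118) (nat_lit 76) (nat_lit 3220082578) (nat_lit 0) (nat_lit 101552842) (nat_lit 184) (nat_lit 5) (nat_lit 185) (nat_lit 0) (nat_lit 184) (nat_lit 4) (nat_lit 401) (nat_lit 400) (nat_lit 399)) (XT.lf (nat_lit 0) (nat_lit 53500482) (nat_lit 76) (nat_lit 6151971667) (nat_lit 76) (nat_lit 252235128) (nat_lit 183) (nat_lit 4) (nat_lit 184)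 (nat_lit 5) (nat_lit 184) (nat_lit 4) (nat_lit 402) (nat_lit 400) (nat_lit 398))) (XT.nd (nat_lit 78) (nat_lit 152) (nat_lit 0) (XT.lf (nat_lit 0) (nat_lit 2737179304) (nat_lit 152) (nat_lit 3029395406) (nat_lit 76) (nat_lit 709206117) (nat_lit 182) (nat_lit 5) (nat_lit 184) (nat_lit 5) (nat_lit 183) (nat_lit 4) (nat_lit 403) (nat_lit 400) (nat_lit 397)) (XT.lf (nat_lit 0) (nat_lit 412402247) (nat_lit 152) (nat_lit 5277048358) (nat_lit 228) (nat_lit 814136903) (nat_lit 180) (nat_lit 5) (nat_lit 182) (nat_lit 5) (nat_lit 183) (nat_lit 4) (nat_lit 404) (nat_lit 400) (nat_lit 396))))) (XT.nd (nat_lit 234) (nat_lit 1216) (nat_lit 0) (XT.nd (nat_lit 78) (nat_lit 304) (nat_lit 0) (XT.lf (nat_lit 0) (nat_lit 2055954843) (nat_lit 228) (nat_lit 2549945304) (nat_lit 76) (nat_lit 1931658766) (nat_lit 179) (nat_lit 5) (nat_lit 182) (nat_lit 5) (nat_lit 180) (nat_lit 5) (nat_lit 405) (nat_lit 400) (nat_lit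 395)) (XT.nd (nat_lit 78) (nat_lit 76) (nat_lit 0) (XT.lf (nat_lit 0) (nat_lit 1079939319) (nat_lit 228) (nat_lit 3807190767) (nat_lit 304) (nat_lit 1693296253) (nat_lit 176) (nat_lit 5) (nat_lit 179) (nat_lit 5) (nat_lit 180) (nat_lit 5) (nat_lit 406) (nat_lit 400) (nat_lit 394)) (XT.lf (nat_lit 0) (nat_lit 1070576289) (nat_lit 304) (nat_lit 1776943428) (nat_lit 76) (nat_lit 3783272191) (nat_lit 175) (nat_lit 5) (nat_lit 179) (nat_lit 5) (nat_lit 176) (nat_lit 5) (nat_lit 407) (nat_lit 400) (nat_lit 393)))) (XT.nd (nat_lit 156) (nat_lit 912) (nat_lit 0) (XT.nd (nat_lit 78) (nat_lit 0) (nat_lit 0) (XT.lf (nat_lit 0) (nat_lit 2062919723) (nat_lit 304) (nat_lit 1724802172) (nat_lit 380) (nat_lit 2901063169) (nat_lit 171) (nat_lit 5) (nat_lit 175) (nat_lit 5) (nat_lit 176) (nat_lit 5) (nat_lit 408) (nat_lit 400) (nat_lit 392)) (XT.lf (nat_lit 0) (nat_lit 6050086468) (nat_lit 304) (nat_lit 466477794)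 (nat_lit 380) (nat_lit 239413571) (nat_lit 171) (nat_lit 5) (nat_lit 175) (nat_lit 5) (nat_lit 176) (nat_lit 5) (nat_lit 409) (nat_lit 400) (nat_lit 391))) (XT.nd (nat_lit 78) (nat_lit 456) (nat_lit 0) (XT.lf (nat_lit 0) (nat_lit 2392308074) (nat_lit 456) (nat_lit 3473226768) (nat_lit 76) (nat_lit 963145209) (nat_lit 165) (nat_lit 5) (nat_lit 171) (nat_lit 5) (nat_lit 166) (nat_lit 5) (nat_lit 410) (nat_lit 400) (nat_lit 390)) (XT.lf (nat_lit 0) (nat_lit 636029021) (nat_lit 456) (nat_lit 4397961737) (nat_lit 532) (nat_lit 1876588750) (nat_lit 159) (nat_lit 5) (nat_lit 165) (nat_lit 5) (nat_lit 166) (nat_lit 5) (nat_lit 411) (nat_lit 400) (nat_lit 389)))))) (XT.nd (nat_lit 546) (nat_lit 1900) (nat_lit 0) (XT.nd (nat_lit 234) (nat_lit 2204) (nat_lit 0) (XT.nd (nat_lit 78) (nat_lit 532) (nat_lit 0) (XT.lf (nat_lit 0) (nat_lit 704455488) (nat_lit 532) (nat_lit 2051348755) (nat_lit 76) (nat_lit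 4244246739) (nat_lit 158) (nat_lit 5) (nat_lit 165) (nat_lit 5) (nat_lit 159) (nat_lit 5) (nat_lit 412) (nat_lit 400) (nat_lit 388)) (XT.nd (nat_lit 78) (nat_lit 0) (nat_lit 0) (XT.lf (nat_lit 0) (nat_lit 2316469941) (nat_lit 532) (nat_lit 937325510) (nat_lit 608) (nat_lit 3843615529) (nat_lit 151) (nat_lit 5) (nat_lit 158) (nat_lit 5) (nat_lit 159) (nat_lit 5) (nat_lit 413) (nat_lit 400) (nat_lit 387)) (XT.lf (nat_lit 0) (nat_lit 5852245882) (nat_lit 608) (nat_lit 354750664) (nat_lit 76) (nat_lit 996625589) (nat_lit 151) (nat_lit 5) (nat_lit 159) (nat_lit 5) (nat_lit 152) (nat_lit 5) (nat_lit 414) (nat_lit 400) (nat_lit 386)))) (XT.nd (nat_lit 156) (nat_lit 836) (nat_lit 0) (XT.nd (nat_lit 78) (nat_lit 684) (nat_lit 0) (XT.lf (nat_lit 0) (nat_lit 1184135426) (nat_lit 684) (nat_lit 3030643386) (nat_lit 76) (nat_lit 3101478236) (nat_lit 142) (nat_lit 5) (nat_lit 151) (nat_lit 5) (nat_lit 143)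 (nat_lit 5) (nat_lit 415) (nat_lit 400) (nat_lit 385)) (XT.lf (nat_lit 0) (nat_lit 1655007716) (nat_lit 684) (nat_lit 2057397556) (nat_lit 760) (nat_lit 3725497300) (nat_lit 133) (nat_lit 5) (nat_lit 142) (nat_lit 5) (nat_lit 143) (nat_lit 5) (nat_lit 416) (nat_lit 400) (nat_lit 384))) (XT.nd (nat_lit 78) (nat_lit 836) (nat_lit 0) (XT.lf (nat_lit 0) (nat_lit 6306077555) (nat_lit 760) (nat_lit 1002970601) (nat_lit 76) (nat_lit 259686516) (nat_lit 133) (nat_lit 5) (nat_lit 143) (nat_lit 5) (nat_lit 134) (nat_lit 5) (nat_lit 417) (nat_lit 400) (nat_lit 383)) (XT.lf (nat_lit 0) (nat_lit 1265976412) (nat_lit 836) (nat_lit 3727529215) (nat_lit 76) (nat_lit 2712368161) (nat_lit 122) (nat_lit 5) (nat_lit 133) (nat_lit 5) (nat_lit 123) (nat_lit 5) (nat_lit 418) (nat_lit 400) (nat_lit 382))))) (XT.nd (nat_lit 312) (nat_lit 684) (nat_lit 0) (XT.nd (nat_lit 156) (nat_lit 836) (nat_lit 0) (XT.nd (nat_lit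 78) (nat_lit 0) (nat_lit 0) (XT.lf (nat_lit 0) (nat_lit 1302921778) (nat_lit 380) (nat_lit 2504190822) (nat_lit 456) (nat_lit 4045343496) (nat_lit 117) (nat_lit 5) (nat_lit 122) (nat_lit 5) (nat_lit 123) (nat_lit 5) (nat_lit 419) (nat_lit 400) (nat_lit 381)) (XT.lf (nat_lit 0) (nat_lit 6435470633) (nat_lit 456) (nat_lit 1407416050) (nat_lit 76) (nat_lit 165516805) (nat_lit 117) (nat_lit 5) (nat_lit 123) (nat_lit 5) (nat_lit 118) (nat_lit 5) (nat_lit 420) (nat_lit 400) (nat_lit 380))) (XT.nd (nat_lit 78) (nat_lit 380) (nat_lit 0) (XT.lf (nat_lit 0) (nat_lit 992671345) (nat_lit 456) (nat_lit 4220598027) (nat_lit 76) (nat_lit 2958004383) (nat_lit 111) (nat_lit 5) (nat_lit 117) (nat_lit 5) (nat_lit 112) (nat_lit 5) (nat_lit 421) (nat_lit 400) (nat_lit 379)) (XT.lf (nat_lit 0) (nat_lit 1184376107) (nat_lit 380) (nat_lit 2392823641) (nat_lit 456) (nat_lit 4766661454) (nat_lit 106) (nat_lit 5) (nat_lit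 111) (nat_lit 5) (nat_lit 112) (nat_lit 5) (nat_lit 422) (nat_lit 400) (nat_lit 378)))) (XT.nd (nat_lit 156) (nat_lit 304) (nat_lit 0) (XT.nd (nat_lit 78) (nat_lit 380) (nat_lit 0) (XT.lf (nat_lit 0) (nat_lit 6276061683) (nat_lit 456) (nat_lit 1640047185) (nat_lit 76) (nat_lit 609750178) (nat_lit 106) (nat_lit 5) (nat_lit 112) (nat_lit 5) (nat_lit 107) (nat_lit 5) (nat_lit 423) (nat_lit 400) (nat_lit 377)) (XT.lf (nat_lit 0) (nat_lit 392523974) (nat_lit 380) (nat_lit 4583260111) (nat_lit 76) (nat_lit 3740289490) (nat_lit 101) (nat_lit 5) (nat_lit 106) (nat_lit 5) (nat_lit 102) (nat_lit 5) (nat_lit 424) (nat_lit 400) (nat_lit 376))) (XT.nd (nat_lit 78) (nat_lit 0) (nat_lit 0) (XT.lf (nat_lit 0) (nat_lit 1228394029) (nat_lit 304) (nat_lit 1819742017) (nat_lit 380) (nat_lit 5868010985) (nat_lit 97) (nat_lit 5) (nat_lit 101) (nat_lit 5) (nat_lit 102) (nat_lit 5) (nat_lit 425) (nat_lit 400) (nat_lit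 375)) (XT.lf (nat_lit 0) (nat_lit 5850418573) (nat_lit 380) (nat_lit 1769949088) (nat_lit 76) (nat_lit 1505191933) (nat_lit 97) (nat_lit 5) (nat_lit 102) (nat_lit 5) (nat_lit 98) (nat_lit 5) (nat_lit 426) (nat_lit 400) (nat_lit 374))))))))
noncomputable def xc94 : XT := (XT.nd (nat_lit 2184) (nat_lit 1900) (nat_lit 0) (XT.nd (nat_lit 1092) (nat_lit 1444) (nat_lit 0) (XT.nd (nat_lit 546) (nat_lit 1064) (nat_lit 0) (XT.nd (nat_lit 234) (nat_lit 760) (nat_lit 0) (XT.nd (nat_lit 78) (nat_lit 380) (nat_lit 0) (XT.lf (nat_lit 0) (nat_lit 4448918102) (nat_lit 228) (nat_lit 4359065751) (nat_lit 304) (nat_lit 536729005) (nat_lit 94) (nat_lit 5) (nat_lit 97) (nat_lit 5) (nat_lit 98) (nat_lit 5) (nat_lit 427) (nat_lit 400) (nat_lit 373)) (XT.nd (nat_lit 78) (nat_lit 0) (nat_lit 0) (XT.lf (nat_lit 0) (nat_lit 1365109935) (nat_lit 304) (nat_lit 867289556) (nat_lit 380) (nat_lit 7342192251) (nat_lit 89)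 (nat_lit 5) (nat_lit 93) (nat_lit 5) (nat_lit 94) (nat_lit 5) (nat_lit 428) (nat_lit 400) (nat_lit 372)) (XT.lf (nat_lit 0) (nat_lit 5168676051) (nat_lit 380) (nat_lit 1866992726) (nat_lit 76) (nat_lit 2777544009) (nat_lit 89) (nat_lit 5) (nat_lit 94) (nat_lit 5) (nat_lit 90) (nat_lit 5) (nat_lit 429) (nat_lit 400) (nat_lit 371)))) (XT.nd (nat_lit 156) (nat_lit 228) (nat_lit 0) (XT.nd (nat_lit 78) (nat_lit 304) (nat_lit 0) (XT.lf (nat_lit 0) (nat_lit 4827833168) (nat_lit 228) (nat_lit 3436151864) (nat_lit 304) (nat_lit 1799192373) (nat_lit 86) (nat_lit 5) (nat_lit 89) (nat_lit 5) (nat_lit 90) (nat_lit 5) (nat_lit 430) (nat_lit 400) (nat_lit 370)) (XT.lf (nat_lit 0) (nat_lit 1135840471) (nat_lit 304) (nat_lit 8810043038) (nat_lit 76) (nat_lit 379577382) (nat_lit 82) (nat_lit 5) (nat_lit 86) (nat_lit 5) (nat_lit 83) (nat_lit 5) (nat_lit 431) (nat_lit 400) (nat_lit 369))) (XT.nd (nat_lit 78) (nat_lit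 228) (nat_lit 0) (XT.lf (nat_lit 0) (nat_lit 4228600730) (nat_lit 304) (nat_lit 2005750042) (nat_lit 76) (nat_lit 4361481267) (nat_lit 82) (nat_lit 5) (nat_lit 86) (nat_lit 5) (nat_lit 83) (nat_lit 5) (nat_lit 432) (nat_lit 400) (nat_lit 368)) (XT.lf (nat_lit 0) (nat_lit 5202879165) (nat_lit 228) (nat_lit 2282916592) (nat_lit 304) (nat_lit 3393455442) (nat_lit 79) (nat_lit 5) (nat_lit 82) (nat_lit 5) (nat_lit 83) (nat_lit 5) (nat_lit 433) (nat_lit 400) (nat_lit 367))))) (XT.nd (nat_lit 234) (nat_lit 608) (nat_lit 0) (XT.nd (nat_lit 78) (nat_lit 228) (nat_lit 0) (XT.lf (nat_lit 0) (nat_lit 1583663612) (nat_lit 228) (nat_lit 9340480050) (nat_lit 304) (nat_lit 251801372) (nat_lit 76) (nat_lit 5) (nat_lit 79) (nat_lit 5) (nat_lit 80) (nat_lit 5) (nat_lit 434) (nat_lit 400) (nat_lit 366)) (XT.nd (nat_lit 78) (nat_lit 152) (nat_lit 0) (XT.lf (nat_lit 0) (nat_lit 3015061366) (nat_lit 304) (nat_lit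 2269871486) (nat_lit 76) (nat_lit 6196896468) (nat_lit 75) (nat_lit 5) (nat_lit 79) (nat_lit 5) (nat_lit 76) (nat_lit 5) (nat_lit 435) (nat_lit 400) (nat_lit 365)) (XT.lf (nat_lit 0) (nat_lit 5490839455) (nat_lit 152) (nat_lit 965515880) (nat_lit 228) (nat_lit 5345484450) (nat_lit 73) (nat_lit 5) (nat_lit 75) (nat_lit 5) (nat_lit 76) (nat_lit 5) (nat_lit 436) (nat_lit 400) (nat_lit 364)))) (XT.nd (nat_lit 156) (nat_lit 304) (nat_lit 0) (XT.nd (nat_lit 78) (nat_lit 76) (nat_lit 0) (XT.lf (nat_lit 0) (nat_lit 1472678830) (nat_lit 228) (nat_lit 8649762336) (nat_lit 304) (nat_lit 2012788364) (nat_lit 70) (nat_lit 5) (nat_lit 73) (nat_lit 5) (nat_lit 74) (nat_lit 5) (nat_lit 437) (nat_lit 400) (nat_lit 363)) (XT.lf (nat_lit 0) (nat_lit 1498850135) (nat_lit 304) (nat_lit 2757167745) (nat_lit 76) (nat_lit 8225129825) (nat_lit 69) (nat_lit 5) (nat_lit 73) (nat_lit 5) (nat_lit 70) (nat_lit 5) (nat_lit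 438) (nat_lit 400) (nat_lit 362))) (XT.nd (nat_lit 78) (nat_lit 152) (nat_lit 0) (XT.lf (nat_lit 0) (nat_lit 5151264853) (nat_lit 228) (nat_lit 7255203084) (nat_lit 76) (nat_lit 434615225) (nat_lit 67) (nat_lit 5) (nat_lit 70) (nat_lit 5) (nat_lit 68) (nat_lit 5) (nat_lit 439) (nat_lit 400) (nat_lit 361)) (XT.lf (nat_lit 0) (nat_lit 1092361399) (nat_lit 152) (nat_lit 7967633631) (nat_lit 228) (nat_lit 4155348061) (nat_lit 65) (nat_lit 5) (nat_lit 67) (nat_lit 5) (nat_lit 68) (nat_lit 5) (nat_lit 440) (nat_lit 400) (nat_lit 360)))))) (XT.nd (nat_lit 546) (nat_lit 684) (nat_lit 0) (XT.nd (nat_lit 234) (nat_lit 380) (nat_lit 0) (XT.nd (nat_lit 78) (nat_lit 380) (nat_lit 0) (XT.lf (nat_lit 0) (nat_lit 10013568943) (nat_lit 152) (nat_lit 3214265189) (nat_lit 228) (nat_lit 377310110) (nat_lit 65) (nat_lit 5) (nat_lit 67) (nat_lit 5) (nat_lit 68) (nat_lit 5) (nat_lit 441) (nat_lit 400) (nat_lit 359))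 (XT.nd (nat_lit 78) (nat_lit 152) (nat_lit 0) (XT.lf (nat_lit 0) (nat_lit 3531058325) (nat_lit 228) (nat_lit 8649888459) (nat_lit 76) (nat_lit 1827881240) (nat_lit 62) (nat_lit 5) (nat_lit 65) (nat_lit 5) (nat_lit 63) (nat_lit 5) (nat_lit 442) (nat_lit 400) (nat_lit 358)) (XT.lf (nat_lit 0) (nat_lit 308278586) (nat_lit 152) (nat_lit 7376647976) (nat_lit 228) (nat_lit 6744332321) (nat_lit 60) (nat_lit 5) (nat_lit 62) (nat_lit 5) (nat_lit 63) (nat_lit 5) (nat_lit 443) (nat_lit 400) (nat_lit 357)))) (XT.nd (nat_lit 156) (nat_lit 152) (nat_lit 0) (XT.nd (nat_lit 78) (nat_lit 228) (nat_lit 0) (XT.lf (nat_lit 0) (nat_lit 9922440694) (nat_lit 152) (nat_lit 2215224747) (nat_lit 228) (nat_lit 2728496726) (nat_lit 60) (nat_lit 5) (nat_lit 62) (nat_lit 5) (nat_lit 63) (nat_lit 5) (nat_lit 444) (nat_lit 400) (nat_lit 356)) (XT.lf (nat_lit 0) (nat_lit 1511870089) (nat_lit 228) (nat_lit 10642817319) (nat_lit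 76) (nat_lit 3165501905) (nat_lit 57) (nat_lit 5) (nat_lit 60) (nat_lit 5) (nat_lit 58) (nat_lit 5) (nat_lit 445) (nat_lit 400) (nat_lit 355))) (XT.nd (nat_lit 78) (nat_lit 152) (nat_lit 0) (XT.lf (nat_lit 0) (nat_lit 5941035384) (nat_lit 228) (nat_lit 1014223186) (nat_lit 76) (nat_lit 8836007415) (nat_lit 57) (nat_lit 5) (nat_lit 60) (nat_lit 5) (nat_lit 58) (nat_lit 5) (nat_lit 446) (nat_lit 400) (nat_lit 354)) (XT.lf (nat_lit 0) (nat_lit 9307774790) (nat_lit 152) (nat_lit 1378788903) (nat_lit 228) (nat_lit 5594595576) (nat_lit 55) (nat_lit 5) (nat_lit 57) (nat_lit 5) (nat_lit 58) (nat_lit 5) (nat_lit 447) (nat_lit 400) (nat_lit 353))))) (XT.nd (nat_lit 234) (nat_lit 304) (nat_lit 0) (XT.nd (nat_lit 78) (nat_lit 228) (nat_lit 0) (XT.lf (nat_lit 0) (nat_lit 3336542235) (nat_lit 152) (nat_lit 12422382956) (nat_lit 228) (nat_lit 1032151823) (nat_lit 53) (nat_lit 5) (nat_lit 55) (nat_lit 5) (nat_lit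 56) (nat_lit 4) (nat_lit 448) (nat_lit 400) (nat_lit 352)) (XT.nd (nat_lit 78) (nat_lit 152) (nat_lit 0) (XT.lf (nat_lit 0) (nat_lit 3731112961) (nat_lit 228) (nat_lit 3086463935) (nat_lit 76) (nat_lit 10501337127) (nat_lit 52) (nat_lit 5) (nat_lit 55) (nat_lit 5) (nat_lit 53) (nat_lit 5) (nat_lit 449) (nat_lit 400) (nat_lit 351)) (XT.lf (nat_lit 0) (nat_lit 7955107704) (nat_lit 152) (nat_lit 819666598) (nat_lit 228) (nat_lit 9093683131) (nat_lit 50) (nat_lit 5) (nat_lit 52) (nat_lit 5) (nat_lit 53) (nat_lit 5) (nat_lit 450) (nat_lit 400) (nat_lit 350)))) (XT.nd (nat_lit 156) (nat_lit 152) (nat_lit 0) (XT.nd (nat_lit 78) (nat_lit 76) (nat_lit 0) (XT.lf (nat_lit 0) (nat_lit 1078130958) (nat_lit 76) (nat_lit 13101132862) (nat_lit 152) (nat_lit 4260788218) (nat_lit 49) (nat_lit 5) (nat_lit 50) (nat_lit 5) (nat_lit 51) (nat_lit 4) (nat_lit 451) (nat_lit 400) (nat_lit 349)) (XT.lf (nat_lit 0) (nat_lit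 925135851) (nat_lit 152) (nat_lit 6180618766) (nat_lit 76) (nat_lit 11926970730) (nat_lit 48) (nat_lit 5) (nat_lit 50) (nat_lit 5) (nat_lit 49) (nat_lit 5) (nat_lit 452) (nat_lit 400) (nat_lit 348))) (XT.nd (nat_lit 78) (nat_lit 0) (nat_lit 0) (XT.lf (nat_lit 0) (nat_lit 5589516044) (nat_lit 152) (nat_lit 680491721) (nat_lit 228) (nat_lit 13379395430) (nat_lit 46) (nat_lit 5) (nat_lit 48) (nat_lit 5) (nat_lit 49) (nat_lit 5) (nat_lit 453) (nat_lit 400) (nat_lit 347)) (XT.lf (nat_lit 0) (nat_lit 12039152213) (nat_lit 228) (nat_lit 2305017962) (nat_lit 76) (nat_lit 5944898480) (nat_lit 46) (nat_lit 5) (nat_lit 49) (nat_lit 5) (nat_lit 47) (nat_lit 4) (nat_lit 454) (nat_lit 400) (nat_lit 346))))))) (XT.nd (nat_lit 1092) (nat_lit 836) (nat_lit 0) (XT.nd (nat_lit 546) (nat_lit 456) (nat_lit 0) (XT.nd (nat_lit 234) (nat_lit 304) (nat_lit 0) (XT.nd (nat_lit 78) (nat_lit 228) (nat_lit 0) (XT.lf (nat_lit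 0) (nat_lit 10279595470) (nat_lit 76) (nat_lit 7946839159) (nat_lit 152) (nat_lit 2727803645) (nat_lit 45) (nat_lit 5) (nat_lit 46) (nat_lit 5) (nat_lit 47) (nat_lit 4) (nat_lit 455) (nat_lit 400) (nat_lit 345)) (XT.nd (nat_lit 78) (nat_lit 0) (nat_lit 0) (XT.lf (nat_lit 0) (nat_lit 1857608997) (nat_lit 152) (nat_lit 1141398616) (nat_lit 228) (nat_lit 18649923069) (nat_lit 42) (nat_lit 5) (nat_lit 44) (nat_lit 5) (nat_lit 45) (nat_lit 5) (nat_lit 456) (nat_lit 400) (nat_lit 344)) (XT.lf (nat_lit 0) (nat_lit 9156457285) (nat_lit 228) (nat_lit 7199990026) (nat_lit 76) (nat_lit 6007880252) (nat_lit 42) (nat_lit 5) (nat_lit 45) (nat_lit 5) (nat_lit 43) (nat_lit 4) (nat_lit 457) (nat_lit 400) (nat_lit 343)))) (XT.nd (nat_lit 156) (nat_lit 228) (nat_lit 0) (XT.nd (nat_lit 78) (nat_lit 0) (nat_lit 0) (XT.lf (nat_lit 0) (nat_lit 6125569098) (nat_lit 76) (nat_lit 9571018064) (nat_lit 152) (nat_lit 7415170788)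 (nat_lit 41) (nat_lit 5) (nat_lit 42) (nat_lit 5) (nat_lit 43) (nat_lit 4) (nat_lit 458) (nat_lit 400) (nat_lit 342)) (XT.lf (nat_lit 0) (nat_lit 20295861768) (nat_lit 76) (nat_lit 2351022457) (nat_lit 152) (nat_lit 1245521453) (nat_lit 41) (nat_lit 5) (nat_lit 42) (nat_lit 5) (nat_lit 43) (nat_lit 4) (nat_lit 459) (nat_lit 400) (nat_lit 341))) (XT.nd (nat_lit 78) (nat_lit 0) (nat_lit 0) (XT.lf (nat_lit 0) (nat_lit 5279135675) (nat_lit 228) (nat_lit 14134306784) (nat_lit 76) (nat_lit 5283861968) (nat_lit 38) (nat_lit 5) (nat_lit 41) (nat_lit 5) (nat_lit 39) (nat_lit 4) (nat_lit 460) (nat_lit 400) (nat_lit 340)) (XT.lf (nat_lit 0) (nat_lit 12151311563) (nat_lit 228) (nat_lit 113566866) (nat_lit 76) (nat_lit 13273394916) (nat_lit 38) (nat_lit 5) (nat_lit 41) (nat_lit 5) (nat_lit 39) (nat_lit 4) (nat_lit 461) (nat_lit 400) (nat_lit 339))))) (XT.nd (nat_lit 234) (nat_lit 228) (nat_lit 0) (XT.nd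 (nat_lit 78) (nat_lit 152) (nat_lit 0) (XT.lf (nat_lit 0) (nat_lit 15022759677) (nat_lit 76) (nat_lit 4543354917) (nat_lit 152) (nat_lit 6845228371) (nat_lit 37) (nat_lit 5) (nat_lit 38) (nat_lit 5) (nat_lit 39) (nat_lit 4) (nat_lit 462) (nat_lit 400) (nat_lit 338)) (XT.nd (nat_lit 78) (nat_lit 0) (nat_lit 0) (XT.lf (nat_lit 0) (nat_lit 102353191) (nat_lit 152) (nat_lit 23741362961) (nat_lit 76) (nat_lit 3480358545) (nat_lit 35) (nat_lit 5) (nat_lit 37) (nat_lit 5) (nat_lit 36) (nat_lit 4) (nat_lit 463) (nat_lit 400) (nat_lit 337)) (XT.lf (nat_lit 0) (nat_lit 7402544579) (nat_lit 152) (nat_lit 8831273214) (nat_lit 76) (nat_lit 12031253356) (nat_lit 35) (nat_lit 5) (nat_lit 37) (nat_lit 5) (nat_lit 36) (nat_lit 4) (nat_lit 464) (nat_lit 400) (nat_lit 336)))) (XT.nd (nat_lit 156) (nat_lit 152) (nat_lit 0) (XT.nd (nat_lit 78) (nat_lit 0) (nat_lit 0) (XT.lf (nat_lit 0) (nat_lit 6984466365) (nat_lit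 76) (nat_lit 8158765395) (nat_lit 152) (nat_lit 14106113963) (nat_lit 34) (nat_lit 5) (nat_lit 35) (nat_lit 5) (nat_lit 36) (nat_lit 4) (nat_lit 465) (nat_lit 400) (nat_lit 335)) (XT.lf (nat_lit 0) (nat_lit 23394567425) (nat_lit 152) (nat_lit 6448777935) (nat_lit 0) (nat_lit 433310444) (nat_lit 34) (nat_lit 5) (nat_lit 36) (nat_lit 4) (nat_lit 34) (nat_lit 4) (nat_lit 466) (nat_lit 400) (nat_lit 334))) (XT.nd (nat_lit 78) (nat_lit 0) (nat_lit 0) (XT.lf (nat_lit 0) (nat_lit 947588422) (nat_lit 152) (nat_lit 21064198299) (nat_lit 76) (nat_lit 9329650287) (nat_lit 32) (nat_lit 5) (nat_lit 34) (nat_lit 5) (nat_lit 33) (nat_lit 4) (nat_lit 467) (nat_lit 400) (nat_lit 333)) (XT.lf (nat_lit 0) (nat_lit 9016733902) (nat_lit 152) (nat_lit 4565781096) (nat_lit 76) (nat_lit 18867339957) (nat_lit 32) (nat_lit 5) (nat_lit 34) (nat_lit 5) (nat_lit 33) (nat_lit 4) (nat_lit 468) (nat_lit 400) (nat_lit 332))))))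 (XT.nd (nat_lit 546) (nat_lit 456) (nat_lit 0) (XT.nd (nat_lit 234) (nat_lit 152) (nat_lit 0) (XT.nd (nat_lit 78) (nat_lit 152) (nat_lit 0) (XT.lf (nat_lit 0) (nat_lit 13119740918) (nat_lit 76) (nat_lit 4544207454) (nat_lit 152) (nat_lit 15941016888) (nat_lit 31) (nat_lit 5) (nat_lit 32) (nat_lit 5) (nat_lit 33) (nat_lit 4) (nat_lit 469) (nat_lit 400) (nat_lit 331)) (XT.nd (nat_lit 78) (nat_lit 152) (nat_lit 0) (XT.lf (nat_lit 0) (nat_lit 26869240774) (nat_lit 152) (nat_lit 3102261592) (nat_lit 0) (nat_lit 4840044802) (nat_lit 31) (nat_lit 5) (nat_lit 33) (nat_lit 4) (nat_lit 31) (nat_lit 4) (nat_lit 470) (nat_lit 400) (nat_lit 330)) (XT.lf (nat_lit 0) (nat_lit 734550100) (nat_lit 152) (nat_lit 20559016813) (nat_lit 76) (nat_lit 14769895977) (nat_lit 29) (nat_lit 5) (nat_lit 31) (nat_lit 5) (nat_lit 30) (nat_lit 4) (nat_lit 471) (nat_lit 400) (nat_lit 329)))) (XT.nd (nat_lit 156) (nat_lit 76)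 (nat_lit 0) (XT.nd (nat_lit 78) (nat_lit 76) (nat_lit 0) (XT.lf (nat_lit 0) (nat_lit 9603128578) (nat_lit 152) (nat_lit 2412381932) (nat_lit 76) (nat_lit 25354715847) (nat_lit 29) (nat_lit 5) (nat_lit 31) (nat_lit 5) (nat_lit 30) (nat_lit 4) (nat_lit 472) (nat_lit 400) (nat_lit 328)) (XT.lf (nat_lit 0) (nat_lit 17137556310) (nat_lit 76) (nat_lit 2017900329) (nat_lit 152) (nat_lit 19574856927) (nat_lit 28) (nat_lit 5) (nat_lit 29) (nat_lit 5) (nat_lit 30) (nat_lit 4) (nat_lit 473) (nat_lit 400) (nat_lit 327))) (XT.nd (nat_lit 78) (nat_lit 76) (nat_lit 0) (XT.lf (nat_lit 0) (nat_lit 29332172286) (nat_lit 152) (nat_lit 2593318156) (nat_lit 0) (nat_lit 8225577660) (nat_lit 28) (nat_lit 5) (nat_lit 30) (nat_lit 4) (nat_lit 28) (nat_lit 4) (nat_lit 474) (nat_lit 400) (nat_lit 326)) (XT.lf (nat_lit 0) (nat_lit 17843998860) (nat_lit 76) (nat_lit 22459548975) (nat_lit 76) (nat_lit 1325022779) (nat_lit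 27) (nat_lit 4) (nat_lit 28) (nat_lit 5) (nat_lit 28) (nat_lit 4) (nat_lit 475) (nat_lit 400) (nat_lit 325))))) (XT.nd (nat_lit 312) (nat_lit 228) (nat_lit 0) (XT.nd (nat_lit 156) (nat_lit 76) (nat_lit 0) (XT.nd (nat_lit 78) (nat_lit 76) (nat_lit 0) (XT.lf (nat_lit 0) (nat_lit 8385727902) (nat_lit 152) (nat_lit 3970385491) (nat_lit 76) (nat_lit 30816147110) (nat_lit 26) (nat_lit 5) (nat_lit 28) (nat_lit 5) (nat_lit 27) (nat_lit 4) (nat_lit 476) (nat_lit 400) (nat_lit 324)) (XT.lf (nat_lit 0) (nat_lit 17319325310) (nat_lit 76) (nat_lit 1463985791) (nat_lit 152) (nat_lit 25996447734) (nat_lit 25) (nat_lit 5) (nat_lit 26) (nat_lit 5) (nat_lit 27) (nat_lit 4) (nat_lit 477) (nat_lit 400) (nat_lit 323))) (XT.nd (nat_lit 78) (nat_lit 76) (nat_lit 0) (XT.lf (nat_lit 0) (nat_lit 29900319098) (nat_lit 152) (nat_lit 6857580457) (nat_lit 0) (nat_lit 9699756442) (nat_lit 25) (nat_lit 5) (nat_lit 27) (nat_lit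 4) (nat_lit 25) (nat_lit 4) (nat_lit 478) (nat_lit 400) (nat_lit 322)) (XT.lf (nat_lit 0) (nat_lit 15192065995) (nat_lit 76) (nat_lit 26618969028) (nat_lit 76) (nat_lit 6396521257) (nat_lit 24) (nat_lit 4) (nat_lit 25) (nat_lit 5) (nat_lit 25) (nat_lit 4) (nat_lit 479) (nat_lit 400) (nat_lit 321)))) (XT.nd (nat_lit 156) (nat_lit 76) (nat_lit 0) (XT.nd (nat_lit 78) (nat_lit 76) (nat_lit 0) (XT.lf (nat_lit 0) (nat_lit 4230335072) (nat_lit 152) (nat_lit 11571103839) (nat_lit 76) (nat_lit 34235441477) (nat_lit 23) (nat_lit 5) (nat_lit 25) (nat_lit 5) (nat_lit 24) (nat_lit 4) (nat_lit 480) (nat_lit 400) (nat_lit 320)) (XT.lf (nat_lit 0) (nat_lit 11154190822) (nat_lit 76) (nat_lit 4171336985) (nat_lit 152) (nat_lit 36619302896) (nat_lit 22) (nat_lit 5) (nat_lit 23) (nat_lit 5) (nat_lit 24) (nat_lit 4) (nat_lit 481) (nat_lit 400) (nat_lit 319))) (XT.nd (nat_lit 78) (nat_lit 76) (nat_lit 0) (XT.lf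 (nat_lit 0) (nat_lit 27278058556) (nat_lit 152) (nat_lit 18693168078) (nat_lit 0) (nat_lit 7961823918) (nat_lit 22) (nat_lit 5) (nat_lit 24) (nat_lit 4) (nat_lit 22) (nat_lit 4) (nat_lit 482) (nat_lit 400) (nat_lit 318)) (XT.lf (nat_lit 0) (nat_lit 4544812528) (nat_lit 76) (nat_lit 35401669327) (nat_lit 76) (nat_lit 16068287128) (nat_lit 21) (nat_lit 4) (nat_lit 22) (nat_lit 5) (nat_lit 22) (nat_lit 4) (nat_lit 483) (nat_lit 400) (nat_lit 317))))))))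
noncomputable def xc95 : XT := (XT.nd (nat_lit 2184) (nat_lit 456) (nat_lit 0) (XT.nd (nat_lit 1092) (nat_lit 304) (nat_lit 0) (XT.nd (nat_lit 546) (nat_lit 304) (nat_lit 0) (XT.nd (nat_lit 234) (nat_lit 152) (nat_lit 0) (XT.nd (nat_lit 78) (nat_lit 152) (nat_lit 0) (XT.lf (nat_lit 0) (nat_lit 29552900616) (nat_lit 76) (nat_lit 23991296618) (nat_lit 76) (nat_lit 4641583408) (nat_lit 21) (nat_lit 4) (nat_lit 22) (nat_lit 5) (nat_lit 22) (nat_lit 4) (nat_lit 484) (nat_lit 400) (nat_lit 316)) (XT.nd (nat_lit 78) (nat_lit 76) (nat_lit 0) (XT.lf (nat_lit 0) (nat_lit 7100958013) (nat_lit 152) (nat_lit 4808302624) (nat_lit 76) (nat_lit 48551342520) (nat_lit 20) (nat_lit 5) (nat_lit 22) (nat_lit 5) (nat_lit 21) (nat_lit 4) (nat_lit 485) (nat_lit 400) (nat_lit 315)) (XT.lf (nat_lit 0) (nat_lit 19598042278) (nat_lit 152) (nat_lit 42090326573) (nat_lit 0) (nat_lit 1140823935) (nat_lit 19) (nat_lit 5)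 (nat_lit 21) (nat_lit 4) (nat_lit 19) (nat_lit 4) (nat_lit 486) (nat_lit 400) (nat_lit 314)))) (XT.nd (nat_lit 156) (nat_lit 76) (nat_lit 0) (XT.nd (nat_lit 78) (nat_lit 76) (nat_lit 0) (XT.lf (nat_lit 0) (nat_lit 32978936239) (nat_lit 152) (nat_lit 17816046248) (nat_lit 0) (nat_lit 14508282333) (nat_lit 19) (nat_lit 5) (nat_lit 21) (nat_lit 4) (nat_lit 19) (nat_lit 4) (nat_lit 487) (nat_lit 400) (nat_lit 313)) (XT.lf (nat_lit 0) (nat_lit 7888560741) (nat_lit 76) (nat_lit 39245339400) (nat_lit 76) (nat_lit 20761889719) (nat_lit 18) (nat_lit 4) (nat_lit 19) (nat_lit 5) (nat_lit 19) (nat_lit 4) (nat_lit 488) (nat_lit 400) (nat_lit 312))) (XT.nd (nat_lit 78) (nat_lit 76) (nat_lit 0) (XT.lf (nat_lit 0) (nat_lit 35461638975) (nat_lit 76) (nat_lit 26818872003) (nat_lit 76) (nat_lit 8323235871) (nat_lit 18) (nat_lit 4) (nat_lit 19) (nat_lit 5) (nat_lit 19) (nat_lit 4) (nat_lit 489) (nat_lit 400) (nat_lit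 311)) (XT.lf (nat_lit 0) (nat_lit 4568471153) (nat_lit 152) (nat_lit 9141876411) (nat_lit 76) (nat_lit 59733919268) (nat_lit 17) (nat_lit 5) (nat_lit 19) (nat_lit 5) (nat_lit 18) (nat_lit 4) (nat_lit 490) (nat_lit 400) (nat_lit 310))))) (XT.nd (nat_lit 234) (nat_lit 228) (nat_lit 0) (XT.nd (nat_lit 78) (nat_lit 0) (nat_lit 0) (XT.lf (nat_lit 0) (nat_lit 18106344814) (nat_lit 152) (nat_lit 57829708719) (nat_lit 0) (nat_lit 469872675) (nat_lit 16) (nat_lit 5) (nat_lit 18) (nat_lit 4) (nat_lit 16) (nat_lit 4) (nat_lit 491) (nat_lit 400) (nat_lit 309)) (XT.nd (nat_lit 78) (nat_lit 0) (nat_lit 0) (XT.lf (nat_lit 0) (nat_lit 32686833602) (nat_lit 152) (nat_lit 31770213762) (nat_lit 0) (nat_lit 15040335639) (nat_lit 16) (nat_lit 5) (nat_lit 18) (nat_lit 4) (nat_lit 16) (nat_lit 4) (nat_lit 492) (nat_lit 400) (nat_lit 308)) (XT.lf (nat_lit 0) (nat_lit 47980729190) (nat_lit 152) (nat_lit 4438782001)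 (nat_lit 0) (nat_lit 30324682823) (nat_lit 16) (nat_lit 5) (nat_lit 18) (nat_lit 4) (nat_lit 16) (nat_lit 4) (nat_lit 493) (nat_lit 400) (nat_lit 307)))) (XT.nd (nat_lit 156) (nat_lit 152) (nat_lit 0) (XT.nd (nat_lit 78) (nat_lit 0) (nat_lit 0) (XT.lf (nat_lit 0) (nat_lit 25030803429) (nat_lit 76) (nat_lit 39384443177) (nat_lit 76) (nat_lit 21719303093) (nat_lit 15) (nat_lit 4) (nat_lit 16) (nat_lit 5) (nat_lit 16) (nat_lit 4) (nat_lit 494) (nat_lit 400) (nat_lit 306)) (XT.lf (nat_lit 0) (nat_lit 56098889445) (nat_lit 76) (nat_lit 25633153640) (nat_lit 76) (nat_lit 7959352872) (nat_lit 15) (nat_lit 4) (nat_lit 16) (nat_lit 5) (nat_lit 16) (nat_lit 4) (nat_lit 495) (nat_lit 400) (nat_lit 305))) (XT.nd (nat_lit 78) (nat_lit 76) (nat_lit 0) (XT.lf (nat_lit 0) (nat_lit 6266767079) (nat_lit 152) (nat_lit 4835176524) (nat_lit 76) (nat_lit 82319783689) (nat_lit 14) (nat_lit 5) (nat_lit 16) (nat_lit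 5) (nat_lit 15) (nat_lit 4) (nat_lit 496) (nat_lit 400) (nat_lit 304)) (XT.lf (nat_lit 0) (nat_lit 21403202267) (nat_lit 152) (nat_lit 71349850331) (nat_lit 0) (nat_lit 4555674140) (nat_lit 13) (nat_lit 5) (nat_lit 15) (nat_lit 4) (nat_lit 13) (nat_lit 4) (nat_lit 497) (nat_lit 400) (nat_lit 303)))))) (XT.nd (nat_lit 546) (nat_lit 76) (nat_lit 0) (XT.nd (nat_lit 234) (nat_lit 152) (nat_lit 0) (XT.nd (nat_lit 78) (nat_lit 76) (nat_lit 0) (XT.lf (nat_lit 0) (nat_lit 37548232976) (nat_lit 152) (nat_lit 43135675180) (nat_lit 0) (nat_lit 20693579684) (nat_lit 13) (nat_lit 5) (nat_lit 15) (nat_lit 4) (nat_lit 13) (nat_lit 4) (nat_lit 498) (nat_lit 400) (nat_lit 302)) (XT.nd (nat_lit 78) (nat_lit 76) (nat_lit 0) (XT.lf (nat_lit 0) (nat_lit 54487702114) (nat_lit 152) (nat_lit 13536362942) (nat_lit 0) (nat_lit 37626262949) (nat_lit 13) (nat_lit 5) (nat_lit 15) (nat_lit 4) (nat_lit 13) (nat_lit 4) (nat_lit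 499) (nat_lit 400) (nat_lit 301)) (XT.lf (nat_lit 0) (nat_lit 18097803677) (nat_lit 76) (nat_lit 54446695507) (nat_lit 76) (nat_lit 37578793607) (nat_lit 12) (nat_lit 4) (nat_lit 13) (nat_lit 5) (nat_lit 13) (nat_lit 4) (nat_lit 500) (nat_lit 400) (nat_lit 300)))) (XT.nd (nat_lit 156) (nat_lit 152) (nat_lit 0) (XT.nd (nat_lit 78) (nat_lit 0) (nat_lit 0) (XT.lf (nat_lit 0) (nat_lit 51759669416) (nat_lit 76) (nat_lit 39961715580) (nat_lit 76) (nat_lit 23087658694) (nat_lit 12) (nat_lit 4) (nat_lit 13) (nat_lit 5) (nat_lit 13) (nat_lit 4) (nat_lit 501) (nat_lit 400) (nat_lit 299)) (XT.lf (nat_lit 0) (nat_lit 87081808285) (nat_lit 76) (nat_lit 24763882085) (nat_lit 76) (nat_lit 7883963307) (nat_lit 12) (nat_lit 4) (nat_lit 13) (nat_lit 5) (nat_lit 13) (nat_lit 4) (nat_lit 502) (nat_lit 400) (nat_lit 298))) (XT.nd (nat_lit 78) (nat_lit 76) (nat_lit 0) (XT.lf (nat_lit 0) (nat_lit 7810249700) (nat_lit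 152) (nat_lit 874489645) (nat_lit 76) (nat_lit 116205800556) (nat_lit 11) (nat_lit 5) (nat_lit 13) (nat_lit 5) (nat_lit 12) (nat_lit 4) (nat_lit 503) (nat_lit 400) (nat_lit 297)) (XT.lf (nat_lit 0) (nat_lit 24673760494) (nat_lit 152) (nat_lit 97009504197) (nat_lit 0) (nat_lit 8587266742) (nat_lit 10) (nat_lit 5) (nat_lit 12) (nat_lit 4) (nat_lit 10) (nat_lit 4) (nat_lit 504) (nat_lit 400) (nat_lit 296))))) (XT.nd (nat_lit 234) (nat_lit 76) (nat_lit 0) (XT.nd (nat_lit 78) (nat_lit 0) (nat_lit 0) (XT.lf (nat_lit 0) (nat_lit 42527356194) (nat_lit 152) (nat_lit 66948781282) (nat_lit 0) (nat_lit 26436039849) (nat_lit 10) (nat_lit 5) (nat_lit 12) (nat_lit 4) (nat_lit 10) (nat_lit 4) (nat_lit 505) (nat_lit 400) (nat_lit 295)) (XT.nd (nat_lit 78) (nat_lit 0) (nat_lit 0) (XT.lf (nat_lit 0) (nat_lit 61263616345) (nat_lit 152) (nat_lit 35405083117) (nat_lit 0) (nat_lit 45167707055) (nat_lit 10) (nat_lit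 5) (nat_lit 12) (nat_lit 4) (nat_lit 10) (nat_lit 4) (nat_lit 506) (nat_lit 400) (nat_lit 294)) (XT.lf (nat_lit 0) (nat_lit 80927151091) (nat_lit 152) (nat_lit 2303305661) (nat_lit 0) (nat_lit 64826867567) (nat_lit 10) (nat_lit 5) (nat_lit 12) (nat_lit 4) (nat_lit 10) (nat_lit 4) (nat_lit 507) (nat_lit 400) (nat_lit 293)))) (XT.nd (nat_lit 156) (nat_lit 0) (nat_lit 0) (XT.nd (nat_lit 78) (nat_lit 0) (nat_lit 0) (XT.lf (nat_lit 0) (nat_lit 33507824487) (nat_lit 76) (nat_lit 68580104928) (nat_lit 76) (nat_lit 52475655467) (nat_lit 9) (nat_lit 4) (nat_lit 10) (nat_lit 5) (nat_lit 10) (nat_lit 4) (nat_lit 508) (nat_lit 400) (nat_lit 292)) (XT.lf (nat_lit 0) (nat_lit 71171574372) (nat_lit 76) (nat_lit 53165248753) (nat_lit 76) (nat_lit 37056831734) (nat_lit 9) (nat_lit 4) (nat_lit 10) (nat_lit 5) (nat_lit 10) (nat_lit 4) (nat_lit 509) (nat_lit 400) (nat_lit 291))) (XT.nd (nat_lit 78) (nat_lit 0)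 (nat_lit 0) (XT.lf (nat_lit 0) (nat_lit 110701461899) (nat_lit 76) (nat_lit 36988193785) (nat_lit 76) (nat_lit 20875998138) (nat_lit 9) (nat_lit 4) (nat_lit 10) (nat_lit 5) (nat_lit 10) (nat_lit 4) (nat_lit 510) (nat_lit 400) (nat_lit 290)) (XT.lf (nat_lit 0) (nat_lit 152191605850) (nat_lit 76) (nat_lit 20010423225) (nat_lit 76) (nat_lit 3894628885) (nat_lit 9) (nat_lit 4) (nat_lit 10) (nat_lit 5) (nat_lit 10) (nat_lit 4) (nat_lit 511) (nat_lit 400) (nat_lit 289))))))) (XT.nd (nat_lit 1092) (nat_lit 76) (nat_lit 0) (XT.nd (nat_lit 546) (nat_lit 152) (nat_lit 0) (XT.nd (nat_lit 234) (nat_lit 76) (nat_lit 0) (XT.nd (nat_lit 78) (nat_lit 0) (nat_lit 0) (XT.lf (nat_lit 0) (nat_lit 11899605170) (nat_lit 76) (nat_lit 1768115237) (nat_lit 152) (nat_lit 170316715992) (nat_lit 7) (nat_lit 5) (nat_lit 8) (nat_lit 5) (nat_lit 9) (nat_lit 4) (nat_lit 512) (nat_lit 400) (nat_lit 288)) (XT.nd (nat_lit 78)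 (nat_lit 0) (nat_lit 0) (XT.lf (nat_lit 0) (nat_lit 32652400514) (nat_lit 152) (nat_lit 142279604023) (nat_lit 0) (nat_lit 17297652145) (nat_lit 7) (nat_lit 5) (nat_lit 9) (nat_lit 4) (nat_lit 7) (nat_lit 4) (nat_lit 513) (nat_lit 400) (nat_lit 287)) (XT.lf (nat_lit 0) (nat_lit 52607842041) (nat_lit 152) (nat_lit 111028086704) (nat_lit 0) (nat_lit 37250133019) (nat_lit 7) (nat_lit 5) (nat_lit 9) (nat_lit 4) (nat_lit 7) (nat_lit 4) (nat_lit 514) (nat_lit 400) (nat_lit 286)))) (XT.nd (nat_lit 156) (nat_lit 76) (nat_lit 0) (XT.nd (nat_lit 78) (nat_lit 0) (nat_lit 0) (XT.lf (nat_lit 0) (nat_lit 73553952710) (nat_lit 152) (nat_lit 78228265663) (nat_lit 0) (nat_lit 58193424018) (nat_lit 7) (nat_lit 5) (nat_lit 9) (nat_lit 4) (nat_lit 7) (nat_lit 4) (nat_lit 515) (nat_lit 400) (nat_lit 285)) (XT.lf (nat_lit 0) (nat_lit 95540604214) (nat_lit 152) (nat_lit 43802046088) (nat_lit 0) (nat_lit 80177390122)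 (nat_lit 7) (nat_lit 5) (nat_lit 9) (nat_lit 4) (nat_lit 7) (nat_lit 4) (nat_lit 516) (nat_lit 400) (nat_lit 284))) (XT.nd (nat_lit 78) (nat_lit 76) (nat_lit 0) (XT.lf (nat_lit 0) (nat_lit 118620145724) (nat_lit 152) (nat_lit 7667460791) (nat_lit 0) (nat_lit 103254374108) (nat_lit 7) (nat_lit 5) (nat_lit 9) (nat_lit 4) (nat_lit 7) (nat_lit 4) (nat_lit 517) (nat_lit 400) (nat_lit 283)) (XT.lf (nat_lit 0) (nat_lit 31262107635) (nat_lit 76) (nat_lit 112073510004) (nat_lit 76) (nat_lit 96705302651) (nat_lit 6) (nat_lit 4) (nat_lit 7) (nat_lit 5) (nat_lit 7) (nat_lit 4) (nat_lit 518) (nat_lit 400) (nat_lit 282))))) (XT.nd (nat_lit 234) (nat_lit 152) (nat_lit 0) (XT.nd (nat_lit 78) (nat_lit 0) (nat_lit 0) (XT.lf (nat_lit 0) (nat_lit 72392221445) (nat_lit 76) (nat_lit 97018460880) (nat_lit 76) (nat_lit 81647933777) (nat_lit 6) (nat_lit 4) (nat_lit 7) (nat_lit 5) (nat_lit 7) (nat_lit 4) (nat_lit 519)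 (nat_lit 400) (nat_lit 281)) (XT.nd (nat_lit 78) (nat_lit 0) (nat_lit 0) (XT.lf (nat_lit 0) (nat_lit 115567288600) (nat_lit 76) (nat_lit 81216465947) (nat_lit 76) (nat_lit 65843729559) (nat_lit 6) (nat_lit 4) (nat_lit 7) (nat_lit 5) (nat_lit 7) (nat_lit 4) (nat_lit 520) (nat_lit 400) (nat_lit 280)) (XT.lf (nat_lit 0) (nat_lit 160890106879) (nat_lit 76) (nat_lit 64629901407) (nat_lit 76) (nat_lit 49255060938) (nat_lit 6) (nat_lit 4) (nat_lit 7) (nat_lit 5) (nat_lit 7) (nat_lit 4) (nat_lit 521) (nat_lit 400) (nat_lit 279)))) (XT.nd (nat_lit 156) (nat_lit 152) (nat_lit 0) (XT.nd (nat_lit 78) (nat_lit 0) (nat_lit 0) (XT.lf (nat_lit 0) (nat_lit 208468587753) (nat_lit 76) (nat_lit 47219275440) (nat_lit 76) (nat_lit 31842431084) (nat_lit 6) (nat_lit 4) (nat_lit 7) (nat_lit 5) (nat_lit 7) (nat_lit 4) (nat_lit 522) (nat_lit 400) (nat_lit 278)) (XT.lf (nat_lit 0) (nat_lit 258416013320) (nat_lit 76) (nat_lit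 28943134175) (nat_lit 76) (nat_lit 13564381355) (nat_lit 6) (nat_lit 4) (nat_lit 7) (nat_lit 5) (nat_lit 7) (nat_lit 4) (nat_lit 523) (nat_lit 400) (nat_lit 277))) (XT.nd (nat_lit 78) (nat_lit 76) (nat_lit 0) (XT.lf (nat_lit 0) (nat_lit 5442648862) (nat_lit 152) (nat_lit 4223140234) (nat_lit 76) (nat_lit 305316483267) (nat_lit 5) (nat_lit 5) (nat_lit 7) (nat_lit 5) (nat_lit 6) (nat_lit 4) (nat_lit 524) (nat_lit 400) (nat_lit 276)) (XT.lf (nat_lit 0) (nat_lit 25694253059) (nat_lit 152) (nat_lit 292956635836) (nat_lit 0) (nat_lit 11044442167) (nat_lit 4) (nat_lit 5) (nat_lit 6) (nat_lit 4) (nat_lit 4) (nat_lit 4) (nat_lit 525) (nat_lit 400) (nat_lit 275)))))) (XT.nd (nat_lit 546) (nat_lit 76) (nat_lit 0) (XT.nd (nat_lit 234) (nat_lit 0) (nat_lit 0) (XT.nd (nat_lit 78) (nat_lit 0) (nat_lit 0) (XT.lf (nat_lit 0) (nat_lit 47185016036) (nat_lit 152) (nat_lit 265414062765) (nat_lit 0) (nat_lit 32533635047)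 (nat_lit 4) (nat_lit 5) (nat_lit 6) (nat_lit 4) (nat_lit 4) (nat_lit 4) (nat_lit 526) (nat_lit 400) (nat_lit 274)) (XT.nd (nat_lit 78) (nat_lit 0) (nat_lit 0) (XT.lf (nat_lit 0) (nat_lit 69745964414) (nat_lit 152) (nat_lit 236503130982) (nat_lit 0) (nat_lit 55093088093) (nat_lit 4) (nat_lit 5) (nat_lit 6) (nat_lit 4) (nat_lit 4) (nat_lit 4) (nat_lit 527) (nat_lit 400) (nat_lit 273)) (XT.lf (nat_lit 0) (nat_lit 93430814736) (nat_lit 152) (nat_lit 206155004934) (nat_lit 0) (nat_lit 78776514290) (nat_lit 4) (nat_lit 5) (nat_lit 6) (nat_lit 4) (nat_lit 4) (nat_lit 4) (nat_lit 528) (nat_lit 400) (nat_lit 272)))) (XT.nd (nat_lit 156) (nat_lit 0) (nat_lit 0) (XT.nd (nat_lit 78) (nat_lit 0) (nat_lit 0) (XT.lf (nat_lit 0) (nat_lit 118295959503) (nat_lit 152) (nat_lit 174297427178) (nat_lit 0) (nat_lit 103640302747) (nat_lit 4) (nat_lit 5) (nat_lit 6) (nat_lit 4) (nat_lit 4) (nat_lit 4) (nat_lit 529)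 (nat_lit 400) (nat_lit 271)) (XT.lf (nat_lit 0) (nat_lit 144400601440) (nat_lit 152) (nat_lit 140854546339) (nat_lit 0) (nat_lit 129743652961) (nat_lit 4) (nat_lit 5) (nat_lit 6) (nat_lit 4) (nat_lit 4) (nat_lit 4) (nat_lit 530) (nat_lit 400) (nat_lit 270))) (XT.nd (nat_lit 78) (nat_lit 0) (nat_lit 0) (XT.lf (nat_lit 0) (nat_lit 171806894458) (nat_lit 152) (nat_lit 105746736509) (nat_lit 0) (nat_lit 157148715766) (nat_lit 4) (nat_lit 5) (nat_lit 6) (nat_lit 4) (nat_lit 4) (nat_lit 4) (nat_lit 531) (nat_lit 400) (nat_lit 269)) (XT.lf (nat_lit 0) (nat_lit 200580091634) (nat_lit 152) (nat_lit 68890407667) (nat_lit 0) (nat_lit 185920741311) (nat_lit 4) (nat_lit 5) (nat_lit 6) (nat_lit 4) (nat_lit 4) (nat_lit 4) (nat_lit 532) (nat_lit 400) (nat_lit 268))))) (XT.nd (nat_lit 312) (nat_lit 0) (nat_lit 0) (XT.nd (nat_lit 156) (nat_lit 0) (nat_lit 0) (XT.nd (nat_lit 78) (nat_lit 76) (nat_lit 0) (XT.lf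 (nat_lit 0) (nat_lit 230788700581) (nat_lit 152) (nat_lit 30197806646) (nat_lit 0) (nat_lit 216128234419) (nat_lit 4) (nat_lit 5) (nat_lit 6) (nat_lit 4) (nat_lit 4) (nat_lit 4) (nat_lit 533) (nat_lit 400) (nat_lit 267)) (XT.lf (nat_lit 0) (nat_lit 10767829584) (nat_lit 76) (nat_lit 251904932970) (nat_lit 76) (nat_lit 237243404104) (nat_lit 3) (nat_lit 4) (nat_lit 4) (nat_lit 5) (nat_lit 4) (nat_lit 4) (nat_lit 534) (nat_lit 400) (nat_lit 266))) (XT.nd (nat_lit 78) (nat_lit 0) (nat_lit 0) (XT.lf (nat_lit 0) (nat_lit 54824015178) (nat_lit 76) (nat_lit 241835385065) (nat_lit 76) (nat_lit 227172844100) (nat_lit 3) (nat_lit 4) (nat_lit 4) (nat_lit 5) (nat_lit 4) (nat_lit 4) (nat_lit 535) (nat_lit 400) (nat_lit 265)) (XT.lf (nat_lit 0) (nat_lit 101077169951) (nat_lit 76) (nat_lit 231265302865) (nat_lit 76) (nat_lit 216601797996) (nat_lit 3) (nat_lit 4) (nat_lit 4) (nat_lit 5) (nat_lit 4) (nat_lit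 4) (nat_lit 536) (nat_lit 400) (nat_lit 264)))) (XT.nd (nat_lit 156) (nat_lit 0) (nat_lit 0) (XT.nd (nat_lit 78) (nat_lit 0) (nat_lit 0) (XT.lf (nat_lit 0) (nat_lit 149637420460) (nat_lit 76) (nat_lit 220169519509) (nat_lit 76) (nat_lit 205505096636) (nat_lit 3) (nat_lit 4) (nat_lit 4) (nat_lit 5) (nat_lit 4) (nat_lit 4) (nat_lit 537) (nat_lit 400) (nat_lit 263)) (XT.lf (nat_lit 0) (nat_lit 200620386351) (nat_lit 76) (nat_lit 208521616464) (nat_lit 76) (nat_lit 193856319302) (nat_lit 3) (nat_lit 4) (nat_lit 4) (nat_lit 5) (nat_lit 4) (nat_lit 4) (nat_lit 538) (nat_lit 400) (nat_lit 262))) (XT.nd (nat_lit 78) (nat_lit 0) (nat_lit 0) (XT.lf (nat_lit 0) (nat_lit 254147455637) (nat_lit 76) (nat_lit 196293860628) (nat_lit 76) (nat_lit 181627730810) (nat_lit 3) (nat_lit 4) (nat_lit 4) (nat_lit 5) (nat_lit 4) (nat_lit 4) (nat_lit 539) (nat_lit 400) (nat_lit 261)) (XT.lf (nat_lit 0) (nat_lit 310346073721)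 (nat_lit 76) (nat_lit 183457138296) (nat_lit 76) (nat_lit 168790215472) (nat_lit 3) (nat_lit 4) (nat_lit 4) (nat_lit 5) (nat_lit 4) (nat_lit 4) (nat_lit 540) (nat_lit 400) (nat_lit 260))))))))
noncomputable def xc96 : XT := (XT.nd (nat_lit 53430) (nat_lit 0) (nat_lit 3496) (XT.nd (nat_lit 52338) (nat_lit 0) (nat_lit 7448) (XT.nd (nat_lit 51792) (nat_lit 0) (nat_lit 12312) (XT.nd (nat_lit 234) (nat_lit 0) (nat_lit 0) (XT.nd (nat_lit 78) (nat_lit 0) (nat_lit 0) (XT.lf (nat_lit 0) (nat_lit 369350046836) (nat_lit 76) (nat_lit 169980885844) (nat_lit 76) (nat_lit 155313207776) (nat_lit 3) (nat_lit 4) (nat_lit 4) (nat_lit 5) (nat_lit 4) (nat_lit 4) (nat_lit 541) (nat_lit 400) (nat_lit 259)) (XT.nd (nat_lit 78) (nat_lit 0) (nat_lit 0) (XT.lf (nat_lit 0) (nat_lit 431299860634) (nat_lit 76) (nat_lit 155833016957) (nat_lit 76) (nat_lit 141164619609) (nat_lit 3) (nat_lit 4) (nat_lit 4) (nat_lit 5) (nat_lit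 4) (nat_lit 4) (nat_lit 542) (nat_lit 400) (nat_lit 258)) (XT.lf (nat_lit 0) (nat_lit 496343014671) (nat_lit 76) (nat_lit 140979846233) (nat_lit 76) (nat_lit 126310763856) (nat_lit 3) (nat_lit 4) (nat_lit 4) (nat_lit 5) (nat_lit 4) (nat_lit 4) (nat_lit 543) (nat_lit 400) (nat_lit 257)))) (XT.nd (nat_lit 51402) (nat_lit 0) (nat_lit 13528) (XT.nd (nat_lit 51324) (nat_lit 0) (nat_lit 13756) (XT.lf (nat_lit 0) (nat_lit 564634373598) (nat_lit 76) (nat_lit 125386008978) (nat_lit 76) (nat_lit 110716274194) (nat_lit 3) (nat_lit 4) (nat_lit 4) (nat_lit 5) (nat_lit 4) (nat_lit 4) (nat_lit 544) (nat_lit 400) (nat_lit 256)) (XT.lf (nat_lit 0) (nat_lit 1536496098) (nat_lit 0) (nat_lit 1536496098) (nat_lit 76) (nat_lit 153342237) (nat_lit 184) (nat_lit 5) (nat_lit 184) (nat_lit 3) (nat_lit 185) (nat_lit 0) (nat_lit 401) (nat_lit 401) (nat_lit 398))) (XT.nd (nat_lit 78) (nat_lit 0) (nat_lit 0) (XT.lf (nat_lit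 0) (nat_lit 2575683725) (nat_lit 228) (nat_lit 197198889) (nat_lit 228) (nat_lit 3695328956) (nat_lit 181) (nat_lit 3) (nat_lit 184) (nat_lit 3) (nat_lit 184) (nat_lit 5) (nat_lit 402) (nat_lit 401) (nat_lit 397)) (XT.lf (nat_lit 76) (nat_lit 3143124076) (nat_lit 0) (nat_lit 2313458311) (nat_lit 228) (nat_lit 1034591058) (nat_lit 182) (nat_lit 5) (nat_lit 181) (nat_lit 3) (nat_lit 184) (nat_lit 5) (nat_lit 403) (nat_lit 401) (nat_lit 396))))) (XT.nd (nat_lit 234) (nat_lit 684) (nat_lit 0) (XT.nd (nat_lit 78) (nat_lit 304) (nat_lit 0) (XT.lf (nat_lit 76) (nat_lit 10412686) (nat_lit 0) (nat_lit 1716369634) (nat_lit 304) (nat_lit 4795909902) (nat_lit 179) (nat_lit 5) (nat_lit 178) (nat_lit 5) (nat_lit 182) (nat_lit 5) (nat_lit 404) (nat_lit 401) (nat_lit 395)) (XT.nd (nat_lit 78) (nat_lit 304) (nat_lit 0) (XT.lf (nat_lit 76) (nat_lit 3535787769) (nat_lit 0) (nat_lit 939028143) (nat_lit 304) (nat_lit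 2086066708) (nat_lit 179) (nat_lit 5) (nat_lit 178) (nat_lit 5) (nat_lit 182) (nat_lit 5) (nat_lit 405) (nat_lit 401) (nat_lit 394)) (XT.lf (nat_lit 76) (nat_lit 541299075) (nat_lit 0) (nat_lit 34488937) (nat_lit 380) (nat_lit 6032662125) (nat_lit 175) (nat_lit 5) (nat_lit 174) (nat_lit 5) (nat_lit 179) (nat_lit 5) (nat_lit 406) (nat_lit 401) (nat_lit 393)))) (XT.nd (nat_lit 156) (nat_lit 456) (nat_lit 0) (XT.nd (nat_lit 78) (nat_lit 304) (nat_lit 0) (XT.lf (nat_lit 0) (nat_lit 3206768635) (nat_lit 304) (nat_lit 2422249993) (nat_lit 76) (nat_lit 1032457100) (nat_lit 175) (nat_lit 5) (nat_lit 179) (nat_lit 5) (nat_lit 176) (nat_lit 5) (nat_lit 407) (nat_lit 401) (nat_lit 392)) (XT.lf (nat_lit 0) (nat_lit 1344383224) (nat_lit 304) (nat_lit 4493877034) (nat_lit 380) (nat_lit 885536169) (nat_lit 171) (nat_lit 5) (nat_lit 175) (nat_lit 5) (nat_lit 176) (nat_lit 5) (nat_lit 408) (nat_lit 401) (nat_lit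 391))) (XT.nd (nat_lit 78) (nat_lit 380) (nat_lit 0) (XT.lf (nat_lit 0) (nat_lit 1646387888) (nat_lit 380) (nat_lit 1539041792) (nat_lit 76) (nat_lit 3607857624) (nat_lit 170) (nat_lit 5) (nat_lit 175) (nat_lit 5) (nat_lit 171) (nat_lit 5) (nat_lit 409) (nat_lit 401) (nat_lit 390)) (XT.lf (nat_lit 0) (nat_lit 2456169158) (nat_lit 380) (nat_lit 1715039637) (nat_lit 456) (nat_lit 2699594469) (nat_lit 165) (nat_lit 5) (nat_lit 170) (nat_lit 5) (nat_lit 171) (nat_lit 5) (nat_lit 410) (nat_lit 401) (nat_lit 389)))))) (XT.nd (nat_lit 546) (nat_lit 2432) (nat_lit 0) (XT.nd (nat_lit 234) (nat_lit 1368) (nat_lit 0) (XT.nd (nat_lit 78) (nat_lit 1064) (nat_lit 0) (XT.lf (nat_lit 0) (nat_lit 6604931380) (nat_lit 380) (nat_lit 106336470) (nat_lit 456) (nat_lit 246552943) (nat_lit 165) (nat_lit 5) (nat_lit 170) (nat_lit 5) (nat_lit 171) (nat_lit 5) (nat_lit 411) (nat_lit 401) (nat_lit 388)) (XT.nd (nat_lit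 78) (nat_lit 532) (nat_lit 0) (XT.lf (nat_lit 0) (nat_lit 2209578400) (nat_lit 532) (nat_lit 3176777032) (nat_lit 76) (nat_lit 1663334906) (nat_lit 158) (nat_lit 5) (nat_lit 165) (nat_lit 5) (nat_lit 159) (nat_lit 5) (nat_lit 412) (nat_lit 401) (nat_lit 387)) (XT.lf (nat_lit 0) (nat_lit 1101074820) (nat_lit 532) (nat_lit 3576680878) (nat_lit 608) (nat_lit 2473384639) (nat_lit 151) (nat_lit 5) (nat_lit 158) (nat_lit 5) (nat_lit 159) (nat_lit 5) (nat_lit 413) (nat_lit 401) (nat_lit 386)))) (XT.nd (nat_lit 156) (nat_lit 684) (nat_lit 0) (XT.nd (nat_lit 78) (nat_lit 684) (nat_lit 0) (XT.lf (nat_lit 0) (nat_lit 5600111733) (nat_lit 532) (nat_lit 1600009699) (nat_lit 608) (nat_lit 61064646) (nat_lit 151) (nat_lit 5) (nat_lit 158) (nat_lit 5) (nat_lit 159) (nat_lit 5) (nat_lit 414) (nat_lit 401) (nat_lit 385)) (XT.lf (nat_lit 0) (nat_lit 2327949330) (nat_lit 684) (nat_lit 4488133238) (nat_lit 76)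 (nat_lit 562018668) (nat_lit 142) (nat_lit 5) (nat_lit 151) (nat_lit 5) (nat_lit 143) (nat_lit 5) (nat_lit 415) (nat_lit 401) (nat_lit 384))) (XT.nd (nat_lit 78) (nat_lit 0) (nat_lit 0) (XT.lf (nat_lit 0) (nat_lit 95669848) (nat_lit 684) (nat_lit 4680199983) (nat_lit 760) (nat_lit 2727920614) (nat_lit 133) (nat_lit 5) (nat_lit 142) (nat_lit 5) (nat_lit 143) (nat_lit 5) (nat_lit 416) (nat_lit 401) (nat_lit 383)) (XT.lf (nat_lit 0) (nat_lit 4959722387) (nat_lit 684) (nat_lit 2351496526) (nat_lit 760) (nat_lit 326344763) (nat_lit 133) (nat_lit 5) (nat_lit 142) (nat_lit 5) (nat_lit 143) (nat_lit 5) (nat_lit 417) (nat_lit 401) (nat_lit 382))))) (XT.nd (nat_lit 234) (nat_lit 1216) (nat_lit 0) (XT.nd (nat_lit 78) (nat_lit 380) (nat_lit 0) (XT.lf (nat_lit 0) (nat_lit 2054930105) (nat_lit 836) (nat_lit 5560214657) (nat_lit 76) (nat_lit 164719295) (nat_lit 122) (nat_lit 5) (nat_lit 133) (nat_lit 5) (nat_lit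 123) (nat_lit 5) (nat_lit 418) (nat_lit 401) (nat_lit 381)) (XT.nd (nat_lit 78) (nat_lit 380) (nat_lit 0) (XT.lf (nat_lit 0) (nat_lit 4525037869) (nat_lit 836) (nat_lit 623650159) (nat_lit 76) (nat_lit 2781331329) (nat_lit 122) (nat_lit 5) (nat_lit 133) (nat_lit 5) (nat_lit 123) (nat_lit 5) (nat_lit 419) (nat_lit 401) (nat_lit 380)) (XT.lf (nat_lit 0) (nat_lit 4605254746) (nat_lit 380) (nat_lit 2486338507) (nat_lit 456) (nat_lit 997484170) (nat_lit 117) (nat_lit 5) (nat_lit 122) (nat_lit 5) (nat_lit 123) (nat_lit 5) (nat_lit 420) (nat_lit 401) (nat_lit 379)))) (XT.nd (nat_lit 156) (nat_lit 760) (nat_lit 0) (XT.nd (nat_lit 78) (nat_lit 0) (nat_lit 0) (XT.lf (nat_lit 0) (nat_lit 1428447527) (nat_lit 456) (nat_lit 6472158503) (nat_lit 76) (nat_lit 356973804) (nat_lit 111) (nat_lit 5) (nat_lit 117) (nat_lit 5) (nat_lit 112) (nat_lit 5) (nat_lit 421) (nat_lit 401) (nat_lit 378)) (XT.lf (nat_lit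 0) (nat_lit 3948392704) (nat_lit 456) (nat_lit 1157028350) (nat_lit 76) (nat_lit 3327993134) (nat_lit 111) (nat_lit 5) (nat_lit 117) (nat_lit 5) (nat_lit 112) (nat_lit 5) (nat_lit 422) (nat_lit 401) (nat_lit 377))) (XT.nd (nat_lit 78) (nat_lit 380) (nat_lit 0) (XT.lf (nat_lit 0) (nat_lit 4465378369) (nat_lit 380) (nat_lit 2108685095) (nat_lit 456) (nat_lit 2045025026) (nat_lit 106) (nat_lit 5) (nat_lit 111) (nat_lit 5) (nat_lit 112) (nat_lit 5) (nat_lit 423) (nat_lit 401) (nat_lit 376)) (XT.lf (nat_lit 0) (nat_lit 472404253) (nat_lit 380) (nat_lit 7298771319) (nat_lit 76) (nat_lit 1043899827) (nat_lit 101) (nat_lit 5) (nat_lit 106) (nat_lit 5) (nat_lit 102) (nat_lit 5) (nat_lit 424) (nat_lit 401) (nat_lit 375))))))) (XT.nd (nat_lit 1092) (nat_lit 1596) (nat_lit 0) (XT.nd (nat_lit 546) (nat_lit 1140) (nat_lit 0) (XT.nd (nat_lit 234) (nat_lit 684) (nat_lit 0) (XT.nd (nat_lit 78) (nat_lit 532)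 (nat_lit 0) (XT.lf (nat_lit 0) (nat_lit 3066734803) (nat_lit 380) (nat_lit 1577736966) (nat_lit 76) (nat_lit 4373755760) (nat_lit 101) (nat_lit 5) (nat_lit 106) (nat_lit 5) (nat_lit 102) (nat_lit 5) (nat_lit 425) (nat_lit 401) (nat_lit 374)) (XT.nd (nat_lit 78) (nat_lit 228) (nat_lit 0) (XT.lf (nat_lit 0) (nat_lit 4472327523) (nat_lit 304) (nat_lit 1306079122) (nat_lit 380) (nat_lit 3453777886) (nat_lit 97) (nat_lit 5) (nat_lit 101) (nat_lit 5) (nat_lit 102) (nat_lit 5) (nat_lit 426) (nat_lit 401) (nat_lit 373)) (XT.lf (nat_lit 0) (nat_lit 1329676516) (nat_lit 228) (nat_lit 7298122084) (nat_lit 304) (nat_lit 828961104) (nat_lit 94) (nat_lit 5) (nat_lit 97) (nat_lit 5) (nat_lit 98) (nat_lit 5) (nat_lit 427) (nat_lit 401) (nat_lit 372)))) (XT.nd (nat_lit 156) (nat_lit 304) (nat_lit 0) (XT.nd (nat_lit 78) (nat_lit 304) (nat_lit 0) (XT.lf (nat_lit 0) (nat_lit 1889585513) (nat_lit 304) (nat_lit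 1955682336) (nat_lit 76) (nat_lit 5844607635) (nat_lit 93) (nat_lit 5) (nat_lit 97) (nat_lit 5) (nat_lit 94) (nat_lit 5) (nat_lit 428) (nat_lit 401) (nat_lit 371)) (XT.lf (nat_lit 0) (nat_lit 4558241282) (nat_lit 304) (nat_lit 153721830) (nat_lit 380) (nat_lit 5222239804) (nat_lit 89) (nat_lit 5) (nat_lit 93) (nat_lit 5) (nat_lit 94) (nat_lit 5) (nat_lit 429) (nat_lit 401) (nat_lit 370))) (XT.nd (nat_lit 78) (nat_lit 76) (nat_lit 0) (XT.lf (nat_lit 0) (nat_lit 1154884417) (nat_lit 228) (nat_lit 6556695923) (nat_lit 304) (nat_lit 2477382676) (nat_lit 86) (nat_lit 5) (nat_lit 89) (nat_lit 5) (nat_lit 90) (nat_lit 5) (nat_lit 430) (nat_lit 401) (nat_lit 369)) (XT.lf (nat_lit 0) (nat_lit 413905511) (nat_lit 304) (nat_lit 2364229360) (nat_lit 76) (nat_lit 7676923484) (nat_lit 85) (nat_lit 5) (nat_lit 89) (nat_lit 5) (nat_lit 86) (nat_lit 5) (nat_lit 431) (nat_lit 401) (nat_lit 368))))) (XT.nd (nat_lit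 234) (nat_lit 684) (nat_lit 0) (XT.nd (nat_lit 78) (nat_lit 228) (nat_lit 0) (XT.lf (nat_lit 0) (nat_lit 3389687211) (nat_lit 304) (nat_lit 6101026573) (nat_lit 76) (nat_lit 1240574058) (nat_lit 82) (nat_lit 5) (nat_lit 86) (nat_lit 5) (nat_lit 83) (nat_lit 5) (nat_lit 432) (nat_lit 401) (nat_lit 367)) (XT.nd (nat_lit 78) (nat_lit 0) (nat_lit 0) (XT.lf (nat_lit 0) (nat_lit 923047272) (nat_lit 228) (nat_lit 5623827912) (nat_lit 304) (nat_lit 4472841133) (nat_lit 79) (nat_lit 5) (nat_lit 82) (nat_lit 5) (nat_lit 83) (nat_lit 5) (nat_lit 433) (nat_lit 401) (nat_lit 366)) (XT.lf (nat_lit 0) (nat_lit 8414184961) (nat_lit 228) (nat_lit 1484769884) (nat_lit 304) (nat_lit 1421777256) (nat_lit 79) (nat_lit 5) (nat_lit 82) (nat_lit 5) (nat_lit 83) (nat_lit 5) (nat_lit 434) (nat_lit 401) (nat_lit 365)))) (XT.nd (nat_lit 156) (nat_lit 228) (nat_lit 0) (XT.nd (nat_lit 78) (nat_lit 152) (nat_lit 0) (XT.lf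 (nat_lit 0) (nat_lit 1779420762) (nat_lit 304) (nat_lit 7009604110) (nat_lit 76) (nat_lit 2843668150) (nat_lit 75) (nat_lit 5) (nat_lit 79) (nat_lit 5) (nat_lit 76) (nat_lit 5) (nat_lit 435) (nat_lit 401) (nat_lit 364)) (XT.lf (nat_lit 0) (nat_lit 546668402) (nat_lit 152) (nat_lit 4566109655) (nat_lit 228) (nat_lit 6845329637) (nat_lit 73) (nat_lit 5) (nat_lit 75) (nat_lit 5) (nat_lit 76) (nat_lit 5) (nat_lit 436) (nat_lit 401) (nat_lit 363))) (XT.nd (nat_lit 78) (nat_lit 228) (nat_lit 0) (XT.lf (nat_lit 0) (nat_lit 8630941690) (nat_lit 152) (nat_lit 39093311) (nat_lit 228) (nat_lit 3626910905) (nat_lit 73) (nat_lit 5) (nat_lit 75) (nat_lit 5) (nat_lit 76) (nat_lit 5) (nat_lit 437) (nat_lit 401) (nat_lit 362)) (XT.lf (nat_lit 0) (nat_lit 4444135833) (nat_lit 228) (nat_lit 8044984504) (nat_lit 304) (nat_lit 159421125) (nat_lit 70) (nat_lit 5) (nat_lit 73) (nat_lit 5) (nat_lit 74) (nat_lit 5)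 (nat_lit 438) (nat_lit 401) (nat_lit 361)))))) (XT.nd (nat_lit 546) (nat_lit 836) (nat_lit 0) (XT.nd (nat_lit 234) (nat_lit 380) (nat_lit 0) (XT.nd (nat_lit 78) (nat_lit 304) (nat_lit 0) (XT.lf (nat_lit 0) (nat_lit 3375189062) (nat_lit 304) (nat_lit 75249861) (nat_lit 76) (nat_lit 9564313863) (nat_lit 69) (nat_lit 5) (nat_lit 73) (nat_lit 5) (nat_lit 70) (nat_lit 5) (nat_lit 439) (nat_lit 401) (nat_lit 360)) (XT.nd (nat_lit 78) (nat_lit 152) (nat_lit 0) (XT.lf (nat_lit 0) (nat_lit 7183610976) (nat_lit 228) (nat_lit 4771209156) (nat_lit 76) (nat_lit 1439213774) (nat_lit 67) (nat_lit 5) (nat_lit 70) (nat_lit 5) (nat_lit 68) (nat_lit 5) (nat_lit 440) (nat_lit 401) (nat_lit 359)) (XT.lf (nat_lit 0) (nat_lit 3947818163) (nat_lit 152) (nat_lit 7299174970) (nat_lit 228) (nat_lit 2542070272) (nat_lit 65) (nat_lit 5) (nat_lit 67) (nat_lit 5) (nat_lit 68) (nat_lit 5) (nat_lit 441) (nat_lit 401) (nat_lit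 358)))) (XT.nd (nat_lit 156) (nat_lit 152) (nat_lit 0) (XT.nd (nat_lit 78) (nat_lit 152) (nat_lit 0) (XT.lf (nat_lit 0) (nat_lit 1295323882) (nat_lit 228) (nat_lit 1041679208) (nat_lit 76) (nat_lit 11864451994) (nat_lit 64) (nat_lit 5) (nat_lit 67) (nat_lit 5) (nat_lit 65) (nat_lit 5) (nat_lit 442) (nat_lit 401) (nat_lit 357)) (XT.lf (nat_lit 0) (nat_lit 5364535620) (nat_lit 228) (nat_lit 6336898726) (nat_lit 76) (nat_lit 2924689174) (nat_lit 62) (nat_lit 5) (nat_lit 65) (nat_lit 5) (nat_lit 63) (nat_lit 5) (nat_lit 443) (nat_lit 401) (nat_lit 356))) (XT.nd (nat_lit 78) (nat_lit 0) (nat_lit 0) (XT.lf (nat_lit 0) (nat_lit 3024894669) (nat_lit 152) (nat_lit 6664474775) (nat_lit 228) (nat_lit 5380057140) (nat_lit 60) (nat_lit 5) (nat_lit 62) (nat_lit 5) (nat_lit 63) (nat_lit 5) (nat_lit 444) (nat_lit 401) (nat_lit 355)) (XT.lf (nat_lit 0) (nat_lit 12991136209) (nat_lit 152) (nat_lit 1296456841)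 (nat_lit 228) (nat_lit 1244453184) (nat_lit 60) (nat_lit 5) (nat_lit 62) (nat_lit 5) (nat_lit 63) (nat_lit 5) (nat_lit 445) (nat_lit 401) (nat_lit 354))))) (XT.nd (nat_lit 234) (nat_lit 456) (nat_lit 0) (XT.nd (nat_lit 78) (nat_lit 152) (nat_lit 0) (XT.lf (nat_lit 0) (nat_lit 3138053772) (nat_lit 228) (nat_lit 8532001072) (nat_lit 76) (nat_lit 4338367873) (nat_lit 57) (nat_lit 5) (nat_lit 60) (nat_lit 5) (nat_lit 58) (nat_lit 5) (nat_lit 446) (nat_lit 401) (nat_lit 353)) (XT.nd (nat_lit 78) (nat_lit 0) (nat_lit 0) (XT.lf (nat_lit 0) (nat_lit 1500182887) (nat_lit 152) (nat_lit 6238078876) (nat_lit 228) (nat_lit 8767323979) (nat_lit 55) (nat_lit 5) (nat_lit 57) (nat_lit 5) (nat_lit 58) (nat_lit 5) (nat_lit 447) (nat_lit 401) (nat_lit 352)) (XT.lf (nat_lit 0) (nat_lit 12249667121) (nat_lit 152) (nat_lit 416320919) (nat_lit 228) (nat_lit 4356750754) (nat_lit 55) (nat_lit 5) (nat_lit 57) (nat_lit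 5) (nat_lit 58) (nat_lit 5) (nat_lit 448) (nat_lit 401) (nat_lit 351)))) (XT.nd (nat_lit 156) (nat_lit 228) (nat_lit 0) (XT.nd (nat_lit 78) (nat_lit 0) (nat_lit 0) (XT.lf (nat_lit 0) (nat_lit 405110975) (nat_lit 228) (nat_lit 11570030304) (nat_lit 76) (nat_lit 5583423606) (nat_lit 52) (nat_lit 5) (nat_lit 55) (nat_lit 5) (nat_lit 53) (nat_lit 5) (nat_lit 449) (nat_lit 401) (nat_lit 350)) (XT.lf (nat_lit 0) (nat_lit 5302605105) (nat_lit 228) (nat_lit 821443615) (nat_lit 76) (nat_lit 11991370998) (nat_lit 52) (nat_lit 5) (nat_lit 55) (nat_lit 5) (nat_lit 53) (nat_lit 5) (nat_lit 450) (nat_lit 401) (nat_lit 349))) (XT.nd (nat_lit 78) (nat_lit 76) (nat_lit 0) (XT.lf (nat_lit 0) (nat_lit 10572216678) (nat_lit 228) (nat_lit 7963256881) (nat_lit 76) (nat_lit 158287582) (nat_lit 50) (nat_lit 5) (nat_lit 53) (nat_lit 5) (nat_lit 51) (nat_lit 4) (nat_lit 451) (nat_lit 401) (nat_lit 348)) (XT.lf (nat_lit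 0) (nat_lit 3525129664) (nat_lit 76) (nat_lit 12707261001) (nat_lit 152) (nat_lit 3062280573) (nat_lit 49) (nat_lit 5) (nat_lit 50) (nat_lit 5) (nat_lit 51) (nat_lit 4) (nat_lit 452) (nat_lit 401) (nat_lit 347))))))))
noncomputable def xc97 : XT := (XT.nd (nat_lit 2184) (nat_lit 1140) (nat_lit 0) (XT.nd (nat_lit 1092) (nat_lit 760) (nat_lit 0) (XT.nd (nat_lit 546) (nat_lit 532) (nat_lit 0) (XT.nd (nat_lit 234) (nat_lit 380) (nat_lit 0) (XT.nd (nat_lit 78) (nat_lit 152) (nat_lit 0) (XT.lf (nat_lit 0) (nat_lit 2272696201) (nat_lit 152) (nat_lit 4167328413) (nat_lit 76) (nat_lit 13479112893) (nat_lit 48) (nat_lit 5) (nat_lit 50) (nat_lit 5) (nat_lit 49) (nat_lit 5) (nat_lit 453) (nat_lit 401) (nat_lit 346)) (XT.nd (nat_lit 78) (nat_lit 0) (nat_lit 0) (XT.lf (nat_lit 0) (nat_lit 7863129072) (nat_lit 228) (nat_lit 12418726217) (nat_lit 76) (nat_lit 285885658) (nat_lit 46) (nat_lit 5) (nat_lit 49)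 (nat_lit 5) (nat_lit 47) (nat_lit 4) (nat_lit 454) (nat_lit 401) (nat_lit 345)) (XT.lf (nat_lit 0) (nat_lit 13870420796) (nat_lit 228) (nat_lit 198364393) (nat_lit 76) (nat_lit 7173127196) (nat_lit 46) (nat_lit 5) (nat_lit 49) (nat_lit 5) (nat_lit 47) (nat_lit 4) (nat_lit 455) (nat_lit 401) (nat_lit 344)))) (XT.nd (nat_lit 156) (nat_lit 76) (nat_lit 0) (XT.nd (nat_lit 78) (nat_lit 228) (nat_lit 0) (XT.lf (nat_lit 0) (nat_lit 12979642541) (nat_lit 76) (nat_lit 7363016810) (nat_lit 152) (nat_lit 1598908396) (nat_lit 45) (nat_lit 5) (nat_lit 46) (nat_lit 5) (nat_lit 47) (nat_lit 4) (nat_lit 456) (nat_lit 401) (nat_lit 343)) (XT.lf (nat_lit 0) (nat_lit 4141270096) (nat_lit 152) (nat_lit 208357261) (nat_lit 228) (nat_lit 18321591865) (nat_lit 42) (nat_lit 5) (nat_lit 44) (nat_lit 5) (nat_lit 45) (nat_lit 5) (nat_lit 457) (nat_lit 401) (nat_lit 342))) (XT.nd (nat_lit 78) (nat_lit 76) (nat_lit 0)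 (XT.lf (nat_lit 0) (nat_lit 10772497078) (nat_lit 228) (nat_lit 5430960736) (nat_lit 76) (nat_lit 7221056685) (nat_lit 42) (nat_lit 5) (nat_lit 45) (nat_lit 5) (nat_lit 43) (nat_lit 4) (nat_lit 458) (nat_lit 401) (nat_lit 341)) (XT.lf (nat_lit 0) (nat_lit 8526537170) (nat_lit 76) (nat_lit 9090647067) (nat_lit 152) (nat_lit 6593260276) (nat_lit 41) (nat_lit 5) (nat_lit 42) (nat_lit 5) (nat_lit 43) (nat_lit 4) (nat_lit 459) (nat_lit 401) (nat_lit 340))))) (XT.nd (nat_lit 234) (nat_lit 228) (nat_lit 0) (XT.nd (nat_lit 78) (nat_lit 304) (nat_lit 0) (XT.lf (nat_lit 0) (nat_lit 23305597349) (nat_lit 76) (nat_lit 1555314627) (nat_lit 152) (nat_lit 171922238) (nat_lit 41) (nat_lit 5) (nat_lit 42) (nat_lit 5) (nat_lit 43) (nat_lit 4) (nat_lit 460) (nat_lit 401) (nat_lit 339)) (XT.nd (nat_lit 78) (nat_lit 76) (nat_lit 0) (XT.lf (nat_lit 0) (nat_lit 6635826821) (nat_lit 228) (nat_lit 12802738688) (nat_lit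 76) (nat_lit 6438869851) (nat_lit 38) (nat_lit 5) (nat_lit 41) (nat_lit 5) (nat_lit 39) (nat_lit 4) (nat_lit 461) (nat_lit 401) (nat_lit 338)) (XT.lf (nat_lit 0) (nat_lit 1882219900) (nat_lit 76) (nat_lit 11946743361) (nat_lit 152) (nat_lit 12932626522) (nat_lit 37) (nat_lit 5) (nat_lit 38) (nat_lit 5) (nat_lit 39) (nat_lit 4) (nat_lit 462) (nat_lit 401) (nat_lit 337)))) (XT.nd (nat_lit 156) (nat_lit 76) (nat_lit 0) (XT.nd (nat_lit 78) (nat_lit 152) (nat_lit 0) (XT.lf (nat_lit 0) (nat_lit 17683809942) (nat_lit 76) (nat_lit 3881571744) (nat_lit 152) (nat_lit 6115391861) (nat_lit 37) (nat_lit 5) (nat_lit 38) (nat_lit 5) (nat_lit 39) (nat_lit 4) (nat_lit 463) (nat_lit 401) (nat_lit 336)) (XT.lf (nat_lit 0) (nat_lit 1139672238) (nat_lit 152) (nat_lit 22978457732) (nat_lit 76) (nat_lit 4520458123) (nat_lit 35) (nat_lit 5) (nat_lit 37) (nat_lit 5) (nat_lit 36) (nat_lit 4) (nat_lit 464) (nat_lit 401)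 (nat_lit 335))) (XT.nd (nat_lit 78) (nat_lit 76) (nat_lit 0) (XT.lf (nat_lit 0) (nat_lit 8755720748) (nat_lit 152) (nat_lit 7415719373) (nat_lit 76) (nat_lit 13457655691) (nat_lit 35) (nat_lit 5) (nat_lit 37) (nat_lit 5) (nat_lit 36) (nat_lit 4) (nat_lit 465) (nat_lit 401) (nat_lit 334)) (XT.lf (nat_lit 0) (nat_lit 9160853677) (nat_lit 76) (nat_lit 7704303907) (nat_lit 152) (nat_lit 13798344406) (nat_lit 34) (nat_lit 5) (nat_lit 35) (nat_lit 5) (nat_lit 36) (nat_lit 4) (nat_lit 466) (nat_lit 401) (nat_lit 333)))))) (XT.nd (nat_lit 546) (nat_lit 380) (nat_lit 0) (XT.nd (nat_lit 234) (nat_lit 228) (nat_lit 0) (XT.nd (nat_lit 78) (nat_lit 152) (nat_lit 0) (XT.lf (nat_lit 0) (nat_lit 25495942190) (nat_lit 152) (nat_lit 4997873463) (nat_lit 0) (nat_lit 1250021280) (nat_lit 34) (nat_lit 5) (nat_lit 36) (nat_lit 4) (nat_lit 34) (nat_lit 4) (nat_lit 467) (nat_lit 401) (nat_lit 332)) (XT.nd (nat_lit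 78) (nat_lit 0) (nat_lit 0) (XT.lf (nat_lit 0) (nat_lit 1924546518) (nat_lit 152) (nat_lit 20341868195) (nat_lit 76) (nat_lit 10595552317) (nat_lit 32) (nat_lit 5) (nat_lit 34) (nat_lit 5) (nat_lit 33) (nat_lit 4) (nat_lit 468) (nat_lit 401) (nat_lit 331)) (XT.lf (nat_lit 0) (nat_lit 10352883622) (nat_lit 152) (nat_lit 3103079657) (nat_lit 76) (nat_lit 20572058875) (nat_lit 32) (nat_lit 5) (nat_lit 34) (nat_lit 5) (nat_lit 33) (nat_lit 4) (nat_lit 469) (nat_lit 401) (nat_lit 330)))) (XT.nd (nat_lit 156) (nat_lit 152) (nat_lit 0) (XT.nd (nat_lit 78) (nat_lit 0) (nat_lit 0) (XT.lf (nat_lit 0) (nat_lit 15439444418) (nat_lit 76) (nat_lit 3976831911) (nat_lit 152) (nat_lit 15825423621) (nat_lit 31) (nat_lit 5) (nat_lit 32) (nat_lit 5) (nat_lit 33) (nat_lit 4) (nat_lit 470) (nat_lit 401) (nat_lit 329)) (XT.lf (nat_lit 0) (nat_lit 29052261147) (nat_lit 152) (nat_lit 1643256277) (nat_lit 0) (nat_lit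 5814574856) (nat_lit 31) (nat_lit 5) (nat_lit 33) (nat_lit 4) (nat_lit 31) (nat_lit 4) (nat_lit 471) (nat_lit 401) (nat_lit 328))) (XT.nd (nat_lit 78) (nat_lit 0) (nat_lit 0) (XT.lf (nat_lit 0) (nat_lit 1609215828) (nat_lit 152) (nat_lit 19971128125) (nat_lit 76) (nat_lit 16244345891) (nat_lit 29) (nat_lit 5) (nat_lit 31) (nat_lit 5) (nat_lit 30) (nat_lit 4) (nat_lit 472) (nat_lit 401) (nat_lit 327)) (XT.lf (nat_lit 0) (nat_lit 10881321409) (nat_lit 152) (nat_lit 994106240) (nat_lit 76) (nat_lit 27323361273) (nat_lit 29) (nat_lit 5) (nat_lit 31) (nat_lit 5) (nat_lit 30) (nat_lit 4) (nat_lit 473) (nat_lit 401) (nat_lit 326))))) (XT.nd (nat_lit 234) (nat_lit 228) (nat_lit 0) (XT.nd (nat_lit 78) (nat_lit 76) (nat_lit 0) (XT.lf (nat_lit 0) (nat_lit 19508508031) (nat_lit 76) (nat_lit 1388395046) (nat_lit 152) (nat_lit 19730697789) (nat_lit 28) (nat_lit 5) (nat_lit 29) (nat_lit 5) (nat_lit 30) (nat_lit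 4) (nat_lit 474) (nat_lit 401) (nat_lit 325)) (XT.nd (nat_lit 78) (nat_lit 76) (nat_lit 0) (XT.lf (nat_lit 0) (nat_lit 31555997283) (nat_lit 152) (nat_lit 1254509124) (nat_lit 0) (nat_lit 9310211713) (nat_lit 28) (nat_lit 5) (nat_lit 30) (nat_lit 4) (nat_lit 28) (nat_lit 4) (nat_lit 475) (nat_lit 401) (nat_lit 324)) (XT.lf (nat_lit 0) (nat_lit 20180988664) (nat_lit 76) (nat_lit 22881452241) (nat_lit 76) (nat_lit 610331914) (nat_lit 27) (nat_lit 4) (nat_lit 28) (nat_lit 5) (nat_lit 28) (nat_lit 4) (nat_lit 476) (nat_lit 401) (nat_lit 323)))) (XT.nd (nat_lit 156) (nat_lit 76) (nat_lit 0) (XT.nd (nat_lit 78) (nat_lit 76) (nat_lit 0) (XT.lf (nat_lit 0) (nat_lit 9524963805) (nat_lit 152) (nat_lit 2769072867) (nat_lit 76) (nat_lit 33000802608) (nat_lit 26) (nat_lit 5) (nat_lit 28) (nat_lit 5) (nat_lit 27) (nat_lit 4) (nat_lit 477) (nat_lit 401) (nat_lit 322)) (XT.lf (nat_lit 0) (nat_lit 19562545540)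 (nat_lit 76) (nat_lit 867100108) (nat_lit 152) (nat_lit 26553707658) (nat_lit 25) (nat_lit 5) (nat_lit 26) (nat_lit 5) (nat_lit 27) (nat_lit 4) (nat_lit 478) (nat_lit 401) (nat_lit 321))) (XT.nd (nat_lit 78) (nat_lit 76) (nat_lit 0) (XT.lf (nat_lit 0) (nat_lit 32078793049) (nat_lit 152) (nat_lit 5865044688) (nat_lit 0) (nat_lit 10802494806) (nat_lit 25) (nat_lit 5) (nat_lit 27) (nat_lit 4) (nat_lit 25) (nat_lit 4) (nat_lit 479) (nat_lit 401) (nat_lit 320)) (XT.lf (nat_lit 0) (nat_lit 17265545139) (nat_lit 76) (nat_lit 27307467298) (nat_lit 76) (nat_lit 6011318609) (nat_lit 24) (nat_lit 4) (nat_lit 25) (nat_lit 5) (nat_lit 25) (nat_lit 4) (nat_lit 480) (nat_lit 401) (nat_lit 319))))))) (XT.nd (nat_lit 1092) (nat_lit 532) (nat_lit 0) (XT.nd (nat_lit 546) (nat_lit 228) (nat_lit 0) (XT.nd (nat_lit 234) (nat_lit 228) (nat_lit 0) (XT.nd (nat_lit 78) (nat_lit 76) (nat_lit 0) (XT.lf (nat_lit 0) (nat_lit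 5091816958) (nat_lit 152) (nat_lit 10876829108) (nat_lit 76) (nat_lit 36537551272) (nat_lit 23) (nat_lit 5) (nat_lit 25) (nat_lit 5) (nat_lit 24) (nat_lit 4) (nat_lit 481) (nat_lit 401) (nat_lit 318)) (XT.nd (nat_lit 78) (nat_lit 0) (nat_lit 0) (XT.lf (nat_lit 0) (nat_lit 12964200771) (nat_lit 76) (nat_lit 3766169757) (nat_lit 152) (nat_lit 37779745953) (nat_lit 22) (nat_lit 5) (nat_lit 23) (nat_lit 5) (nat_lit 24) (nat_lit 4) (nat_lit 482) (nat_lit 401) (nat_lit 317)) (XT.lf (nat_lit 0) (nat_lit 29259245712) (nat_lit 152) (nat_lit 18413851191) (nat_lit 0) (nat_lit 8925715831) (nat_lit 22) (nat_lit 5) (nat_lit 24) (nat_lit 4) (nat_lit 22) (nat_lit 4) (nat_lit 483) (nat_lit 401) (nat_lit 316)))) (XT.nd (nat_lit 156) (nat_lit 152) (nat_lit 0) (XT.nd (nat_lit 78) (nat_lit 0) (nat_lit 0) (XT.lf (nat_lit 0) (nat_lit 5966448199) (nat_lit 76) (nat_lit 36583895344) (nat_lit 76) (nat_lit 16234812121)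 (nat_lit 21) (nat_lit 4) (nat_lit 22) (nat_lit 5) (nat_lit 22) (nat_lit 4) (nat_lit 484) (nat_lit 401) (nat_lit 315)) (XT.lf (nat_lit 0) (nat_lit 32168064737) (nat_lit 76) (nat_lit 24630997211) (nat_lit 76) (nat_lit 4267101279) (nat_lit 21) (nat_lit 4) (nat_lit 22) (nat_lit 5) (nat_lit 22) (nat_lit 4) (nat_lit 485) (nat_lit 401) (nat_lit 314))) (XT.nd (nat_lit 78) (nat_lit 76) (nat_lit 0) (XT.lf (nat_lit 0) (nat_lit 8015194056) (nat_lit 152) (nat_lit 3946855455) (nat_lit 76) (nat_lit 51493602896) (nat_lit 20) (nat_lit 5) (nat_lit 22) (nat_lit 5) (nat_lit 21) (nat_lit 4) (nat_lit 486) (nat_lit 401) (nat_lit 313)) (XT.lf (nat_lit 0) (nat_lit 21135776890) (nat_lit 152) (nat_lit 43091604482) (nat_lit 0) (nat_lit 1715358952) (nat_lit 19) (nat_lit 5) (nat_lit 21) (nat_lit 4) (nat_lit 19) (nat_lit 4) (nat_lit 487) (nat_lit 401) (nat_lit 312))))) (XT.nd (nat_lit 234) (nat_lit 152) (nat_lit 0) (XT.nd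 (nat_lit 78) (nat_lit 76) (nat_lit 0) (XT.lf (nat_lit 0) (nat_lit 35159152097) (nat_lit 152) (nat_lit 17656145303) (nat_lit 0) (nat_lit 15726547707) (nat_lit 19) (nat_lit 5) (nat_lit 21) (nat_lit 4) (nat_lit 19) (nat_lit 4) (nat_lit 488) (nat_lit 401) (nat_lit 311)) (XT.nd (nat_lit 78) (nat_lit 0) (nat_lit 0) (XT.lf (nat_lit 0) (nat_lit 9316745209) (nat_lit 76) (nat_lit 40695960294) (nat_lit 76) (nat_lit 21251749760) (nat_lit 18) (nat_lit 4) (nat_lit 19) (nat_lit 5) (nat_lit 19) (nat_lit 4) (nat_lit 489) (nat_lit 401) (nat_lit 310)) (XT.lf (nat_lit 0) (nat_lit 38219250858) (nat_lit 76) (nat_lit 27672533626) (nat_lit 76) (nat_lit 8217269621) (nat_lit 18) (nat_lit 4) (nat_lit 19) (nat_lit 5) (nat_lit 19) (nat_lit 4) (nat_lit 490) (nat_lit 401) (nat_lit 309)))) (XT.nd (nat_lit 156) (nat_lit 0) (nat_lit 0) (XT.nd (nat_lit 78) (nat_lit 76) (nat_lit 0) (XT.lf (nat_lit 0) (nat_lit 5278243934) (nat_lit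 152) (nat_lit 8645391052) (nat_lit 76) (nat_lit 63168761682) (nat_lit 17) (nat_lit 5) (nat_lit 19) (nat_lit 5) (nat_lit 18) (nat_lit 4) (nat_lit 491) (nat_lit 401) (nat_lit 308)) (XT.lf (nat_lit 0) (nat_lit 19491999676) (nat_lit 152) (nat_lit 59766588093) (nat_lit 0) (nat_lit 943602588) (nat_lit 16) (nat_lit 5) (nat_lit 18) (nat_lit 4) (nat_lit 16) (nat_lit 4) (nat_lit 492) (nat_lit 401) (nat_lit 307))) (XT.nd (nat_lit 78) (nat_lit 0) (nat_lit 0) (XT.lf (nat_lit 0) (nat_lit 34778639683) (nat_lit 152) (nat_lit 32449575820) (nat_lit 0) (nat_lit 16221148877) (nat_lit 16) (nat_lit 5) (nat_lit 18) (nat_lit 4) (nat_lit 16) (nat_lit 4) (nat_lit 493) (nat_lit 401) (nat_lit 306)) (XT.lf (nat_lit 0) (nat_lit 50815446032) (nat_lit 152) (nat_lit 3794865263) (nat_lit 0) (nat_lit 32249294542) (nat_lit 16) (nat_lit 5) (nat_lit 18) (nat_lit 4) (nat_lit 16) (nat_lit 4) (nat_lit 494) (nat_lit 401) (nat_lit 305))))))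 (XT.nd (nat_lit 546) (nat_lit 228) (nat_lit 0) (XT.nd (nat_lit 234) (nat_lit 152) (nat_lit 0) (XT.nd (nat_lit 78) (nat_lit 76) (nat_lit 0) (XT.lf (nat_lit 0) (nat_lit 27134234022) (nat_lit 76) (nat_lit 40930009009) (nat_lit 76) (nat_lit 22355609249) (nat_lit 15) (nat_lit 4) (nat_lit 16) (nat_lit 5) (nat_lit 16) (nat_lit 4) (nat_lit 495) (nat_lit 401) (nat_lit 304)) (XT.nd (nat_lit 78) (nat_lit 76) (nat_lit 0) (XT.lf (nat_lit 0) (nat_lit 59715158128) (nat_lit 76) (nat_lit 26511329106) (nat_lit 76) (nat_lit 7929073851) (nat_lit 15) (nat_lit 4) (nat_lit 16) (nat_lit 5) (nat_lit 16) (nat_lit 4) (nat_lit 496) (nat_lit 401) (nat_lit 303)) (XT.lf (nat_lit 0) (nat_lit 6974905526) (nat_lit 152) (nat_lit 4291180350) (nat_lit 76) (nat_lit 86806976375) (nat_lit 14) (nat_lit 5) (nat_lit 16) (nat_lit 5) (nat_lit 15) (nat_lit 4) (nat_lit 497) (nat_lit 401) (nat_lit 302)))) (XT.nd (nat_lit 156) (nat_lit 76)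 (nat_lit 0) (XT.nd (nat_lit 78) (nat_lit 0) (nat_lit 0) (XT.lf (nat_lit 0) (nat_lit 22867443546) (nat_lit 152) (nat_lit 74130858061) (nat_lit 0) (nat_lit 5156146551) (nat_lit 13) (nat_lit 5) (nat_lit 15) (nat_lit 4) (nat_lit 13) (nat_lit 4) (nat_lit 498) (nat_lit 401) (nat_lit 301)) (XT.lf (nat_lit 0) (nat_lit 39800960021) (nat_lit 152) (nat_lit 44543425809) (nat_lit 0) (nat_lit 22083200291) (nat_lit 13) (nat_lit 5) (nat_lit 15) (nat_lit 4) (nat_lit 13) (nat_lit 4) (nat_lit 499) (nat_lit 401) (nat_lit 300))) (XT.nd (nat_lit 78) (nat_lit 76) (nat_lit 0) (XT.lf (nat_lit 0) (nat_lit 57569530454) (nat_lit 152) (nat_lit 13499816203) (nat_lit 0) (nat_lit 39845615737) (nat_lit 13) (nat_lit 5) (nat_lit 15) (nat_lit 4) (nat_lit 13) (nat_lit 4) (nat_lit 500) (nat_lit 401) (nat_lit 299)) (XT.lf (nat_lit 0) (nat_lit 19704552861) (nat_lit 76) (nat_lit 56818551395) (nat_lit 76) (nat_lit 39088774787) (nat_lit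 12) (nat_lit 4) (nat_lit 13) (nat_lit 5) (nat_lit 13) (nat_lit 4) (nat_lit 501) (nat_lit 401) (nat_lit 298))))) (XT.nd (nat_lit 312) (nat_lit 76) (nat_lit 0) (XT.nd (nat_lit 156) (nat_lit 152) (nat_lit 0) (XT.nd (nat_lit 78) (nat_lit 0) (nat_lit 0) (XT.lf (nat_lit 0) (nat_lit 55016090031) (nat_lit 76) (nat_lit 41626011943) (nat_lit 76) (nat_lit 23890652581) (nat_lit 12) (nat_lit 4) (nat_lit 13) (nat_lit 5) (nat_lit 13) (nat_lit 4) (nat_lit 502) (nat_lit 401) (nat_lit 297)) (XT.lf (nat_lit 0) (nat_lit 92072505503) (nat_lit 76) (nat_lit 25684181507) (nat_lit 76) (nat_lit 7943505237) (nat_lit 12) (nat_lit 4) (nat_lit 13) (nat_lit 5) (nat_lit 13) (nat_lit 4) (nat_lit 503) (nat_lit 401) (nat_lit 296))) (XT.nd (nat_lit 78) (nat_lit 76) (nat_lit 0) (XT.lf (nat_lit 0) (nat_lit 8509281372) (nat_lit 152) (nat_lit 301713179) (nat_lit 76) (nat_lit 122308638669) (nat_lit 11) (nat_lit 5) (nat_lit 13) (nat_lit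 5) (nat_lit 12) (nat_lit 4) (nat_lit 504) (nat_lit 401) (nat_lit 295)) (XT.lf (nat_lit 0) (nat_lit 26215481108) (nat_lit 152) (nat_lit 101242984510) (nat_lit 0) (nat_lit 9310183408) (nat_lit 10) (nat_lit 5) (nat_lit 12) (nat_lit 4) (nat_lit 10) (nat_lit 4) (nat_lit 505) (nat_lit 401) (nat_lit 294)))) (XT.nd (nat_lit 156) (nat_lit 76) (nat_lit 0) (XT.nd (nat_lit 78) (nat_lit 0) (nat_lit 0) (XT.lf (nat_lit 0) (nat_lit 44947088374) (nat_lit 152) (nat_lit 69708606159) (nat_lit 0) (nat_lit 28037416440) (nat_lit 10) (nat_lit 5) (nat_lit 12) (nat_lit 4) (nat_lit 10) (nat_lit 4) (nat_lit 506) (nat_lit 401) (nat_lit 293)) (XT.lf (nat_lit 0) (nat_lit 64606191801) (nat_lit 152) (nat_lit 36615704714) (nat_lit 0) (nat_lit 47692353930) (nat_lit 10) (nat_lit 5) (nat_lit 12) (nat_lit 4) (nat_lit 10) (nat_lit 4) (nat_lit 507) (nat_lit 401) (nat_lit 292))) (XT.nd (nat_lit 78) (nat_lit 76) (nat_lit 0) (XT.lf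 (nat_lit 0) (nat_lit 85239598777) (nat_lit 152) (nat_lit 1885487554) (nat_lit 0) (nat_lit 68321793347) (nat_lit 10) (nat_lit 5) (nat_lit 12) (nat_lit 4) (nat_lit 10) (nat_lit 4) (nat_lit 508) (nat_lit 401) (nat_lit 291)) (XT.lf (nat_lit 0) (nat_lit 35707602595) (nat_lit 76) (nat_lit 71746329613) (nat_lit 76) (nat_lit 54824745556) (nat_lit 9) (nat_lit 4) (nat_lit 10) (nat_lit 5) (nat_lit 10) (nat_lit 4) (nat_lit 509) (nat_lit 401) (nat_lit 290))))))))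
noncomputable def xc98 : XT := (XT.nd (nat_lit 2184) (nat_lit 0) (nat_lit 0) (XT.nd (nat_lit 1092) (nat_lit 228) (nat_lit 0) (XT.nd (nat_lit 546) (nat_lit 76) (nat_lit 0) (XT.nd (nat_lit 234) (nat_lit 152) (nat_lit 0) (XT.nd (nat_lit 78) (nat_lit 0) (nat_lit 0) (XT.lf (nat_lit 0) (nat_lit 75229569170) (nat_lit 76) (nat_lit 55573243989) (nat_lit 76) (nat_lit 38648061239) (nat_lit 9) (nat_lit 4) (nat_lit 10) (nat_lit 5) (nat_lit 10) (nat_lit 4) (nat_lit 510) (nat_lit 401) (nat_lit 289)) (XT.nd (nat_lit 78) (nat_lit 0) (nat_lit 0) (XT.lf (nat_lit 0) (nat_lit 116712169356) (nat_lit 76) (nat_lit 38599253758) (nat_lit 76) (nat_lit 21670643682) (nat_lit 9) (nat_lit 4) (nat_lit 10) (nat_lit 5) (nat_lit 10) (nat_lit 4) (nat_lit 511) (nat_lit 401) (nat_lit 288)) (XT.lf (nat_lit 0) (nat_lit 160254171248) (nat_lit 76) (nat_lit 20783944657) (nat_lit 76) (nat_lit 3852070460) (nat_lit 9) (nat_lit 4) (nat_lit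 10) (nat_lit 5) (nat_lit 10) (nat_lit 4) (nat_lit 512) (nat_lit 401) (nat_lit 287)))) (XT.nd (nat_lit 156) (nat_lit 0) (nat_lit 0) (XT.nd (nat_lit 78) (nat_lit 0) (nat_lit 0) (XT.lf (nat_lit 0) (nat_lit 12947741480) (nat_lit 76) (nat_lit 1629197233) (nat_lit 152) (nat_lit 178595423154) (nat_lit 7) (nat_lit 5) (nat_lit 8) (nat_lit 5) (nat_lit 9) (nat_lit 4) (nat_lit 513) (nat_lit 401) (nat_lit 286)) (XT.lf (nat_lit 0) (nat_lit 34503479060) (nat_lit 152) (nat_lit 148954628756) (nat_lit 0) (nat_lit 18372104263) (nat_lit 7) (nat_lit 5) (nat_lit 9) (nat_lit 4) (nat_lit 7) (nat_lit 4) (nat_lit 514) (nat_lit 401) (nat_lit 285))) (XT.nd (nat_lit 78) (nat_lit 0) (nat_lit 0) (XT.lf (nat_lit 0) (nat_lit 55446289876) (nat_lit 152) (nat_lit 116161438212) (nat_lit 0) (nat_lit 39312229679) (nat_lit 7) (nat_lit 5) (nat_lit 9) (nat_lit 4) (nat_lit 7) (nat_lit 4) (nat_lit 515) (nat_lit 401) (nat_lit 284)) (XT.lf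 (nat_lit 0) (nat_lit 77429798663) (nat_lit 152) (nat_lit 81741533396) (nat_lit 0) (nat_lit 61293180943) (nat_lit 7) (nat_lit 5) (nat_lit 9) (nat_lit 4) (nat_lit 7) (nat_lit 4) (nat_lit 516) (nat_lit 401) (nat_lit 283))))) (XT.nd (nat_lit 234) (nat_lit 0) (nat_lit 0) (XT.nd (nat_lit 78) (nat_lit 76) (nat_lit 0) (XT.lf (nat_lit 0) (nat_lit 100506347109) (nat_lit 152) (nat_lit 45612962155) (nat_lit 0) (nat_lit 84367293651) (nat_lit 7) (nat_lit 5) (nat_lit 9) (nat_lit 4) (nat_lit 7) (nat_lit 4) (nat_lit 517) (nat_lit 401) (nat_lit 282)) (XT.nd (nat_lit 78) (nat_lit 76) (nat_lit 0) (XT.lf (nat_lit 0) (nat_lit 124730879375) (nat_lit 152) (nat_lit 7689704081) (nat_lit 0) (nat_lit 108589506168) (nat_lit 7) (nat_lit 5) (nat_lit 9) (nat_lit 4) (nat_lit 7) (nat_lit 4) (nat_lit 518) (nat_lit 401) (nat_lit 281)) (XT.lf (nat_lit 0) (nat_lit 33180518093) (nat_lit 76) (nat_lit 117498595702) (nat_lit 76) (nat_lit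 101355013210) (nat_lit 6) (nat_lit 4) (nat_lit 7) (nat_lit 5) (nat_lit 7) (nat_lit 4) (nat_lit 519) (nat_lit 401) (nat_lit 280)))) (XT.nd (nat_lit 156) (nat_lit 0) (nat_lit 0) (XT.nd (nat_lit 78) (nat_lit 0) (nat_lit 0) (XT.lf (nat_lit 0) (nat_lit 76350218305) (nat_lit 76) (nat_lit 101699298398) (nat_lit 76) (nat_lit 85553611825) (nat_lit 6) (nat_lit 4) (nat_lit 7) (nat_lit 5) (nat_lit 7) (nat_lit 4) (nat_lit 520) (nat_lit 401) (nat_lit 279)) (XT.lf (nat_lit 0) (nat_lit 121667925209) (nat_lit 76) (nat_lit 85115303029) (nat_lit 76) (nat_lit 68967612569) (nat_lit 6) (nat_lit 4) (nat_lit 7) (nat_lit 5) (nat_lit 7) (nat_lit 4) (nat_lit 521) (nat_lit 401) (nat_lit 278))) (XT.nd (nat_lit 78) (nat_lit 0) (nat_lit 0) (XT.lf (nat_lit 0) (nat_lit 169241538107) (nat_lit 76) (nat_lit 67707123892) (nat_lit 76) (nat_lit 51557524967) (nat_lit 6) (nat_lit 4) (nat_lit 7) (nat_lit 5) (nat_lit 7) (nat_lit 4)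 (nat_lit 522) (nat_lit 401) (nat_lit 277)) (XT.lf (nat_lit 0) (nat_lit 219184327506) (nat_lit 76) (nat_lit 49433312940) (nat_lit 76) (nat_lit 33281896431) (nat_lit 6) (nat_lit 4) (nat_lit 7) (nat_lit 5) (nat_lit 7) (nat_lit 4) (nat_lit 523) (nat_lit 401) (nat_lit 276)))))) (XT.nd (nat_lit 546) (nat_lit 76) (nat_lit 0) (XT.nd (nat_lit 234) (nat_lit 0) (nat_lit 0) (XT.nd (nat_lit 78) (nat_lit 152) (nat_lit 0) (XT.lf (nat_lit 0) (nat_lit 271615204811) (nat_lit 76) (nat_lit 30250361101) (nat_lit 76) (nat_lit 14097213559) (nat_lit 6) (nat_lit 4) (nat_lit 7) (nat_lit 5) (nat_lit 7) (nat_lit 4) (nat_lit 524) (nat_lit 401) (nat_lit 275)) (XT.nd (nat_lit 78) (nat_lit 76) (nat_lit 0) (XT.lf (nat_lit 0) (nat_lit 5848813283) (nat_lit 152) (nat_lit 4164728912) (nat_lit 76) (nat_lit 320711139675) (nat_lit 5) (nat_lit 5) (nat_lit 7) (nat_lit 5) (nat_lit 6) (nat_lit 4) (nat_lit 525) (nat_lit 401) (nat_lit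 274)) (XT.lf (nat_lit 0) (nat_lit 27112839267) (nat_lit 152) (nat_lit 307334738478) (nat_lit 0) (nat_lit 11725823799) (nat_lit 4) (nat_lit 5) (nat_lit 6) (nat_lit 4) (nat_lit 4) (nat_lit 4) (nat_lit 526) (nat_lit 401) (nat_lit 273)))) (XT.nd (nat_lit 156) (nat_lit 0) (nat_lit 0) (XT.nd (nat_lit 78) (nat_lit 0) (nat_lit 0) (XT.lf (nat_lit 0) (nat_lit 49671765462) (nat_lit 152) (nat_lit 278427881000) (nat_lit 0) (nat_lit 34283325869) (nat_lit 4) (nat_lit 5) (nat_lit 6) (nat_lit 4) (nat_lit 4) (nat_lit 4) (nat_lit 527) (nat_lit 401) (nat_lit 272)) (XT.lf (nat_lit 0) (nat_lit 73354689896) (nat_lit 152) (nat_lit 248083635241) (nat_lit 0) (nat_lit 57964893993) (nat_lit 4) (nat_lit 5) (nat_lit 6) (nat_lit 4) (nat_lit 4) (nat_lit 4) (nat_lit 528) (nat_lit 401) (nat_lit 271))) (XT.nd (nat_lit 78) (nat_lit 0) (nat_lit 0) (XT.lf (nat_lit 0) (nat_lit 98218000483) (nat_lit 152) (nat_lit 216229753000) (nat_lit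 0) (nat_lit 82826912857) (nat_lit 4) (nat_lit 5) (nat_lit 6) (nat_lit 4) (nat_lit 4) (nat_lit 4) (nat_lit 529) (nat_lit 401) (nat_lit 270)) (XT.lf (nat_lit 0) (nat_lit 124320895583) (nat_lit 152) (nat_lit 182790391698) (nat_lit 0) (nat_lit 108928577744) (nat_lit 4) (nat_lit 5) (nat_lit 6) (nat_lit 4) (nat_lit 4) (nat_lit 4) (nat_lit 530) (nat_lit 401) (nat_lit 269))))) (XT.nd (nat_lit 234) (nat_lit 76) (nat_lit 0) (XT.nd (nat_lit 78) (nat_lit 0) (nat_lit 0) (XT.lf (nat_lit 0) (nat_lit 151725524946) (nat_lit 152) (nat_lit 147685933809) (nat_lit 0) (nat_lit 136332035476) (nat_lit 4) (nat_lit 5) (nat_lit 6) (nat_lit 4) (nat_lit 4) (nat_lit 4) (nat_lit 531) (nat_lit 401) (nat_lit 268)) (XT.nd (nat_lit 78) (nat_lit 0) (nat_lit 0) (XT.lf (nat_lit 0) (nat_lit 180497137689) (nat_lit 152) (nat_lit 110832797291) (nat_lit 0) (nat_lit 165102532379) (nat_lit 4) (nat_lit 5) (nat_lit 6) (nat_lit 4) (nat_lit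 4) (nat_lit 4) (nat_lit 532) (nat_lit 401) (nat_lit 267)) (XT.lf (nat_lit 0) (nat_lit 210704237652) (nat_lit 152) (nat_lit 72143236579) (nat_lit 0) (nat_lit 195308569638) (nat_lit 4) (nat_lit 5) (nat_lit 6) (nat_lit 4) (nat_lit 4) (nat_lit 4) (nat_lit 533) (nat_lit 401) (nat_lit 266)))) (XT.nd (nat_lit 156) (nat_lit 0) (nat_lit 0) (XT.nd (nat_lit 78) (nat_lit 76) (nat_lit 0) (XT.lf (nat_lit 0) (nat_lit 242418746501) (nat_lit 152) (nat_lit 31525133673) (nat_lit 0) (nat_lit 227022066389) (nat_lit 4) (nat_lit 5) (nat_lit 6) (nat_lit 4) (nat_lit 4) (nat_lit 4) (nat_lit 534) (nat_lit 401) (nat_lit 265)) (XT.lf (nat_lit 0) (nat_lit 11485839799) (nat_lit 76) (nat_lit 264409661322) (nat_lit 76) (nat_lit 249012017306) (nat_lit 3) (nat_lit 4) (nat_lit 4) (nat_lit 5) (nat_lit 4) (nat_lit 4) (nat_lit 535) (nat_lit 401) (nat_lit 264))) (XT.nd (nat_lit 78) (nat_lit 0) (nat_lit 0) (XT.lf (nat_lit 0) (nat_lit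 57736281400) (nat_lit 76) (nat_lit 253840946416) (nat_lit 76) (nat_lit 238442384397) (nat_lit 3) (nat_lit 4) (nat_lit 4) (nat_lit 5) (nat_lit 4) (nat_lit 4) (nat_lit 536) (nat_lit 401) (nat_lit 263)) (XT.lf (nat_lit 0) (nat_lit 106293947937) (nat_lit 76) (nat_lit 242746465245) (nat_lit 76) (nat_lit 227347028936) (nat_lit 3) (nat_lit 4) (nat_lit 4) (nat_lit 5) (nat_lit 4) (nat_lit 4) (nat_lit 537) (nat_lit 401) (nat_lit 262))))))) (XT.nd (nat_lit 52416) (nat_lit 0) (nat_lit 7828) (XT.nd (nat_lit 51870) (nat_lit 0) (nat_lit 12616) (XT.nd (nat_lit 234) (nat_lit 0) (nat_lit 0) (XT.nd (nat_lit 78) (nat_lit 0) (nat_lit 0) (XT.lf (nat_lit 0) (nat_lit 157274452901) (nat_lit 76) (nat_lit 231099802376) (nat_lit 76) (nat_lit 215699533411) (nat_lit 3) (nat_lit 4) (nat_lit 4) (nat_lit 5) (nat_lit 4) (nat_lit 4) (nat_lit 538) (nat_lit 401) (nat_lit 261)) (XT.nd (nat_lit 78) (nat_lit 0) (nat_lit 0) (XT.lf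 (nat_lit 0) (nat_lit 210799178447) (nat_lit 76) (nat_lit 218873227660) (nat_lit 76) (nat_lit 203472165689) (nat_lit 3) (nat_lit 4) (nat_lit 4) (nat_lit 5) (nat_lit 4) (nat_lit 4) (nat_lit 539) (nat_lit 401) (nat_lit 260)) (XT.lf (nat_lit 0) (nat_lit 266995564398) (nat_lit 76) (nat_lit 206037630205) (nat_lit 76) (nat_lit 190635812990) (nat_lit 3) (nat_lit 4) (nat_lit 4) (nat_lit 5) (nat_lit 4) (nat_lit 4) (nat_lit 540) (nat_lit 401) (nat_lit 259)))) (XT.nd (nat_lit 156) (nat_lit 0) (nat_lit 0) (XT.nd (nat_lit 78) (nat_lit 0) (nat_lit 0) (XT.lf (nat_lit 0) (nat_lit 325997411673) (nat_lit 76) (nat_lit 192562449064) (nat_lit 76) (nat_lit 177159912569) (nat_lit 3) (nat_lit 4) (nat_lit 4) (nat_lit 5) (nat_lit 4) (nat_lit 4) (nat_lit 541) (nat_lit 401) (nat_lit 258)) (XT.lf (nat_lit 0) (nat_lit 387945200860) (nat_lit 76) (nat_lit 178415600473) (nat_lit 76) (nat_lit 163012378949) (nat_lit 3) (nat_lit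 4) (nat_lit 4) (nat_lit 5) (nat_lit 4) (nat_lit 4) (nat_lit 542) (nat_lit 401) (nat_lit 257))) (XT.nd (nat_lit 78) (nat_lit 0) (nat_lit 0) (XT.lf (nat_lit 0) (nat_lit 452986426697) (nat_lit 76) (nat_lit 163563401459) (nat_lit 76) (nat_lit 148159527527) (nat_lit 3) (nat_lit 4) (nat_lit 4) (nat_lit 5) (nat_lit 4) (nat_lit 4) (nat_lit 543) (nat_lit 401) (nat_lit 256)) (XT.lf (nat_lit 0) (nat_lit 521275949243) (nat_lit 76) (nat_lit 147970489643) (nat_lit 76) (nat_lit 132565994371) (nat_lit 3) (nat_lit 4) (nat_lit 4) (nat_lit 5) (nat_lit 4) (nat_lit 4) (nat_lit 544) (nat_lit 401) (nat_lit 255))))) (XT.nd (nat_lit 234) (nat_lit 684) (nat_lit 0) (XT.nd (nat_lit 78) (nat_lit 228) (nat_lit 0) (XT.lf (nat_lit 0) (nat_lit 2679153586) (nat_lit 228) (nat_lit 282441808) (nat_lit 228) (nat_lit 282441808) (nat_lit 181) (nat_lit 3) (nat_lit 184) (nat_lit 3) (nat_lit 184) (nat_lit 5) (nat_lit 402) (nat_lit 402)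 (nat_lit 396)) (XT.nd (nat_lit 78) (nat_lit 0) (nat_lit 0) (XT.lf (nat_lit 0) (nat_lit 1578983284) (nat_lit 228) (nat_lit 3824379190) (nat_lit 304) (nat_lit 1111075665) (nat_lit 178) (nat_lit 5) (nat_lit 181) (nat_lit 3) (nat_lit 182) (nat_lit 5) (nat_lit 403) (nat_lit 402) (nat_lit 395)) (XT.lf (nat_lit 0) (nat_lit 4223417450) (nat_lit 228) (nat_lit 529492856) (nat_lit 304) (nat_lit 1796484764) (nat_lit 178) (nat_lit 5) (nat_lit 181) (nat_lit 3) (nat_lit 182) (nat_lit 5) (nat_lit 404) (nat_lit 402) (nat_lit 394)))) (XT.nd (nat_lit 156) (nat_lit 380) (nat_lit 0) (XT.nd (nat_lit 78) (nat_lit 0) (nat_lit 0) (XT.lf (nat_lit 0) (nat_lit 281128296) (nat_lit 304) (nat_lit 3664574128) (nat_lit 380) (nat_lit 2646155382) (nat_lit 174) (nat_lit 5) (nat_lit 178) (nat_lit 5) (nat_lit 179) (nat_lit 5) (nat_lit 405) (nat_lit 402) (nat_lit 393)) (XT.lf (nat_lit 0) (nat_lit 2789887545) (nat_lit 304) (nat_lit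 194820435) (nat_lit 380) (nat_lit 3657452374) (nat_lit 174) (nat_lit 5) (nat_lit 178) (nat_lit 5) (nat_lit 179) (nat_lit 5) (nat_lit 406) (nat_lit 402) (nat_lit 392))) (XT.nd (nat_lit 78) (nat_lit 380) (nat_lit 0) (XT.lf (nat_lit 76) (nat_lit 3468157770) (nat_lit 0) (nat_lit 1858028853) (nat_lit 380) (nat_lit 1373778242) (nat_lit 175) (nat_lit 5) (nat_lit 174) (nat_lit 5) (nat_lit 179) (nat_lit 5) (nat_lit 407) (nat_lit 402) (nat_lit 391)) (XT.lf (nat_lit 76) (nat_lit 461287895) (nat_lit 0) (nat_lit 589895391) (nat_lit 456) (nat_lit 5715507248) (nat_lit 170) (nat_lit 5) (nat_lit 169) (nat_lit 5) (nat_lit 175) (nat_lit 5) (nat_lit 408) (nat_lit 402) (nat_lit 390)))))) (XT.nd (nat_lit 546) (nat_lit 2736) (nat_lit 0) (XT.nd (nat_lit 234) (nat_lit 1672) (nat_lit 0) (XT.nd (nat_lit 78) (nat_lit 456) (nat_lit 0) (XT.lf (nat_lit 0) (nat_lit 3476146339) (nat_lit 380) (nat_lit 2519049349) (nat_lit 76)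 (nat_lit 844264091) (nat_lit 170) (nat_lit 5) (nat_lit 175) (nat_lit 5) (nat_lit 171) (nat_lit 5) (nat_lit 409) (nat_lit 402) (nat_lit 389)) (XT.nd (nat_lit 78) (nat_lit 76) (nat_lit 0) (XT.lf (nat_lit 0) (nat_lit 1395152597) (nat_lit 380) (nat_lit 4523145971) (nat_lit 456) (nat_lit 1002847496) (nat_lit 165) (nat_lit 5) (nat_lit 170) (nat_lit 5) (nat_lit 171) (nat_lit 5) (nat_lit 410) (nat_lit 402) (nat_lit 388)) (XT.lf (nat_lit 0) (nat_lit 1339022652) (nat_lit 456) (nat_lit 1535355939) (nat_lit 76) (nat_lit 4135924191) (nat_lit 164) (nat_lit 5) (nat_lit 170) (nat_lit 5) (nat_lit 165) (nat_lit 5) (nat_lit 411) (nat_lit 402) (nat_lit 387)))) (XT.nd (nat_lit 156) (nat_lit 1216) (nat_lit 0) (XT.nd (nat_lit 78) (nat_lit 0) (nat_lit 0) (XT.lf (nat_lit 0) (nat_lit 2627857950) (nat_lit 456) (nat_lit 1051025736) (nat_lit 532) (nat_lit 3428546993) (nat_lit 158) (nat_lit 5) (nat_lit 164) (nat_lit 5)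 (nat_lit 165) (nat_lit 5) (nat_lit 412) (nat_lit 402) (nat_lit 386)) (XT.lf (nat_lit 0) (nat_lit 6054235007) (nat_lit 532) (nat_lit 269187557) (nat_lit 76) (nat_lit 890129765) (nat_lit 158) (nat_lit 5) (nat_lit 165) (nat_lit 5) (nat_lit 159) (nat_lit 5) (nat_lit 413) (nat_lit 402) (nat_lit 385))) (XT.nd (nat_lit 78) (nat_lit 608) (nat_lit 0) (XT.lf (nat_lit 0) (nat_lit 1150368475) (nat_lit 608) (nat_lit 3172157652) (nat_lit 76) (nat_lit 3003247844) (nat_lit 150) (nat_lit 5) (nat_lit 158) (nat_lit 5) (nat_lit 151) (nat_lit 5) (nat_lit 414) (nat_lit 402) (nat_lit 384)) (XT.lf (nat_lit 0) (nat_lit 1288458232) (nat_lit 608) (nat_lit 2159402413) (nat_lit 684) (nat_lit 3999285399) (nat_lit 142) (nat_lit 5) (nat_lit 150) (nat_lit 5) (nat_lit 151) (nat_lit 5) (nat_lit 415) (nat_lit 402) (nat_lit 383))))) (XT.nd (nat_lit 312) (nat_lit 1216) (nat_lit 0) (XT.nd (nat_lit 156) (nat_lit 760) (nat_lit 0)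 (XT.nd (nat_lit 78) (nat_lit 760) (nat_lit 0) (XT.lf (nat_lit 0) (nat_lit 5807236281) (nat_lit 684) (nat_lit 1593698594) (nat_lit 76) (nat_lit 176352591) (nat_lit 142) (nat_lit 5) (nat_lit 151) (nat_lit 5) (nat_lit 143) (nat_lit 5) (nat_lit 416) (nat_lit 402) (nat_lit 382)) (XT.lf (nat_lit 0) (nat_lit 532760646) (nat_lit 760) (nat_lit 4554549722) (nat_lit 76) (nat_lit 2627207549) (nat_lit 132) (nat_lit 5) (nat_lit 142) (nat_lit 5) (nat_lit 133) (nat_lit 5) (nat_lit 417) (nat_lit 402) (nat_lit 381))) (XT.nd (nat_lit 78) (nat_lit 0) (nat_lit 0) (XT.lf (nat_lit 0) (nat_lit 228803407) (nat_lit 760) (nat_lit 2591075387) (nat_lit 836) (nat_lit 5040891899) (nat_lit 122) (nat_lit 5) (nat_lit 132) (nat_lit 5) (nat_lit 133) (nat_lit 5) (nat_lit 418) (nat_lit 402) (nat_lit 380)) (XT.lf (nat_lit 0) (nat_lit 5201260074) (nat_lit 836) (nat_lit 2704648707) (nat_lit 76) (nat_lit 109474079) (nat_lit 122) (nat_lit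 5) (nat_lit 133) (nat_lit 5) (nat_lit 123) (nat_lit 5) (nat_lit 419) (nat_lit 402) (nat_lit 379)))) (XT.nd (nat_lit 156) (nat_lit 760) (nat_lit 0) (XT.nd (nat_lit 78) (nat_lit 76) (nat_lit 0) (XT.lf (nat_lit 0) (nat_lit 2406550731) (nat_lit 380) (nat_lit 5280962951) (nat_lit 456) (nat_lit 490961898) (nat_lit 117) (nat_lit 5) (nat_lit 122) (nat_lit 5) (nat_lit 123) (nat_lit 5) (nat_lit 420) (nat_lit 402) (nat_lit 378)) (XT.lf (nat_lit 0) (nat_lit 1839771027) (nat_lit 456) (nat_lit 609965671) (nat_lit 76) (nat_lit 5900812971) (nat_lit 116) (nat_lit 5) (nat_lit 122) (nat_lit 5) (nat_lit 117) (nat_lit 5) (nat_lit 421) (nat_lit 402) (nat_lit 377))) (XT.nd (nat_lit 78) (nat_lit 380) (nat_lit 0) (XT.lf (nat_lit 0) (nat_lit 4267572563) (nat_lit 456) (nat_lit 3677100163) (nat_lit 76) (nat_lit 586335381) (nat_lit 111) (nat_lit 5) (nat_lit 117) (nat_lit 5) (nat_lit 112) (nat_lit 5) (nat_lit 422) (nat_lit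 402) (nat_lit 376)) (XT.lf (nat_lit 0) (nat_lit 1813316016) (nat_lit 380) (nat_lit 4996714562) (nat_lit 456) (nat_lit 1910828563) (nat_lit 106) (nat_lit 5) (nat_lit 111) (nat_lit 5) (nat_lit 112) (nat_lit 5) (nat_lit 423) (nat_lit 402) (nat_lit 375))))))))
noncomputable def xc99 : XT := (XT.nd (nat_lit 2184) (nat_lit 1900) (nat_lit 0) (XT.nd (nat_lit 1092) (nat_lit 1748) (nat_lit 0) (XT.nd (nat_lit 546) (nat_lit 1216) (nat_lit 0) (XT.nd (nat_lit 234) (nat_lit 608) (nat_lit 0) (XT.nd (nat_lit 78) (nat_lit 608) (nat_lit 0) (XT.lf (nat_lit 0) (nat_lit 520299851) (nat_lit 456) (nat_lit 1318767852) (nat_lit 76) (nat_lit 7081788474) (nat_lit 105) (nat_lit 5) (nat_lit 111) (nat_lit 5) (nat_lit 106) (nat_lit 5) (nat_lit 424) (nat_lit 402) (nat_lit 374)) (XT.nd (nat_lit 78) (nat_lit 304) (nat_lit 0) (XT.lf (nat_lit 0) (nat_lit 3024200304) (nat_lit 380) (nat_lit 4583056409) (nat_lit 76) (nat_lit 1521287005)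 (nat_lit 101) (nat_lit 5) (nat_lit 106) (nat_lit 5) (nat_lit 102) (nat_lit 5) (nat_lit 425) (nat_lit 402) (nat_lit 373)) (XT.lf (nat_lit 0) (nat_lit 1319566237) (nat_lit 304) (nat_lit 4328893945) (nat_lit 380) (nat_lit 3698424378) (nat_lit 97) (nat_lit 5) (nat_lit 101) (nat_lit 5) (nat_lit 102) (nat_lit 5) (nat_lit 426) (nat_lit 402) (nat_lit 372)))) (XT.nd (nat_lit 156) (nat_lit 304) (nat_lit 0) (XT.nd (nat_lit 78) (nat_lit 304) (nat_lit 0) (XT.lf (nat_lit 0) (nat_lit 7582577725) (nat_lit 304) (nat_lit 822947708) (nat_lit 380) (nat_lit 1170563245) (nat_lit 97) (nat_lit 5) (nat_lit 101) (nat_lit 5) (nat_lit 102) (nat_lit 5) (nat_lit 427) (nat_lit 402) (nat_lit 371)) (XT.lf (nat_lit 0) (nat_lit 1476604945) (nat_lit 304) (nat_lit 5494987514) (nat_lit 76) (nat_lit 2842005697) (nat_lit 93) (nat_lit 5) (nat_lit 97) (nat_lit 5) (nat_lit 94) (nat_lit 5) (nat_lit 428) (nat_lit 402) (nat_lit 370)))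 (XT.nd (nat_lit 78) (nat_lit 0) (nat_lit 0) (XT.lf (nat_lit 0) (nat_lit 854708910) (nat_lit 304) (nat_lit 3351419876) (nat_lit 380) (nat_lit 5856450385) (nat_lit 89) (nat_lit 5) (nat_lit 93) (nat_lit 5) (nat_lit 94) (nat_lit 5) (nat_lit 429) (nat_lit 402) (nat_lit 369)) (XT.lf (nat_lit 0) (nat_lit 7103555051) (nat_lit 380) (nat_lit 2710560384) (nat_lit 76) (nat_lit 508343760) (nat_lit 89) (nat_lit 5) (nat_lit 94) (nat_lit 5) (nat_lit 90) (nat_lit 5) (nat_lit 430) (nat_lit 402) (nat_lit 368))))) (XT.nd (nat_lit 234) (nat_lit 684) (nat_lit 0) (XT.nd (nat_lit 78) (nat_lit 304) (nat_lit 0) (XT.lf (nat_lit 0) (nat_lit 4097022790) (nat_lit 228) (nat_lit 6100897484) (nat_lit 304) (nat_lit 394829820) (nat_lit 86) (nat_lit 5) (nat_lit 89) (nat_lit 5) (nat_lit 90) (nat_lit 5) (nat_lit 431) (nat_lit 402) (nat_lit 367)) (XT.nd (nat_lit 78) (nat_lit 0) (nat_lit 0) (XT.lf (nat_lit 0) (nat_lit 343414183)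 (nat_lit 228) (nat_lit 2130646077) (nat_lit 304) (nat_lit 8401212936) (nat_lit 82) (nat_lit 5) (nat_lit 85) (nat_lit 5) (nat_lit 86) (nat_lit 5) (nat_lit 432) (nat_lit 402) (nat_lit 366)) (XT.lf (nat_lit 0) (nat_lit 5551964965) (nat_lit 304) (nat_lit 3549371673) (nat_lit 76) (nat_lit 2066337733) (nat_lit 82) (nat_lit 5) (nat_lit 86) (nat_lit 5) (nat_lit 83) (nat_lit 5) (nat_lit 433) (nat_lit 402) (nat_lit 365)))) (XT.nd (nat_lit 156) (nat_lit 380) (nat_lit 0) (XT.nd (nat_lit 78) (nat_lit 76) (nat_lit 0) (XT.lf (nat_lit 0) (nat_lit 3779829957) (nat_lit 228) (nat_lit 5036169271) (nat_lit 304) (nat_lit 2657101325) (nat_lit 79) (nat_lit 5) (nat_lit 82) (nat_lit 5) (nat_lit 83) (nat_lit 5) (nat_lit 434) (nat_lit 402) (nat_lit 364)) (XT.lf (nat_lit 0) (nat_lit 435018643) (nat_lit 304) (nat_lit 289146259) (nat_lit 76) (nat_lit 11069299097) (nat_lit 78) (nat_lit 5) (nat_lit 82) (nat_lit 5) (nat_lit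 79) (nat_lit 5) (nat_lit 435) (nat_lit 402) (nat_lit 363))) (XT.nd (nat_lit 78) (nat_lit 152) (nat_lit 0) (XT.lf (nat_lit 0) (nat_lit 3714514273) (nat_lit 304) (nat_lit 4586239877) (nat_lit 76) (nat_lit 3820824626) (nat_lit 75) (nat_lit 5) (nat_lit 79) (nat_lit 5) (nat_lit 76) (nat_lit 5) (nat_lit 436) (nat_lit 402) (nat_lit 362)) (XT.lf (nat_lit 0) (nat_lit 3303106833) (nat_lit 152) (nat_lit 3866130983) (nat_lit 228) (nat_lit 5296312531) (nat_lit 73) (nat_lit 5) (nat_lit 75) (nat_lit 5) (nat_lit 76) (nat_lit 5) (nat_lit 437) (nat_lit 402) (nat_lit 361)))))) (XT.nd (nat_lit 546) (nat_lit 912) (nat_lit 0) (XT.nd (nat_lit 234) (nat_lit 380) (nat_lit 0) (XT.nd (nat_lit 78) (nat_lit 456) (nat_lit 0) (XT.lf (nat_lit 0) (nat_lit 10831766329) (nat_lit 228) (nat_lit 1177163910) (nat_lit 76) (nat_lit 816049876) (nat_lit 73) (nat_lit 5) (nat_lit 76) (nat_lit 5) (nat_lit 74) (nat_lit 5) (nat_lit 438)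 (nat_lit 402) (nat_lit 360)) (XT.nd (nat_lit 78) (nat_lit 152) (nat_lit 0) (XT.lf (nat_lit 0) (nat_lit 1553581051) (nat_lit 304) (nat_lit 5926511239) (nat_lit 76) (nat_lit 5714861866) (nat_lit 69) (nat_lit 5) (nat_lit 73) (nat_lit 5) (nat_lit 70) (nat_lit 5) (nat_lit 439) (nat_lit 402) (nat_lit 359)) (XT.lf (nat_lit 0) (nat_lit 2560561816) (nat_lit 152) (nat_lit 2657283901) (nat_lit 228) (nat_lit 8363602925) (nat_lit 67) (nat_lit 5) (nat_lit 69) (nat_lit 5) (nat_lit 70) (nat_lit 5) (nat_lit 440) (nat_lit 402) (nat_lit 358)))) (XT.nd (nat_lit 156) (nat_lit 228) (nat_lit 0) (XT.nd (nat_lit 78) (nat_lit 152) (nat_lit 0) (XT.lf (nat_lit 0) (nat_lit 9152571915) (nat_lit 228) (nat_lit 2427679744) (nat_lit 76) (nat_lit 2402664520) (nat_lit 67) (nat_lit 5) (nat_lit 70) (nat_lit 5) (nat_lit 68) (nat_lit 5) (nat_lit 441) (nat_lit 402) (nat_lit 357)) (XT.lf (nat_lit 0) (nat_lit 6685652331) (nat_lit 152)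 (nat_lit 6696478079) (nat_lit 228) (nat_lit 1017432114) (nat_lit 65) (nat_lit 5) (nat_lit 67) (nat_lit 5) (nat_lit 68) (nat_lit 5) (nat_lit 442) (nat_lit 402) (nat_lit 356))) (XT.nd (nat_lit 78) (nat_lit 0) (nat_lit 0) (XT.lf (nat_lit 0) (nat_lit 1421848673) (nat_lit 152) (nat_lit 1483179133) (nat_lit 228) (nat_lit 11928967730) (nat_lit 62) (nat_lit 5) (nat_lit 64) (nat_lit 5) (nat_lit 65) (nat_lit 5) (nat_lit 443) (nat_lit 402) (nat_lit 355)) (XT.lf (nat_lit 0) (nat_lit 7135641656) (nat_lit 228) (nat_lit 4163508600) (nat_lit 76) (nat_lit 3982863653) (nat_lit 62) (nat_lit 5) (nat_lit 65) (nat_lit 5) (nat_lit 63) (nat_lit 5) (nat_lit 444) (nat_lit 402) (nat_lit 354))))) (XT.nd (nat_lit 234) (nat_lit 532) (nat_lit 0) (XT.nd (nat_lit 78) (nat_lit 228) (nat_lit 0) (XT.lf (nat_lit 0) (nat_lit 5626209383) (nat_lit 152) (nat_lit 6017194568) (nat_lit 228) (nat_lit 4105756780) (nat_lit 60) (nat_lit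 5) (nat_lit 62) (nat_lit 5) (nat_lit 63) (nat_lit 5) (nat_lit 445) (nat_lit 402) (nat_lit 353)) (XT.nd (nat_lit 78) (nat_lit 152) (nat_lit 0) (XT.lf (nat_lit 0) (nat_lit 157915349) (nat_lit 228) (nat_lit 266876680) (nat_lit 76) (nat_lit 15813503279) (nat_lit 59) (nat_lit 5) (nat_lit 62) (nat_lit 5) (nat_lit 60) (nat_lit 5) (nat_lit 446) (nat_lit 402) (nat_lit 352)) (XT.lf (nat_lit 0) (nat_lit 4701387461) (nat_lit 228) (nat_lit 6561361115) (nat_lit 76) (nat_lit 5475550096) (nat_lit 57) (nat_lit 5) (nat_lit 60) (nat_lit 5) (nat_lit 58) (nat_lit 5) (nat_lit 447) (nat_lit 402) (nat_lit 351)))) (XT.nd (nat_lit 156) (nat_lit 380) (nat_lit 0) (XT.nd (nat_lit 78) (nat_lit 0) (nat_lit 0) (XT.lf (nat_lit 0) (nat_lit 3933766881) (nat_lit 152) (nat_lit 5567690029) (nat_lit 228) (nat_lit 7760381034) (nat_lit 55) (nat_lit 5) (nat_lit 57) (nat_lit 5) (nat_lit 58) (nat_lit 5) (nat_lit 448) (nat_lit 402) (nat_lit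 350)) (XT.lf (nat_lit 0) (nat_lit 14617813369) (nat_lit 228) (nat_lit 2707504523) (nat_lit 76) (nat_lit 482428706) (nat_lit 55) (nat_lit 5) (nat_lit 58) (nat_lit 5) (nat_lit 56) (nat_lit 4) (nat_lit 449) (nat_lit 402) (nat_lit 349))) (XT.nd (nat_lit 78) (nat_lit 152) (nat_lit 0) (XT.lf (nat_lit 0) (nat_lit 1744353664) (nat_lit 228) (nat_lit 9844395137) (nat_lit 76) (nat_lit 6781610991) (nat_lit 52) (nat_lit 5) (nat_lit 55) (nat_lit 5) (nat_lit 53) (nat_lit 5) (nat_lit 450) (nat_lit 402) (nat_lit 348)) (XT.lf (nat_lit 0) (nat_lit 1375938723) (nat_lit 152) (nat_lit 5469457125) (nat_lit 228) (nat_lit 12111736612) (nat_lit 50) (nat_lit 5) (nat_lit 52) (nat_lit 5) (nat_lit 53) (nat_lit 5) (nat_lit 451) (nat_lit 402) (nat_lit 347))))))) (XT.nd (nat_lit 1092) (nat_lit 760) (nat_lit 0) (XT.nd (nat_lit 546) (nat_lit 532) (nat_lit 0) (XT.nd (nat_lit 234) (nat_lit 456) (nat_lit 0) (XT.nd (nat_lit 78)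 (nat_lit 152) (nat_lit 0) (XT.lf (nat_lit 0) (nat_lit 12345399681) (nat_lit 228) (nat_lit 6155230902) (nat_lit 76) (nat_lit 1065423129) (nat_lit 50) (nat_lit 5) (nat_lit 53) (nat_lit 5) (nat_lit 51) (nat_lit 4) (nat_lit 452) (nat_lit 402) (nat_lit 346)) (XT.nd (nat_lit 78) (nat_lit 76) (nat_lit 0) (XT.lf (nat_lit 0) (nat_lit 5871991279) (nat_lit 76) (nat_lit 12391214976) (nat_lit 152) (nat_lit 1935079811) (nat_lit 49) (nat_lit 5) (nat_lit 50) (nat_lit 5) (nat_lit 51) (nat_lit 4) (nat_lit 453) (nat_lit 402) (nat_lit 345)) (XT.lf (nat_lit 0) (nat_lit 3566651699) (nat_lit 152) (nat_lit 2269280963) (nat_lit 76) (nat_lit 15020001532) (nat_lit 48) (nat_lit 5) (nat_lit 50) (nat_lit 5) (nat_lit 49) (nat_lit 5) (nat_lit 454) (nat_lit 402) (nat_lit 344)))) (XT.nd (nat_lit 156) (nat_lit 228) (nat_lit 0) (XT.nd (nat_lit 78) (nat_lit 76) (nat_lit 0) (XT.lf (nat_lit 0) (nat_lit 9427057880) (nat_lit 228)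 (nat_lit 10923563036) (nat_lit 76) (nat_lit 1186831171) (nat_lit 46) (nat_lit 5) (nat_lit 49) (nat_lit 5) (nat_lit 47) (nat_lit 4) (nat_lit 455) (nat_lit 402) (nat_lit 343)) (XT.lf (nat_lit 0) (nat_lit 1866799478) (nat_lit 76) (nat_lit 13841309619) (nat_lit 152) (nat_lit 6538559793) (nat_lit 45) (nat_lit 5) (nat_lit 46) (nat_lit 5) (nat_lit 47) (nat_lit 4) (nat_lit 456) (nat_lit 402) (nat_lit 342))) (XT.nd (nat_lit 78) (nat_lit 228) (nat_lit 0) (XT.lf (nat_lit 0) (nat_lit 15611452150) (nat_lit 76) (nat_lit 6841222701) (nat_lit 152) (nat_lit 531202632) (nat_lit 45) (nat_lit 5) (nat_lit 46) (nat_lit 5) (nat_lit 47) (nat_lit 4) (nat_lit 457) (nat_lit 402) (nat_lit 341)) (XT.lf (nat_lit 0) (nat_lit 5666756775) (nat_lit 228) (nat_lit 17425384423) (nat_lit 76) (nat_lit 657543635) (nat_lit 42) (nat_lit 5) (nat_lit 45) (nat_lit 5) (nat_lit 43) (nat_lit 4) (nat_lit 458) (nat_lit 402) (nat_lit 340)))))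 (XT.nd (nat_lit 234) (nat_lit 228) (nat_lit 0) (XT.nd (nat_lit 78) (nat_lit 304) (nat_lit 0) (XT.lf (nat_lit 0) (nat_lit 12361658829) (nat_lit 228) (nat_lit 3771416898) (nat_lit 76) (nat_lit 8410030081) (nat_lit 42) (nat_lit 5) (nat_lit 45) (nat_lit 5) (nat_lit 43) (nat_lit 4) (nat_lit 459) (nat_lit 402) (nat_lit 339)) (XT.nd (nat_lit 78) (nat_lit 228) (nat_lit 0) (XT.lf (nat_lit 0) (nat_lit 10852809260) (nat_lit 76) (nat_lit 8675408989) (nat_lit 152) (nat_lit 5841137301) (nat_lit 41) (nat_lit 5) (nat_lit 42) (nat_lit 5) (nat_lit 43) (nat_lit 4) (nat_lit 460) (nat_lit 402) (nat_lit 338)) (XT.lf (nat_lit 0) (nat_lit 32809519) (nat_lit 152) (nat_lit 790259312) (nat_lit 228) (nat_lit 25411564617) (nat_lit 38) (nat_lit 5) (nat_lit 40) (nat_lit 5) (nat_lit 41) (nat_lit 5) (nat_lit 461) (nat_lit 402) (nat_lit 337)))) (XT.nd (nat_lit 156) (nat_lit 152) (nat_lit 0) (XT.nd (nat_lit 78) (nat_lit 76)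 (nat_lit 0) (XT.lf (nat_lit 0) (nat_lit 7958760441) (nat_lit 228) (nat_lit 11594092462) (nat_lit 76) (nat_lit 7568808613) (nat_lit 38) (nat_lit 5) (nat_lit 41) (nat_lit 5) (nat_lit 39) (nat_lit 4) (nat_lit 462) (nat_lit 402) (nat_lit 336)) (XT.lf (nat_lit 0) (nat_lit 3795294972) (nat_lit 76) (nat_lit 11697460607) (nat_lit 152) (nat_lit 12558212202) (nat_lit 37) (nat_lit 5) (nat_lit 38) (nat_lit 5) (nat_lit 39) (nat_lit 4) (nat_lit 463) (nat_lit 402) (nat_lit 335))) (XT.nd (nat_lit 78) (nat_lit 152) (nat_lit 0) (XT.lf (nat_lit 0) (nat_lit 20300347179) (nat_lit 76) (nat_lit 3269345642) (nat_lit 152) (nat_lit 5448737029) (nat_lit 37) (nat_lit 5) (nat_lit 38) (nat_lit 5) (nat_lit 39) (nat_lit 4) (nat_lit 464) (nat_lit 402) (nat_lit 334)) (XT.lf (nat_lit 0) (nat_lit 2132892936) (nat_lit 152) (nat_lit 22358697283) (nat_lit 76) (nat_lit 5532042617) (nat_lit 35) (nat_lit 5) (nat_lit 37) (nat_lit 5)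 (nat_lit 36) (nat_lit 4) (nat_lit 465) (nat_lit 402) (nat_lit 333)))))) (XT.nd (nat_lit 546) (nat_lit 456) (nat_lit 0) (XT.nd (nat_lit 234) (nat_lit 228) (nat_lit 0) (XT.nd (nat_lit 78) (nat_lit 76) (nat_lit 0) (XT.lf (nat_lit 0) (nat_lit 10085161153) (nat_lit 152) (nat_lit 6102045022) (nat_lit 76) (nat_lit 14878692369) (nat_lit 35) (nat_lit 5) (nat_lit 37) (nat_lit 5) (nat_lit 36) (nat_lit 4) (nat_lit 466) (nat_lit 402) (nat_lit 332)) (XT.nd (nat_lit 78) (nat_lit 0) (nat_lit 0) (XT.lf (nat_lit 0) (nat_lit 11276187966) (nat_lit 76) (nat_lit 7307297100) (nat_lit 152) (nat_lit 13569372505) (nat_lit 34) (nat_lit 5) (nat_lit 35) (nat_lit 5) (nat_lit 36) (nat_lit 4) (nat_lit 467) (nat_lit 402) (nat_lit 331)) (XT.lf (nat_lit 0) (nat_lit 27615770042) (nat_lit 152) (nat_lit 3639292426) (nat_lit 0) (nat_lit 2033651881) (nat_lit 34) (nat_lit 5) (nat_lit 36) (nat_lit 4) (nat_lit 34) (nat_lit 4) (nat_lit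 468) (nat_lit 402) (nat_lit 330)))) (XT.nd (nat_lit 156) (nat_lit 76) (nat_lit 0) (XT.nd (nat_lit 78) (nat_lit 0) (nat_lit 0) (XT.lf (nat_lit 0) (nat_lit 2863929106) (nat_lit 152) (nat_lit 19748494468) (nat_lit 76) (nat_lit 11850426998) (nat_lit 32) (nat_lit 5) (nat_lit 34) (nat_lit 5) (nat_lit 33) (nat_lit 4) (nat_lit 469) (nat_lit 402) (nat_lit 329)) (XT.lf (nat_lit 0) (nat_lit 11673532814) (nat_lit 152) (nat_lit 1724455414) (nat_lit 76) (nat_lit 22291230453) (nat_lit 32) (nat_lit 5) (nat_lit 34) (nat_lit 5) (nat_lit 33) (nat_lit 4) (nat_lit 470) (nat_lit 402) (nat_lit 328))) (XT.nd (nat_lit 78) (nat_lit 0) (nat_lit 0) (XT.lf (nat_lit 0) (nat_lit 17720456506) (nat_lit 76) (nat_lit 3454960658) (nat_lit 152) (nat_lit 15788899689) (nat_lit 31) (nat_lit 5) (nat_lit 32) (nat_lit 5) (nat_lit 33) (nat_lit 4) (nat_lit 471) (nat_lit 402) (nat_lit 327)) (XT.lf (nat_lit 0) (nat_lit 31266378362) (nat_lit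 152) (nat_lit 261366125) (nat_lit 0) (nat_lit 6769727919) (nat_lit 31) (nat_lit 5) (nat_lit 33) (nat_lit 4) (nat_lit 31) (nat_lit 4) (nat_lit 472) (nat_lit 402) (nat_lit 326))))) (XT.nd (nat_lit 312) (nat_lit 152) (nat_lit 0) (XT.nd (nat_lit 156) (nat_lit 76) (nat_lit 0) (XT.nd (nat_lit 78) (nat_lit 76) (nat_lit 0) (XT.lf (nat_lit 0) (nat_lit 2449711289) (nat_lit 152) (nat_lit 19504070447) (nat_lit 76) (nat_lit 17724096169) (nat_lit 29) (nat_lit 5) (nat_lit 31) (nat_lit 5) (nat_lit 30) (nat_lit 4) (nat_lit 473) (nat_lit 402) (nat_lit 325)) (XT.lf (nat_lit 0) (nat_lit 363650471) (nat_lit 76) (nat_lit 11791257154) (nat_lit 152) (nat_lit 28967302167) (nat_lit 28) (nat_lit 5) (nat_lit 29) (nat_lit 5) (nat_lit 30) (nat_lit 4) (nat_lit 474) (nat_lit 402) (nat_lit 324))) (XT.nd (nat_lit 78) (nat_lit 76) (nat_lit 0) (XT.lf (nat_lit 0) (nat_lit 21857243097) (nat_lit 76) (nat_lit 795320197) (nat_lit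 152) (nat_lit 19970836321) (nat_lit 28) (nat_lit 5) (nat_lit 29) (nat_lit 5) (nat_lit 30) (nat_lit 4) (nat_lit 475) (nat_lit 402) (nat_lit 323)) (XT.lf (nat_lit 0) (nat_lit 15202038) (nat_lit 76) (nat_lit 33805650036) (nat_lit 76) (nat_lit 10371510594) (nat_lit 27) (nat_lit 4) (nat_lit 28) (nat_lit 5) (nat_lit 28) (nat_lit 4) (nat_lit 476) (nat_lit 402) (nat_lit 322)))) (XT.nd (nat_lit 156) (nat_lit 76) (nat_lit 0) (XT.nd (nat_lit 78) (nat_lit 0) (nat_lit 0) (XT.lf (nat_lit 0) (nat_lit 65328842) (nat_lit 152) (nat_lit 23323194686) (nat_lit 76) (nat_lit 22434069873) (nat_lit 26) (nat_lit 5) (nat_lit 28) (nat_lit 5) (nat_lit 27) (nat_lit 4) (nat_lit 477) (nat_lit 402) (nat_lit 321)) (XT.lf (nat_lit 0) (nat_lit 10654227421) (nat_lit 152) (nat_lit 1637837714) (nat_lit 76) (nat_lit 35234831983) (nat_lit 26) (nat_lit 5) (nat_lit 28) (nat_lit 5) (nat_lit 27) (nat_lit 4) (nat_lit 478) (nat_lit 402)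 (nat_lit 320))) (XT.nd (nat_lit 78) (nat_lit 0) (nat_lit 0) (XT.lf (nat_lit 0) (nat_lit 21789882762) (nat_lit 76) (nat_lit 302668290) (nat_lit 152) (nat_lit 27207866997) (nat_lit 25) (nat_lit 5) (nat_lit 26) (nat_lit 5) (nat_lit 27) (nat_lit 4) (nat_lit 479) (nat_lit 402) (nat_lit 319)) (XT.lf (nat_lit 0) (nat_lit 34302649252) (nat_lit 152) (nat_lit 4947036341) (nat_lit 0) (nat_lit 11902937498) (nat_lit 25) (nat_lit 5) (nat_lit 27) (nat_lit 4) (nat_lit 25) (nat_lit 4) (nat_lit 480) (nat_lit 402) (nat_lit 318))))))))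
noncomputable def xc100 : XT := (XT.nd (nat_lit 2184) (nat_lit 532) (nat_lit 0) (XT.nd (nat_lit 1092) (nat_lit 456) (nat_lit 0) (XT.nd (nat_lit 546) (nat_lit 304) (nat_lit 0) (XT.nd (nat_lit 234) (nat_lit 152) (nat_lit 0) (XT.nd (nat_lit 78) (nat_lit 152) (nat_lit 0) (XT.lf (nat_lit 0) (nat_lit 19320546517) (nat_lit 76) (nat_lit 28090119409) (nat_lit 76) (nat_lit 5672402716) (nat_lit 24) (nat_lit 4) (nat_lit 25) (nat_lit 5) (nat_lit 25) (nat_lit 4) (nat_lit 481) (nat_lit 402) (nat_lit 317)) (XT.nd (nat_lit 78) (nat_lit 76) (nat_lit 0) (XT.lf (nat_lit 0) (nat_lit 5935945341) (nat_lit 152) (nat_lit 10266176303) (nat_lit 76) (nat_lit 38899882551) (nat_lit 23) (nat_lit 5) (nat_lit 25) (nat_lit 5) (nat_lit 24) (nat_lit 4) (nat_lit 482) (nat_lit 402) (nat_lit 316)) (XT.lf (nat_lit 0) (nat_lit 14748284195) (nat_lit 76) (nat_lit 3397803345) (nat_lit 152) (nat_lit 39060549952) (nat_lit 22) (nat_lit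 5) (nat_lit 23) (nat_lit 5) (nat_lit 24) (nat_lit 4) (nat_lit 483) (nat_lit 402) (nat_lit 315)))) (XT.nd (nat_lit 156) (nat_lit 76) (nat_lit 0) (XT.nd (nat_lit 78) (nat_lit 76) (nat_lit 0) (XT.lf (nat_lit 0) (nat_lit 31282102989) (nat_lit 152) (nat_lit 18233432376) (nat_lit 0) (nat_lit 9885199553) (nat_lit 22) (nat_lit 5) (nat_lit 24) (nat_lit 4) (nat_lit 22) (nat_lit 4) (nat_lit 484) (nat_lit 402) (nat_lit 314)) (XT.lf (nat_lit 0) (nat_lit 7348122123) (nat_lit 76) (nat_lit 37879886076) (nat_lit 76) (nat_lit 16468875299) (nat_lit 21) (nat_lit 4) (nat_lit 22) (nat_lit 5) (nat_lit 22) (nat_lit 4) (nat_lit 485) (nat_lit 402) (nat_lit 313))) (XT.nd (nat_lit 78) (nat_lit 76) (nat_lit 0) (XT.lf (nat_lit 0) (nat_lit 34808231321) (nat_lit 76) (nat_lit 25354733704) (nat_lit 76) (nat_lit 3930287365) (nat_lit 21) (nat_lit 4) (nat_lit 22) (nat_lit 5) (nat_lit 22) (nat_lit 4) (nat_lit 486) (nat_lit 402)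 (nat_lit 312)) (XT.lf (nat_lit 0) (nat_lit 8923153888) (nat_lit 152) (nat_lit 3144776641) (nat_lit 76) (nat_lit 54535124991) (nat_lit 20) (nat_lit 5) (nat_lit 22) (nat_lit 5) (nat_lit 21) (nat_lit 4) (nat_lit 487) (nat_lit 402) (nat_lit 311))))) (XT.nd (nat_lit 234) (nat_lit 152) (nat_lit 0) (XT.nd (nat_lit 78) (nat_lit 76) (nat_lit 0) (XT.lf (nat_lit 0) (nat_lit 22698536255) (nat_lit 152) (nat_lit 44245514937) (nat_lit 0) (nat_lit 2270509050) (nat_lit 19) (nat_lit 5) (nat_lit 21) (nat_lit 4) (nat_lit 19) (nat_lit 4) (nat_lit 488) (nat_lit 402) (nat_lit 310)) (XT.nd (nat_lit 78) (nat_lit 76) (nat_lit 0) (XT.lf (nat_lit 0) (nat_lit 37398986387) (nat_lit 152) (nat_lit 17585933741) (nat_lit 0) (nat_lit 16959905712) (nat_lit 19) (nat_lit 5) (nat_lit 21) (nat_lit 4) (nat_lit 19) (nat_lit 4) (nat_lit 489) (nat_lit 402) (nat_lit 309)) (XT.lf (nat_lit 0) (nat_lit 10720230026) (nat_lit 76) (nat_lit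 42266680235) (nat_lit 76) (nat_lit 21817072445) (nat_lit 18) (nat_lit 4) (nat_lit 19) (nat_lit 5) (nat_lit 19) (nat_lit 4) (nat_lit 490) (nat_lit 402) (nat_lit 308)))) (XT.nd (nat_lit 156) (nat_lit 76) (nat_lit 0) (XT.nd (nat_lit 78) (nat_lit 76) (nat_lit 0) (XT.lf (nat_lit 0) (nat_lit 41023211074) (nat_lit 76) (nat_lit 28614181190) (nat_lit 76) (nat_lit 8154547576) (nat_lit 18) (nat_lit 4) (nat_lit 19) (nat_lit 5) (nat_lit 19) (nat_lit 4) (nat_lit 491) (nat_lit 402) (nat_lit 307)) (XT.lf (nat_lit 0) (nat_lit 5978754067) (nat_lit 152) (nat_lit 8212736179) (nat_lit 76) (nat_lit 66733681807) (nat_lit 17) (nat_lit 5) (nat_lit 19) (nat_lit 5) (nat_lit 18) (nat_lit 4) (nat_lit 492) (nat_lit 402) (nat_lit 306))) (XT.nd (nat_lit 78) (nat_lit 0) (nat_lit 0) (XT.lf (nat_lit 0) (nat_lit 20902280042) (nat_lit 152) (nat_lit 61889061660) (nat_lit 0) (nat_lit 1399160295) (nat_lit 16) (nat_lit 5) (nat_lit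 18) (nat_lit 4) (nat_lit 16) (nat_lit 4) (nat_lit 493) (nat_lit 402) (nat_lit 305)) (XT.lf (nat_lit 0) (nat_lit 36932505365) (nat_lit 152) (nat_lit 33247430003) (nat_lit 0) (nat_lit 17421137347) (nat_lit 16) (nat_lit 5) (nat_lit 18) (nat_lit 4) (nat_lit 16) (nat_lit 4) (nat_lit 494) (nat_lit 402) (nat_lit 304)))))) (XT.nd (nat_lit 546) (nat_lit 228) (nat_lit 0) (XT.nd (nat_lit 234) (nat_lit 152) (nat_lit 0) (XT.nd (nat_lit 78) (nat_lit 76) (nat_lit 0) (XT.lf (nat_lit 0) (nat_lit 53751393283) (nat_lit 152) (nat_lit 3199251757) (nat_lit 0) (nat_lit 34232169770) (nat_lit 16) (nat_lit 5) (nat_lit 18) (nat_lit 4) (nat_lit 16) (nat_lit 4) (nat_lit 495) (nat_lit 402) (nat_lit 303)) (XT.nd (nat_lit 78) (nat_lit 0) (nat_lit 0) (XT.lf (nat_lit 0) (nat_lit 29263635448) (nat_lit 76) (nat_lit 42592240682) (nat_lit 76) (nat_lit 23065535745) (nat_lit 15) (nat_lit 4) (nat_lit 16) (nat_lit 5) (nat_lit 16) (nat_lit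 4) (nat_lit 496) (nat_lit 402) (nat_lit 302)) (XT.lf (nat_lit 0) (nat_lit 63436811011) (nat_lit 76) (nat_lit 27470925297) (nat_lit 76) (nat_lit 7937095194) (nat_lit 15) (nat_lit 4) (nat_lit 16) (nat_lit 5) (nat_lit 16) (nat_lit 4) (nat_lit 497) (nat_lit 402) (nat_lit 301)))) (XT.nd (nat_lit 156) (nat_lit 0) (nat_lit 0) (XT.nd (nat_lit 78) (nat_lit 76) (nat_lit 0) (XT.lf (nat_lit 0) (nat_lit 7681746124) (nat_lit 152) (nat_lit 3793036419) (nat_lit 76) (nat_lit 91484017712) (nat_lit 14) (nat_lit 5) (nat_lit 16) (nat_lit 5) (nat_lit 15) (nat_lit 4) (nat_lit 498) (nat_lit 402) (nat_lit 300)) (XT.lf (nat_lit 0) (nat_lit 24368258958) (nat_lit 152) (nat_lit 77124036078) (nat_lit 0) (nat_lit 5751993519) (nat_lit 13) (nat_lit 5) (nat_lit 15) (nat_lit 4) (nat_lit 13) (nat_lit 4) (nat_lit 499) (nat_lit 402) (nat_lit 299))) (XT.nd (nat_lit 78) (nat_lit 0) (nat_lit 0) (XT.lf (nat_lit 0) (nat_lit 42131430150)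 (nat_lit 152) (nat_lit 46091201969) (nat_lit 0) (nat_lit 23509302820) (nat_lit 13) (nat_lit 5) (nat_lit 15) (nat_lit 4) (nat_lit 13) (nat_lit 4) (nat_lit 500) (nat_lit 402) (nat_lit 298)) (XT.lf (nat_lit 0) (nat_lit 60772218527) (nat_lit 152) (nat_lit 13527764032) (nat_lit 0) (nat_lit 42144508443) (nat_lit 13) (nat_lit 5) (nat_lit 15) (nat_lit 4) (nat_lit 13) (nat_lit 4) (nat_lit 501) (nat_lit 402) (nat_lit 297))))) (XT.nd (nat_lit 234) (nat_lit 152) (nat_lit 0) (XT.nd (nat_lit 78) (nat_lit 0) (nat_lit 0) (XT.lf (nat_lit 0) (nat_lit 21326387308) (nat_lit 76) (nat_lit 59341584283) (nat_lit 76) (nat_lit 40708557291) (nat_lit 12) (nat_lit 4) (nat_lit 13) (nat_lit 5) (nat_lit 13) (nat_lit 4) (nat_lit 502) (nat_lit 402) (nat_lit 296)) (XT.nd (nat_lit 78) (nat_lit 0) (nat_lit 0) (XT.lf (nat_lit 0) (nat_lit 58373186726) (nat_lit 76) (nat_lit 43404555700) (nat_lit 76) (nat_lit 24766464986) (nat_lit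 12) (nat_lit 4) (nat_lit 13) (nat_lit 5) (nat_lit 13) (nat_lit 4) (nat_lit 503) (nat_lit 402) (nat_lit 295)) (XT.lf (nat_lit 0) (nat_lit 97253551915) (nat_lit 76) (nat_lit 26680050735) (nat_lit 76) (nat_lit 8037137428) (nat_lit 12) (nat_lit 4) (nat_lit 13) (nat_lit 5) (nat_lit 13) (nat_lit 4) (nat_lit 504) (nat_lit 402) (nat_lit 294)))) (XT.nd (nat_lit 156) (nat_lit 0) (nat_lit 0) (XT.nd (nat_lit 78) (nat_lit 0) (nat_lit 0) (XT.lf (nat_lit 0) (nat_lit 250400061) (nat_lit 76) (nat_lit 8968090823) (nat_lit 152) (nat_lit 128442929724) (nat_lit 10) (nat_lit 5) (nat_lit 11) (nat_lit 5) (nat_lit 12) (nat_lit 4) (nat_lit 505) (nat_lit 402) (nat_lit 293)) (XT.lf (nat_lit 0) (nat_lit 27805649802) (nat_lit 152) (nat_lit 105745501177) (nat_lit 0) (nat_lit 10041954101) (nat_lit 10) (nat_lit 5) (nat_lit 12) (nat_lit 4) (nat_lit 10) (nat_lit 4) (nat_lit 506) (nat_lit 402) (nat_lit 292))) (XT.nd (nat_lit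 78) (nat_lit 0) (nat_lit 0) (XT.lf (nat_lit 0) (nat_lit 47460532925) (nat_lit 152) (nat_lit 72661053077) (nat_lit 0) (nat_lit 29692869665) (nat_lit 10) (nat_lit 5) (nat_lit 12) (nat_lit 4) (nat_lit 10) (nat_lit 4) (nat_lit 507) (nat_lit 402) (nat_lit 291)) (XT.lf (nat_lit 0) (nat_lit 68089920564) (nat_lit 152) (nat_lit 37938886721) (nat_lit 0) (nat_lit 50318478677) (nat_lit 10) (nat_lit 5) (nat_lit 12) (nat_lit 4) (nat_lit 10) (nat_lit 4) (nat_lit 508) (nat_lit 402) (nat_lit 290))))))) (XT.nd (nat_lit 1092) (nat_lit 228) (nat_lit 0) (XT.nd (nat_lit 546) (nat_lit 76) (nat_lit 0) (XT.nd (nat_lit 234) (nat_lit 152) (nat_lit 0) (XT.nd (nat_lit 78) (nat_lit 76) (nat_lit 0) (XT.lf (nat_lit 0) (nat_lit 89742930309) (nat_lit 152) (nat_lit 1496330285) (nat_lit 0) (nat_lit 71967889729) (nat_lit 10) (nat_lit 5) (nat_lit 12) (nat_lit 4) (nat_lit 10) (nat_lit 4) (nat_lit 509) (nat_lit 402) (nat_lit 289))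 (XT.nd (nat_lit 78) (nat_lit 0) (nat_lit 0) (XT.lf (nat_lit 0) (nat_lit 37968617087) (nat_lit 76) (nat_lit 75095296378) (nat_lit 76) (nat_lit 57316828471) (nat_lit 9) (nat_lit 4) (nat_lit 10) (nat_lit 5) (nat_lit 10) (nat_lit 4) (nat_lit 510) (nat_lit 402) (nat_lit 288)) (XT.lf (nat_lit 0) (nat_lit 79444032735) (nat_lit 76) (nat_lit 58124906460) (nat_lit 76) (nat_lit 40343174432) (nat_lit 9) (nat_lit 4) (nat_lit 10) (nat_lit 5) (nat_lit 10) (nat_lit 4) (nat_lit 511) (nat_lit 402) (nat_lit 287)))) (XT.nd (nat_lit 156) (nat_lit 152) (nat_lit 0) (XT.nd (nat_lit 78) (nat_lit 0) (nat_lit 0) (XT.lf (nat_lit 0) (nat_lit 122979192211) (nat_lit 76) (nat_lit 40313026228) (nat_lit 76) (nat_lit 22528185514) (nat_lit 9) (nat_lit 4) (nat_lit 10) (nat_lit 5) (nat_lit 10) (nat_lit 4) (nat_lit 512) (nat_lit 402) (nat_lit 286)) (XT.lf (nat_lit 0) (nat_lit 168677750656) (nat_lit 76) (nat_lit 21617246444) (nat_lit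 76) (nat_lit 3829445077) (nat_lit 9) (nat_lit 4) (nat_lit 10) (nat_lit 5) (nat_lit 10) (nat_lit 4) (nat_lit 513) (nat_lit 402) (nat_lit 285))) (XT.nd (nat_lit 78) (nat_lit 0) (nat_lit 0) (XT.lf (nat_lit 0) (nat_lit 14006154450) (nat_lit 76) (nat_lit 1504467738) (nat_lit 152) (nat_lit 187310111648) (nat_lit 7) (nat_lit 5) (nat_lit 8) (nat_lit 5) (nat_lit 9) (nat_lit 4) (nat_lit 514) (nat_lit 402) (nat_lit 284)) (XT.lf (nat_lit 0) (nat_lit 36426801330) (nat_lit 152) (nat_lit 156004214644) (nat_lit 0) (nat_lit 19480795200) (nat_lit 7) (nat_lit 5) (nat_lit 9) (nat_lit 4) (nat_lit 7) (nat_lit 4) (nat_lit 515) (nat_lit 402) (nat_lit 283))))) (XT.nd (nat_lit 234) (nat_lit 76) (nat_lit 0) (XT.nd (nat_lit 78) (nat_lit 0) (nat_lit 0) (XT.lf (nat_lit 0) (nat_lit 58407317053) (nat_lit 152) (nat_lit 121590323884) (nat_lit 0) (nat_lit 41458875186) (nat_lit 7) (nat_lit 5) (nat_lit 9) (nat_lit 4) (nat_lit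 7) (nat_lit 4) (nat_lit 516) (nat_lit 402) (nat_lit 282)) (XT.nd (nat_lit 78) (nat_lit 0) (nat_lit 0) (XT.lf (nat_lit 0) (nat_lit 81481014962) (nat_lit 152) (nat_lit 85467480316) (nat_lit 0) (nat_lit 64530253344) (nat_lit 7) (nat_lit 5) (nat_lit 9) (nat_lit 4) (nat_lit 7) (nat_lit 4) (nat_lit 517) (nat_lit 402) (nat_lit 281)) (XT.lf (nat_lit 0) (nat_lit 105702832431) (nat_lit 152) (nat_lit 47549677167) (nat_lit 0) (nat_lit 88749861528) (nat_lit 7) (nat_lit 5) (nat_lit 9) (nat_lit 4) (nat_lit 7) (nat_lit 4) (nat_lit 518) (nat_lit 402) (nat_lit 280)))) (XT.nd (nat_lit 156) (nat_lit 0) (nat_lit 0) (XT.nd (nat_lit 78) (nat_lit 76) (nat_lit 0) (XT.lf (nat_lit 0) (nat_lit 131130440455) (nat_lit 152) (nat_lit 7746633956) (nat_lit 0) (nat_lit 114175365471) (nat_lit 7) (nat_lit 5) (nat_lit 9) (nat_lit 4) (nat_lit 7) (nat_lit 4) (nat_lit 519) (nat_lit 402) (nat_lit 279)) (XT.lf (nat_lit 0) (nat_lit 35161816177)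 (nat_lit 76) (nat_lit 123211539272) (nat_lit 76) (nat_lit 106254460402) (nat_lit 6) (nat_lit 4) (nat_lit 7) (nat_lit 5) (nat_lit 7) (nat_lit 4) (nat_lit 520) (nat_lit 402) (nat_lit 278))) (XT.nd (nat_lit 78) (nat_lit 0) (nat_lit 0) (XT.lf (nat_lit 0) (nat_lit 80474655105) (nat_lit 76) (nat_lit 106629990732) (nat_lit 76) (nat_lit 89671003398) (nat_lit 6) (nat_lit 4) (nat_lit 7) (nat_lit 5) (nat_lit 7) (nat_lit 4) (nat_lit 521) (nat_lit 402) (nat_lit 277)) (XT.lf (nat_lit 0) (nat_lit 128043631835) (nat_lit 76) (nat_lit 89224141908) (nat_lit 76) (nat_lit 72263336990) (nat_lit 6) (nat_lit 4) (nat_lit 7) (nat_lit 5) (nat_lit 7) (nat_lit 4) (nat_lit 522) (nat_lit 402) (nat_lit 276)))))) (XT.nd (nat_lit 546) (nat_lit 76) (nat_lit 0) (XT.nd (nat_lit 234) (nat_lit 152) (nat_lit 0) (XT.nd (nat_lit 78) (nat_lit 0) (nat_lit 0) (XT.lf (nat_lit 0) (nat_lit 177982005837) (nat_lit 76) (nat_lit 70952550303)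 (nat_lit 76) (nat_lit 53990014352) (nat_lit 6) (nat_lit 4) (nat_lit 7) (nat_lit 5) (nat_lit 7) (nat_lit 4) (nat_lit 523) (nat_lit 402) (nat_lit 275)) (XT.nd (nat_lit 78) (nat_lit 0) (nat_lit 0) (XT.lf (nat_lit 0) (nat_lit 230408678001) (nat_lit 76) (nat_lit 51771712127) (nat_lit 76) (nat_lit 34807527573) (nat_lit 6) (nat_lit 4) (nat_lit 7) (nat_lit 5) (nat_lit 7) (nat_lit 4) (nat_lit 524) (nat_lit 402) (nat_lit 274)) (XT.lf (nat_lit 0) (nat_lit 285448473736) (nat_lit 76) (nat_lit 31635958718) (nat_lit 76) (nat_lit 14670204066) (nat_lit 6) (nat_lit 4) (nat_lit 7) (nat_lit 5) (nat_lit 7) (nat_lit 4) (nat_lit 525) (nat_lit 402) (nat_lit 273)))) (XT.nd (nat_lit 156) (nat_lit 0) (nat_lit 0) (XT.nd (nat_lit 78) (nat_lit 76) (nat_lit 0) (XT.lf (nat_lit 0) (nat_lit 6262824902) (nat_lit 152) (nat_lit 4128458933) (nat_lit 76) (nat_lit 336863551303) (nat_lit 5) (nat_lit 5) (nat_lit 7) (nat_lit 5) (nat_lit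 6) (nat_lit 4) (nat_lit 526) (nat_lit 402) (nat_lit 272)) (XT.lf (nat_lit 0) (nat_lit 28589908492) (nat_lit 152) (nat_lit 322456823113) (nat_lit 0) (nat_lit 12429266484) (nat_lit 4) (nat_lit 5) (nat_lit 6) (nat_lit 4) (nat_lit 4) (nat_lit 4) (nat_lit 527) (nat_lit 402) (nat_lit 271))) (XT.nd (nat_lit 78) (nat_lit 0) (nat_lit 0) (XT.lf (nat_lit 0) (nat_lit 52270998746) (nat_lit 152) (nat_lit 292116272869) (nat_lit 0) (nat_lit 36109065015) (nat_lit 4) (nat_lit 5) (nat_lit 6) (nat_lit 4) (nat_lit 4) (nat_lit 4) (nat_lit 528) (nat_lit 402) (nat_lit 270)) (XT.lf (nat_lit 0) (nat_lit 77132562496) (nat_lit 152) (nat_lit 260265910165) (nat_lit 0) (nat_lit 60969398552) (nat_lit 4) (nat_lit 5) (nat_lit 6) (nat_lit 4) (nat_lit 4) (nat_lit 4) (nat_lit 529) (nat_lit 402) (nat_lit 269))))) (XT.nd (nat_lit 234) (nat_lit 76) (nat_lit 0) (XT.nd (nat_lit 78) (nat_lit 0) (nat_lit 0) (XT.lf (nat_lit 0) (nat_lit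 103233793941) (nat_lit 152) (nat_lit 226829900804) (nat_lit 0) (nat_lit 87069458366) (nat_lit 4) (nat_lit 5) (nat_lit 6) (nat_lit 4) (nat_lit 4) (nat_lit 4) (nat_lit 530) (nat_lit 402) (nat_lit 268)) (XT.nd (nat_lit 78) (nat_lit 0) (nat_lit 0) (XT.lf (nat_lit 0) (nat_lit 130636838870) (nat_lit 152) (nat_lit 191728635239) (nat_lit 0) (nat_lit 114471387456) (nat_lit 4) (nat_lit 5) (nat_lit 6) (nat_lit 4) (nat_lit 4) (nat_lit 4) (nat_lit 531) (nat_lit 402) (nat_lit 267)) (XT.lf (nat_lit 0) (nat_lit 159406942629) (nat_lit 152) (nat_lit 154878539029) (nat_lit 0) (nat_lit 143240428511) (nat_lit 4) (nat_lit 5) (nat_lit 6) (nat_lit 4) (nat_lit 4) (nat_lit 4) (nat_lit 532) (nat_lit 402) (nat_lit 266)))) (XT.nd (nat_lit 156) (nat_lit 76) (nat_lit 0) (XT.nd (nat_lit 78) (nat_lit 0) (nat_lit 0) (XT.lf (nat_lit 0) (nat_lit 189612605465) (nat_lit 152) (nat_lit 116191873850) (nat_lit 0) (nat_lit 173445079248)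 (nat_lit 4) (nat_lit 5) (nat_lit 6) (nat_lit 4) (nat_lit 4) (nat_lit 4) (nat_lit 533) (nat_lit 402) (nat_lit 265)) (XT.lf (nat_lit 0) (nat_lit 221325745622) (nat_lit 152) (nat_lit 75576528594) (nat_lit 0) (nat_lit 205157255501) (nat_lit 4) (nat_lit 5) (nat_lit 6) (nat_lit 4) (nat_lit 4) (nat_lit 4) (nat_lit 534) (nat_lit 402) (nat_lit 264))) (XT.nd (nat_lit 78) (nat_lit 76) (nat_lit 0) (XT.lf (nat_lit 0) (nat_lit 254621870576) (nat_lit 152) (nat_lit 32935800057) (nat_lit 0) (nat_lit 238452462452) (nat_lit 4) (nat_lit 5) (nat_lit 6) (nat_lit 4) (nat_lit 4) (nat_lit 4) (nat_lit 535) (nat_lit 402) (nat_lit 263)) (XT.lf (nat_lit 0) (nat_lit 12223051277) (nat_lit 76) (nat_lit 277548041625) (nat_lit 76) (nat_lit 261377759211) (nat_lit 3) (nat_lit 4) (nat_lit 4) (nat_lit 5) (nat_lit 4) (nat_lit 4) (nat_lit 536) (nat_lit 402) (nat_lit 262))))))))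
noncomputable def xc101 : XT := (XT.nd (nat_lit 53586) (nat_lit 0) (nat_lit 3724) (XT.nd (nat_lit 52494) (nat_lit 0) (nat_lit 8208) (XT.nd (nat_lit 546) (nat_lit 0) (nat_lit 0) (XT.nd (nat_lit 234) (nat_lit 0) (nat_lit 0) (XT.nd (nat_lit 78) (nat_lit 0) (nat_lit 0) (XT.lf (nat_lit 0) (nat_lit 60778256888) (nat_lit 76) (nat_lit 266454800629) (nat_lit 76) (nat_lit 250283685559) (nat_lit 3) (nat_lit 4) (nat_lit 4) (nat_lit 5) (nat_lit 4) (nat_lit 4) (nat_lit 537) (nat_lit 402) (nat_lit 261)) (XT.nd (nat_lit 78) (nat_lit 0) (nat_lit 0) (XT.lf (nat_lit 0) (nat_lit 111756418112) (nat_lit 76) (nat_lit 254809318881) (nat_lit 76) (nat_lit 238637410804) (nat_lit 3) (nat_lit 4) (nat_lit 4) (nat_lit 5) (nat_lit 4) (nat_lit 4) (nat_lit 538) (nat_lit 402) (nat_lit 260)) (XT.lf (nat_lit 0) (nat_lit 165278911525) (nat_lit 76) (nat_lit 242583869041) (nat_lit 76) (nat_lit 226411205721) (nat_lit 3) (nat_lit 4)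 (nat_lit 4) (nat_lit 5) (nat_lit 4) (nat_lit 4) (nat_lit 539) (nat_lit 402) (nat_lit 259)))) (XT.nd (nat_lit 156) (nat_lit 0) (nat_lit 0) (XT.nd (nat_lit 78) (nat_lit 0) (nat_lit 0) (XT.lf (nat_lit 0) (nat_lit 221473171636) (nat_lit 76) (nat_lit 229749342897) (nat_lit 76) (nat_lit 213575960297) (nat_lit 3) (nat_lit 4) (nat_lit 4) (nat_lit 5) (nat_lit 4) (nat_lit 4) (nat_lit 540) (nat_lit 402) (nat_lit 258)) (XT.lf (nat_lit 0) (nat_lit 280472994300) (nat_lit 76) (nat_lit 216275182052) (nat_lit 76) (nat_lit 200101114423) (nat_lit 3) (nat_lit 4) (nat_lit 4) (nat_lit 5) (nat_lit 4) (nat_lit 4) (nat_lit 541) (nat_lit 402) (nat_lit 257))) (XT.nd (nat_lit 78) (nat_lit 0) (nat_lit 0) (XT.lf (nat_lit 0) (nat_lit 342418855287) (nat_lit 76) (nat_lit 202129305171) (nat_lit 76) (nat_lit 185954585135) (nat_lit 3) (nat_lit 4) (nat_lit 4) (nat_lit 5) (nat_lit 4) (nat_lit 4) (nat_lit 542) (nat_lit 402) (nat_lit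 256)) (XT.lf (nat_lit 0) (nat_lit 407458244742) (nat_lit 76) (nat_lit 187278031596) (nat_lit 76) (nat_lit 171102690218) (nat_lit 3) (nat_lit 4) (nat_lit 4) (nat_lit 5) (nat_lit 4) (nat_lit 4) (nat_lit 543) (nat_lit 402) (nat_lit 255))))) (XT.nd (nat_lit 51636) (nat_lit 0) (nat_lit 12616) (XT.nd (nat_lit 51480) (nat_lit 0) (nat_lit 12920) (XT.lf (nat_lit 0) (nat_lit 475746018354) (nat_lit 76) (nat_lit 171686001150) (nat_lit 76) (nat_lit 155510068019) (nat_lit 3) (nat_lit 4) (nat_lit 4) (nat_lit 5) (nat_lit 4) (nat_lit 4) (nat_lit 544) (nat_lit 402) (nat_lit 254)) (XT.nd (nat_lit 78) (nat_lit 380) (nat_lit 0) (XT.lf (nat_lit 0) (nat_lit 1037337271) (nat_lit 0) (nat_lit 1037337271) (nat_lit 228) (nat_lit 1197868302) (nat_lit 178) (nat_lit 5) (nat_lit 178) (nat_lit 3) (nat_lit 181) (nat_lit 3) (nat_lit 403) (nat_lit 403) (nat_lit 394)) (XT.lf (nat_lit 0) (nat_lit 113990430) (nat_lit 380) (nat_lit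 1210528708) (nat_lit 380) (nat_lit 5260051526) (nat_lit 173) (nat_lit 3) (nat_lit 178) (nat_lit 3) (nat_lit 178) (nat_lit 5) (nat_lit 404) (nat_lit 403) (nat_lit 393)))) (XT.nd (nat_lit 156) (nat_lit 304) (nat_lit 0) (XT.nd (nat_lit 78) (nat_lit 0) (nat_lit 76) (XT.lf (nat_lit 76) (nat_lit 2158392488) (nat_lit 0) (nat_lit 384540715) (nat_lit 380) (nat_lit 4087517396) (nat_lit 174) (nat_lit 5) (nat_lit 173) (nat_lit 3) (nat_lit 178) (nat_lit 5) (nat_lit 405) (nat_lit 403) (nat_lit 392)) (XT.lf (nat_lit 0) (nat_lit 4971520014) (nat_lit 304) (nat_lit 1040820601) (nat_lit 380) (nat_lit 672465997) (nat_lit 174) (nat_lit 5) (nat_lit 178) (nat_lit 5) (nat_lit 179) (nat_lit 5) (nat_lit 406) (nat_lit 403) (nat_lit 391))) (XT.nd (nat_lit 78) (nat_lit 0) (nat_lit 0) (XT.lf (nat_lit 0) (nat_lit 654316438) (nat_lit 380) (nat_lit 4207072474) (nat_lit 456) (nat_lit 1884985537) (nat_lit 169) (nat_lit 5) (nat_lit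 174) (nat_lit 5) (nat_lit 175) (nat_lit 5) (nat_lit 407) (nat_lit 403) (nat_lit 390)) (XT.lf (nat_lit 0) (nat_lit 2959029116) (nat_lit 380) (nat_lit 594228923) (nat_lit 456) (nat_lit 3262622358) (nat_lit 169) (nat_lit 5) (nat_lit 174) (nat_lit 5) (nat_lit 175) (nat_lit 5) (nat_lit 408) (nat_lit 403) (nat_lit 389)))))) (XT.nd (nat_lit 546) (nat_lit 2964) (nat_lit 0) (XT.nd (nat_lit 234) (nat_lit 988) (nat_lit 0) (XT.nd (nat_lit 78) (nat_lit 456) (nat_lit 0) (XT.lf (nat_lit 76) (nat_lit 3216215224) (nat_lit 0) (nat_lit 2078110991) (nat_lit 456) (nat_lit 1598843617) (nat_lit 170) (nat_lit 5) (nat_lit 169) (nat_lit 5) (nat_lit 175) (nat_lit 5) (nat_lit 409) (nat_lit 403) (nat_lit 388)) (XT.nd (nat_lit 78) (nat_lit 0) (nat_lit 76) (XT.lf (nat_lit 76) (nat_lit 168127786) (nat_lit 0) (nat_lit 460118304) (nat_lit 532) (nat_lit 6351498913) (nat_lit 164) (nat_lit 5) (nat_lit 163) (nat_lit 5) (nat_lit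 170) (nat_lit 5) (nat_lit 410) (nat_lit 403) (nat_lit 387)) (XT.lf (nat_lit 0) (nat_lit 2869162635) (nat_lit 456) (nat_lit 2875610900) (nat_lit 76) (nat_lit 1326820004) (nat_lit 164) (nat_lit 5) (nat_lit 170) (nat_lit 5) (nat_lit 165) (nat_lit 5) (nat_lit 411) (nat_lit 403) (nat_lit 386)))) (XT.nd (nat_lit 156) (nat_lit 532) (nat_lit 0) (XT.nd (nat_lit 78) (nat_lit 76) (nat_lit 0) (XT.lf (nat_lit 0) (nat_lit 1197874901) (nat_lit 456) (nat_lit 3930087025) (nat_lit 532) (nat_lit 2044842949) (nat_lit 158) (nat_lit 5) (nat_lit 164) (nat_lit 5) (nat_lit 165) (nat_lit 5) (nat_lit 412) (nat_lit 403) (nat_lit 385)) (XT.lf (nat_lit 0) (nat_lit 145042547) (nat_lit 532) (nat_lit 1798637546) (nat_lit 76) (nat_lit 5338706916) (nat_lit 157) (nat_lit 5) (nat_lit 164) (nat_lit 5) (nat_lit 158) (nat_lit 5) (nat_lit 413) (nat_lit 403) (nat_lit 384))) (XT.nd (nat_lit 78) (nat_lit 0) (nat_lit 0) (XT.lf (nat_lit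 0) (nat_lit 2306853826) (nat_lit 608) (nat_lit 4857023944) (nat_lit 76) (nat_lit 235390544) (nat_lit 150) (nat_lit 5) (nat_lit 158) (nat_lit 5) (nat_lit 151) (nat_lit 5) (nat_lit 414) (nat_lit 403) (nat_lit 383)) (XT.lf (nat_lit 0) (nat_lit 4531515382) (nat_lit 608) (nat_lit 482816461) (nat_lit 76) (nat_lit 2509975045) (nat_lit 150) (nat_lit 5) (nat_lit 158) (nat_lit 5) (nat_lit 151) (nat_lit 5) (nat_lit 415) (nat_lit 403) (nat_lit 382))))) (XT.nd (nat_lit 234) (nat_lit 1596) (nat_lit 0) (XT.nd (nat_lit 78) (nat_lit 760) (nat_lit 0) (XT.lf (nat_lit 0) (nat_lit 4154895554) (nat_lit 608) (nat_lit 2674465882) (nat_lit 684) (nat_lit 828187135) (nat_lit 142) (nat_lit 5) (nat_lit 150) (nat_lit 5) (nat_lit 151) (nat_lit 5) (nat_lit 416) (nat_lit 403) (nat_lit 381)) (XT.nd (nat_lit 78) (nat_lit 0) (nat_lit 0) (XT.lf (nat_lit 0) (nat_lit 1168779876) (nat_lit 684) (nat_lit 155142609) (nat_lit 760) (nat_lit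 6476170683) (nat_lit 132) (nat_lit 5) (nat_lit 141) (nat_lit 5) (nat_lit 142) (nat_lit 5) (nat_lit 417) (nat_lit 403) (nat_lit 380)) (XT.lf (nat_lit 0) (nat_lit 3557495068) (nat_lit 760) (nat_lit 1898597485) (nat_lit 76) (nat_lit 2492951213) (nat_lit 132) (nat_lit 5) (nat_lit 142) (nat_lit 5) (nat_lit 133) (nat_lit 5) (nat_lit 418) (nat_lit 403) (nat_lit 379)))) (XT.nd (nat_lit 156) (nat_lit 456) (nat_lit 0) (XT.nd (nat_lit 78) (nat_lit 380) (nat_lit 0) (XT.lf (nat_lit 0) (nat_lit 3077412338) (nat_lit 760) (nat_lit 2783086447) (nat_lit 836) (nat_lit 2247095590) (nat_lit 122) (nat_lit 5) (nat_lit 132) (nat_lit 5) (nat_lit 133) (nat_lit 5) (nat_lit 419) (nat_lit 403) (nat_lit 378)) (XT.lf (nat_lit 0) (nat_lit 2443488) (nat_lit 380) (nat_lit 8219537661) (nat_lit 456) (nat_lit 54963142) (nat_lit 117) (nat_lit 5) (nat_lit 122) (nat_lit 5) (nat_lit 123) (nat_lit 5) (nat_lit 420) (nat_lit 403) (nat_lit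 377))) (XT.nd (nat_lit 78) (nat_lit 380) (nat_lit 0) (XT.lf (nat_lit 0) (nat_lit 2218710876) (nat_lit 456) (nat_lit 3165143069) (nat_lit 76) (nat_lit 3066996188) (nat_lit 116) (nat_lit 5) (nat_lit 122) (nat_lit 5) (nat_lit 117) (nat_lit 5) (nat_lit 421) (nat_lit 403) (nat_lit 376)) (XT.lf (nat_lit 0) (nat_lit 2179119051) (nat_lit 380) (nat_lit 2374968712) (nat_lit 456) (nat_lit 4081858136) (nat_lit 111) (nat_lit 5) (nat_lit 116) (nat_lit 5) (nat_lit 117) (nat_lit 5) (nat_lit 422) (nat_lit 403) (nat_lit 375))))))) (XT.nd (nat_lit 1092) (nat_lit 1748) (nat_lit 0) (XT.nd (nat_lit 546) (nat_lit 1368) (nat_lit 0) (XT.nd (nat_lit 234) (nat_lit 608) (nat_lit 0) (XT.nd (nat_lit 78) (nat_lit 760) (nat_lit 0) (XT.lf (nat_lit 0) (nat_lit 6991339090) (nat_lit 456) (nat_lit 1032232935) (nat_lit 76) (nat_lit 807500573) (nat_lit 111) (nat_lit 5) (nat_lit 117) (nat_lit 5) (nat_lit 112) (nat_lit 5) (nat_lit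 423) (nat_lit 403) (nat_lit 374)) (XT.nd (nat_lit 78) (nat_lit 304) (nat_lit 0) (XT.lf (nat_lit 0) (nat_lit 532941500) (nat_lit 456) (nat_lit 4355783057) (nat_lit 76) (nat_lit 4145112378) (nat_lit 105) (nat_lit 5) (nat_lit 111) (nat_lit 5) (nat_lit 106) (nat_lit 5) (nat_lit 424) (nat_lit 403) (nat_lit 373)) (XT.lf (nat_lit 0) (nat_lit 1389098502) (nat_lit 304) (nat_lit 1536137512) (nat_lit 380) (nat_lit 6321881999) (nat_lit 101) (nat_lit 5) (nat_lit 105) (nat_lit 5) (nat_lit 106) (nat_lit 5) (nat_lit 425) (nat_lit 403) (nat_lit 372)))) (XT.nd (nat_lit 156) (nat_lit 304) (nat_lit 0) (XT.nd (nat_lit 78) (nat_lit 304) (nat_lit 0) (XT.lf (nat_lit 0) (nat_lit 5468540331) (nat_lit 380) (nat_lit 2017965713) (nat_lit 76) (nat_lit 1983013202) (nat_lit 101) (nat_lit 5) (nat_lit 106) (nat_lit 5) (nat_lit 102) (nat_lit 5) (nat_lit 426) (nat_lit 403) (nat_lit 371)) (XT.lf (nat_lit 0) (nat_lit 4134719621)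 (nat_lit 304) (nat_lit 4023019242) (nat_lit 380) (nat_lit 1544389848) (nat_lit 97) (nat_lit 5) (nat_lit 101) (nat_lit 5) (nat_lit 102) (nat_lit 5) (nat_lit 427) (nat_lit 403) (nat_lit 370))) (XT.nd (nat_lit 78) (nat_lit 0) (nat_lit 0) (XT.lf (nat_lit 0) (nat_lit 636624243) (nat_lit 228) (nat_lit 339842968) (nat_lit 304) (nat_lit 8970387492) (nat_lit 93) (nat_lit 5) (nat_lit 96) (nat_lit 5) (nat_lit 97) (nat_lit 5) (nat_lit 428) (nat_lit 403) (nat_lit 369)) (XT.lf (nat_lit 0) (nat_lit 3653977666) (nat_lit 304) (nat_lit 3026099422) (nat_lit 76) (nat_lit 3518369675) (nat_lit 93) (nat_lit 5) (nat_lit 97) (nat_lit 5) (nat_lit 94) (nat_lit 5) (nat_lit 429) (nat_lit 403) (nat_lit 368))))) (XT.nd (nat_lit 234) (nat_lit 760) (nat_lit 0) (XT.nd (nat_lit 78) (nat_lit 304) (nat_lit 0) (XT.lf (nat_lit 0) (nat_lit 3596829606) (nat_lit 304) (nat_lit 2865124372) (nat_lit 380) (nat_lit 4000855188) (nat_lit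 89) (nat_lit 5) (nat_lit 93) (nat_lit 5) (nat_lit 94) (nat_lit 5) (nat_lit 430) (nat_lit 403) (nat_lit 367)) (XT.nd (nat_lit 78) (nat_lit 304) (nat_lit 0) (XT.lf (nat_lit 0) (nat_lit 9416568462) (nat_lit 380) (nat_lit 186968855) (nat_lit 76) (nat_lit 1136559697) (nat_lit 89) (nat_lit 5) (nat_lit 94) (nat_lit 5) (nat_lit 90) (nat_lit 5) (nat_lit 431) (nat_lit 403) (nat_lit 366)) (XT.lf (nat_lit 0) (nat_lit 1535933574) (nat_lit 304) (nat_lit 4133218562) (nat_lit 76) (nat_lit 5356159100) (nat_lit 85) (nat_lit 5) (nat_lit 89) (nat_lit 5) (nat_lit 86) (nat_lit 5) (nat_lit 432) (nat_lit 403) (nat_lit 365)))) (XT.nd (nat_lit 156) (nat_lit 532) (nat_lit 0) (XT.nd (nat_lit 78) (nat_lit 0) (nat_lit 0) (XT.lf (nat_lit 0) (nat_lit 2998168308) (nat_lit 228) (nat_lit 1485761715) (nat_lit 304) (nat_lit 6840285930) (nat_lit 82) (nat_lit 5) (nat_lit 85) (nat_lit 5) (nat_lit 86) (nat_lit 5) (nat_lit 433) (nat_lit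 403) (nat_lit 364)) (XT.lf (nat_lit 0) (nat_lit 7637085566) (nat_lit 304) (nat_lit 1135723496) (nat_lit 76) (nat_lit 2862384753) (nat_lit 82) (nat_lit 5) (nat_lit 86) (nat_lit 5) (nat_lit 83) (nat_lit 5) (nat_lit 434) (nat_lit 403) (nat_lit 363))) (XT.nd (nat_lit 78) (nat_lit 304) (nat_lit 0) (XT.lf (nat_lit 0) (nat_lit 6518146010) (nat_lit 228) (nat_lit 4499905140) (nat_lit 304) (nat_lit 940176921) (nat_lit 79) (nat_lit 5) (nat_lit 82) (nat_lit 5) (nat_lit 83) (nat_lit 5) (nat_lit 435) (nat_lit 403) (nat_lit 362)) (XT.lf (nat_lit 0) (nat_lit 2198132791) (nat_lit 304) (nat_lit 10043315680) (nat_lit 76) (nat_lit 54198879) (nat_lit 75) (nat_lit 5) (nat_lit 79) (nat_lit 5) (nat_lit 76) (nat_lit 5) (nat_lit 436) (nat_lit 403) (nat_lit 361)))))) (XT.nd (nat_lit 546) (nat_lit 912) (nat_lit 0) (XT.nd (nat_lit 234) (nat_lit 456) (nat_lit 0) (XT.nd (nat_lit 78) (nat_lit 380) (nat_lit 0) (XT.lf (nat_lit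 0) (nat_lit 5574727491) (nat_lit 304) (nat_lit 2299593197) (nat_lit 76) (nat_lit 4769211044) (nat_lit 75) (nat_lit 5) (nat_lit 79) (nat_lit 5) (nat_lit 76) (nat_lit 5) (nat_lit 437) (nat_lit 403) (nat_lit 360)) (XT.nd (nat_lit 78) (nat_lit 228) (nat_lit 0) (XT.lf (nat_lit 0) (nat_lit 5943640870) (nat_lit 152) (nat_lit 3217456439) (nat_lit 228) (nat_lit 3845678191) (nat_lit 73) (nat_lit 5) (nat_lit 75) (nat_lit 5) (nat_lit 76) (nat_lit 5) (nat_lit 438) (nat_lit 403) (nat_lit 359)) (XT.lf (nat_lit 0) (nat_lit 1226357935) (nat_lit 228) (nat_lit 11734280057) (nat_lit 304) (nat_lit 425862689) (nat_lit 70) (nat_lit 5) (nat_lit 73) (nat_lit 5) (nat_lit 74) (nat_lit 5) (nat_lit 439) (nat_lit 403) (nat_lit 358)))) (XT.nd (nat_lit 156) (nat_lit 228) (nat_lit 0) (XT.nd (nat_lit 78) (nat_lit 152) (nat_lit 0) (XT.lf (nat_lit 0) (nat_lit 3187374061) (nat_lit 304) (nat_lit 3787008038) (nat_lit 76) (nat_lit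 6802183662) (nat_lit 69) (nat_lit 5) (nat_lit 73) (nat_lit 5) (nat_lit 70) (nat_lit 5) (nat_lit 440) (nat_lit 403) (nat_lit 357)) (XT.lf (nat_lit 0) (nat_lit 5085131109) (nat_lit 152) (nat_lit 1913036911) (nat_lit 228) (nat_lit 7186066882) (nat_lit 67) (nat_lit 5) (nat_lit 69) (nat_lit 5) (nat_lit 70) (nat_lit 5) (nat_lit 441) (nat_lit 403) (nat_lit 356))) (XT.nd (nat_lit 78) (nat_lit 228) (nat_lit 0) (XT.lf (nat_lit 0) (nat_lit 11070318778) (nat_lit 228) (nat_lit 207032102) (nat_lit 76) (nat_lit 3331405507) (nat_lit 67) (nat_lit 5) (nat_lit 70) (nat_lit 5) (nat_lit 68) (nat_lit 5) (nat_lit 442) (nat_lit 403) (nat_lit 355)) (XT.lf (nat_lit 0) (nat_lit 416115993) (nat_lit 228) (nat_lit 5730446674) (nat_lit 76) (nat_lit 8901028754) (nat_lit 64) (nat_lit 5) (nat_lit 67) (nat_lit 5) (nat_lit 65) (nat_lit 5) (nat_lit 443) (nat_lit 403) (nat_lit 354))))) (XT.nd (nat_lit 312) (nat_lit 380) (nat_lit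 0) (XT.nd (nat_lit 156) (nat_lit 380) (nat_lit 0) (XT.nd (nat_lit 78) (nat_lit 0) (nat_lit 0) (XT.lf (nat_lit 0) (nat_lit 3807477698) (nat_lit 152) (nat_lit 660106780) (nat_lit 228) (nat_lit 11036986691) (nat_lit 62) (nat_lit 5) (nat_lit 64) (nat_lit 5) (nat_lit 65) (nat_lit 5) (nat_lit 444) (nat_lit 403) (nat_lit 353)) (XT.lf (nat_lit 0) (nat_lit 8855579526) (nat_lit 228) (nat_lit 2112967420) (nat_lit 76) (nat_lit 5009163317) (nat_lit 62) (nat_lit 5) (nat_lit 65) (nat_lit 5) (nat_lit 63) (nat_lit 5) (nat_lit 445) (nat_lit 403) (nat_lit 352))) (XT.nd (nat_lit 78) (nat_lit 228) (nat_lit 0) (XT.lf (nat_lit 0) (nat_lit 8129805549) (nat_lit 152) (nat_lit 5428708314) (nat_lit 228) (nat_lit 2911223107) (nat_lit 60) (nat_lit 5) (nat_lit 62) (nat_lit 5) (nat_lit 63) (nat_lit 5) (nat_lit 446) (nat_lit 403) (nat_lit 351)) (XT.lf (nat_lit 0) (nat_lit 1493711629) (nat_lit 228) (nat_lit 15049798306) (nat_lit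 76) (nat_lit 440092130) (nat_lit 57) (nat_lit 5) (nat_lit 60) (nat_lit 5) (nat_lit 58) (nat_lit 5) (nat_lit 447) (nat_lit 403) (nat_lit 350)))) (XT.nd (nat_lit 156) (nat_lit 228) (nat_lit 0) (XT.nd (nat_lit 78) (nat_lit 152) (nat_lit 0) (XT.lf (nat_lit 0) (nat_lit 6212131211) (nat_lit 228) (nat_lit 4715061814) (nat_lit 76) (nat_lit 6584034023) (nat_lit 57) (nat_lit 5) (nat_lit 60) (nat_lit 5) (nat_lit 58) (nat_lit 5) (nat_lit 448) (nat_lit 403) (nat_lit 349)) (XT.lf (nat_lit 0) (nat_lit 6269752141) (nat_lit 152) (nat_lit 4955106013) (nat_lit 228) (nat_lit 6837462087) (nat_lit 55) (nat_lit 5) (nat_lit 57) (nat_lit 5) (nat_lit 58) (nat_lit 5) (nat_lit 449) (nat_lit 403) (nat_lit 348))) (XT.nd (nat_lit 78) (nat_lit 228) (nat_lit 0) (XT.lf (nat_lit 0) (nat_lit 16550836336) (nat_lit 228) (nat_lit 759074035) (nat_lit 76) (nat_lit 1327932961) (nat_lit 55) (nat_lit 5) (nat_lit 58) (nat_lit 5) (nat_lit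 56) (nat_lit 4) (nat_lit 450) (nat_lit 403) (nat_lit 347)) (XT.lf (nat_lit 0) (nat_lit 3027931564) (nat_lit 228) (nat_lit 8246695000) (nat_lit 76) (nat_lit 7954266329) (nat_lit 52) (nat_lit 5) (nat_lit 55) (nat_lit 5) (nat_lit 53) (nat_lit 5) (nat_lit 451) (nat_lit 403) (nat_lit 346))))))))
noncomputable def xc102 : XT := (XT.nd (nat_lit 2184) (nat_lit 1216) (nat_lit 0) (XT.nd (nat_lit 1092) (nat_lit 836) (nat_lit 0) (XT.nd (nat_lit 546) (nat_lit 532) (nat_lit 0) (XT.nd (nat_lit 234) (nat_lit 380) (nat_lit 0) (XT.nd (nat_lit 78) (nat_lit 76) (nat_lit 0) (XT.lf (nat_lit 0) (nat_lit 3500947168) (nat_lit 152) (nat_lit 4858212380) (nat_lit 228) (nat_lit 11487095910) (nat_lit 50) (nat_lit 5) (nat_lit 52) (nat_lit 5) (nat_lit 53) (nat_lit 5) (nat_lit 452) (nat_lit 403) (nat_lit 345)) (XT.nd (nat_lit 78) (nat_lit 76) (nat_lit 0) (XT.lf (nat_lit 0) (nat_lit 14091533312) (nat_lit 228) (nat_lit 4461914149)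 (nat_lit 76) (nat_lit 1934314393) (nat_lit 50) (nat_lit 5) (nat_lit 53) (nat_lit 5) (nat_lit 51) (nat_lit 4) (nat_lit 453) (nat_lit 403) (nat_lit 344)) (XT.lf (nat_lit 0) (nat_lit 8134393685) (nat_lit 76) (nat_lit 12147819648) (nat_lit 152) (nat_lit 870550544) (nat_lit 49) (nat_lit 5) (nat_lit 50) (nat_lit 5) (nat_lit 51) (nat_lit 4) (nat_lit 454) (nat_lit 403) (nat_lit 343)))) (XT.nd (nat_lit 156) (nat_lit 152) (nat_lit 0) (XT.nd (nat_lit 78) (nat_lit 152) (nat_lit 0) (XT.lf (nat_lit 0) (nat_lit 4815569941) (nat_lit 152) (nat_lit 472165538) (nat_lit 76) (nat_lit 16557335389) (nat_lit 48) (nat_lit 5) (nat_lit 50) (nat_lit 5) (nat_lit 49) (nat_lit 5) (nat_lit 455) (nat_lit 403) (nat_lit 342)) (XT.lf (nat_lit 0) (nat_lit 10960335812) (nat_lit 228) (nat_lit 9550376569) (nat_lit 76) (nat_lit 2050391533) (nat_lit 46) (nat_lit 5) (nat_lit 49) (nat_lit 5) (nat_lit 47) (nat_lit 4) (nat_lit 456) (nat_lit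 403) (nat_lit 341))) (XT.nd (nat_lit 78) (nat_lit 76) (nat_lit 0) (XT.lf (nat_lit 0) (nat_lit 3848546577) (nat_lit 76) (nat_lit 13685808481) (nat_lit 152) (nat_lit 5772486655) (nat_lit 45) (nat_lit 5) (nat_lit 46) (nat_lit 5) (nat_lit 47) (nat_lit 4) (nat_lit 457) (nat_lit 403) (nat_lit 340)) (XT.lf (nat_lit 0) (nat_lit 467725571) (nat_lit 152) (nat_lit 5900430802) (nat_lit 76) (nat_lit 17714861003) (nat_lit 44) (nat_lit 5) (nat_lit 46) (nat_lit 5) (nat_lit 45) (nat_lit 5) (nat_lit 458) (nat_lit 403) (nat_lit 339))))) (XT.nd (nat_lit 234) (nat_lit 304) (nat_lit 0) (XT.nd (nat_lit 78) (nat_lit 76) (nat_lit 0) (XT.lf (nat_lit 0) (nat_lit 6950605945) (nat_lit 228) (nat_lit 16457518525) (nat_lit 76) (nat_lit 1478916591) (nat_lit 42) (nat_lit 5) (nat_lit 45) (nat_lit 5) (nat_lit 43) (nat_lit 4) (nat_lit 459) (nat_lit 403) (nat_lit 338)) (XT.nd (nat_lit 78) (nat_lit 76) (nat_lit 0) (XT.lf (nat_lit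 0) (nat_lit 13932609705) (nat_lit 228) (nat_lit 2208430488) (nat_lit 76) (nat_lit 9581479941) (nat_lit 42) (nat_lit 5) (nat_lit 45) (nat_lit 5) (nat_lit 43) (nat_lit 4) (nat_lit 460) (nat_lit 403) (nat_lit 337)) (XT.lf (nat_lit 0) (nat_lit 13118756055) (nat_lit 76) (nat_lit 8320272019) (nat_lit 152) (nat_lit 5151982386) (nat_lit 41) (nat_lit 5) (nat_lit 42) (nat_lit 5) (nat_lit 43) (nat_lit 4) (nat_lit 461) (nat_lit 403) (nat_lit 336)))) (XT.nd (nat_lit 156) (nat_lit 76) (nat_lit 0) (XT.nd (nat_lit 78) (nat_lit 0) (nat_lit 0) (XT.lf (nat_lit 0) (nat_lit 1760946509) (nat_lit 152) (nat_lit 34809190) (nat_lit 228) (nat_lit 25703948466) (nat_lit 38) (nat_lit 5) (nat_lit 40) (nat_lit 5) (nat_lit 41) (nat_lit 5) (nat_lit 462) (nat_lit 403) (nat_lit 335)) (XT.lf (nat_lit 0) (nat_lit 9255693728) (nat_lit 228) (nat_lit 10496896259) (nat_lit 76) (nat_lit 8680124571) (nat_lit 38) (nat_lit 5) (nat_lit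 41) (nat_lit 5) (nat_lit 39) (nat_lit 4) (nat_lit 463) (nat_lit 403) (nat_lit 334))) (XT.nd (nat_lit 78) (nat_lit 0) (nat_lit 0) (XT.lf (nat_lit 0) (nat_lit 5634913760) (nat_lit 76) (nat_lit 11514424410) (nat_lit 152) (nat_lit 12260004312) (nat_lit 37) (nat_lit 5) (nat_lit 38) (nat_lit 5) (nat_lit 39) (nat_lit 4) (nat_lit 464) (nat_lit 403) (nat_lit 333)) (XT.lf (nat_lit 0) (nat_lit 22886654099) (nat_lit 76) (nat_lit 2701470804) (nat_lit 152) (nat_lit 4839156261) (nat_lit 37) (nat_lit 5) (nat_lit 38) (nat_lit 5) (nat_lit 39) (nat_lit 4) (nat_lit 465) (nat_lit 403) (nat_lit 332)))))) (XT.nd (nat_lit 546) (nat_lit 380) (nat_lit 0) (XT.nd (nat_lit 234) (nat_lit 228) (nat_lit 0) (XT.nd (nat_lit 78) (nat_lit 76) (nat_lit 0) (XT.lf (nat_lit 0) (nat_lit 3088732218) (nat_lit 152) (nat_lit 21872384224) (nat_lit 76) (nat_lit 6521172265) (nat_lit 35) (nat_lit 5) (nat_lit 37) (nat_lit 5) (nat_lit 36) (nat_lit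 4) (nat_lit 466) (nat_lit 403) (nat_lit 331)) (XT.nd (nat_lit 78) (nat_lit 76) (nat_lit 0) (XT.lf (nat_lit 0) (nat_lit 11398176006) (nat_lit 152) (nat_lit 4879292108) (nat_lit 76) (nat_lit 16301224622) (nat_lit 35) (nat_lit 5) (nat_lit 37) (nat_lit 5) (nat_lit 36) (nat_lit 4) (nat_lit 467) (nat_lit 403) (nat_lit 330)) (XT.lf (nat_lit 0) (nat_lit 13343209704) (nat_lit 76) (nat_lit 6963163540) (nat_lit 152) (nat_lit 13414381610) (nat_lit 34) (nat_lit 5) (nat_lit 35) (nat_lit 5) (nat_lit 36) (nat_lit 4) (nat_lit 468) (nat_lit 403) (nat_lit 329)))) (XT.nd (nat_lit 156) (nat_lit 76) (nat_lit 0) (XT.nd (nat_lit 78) (nat_lit 152) (nat_lit 0) (XT.lf (nat_lit 0) (nat_lit 29763026338) (nat_lit 152) (nat_lit 2362323070) (nat_lit 0) (nat_lit 2789420222) (nat_lit 34) (nat_lit 5) (nat_lit 36) (nat_lit 4) (nat_lit 34) (nat_lit 4) (nat_lit 469) (nat_lit 403) (nat_lit 328)) (XT.lf (nat_lit 0) (nat_lit 3771892238)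 (nat_lit 152) (nat_lit 19275178024) (nat_lit 76) (nat_lit 13100632762) (nat_lit 32) (nat_lit 5) (nat_lit 34) (nat_lit 5) (nat_lit 33) (nat_lit 4) (nat_lit 470) (nat_lit 403) (nat_lit 327))) (XT.nd (nat_lit 78) (nat_lit 76) (nat_lit 0) (XT.lf (nat_lit 0) (nat_lit 12985558671) (nat_lit 152) (nat_lit 419496120) (nat_lit 76) (nat_lit 24032158083) (nat_lit 32) (nat_lit 5) (nat_lit 34) (nat_lit 5) (nat_lit 33) (nat_lit 4) (nat_lit 471) (nat_lit 403) (nat_lit 326)) (XT.lf (nat_lit 0) (nat_lit 19975222976) (nat_lit 76) (nat_lit 2974000891) (nat_lit 152) (nat_lit 15827510105) (nat_lit 31) (nat_lit 5) (nat_lit 32) (nat_lit 5) (nat_lit 33) (nat_lit 4) (nat_lit 472) (nat_lit 403) (nat_lit 325))))) (XT.nd (nat_lit 234) (nat_lit 152) (nat_lit 0) (XT.nd (nat_lit 78) (nat_lit 152) (nat_lit 0) (XT.lf (nat_lit 0) (nat_lit 1088338391) (nat_lit 76) (nat_lit 32449057620) (nat_lit 76) (nat_lit 6639520381) (nat_lit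 30) (nat_lit 4) (nat_lit 31) (nat_lit 5) (nat_lit 31) (nat_lit 4) (nat_lit 473) (nat_lit 403) (nat_lit 324)) (XT.nd (nat_lit 78) (nat_lit 76) (nat_lit 0) (XT.lf (nat_lit 0) (nat_lit 3261570703) (nat_lit 152) (nat_lit 19149918791) (nat_lit 76) (nat_lit 19215773072) (nat_lit 29) (nat_lit 5) (nat_lit 31) (nat_lit 5) (nat_lit 30) (nat_lit 4) (nat_lit 474) (nat_lit 403) (nat_lit 323)) (XT.lf (nat_lit 0) (nat_lit 1689746960) (nat_lit 76) (nat_lit 11749872772) (nat_lit 152) (nat_lit 29704813602) (nat_lit 28) (nat_lit 5) (nat_lit 29) (nat_lit 5) (nat_lit 30) (nat_lit 4) (nat_lit 475) (nat_lit 403) (nat_lit 322)))) (XT.nd (nat_lit 156) (nat_lit 76) (nat_lit 0) (XT.nd (nat_lit 78) (nat_lit 76) (nat_lit 0) (XT.lf (nat_lit 0) (nat_lit 24195737601) (nat_lit 76) (nat_lit 234184073) (nat_lit 152) (nat_lit 20292374639) (nat_lit 28) (nat_lit 5) (nat_lit 29) (nat_lit 5) (nat_lit 30) (nat_lit 4) (nat_lit 476)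 (nat_lit 403) (nat_lit 321)) (XT.lf (nat_lit 0) (nat_lit 1264025944) (nat_lit 76) (nat_lit 34890318300) (nat_lit 76) (nat_lit 10215479058) (nat_lit 27) (nat_lit 4) (nat_lit 28) (nat_lit 5) (nat_lit 28) (nat_lit 4) (nat_lit 477) (nat_lit 403) (nat_lit 320))) (XT.nd (nat_lit 78) (nat_lit 0) (nat_lit 0) (XT.lf (nat_lit 0) (nat_lit 690514738) (nat_lit 152) (nat_lit 23280126994) (nat_lit 76) (nat_lit 24111953599) (nat_lit 26) (nat_lit 5) (nat_lit 28) (nat_lit 5) (nat_lit 27) (nat_lit 4) (nat_lit 478) (nat_lit 403) (nat_lit 319)) (XT.lf (nat_lit 0) (nat_lit 11779243034) (nat_lit 152) (nat_lit 568084432) (nat_lit 76) (nat_lit 37526269042) (nat_lit 26) (nat_lit 5) (nat_lit 28) (nat_lit 5) (nat_lit 27) (nat_lit 4) (nat_lit 479) (nat_lit 403) (nat_lit 318))))))) (XT.nd (nat_lit 1092) (nat_lit 532) (nat_lit 0) (XT.nd (nat_lit 546) (nat_lit 304) (nat_lit 0) (XT.nd (nat_lit 234) (nat_lit 228) (nat_lit 0)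 (XT.nd (nat_lit 78) (nat_lit 76) (nat_lit 0) (XT.lf (nat_lit 0) (nat_lit 23782613544) (nat_lit 152) (nat_lit 27727518770) (nat_lit 0) (nat_lit 226006078) (nat_lit 25) (nat_lit 5) (nat_lit 27) (nat_lit 4) (nat_lit 25) (nat_lit 4) (nat_lit 480) (nat_lit 403) (nat_lit 317)) (XT.nd (nat_lit 78) (nat_lit 76) (nat_lit 0) (XT.lf (nat_lit 0) (nat_lit 36580064300) (nat_lit 152) (nat_lit 4095739103) (nat_lit 0) (nat_lit 13006309272) (nat_lit 25) (nat_lit 5) (nat_lit 27) (nat_lit 4) (nat_lit 25) (nat_lit 4) (nat_lit 481) (nat_lit 403) (nat_lit 316)) (XT.lf (nat_lit 0) (nat_lit 21367502751) (nat_lit 76) (nat_lit 28966080025) (nat_lit 76) (nat_lit 5375993987) (nat_lit 24) (nat_lit 4) (nat_lit 25) (nat_lit 5) (nat_lit 25) (nat_lit 4) (nat_lit 482) (nat_lit 403) (nat_lit 315)))) (XT.nd (nat_lit 156) (nat_lit 76) (nat_lit 0) (XT.nd (nat_lit 78) (nat_lit 76) (nat_lit 0) (XT.lf (nat_lit 0) (nat_lit 6767470531)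 (nat_lit 152) (nat_lit 9732324791) (nat_lit 76) (nat_lit 41330548983) (nat_lit 23) (nat_lit 5) (nat_lit 25) (nat_lit 5) (nat_lit 24) (nat_lit 4) (nat_lit 483) (nat_lit 403) (nat_lit 314)) (XT.lf (nat_lit 0) (nat_lit 16515969049) (nat_lit 76) (nat_lit 3062772969) (nat_lit 152) (nat_lit 40461937269) (nat_lit 22) (nat_lit 5) (nat_lit 23) (nat_lit 5) (nat_lit 24) (nat_lit 4) (nat_lit 484) (nat_lit 403) (nat_lit 313))) (XT.nd (nat_lit 78) (nat_lit 76) (nat_lit 0) (XT.lf (nat_lit 0) (nat_lit 33354049400) (nat_lit 152) (nat_lit 18146363518) (nat_lit 0) (nat_lit 10844945181) (nat_lit 22) (nat_lit 5) (nat_lit 24) (nat_lit 4) (nat_lit 22) (nat_lit 4) (nat_lit 485) (nat_lit 403) (nat_lit 312)) (XT.lf (nat_lit 0) (nat_lit 8698159989) (nat_lit 76) (nat_lit 39290248601) (nat_lit 76) (nat_lit 16768348608) (nat_lit 21) (nat_lit 4) (nat_lit 22) (nat_lit 5) (nat_lit 22) (nat_lit 4) (nat_lit 486) (nat_lit 403)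 (nat_lit 311))))) (XT.nd (nat_lit 234) (nat_lit 152) (nat_lit 0) (XT.nd (nat_lit 78) (nat_lit 152) (nat_lit 0) (XT.lf (nat_lit 0) (nat_lit 37484482657) (nat_lit 76) (nat_lit 26161868696) (nat_lit 76) (nat_lit 3627782251) (nat_lit 21) (nat_lit 4) (nat_lit 22) (nat_lit 5) (nat_lit 22) (nat_lit 4) (nat_lit 487) (nat_lit 403) (nat_lit 310)) (XT.nd (nat_lit 78) (nat_lit 76) (nat_lit 0) (XT.lf (nat_lit 0) (nat_lit 9829357051) (nat_lit 152) (nat_lit 2395510632) (nat_lit 76) (nat_lit 57685320652) (nat_lit 20) (nat_lit 5) (nat_lit 22) (nat_lit 5) (nat_lit 21) (nat_lit 4) (nat_lit 488) (nat_lit 403) (nat_lit 309)) (XT.lf (nat_lit 0) (nat_lit 24292393244) (nat_lit 152) (nat_lit 45550153705) (nat_lit 0) (nat_lit 2809777950) (nat_lit 19) (nat_lit 5) (nat_lit 21) (nat_lit 4) (nat_lit 19) (nat_lit 4) (nat_lit 489) (nat_lit 403) (nat_lit 308)))) (XT.nd (nat_lit 156) (nat_lit 76) (nat_lit 0) (XT.nd (nat_lit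 78) (nat_lit 76) (nat_lit 0) (XT.lf (nat_lit 0) (nat_lit 39706012066) (nat_lit 152) (nat_lit 17600814258) (nat_lit 0) (nat_lit 18213370947) (nat_lit 19) (nat_lit 5) (nat_lit 21) (nat_lit 4) (nat_lit 19) (nat_lit 4) (nat_lit 490) (nat_lit 403) (nat_lit 307)) (XT.lf (nat_lit 0) (nat_lit 12106715501) (nat_lit 76) (nat_lit 43959081754) (nat_lit 76) (nat_lit 22456892232) (nat_lit 18) (nat_lit 4) (nat_lit 19) (nat_lit 5) (nat_lit 19) (nat_lit 4) (nat_lit 491) (nat_lit 403) (nat_lit 306))) (XT.nd (nat_lit 78) (nat_lit 76) (nat_lit 0) (XT.lf (nat_lit 0) (nat_lit 43884346841) (nat_lit 76) (nat_lit 29644002161) (nat_lit 76) (nat_lit 8132718921) (nat_lit 18) (nat_lit 4) (nat_lit 19) (nat_lit 5) (nat_lit 19) (nat_lit 4) (nat_lit 492) (nat_lit 403) (nat_lit 305)) (XT.lf (nat_lit 0) (nat_lit 6673698968) (nat_lit 152) (nat_lit 7838861038) (nat_lit 76) (nat_lit 70439057091) (nat_lit 17) (nat_lit 5) (nat_lit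 19) (nat_lit 5) (nat_lit 18) (nat_lit 4) (nat_lit 493) (nat_lit 403) (nat_lit 304)))))) (XT.nd (nat_lit 546) (nat_lit 228) (nat_lit 0) (XT.nd (nat_lit 234) (nat_lit 228) (nat_lit 0) (XT.nd (nat_lit 78) (nat_lit 0) (nat_lit 0) (XT.lf (nat_lit 0) (nat_lit 22342568995) (nat_lit 152) (nat_lit 64198157973) (nat_lit 0) (nat_lit 1839528811) (nat_lit 16) (nat_lit 5) (nat_lit 18) (nat_lit 4) (nat_lit 16) (nat_lit 4) (nat_lit 494) (nat_lit 403) (nat_lit 303)) (XT.nd (nat_lit 78) (nat_lit 0) (nat_lit 0) (XT.lf (nat_lit 0) (nat_lit 39155487728) (nat_lit 152) (nat_lit 34161842675) (nat_lit 0) (nat_lit 18644966120) (nat_lit 16) (nat_lit 5) (nat_lit 18) (nat_lit 4) (nat_lit 16) (nat_lit 4) (nat_lit 495) (nat_lit 403) (nat_lit 302)) (XT.lf (nat_lit 0) (nat_lit 56797398276) (nat_lit 152) (nat_lit 2646872604) (nat_lit 0) (nat_lit 36279751503) (nat_lit 16) (nat_lit 5) (nat_lit 18) (nat_lit 4) (nat_lit 16) (nat_lit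 4) (nat_lit 496) (nat_lit 403) (nat_lit 301)))) (XT.nd (nat_lit 156) (nat_lit 152) (nat_lit 0) (XT.nd (nat_lit 78) (nat_lit 0) (nat_lit 0) (XT.lf (nat_lit 0) (nat_lit 31427669578) (nat_lit 76) (nat_lit 44373309607) (nat_lit 76) (nat_lit 23848876961) (nat_lit 15) (nat_lit 4) (nat_lit 16) (nat_lit 5) (nat_lit 16) (nat_lit 4) (nat_lit 497) (nat_lit 403) (nat_lit 300)) (XT.lf (nat_lit 0) (nat_lit 67276129997) (nat_lit 76) (nat_lit 28512525744) (nat_lit 76) (nat_lit 7981630363) (nat_lit 15) (nat_lit 4) (nat_lit 16) (nat_lit 5) (nat_lit 16) (nat_lit 4) (nat_lit 498) (nat_lit 403) (nat_lit 299))) (XT.nd (nat_lit 78) (nat_lit 76) (nat_lit 0) (XT.lf (nat_lit 0) (nat_lit 8390636444) (nat_lit 152) (nat_lit 3336245656) (nat_lit 76) (nat_lit 96363608637) (nat_lit 14) (nat_lit 5) (nat_lit 16) (nat_lit 5) (nat_lit 15) (nat_lit 4) (nat_lit 499) (nat_lit 403) (nat_lit 298)) (XT.lf (nat_lit 0) (nat_lit 25910883456)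 (nat_lit 152) (nat_lit 80333194901) (nat_lit 0) (nat_lit 6346205114) (nat_lit 13) (nat_lit 5) (nat_lit 15) (nat_lit 4) (nat_lit 13) (nat_lit 4) (nat_lit 500) (nat_lit 403) (nat_lit 297))))) (XT.nd (nat_lit 312) (nat_lit 152) (nat_lit 0) (XT.nd (nat_lit 156) (nat_lit 76) (nat_lit 0) (XT.nd (nat_lit 78) (nat_lit 0) (nat_lit 0) (XT.lf (nat_lit 0) (nat_lit 44546774562) (nat_lit 152) (nat_lit 47779530658) (nat_lit 0) (nat_lit 24976779312) (nat_lit 13) (nat_lit 5) (nat_lit 15) (nat_lit 4) (nat_lit 13) (nat_lit 4) (nat_lit 501) (nat_lit 403) (nat_lit 296)) (XT.lf (nat_lit 0) (nat_lit 64104898886) (nat_lit 152) (nat_lit 13617265177) (nat_lit 0) (nat_lit 44529839914) (nat_lit 13) (nat_lit 5) (nat_lit 15) (nat_lit 4) (nat_lit 13) (nat_lit 4) (nat_lit 502) (nat_lit 403) (nat_lit 295))) (XT.nd (nat_lit 78) (nat_lit 0) (nat_lit 0) (XT.lf (nat_lit 0) (nat_lit 22970127810) (nat_lit 76) (nat_lit 62020323649)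 (nat_lit 76) (nat_lit 42440442084) (nat_lit 12) (nat_lit 4) (nat_lit 13) (nat_lit 5) (nat_lit 13) (nat_lit 4) (nat_lit 503) (nat_lit 403) (nat_lit 294)) (XT.lf (nat_lit 0) (nat_lit 61841770955) (nat_lit 76) (nat_lit 45300174106) (nat_lit 76) (nat_lit 25715699596) (nat_lit 12) (nat_lit 4) (nat_lit 13) (nat_lit 5) (nat_lit 13) (nat_lit 4) (nat_lit 504) (nat_lit 403) (nat_lit 293)))) (XT.nd (nat_lit 156) (nat_lit 0) (nat_lit 0) (XT.nd (nat_lit 78) (nat_lit 152) (nat_lit 0) (XT.lf (nat_lit 0) (nat_lit 102639967504) (nat_lit 76) (nat_lit 27752520530) (nat_lit 76) (nat_lit 8163671786) (nat_lit 12) (nat_lit 4) (nat_lit 13) (nat_lit 5) (nat_lit 13) (nat_lit 4) (nat_lit 505) (nat_lit 403) (nat_lit 292)) (XT.lf (nat_lit 0) (nat_lit 786887139) (nat_lit 76) (nat_lit 9154528382) (nat_lit 152) (nat_lit 134589969763) (nat_lit 10) (nat_lit 5) (nat_lit 11) (nat_lit 5) (nat_lit 12) (nat_lit 4) (nat_lit 506)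 (nat_lit 403) (nat_lit 291))) (XT.nd (nat_lit 78) (nat_lit 0) (nat_lit 0) (XT.lf (nat_lit 0) (nat_lit 29449351465) (nat_lit 152) (nat_lit 110525173007) (nat_lit 0) (nat_lit 10785558856) (nat_lit 10) (nat_lit 5) (nat_lit 12) (nat_lit 4) (nat_lit 10) (nat_lit 4) (nat_lit 507) (nat_lit 403) (nat_lit 290)) (XT.lf (nat_lit 0) (nat_lit 50074911165) (nat_lit 152) (nat_lit 75810674084) (nat_lit 0) (nat_lit 31407519862) (nat_lit 10) (nat_lit 5) (nat_lit 12) (nat_lit 4) (nat_lit 10) (nat_lit 4) (nat_lit 508) (nat_lit 403) (nat_lit 289))))))))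
noncomputable def xc103 : XT := (XT.nd (nat_lit 2184) (nat_lit 76) (nat_lit 0) (XT.nd (nat_lit 1092) (nat_lit 152) (nat_lit 0) (XT.nd (nat_lit 546) (nat_lit 76) (nat_lit 0) (XT.nd (nat_lit 234) (nat_lit 152) (nat_lit 0) (XT.nd (nat_lit 78) (nat_lit 76) (nat_lit 0) (XT.lf (nat_lit 0) (nat_lit 71724275253) (nat_lit 152) (nat_lit 39375419966) (nat_lit 0) (nat_lit 53053456624) (nat_lit 10) (nat_lit 5) (nat_lit 12) (nat_lit 4) (nat_lit 10) (nat_lit 4) (nat_lit 509) (nat_lit 403) (nat_lit 288)) (XT.nd (nat_lit 78) (nat_lit 76) (nat_lit 0) (XT.lf (nat_lit 0) (nat_lit 94448989835) (nat_lit 152) (nat_lit 1132660046) (nat_lit 0) (nat_lit 75774907086) (nat_lit 10) (nat_lit 5) (nat_lit 12) (nat_lit 4) (nat_lit 10) (nat_lit 4) (nat_lit 510) (nat_lit 403) (nat_lit 287)) (XT.lf (nat_lit 0) (nat_lit 40298462328) (nat_lit 76) (nat_lit 78633870978) (nat_lit 76) (nat_lit 59956679543) (nat_lit 9) (nat_lit 4) (nat_lit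 10) (nat_lit 5) (nat_lit 10) (nat_lit 4) (nat_lit 511) (nat_lit 403) (nat_lit 286)))) (XT.nd (nat_lit 156) (nat_lit 152) (nat_lit 0) (XT.nd (nat_lit 78) (nat_lit 0) (nat_lit 0) (XT.lf (nat_lit 0) (nat_lit 83827105216) (nat_lit 76) (nat_lit 60825256336) (nat_lit 76) (nat_lit 42145104248) (nat_lit 9) (nat_lit 4) (nat_lit 10) (nat_lit 5) (nat_lit 10) (nat_lit 4) (nat_lit 512) (nat_lit 403) (nat_lit 285)) (XT.lf (nat_lit 0) (nat_lit 129519457387) (nat_lit 76) (nat_lit 42132586638) (nat_lit 76) (nat_lit 23449614879) (nat_lit 9) (nat_lit 4) (nat_lit 10) (nat_lit 5) (nat_lit 10) (nat_lit 4) (nat_lit 513) (nat_lit 403) (nat_lit 284))) (XT.nd (nat_lit 78) (nat_lit 152) (nat_lit 0) (XT.lf (nat_lit 0) (nat_lit 177484310156) (nat_lit 76) (nat_lit 22511355527) (nat_lit 76) (nat_lit 3825698368) (nat_lit 9) (nat_lit 4) (nat_lit 10) (nat_lit 5) (nat_lit 10) (nat_lit 4) (nat_lit 514) (nat_lit 403) (nat_lit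 283)) (XT.lf (nat_lit 0) (nat_lit 15079274778) (nat_lit 76) (nat_lit 1392671300) (nat_lit 152) (nat_lit 196480530914) (nat_lit 7) (nat_lit 5) (nat_lit 8) (nat_lit 5) (nat_lit 9) (nat_lit 4) (nat_lit 515) (nat_lit 403) (nat_lit 282))))) (XT.nd (nat_lit 234) (nat_lit 76) (nat_lit 0) (XT.nd (nat_lit 78) (nat_lit 0) (nat_lit 0) (XT.lf (nat_lit 0) (nat_lit 38427867762) (nat_lit 152) (nat_lit 163443295626) (nat_lit 0) (nat_lit 20627248315) (nat_lit 7) (nat_lit 5) (nat_lit 9) (nat_lit 4) (nat_lit 7) (nat_lit 4) (nat_lit 516) (nat_lit 403) (nat_lit 281)) (XT.nd (nat_lit 78) (nat_lit 0) (nat_lit 0) (XT.lf (nat_lit 0) (nat_lit 61498850873) (nat_lit 152) (nat_lit 127325906983) (nat_lit 0) (nat_lit 43696022140) (nat_lit 7) (nat_lit 5) (nat_lit 9) (nat_lit 4) (nat_lit 7) (nat_lit 4) (nat_lit 517) (nat_lit 403) (nat_lit 280)) (XT.lf (nat_lit 0) (nat_lit 85718082821) (nat_lit 152) (nat_lit 89413299003) (nat_lit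 0) (nat_lit 67913150007) (nat_lit 7) (nat_lit 5) (nat_lit 9) (nat_lit 4) (nat_lit 7) (nat_lit 4) (nat_lit 518) (nat_lit 403) (nat_lit 279)))) (XT.nd (nat_lit 156) (nat_lit 76) (nat_lit 0) (XT.nd (nat_lit 78) (nat_lit 0) (nat_lit 0) (XT.lf (nat_lit 0) (nat_lit 111143228444) (nat_lit 152) (nat_lit 49615203570) (nat_lit 0) (nat_lit 93336291743) (nat_lit 7) (nat_lit 5) (nat_lit 9) (nat_lit 4) (nat_lit 7) (nat_lit 4) (nat_lit 519) (nat_lit 403) (nat_lit 278)) (XT.lf (nat_lit 0) (nat_lit 137834823803) (nat_lit 152) (nat_lit 7836863314) (nat_lit 0) (nat_lit 120025978639) (nat_lit 7) (nat_lit 5) (nat_lit 9) (nat_lit 4) (nat_lit 7) (nat_lit 4) (nat_lit 520) (nat_lit 403) (nat_lit 277))) (XT.nd (nat_lit 78) (nat_lit 0) (nat_lit 0) (XT.lf (nat_lit 0) (nat_lit 37212217352) (nat_lit 76) (nat_lit 129225189964) (nat_lit 76) (nat_lit 111414527215) (nat_lit 6) (nat_lit 4) (nat_lit 7) (nat_lit 5) (nat_lit 7)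 (nat_lit 4) (nat_lit 521) (nat_lit 403) (nat_lit 276)) (XT.lf (nat_lit 0) (nat_lit 84776778685) (nat_lit 76) (nat_lit 111821560486) (nat_lit 76) (nat_lit 94009166704) (nat_lit 6) (nat_lit 4) (nat_lit 7) (nat_lit 5) (nat_lit 7) (nat_lit 4) (nat_lit 522) (nat_lit 403) (nat_lit 275)))))) (XT.nd (nat_lit 546) (nat_lit 0) (nat_lit 0) (XT.nd (nat_lit 234) (nat_lit 152) (nat_lit 0) (XT.nd (nat_lit 78) (nat_lit 0) (nat_lit 0) (XT.lf (nat_lit 0) (nat_lit 134710947546) (nat_lit 76) (nat_lit 93552082544) (nat_lit 76) (nat_lit 75738040159) (nat_lit 6) (nat_lit 4) (nat_lit 7) (nat_lit 5) (nat_lit 7) (nat_lit 4) (nat_lit 523) (nat_lit 403) (nat_lit 274)) (XT.nd (nat_lit 78) (nat_lit 0) (nat_lit 0) (XT.lf (nat_lit 0) (nat_lit 187133614814) (nat_lit 76) (nat_lit 74373257380) (nat_lit 76) (nat_lit 56557644898) (nat_lit 6) (nat_lit 4) (nat_lit 7) (nat_lit 5) (nat_lit 7) (nat_lit 4) (nat_lit 524) (nat_lit 403)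 (nat_lit 273)) (XT.lf (nat_lit 0) (nat_lit 242169596362) (nat_lit 76) (nat_lit 54239421126) (nat_lit 76) (nat_lit 36422313312) (nat_lit 6) (nat_lit 4) (nat_lit 7) (nat_lit 5) (nat_lit 7) (nat_lit 4) (nat_lit 525) (nat_lit 403) (nat_lit 272)))) (XT.nd (nat_lit 156) (nat_lit 76) (nat_lit 0) (XT.nd (nat_lit 78) (nat_lit 76) (nat_lit 0) (XT.lf (nat_lit 0) (nat_lit 299949930243) (nat_lit 76) (nat_lit 33102636075) (nat_lit 76) (nat_lit 15284104136) (nat_lit 6) (nat_lit 4) (nat_lit 7) (nat_lit 5) (nat_lit 7) (nat_lit 4) (nat_lit 526) (nat_lit 403) (nat_lit 271)) (XT.lf (nat_lit 0) (nat_lit 6686234587) (nat_lit 152) (nat_lit 4113107344) (nat_lit 76) (nat_lit 353812719475) (nat_lit 5) (nat_lit 5) (nat_lit 7) (nat_lit 5) (nat_lit 6) (nat_lit 4) (nat_lit 527) (nat_lit 403) (nat_lit 270))) (XT.nd (nat_lit 78) (nat_lit 0) (nat_lit 0) (XT.lf (nat_lit 0) (nat_lit 30129542021) (nat_lit 152) (nat_lit 338357757430)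 (nat_lit 0) (nat_lit 13156989668) (nat_lit 4) (nat_lit 5) (nat_lit 6) (nat_lit 4) (nat_lit 4) (nat_lit 4) (nat_lit 528) (nat_lit 403) (nat_lit 269)) (XT.lf (nat_lit 0) (nat_lit 54989442116) (nat_lit 152) (nat_lit 306510746666) (nat_lit 0) (nat_lit 38015718132) (nat_lit 4) (nat_lit 5) (nat_lit 6) (nat_lit 4) (nat_lit 4) (nat_lit 4) (nat_lit 529) (nat_lit 403) (nat_lit 268))))) (XT.nd (nat_lit 234) (nat_lit 0) (nat_lit 0) (XT.nd (nat_lit 78) (nat_lit 0) (nat_lit 0) (XT.lf (nat_lit 0) (nat_lit 81089089129) (nat_lit 152) (nat_lit 273077929629) (nat_lit 0) (nat_lit 64114249305) (nat_lit 4) (nat_lit 5) (nat_lit 6) (nat_lit 4) (nat_lit 4) (nat_lit 4) (nat_lit 530) (nat_lit 403) (nat_lit 267)) (XT.nd (nat_lit 78) (nat_lit 0) (nat_lit 0) (XT.lf (nat_lit 0) (nat_lit 108490625074) (nat_lit 152) (nat_lit 237979704373) (nat_lit 0) (nat_lit 91514722546) (nat_lit 4) (nat_lit 5) (nat_lit 6) (nat_lit 4) (nat_lit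 4) (nat_lit 4) (nat_lit 531) (nat_lit 403) (nat_lit 266)) (XT.lf (nat_lit 0) (nat_lit 137259291706) (nat_lit 152) (nat_lit 201132503696) (nat_lit 0) (nat_lit 120282377079) (nat_lit 4) (nat_lit 5) (nat_lit 6) (nat_lit 4) (nat_lit 4) (nat_lit 4) (nat_lit 532) (nat_lit 403) (nat_lit 265)))) (XT.nd (nat_lit 156) (nat_lit 0) (nat_lit 0) (XT.nd (nat_lit 78) (nat_lit 0) (nat_lit 0) (XT.lf (nat_lit 0) (nat_lit 167463585848) (nat_lit 152) (nat_lit 162448596166) (nat_lit 0) (nat_lit 150485707317) (nat_lit 4) (nat_lit 5) (nat_lit 6) (nat_lit 4) (nat_lit 4) (nat_lit 4) (nat_lit 533) (nat_lit 403) (nat_lit 264)) (XT.lf (nat_lit 0) (nat_lit 199175422488) (nat_lit 152) (nat_lit 121835877243) (nat_lit 0) (nat_lit 182196625954) (nat_lit 4) (nat_lit 5) (nat_lit 6) (nat_lit 4) (nat_lit 4) (nat_lit 4) (nat_lit 534) (nat_lit 403) (nat_lit 263))) (XT.nd (nat_lit 78) (nat_lit 0) (nat_lit 0) (XT.lf (nat_lit 0) (nat_lit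 232470305998) (nat_lit 152) (nat_lit 79197649976) (nat_lit 0) (nat_lit 215490635174) (nat_lit 4) (nat_lit 5) (nat_lit 6) (nat_lit 4) (nat_lit 4) (nat_lit 4) (nat_lit 535) (nat_lit 403) (nat_lit 262)) (XT.lf (nat_lit 0) (nat_lit 267427509910) (nat_lit 152) (nat_lit 34432394777) (nat_lit 0) (nat_lit 250447006430) (nat_lit 4) (nat_lit 5) (nat_lit 6) (nat_lit 4) (nat_lit 4) (nat_lit 4) (nat_lit 536) (nat_lit 403) (nat_lit 261))))))) (XT.nd (nat_lit 52572) (nat_lit 0) (nat_lit 7752) (XT.nd (nat_lit 546) (nat_lit 0) (nat_lit 0) (XT.nd (nat_lit 234) (nat_lit 0) (nat_lit 0) (XT.nd (nat_lit 78) (nat_lit 0) (nat_lit 0) (XT.lf (nat_lit 0) (nat_lit 12981976620) (nat_lit 76) (nat_lit 291350974079) (nat_lit 76) (nat_lit 274369677593) (nat_lit 3) (nat_lit 4) (nat_lit 4) (nat_lit 5) (nat_lit 4) (nat_lit 4) (nat_lit 537) (nat_lit 403) (nat_lit 260)) (XT.nd (nat_lit 78) (nat_lit 0) (nat_lit 0) (XT.lf (nat_lit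 0) (nat_lit 63957905711) (nat_lit 76) (nat_lit 279706617207) (nat_lit 76) (nat_lit 262724565477) (nat_lit 3) (nat_lit 4) (nat_lit 4) (nat_lit 5) (nat_lit 4) (nat_lit 4) (nat_lit 538) (nat_lit 403) (nat_lit 259)) (XT.lf (nat_lit 0) (nat_lit 117478273284) (nat_lit 76) (nat_lit 267482238678) (nat_lit 76) (nat_lit 250499467668) (nat_lit 3) (nat_lit 4) (nat_lit 4) (nat_lit 5) (nat_lit 4) (nat_lit 4) (nat_lit 539) (nat_lit 403) (nat_lit 258)))) (XT.nd (nat_lit 156) (nat_lit 0) (nat_lit 0) (XT.nd (nat_lit 78) (nat_lit 0) (nat_lit 0) (XT.lf (nat_lit 0) (nat_lit 173670508784) (nat_lit 76) (nat_lit 254648732830) (nat_lit 76) (nat_lit 237665276791) (nat_lit 3) (nat_lit 4) (nat_lit 4) (nat_lit 5) (nat_lit 4) (nat_lit 4) (nat_lit 540) (nat_lit 403) (nat_lit 257)) (XT.lf (nat_lit 0) (nat_lit 232668403248) (nat_lit 76) (nat_lit 241175543695) (nat_lit 76) (nat_lit 224191435249) (nat_lit 3) (nat_lit 4) (nat_lit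 4) (nat_lit 5) (nat_lit 4) (nat_lit 4) (nat_lit 541) (nat_lit 403) (nat_lit 256))) (XT.nd (nat_lit 78) (nat_lit 0) (nat_lit 0) (XT.lf (nat_lit 0) (nat_lit 294612427854) (nat_lit 76) (nat_lit 227030592253) (nat_lit 76) (nat_lit 210045862466) (nat_lit 3) (nat_lit 4) (nat_lit 4) (nat_lit 5) (nat_lit 4) (nat_lit 4) (nat_lit 542) (nat_lit 403) (nat_lit 255)) (XT.lf (nat_lit 0) (nat_lit 359650068374) (nat_lit 76) (nat_lit 212180200048) (nat_lit 76) (nat_lit 195194878507) (nat_lit 3) (nat_lit 4) (nat_lit 4) (nat_lit 5) (nat_lit 4) (nat_lit 4) (nat_lit 543) (nat_lit 403) (nat_lit 254))))) (XT.nd (nat_lit 51714) (nat_lit 0) (nat_lit 12160) (XT.nd (nat_lit 51558) (nat_lit 0) (nat_lit 12920) (XT.lf (nat_lit 0) (nat_lit 427936176334) (nat_lit 76) (nat_lit 196589009002) (nat_lit 76) (nat_lit 179603123887) (nat_lit 3) (nat_lit 4) (nat_lit 4) (nat_lit 5) (nat_lit 4) (nat_lit 4) (nat_lit 544) (nat_lit 403)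 (nat_lit 253)) (XT.nd (nat_lit 78) (nat_lit 0) (nat_lit 0) (XT.lf (nat_lit 0) (nat_lit 1234627586) (nat_lit 380) (nat_lit 1039216632) (nat_lit 380) (nat_lit 1039216632) (nat_lit 173) (nat_lit 3) (nat_lit 178) (nat_lit 3) (nat_lit 178) (nat_lit 5) (nat_lit 404) (nat_lit 404) (nat_lit 392)) (XT.lf (nat_lit 76) (nat_lit 1221590101) (nat_lit 0) (nat_lit 3587901960) (nat_lit 380) (nat_lit 1866989712) (nat_lit 174) (nat_lit 5) (nat_lit 173) (nat_lit 3) (nat_lit 178) (nat_lit 5) (nat_lit 405) (nat_lit 404) (nat_lit 391)))) (XT.nd (nat_lit 156) (nat_lit 380) (nat_lit 0) (XT.nd (nat_lit 78) (nat_lit 0) (nat_lit 0) (XT.lf (nat_lit 0) (nat_lit 407624509) (nat_lit 380) (nat_lit 2061269381) (nat_lit 456) (nat_lit 4265757682) (nat_lit 168) (nat_lit 5) (nat_lit 173) (nat_lit 3) (nat_lit 174) (nat_lit 5) (nat_lit 406) (nat_lit 404) (nat_lit 390)) (XT.lf (nat_lit 76) (nat_lit 1437950477) (nat_lit 0) (nat_lit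 1176456591) (nat_lit 456) (nat_lit 4185812849) (nat_lit 169) (nat_lit 5) (nat_lit 168) (nat_lit 5) (nat_lit 174) (nat_lit 5) (nat_lit 407) (nat_lit 404) (nat_lit 389))) (XT.nd (nat_lit 78) (nat_lit 456) (nat_lit 0) (XT.lf (nat_lit 0) (nat_lit 4834963988) (nat_lit 380) (nat_lit 1772999838) (nat_lit 456) (nat_lit 266006718) (nat_lit 169) (nat_lit 5) (nat_lit 174) (nat_lit 5) (nat_lit 175) (nat_lit 5) (nat_lit 408) (nat_lit 404) (nat_lit 388)) (XT.lf (nat_lit 0) (nat_lit 128296404) (nat_lit 456) (nat_lit 5000276441) (nat_lit 532) (nat_lit 1826734399) (nat_lit 163) (nat_lit 5) (nat_lit 169) (nat_lit 5) (nat_lit 170) (nat_lit 5) (nat_lit 409) (nat_lit 404) (nat_lit 387)))))) (XT.nd (nat_lit 546) (nat_lit 2736) (nat_lit 0) (XT.nd (nat_lit 234) (nat_lit 1672) (nat_lit 0) (XT.nd (nat_lit 78) (nat_lit 0) (nat_lit 0) (XT.lf (nat_lit 0) (nat_lit 2240282295) (nat_lit 456) (nat_lit 1226896774) (nat_lit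 532) (nat_lit 3576683637) (nat_lit 163) (nat_lit 5) (nat_lit 169) (nat_lit 5) (nat_lit 170) (nat_lit 5) (nat_lit 410) (nat_lit 404) (nat_lit 386)) (XT.nd (nat_lit 78) (nat_lit 0) (nat_lit 76) (XT.lf (nat_lit 76) (nat_lit 2742169593) (nat_lit 0) (nat_lit 1638818385) (nat_lit 532) (nat_lit 2759764157) (nat_lit 164) (nat_lit 5) (nat_lit 163) (nat_lit 5) (nat_lit 170) (nat_lit 5) (nat_lit 411) (nat_lit 404) (nat_lit 385)) (XT.lf (nat_lit 0) (nat_lit 6539559774) (nat_lit 456) (nat_lit 379716053) (nat_lit 76) (nat_lit 327727924) (nat_lit 164) (nat_lit 5) (nat_lit 170) (nat_lit 5) (nat_lit 165) (nat_lit 5) (nat_lit 412) (nat_lit 404) (nat_lit 384)))) (XT.nd (nat_lit 156) (nat_lit 684) (nat_lit 0) (XT.nd (nat_lit 78) (nat_lit 532) (nat_lit 0) (XT.lf (nat_lit 0) (nat_lit 1378582872) (nat_lit 532) (nat_lit 3527099093) (nat_lit 76) (nat_lit 2452938787) (nat_lit 157) (nat_lit 5) (nat_lit 164) (nat_lit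 5) (nat_lit 158) (nat_lit 5) (nat_lit 413) (nat_lit 404) (nat_lit 383)) (XT.lf (nat_lit 0) (nat_lit 718282347) (nat_lit 532) (nat_lit 2737558000) (nat_lit 608) (nat_lit 4023914372) (nat_lit 150) (nat_lit 5) (nat_lit 157) (nat_lit 5) (nat_lit 158) (nat_lit 5) (nat_lit 414) (nat_lit 404) (nat_lit 382))) (XT.nd (nat_lit 78) (nat_lit 684) (nat_lit 0) (XT.lf (nat_lit 0) (nat_lit 5215729418) (nat_lit 532) (nat_lit 377724905) (nat_lit 608) (nat_lit 2015715130) (nat_lit 150) (nat_lit 5) (nat_lit 157) (nat_lit 5) (nat_lit 158) (nat_lit 5) (nat_lit 415) (nat_lit 404) (nat_lit 381)) (XT.lf (nat_lit 0) (nat_lit 57614114) (nat_lit 684) (nat_lit 5602752117) (nat_lit 76) (nat_lit 2086275733) (nat_lit 141) (nat_lit 5) (nat_lit 150) (nat_lit 5) (nat_lit 142) (nat_lit 5) (nat_lit 416) (nat_lit 404) (nat_lit 380))))) (XT.nd (nat_lit 312) (nat_lit 1216) (nat_lit 0) (XT.nd (nat_lit 156) (nat_lit 836) (nat_lit 0)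 (XT.nd (nat_lit 78) (nat_lit 684) (nat_lit 0) (XT.lf (nat_lit 0) (nat_lit 2118025123) (nat_lit 684) (nat_lit 1023539940) (nat_lit 76) (nat_lit 4750255097) (nat_lit 141) (nat_lit 5) (nat_lit 150) (nat_lit 5) (nat_lit 142) (nat_lit 5) (nat_lit 417) (nat_lit 404) (nat_lit 379)) (XT.lf (nat_lit 0) (nat_lit 3825296326) (nat_lit 684) (nat_lit 424232312) (nat_lit 760) (nat_lit 3796365137) (nat_lit 132) (nat_lit 5) (nat_lit 141) (nat_lit 5) (nat_lit 142) (nat_lit 5) (nat_lit 418) (nat_lit 404) (nat_lit 378))) (XT.nd (nat_lit 78) (nat_lit 76) (nat_lit 0) (XT.lf (nat_lit 0) (nat_lit 642623109) (nat_lit 760) (nat_lit 5822141666) (nat_lit 836) (nat_lit 1744086623) (nat_lit 122) (nat_lit 5) (nat_lit 132) (nat_lit 5) (nat_lit 133) (nat_lit 5) (nat_lit 419) (nat_lit 404) (nat_lit 377)) (XT.lf (nat_lit 0) (nat_lit 390311649) (nat_lit 836) (nat_lit 2581969607) (nat_lit 76) (nat_lit 5407756890) (nat_lit 121)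 (nat_lit 5) (nat_lit 132) (nat_lit 5) (nat_lit 122) (nat_lit 5) (nat_lit 420) (nat_lit 404) (nat_lit 376)))) (XT.nd (nat_lit 156) (nat_lit 836) (nat_lit 0) (XT.nd (nat_lit 78) (nat_lit 0) (nat_lit 0) (XT.lf (nat_lit 0) (nat_lit 2532441852) (nat_lit 456) (nat_lit 5937487220) (nat_lit 76) (nat_lit 90477339) (nat_lit 116) (nat_lit 5) (nat_lit 122) (nat_lit 5) (nat_lit 117) (nat_lit 5) (nat_lit 421) (nat_lit 404) (nat_lit 375)) (XT.lf (nat_lit 0) (nat_lit 4794699781) (nat_lit 456) (nat_lit 704507282) (nat_lit 76) (nat_lit 3249966391) (nat_lit 116) (nat_lit 5) (nat_lit 122) (nat_lit 5) (nat_lit 117) (nat_lit 5) (nat_lit 422) (nat_lit 404) (nat_lit 374))) (XT.nd (nat_lit 78) (nat_lit 456) (nat_lit 0) (XT.lf (nat_lit 0) (nat_lit 4864727735) (nat_lit 380) (nat_lit 2304963054) (nat_lit 456) (nat_lit 1777736979) (nat_lit 111) (nat_lit 5) (nat_lit 116) (nat_lit 5) (nat_lit 117) (nat_lit 5) (nat_lit 423)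 (nat_lit 404) (nat_lit 373)) (XT.lf (nat_lit 0) (nat_lit 469572431) (nat_lit 456) (nat_lit 7633390610) (nat_lit 76) (nat_lit 1053362976) (nat_lit 105) (nat_lit 5) (nat_lit 111) (nat_lit 5) (nat_lit 106) (nat_lit 5) (nat_lit 424) (nat_lit 404) (nat_lit 372))))))))
noncomputable def xc104 : XT := (XT.nd (nat_lit 2184) (nat_lit 2052) (nat_lit 0) (XT.nd (nat_lit 1092) (nat_lit 1748) (nat_lit 0) (XT.nd (nat_lit 546) (nat_lit 1064) (nat_lit 0) (XT.nd (nat_lit 234) (nat_lit 608) (nat_lit 0) (XT.nd (nat_lit 78) (nat_lit 608) (nat_lit 0) (XT.lf (nat_lit 0) (nat_lit 2804572813) (nat_lit 456) (nat_lit 1974196095) (nat_lit 76) (nat_lit 4593715505) (nat_lit 105) (nat_lit 5) (nat_lit 111) (nat_lit 5) (nat_lit 106) (nat_lit 5) (nat_lit 425) (nat_lit 404) (nat_lit 371)) (XT.nd (nat_lit 78) (nat_lit 304) (nat_lit 0) (XT.lf (nat_lit 0) (nat_lit 4016004121) (nat_lit 304) (nat_lit 1233502893) (nat_lit 380) (nat_lit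 4350309148) (nat_lit 101) (nat_lit 5) (nat_lit 105) (nat_lit 5) (nat_lit 106) (nat_lit 5) (nat_lit 426) (nat_lit 404) (nat_lit 370)) (XT.lf (nat_lit 0) (nat_lit 429338761) (nat_lit 304) (nat_lit 7399268285) (nat_lit 380) (nat_lit 2009334945) (nat_lit 97) (nat_lit 5) (nat_lit 101) (nat_lit 5) (nat_lit 102) (nat_lit 5) (nat_lit 427) (nat_lit 404) (nat_lit 369)))) (XT.nd (nat_lit 156) (nat_lit 304) (nat_lit 0) (XT.nd (nat_lit 78) (nat_lit 228) (nat_lit 0) (XT.lf (nat_lit 0) (nat_lit 483892789) (nat_lit 380) (nat_lit 3258323363) (nat_lit 76) (nat_lit 6342950686) (nat_lit 96) (nat_lit 5) (nat_lit 101) (nat_lit 5) (nat_lit 97) (nat_lit 5) (nat_lit 428) (nat_lit 404) (nat_lit 368)) (XT.lf (nat_lit 0) (nat_lit 3023093160) (nat_lit 304) (nat_lit 7157182723) (nat_lit 76) (nat_lit 163408400) (nat_lit 93) (nat_lit 5) (nat_lit 97) (nat_lit 5) (nat_lit 94) (nat_lit 5) (nat_lit 429) (nat_lit 404) (nat_lit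 367))) (XT.nd (nat_lit 78) (nat_lit 304) (nat_lit 0) (XT.lf (nat_lit 0) (nat_lit 5744651581) (nat_lit 304) (nat_lit 688844332) (nat_lit 76) (nat_lit 4178881078) (nat_lit 93) (nat_lit 5) (nat_lit 97) (nat_lit 5) (nat_lit 94) (nat_lit 5) (nat_lit 430) (nat_lit 404) (nat_lit 366)) (XT.lf (nat_lit 0) (nat_lit 6225093082) (nat_lit 304) (nat_lit 2415304402) (nat_lit 380) (nat_lit 2252219746) (nat_lit 89) (nat_lit 5) (nat_lit 93) (nat_lit 5) (nat_lit 94) (nat_lit 5) (nat_lit 431) (nat_lit 404) (nat_lit 365))))) (XT.nd (nat_lit 234) (nat_lit 532) (nat_lit 0) (XT.nd (nat_lit 78) (nat_lit 228) (nat_lit 0) (XT.lf (nat_lit 0) (nat_lit 496542622) (nat_lit 304) (nat_lit 8905155248) (nat_lit 76) (nat_lit 1783887870) (nat_lit 85) (nat_lit 5) (nat_lit 89) (nat_lit 5) (nat_lit 86) (nat_lit 5) (nat_lit 432) (nat_lit 404) (nat_lit 364)) (XT.nd (nat_lit 78) (nat_lit 228) (nat_lit 0) (XT.lf (nat_lit 0) (nat_lit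 3369860425) (nat_lit 304) (nat_lit 1908294466) (nat_lit 76) (nat_lit 6210077241) (nat_lit 85) (nat_lit 5) (nat_lit 89) (nat_lit 5) (nat_lit 86) (nat_lit 5) (nat_lit 433) (nat_lit 404) (nat_lit 363)) (XT.lf (nat_lit 0) (nat_lit 5540442633) (nat_lit 228) (nat_lit 878492734) (nat_lit 304) (nat_lit 5385486030) (nat_lit 82) (nat_lit 5) (nat_lit 85) (nat_lit 5) (nat_lit 86) (nat_lit 5) (nat_lit 434) (nat_lit 404) (nat_lit 362)))) (XT.nd (nat_lit 156) (nat_lit 228) (nat_lit 0) (XT.nd (nat_lit 78) (nat_lit 76) (nat_lit 0) (XT.lf (nat_lit 0) (nat_lit 1195988721) (nat_lit 228) (nat_lit 8481099915) (nat_lit 304) (nat_lit 2456514656) (nat_lit 79) (nat_lit 5) (nat_lit 82) (nat_lit 5) (nat_lit 83) (nat_lit 5) (nat_lit 435) (nat_lit 404) (nat_lit 361)) (XT.lf (nat_lit 0) (nat_lit 668514627) (nat_lit 304) (nat_lit 3330259076) (nat_lit 76) (nat_lit 8476529586) (nat_lit 78) (nat_lit 5) (nat_lit 82) (nat_lit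 5) (nat_lit 79) (nat_lit 5) (nat_lit 436) (nat_lit 404) (nat_lit 360))) (XT.nd (nat_lit 78) (nat_lit 0) (nat_lit 0) (XT.lf (nat_lit 0) (nat_lit 3902789434) (nat_lit 304) (nat_lit 8149330346) (nat_lit 76) (nat_lit 778189953) (nat_lit 75) (nat_lit 5) (nat_lit 79) (nat_lit 5) (nat_lit 76) (nat_lit 5) (nat_lit 437) (nat_lit 404) (nat_lit 359)) (XT.lf (nat_lit 0) (nat_lit 7372273392) (nat_lit 304) (nat_lit 132524173) (nat_lit 76) (nat_lit 5694606005) (nat_lit 75) (nat_lit 5) (nat_lit 79) (nat_lit 5) (nat_lit 76) (nat_lit 5) (nat_lit 438) (nat_lit 404) (nat_lit 358)))))) (XT.nd (nat_lit 546) (nat_lit 760) (nat_lit 0) (XT.nd (nat_lit 234) (nat_lit 532) (nat_lit 0) (XT.nd (nat_lit 78) (nat_lit 304) (nat_lit 0) (XT.lf (nat_lit 0) (nat_lit 8486064361) (nat_lit 152) (nat_lit 2614627589) (nat_lit 228) (nat_lit 2481998412) (nat_lit 73) (nat_lit 5) (nat_lit 75) (nat_lit 5) (nat_lit 76) (nat_lit 5) (nat_lit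 439) (nat_lit 404) (nat_lit 357)) (XT.nd (nat_lit 78) (nat_lit 0) (nat_lit 0) (XT.lf (nat_lit 0) (nat_lit 1049169247) (nat_lit 304) (nat_lit 10441331612) (nat_lit 76) (nat_lit 2491258589) (nat_lit 69) (nat_lit 5) (nat_lit 73) (nat_lit 5) (nat_lit 70) (nat_lit 5) (nat_lit 440) (nat_lit 404) (nat_lit 356)) (XT.lf (nat_lit 0) (nat_lit 4758183996) (nat_lit 304) (nat_lit 1766989947) (nat_lit 76) (nat_lit 7869348359) (nat_lit 69) (nat_lit 5) (nat_lit 73) (nat_lit 5) (nat_lit 70) (nat_lit 5) (nat_lit 441) (nat_lit 404) (nat_lit 355)))) (XT.nd (nat_lit 156) (nat_lit 228) (nat_lit 0) (XT.nd (nat_lit 78) (nat_lit 152) (nat_lit 0) (XT.lf (nat_lit 0) (nat_lit 7513121181) (nat_lit 152) (nat_lit 1213123056) (nat_lit 228) (nat_lit 6098008603) (nat_lit 67) (nat_lit 5) (nat_lit 69) (nat_lit 5) (nat_lit 70) (nat_lit 5) (nat_lit 442) (nat_lit 404) (nat_lit 354)) (XT.lf (nat_lit 0) (nat_lit 1969959010) (nat_lit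 152) (nat_lit 11009002599) (nat_lit 228) (nat_lit 2292204429) (nat_lit 65) (nat_lit 5) (nat_lit 67) (nat_lit 5) (nat_lit 68) (nat_lit 5) (nat_lit 443) (nat_lit 404) (nat_lit 353))) (XT.nd (nat_lit 78) (nat_lit 152) (nat_lit 0) (XT.lf (nat_lit 0) (nat_lit 1752320724) (nat_lit 228) (nat_lit 3883200469) (nat_lit 76) (nat_lit 10098433299) (nat_lit 64) (nat_lit 5) (nat_lit 67) (nat_lit 5) (nat_lit 65) (nat_lit 5) (nat_lit 444) (nat_lit 404) (nat_lit 352)) (XT.lf (nat_lit 0) (nat_lit 5978385886) (nat_lit 228) (nat_lit 10119968046) (nat_lit 76) (nat_lit 116839874) (nat_lit 62) (nat_lit 5) (nat_lit 65) (nat_lit 5) (nat_lit 63) (nat_lit 5) (nat_lit 445) (nat_lit 404) (nat_lit 351))))) (XT.nd (nat_lit 234) (nat_lit 380) (nat_lit 0) (XT.nd (nat_lit 78) (nat_lit 380) (nat_lit 0) (XT.lf (nat_lit 0) (nat_lit 10534780985) (nat_lit 228) (nat_lit 169893242) (nat_lit 76) (nat_lit 6009876794) (nat_lit 62) (nat_lit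 5) (nat_lit 65) (nat_lit 5) (nat_lit 63) (nat_lit 5) (nat_lit 446) (nat_lit 404) (nat_lit 350)) (XT.nd (nat_lit 78) (nat_lit 228) (nat_lit 0) (XT.lf (nat_lit 0) (nat_lit 10551974463) (nat_lit 152) (nat_lit 4893480707) (nat_lit 228) (nat_lit 1787104887) (nat_lit 60) (nat_lit 5) (nat_lit 62) (nat_lit 5) (nat_lit 63) (nat_lit 5) (nat_lit 447) (nat_lit 404) (nat_lit 349)) (XT.lf (nat_lit 0) (nat_lit 2783325189) (nat_lit 228) (nat_lit 13731462167) (nat_lit 76) (nat_lit 1257055233) (nat_lit 57) (nat_lit 5) (nat_lit 60) (nat_lit 5) (nat_lit 58) (nat_lit 5) (nat_lit 448) (nat_lit 404) (nat_lit 348)))) (XT.nd (nat_lit 156) (nat_lit 228) (nat_lit 0) (XT.nd (nat_lit 78) (nat_lit 152) (nat_lit 0) (XT.lf (nat_lit 0) (nat_lit 7679812037) (nat_lit 228) (nat_lit 2978599615) (nat_lit 76) (nat_lit 7670339054) (nat_lit 57) (nat_lit 5) (nat_lit 60) (nat_lit 5) (nat_lit 58) (nat_lit 5) (nat_lit 449) (nat_lit 404)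 (nat_lit 347)) (XT.lf (nat_lit 0) (nat_lit 8523645113) (nat_lit 152) (nat_lit 4394726605) (nat_lit 228) (nat_lit 5990275782) (nat_lit 55) (nat_lit 5) (nat_lit 57) (nat_lit 5) (nat_lit 58) (nat_lit 5) (nat_lit 450) (nat_lit 404) (nat_lit 346))) (XT.nd (nat_lit 78) (nat_lit 76) (nat_lit 0) (XT.lf (nat_lit 0) (nat_lit 1129186493) (nat_lit 152) (nat_lit 17357190857) (nat_lit 228) (nat_lit 1027791311) (nat_lit 53) (nat_lit 5) (nat_lit 55) (nat_lit 5) (nat_lit 56) (nat_lit 4) (nat_lit 451) (nat_lit 404) (nat_lit 345)) (XT.lf (nat_lit 0) (nat_lit 4264462126) (nat_lit 228) (nat_lit 6763410799) (nat_lit 76) (nat_lit 9108056552) (nat_lit 52) (nat_lit 5) (nat_lit 55) (nat_lit 5) (nat_lit 53) (nat_lit 5) (nat_lit 452) (nat_lit 404) (nat_lit 344))))))) (XT.nd (nat_lit 1092) (nat_lit 912) (nat_lit 0) (XT.nd (nat_lit 546) (nat_lit 532) (nat_lit 0) (XT.nd (nat_lit 234) (nat_lit 304) (nat_lit 0) (XT.nd (nat_lit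 78) (nat_lit 152) (nat_lit 0) (XT.lf (nat_lit 0) (nat_lit 5541038978) (nat_lit 152) (nat_lit 4298658055) (nat_lit 228) (nat_lit 10945598069) (nat_lit 50) (nat_lit 5) (nat_lit 52) (nat_lit 5) (nat_lit 53) (nat_lit 5) (nat_lit 453) (nat_lit 404) (nat_lit 343)) (XT.nd (nat_lit 78) (nat_lit 152) (nat_lit 0) (XT.lf (nat_lit 0) (nat_lit 15820022581) (nat_lit 228) (nat_lit 2869972852) (nat_lit 76) (nat_lit 2770821593) (nat_lit 50) (nat_lit 5) (nat_lit 53) (nat_lit 5) (nat_lit 51) (nat_lit 4) (nat_lit 454) (nat_lit 404) (nat_lit 342)) (XT.lf (nat_lit 0) (nat_lit 134783522) (nat_lit 152) (nat_lit 11835417884) (nat_lit 76) (nat_lit 10189809436) (nat_lit 48) (nat_lit 5) (nat_lit 50) (nat_lit 5) (nat_lit 49) (nat_lit 5) (nat_lit 455) (nat_lit 404) (nat_lit 341)))) (XT.nd (nat_lit 156) (nat_lit 152) (nat_lit 0) (XT.nd (nat_lit 78) (nat_lit 0) (nat_lit 0) (XT.lf (nat_lit 0) (nat_lit 1278084783) (nat_lit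 152) (nat_lit 4769270891) (nat_lit 228) (nat_lit 16840299781) (nat_lit 46) (nat_lit 5) (nat_lit 48) (nat_lit 5) (nat_lit 49) (nat_lit 5) (nat_lit 456) (nat_lit 404) (nat_lit 340)) (XT.lf (nat_lit 0) (nat_lit 12471549916) (nat_lit 228) (nat_lit 8286975108) (nat_lit 76) (nat_lit 2882361271) (nat_lit 46) (nat_lit 5) (nat_lit 49) (nat_lit 5) (nat_lit 47) (nat_lit 4) (nat_lit 457) (nat_lit 404) (nat_lit 339))) (XT.nd (nat_lit 78) (nat_lit 76) (nat_lit 0) (XT.lf (nat_lit 0) (nat_lit 5753814835) (nat_lit 76) (nat_lit 13601330997) (nat_lit 152) (nat_lit 5069726745) (nat_lit 45) (nat_lit 5) (nat_lit 46) (nat_lit 5) (nat_lit 47) (nat_lit 4) (nat_lit 458) (nat_lit 404) (nat_lit 338)) (XT.lf (nat_lit 0) (nat_lit 1405067807) (nat_lit 152) (nat_lit 4533858186) (nat_lit 76) (nat_lit 19302446885) (nat_lit 44) (nat_lit 5) (nat_lit 46) (nat_lit 5) (nat_lit 45) (nat_lit 5) (nat_lit 459) (nat_lit 404) (nat_lit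 337))))) (XT.nd (nat_lit 234) (nat_lit 304) (nat_lit 0) (XT.nd (nat_lit 78) (nat_lit 76) (nat_lit 0) (XT.lf (nat_lit 0) (nat_lit 8205629513) (nat_lit 228) (nat_lit 15612244684) (nat_lit 76) (nat_lit 2268051330) (nat_lit 42) (nat_lit 5) (nat_lit 45) (nat_lit 5) (nat_lit 43) (nat_lit 4) (nat_lit 460) (nat_lit 404) (nat_lit 336)) (XT.nd (nat_lit 78) (nat_lit 76) (nat_lit 0) (XT.lf (nat_lit 0) (nat_lit 15493519495) (nat_lit 228) (nat_lit 730137948) (nat_lit 76) (nat_lit 10741686234) (nat_lit 42) (nat_lit 5) (nat_lit 45) (nat_lit 5) (nat_lit 43) (nat_lit 4) (nat_lit 461) (nat_lit 404) (nat_lit 335)) (XT.lf (nat_lit 0) (nat_lit 15337783502) (nat_lit 76) (nat_lit 8020723334) (nat_lit 152) (nat_lit 4519593496) (nat_lit 41) (nat_lit 5) (nat_lit 42) (nat_lit 5) (nat_lit 43) (nat_lit 4) (nat_lit 462) (nat_lit 404) (nat_lit 334)))) (XT.nd (nat_lit 156) (nat_lit 76) (nat_lit 0) (XT.nd (nat_lit 78) (nat_lit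 0) (nat_lit 0) (XT.lf (nat_lit 0) (nat_lit 2741158808) (nat_lit 228) (nat_lit 25428076492) (nat_lit 76) (nat_lit 662596859) (nat_lit 38) (nat_lit 5) (nat_lit 41) (nat_lit 5) (nat_lit 39) (nat_lit 4) (nat_lit 463) (nat_lit 404) (nat_lit 333)) (XT.lf (nat_lit 0) (nat_lit 10533893620) (nat_lit 228) (nat_lit 9500742590) (nat_lit 76) (nat_lit 9778870508) (nat_lit 38) (nat_lit 5) (nat_lit 41) (nat_lit 5) (nat_lit 39) (nat_lit 4) (nat_lit 464) (nat_lit 404) (nat_lit 332))) (XT.nd (nat_lit 78) (nat_lit 0) (nat_lit 0) (XT.lf (nat_lit 0) (nat_lit 7413125696) (nat_lit 76) (nat_lit 11393629325) (nat_lit 152) (nat_lit 12032987747) (nat_lit 37) (nat_lit 5) (nat_lit 38) (nat_lit 5) (nat_lit 39) (nat_lit 4) (nat_lit 465) (nat_lit 404) (nat_lit 331)) (XT.lf (nat_lit 0) (nat_lit 25456192754) (nat_lit 76) (nat_lit 2173195481) (nat_lit 152) (nat_lit 4281098093) (nat_lit 37) (nat_lit 5) (nat_lit 38) (nat_lit 5)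 (nat_lit 39) (nat_lit 4) (nat_lit 466) (nat_lit 404) (nat_lit 330)))))) (XT.nd (nat_lit 546) (nat_lit 456) (nat_lit 0) (XT.nd (nat_lit 234) (nat_lit 228) (nat_lit 0) (XT.nd (nat_lit 78) (nat_lit 76) (nat_lit 0) (XT.lf (nat_lit 0) (nat_lit 4013413397) (nat_lit 152) (nat_lit 21510903278) (nat_lit 76) (nat_lit 7493514340) (nat_lit 35) (nat_lit 5) (nat_lit 37) (nat_lit 5) (nat_lit 36) (nat_lit 4) (nat_lit 467) (nat_lit 404) (nat_lit 329)) (XT.nd (nat_lit 78) (nat_lit 76) (nat_lit 0) (XT.lf (nat_lit 0) (nat_lit 12701651061) (nat_lit 152) (nat_lit 3737447040) (nat_lit 76) (nat_lit 17731793913) (nat_lit 35) (nat_lit 5) (nat_lit 37) (nat_lit 5) (nat_lit 36) (nat_lit 4) (nat_lit 468) (nat_lit 404) (nat_lit 328)) (XT.lf (nat_lit 0) (nat_lit 15373828093) (nat_lit 76) (nat_lit 6667785739) (nat_lit 152) (nat_lit 13329128337) (nat_lit 34) (nat_lit 5) (nat_lit 35) (nat_lit 5) (nat_lit 36) (nat_lit 4) (nat_lit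 469) (nat_lit 404) (nat_lit 327)))) (XT.nd (nat_lit 156) (nat_lit 76) (nat_lit 0) (XT.nd (nat_lit 78) (nat_lit 152) (nat_lit 0) (XT.lf (nat_lit 0) (nat_lit 31946386539) (nat_lit 152) (nat_lit 1157143099) (nat_lit 0) (nat_lit 3522166288) (nat_lit 34) (nat_lit 5) (nat_lit 36) (nat_lit 4) (nat_lit 34) (nat_lit 4) (nat_lit 470) (nat_lit 404) (nat_lit 326)) (XT.lf (nat_lit 0) (nat_lit 4654152770) (nat_lit 152) (nat_lit 18914001626) (nat_lit 76) (nat_lit 14352203551) (nat_lit 32) (nat_lit 5) (nat_lit 34) (nat_lit 5) (nat_lit 33) (nat_lit 4) (nat_lit 471) (nat_lit 404) (nat_lit 325))) (XT.nd (nat_lit 78) (nat_lit 0) (nat_lit 0) (XT.lf (nat_lit 0) (nat_lit 848530490) (nat_lit 76) (nat_lit 13460188263) (nat_lit 152) (nat_lit 24966615961) (nat_lit 31) (nat_lit 5) (nat_lit 32) (nat_lit 5) (nat_lit 33) (nat_lit 4) (nat_lit 472) (nat_lit 404) (nat_lit 324)) (XT.lf (nat_lit 0) (nat_lit 22215474958) (nat_lit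 76) (nat_lit 2529768691) (nat_lit 152) (nat_lit 15937856522) (nat_lit 31) (nat_lit 5) (nat_lit 32) (nat_lit 5) (nat_lit 33) (nat_lit 4) (nat_lit 473) (nat_lit 404) (nat_lit 323))))) (XT.nd (nat_lit 234) (nat_lit 228) (nat_lit 0) (XT.nd (nat_lit 78) (nat_lit 152) (nat_lit 0) (XT.lf (nat_lit 0) (nat_lit 2387060858) (nat_lit 76) (nat_lit 33473123407) (nat_lit 76) (nat_lit 6293241483) (nat_lit 30) (nat_lit 4) (nat_lit 31) (nat_lit 5) (nat_lit 31) (nat_lit 4) (nat_lit 474) (nat_lit 404) (nat_lit 322)) (XT.nd (nat_lit 78) (nat_lit 76) (nat_lit 0) (XT.lf (nat_lit 0) (nat_lit 4049931642) (nat_lit 152) (nat_lit 18901650396) (nat_lit 76) (nat_lit 20725742764) (nat_lit 29) (nat_lit 5) (nat_lit 31) (nat_lit 5) (nat_lit 30) (nat_lit 4) (nat_lit 475) (nat_lit 404) (nat_lit 321)) (XT.lf (nat_lit 0) (nat_lit 2960550831) (nat_lit 76) (nat_lit 11765078664) (nat_lit 152) (nat_lit 30545289045) (nat_lit 28) (nat_lit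 5) (nat_lit 29) (nat_lit 5) (nat_lit 30) (nat_lit 4) (nat_lit 476) (nat_lit 404) (nat_lit 320)))) (XT.nd (nat_lit 156) (nat_lit 152) (nat_lit 0) (XT.nd (nat_lit 78) (nat_lit 76) (nat_lit 0) (XT.lf (nat_lit 0) (nat_lit 26240877524) (nat_lit 152) (nat_lit 20398459024) (nat_lit 0) (nat_lit 289568237) (nat_lit 28) (nat_lit 5) (nat_lit 30) (nat_lit 4) (nat_lit 28) (nat_lit 4) (nat_lit 477) (nat_lit 404) (nat_lit 319)) (XT.lf (nat_lit 0) (nat_lit 2459257902) (nat_lit 76) (nat_lit 36085524248) (nat_lit 76) (nat_lit 10114364516) (nat_lit 27) (nat_lit 4) (nat_lit 28) (nat_lit 5) (nat_lit 28) (nat_lit 4) (nat_lit 478) (nat_lit 404) (nat_lit 318))) (XT.nd (nat_lit 78) (nat_lit 76) (nat_lit 0) (XT.lf (nat_lit 0) (nat_lit 1289139753) (nat_lit 152) (nat_lit 23347328423) (nat_lit 76) (nat_lit 25822023146) (nat_lit 26) (nat_lit 5) (nat_lit 28) (nat_lit 5) (nat_lit 27) (nat_lit 4) (nat_lit 479) (nat_lit 404)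 (nat_lit 317)) (XT.lf (nat_lit 0) (nat_lit 462903255) (nat_lit 76) (nat_lit 12449766555) (nat_lit 152) (nat_lit 39427355853) (nat_lit 25) (nat_lit 5) (nat_lit 26) (nat_lit 5) (nat_lit 27) (nat_lit 4) (nat_lit 480) (nat_lit 404) (nat_lit 316))))))))
noncomputable def xc105 : XT := (XT.nd (nat_lit 2184) (nat_lit 456) (nat_lit 0) (XT.nd (nat_lit 1092) (nat_lit 532) (nat_lit 0) (XT.nd (nat_lit 546) (nat_lit 304) (nat_lit 0) (XT.nd (nat_lit 234) (nat_lit 228) (nat_lit 0) (XT.nd (nat_lit 78) (nat_lit 76) (nat_lit 0) (XT.lf (nat_lit 0) (nat_lit 25507251446) (nat_lit 152) (nat_lit 28067562276) (nat_lit 0) (nat_lit 721330095) (nat_lit 25) (nat_lit 5) (nat_lit 27) (nat_lit 4) (nat_lit 25) (nat_lit 4) (nat_lit 481) (nat_lit 404) (nat_lit 315)) (XT.nd (nat_lit 78) (nat_lit 76) (nat_lit 0) (XT.lf (nat_lit 0) (nat_lit 38919074395) (nat_lit 152) (nat_lit 3304018980) (nat_lit 0) (nat_lit 14117599701) (nat_lit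 25) (nat_lit 5) (nat_lit 27) (nat_lit 4) (nat_lit 25) (nat_lit 4) (nat_lit 482) (nat_lit 404) (nat_lit 314)) (XT.lf (nat_lit 0) (nat_lit 23416312272) (nat_lit 76) (nat_lit 29934977809) (nat_lit 76) (nat_lit 5118690407) (nat_lit 24) (nat_lit 4) (nat_lit 25) (nat_lit 5) (nat_lit 25) (nat_lit 4) (nat_lit 483) (nat_lit 404) (nat_lit 313)))) (XT.nd (nat_lit 156) (nat_lit 76) (nat_lit 0) (XT.nd (nat_lit 78) (nat_lit 76) (nat_lit 0) (XT.lf (nat_lit 0) (nat_lit 7590858046) (nat_lit 152) (nat_lit 9269135746) (nat_lit 76) (nat_lit 43837595529) (nat_lit 23) (nat_lit 5) (nat_lit 25) (nat_lit 5) (nat_lit 24) (nat_lit 4) (nat_lit 484) (nat_lit 404) (nat_lit 312)) (XT.lf (nat_lit 0) (nat_lit 18276253347) (nat_lit 76) (nat_lit 2757933800) (nat_lit 152) (nat_lit 41984680227) (nat_lit 22) (nat_lit 5) (nat_lit 23) (nat_lit 5) (nat_lit 24) (nat_lit 4) (nat_lit 485) (nat_lit 404) (nat_lit 311))) (XT.nd (nat_lit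 78) (nat_lit 76) (nat_lit 0) (XT.lf (nat_lit 0) (nat_lit 35482378866) (nat_lit 152) (nat_lit 18147794641) (nat_lit 0) (nat_lit 11809401648) (nat_lit 22) (nat_lit 5) (nat_lit 24) (nat_lit 4) (nat_lit 22) (nat_lit 4) (nat_lit 486) (nat_lit 404) (nat_lit 310)) (XT.lf (nat_lit 0) (nat_lit 10024343960) (nat_lit 76) (nat_lit 40816092751) (nat_lit 76) (nat_lit 17131509389) (nat_lit 21) (nat_lit 4) (nat_lit 22) (nat_lit 5) (nat_lit 22) (nat_lit 4) (nat_lit 487) (nat_lit 404) (nat_lit 309))))) (XT.nd (nat_lit 234) (nat_lit 152) (nat_lit 0) (XT.nd (nat_lit 78) (nat_lit 152) (nat_lit 0) (XT.lf (nat_lit 0) (nat_lit 40207541049) (nat_lit 76) (nat_lit 27052182816) (nat_lit 76) (nat_lit 3356545983) (nat_lit 21) (nat_lit 4) (nat_lit 22) (nat_lit 5) (nat_lit 22) (nat_lit 4) (nat_lit 488) (nat_lit 404) (nat_lit 308)) (XT.nd (nat_lit 78) (nat_lit 76) (nat_lit 0) (XT.lf (nat_lit 0) (nat_lit 10738099705) (nat_lit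 152) (nat_lit 1693059551) (nat_lit 76) (nat_lit 60953658712) (nat_lit 20) (nat_lit 5) (nat_lit 22) (nat_lit 5) (nat_lit 21) (nat_lit 4) (nat_lit 489) (nat_lit 404) (nat_lit 307)) (XT.lf (nat_lit 0) (nat_lit 25923276105) (nat_lit 152) (nat_lit 47004407895) (nat_lit 0) (nat_lit 3336428704) (nat_lit 19) (nat_lit 5) (nat_lit 21) (nat_lit 4) (nat_lit 19) (nat_lit 4) (nat_lit 490) (nat_lit 404) (nat_lit 306)))) (XT.nd (nat_lit 156) (nat_lit 76) (nat_lit 0) (XT.nd (nat_lit 78) (nat_lit 76) (nat_lit 0) (XT.lf (nat_lit 0) (nat_lit 42087753811) (nat_lit 152) (nat_lit 17696804023) (nat_lit 0) (nat_lit 19491812692) (nat_lit 19) (nat_lit 5) (nat_lit 21) (nat_lit 4) (nat_lit 19) (nat_lit 4) (nat_lit 491) (nat_lit 404) (nat_lit 305)) (XT.lf (nat_lit 0) (nat_lit 13483456241) (nat_lit 76) (nat_lit 45775237662) (nat_lit 76) (nat_lit 23170635860) (nat_lit 18) (nat_lit 4) (nat_lit 19) (nat_lit 5) (nat_lit 19)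 (nat_lit 4) (nat_lit 492) (nat_lit 404) (nat_lit 304))) (XT.nd (nat_lit 78) (nat_lit 76) (nat_lit 0) (XT.lf (nat_lit 0) (nat_lit 46813235578) (nat_lit 76) (nat_lit 30762584955) (nat_lit 76) (nat_lit 8149734882) (nat_lit 18) (nat_lit 4) (nat_lit 19) (nat_lit 5) (nat_lit 19) (nat_lit 4) (nat_lit 493) (nat_lit 404) (nat_lit 303)) (XT.lf (nat_lit 0) (nat_lit 7366574118) (nat_lit 152) (nat_lit 7519228624) (nat_lit 76) (nat_lit 74295423727) (nat_lit 17) (nat_lit 5) (nat_lit 19) (nat_lit 5) (nat_lit 18) (nat_lit 4) (nat_lit 494) (nat_lit 404) (nat_lit 302)))))) (XT.nd (nat_lit 546) (nat_lit 228) (nat_lit 0) (XT.nd (nat_lit 234) (nat_lit 228) (nat_lit 0) (XT.nd (nat_lit 78) (nat_lit 0) (nat_lit 0) (XT.lf (nat_lit 0) (nat_lit 23818132773) (nat_lit 152) (nat_lit 66695724131) (nat_lit 0) (nat_lit 2267478495) (nat_lit 16) (nat_lit 5) (nat_lit 18) (nat_lit 4) (nat_lit 16) (nat_lit 4) (nat_lit 495) (nat_lit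 404) (nat_lit 301)) (XT.nd (nat_lit 78) (nat_lit 0) (nat_lit 0) (XT.lf (nat_lit 0) (nat_lit 41454629094) (nat_lit 152) (nat_lit 35191514103) (nat_lit 0) (nat_lit 19897188944) (nat_lit 16) (nat_lit 5) (nat_lit 18) (nat_lit 4) (nat_lit 16) (nat_lit 4) (nat_lit 496) (nat_lit 404) (nat_lit 300)) (XT.lf (nat_lit 0) (nat_lit 59962379599) (nat_lit 152) (nat_lit 2133101276) (nat_lit 0) (nat_lit 38398476714) (nat_lit 16) (nat_lit 5) (nat_lit 18) (nat_lit 4) (nat_lit 16) (nat_lit 4) (nat_lit 497) (nat_lit 404) (nat_lit 299)))) (XT.nd (nat_lit 156) (nat_lit 152) (nat_lit 0) (XT.nd (nat_lit 78) (nat_lit 0) (nat_lit 0) (XT.lf (nat_lit 0) (nat_lit 33634746806) (nat_lit 76) (nat_lit 46275836213) (nat_lit 76) (nat_lit 24705778342) (nat_lit 15) (nat_lit 4) (nat_lit 16) (nat_lit 5) (nat_lit 16) (nat_lit 4) (nat_lit 498) (nat_lit 404) (nat_lit 298)) (XT.lf (nat_lit 0) (nat_lit 71245359115) (nat_lit 76) (nat_lit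 29637067389) (nat_lit 76) (nat_lit 8061147626) (nat_lit 15) (nat_lit 4) (nat_lit 16) (nat_lit 5) (nat_lit 16) (nat_lit 4) (nat_lit 499) (nat_lit 404) (nat_lit 297))) (XT.nd (nat_lit 78) (nat_lit 76) (nat_lit 0) (XT.lf (nat_lit 0) (nat_lit 9104774174) (nat_lit 152) (nat_lit 2916715459) (nat_lit 76) (nat_lit 101458786836) (nat_lit 14) (nat_lit 5) (nat_lit 16) (nat_lit 5) (nat_lit 15) (nat_lit 4) (nat_lit 500) (nat_lit 404) (nat_lit 296)) (XT.lf (nat_lit 0) (nat_lit 27500497062) (nat_lit 152) (nat_lit 83762967589) (nat_lit 0) (nat_lit 6941621419) (nat_lit 13) (nat_lit 5) (nat_lit 15) (nat_lit 4) (nat_lit 13) (nat_lit 4) (nat_lit 501) (nat_lit 404) (nat_lit 295))))) (XT.nd (nat_lit 234) (nat_lit 152) (nat_lit 0) (XT.nd (nat_lit 78) (nat_lit 76) (nat_lit 0) (XT.lf (nat_lit 0) (nat_lit 47054179418) (nat_lit 152) (nat_lit 49609567136) (nat_lit 0) (nat_lit 26490481182) (nat_lit 13) (nat_lit 5) (nat_lit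 15) (nat_lit 4) (nat_lit 13) (nat_lit 4) (nat_lit 502) (nat_lit 404) (nat_lit 294)) (XT.nd (nat_lit 78) (nat_lit 76) (nat_lit 0) (XT.lf (nat_lit 0) (nat_lit 67576873476) (nat_lit 152) (nat_lit 13765804574) (nat_lit 0) (nat_lit 47008582294) (nat_lit 13) (nat_lit 5) (nat_lit 15) (nat_lit 4) (nat_lit 13) (nat_lit 4) (nat_lit 503) (nat_lit 404) (nat_lit 293)) (XT.lf (nat_lit 0) (nat_lit 24642372193) (nat_lit 76) (nat_lit 64859807090) (nat_lit 76) (nat_lit 44287141675) (nat_lit 12) (nat_lit 4) (nat_lit 13) (nat_lit 5) (nat_lit 13) (nat_lit 4) (nat_lit 504) (nat_lit 404) (nat_lit 292)))) (XT.nd (nat_lit 156) (nat_lit 152) (nat_lit 0) (XT.nd (nat_lit 78) (nat_lit 0) (nat_lit 0) (XT.lf (nat_lit 0) (nat_lit 65432657591) (nat_lit 76) (nat_lit 47316104010) (nat_lit 76) (nat_lit 26739272658) (nat_lit 12) (nat_lit 4) (nat_lit 13) (nat_lit 5) (nat_lit 13) (nat_lit 4) (nat_lit 505) (nat_lit 404) (nat_lit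 291)) (XT.lf (nat_lit 0) (nat_lit 108247011677) (nat_lit 76) (nat_lit 28902928650) (nat_lit 76) (nat_lit 8322129739) (nat_lit 12) (nat_lit 4) (nat_lit 13) (nat_lit 5) (nat_lit 13) (nat_lit 4) (nat_lit 506) (nat_lit 404) (nat_lit 290))) (XT.nd (nat_lit 78) (nat_lit 0) (nat_lit 0) (XT.lf (nat_lit 0) (nat_lit 1301485079) (nat_lit 76) (nat_lit 9374643026) (nat_lit 152) (nat_lit 141069938595) (nat_lit 10) (nat_lit 5) (nat_lit 11) (nat_lit 5) (nat_lit 12) (nat_lit 4) (nat_lit 507) (nat_lit 404) (nat_lit 289)) (XT.lf (nat_lit 0) (nat_lit 31151677699) (nat_lit 152) (nat_lit 115591020566) (nat_lit 0) (nat_lit 11543890812) (nat_lit 10) (nat_lit 5) (nat_lit 12) (nat_lit 4) (nat_lit 10) (nat_lit 4) (nat_lit 508) (nat_lit 404) (nat_lit 288))))))) (XT.nd (nat_lit 1092) (nat_lit 152) (nat_lit 0) (XT.nd (nat_lit 546) (nat_lit 228) (nat_lit 0) (XT.nd (nat_lit 234) (nat_lit 76) (nat_lit 0) (XT.nd (nat_lit 78)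 (nat_lit 0) (nat_lit 0) (XT.lf (nat_lit 0) (nat_lit 52797569733) (nat_lit 152) (nat_lit 79162721035) (nat_lit 0) (nat_lit 33186518726) (nat_lit 10) (nat_lit 5) (nat_lit 12) (nat_lit 4) (nat_lit 10) (nat_lit 4) (nat_lit 509) (nat_lit 404) (nat_lit 287)) (XT.nd (nat_lit 78) (nat_lit 0) (nat_lit 0) (XT.lf (nat_lit 0) (nat_lit 75518977596) (nat_lit 152) (nat_lit 40926584531) (nat_lit 0) (nat_lit 55904817903) (nat_lit 10) (nat_lit 5) (nat_lit 12) (nat_lit 4) (nat_lit 10) (nat_lit 4) (nat_lit 510) (nat_lit 404) (nat_lit 286)) (XT.lf (nat_lit 0) (nat_lit 99369999880) (nat_lit 152) (nat_lit 791572636) (nat_lit 0) (nat_lit 79752879533) (nat_lit 10) (nat_lit 5) (nat_lit 12) (nat_lit 4) (nat_lit 10) (nat_lit 4) (nat_lit 511) (nat_lit 404) (nat_lit 285)))) (XT.nd (nat_lit 156) (nat_lit 0) (nat_lit 0) (XT.nd (nat_lit 78) (nat_lit 0) (nat_lit 0) (XT.lf (nat_lit 0) (nat_lit 42704691011) (nat_lit 76) (nat_lit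 82369473626) (nat_lit 76) (nat_lit 62749533609) (nat_lit 9) (nat_lit 4) (nat_lit 10) (nat_lit 5) (nat_lit 10) (nat_lit 4) (nat_lit 512) (nat_lit 404) (nat_lit 284)) (XT.lf (nat_lit 0) (nat_lit 88391132445) (nat_lit 76) (nat_lit 63679765914) (nat_lit 76) (nat_lit 44057140497) (nat_lit 9) (nat_lit 4) (nat_lit 10) (nat_lit 5) (nat_lit 10) (nat_lit 4) (nat_lit 513) (nat_lit 404) (nat_lit 283))) (XT.nd (nat_lit 78) (nat_lit 0) (nat_lit 0) (XT.lf (nat_lit 0) (nat_lit 136350355941) (nat_lit 76) (nat_lit 44061355743) (nat_lit 76) (nat_lit 24436172802) (nat_lit 9) (nat_lit 4) (nat_lit 10) (nat_lit 5) (nat_lit 10) (nat_lit 4) (nat_lit 514) (nat_lit 404) (nat_lit 282)) (XT.lf (nat_lit 0) (nat_lit 186696550125) (nat_lit 76) (nat_lit 23467532611) (nat_lit 76) (nat_lit 3839913933) (nat_lit 9) (nat_lit 4) (nat_lit 10) (nat_lit 5) (nat_lit 10) (nat_lit 4) (nat_lit 515) (nat_lit 404) (nat_lit 281))))) (XT.nd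 (nat_lit 234) (nat_lit 76) (nat_lit 0) (XT.nd (nat_lit 78) (nat_lit 0) (nat_lit 0) (XT.lf (nat_lit 0) (nat_lit 16171390539) (nat_lit 76) (nat_lit 1292672371) (nat_lit 152) (nat_lit 206127608420) (nat_lit 7) (nat_lit 5) (nat_lit 8) (nat_lit 5) (nat_lit 9) (nat_lit 4) (nat_lit 516) (nat_lit 404) (nat_lit 280)) (XT.nd (nat_lit 78) (nat_lit 0) (nat_lit 0) (XT.lf (nat_lit 0) (nat_lit 40512278261) (nat_lit 152) (nat_lit 171287905078) (nat_lit 0) (nat_lit 21814994726) (nat_lit 7) (nat_lit 5) (nat_lit 9) (nat_lit 4) (nat_lit 7) (nat_lit 4) (nat_lit 517) (nat_lit 404) (nat_lit 279)) (XT.lf (nat_lit 0) (nat_lit 64729047808) (nat_lit 152) (nat_lit 133380244876) (nat_lit 0) (nat_lit 46029760386) (nat_lit 7) (nat_lit 5) (nat_lit 9) (nat_lit 4) (nat_lit 7) (nat_lit 4) (nat_lit 518) (nat_lit 404) (nat_lit 278)))) (XT.nd (nat_lit 156) (nat_lit 76) (nat_lit 0) (XT.nd (nat_lit 78) (nat_lit 0) (nat_lit 0) (XT.lf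 (nat_lit 0) (nat_lit 90151848287) (nat_lit 152) (nat_lit 93586861613) (nat_lit 0) (nat_lit 71450652401) (nat_lit 7) (nat_lit 5) (nat_lit 9) (nat_lit 4) (nat_lit 7) (nat_lit 4) (nat_lit 519) (nat_lit 404) (nat_lit 277)) (XT.lf (nat_lit 0) (nat_lit 116841210176) (nat_lit 152) (nat_lit 51813009139) (nat_lit 0) (nat_lit 98138196705) (nat_lit 7) (nat_lit 5) (nat_lit 9) (nat_lit 4) (nat_lit 7) (nat_lit 4) (nat_lit 520) (nat_lit 404) (nat_lit 276))) (XT.nd (nat_lit 78) (nat_lit 76) (nat_lit 0) (XT.lf (nat_lit 0) (nat_lit 144860679574) (nat_lit 152) (nat_lit 7959225900) (nat_lit 0) (nat_lit 126155935070) (nat_lit 7) (nat_lit 5) (nat_lit 9) (nat_lit 4) (nat_lit 7) (nat_lit 4) (nat_lit 521) (nat_lit 404) (nat_lit 275)) (XT.lf (nat_lit 0) (nat_lit 39337962338) (nat_lit 76) (nat_lit 135553183002) (nat_lit 76) (nat_lit 116846789896) (nat_lit 6) (nat_lit 4) (nat_lit 7) (nat_lit 5) (nat_lit 7) (nat_lit 4)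 (nat_lit 522) (nat_lit 404) (nat_lit 274)))))) (XT.nd (nat_lit 546) (nat_lit 0) (nat_lit 0) (XT.nd (nat_lit 234) (nat_lit 152) (nat_lit 0) (XT.nd (nat_lit 78) (nat_lit 0) (nat_lit 0) (XT.lf (nat_lit 0) (nat_lit 89268126304) (nat_lit 76) (nat_lit 117285718072) (nat_lit 76) (nat_lit 98577754868) (nat_lit 6) (nat_lit 4) (nat_lit 7) (nat_lit 5) (nat_lit 7) (nat_lit 4) (nat_lit 523) (nat_lit 404) (nat_lit 273)) (XT.nd (nat_lit 78) (nat_lit 0) (nat_lit 0) (XT.lf (nat_lit 0) (nat_lit 141686979385) (nat_lit 76) (nat_lit 98108810063) (nat_lit 76) (nat_lit 79399351528) (nat_lit 6) (nat_lit 4) (nat_lit 7) (nat_lit 5) (nat_lit 7) (nat_lit 4) (nat_lit 524) (nat_lit 404) (nat_lit 272)) (XT.lf (nat_lit 0) (nat_lit 196719328375) (nat_lit 76) (nat_lit 77976799670) (nat_lit 76) (nat_lit 59265917010) (nat_lit 6) (nat_lit 4) (nat_lit 7) (nat_lit 5) (nat_lit 7) (nat_lit 4) (nat_lit 525) (nat_lit 404) (nat_lit 271))))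 (XT.nd (nat_lit 156) (nat_lit 152) (nat_lit 0) (XT.nd (nat_lit 78) (nat_lit 0) (nat_lit 0) (XT.lf (nat_lit 0) (nat_lit 254496202676) (nat_lit 76) (nat_lit 56841753535) (nat_lit 76) (nat_lit 38129514566) (nat_lit 6) (nat_lit 4) (nat_lit 7) (nat_lit 5) (nat_lit 7) (nat_lit 4) (nat_lit 526) (nat_lit 404) (nat_lit 270)) (XT.lf (nat_lit 0) (nat_lit 315155166275) (nat_lit 76) (nat_lit 34653350120) (nat_lit 76) (nat_lit 15939819427) (nat_lit 6) (nat_lit 4) (nat_lit 7) (nat_lit 5) (nat_lit 7) (nat_lit 4) (nat_lit 527) (nat_lit 404) (nat_lit 269))) (XT.nd (nat_lit 78) (nat_lit 76) (nat_lit 0) (XT.lf (nat_lit 0) (nat_lit 7120563041) (nat_lit 152) (nat_lit 4117606670) (nat_lit 76) (nat_lit 371599492054) (nat_lit 5) (nat_lit 5) (nat_lit 7) (nat_lit 5) (nat_lit 6) (nat_lit 4) (nat_lit 528) (nat_lit 404) (nat_lit 268)) (XT.lf (nat_lit 0) (nat_lit 31735917630) (nat_lit 152) (nat_lit 355074369257) (nat_lit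 0) (nat_lit 13911219976) (nat_lit 4) (nat_lit 5) (nat_lit 6) (nat_lit 4) (nat_lit 4) (nat_lit 4) (nat_lit 529) (nat_lit 404) (nat_lit 267))))) (XT.nd (nat_lit 312) (nat_lit 0) (nat_lit 0) (XT.nd (nat_lit 156) (nat_lit 0) (nat_lit 0) (XT.nd (nat_lit 78) (nat_lit 0) (nat_lit 0) (XT.lf (nat_lit 0) (nat_lit 57834055659) (nat_lit 152) (nat_lit 321644592529) (nat_lit 0) (nat_lit 40008295300) (nat_lit 4) (nat_lit 5) (nat_lit 6) (nat_lit 4) (nat_lit 4) (nat_lit 4) (nat_lit 530) (nat_lit 404) (nat_lit 266)) (XT.lf (nat_lit 0) (nat_lit 85234154477) (nat_lit 152) (nat_lit 286549262805) (nat_lit 0) (nat_lit 67407382019) (nat_lit 4) (nat_lit 5) (nat_lit 6) (nat_lit 4) (nat_lit 4) (nat_lit 4) (nat_lit 531) (nat_lit 404) (nat_lit 265))) (XT.nd (nat_lit 78) (nat_lit 0) (nat_lit 0) (XT.lf (nat_lit 0) (nat_lit 114001452415) (nat_lit 152) (nat_lit 249704819778) (nat_lit 0) (nat_lit 96173716054) (nat_lit 4) (nat_lit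 5) (nat_lit 6) (nat_lit 4) (nat_lit 4) (nat_lit 4) (nat_lit 532) (nat_lit 404) (nat_lit 264)) (XT.lf (nat_lit 0) (nat_lit 144204443041) (nat_lit 152) (nat_lit 211023538581) (nat_lit 0) (nat_lit 126375788676) (nat_lit 4) (nat_lit 5) (nat_lit 6) (nat_lit 4) (nat_lit 4) (nat_lit 4) (nat_lit 533) (nat_lit 404) (nat_lit 263)))) (XT.nd (nat_lit 156) (nat_lit 0) (nat_lit 0) (XT.nd (nat_lit 78) (nat_lit 0) (nat_lit 0) (XT.lf (nat_lit 0) (nat_lit 175915038236) (nat_lit 152) (nat_lit 170413320927) (nat_lit 0) (nat_lit 158085509582) (nat_lit 4) (nat_lit 5) (nat_lit 6) (nat_lit 4) (nat_lit 4) (nat_lit 4) (nat_lit 534) (nat_lit 404) (nat_lit 262)) (XT.lf (nat_lit 0) (nat_lit 209208739417) (nat_lit 152) (nat_lit 127777475822) (nat_lit 0) (nat_lit 191378378107) (nat_lit 4) (nat_lit 5) (nat_lit 6) (nat_lit 4) (nat_lit 4) (nat_lit 4) (nat_lit 535) (nat_lit 404) (nat_lit 261))) (XT.nd (nat_lit 78) (nat_lit 0)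 (nat_lit 0) (XT.lf (nat_lit 0) (nat_lit 244164817302) (nat_lit 152) (nat_lit 83014489348) (nat_lit 0) (nat_lit 226333662986) (nat_lit 4) (nat_lit 5) (nat_lit 6) (nat_lit 4) (nat_lit 4) (nat_lit 4) (nat_lit 536) (nat_lit 404) (nat_lit 260)) (XT.lf (nat_lit 0) (nat_lit 280866500648) (nat_lit 152) (nat_lit 36017782967) (nat_lit 0) (nat_lit 263034591088) (nat_lit 4) (nat_lit 5) (nat_lit 6) (nat_lit 4) (nat_lit 4) (nat_lit 4) (nat_lit 537) (nat_lit 404) (nat_lit 259))))))))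
noncomputable def xc106 : XT := (XT.nd (nat_lit 53742) (nat_lit 0) (nat_lit 3572) (XT.nd (nat_lit 52650) (nat_lit 0) (nat_lit 7752) (XT.nd (nat_lit 52104) (nat_lit 0) (nat_lit 12084) (XT.nd (nat_lit 234) (nat_lit 0) (nat_lit 0) (XT.nd (nat_lit 78) (nat_lit 0) (nat_lit 0) (XT.lf (nat_lit 0) (nat_lit 13765109717) (nat_lit 76) (nat_lit 305850976636) (nat_lit 76) (nat_lit 288018347796) (nat_lit 3) (nat_lit 4) (nat_lit 4) (nat_lit 5) (nat_lit 4) (nat_lit 4) (nat_lit 538) (nat_lit 404) (nat_lit 258)) (XT.nd (nat_lit 78) (nat_lit 0) (nat_lit 0) (XT.lf (nat_lit 0) (nat_lit 67283452679) (nat_lit 76) (nat_lit 293627618404) (nat_lit 76) (nat_lit 275794304535) (nat_lit 3) (nat_lit 4) (nat_lit 4) (nat_lit 5) (nat_lit 4) (nat_lit 4) (nat_lit 539) (nat_lit 404) (nat_lit 257)) (XT.lf (nat_lit 0) (nat_lit 123473759979) (nat_lit 76) (nat_lit 280795084266) (nat_lit 76) (nat_lit 262961117989) (nat_lit 3) (nat_lit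 4) (nat_lit 4) (nat_lit 5) (nat_lit 4) (nat_lit 4) (nat_lit 540) (nat_lit 404) (nat_lit 256)))) (XT.nd (nat_lit 156) (nat_lit 0) (nat_lit 0) (XT.nd (nat_lit 78) (nat_lit 0) (nat_lit 0) (XT.lf (nat_lit 0) (nat_lit 182469818062) (nat_lit 76) (nat_lit 267322820570) (nat_lit 76) (nat_lit 249488232952) (nat_lit 3) (nat_lit 4) (nat_lit 4) (nat_lit 5) (nat_lit 4) (nat_lit 4) (nat_lit 541) (nat_lit 404) (nat_lit 255)) (XT.lf (nat_lit 0) (nat_lit 244412093733) (nat_lit 76) (nat_lit 253178750498) (nat_lit 76) (nat_lit 235343571127) (nat_lit 3) (nat_lit 4) (nat_lit 4) (nat_lit 5) (nat_lit 4) (nat_lit 4) (nat_lit 542) (nat_lit 404) (nat_lit 254))) (XT.nd (nat_lit 78) (nat_lit 0) (nat_lit 0) (XT.lf (nat_lit 0) (nat_lit 309448068601) (nat_lit 76) (nat_lit 238329197693) (nat_lit 76) (nat_lit 220493454747) (nat_lit 3) (nat_lit 4) (nat_lit 4) (nat_lit 5) (nat_lit 4) (nat_lit 4) (nat_lit 543) (nat_lit 404) (nat_lit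 253)) (XT.lf (nat_lit 0) (nat_lit 377732590226) (nat_lit 76) (nat_lit 222738806076) (nat_lit 76) (nat_lit 204902526392) (nat_lit 3) (nat_lit 4) (nat_lit 4) (nat_lit 5) (nat_lit 4) (nat_lit 4) (nat_lit 544) (nat_lit 404) (nat_lit 252))))) (XT.nd (nat_lit 234) (nat_lit 456) (nat_lit 0) (XT.nd (nat_lit 78) (nat_lit 0) (nat_lit 0) (XT.lf (nat_lit 0) (nat_lit 75933314) (nat_lit 0) (nat_lit 75933314) (nat_lit 380) (nat_lit 3214050040) (nat_lit 168) (nat_lit 5) (nat_lit 168) (nat_lit 3) (nat_lit 173) (nat_lit 3) (nat_lit 405) (nat_lit 405) (nat_lit 390)) (XT.nd (nat_lit 78) (nat_lit 0) (nat_lit 0) (XT.lf (nat_lit 0) (nat_lit 2447309030) (nat_lit 380) (nat_lit 3251903054) (nat_lit 456) (nat_lit 1092936498) (nat_lit 168) (nat_lit 5) (nat_lit 173) (nat_lit 3) (nat_lit 174) (nat_lit 5) (nat_lit 406) (nat_lit 405) (nat_lit 389)) (XT.lf (nat_lit 76) (nat_lit 169793815) (nat_lit 0) (nat_lit 4398867764) (nat_lit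 456) (nat_lit 2293363739) (nat_lit 169) (nat_lit 5) (nat_lit 168) (nat_lit 5) (nat_lit 174) (nat_lit 5) (nat_lit 407) (nat_lit 405) (nat_lit 388)))) (XT.nd (nat_lit 156) (nat_lit 0) (nat_lit 76) (XT.nd (nat_lit 78) (nat_lit 456) (nat_lit 0) (XT.lf (nat_lit 76) (nat_lit 3800980652) (nat_lit 0) (nat_lit 2920874806) (nat_lit 456) (nat_lit 217323775) (nat_lit 169) (nat_lit 5) (nat_lit 168) (nat_lit 5) (nat_lit 174) (nat_lit 5) (nat_lit 408) (nat_lit 405) (nat_lit 387)) (XT.lf (nat_lit 76) (nat_lit 503870387) (nat_lit 0) (nat_lit 1278474909) (nat_lit 532) (nat_lit 5242246861) (nat_lit 163) (nat_lit 5) (nat_lit 162) (nat_lit 5) (nat_lit 169) (nat_lit 5) (nat_lit 409) (nat_lit 405) (nat_lit 386))) (XT.nd (nat_lit 78) (nat_lit 0) (nat_lit 0) (XT.lf (nat_lit 0) (nat_lit 3815984048) (nat_lit 456) (nat_lit 2766771203) (nat_lit 532) (nat_lit 534340076) (nat_lit 163) (nat_lit 5) (nat_lit 169) (nat_lit 5)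 (nat_lit 170) (nat_lit 5) (nat_lit 410) (nat_lit 405) (nat_lit 385)) (XT.lf (nat_lit 76) (nat_lit 1112625603) (nat_lit 0) (nat_lit 4763016128) (nat_lit 532) (nat_lit 1342424330) (nat_lit 164) (nat_lit 5) (nat_lit 163) (nat_lit 5) (nat_lit 170) (nat_lit 5) (nat_lit 411) (nat_lit 405) (nat_lit 384)))))) (XT.nd (nat_lit 546) (nat_lit 2052) (nat_lit 0) (XT.nd (nat_lit 234) (nat_lit 1824) (nat_lit 0) (XT.nd (nat_lit 78) (nat_lit 0) (nat_lit 0) (XT.lf (nat_lit 0) (nat_lit 627363309) (nat_lit 532) (nat_lit 2131019970) (nat_lit 608) (nat_lit 4568397015) (nat_lit 156) (nat_lit 5) (nat_lit 163) (nat_lit 5) (nat_lit 164) (nat_lit 5) (nat_lit 412) (nat_lit 405) (nat_lit 383)) (XT.nd (nat_lit 78) (nat_lit 0) (nat_lit 76) (XT.lf (nat_lit 76) (nat_lit 2008782449) (nat_lit 0) (nat_lit 566820971) (nat_lit 608) (nat_lit 4868023792) (nat_lit 157) (nat_lit 5) (nat_lit 156) (nat_lit 5) (nat_lit 164) (nat_lit 5)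 (nat_lit 413) (nat_lit 405) (nat_lit 382)) (XT.lf (nat_lit 0) (nat_lit 4583065609) (nat_lit 532) (nat_lit 1242632857) (nat_lit 76) (nat_lit 1742576257) (nat_lit 157) (nat_lit 5) (nat_lit 164) (nat_lit 5) (nat_lit 158) (nat_lit 5) (nat_lit 414) (nat_lit 405) (nat_lit 381)))) (XT.nd (nat_lit 156) (nat_lit 1292) (nat_lit 0) (XT.nd (nat_lit 78) (nat_lit 76) (nat_lit 0) (XT.lf (nat_lit 0) (nat_lit 3175326992) (nat_lit 532) (nat_lit 3477347524) (nat_lit 608) (nat_lit 1048437844) (nat_lit 150) (nat_lit 5) (nat_lit 157) (nat_lit 5) (nat_lit 158) (nat_lit 5) (nat_lit 415) (nat_lit 405) (nat_lit 380)) (XT.lf (nat_lit 0) (nat_lit 879810735) (nat_lit 608) (nat_lit 76101940) (nat_lit 76) (nat_lit 6887643730) (nat_lit 149) (nat_lit 5) (nat_lit 157) (nat_lit 5) (nat_lit 150) (nat_lit 5) (nat_lit 416) (nat_lit 405) (nat_lit 379))) (XT.nd (nat_lit 78) (nat_lit 684) (nat_lit 0) (XT.lf (nat_lit 0) (nat_lit 2879341579)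 (nat_lit 684) (nat_lit 3367966970) (nat_lit 76) (nat_lit 1744489626) (nat_lit 141) (nat_lit 5) (nat_lit 150) (nat_lit 5) (nat_lit 142) (nat_lit 5) (nat_lit 417) (nat_lit 405) (nat_lit 378)) (XT.lf (nat_lit 0) (nat_lit 1364107549) (nat_lit 684) (nat_lit 3565732332) (nat_lit 760) (nat_lit 3220100802) (nat_lit 132) (nat_lit 5) (nat_lit 141) (nat_lit 5) (nat_lit 142) (nat_lit 5) (nat_lit 418) (nat_lit 405) (nat_lit 377))))) (XT.nd (nat_lit 234) (nat_lit 1216) (nat_lit 0) (XT.nd (nat_lit 78) (nat_lit 836) (nat_lit 0) (XT.lf (nat_lit 0) (nat_lit 6373093983) (nat_lit 684) (nat_lit 682480275) (nat_lit 760) (nat_lit 1261816881) (nat_lit 132) (nat_lit 5) (nat_lit 141) (nat_lit 5) (nat_lit 142) (nat_lit 5) (nat_lit 419) (nat_lit 405) (nat_lit 376)) (XT.nd (nat_lit 78) (nat_lit 0) (nat_lit 0) (XT.lf (nat_lit 0) (nat_lit 774221671) (nat_lit 836) (nat_lit 5379868215) (nat_lit 76) (nat_lit 2338273822) (nat_lit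 121) (nat_lit 5) (nat_lit 132) (nat_lit 5) (nat_lit 122) (nat_lit 5) (nat_lit 420) (nat_lit 405) (nat_lit 375)) (XT.lf (nat_lit 0) (nat_lit 2835446164) (nat_lit 836) (nat_lit 295753893) (nat_lit 76) (nat_lit 5545592532) (nat_lit 121) (nat_lit 5) (nat_lit 132) (nat_lit 5) (nat_lit 122) (nat_lit 5) (nat_lit 421) (nat_lit 405) (nat_lit 374)))) (XT.nd (nat_lit 156) (nat_lit 456) (nat_lit 0) (XT.nd (nat_lit 78) (nat_lit 380) (nat_lit 0) (XT.lf (nat_lit 0) (nat_lit 5006733812) (nat_lit 456) (nat_lit 3740177828) (nat_lit 76) (nat_lit 123211104) (nat_lit 116) (nat_lit 5) (nat_lit 122) (nat_lit 5) (nat_lit 117) (nat_lit 5) (nat_lit 422) (nat_lit 405) (nat_lit 373)) (XT.lf (nat_lit 0) (nat_lit 1689763434) (nat_lit 380) (nat_lit 5606929343) (nat_lit 456) (nat_lit 1775949788) (nat_lit 111) (nat_lit 5) (nat_lit 116) (nat_lit 5) (nat_lit 117) (nat_lit 5) (nat_lit 423) (nat_lit 405) (nat_lit 372))) (XT.nd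 (nat_lit 78) (nat_lit 380) (nat_lit 0) (XT.lf (nat_lit 0) (nat_lit 395328906) (nat_lit 456) (nat_lit 1846981687) (nat_lit 76) (nat_lit 7043040113) (nat_lit 110) (nat_lit 5) (nat_lit 116) (nat_lit 5) (nat_lit 111) (nat_lit 5) (nat_lit 424) (nat_lit 405) (nat_lit 371)) (XT.lf (nat_lit 0) (nat_lit 2631131279) (nat_lit 456) (nat_lit 5539463840) (nat_lit 76) (nat_lit 1335885894) (nat_lit 105) (nat_lit 5) (nat_lit 111) (nat_lit 5) (nat_lit 106) (nat_lit 5) (nat_lit 425) (nat_lit 405) (nat_lit 370))))))) (XT.nd (nat_lit 1092) (nat_lit 1748) (nat_lit 0) (XT.nd (nat_lit 546) (nat_lit 1216) (nat_lit 0) (XT.nd (nat_lit 234) (nat_lit 608) (nat_lit 0) (XT.nd (nat_lit 78) (nat_lit 304) (nat_lit 0) (XT.lf (nat_lit 0) (nat_lit 294221796) (nat_lit 304) (nat_lit 4691440167) (nat_lit 380) (nat_lit 4752682414) (nat_lit 101) (nat_lit 5) (nat_lit 105) (nat_lit 5) (nat_lit 106) (nat_lit 5) (nat_lit 426) (nat_lit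 405) (nat_lit 369)) (XT.nd (nat_lit 78) (nat_lit 304) (nat_lit 0) (XT.lf (nat_lit 0) (nat_lit 6536487497) (nat_lit 304) (nat_lit 951013417) (nat_lit 380) (nat_lit 2492843243) (nat_lit 101) (nat_lit 5) (nat_lit 105) (nat_lit 5) (nat_lit 106) (nat_lit 5) (nat_lit 427) (nat_lit 405) (nat_lit 368)) (XT.lf (nat_lit 0) (nat_lit 2825646492) (nat_lit 304) (nat_lit 7318032563) (nat_lit 380) (nat_lit 89323776) (nat_lit 97) (nat_lit 5) (nat_lit 101) (nat_lit 5) (nat_lit 102) (nat_lit 5) (nat_lit 428) (nat_lit 405) (nat_lit 367)))) (XT.nd (nat_lit 156) (nat_lit 304) (nat_lit 0) (XT.nd (nat_lit 78) (nat_lit 228) (nat_lit 0) (XT.lf (nat_lit 0) (nat_lit 2370763624) (nat_lit 380) (nat_lit 1097304549) (nat_lit 76) (nat_lit 7027629838) (nat_lit 96) (nat_lit 5) (nat_lit 101) (nat_lit 5) (nat_lit 97) (nat_lit 5) (nat_lit 429) (nat_lit 405) (nat_lit 366)) (XT.lf (nat_lit 0) (nat_lit 4991366896) (nat_lit 304) (nat_lit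 5144984658) (nat_lit 76) (nat_lit 633095885) (nat_lit 93) (nat_lit 5) (nat_lit 97) (nat_lit 5) (nat_lit 94) (nat_lit 5) (nat_lit 430) (nat_lit 405) (nat_lit 365))) (XT.nd (nat_lit 78) (nat_lit 0) (nat_lit 0) (XT.lf (nat_lit 0) (nat_lit 1584628803) (nat_lit 304) (nat_lit 6202585452) (nat_lit 380) (nat_lit 3267476888) (nat_lit 89) (nat_lit 5) (nat_lit 93) (nat_lit 5) (nat_lit 94) (nat_lit 5) (nat_lit 431) (nat_lit 405) (nat_lit 364)) (XT.lf (nat_lit 0) (nat_lit 8757138662) (nat_lit 304) (nat_lit 1998132037) (nat_lit 380) (nat_lit 597322161) (nat_lit 89) (nat_lit 5) (nat_lit 93) (nat_lit 5) (nat_lit 94) (nat_lit 5) (nat_lit 432) (nat_lit 405) (nat_lit 363))))) (XT.nd (nat_lit 234) (nat_lit 684) (nat_lit 0) (XT.nd (nat_lit 78) (nat_lit 228) (nat_lit 0) (XT.lf (nat_lit 0) (nat_lit 2194827060) (nat_lit 304) (nat_lit 7034617750) (nat_lit 76) (nat_lit 2431282440) (nat_lit 85) (nat_lit 5) (nat_lit 89)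 (nat_lit 5) (nat_lit 86) (nat_lit 5) (nat_lit 433) (nat_lit 405) (nat_lit 362)) (XT.nd (nat_lit 78) (nat_lit 0) (nat_lit 0) (XT.lf (nat_lit 0) (nat_lit 208482858) (nat_lit 228) (nat_lit 4926894453) (nat_lit 304) (nat_lit 6846972461) (nat_lit 82) (nat_lit 5) (nat_lit 85) (nat_lit 5) (nat_lit 86) (nat_lit 5) (nat_lit 434) (nat_lit 405) (nat_lit 361)) (XT.lf (nat_lit 0) (nat_lit 7987411169) (nat_lit 228) (nat_lit 304225020) (nat_lit 304) (nat_lit 4024996887) (nat_lit 82) (nat_lit 5) (nat_lit 85) (nat_lit 5) (nat_lit 86) (nat_lit 5) (nat_lit 435) (nat_lit 405) (nat_lit 360)))) (XT.nd (nat_lit 156) (nat_lit 380) (nat_lit 0) (XT.nd (nat_lit 78) (nat_lit 76) (nat_lit 0) (XT.lf (nat_lit 0) (nat_lit 3457990558) (nat_lit 228) (nat_lit 8224388173) (nat_lit 304) (nat_lit 981431334) (nat_lit 79) (nat_lit 5) (nat_lit 82) (nat_lit 5) (nat_lit 83) (nat_lit 5) (nat_lit 436) (nat_lit 405) (nat_lit 359)) (XT.lf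 (nat_lit 0) (nat_lit 2175050822) (nat_lit 304) (nat_lit 1350364455) (nat_lit 76) (nat_lit 9499633384) (nat_lit 78) (nat_lit 5) (nat_lit 82) (nat_lit 5) (nat_lit 79) (nat_lit 5) (nat_lit 437) (nat_lit 405) (nat_lit 358))) (XT.nd (nat_lit 78) (nat_lit 152) (nat_lit 0) (XT.lf (nat_lit 0) (nat_lit 5544414170) (nat_lit 304) (nat_lit 6383417164) (nat_lit 76) (nat_lit 1471322698) (nat_lit 75) (nat_lit 5) (nat_lit 79) (nat_lit 5) (nat_lit 76) (nat_lit 5) (nat_lit 438) (nat_lit 405) (nat_lit 357)) (XT.lf (nat_lit 0) (nat_lit 1994573864) (nat_lit 152) (nat_lit 7155059099) (nat_lit 228) (nat_lit 4638973088) (nat_lit 73) (nat_lit 5) (nat_lit 75) (nat_lit 5) (nat_lit 76) (nat_lit 5) (nat_lit 439) (nat_lit 405) (nat_lit 356)))))) (XT.nd (nat_lit 546) (nat_lit 912) (nat_lit 0) (XT.nd (nat_lit 234) (nat_lit 380) (nat_lit 0) (XT.nd (nat_lit 78) (nat_lit 456) (nat_lit 0) (XT.lf (nat_lit 0) (nat_lit 10946867757)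 (nat_lit 152) (nat_lit 2052659040) (nat_lit 228) (nat_lit 1194793399) (nat_lit 73) (nat_lit 5) (nat_lit 75) (nat_lit 5) (nat_lit 76) (nat_lit 5) (nat_lit 440) (nat_lit 405) (nat_lit 355)) (XT.nd (nat_lit 78) (nat_lit 152) (nat_lit 0) (XT.lf (nat_lit 0) (nat_lit 2445857454) (nat_lit 304) (nat_lit 8859237723) (nat_lit 76) (nat_lit 3308255341) (nat_lit 69) (nat_lit 5) (nat_lit 73) (nat_lit 5) (nat_lit 70) (nat_lit 5) (nat_lit 441) (nat_lit 405) (nat_lit 354)) (XT.lf (nat_lit 0) (nat_lit 153537050) (nat_lit 152) (nat_lit 6125172093) (nat_lit 228) (nat_lit 8771136653) (nat_lit 67) (nat_lit 5) (nat_lit 69) (nat_lit 5) (nat_lit 70) (nat_lit 5) (nat_lit 442) (nat_lit 405) (nat_lit 353)))) (XT.nd (nat_lit 156) (nat_lit 228) (nat_lit 0) (XT.nd (nat_lit 78) (nat_lit 152) (nat_lit 0) (XT.lf (nat_lit 0) (nat_lit 9860417618) (nat_lit 152) (nat_lit 552177666) (nat_lit 228) (nat_lit 5090109376) (nat_lit 67)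 (nat_lit 5) (nat_lit 69) (nat_lit 5) (nat_lit 70) (nat_lit 5) (nat_lit 443) (nat_lit 405) (nat_lit 352)) (XT.lf (nat_lit 0) (nat_lit 4058960729) (nat_lit 152) (nat_lit 10801269215) (nat_lit 228) (nat_lit 1112631831) (nat_lit 65) (nat_lit 5) (nat_lit 67) (nat_lit 5) (nat_lit 68) (nat_lit 5) (nat_lit 444) (nat_lit 405) (nat_lit 351))) (XT.nd (nat_lit 78) (nat_lit 152) (nat_lit 0) (XT.lf (nat_lit 0) (nat_lit 3033042367) (nat_lit 228) (nat_lit 2141969527) (nat_lit 76) (nat_lit 11285761411) (nat_lit 64) (nat_lit 5) (nat_lit 67) (nat_lit 5) (nat_lit 65) (nat_lit 5) (nat_lit 445) (nat_lit 405) (nat_lit 350)) (XT.lf (nat_lit 0) (nat_lit 7454850402) (nat_lit 228) (nat_lit 8674802116) (nat_lit 76) (nat_lit 837210735) (nat_lit 62) (nat_lit 5) (nat_lit 65) (nat_lit 5) (nat_lit 63) (nat_lit 5) (nat_lit 446) (nat_lit 405) (nat_lit 349))))) (XT.nd (nat_lit 312) (nat_lit 532) (nat_lit 0) (XT.nd (nat_lit 156)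 (nat_lit 228) (nat_lit 0) (XT.nd (nat_lit 78) (nat_lit 0) (nat_lit 0) (XT.lf (nat_lit 0) (nat_lit 1735407724) (nat_lit 152) (nat_lit 10474678527) (nat_lit 228) (nat_lit 5282561171) (nat_lit 60) (nat_lit 5) (nat_lit 62) (nat_lit 5) (nat_lit 63) (nat_lit 5) (nat_lit 447) (nat_lit 405) (nat_lit 348)) (XT.lf (nat_lit 0) (nat_lit 12907853128) (nat_lit 152) (nat_lit 4406487602) (nat_lit 228) (nat_lit 724823509) (nat_lit 60) (nat_lit 5) (nat_lit 62) (nat_lit 5) (nat_lit 63) (nat_lit 5) (nat_lit 448) (nat_lit 405) (nat_lit 347))) (XT.nd (nat_lit 78) (nat_lit 0) (nat_lit 0) (XT.lf (nat_lit 0) (nat_lit 4024466939) (nat_lit 228) (nat_lit 12539735000) (nat_lit 76) (nat_lit 2040958786) (nat_lit 57) (nat_lit 5) (nat_lit 60) (nat_lit 5) (nat_lit 58) (nat_lit 5) (nat_lit 449) (nat_lit 405) (nat_lit 346)) (XT.lf (nat_lit 0) (nat_lit 9113303106) (nat_lit 228) (nat_lit 1338672190) (nat_lit 76) (nat_lit 8740571045)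 (nat_lit 57) (nat_lit 5) (nat_lit 60) (nat_lit 5) (nat_lit 58) (nat_lit 5) (nat_lit 450) (nat_lit 405) (nat_lit 345)))) (XT.nd (nat_lit 156) (nat_lit 228) (nat_lit 0) (XT.nd (nat_lit 78) (nat_lit 152) (nat_lit 0) (XT.lf (nat_lit 0) (nat_lit 10709832236) (nat_lit 152) (nat_lit 3881460931) (nat_lit 228) (nat_lit 5211277636) (nat_lit 55) (nat_lit 5) (nat_lit 57) (nat_lit 5) (nat_lit 58) (nat_lit 5) (nat_lit 451) (nat_lit 405) (nat_lit 344)) (XT.lf (nat_lit 0) (nat_lit 2956682160) (nat_lit 152) (nat_lit 17470662116) (nat_lit 228) (nat_lit 11549054) (nat_lit 53) (nat_lit 5) (nat_lit 55) (nat_lit 5) (nat_lit 56) (nat_lit 4) (nat_lit 452) (nat_lit 405) (nat_lit 343))) (XT.nd (nat_lit 78) (nat_lit 152) (nat_lit 0) (XT.lf (nat_lit 0) (nat_lit 5461933744) (nat_lit 228) (nat_lit 5382199071) (nat_lit 76) (nat_lit 10249243421) (nat_lit 52) (nat_lit 5) (nat_lit 55) (nat_lit 5) (nat_lit 53) (nat_lit 5) (nat_lit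 453) (nat_lit 405) (nat_lit 342)) (XT.lf (nat_lit 0) (nat_lit 7509741223) (nat_lit 152) (nat_lit 3785731598) (nat_lit 228) (nat_lit 10480766737) (nat_lit 50) (nat_lit 5) (nat_lit 52) (nat_lit 5) (nat_lit 53) (nat_lit 5) (nat_lit 454) (nat_lit 405) (nat_lit 341))))))))
noncomputable def xc107 : XT := (XT.nd (nat_lit 2184) (nat_lit 1140) (nat_lit 0) (XT.nd (nat_lit 1092) (nat_lit 760) (nat_lit 0) (XT.nd (nat_lit 546) (nat_lit 532) (nat_lit 0) (XT.nd (nat_lit 234) (nat_lit 304) (nat_lit 0) (XT.nd (nat_lit 78) (nat_lit 304) (nat_lit 0) (XT.lf (nat_lit 0) (nat_lit 17539742626) (nat_lit 228) (nat_lit 1367179427) (nat_lit 76) (nat_lit 3580375353) (nat_lit 50) (nat_lit 5) (nat_lit 53) (nat_lit 5) (nat_lit 51) (nat_lit 4) (nat_lit 455) (nat_lit 405) (nat_lit 340)) (XT.nd (nat_lit 78) (nat_lit 152) (nat_lit 0) (XT.lf (nat_lit 0) (nat_lit 1066334841) (nat_lit 152) (nat_lit 10776758394) (nat_lit 76) (nat_lit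 11378564593) (nat_lit 48) (nat_lit 5) (nat_lit 50) (nat_lit 5) (nat_lit 49) (nat_lit 5) (nat_lit 456) (nat_lit 405) (nat_lit 339)) (XT.lf (nat_lit 0) (nat_lit 2965799561) (nat_lit 152) (nat_lit 4290049599) (nat_lit 228) (nat_lit 16730775212) (nat_lit 46) (nat_lit 5) (nat_lit 48) (nat_lit 5) (nat_lit 49) (nat_lit 5) (nat_lit 457) (nat_lit 405) (nat_lit 338)))) (XT.nd (nat_lit 156) (nat_lit 228) (nat_lit 0) (XT.nd (nat_lit 78) (nat_lit 76) (nat_lit 0) (XT.lf (nat_lit 0) (nat_lit 13968775769) (nat_lit 228) (nat_lit 7122257841) (nat_lit 76) (nat_lit 3688112134) (nat_lit 46) (nat_lit 5) (nat_lit 49) (nat_lit 5) (nat_lit 47) (nat_lit 4) (nat_lit 458) (nat_lit 405) (nat_lit 337)) (XT.lf (nat_lit 0) (nat_lit 7595102792) (nat_lit 76) (nat_lit 13584102392) (nat_lit 152) (nat_lit 4423998349) (nat_lit 45) (nat_lit 5) (nat_lit 46) (nat_lit 5) (nat_lit 47) (nat_lit 4) (nat_lit 459) (nat_lit 405) (nat_lit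 336))) (XT.nd (nat_lit 78) (nat_lit 152) (nat_lit 0) (XT.lf (nat_lit 0) (nat_lit 2304306194) (nat_lit 152) (nat_lit 3253436214) (nat_lit 76) (nat_lit 20904161367) (nat_lit 44) (nat_lit 5) (nat_lit 46) (nat_lit 5) (nat_lit 45) (nat_lit 5) (nat_lit 460) (nat_lit 405) (nat_lit 335)) (XT.lf (nat_lit 0) (nat_lit 9439034136) (nat_lit 228) (nat_lit 14879795905) (nat_lit 76) (nat_lit 3030151321) (nat_lit 42) (nat_lit 5) (nat_lit 45) (nat_lit 5) (nat_lit 43) (nat_lit 4) (nat_lit 461) (nat_lit 405) (nat_lit 334))))) (XT.nd (nat_lit 234) (nat_lit 228) (nat_lit 0) (XT.nd (nat_lit 78) (nat_lit 228) (nat_lit 0) (XT.lf (nat_lit 0) (nat_lit 696663216) (nat_lit 76) (nat_lit 16366335926) (nat_lit 152) (nat_lit 11210791264) (nat_lit 41) (nat_lit 5) (nat_lit 42) (nat_lit 5) (nat_lit 43) (nat_lit 4) (nat_lit 462) (nat_lit 405) (nat_lit 333)) (XT.nd (nat_lit 78) (nat_lit 228) (nat_lit 0) (XT.lf (nat_lit 0) (nat_lit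 17522441061) (nat_lit 76) (nat_lit 7772723413) (nat_lit 152) (nat_lit 3938327810) (nat_lit 41) (nat_lit 5) (nat_lit 42) (nat_lit 5) (nat_lit 43) (nat_lit 4) (nat_lit 463) (nat_lit 405) (nat_lit 332)) (XT.lf (nat_lit 0) (nat_lit 3654802659) (nat_lit 228) (nat_lit 25250910334) (nat_lit 76) (nat_lit 1328812138) (nat_lit 38) (nat_lit 5) (nat_lit 41) (nat_lit 5) (nat_lit 39) (nat_lit 4) (nat_lit 464) (nat_lit 405) (nat_lit 331)))) (XT.nd (nat_lit 156) (nat_lit 152) (nat_lit 0) (XT.nd (nat_lit 78) (nat_lit 76) (nat_lit 0) (XT.lf (nat_lit 0) (nat_lit 11800193930) (nat_lit 228) (nat_lit 8596189261) (nat_lit 76) (nat_lit 10870752544) (nat_lit 38) (nat_lit 5) (nat_lit 41) (nat_lit 5) (nat_lit 39) (nat_lit 4) (nat_lit 465) (nat_lit 405) (nat_lit 330)) (XT.lf (nat_lit 0) (nat_lit 9141120981) (nat_lit 76) (nat_lit 11331549969) (nat_lit 152) (nat_lit 11872717153) (nat_lit 37) (nat_lit 5) (nat_lit 38) (nat_lit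 5) (nat_lit 39) (nat_lit 4) (nat_lit 466) (nat_lit 405) (nat_lit 329))) (XT.nd (nat_lit 78) (nat_lit 152) (nat_lit 0) (XT.lf (nat_lit 0) (nat_lit 28021706202) (nat_lit 76) (nat_lit 1680178282) (nat_lit 152) (nat_lit 3769514920) (nat_lit 37) (nat_lit 5) (nat_lit 38) (nat_lit 5) (nat_lit 39) (nat_lit 4) (nat_lit 467) (nat_lit 405) (nat_lit 328)) (XT.lf (nat_lit 0) (nat_lit 4912718595) (nat_lit 152) (nat_lit 21266629705) (nat_lit 76) (nat_lit 8454388209) (nat_lit 35) (nat_lit 5) (nat_lit 37) (nat_lit 5) (nat_lit 36) (nat_lit 4) (nat_lit 468) (nat_lit 405) (nat_lit 327)))))) (XT.nd (nat_lit 546) (nat_lit 380) (nat_lit 0) (XT.nd (nat_lit 234) (nat_lit 304) (nat_lit 0) (XT.nd (nat_lit 78) (nat_lit 76) (nat_lit 0) (XT.lf (nat_lit 0) (nat_lit 14002099832) (nat_lit 152) (nat_lit 2667349167) (nat_lit 76) (nat_lit 19176667563) (nat_lit 35) (nat_lit 5) (nat_lit 37) (nat_lit 5) (nat_lit 36) (nat_lit 4)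 (nat_lit 469) (nat_lit 405) (nat_lit 326)) (XT.nd (nat_lit 78) (nat_lit 0) (nat_lit 0) (XT.lf (nat_lit 0) (nat_lit 17379216010) (nat_lit 76) (nat_lit 6417468925) (nat_lit 152) (nat_lit 13309895544) (nat_lit 34) (nat_lit 5) (nat_lit 35) (nat_lit 5) (nat_lit 36) (nat_lit 4) (nat_lit 470) (nat_lit 405) (nat_lit 325)) (XT.lf (nat_lit 0) (nat_lit 34174280816) (nat_lit 152) (nat_lit 14731660) (nat_lit 0) (nat_lit 4236392565) (nat_lit 34) (nat_lit 5) (nat_lit 36) (nat_lit 4) (nat_lit 34) (nat_lit 4) (nat_lit 471) (nat_lit 405) (nat_lit 324)))) (XT.nd (nat_lit 156) (nat_lit 76) (nat_lit 0) (XT.nd (nat_lit 78) (nat_lit 76) (nat_lit 0) (XT.lf (nat_lit 0) (nat_lit 5516035847) (nat_lit 152) (nat_lit 18657946333) (nat_lit 76) (nat_lit 15610892323) (nat_lit 32) (nat_lit 5) (nat_lit 34) (nat_lit 5) (nat_lit 33) (nat_lit 4) (nat_lit 472) (nat_lit 405) (nat_lit 323)) (XT.lf (nat_lit 0) (nat_lit 2073329237)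 (nat_lit 76) (nat_lit 13568500300) (nat_lit 152) (nat_lit 25566347628) (nat_lit 31) (nat_lit 5) (nat_lit 32) (nat_lit 5) (nat_lit 33) (nat_lit 4) (nat_lit 473) (nat_lit 405) (nat_lit 322))) (XT.nd (nat_lit 78) (nat_lit 76) (nat_lit 0) (XT.lf (nat_lit 0) (nat_lit 24452317489) (nat_lit 76) (nat_lit 2118450101) (nat_lit 152) (nat_lit 16117035890) (nat_lit 31) (nat_lit 5) (nat_lit 32) (nat_lit 5) (nat_lit 33) (nat_lit 4) (nat_lit 474) (nat_lit 405) (nat_lit 321)) (XT.lf (nat_lit 0) (nat_lit 3635035711) (nat_lit 76) (nat_lit 34604024843) (nat_lit 76) (nat_lit 5992706354) (nat_lit 30) (nat_lit 4) (nat_lit 31) (nat_lit 5) (nat_lit 31) (nat_lit 4) (nat_lit 475) (nat_lit 405) (nat_lit 320))))) (XT.nd (nat_lit 234) (nat_lit 228) (nat_lit 0) (XT.nd (nat_lit 78) (nat_lit 76) (nat_lit 0) (XT.lf (nat_lit 0) (nat_lit 4819577796) (nat_lit 152) (nat_lit 18753069121) (nat_lit 76) (nat_lit 22260153292) (nat_lit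 29) (nat_lit 5) (nat_lit 31) (nat_lit 5) (nat_lit 30) (nat_lit 4) (nat_lit 476) (nat_lit 405) (nat_lit 319)) (XT.nd (nat_lit 78) (nat_lit 0) (nat_lit 0) (XT.lf (nat_lit 0) (nat_lit 4184602429) (nat_lit 76) (nat_lit 11834250742) (nat_lit 152) (nat_lit 31487732421) (nat_lit 28) (nat_lit 5) (nat_lit 29) (nat_lit 5) (nat_lit 30) (nat_lit 4) (nat_lit 477) (nat_lit 405) (nat_lit 318)) (XT.lf (nat_lit 0) (nat_lit 28091060946) (nat_lit 152) (nat_lit 20374764252) (nat_lit 0) (nat_lit 782587597) (nat_lit 28) (nat_lit 5) (nat_lit 30) (nat_lit 4) (nat_lit 28) (nat_lit 4) (nat_lit 478) (nat_lit 405) (nat_lit 317)))) (XT.nd (nat_lit 156) (nat_lit 76) (nat_lit 0) (XT.nd (nat_lit 78) (nat_lit 76) (nat_lit 0) (XT.lf (nat_lit 0) (nat_lit 3609005977) (nat_lit 76) (nat_lit 37391560129) (nat_lit 76) (nat_lit 10065081840) (nat_lit 27) (nat_lit 4) (nat_lit 28) (nat_lit 5) (nat_lit 28) (nat_lit 4) (nat_lit 479) (nat_lit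 405) (nat_lit 316)) (XT.lf (nat_lit 0) (nat_lit 1865251414) (nat_lit 152) (nat_lit 23519860449) (nat_lit 76) (nat_lit 27570695158) (nat_lit 26) (nat_lit 5) (nat_lit 28) (nat_lit 5) (nat_lit 27) (nat_lit 4) (nat_lit 480) (nat_lit 405) (nat_lit 315))) (XT.nd (nat_lit 78) (nat_lit 0) (nat_lit 0) (XT.lf (nat_lit 0) (nat_lit 1464837098) (nat_lit 76) (nat_lit 12596038003) (nat_lit 152) (nat_lit 40870998366) (nat_lit 25) (nat_lit 5) (nat_lit 26) (nat_lit 5) (nat_lit 27) (nat_lit 4) (nat_lit 481) (nat_lit 405) (nat_lit 314)) (XT.lf (nat_lit 0) (nat_lit 27268334856) (nat_lit 152) (nat_lit 28521886029) (nat_lit 0) (nat_lit 1196420377) (nat_lit 25) (nat_lit 5) (nat_lit 27) (nat_lit 4) (nat_lit 25) (nat_lit 4) (nat_lit 482) (nat_lit 405) (nat_lit 313))))))) (XT.nd (nat_lit 1092) (nat_lit 456) (nat_lit 0) (XT.nd (nat_lit 546) (nat_lit 380) (nat_lit 0) (XT.nd (nat_lit 234) (nat_lit 152) (nat_lit 0) (XT.nd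 (nat_lit 78) (nat_lit 152) (nat_lit 0) (XT.lf (nat_lit 0) (nat_lit 41327619389) (nat_lit 152) (nat_lit 2565358633) (nat_lit 0) (nat_lit 15241597569) (nat_lit 25) (nat_lit 5) (nat_lit 27) (nat_lit 4) (nat_lit 25) (nat_lit 4) (nat_lit 483) (nat_lit 405) (nat_lit 312)) (XT.nd (nat_lit 78) (nat_lit 76) (nat_lit 0) (XT.lf (nat_lit 0) (nat_lit 25476410774) (nat_lit 76) (nat_lit 30996891128) (nat_lit 76) (nat_lit 4897433745) (nat_lit 24) (nat_lit 4) (nat_lit 25) (nat_lit 5) (nat_lit 25) (nat_lit 4) (nat_lit 484) (nat_lit 405) (nat_lit 311)) (XT.lf (nat_lit 0) (nat_lit 8410322934) (nat_lit 152) (nat_lit 8871091140) (nat_lit 76) (nat_lit 46429039112) (nat_lit 23) (nat_lit 5) (nat_lit 25) (nat_lit 5) (nat_lit 24) (nat_lit 4) (nat_lit 485) (nat_lit 405) (nat_lit 310)))) (XT.nd (nat_lit 156) (nat_lit 76) (nat_lit 0) (XT.nd (nat_lit 78) (nat_lit 0) (nat_lit 0) (XT.lf (nat_lit 0) (nat_lit 20037672223) (nat_lit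 76) (nat_lit 2480431109) (nat_lit 152) (nat_lit 43630078496) (nat_lit 22) (nat_lit 5) (nat_lit 23) (nat_lit 5) (nat_lit 24) (nat_lit 4) (nat_lit 486) (nat_lit 405) (nat_lit 309)) (XT.lf (nat_lit 0) (nat_lit 37674300072) (nat_lit 152) (nat_lit 18233518111) (nat_lit 0) (nat_lit 12782827927) (nat_lit 22) (nat_lit 5) (nat_lit 24) (nat_lit 4) (nat_lit 22) (nat_lit 4) (nat_lit 487) (nat_lit 405) (nat_lit 308))) (XT.nd (nat_lit 78) (nat_lit 0) (nat_lit 0) (XT.lf (nat_lit 0) (nat_lit 11333974738) (nat_lit 76) (nat_lit 42459012328) (nat_lit 76) (nat_lit 17557013068) (nat_lit 21) (nat_lit 4) (nat_lit 22) (nat_lit 5) (nat_lit 22) (nat_lit 4) (nat_lit 488) (nat_lit 405) (nat_lit 307)) (XT.lf (nat_lit 0) (nat_lit 42987835796) (nat_lit 76) (nat_lit 28025853804) (nat_lit 76) (nat_lit 3113828720) (nat_lit 21) (nat_lit 4) (nat_lit 22) (nat_lit 5) (nat_lit 22) (nat_lit 4) (nat_lit 489) (nat_lit 405) (nat_lit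 306))))) (XT.nd (nat_lit 234) (nat_lit 228) (nat_lit 0) (XT.nd (nat_lit 78) (nat_lit 76) (nat_lit 0) (XT.lf (nat_lit 0) (nat_lit 11653485236) (nat_lit 152) (nat_lit 1031928752) (nat_lit 76) (nat_lit 64349706299) (nat_lit 20) (nat_lit 5) (nat_lit 22) (nat_lit 5) (nat_lit 21) (nat_lit 4) (nat_lit 490) (nat_lit 405) (nat_lit 305)) (XT.nd (nat_lit 78) (nat_lit 0) (nat_lit 0) (XT.lf (nat_lit 0) (nat_lit 27597002903) (nat_lit 152) (nat_lit 48607913101) (nat_lit 0) (nat_lit 3853510326) (nat_lit 19) (nat_lit 5) (nat_lit 21) (nat_lit 4) (nat_lit 19) (nat_lit 4) (nat_lit 491) (nat_lit 405) (nat_lit 304)) (XT.lf (nat_lit 0) (nat_lit 44551725304) (nat_lit 152) (nat_lit 17870486901) (nat_lit 0) (nat_lit 20799984457) (nat_lit 19) (nat_lit 5) (nat_lit 21) (nat_lit 4) (nat_lit 19) (nat_lit 4) (nat_lit 492) (nat_lit 405) (nat_lit 303)))) (XT.nd (nat_lit 156) (nat_lit 152) (nat_lit 0) (XT.nd (nat_lit 78) (nat_lit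 0) (nat_lit 0) (XT.lf (nat_lit 0) (nat_lit 14857316096) (nat_lit 76) (nat_lit 47717697342) (nat_lit 76) (nat_lit 23958101000) (nat_lit 18) (nat_lit 4) (nat_lit 19) (nat_lit 5) (nat_lit 19) (nat_lit 4) (nat_lit 493) (nat_lit 405) (nat_lit 302)) (XT.lf (nat_lit 0) (nat_lit 49820265970) (nat_lit 76) (nat_lit 31970902580) (nat_lit 76) (nat_lit 8203824815) (nat_lit 18) (nat_lit 4) (nat_lit 19) (nat_lit 5) (nat_lit 19) (nat_lit 4) (nat_lit 494) (nat_lit 405) (nat_lit 301))) (XT.nd (nat_lit 78) (nat_lit 76) (nat_lit 0) (XT.lf (nat_lit 0) (nat_lit 8060698926) (nat_lit 152) (nat_lit 7249770132) (nat_lit 76) (nat_lit 78313518071) (nat_lit 17) (nat_lit 5) (nat_lit 19) (nat_lit 5) (nat_lit 18) (nat_lit 4) (nat_lit 495) (nat_lit 405) (nat_lit 300)) (XT.lf (nat_lit 0) (nat_lit 25334150821) (nat_lit 152) (nat_lit 69384395380) (nat_lit 0) (nat_lit 2685590056) (nat_lit 16) (nat_lit 5) (nat_lit 18) (nat_lit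 4) (nat_lit 16) (nat_lit 4) (nat_lit 496) (nat_lit 405) (nat_lit 299)))))) (XT.nd (nat_lit 546) (nat_lit 228) (nat_lit 0) (XT.nd (nat_lit 234) (nat_lit 152) (nat_lit 0) (XT.nd (nat_lit 78) (nat_lit 76) (nat_lit 0) (XT.lf (nat_lit 0) (nat_lit 43836990463) (nat_lit 152) (nat_lit 36335742229) (nat_lit 0) (nat_lit 21182274712) (nat_lit 16) (nat_lit 5) (nat_lit 18) (nat_lit 4) (nat_lit 16) (nat_lit 4) (nat_lit 497) (nat_lit 405) (nat_lit 298)) (XT.nd (nat_lit 78) (nat_lit 76) (nat_lit 0) (XT.lf (nat_lit 0) (nat_lit 63255384211) (nat_lit 152) (nat_lit 1653711027) (nat_lit 0) (nat_lit 40594806569) (nat_lit 16) (nat_lit 5) (nat_lit 18) (nat_lit 4) (nat_lit 16) (nat_lit 4) (nat_lit 498) (nat_lit 405) (nat_lit 297)) (XT.lf (nat_lit 0) (nat_lit 35893077115) (nat_lit 76) (nat_lit 48302880746) (nat_lit 76) (nat_lit 25636720349) (nat_lit 15) (nat_lit 4) (nat_lit 16) (nat_lit 5) (nat_lit 16) (nat_lit 4) (nat_lit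 499) (nat_lit 405) (nat_lit 296)))) (XT.nd (nat_lit 156) (nat_lit 76) (nat_lit 0) (XT.nd (nat_lit 78) (nat_lit 76) (nat_lit 0) (XT.lf (nat_lit 0) (nat_lit 75356763232) (nat_lit 76) (nat_lit 30845828113) (nat_lit 76) (nat_lit 8174350808) (nat_lit 15) (nat_lit 4) (nat_lit 16) (nat_lit 5) (nat_lit 16) (nat_lit 4) (nat_lit 500) (nat_lit 405) (nat_lit 295)) (XT.lf (nat_lit 0) (nat_lit 9827229125) (nat_lit 152) (nat_lit 2530721319) (nat_lit 76) (nat_lit 106782971319) (nat_lit 14) (nat_lit 5) (nat_lit 16) (nat_lit 5) (nat_lit 15) (nat_lit 4) (nat_lit 501) (nat_lit 405) (nat_lit 294))) (XT.nd (nat_lit 78) (nat_lit 0) (nat_lit 0) (XT.lf (nat_lit 0) (nat_lit 29142251560) (nat_lit 152) (nat_lit 87418792107) (nat_lit 0) (nat_lit 7540952875) (nat_lit 13) (nat_lit 5) (nat_lit 15) (nat_lit 4) (nat_lit 13) (nat_lit 4) (nat_lit 502) (nat_lit 405) (nat_lit 293)) (XT.lf (nat_lit 0) (nat_lit 49660916622) (nat_lit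 152) (nat_lit 51583070387) (nat_lit 0) (nat_lit 28055243702) (nat_lit 13) (nat_lit 5) (nat_lit 15) (nat_lit 4) (nat_lit 13) (nat_lit 4) (nat_lit 503) (nat_lit 405) (nat_lit 292))))) (XT.nd (nat_lit 312) (nat_lit 152) (nat_lit 0) (XT.nd (nat_lit 156) (nat_lit 0) (nat_lit 0) (XT.nd (nat_lit 78) (nat_lit 76) (nat_lit 0) (XT.lf (nat_lit 0) (nat_lit 71197648800) (nat_lit 152) (nat_lit 13971261368) (nat_lit 0) (nat_lit 49587809944) (nat_lit 13) (nat_lit 5) (nat_lit 15) (nat_lit 4) (nat_lit 13) (nat_lit 4) (nat_lit 504) (nat_lit 405) (nat_lit 291)) (XT.lf (nat_lit 0) (nat_lit 26349536601) (nat_lit 76) (nat_lit 67865579538) (nat_lit 76) (nat_lit 46251773123) (nat_lit 12) (nat_lit 4) (nat_lit 13) (nat_lit 5) (nat_lit 13) (nat_lit 4) (nat_lit 505) (nat_lit 405) (nat_lit 290))) (XT.nd (nat_lit 78) (nat_lit 0) (nat_lit 0) (XT.lf (nat_lit 0) (nat_lit 69156715040) (nat_lit 76) (nat_lit 49455987395) (nat_lit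 76) (nat_lit 27838402352) (nat_lit 12) (nat_lit 4) (nat_lit 13) (nat_lit 5) (nat_lit 13) (nat_lit 4) (nat_lit 506) (nat_lit 405) (nat_lit 289)) (XT.lf (nat_lit 0) (nat_lit 114090242804) (nat_lit 76) (nat_lit 30132911449) (nat_lit 76) (nat_lit 8511727713) (nat_lit 12) (nat_lit 4) (nat_lit 13) (nat_lit 5) (nat_lit 13) (nat_lit 4) (nat_lit 507) (nat_lit 405) (nat_lit 288)))) (XT.nd (nat_lit 156) (nat_lit 0) (nat_lit 0) (XT.nd (nat_lit 78) (nat_lit 0) (nat_lit 0) (XT.lf (nat_lit 0) (nat_lit 1797628342) (nat_lit 76) (nat_lit 9627854293) (nat_lit 152) (nat_lit 147897104770) (nat_lit 10) (nat_lit 5) (nat_lit 11) (nat_lit 5) (nat_lit 12) (nat_lit 4) (nat_lit 508) (nat_lit 405) (nat_lit 287)) (XT.lf (nat_lit 0) (nat_lit 32917750164) (nat_lit 152) (nat_lit 120952965162) (nat_lit 0) (nat_lit 12319773800) (nat_lit 10) (nat_lit 5) (nat_lit 12) (nat_lit 4) (nat_lit 10) (nat_lit 4) (nat_lit 509) (nat_lit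 405) (nat_lit 286))) (XT.nd (nat_lit 78) (nat_lit 0) (nat_lit 0) (XT.lf (nat_lit 0) (nat_lit 55636008773) (nat_lit 152) (nat_lit 82723136675) (nat_lit 0) (nat_lit 35035071755) (nat_lit 10) (nat_lit 5) (nat_lit 12) (nat_lit 4) (nat_lit 10) (nat_lit 4) (nat_lit 510) (nat_lit 405) (nat_lit 285)) (XT.lf (nat_lit 0) (nat_lit 79484031765) (nat_lit 152) (nat_lit 42594132414) (nat_lit 0) (nat_lit 58880275077) (nat_lit 10) (nat_lit 5) (nat_lit 12) (nat_lit 4) (nat_lit 10) (nat_lit 4) (nat_lit 511) (nat_lit 405) (nat_lit 284))))))))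
noncomputable def xc108 : XT := (XT.nd (nat_lit 2184) (nat_lit 0) (nat_lit 0) (XT.nd (nat_lit 1092) (nat_lit 228) (nat_lit 0) (XT.nd (nat_lit 546) (nat_lit 76) (nat_lit 0) (XT.nd (nat_lit 234) (nat_lit 152) (nat_lit 0) (XT.nd (nat_lit 78) (nat_lit 76) (nat_lit 0) (XT.lf (nat_lit 0) (nat_lit 104518600149) (nat_lit 152) (nat_lit 470407130) (nat_lit 0) (nat_lit 83912158061) (nat_lit 10) (nat_lit 5) (nat_lit 12) (nat_lit 4) (nat_lit 10) (nat_lit 4) (nat_lit 512) (nat_lit 405) (nat_lit 283)) (XT.nd (nat_lit 78) (nat_lit 0) (nat_lit 0) (XT.lf (nat_lit 0) (nat_lit 45194851245) (nat_lit 76) (nat_lit 86310087080) (nat_lit 76) (nat_lit 65701087468) (nat_lit 9) (nat_lit 4) (nat_lit 10) (nat_lit 5) (nat_lit 10) (nat_lit 4) (nat_lit 513) (nat_lit 405) (nat_lit 282)) (XT.lf (nat_lit 0) (nat_lit 93148713528) (nat_lit 76) (nat_lit 66694363517) (nat_lit 76) (nat_lit 46082928168) (nat_lit 9) (nat_lit 4) (nat_lit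 10) (nat_lit 5) (nat_lit 10) (nat_lit 4) (nat_lit 514) (nat_lit 405) (nat_lit 281)))) (XT.nd (nat_lit 156) (nat_lit 152) (nat_lit 0) (XT.nd (nat_lit 78) (nat_lit 0) (nat_lit 0) (XT.lf (nat_lit 0) (nat_lit 143489801796) (nat_lit 76) (nat_lit 46103099060) (nat_lit 76) (nat_lit 25489343962) (nat_lit 9) (nat_lit 4) (nat_lit 10) (nat_lit 5) (nat_lit 10) (nat_lit 4) (nat_lit 515) (nat_lit 405) (nat_lit 280)) (XT.lf (nat_lit 0) (nat_lit 196337975782) (nat_lit 76) (nat_lit 24487266889) (nat_lit 76) (nat_lit 3871302506) (nat_lit 9) (nat_lit 4) (nat_lit 10) (nat_lit 5) (nat_lit 10) (nat_lit 4) (nat_lit 516) (nat_lit 405) (nat_lit 279))) (XT.nd (nat_lit 78) (nat_lit 0) (nat_lit 0) (XT.lf (nat_lit 0) (nat_lit 17286673918) (nat_lit 76) (nat_lit 1203444317) (nat_lit 152) (nat_lit 216273490845) (nat_lit 7) (nat_lit 5) (nat_lit 8) (nat_lit 5) (nat_lit 9) (nat_lit 4) (nat_lit 517) (nat_lit 405) (nat_lit 278))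 (XT.lf (nat_lit 0) (nat_lit 42685753500) (nat_lit 152) (nat_lit 179555197993) (nat_lit 0) (nat_lit 23047589355) (nat_lit 7) (nat_lit 5) (nat_lit 9) (nat_lit 4) (nat_lit 7) (nat_lit 4) (nat_lit 518) (nat_lit 405) (nat_lit 277))))) (XT.nd (nat_lit 234) (nat_lit 76) (nat_lit 0) (XT.nd (nat_lit 78) (nat_lit 0) (nat_lit 0) (XT.lf (nat_lit 0) (nat_lit 68106320508) (nat_lit 152) (nat_lit 139766302511) (nat_lit 0) (nat_lit 48466338780) (nat_lit 7) (nat_lit 5) (nat_lit 9) (nat_lit 4) (nat_lit 7) (nat_lit 4) (nat_lit 519) (nat_lit 405) (nat_lit 276)) (XT.nd (nat_lit 78) (nat_lit 0) (nat_lit 0) (XT.lf (nat_lit 0) (nat_lit 94793555282) (nat_lit 152) (nat_lit 97996724114) (nat_lit 0) (nat_lit 75151842521) (nat_lit 7) (nat_lit 5) (nat_lit 9) (nat_lit 4) (nat_lit 7) (nat_lit 4) (nat_lit 520) (nat_lit 405) (nat_lit 275)) (XT.lf (nat_lit 0) (nat_lit 122810998857) (nat_lit 152) (nat_lit 54147011425) (nat_lit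 0) (nat_lit 103167637493) (nat_lit 7) (nat_lit 5) (nat_lit 9) (nat_lit 4) (nat_lit 7) (nat_lit 4) (nat_lit 521) (nat_lit 405) (nat_lit 274)))) (XT.nd (nat_lit 156) (nat_lit 0) (nat_lit 0) (XT.nd (nat_lit 78) (nat_lit 76) (nat_lit 0) (XT.lf (nat_lit 0) (nat_lit 152225359431) (nat_lit 152) (nat_lit 8112760365) (nat_lit 0) (nat_lit 132580427969) (nat_lit 7) (nat_lit 5) (nat_lit 9) (nat_lit 4) (nat_lit 7) (nat_lit 4) (nat_lit 522) (nat_lit 405) (nat_lit 273)) (XT.lf (nat_lit 0) (nat_lit 41545344917) (nat_lit 76) (nat_lit 142209965544) (nat_lit 76) (nat_lit 122563538751) (nat_lit 6) (nat_lit 4) (nat_lit 7) (nat_lit 5) (nat_lit 7) (nat_lit 4) (nat_lit 523) (nat_lit 405) (nat_lit 272))) (XT.nd (nat_lit 78) (nat_lit 0) (nat_lit 0) (XT.lf (nat_lit 0) (nat_lit 93960565439) (nat_lit 76) (nat_lit 123034883397) (nat_lit 76) (nat_lit 103387032479) (nat_lit 6) (nat_lit 4) (nat_lit 7) (nat_lit 5) (nat_lit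 7) (nat_lit 4) (nat_lit 524) (nat_lit 405) (nat_lit 271)) (XT.lf (nat_lit 0) (nat_lit 148989454850) (nat_lit 76) (nat_lit 102904611920) (nat_lit 76) (nat_lit 83255404692) (nat_lit 6) (nat_lit 4) (nat_lit 7) (nat_lit 5) (nat_lit 7) (nat_lit 4) (nat_lit 525) (nat_lit 405) (nat_lit 270)))))) (XT.nd (nat_lit 546) (nat_lit 76) (nat_lit 0) (XT.nd (nat_lit 234) (nat_lit 152) (nat_lit 0) (XT.nd (nat_lit 78) (nat_lit 0) (nat_lit 0) (XT.lf (nat_lit 0) (nat_lit 206763034313) (nat_lit 76) (nat_lit 81771221895) (nat_lit 76) (nat_lit 62120722944) (nat_lit 6) (nat_lit 4) (nat_lit 7) (nat_lit 5) (nat_lit 7) (nat_lit 4) (nat_lit 526) (nat_lit 405) (nat_lit 269)) (XT.nd (nat_lit 78) (nat_lit 0) (nat_lit 0) (XT.lf (nat_lit 0) (nat_lit 267418859972) (nat_lit 76) (nat_lit 59584395728) (nat_lit 76) (nat_lit 39932666564) (nat_lit 6) (nat_lit 4) (nat_lit 7) (nat_lit 5) (nat_lit 7) (nat_lit 4) (nat_lit 527) (nat_lit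 405) (nat_lit 268)) (XT.lf (nat_lit 0) (nat_lit 331101350457) (nat_lit 76) (nat_lit 36291307641) (nat_lit 76) (nat_lit 16638406846) (nat_lit 6) (nat_lit 4) (nat_lit 7) (nat_lit 5) (nat_lit 7) (nat_lit 4) (nat_lit 528) (nat_lit 405) (nat_lit 267)))) (XT.nd (nat_lit 156) (nat_lit 0) (nat_lit 0) (XT.nd (nat_lit 78) (nat_lit 76) (nat_lit 0) (XT.lf (nat_lit 0) (nat_lit 7567309311) (nat_lit 152) (nat_lit 4141032544) (nat_lit 76) (nat_lit 390266665391) (nat_lit 5) (nat_lit 5) (nat_lit 7) (nat_lit 5) (nat_lit 6) (nat_lit 4) (nat_lit 529) (nat_lit 405) (nat_lit 266)) (XT.lf (nat_lit 0) (nat_lit 33413324404) (nat_lit 152) (nat_lit 372645524415) (nat_lit 0) (nat_lit 14694201225) (nat_lit 4) (nat_lit 5) (nat_lit 6) (nat_lit 4) (nat_lit 4) (nat_lit 4) (nat_lit 530) (nat_lit 405) (nat_lit 265))) (XT.nd (nat_lit 78) (nat_lit 0) (nat_lit 0) (XT.lf (nat_lit 0) (nat_lit 60812054529) (nat_lit 152) (nat_lit 337552952341)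 (nat_lit 0) (nat_lit 42091967446) (nat_lit 4) (nat_lit 5) (nat_lit 6) (nat_lit 4) (nat_lit 4) (nat_lit 4) (nat_lit 531) (nat_lit 405) (nat_lit 264)) (XT.lf (nat_lit 0) (nat_lit 89578048950) (nat_lit 152) (nat_lit 300711135646) (nat_lit 0) (nat_lit 70857043864) (nat_lit 4) (nat_lit 5) (nat_lit 6) (nat_lit 4) (nat_lit 4) (nat_lit 4) (nat_lit 532) (nat_lit 405) (nat_lit 263))))) (XT.nd (nat_lit 234) (nat_lit 76) (nat_lit 0) (XT.nd (nat_lit 78) (nat_lit 0) (nat_lit 0) (XT.lf (nat_lit 0) (nat_lit 119779798131) (nat_lit 152) (nat_lit 262032355719) (nat_lit 0) (nat_lit 101057918755) (nat_lit 4) (nat_lit 5) (nat_lit 6) (nat_lit 4) (nat_lit 4) (nat_lit 4) (nat_lit 533) (nat_lit 405) (nat_lit 262)) (XT.nd (nat_lit 78) (nat_lit 0) (nat_lit 0) (XT.lf (nat_lit 0) (nat_lit 151489210997) (nat_lit 152) (nat_lit 221424520227) (nat_lit 0) (nat_lit 132766498965) (nat_lit 4) (nat_lit 5) (nat_lit 6) (nat_lit 4)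 (nat_lit 4) (nat_lit 4) (nat_lit 534) (nat_lit 405) (nat_lit 261)) (XT.lf (nat_lit 0) (nat_lit 184781786152) (nat_lit 152) (nat_lit 178790943847) (nat_lit 0) (nat_lit 166058281114) (nat_lit 4) (nat_lit 5) (nat_lit 6) (nat_lit 4) (nat_lit 4) (nat_lit 4) (nat_lit 535) (nat_lit 405) (nat_lit 260)))) (XT.nd (nat_lit 156) (nat_lit 76) (nat_lit 0) (XT.nd (nat_lit 78) (nat_lit 0) (nat_lit 0) (XT.lf (nat_lit 0) (nat_lit 219736791630) (nat_lit 152) (nat_lit 134030118064) (nat_lit 0) (nat_lit 201012531348) (nat_lit 4) (nat_lit 5) (nat_lit 6) (nat_lit 4) (nat_lit 4) (nat_lit 4) (nat_lit 536) (nat_lit 405) (nat_lit 259)) (XT.lf (nat_lit 0) (nat_lit 256437453636) (nat_lit 152) (nat_lit 87035469483) (nat_lit 0) (nat_lit 237712474074) (nat_lit 4) (nat_lit 5) (nat_lit 6) (nat_lit 4) (nat_lit 4) (nat_lit 4) (nat_lit 537) (nat_lit 405) (nat_lit 258))) (XT.nd (nat_lit 78) (nat_lit 76) (nat_lit 0) (XT.lf (nat_lit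 0) (nat_lit 294971154698) (nat_lit 152) (nat_lit 37695106084) (nat_lit 0) (nat_lit 276245490108) (nat_lit 4) (nat_lit 5) (nat_lit 6) (nat_lit 4) (nat_lit 4) (nat_lit 4) (nat_lit 538) (nat_lit 405) (nat_lit 257)) (XT.lf (nat_lit 0) (nat_lit 14574938233) (nat_lit 76) (nat_lit 321082259122) (nat_lit 76) (nat_lit 302355942123) (nat_lit 3) (nat_lit 4) (nat_lit 4) (nat_lit 5) (nat_lit 4) (nat_lit 4) (nat_lit 539) (nat_lit 405) (nat_lit 256))))))) (XT.nd (nat_lit 52728) (nat_lit 0) (nat_lit 7448) (XT.nd (nat_lit 52182) (nat_lit 0) (nat_lit 11552) (XT.nd (nat_lit 234) (nat_lit 0) (nat_lit 0) (XT.nd (nat_lit 78) (nat_lit 0) (nat_lit 0) (XT.lf (nat_lit 0) (nat_lit 70763409152) (nat_lit 76) (nat_lit 308250650423) (nat_lit 76) (nat_lit 289523712083) (nat_lit 3) (nat_lit 4) (nat_lit 4) (nat_lit 5) (nat_lit 4) (nat_lit 4) (nat_lit 540) (nat_lit 405) (nat_lit 255)) (XT.nd (nat_lit 78) (nat_lit 0) (nat_lit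 0) (XT.lf (nat_lit 0) (nat_lit 129757718300) (nat_lit 76) (nat_lit 294779268097) (nat_lit 76) (nat_lit 276051738004) (nat_lit 3) (nat_lit 4) (nat_lit 4) (nat_lit 5) (nat_lit 4) (nat_lit 4) (nat_lit 541) (nat_lit 405) (nat_lit 254)) (XT.lf (nat_lit 0) (nat_lit 191698328319) (nat_lit 76) (nat_lit 280636037425) (nat_lit 76) (nat_lit 261907943758) (nat_lit 3) (nat_lit 4) (nat_lit 4) (nat_lit 5) (nat_lit 4) (nat_lit 4) (nat_lit 542) (nat_lit 405) (nat_lit 253)))) (XT.nd (nat_lit 51792) (nat_lit 0) (nat_lit 12540) (XT.nd (nat_lit 78) (nat_lit 0) (nat_lit 0) (XT.lf (nat_lit 0) (nat_lit 256732716853) (nat_lit 76) (nat_lit 265787284048) (nat_lit 76) (nat_lit 247058653643) (nat_lit 3) (nat_lit 4) (nat_lit 4) (nat_lit 5) (nat_lit 4) (nat_lit 4) (nat_lit 543) (nat_lit 405) (nat_lit 252)) (XT.lf (nat_lit 0) (nat_lit 325015727682) (nat_lit 76) (nat_lit 250197653792) (nat_lit 76) (nat_lit 231468512208) (nat_lit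 3) (nat_lit 4) (nat_lit 4) (nat_lit 5) (nat_lit 4) (nat_lit 4) (nat_lit 544) (nat_lit 405) (nat_lit 251))) (XT.nd (nat_lit 78) (nat_lit 0) (nat_lit 0) (XT.lf (nat_lit 0) (nat_lit 1122370471) (nat_lit 0) (nat_lit 1122370471) (nat_lit 380) (nat_lit 1184044488) (nat_lit 168) (nat_lit 5) (nat_lit 168) (nat_lit 3) (nat_lit 173) (nat_lit 3) (nat_lit 406) (nat_lit 406) (nat_lit 388)) (XT.lf (nat_lit 0) (nat_lit 5722674573) (nat_lit 0) (nat_lit 800454278) (nat_lit 380) (nat_lit 408739164) (nat_lit 168) (nat_lit 5) (nat_lit 168) (nat_lit 3) (nat_lit 173) (nat_lit 3) (nat_lit 407) (nat_lit 406) (nat_lit 387))))) (XT.nd (nat_lit 234) (nat_lit 532) (nat_lit 0) (XT.nd (nat_lit 78) (nat_lit 0) (nat_lit 0) (XT.lf (nat_lit 0) (nat_lit 1520530300) (nat_lit 456) (nat_lit 4677858874) (nat_lit 532) (nat_lit 814033386) (nat_lit 162) (nat_lit 5) (nat_lit 168) (nat_lit 5) (nat_lit 169) (nat_lit 5) (nat_lit 408) (nat_lit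 406) (nat_lit 386)) (XT.nd (nat_lit 78) (nat_lit 0) (nat_lit 0) (XT.lf (nat_lit 0) (nat_lit 3447199412) (nat_lit 456) (nat_lit 1090223846) (nat_lit 532) (nat_lit 2563575137) (nat_lit 162) (nat_lit 5) (nat_lit 168) (nat_lit 5) (nat_lit 169) (nat_lit 5) (nat_lit 409) (nat_lit 406) (nat_lit 385)) (XT.lf (nat_lit 76) (nat_lit 2694880692) (nat_lit 0) (nat_lit 2703811456) (nat_lit 532) (nat_lit 1798945624) (nat_lit 163) (nat_lit 5) (nat_lit 162) (nat_lit 5) (nat_lit 169) (nat_lit 5) (nat_lit 410) (nat_lit 406) (nat_lit 384)))) (XT.nd (nat_lit 156) (nat_lit 0) (nat_lit 76) (XT.nd (nat_lit 78) (nat_lit 0) (nat_lit 76) (XT.lf (nat_lit 0) (nat_lit 51590871) (nat_lit 532) (nat_lit 664510871) (nat_lit 608) (nat_lit 6587560169) (nat_lit 155) (nat_lit 5) (nat_lit 162) (nat_lit 5) (nat_lit 163) (nat_lit 5) (nat_lit 411) (nat_lit 406) (nat_lit 383)) (XT.lf (nat_lit 0) (nat_lit 1904492049) (nat_lit 532) (nat_lit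 4062753463) (nat_lit 608) (nat_lit 1447803676) (nat_lit 156) (nat_lit 5) (nat_lit 163) (nat_lit 5) (nat_lit 164) (nat_lit 5) (nat_lit 412) (nat_lit 406) (nat_lit 382))) (XT.nd (nat_lit 78) (nat_lit 0) (nat_lit 0) (XT.lf (nat_lit 0) (nat_lit 3771991795) (nat_lit 532) (nat_lit 22378528) (nat_lit 608) (nat_lit 3741586583) (nat_lit 156) (nat_lit 5) (nat_lit 163) (nat_lit 5) (nat_lit 164) (nat_lit 5) (nat_lit 413) (nat_lit 406) (nat_lit 381)) (XT.lf (nat_lit 76) (nat_lit 4288685101) (nat_lit 0) (nat_lit 1414735852) (nat_lit 608) (nat_lit 1961007764) (nat_lit 157) (nat_lit 5) (nat_lit 156) (nat_lit 5) (nat_lit 164) (nat_lit 5) (nat_lit 414) (nat_lit 406) (nat_lit 380)))))) (XT.nd (nat_lit 546) (nat_lit 1520) (nat_lit 0) (XT.nd (nat_lit 234) (nat_lit 1520) (nat_lit 0) (XT.nd (nat_lit 78) (nat_lit 684) (nat_lit 0) (XT.lf (nat_lit 0) (nat_lit 957932689) (nat_lit 532) (nat_lit 6713281755) (nat_lit 608)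 (nat_lit 131164250) (nat_lit 150) (nat_lit 5) (nat_lit 157) (nat_lit 5) (nat_lit 158) (nat_lit 5) (nat_lit 415) (nat_lit 406) (nat_lit 379)) (XT.nd (nat_lit 78) (nat_lit 608) (nat_lit 0) (XT.lf (nat_lit 0) (nat_lit 1723489293) (nat_lit 608) (nat_lit 2445396097) (nat_lit 76) (nat_lit 3777452681) (nat_lit 149) (nat_lit 5) (nat_lit 157) (nat_lit 5) (nat_lit 150) (nat_lit 5) (nat_lit 416) (nat_lit 406) (nat_lit 378)) (XT.lf (nat_lit 0) (nat_lit 2170014634) (nat_lit 608) (nat_lit 1443966308) (nat_lit 684) (nat_lit 4486069491) (nat_lit 141) (nat_lit 5) (nat_lit 149) (nat_lit 5) (nat_lit 150) (nat_lit 5) (nat_lit 417) (nat_lit 406) (nat_lit 377)))) (XT.nd (nat_lit 156) (nat_lit 836) (nat_lit 0) (XT.nd (nat_lit 78) (nat_lit 684) (nat_lit 0) (XT.lf (nat_lit 0) (nat_lit 5580085764) (nat_lit 684) (nat_lit 1255256246) (nat_lit 76) (nat_lit 1427088353) (nat_lit 141) (nat_lit 5) (nat_lit 150) (nat_lit 5)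 (nat_lit 142) (nat_lit 5) (nat_lit 418) (nat_lit 406) (nat_lit 376)) (XT.lf (nat_lit 0) (nat_lit 3676629918) (nat_lit 684) (nat_lit 3969767851) (nat_lit 760) (nat_lit 786471068) (nat_lit 132) (nat_lit 5) (nat_lit 141) (nat_lit 5) (nat_lit 142) (nat_lit 5) (nat_lit 419) (nat_lit 406) (nat_lit 375))) (XT.nd (nat_lit 78) (nat_lit 0) (nat_lit 0) (XT.lf (nat_lit 0) (nat_lit 203177752) (nat_lit 760) (nat_lit 909482739) (nat_lit 836) (nat_lit 7500909819) (nat_lit 121) (nat_lit 5) (nat_lit 131) (nat_lit 5) (nat_lit 132) (nat_lit 5) (nat_lit 420) (nat_lit 406) (nat_lit 374)) (XT.lf (nat_lit 0) (nat_lit 3123046024) (nat_lit 836) (nat_lit 3348562392) (nat_lit 76) (nat_lit 2328947321) (nat_lit 121) (nat_lit 5) (nat_lit 132) (nat_lit 5) (nat_lit 122) (nat_lit 5) (nat_lit 421) (nat_lit 406) (nat_lit 373))))) (XT.nd (nat_lit 234) (nat_lit 684) (nat_lit 0) (XT.nd (nat_lit 78) (nat_lit 456) (nat_lit 0) (XT.lf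 (nat_lit 0) (nat_lit 1942388137) (nat_lit 380) (nat_lit 3265264332) (nat_lit 456) (nat_lit 3790581388) (nat_lit 116) (nat_lit 5) (nat_lit 121) (nat_lit 5) (nat_lit 122) (nat_lit 5) (nat_lit 422) (nat_lit 406) (nat_lit 372)) (XT.nd (nat_lit 78) (nat_lit 456) (nat_lit 0) (XT.lf (nat_lit 0) (nat_lit 7386476279) (nat_lit 456) (nat_lit 1664888531) (nat_lit 76) (nat_lit 154958869) (nat_lit 116) (nat_lit 5) (nat_lit 122) (nat_lit 5) (nat_lit 117) (nat_lit 5) (nat_lit 423) (nat_lit 406) (nat_lit 371)) (XT.lf (nat_lit 0) (nat_lit 292278294) (nat_lit 456) (nat_lit 5426994758) (nat_lit 76) (nat_lit 3702832945) (nat_lit 110) (nat_lit 5) (nat_lit 116) (nat_lit 5) (nat_lit 111) (nat_lit 5) (nat_lit 424) (nat_lit 406) (nat_lit 370)))) (XT.nd (nat_lit 156) (nat_lit 304) (nat_lit 0) (XT.nd (nat_lit 78) (nat_lit 0) (nat_lit 0) (XT.lf (nat_lit 0) (nat_lit 255429717) (nat_lit 380) (nat_lit 2161122193) (nat_lit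 456) (nat_lit 7232272273) (nat_lit 105) (nat_lit 5) (nat_lit 110) (nat_lit 5) (nat_lit 111) (nat_lit 5) (nat_lit 425) (nat_lit 406) (nat_lit 369)) (XT.lf (nat_lit 0) (nat_lit 4701989637) (nat_lit 456) (nat_lit 3570998211) (nat_lit 76) (nat_lit 1611165241) (nat_lit 105) (nat_lit 5) (nat_lit 111) (nat_lit 5) (nat_lit 106) (nat_lit 5) (nat_lit 426) (nat_lit 406) (nat_lit 368))) (XT.nd (nat_lit 78) (nat_lit 0) (nat_lit 0) (XT.lf (nat_lit 0) (nat_lit 2518154952) (nat_lit 304) (nat_lit 4598236346) (nat_lit 380) (nat_lit 3014143809) (nat_lit 101) (nat_lit 5) (nat_lit 105) (nat_lit 5) (nat_lit 106) (nat_lit 5) (nat_lit 427) (nat_lit 406) (nat_lit 367)) (XT.lf (nat_lit 0) (nat_lit 8967332886) (nat_lit 304) (nat_lit 686396631) (nat_lit 380) (nat_lit 735416142) (nat_lit 101) (nat_lit 5) (nat_lit 105) (nat_lit 5) (nat_lit 106) (nat_lit 5) (nat_lit 428) (nat_lit 406) (nat_lit 366))))))))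
noncomputable def xc109 : XT := (XT.nd (nat_lit 2184) (nat_lit 1900) (nat_lit 0) (XT.nd (nat_lit 1092) (nat_lit 1520) (nat_lit 0) (XT.nd (nat_lit 546) (nat_lit 988) (nat_lit 0) (XT.nd (nat_lit 234) (nat_lit 836) (nat_lit 0) (XT.nd (nat_lit 78) (nat_lit 228) (nat_lit 0) (XT.lf (nat_lit 0) (nat_lit 1683189227) (nat_lit 380) (nat_lit 5562988422) (nat_lit 76) (nat_lit 3409284570) (nat_lit 96) (nat_lit 5) (nat_lit 101) (nat_lit 5) (nat_lit 97) (nat_lit 5) (nat_lit 429) (nat_lit 406) (nat_lit 365)) (XT.nd (nat_lit 78) (nat_lit 0) (nat_lit 0) (XT.lf (nat_lit 0) (nat_lit 987307770) (nat_lit 228) (nat_lit 3206910893) (nat_lit 304) (nat_lit 6740480212) (nat_lit 93) (nat_lit 5) (nat_lit 96) (nat_lit 5) (nat_lit 97) (nat_lit 5) (nat_lit 430) (nat_lit 406) (nat_lit 364)) (XT.lf (nat_lit 0) (nat_lit 6889115811) (nat_lit 304) (nat_lit 3252522144) (nat_lit 76) (nat_lit 1083360263) (nat_lit 93) (nat_lit 5)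 (nat_lit 97) (nat_lit 5) (nat_lit 94) (nat_lit 5) (nat_lit 431) (nat_lit 406) (nat_lit 363)))) (XT.nd (nat_lit 156) (nat_lit 456) (nat_lit 0) (XT.nd (nat_lit 78) (nat_lit 76) (nat_lit 0) (XT.lf (nat_lit 0) (nat_lit 3778899220) (nat_lit 304) (nat_lit 6000393215) (nat_lit 380) (nat_lit 1747509235) (nat_lit 89) (nat_lit 5) (nat_lit 93) (nat_lit 5) (nat_lit 94) (nat_lit 5) (nat_lit 432) (nat_lit 406) (nat_lit 362)) (XT.lf (nat_lit 0) (nat_lit 944756202) (nat_lit 380) (nat_lit 649357285) (nat_lit 76) (nat_lit 10248562325) (nat_lit 88) (nat_lit 5) (nat_lit 93) (nat_lit 5) (nat_lit 89) (nat_lit 5) (nat_lit 433) (nat_lit 406) (nat_lit 361))) (XT.nd (nat_lit 78) (nat_lit 228) (nat_lit 0) (XT.lf (nat_lit 0) (nat_lit 3822443522) (nat_lit 304) (nat_lit 5285854070) (nat_lit 76) (nat_lit 3059150577) (nat_lit 85) (nat_lit 5) (nat_lit 89) (nat_lit 5) (nat_lit 86) (nat_lit 5) (nat_lit 434) (nat_lit 406) (nat_lit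 360)) (XT.lf (nat_lit 0) (nat_lit 2285522624) (nat_lit 228) (nat_lit 4584484556) (nat_lit 304) (nat_lit 5637165423) (nat_lit 82) (nat_lit 5) (nat_lit 85) (nat_lit 5) (nat_lit 86) (nat_lit 5) (nat_lit 435) (nat_lit 406) (nat_lit 359))))) (XT.nd (nat_lit 234) (nat_lit 456) (nat_lit 0) (XT.nd (nat_lit 78) (nat_lit 532) (nat_lit 0) (XT.lf (nat_lit 0) (nat_lit 10117471763) (nat_lit 304) (nat_lit 2510487924) (nat_lit 76) (nat_lit 233559870) (nat_lit 82) (nat_lit 5) (nat_lit 86) (nat_lit 5) (nat_lit 83) (nat_lit 5) (nat_lit 436) (nat_lit 406) (nat_lit 358)) (XT.nd (nat_lit 78) (nat_lit 228) (nat_lit 0) (XT.lf (nat_lit 0) (nat_lit 405441972) (nat_lit 304) (nat_lit 7605823754) (nat_lit 76) (nat_lit 5216044253) (nat_lit 78) (nat_lit 5) (nat_lit 82) (nat_lit 5) (nat_lit 79) (nat_lit 5) (nat_lit 437) (nat_lit 406) (nat_lit 357)) (XT.lf (nat_lit 0) (nat_lit 546462477) (nat_lit 228) (nat_lit 3082027310)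 (nat_lit 304) (nat_lit 9980246580) (nat_lit 75) (nat_lit 5) (nat_lit 78) (nat_lit 5) (nat_lit 79) (nat_lit 5) (nat_lit 438) (nat_lit 406) (nat_lit 356)))) (XT.nd (nat_lit 156) (nat_lit 304) (nat_lit 0) (XT.nd (nat_lit 78) (nat_lit 152) (nat_lit 0) (XT.lf (nat_lit 0) (nat_lit 7133639653) (nat_lit 304) (nat_lit 4731268568) (nat_lit 76) (nat_lit 2138288603) (nat_lit 75) (nat_lit 5) (nat_lit 79) (nat_lit 5) (nat_lit 76) (nat_lit 5) (nat_lit 439) (nat_lit 406) (nat_lit 355)) (XT.lf (nat_lit 0) (nat_lit 4033826537) (nat_lit 152) (nat_lit 6853097836) (nat_lit 228) (nat_lit 3526821806) (nat_lit 73) (nat_lit 5) (nat_lit 75) (nat_lit 5) (nat_lit 76) (nat_lit 5) (nat_lit 440) (nat_lit 406) (nat_lit 354))) (XT.nd (nat_lit 78) (nat_lit 228) (nat_lit 0) (XT.lf (nat_lit 0) (nat_lit 24743960) (nat_lit 228) (nat_lit 1501829726) (nat_lit 76) (nat_lit 13316213829) (nat_lit 72) (nat_lit 5) (nat_lit 75) (nat_lit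 5) (nat_lit 73) (nat_lit 5) (nat_lit 441) (nat_lit 406) (nat_lit 353)) (XT.lf (nat_lit 0) (nat_lit 3787406330) (nat_lit 304) (nat_lit 7393664037) (nat_lit 76) (nat_lit 4101725997) (nat_lit 69) (nat_lit 5) (nat_lit 73) (nat_lit 5) (nat_lit 70) (nat_lit 5) (nat_lit 442) (nat_lit 406) (nat_lit 352)))))) (XT.nd (nat_lit 546) (nat_lit 760) (nat_lit 0) (XT.nd (nat_lit 234) (nat_lit 380) (nat_lit 0) (XT.nd (nat_lit 78) (nat_lit 228) (nat_lit 0) (XT.lf (nat_lit 0) (nat_lit 2038966644) (nat_lit 152) (nat_lit 5744191133) (nat_lit 228) (nat_lit 7959408097) (nat_lit 67) (nat_lit 5) (nat_lit 69) (nat_lit 5) (nat_lit 70) (nat_lit 5) (nat_lit 443) (nat_lit 406) (nat_lit 351)) (XT.nd (nat_lit 78) (nat_lit 228) (nat_lit 0) (XT.lf (nat_lit 0) (nat_lit 12068213825) (nat_lit 228) (nat_lit 4080306238) (nat_lit 76) (nat_lit 72335579) (nat_lit 67) (nat_lit 5) (nat_lit 70) (nat_lit 5) (nat_lit 68) (nat_lit 5) (nat_lit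 444) (nat_lit 406) (nat_lit 350)) (XT.lf (nat_lit 0) (nat_lit 5419356) (nat_lit 228) (nat_lit 10648126742) (nat_lit 76) (nat_lit 6061843224) (nat_lit 64) (nat_lit 5) (nat_lit 67) (nat_lit 5) (nat_lit 65) (nat_lit 5) (nat_lit 445) (nat_lit 406) (nat_lit 349)))) (XT.nd (nat_lit 156) (nat_lit 228) (nat_lit 0) (XT.nd (nat_lit 78) (nat_lit 152) (nat_lit 0) (XT.lf (nat_lit 0) (nat_lit 4266876442) (nat_lit 228) (nat_lit 493611346) (nat_lit 76) (nat_lit 12469012246) (nat_lit 64) (nat_lit 5) (nat_lit 67) (nat_lit 5) (nat_lit 65) (nat_lit 5) (nat_lit 446) (nat_lit 406) (nat_lit 348)) (XT.lf (nat_lit 0) (nat_lit 8895661150) (nat_lit 228) (nat_lit 7338778656) (nat_lit 76) (nat_lit 1527170019) (nat_lit 62) (nat_lit 5) (nat_lit 65) (nat_lit 5) (nat_lit 63) (nat_lit 5) (nat_lit 447) (nat_lit 406) (nat_lit 347))) (XT.nd (nat_lit 78) (nat_lit 76) (nat_lit 0) (XT.lf (nat_lit 0) (nat_lit 3563397103) (nat_lit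 152) (nat_lit 10301586605) (nat_lit 228) (nat_lit 4449892447) (nat_lit 60) (nat_lit 5) (nat_lit 62) (nat_lit 5) (nat_lit 63) (nat_lit 5) (nat_lit 448) (nat_lit 406) (nat_lit 346)) (XT.lf (nat_lit 0) (nat_lit 274429791) (nat_lit 228) (nat_lit 3684090923) (nat_lit 76) (nat_lit 14932472194) (nat_lit 59) (nat_lit 5) (nat_lit 62) (nat_lit 5) (nat_lit 60) (nat_lit 5) (nat_lit 449) (nat_lit 406) (nat_lit 345))))) (XT.nd (nat_lit 234) (nat_lit 456) (nat_lit 0) (XT.nd (nat_lit 78) (nat_lit 152) (nat_lit 0) (XT.lf (nat_lit 0) (nat_lit 5225214540) (nat_lit 228) (nat_lit 11463048030) (nat_lit 76) (nat_lit 2797021047) (nat_lit 57) (nat_lit 5) (nat_lit 60) (nat_lit 5) (nat_lit 58) (nat_lit 5) (nat_lit 450) (nat_lit 406) (nat_lit 344)) (XT.nd (nat_lit 78) (nat_lit 0) (nat_lit 0) (XT.lf (nat_lit 0) (nat_lit 224113635) (nat_lit 152) (nat_lit 10300281529) (nat_lit 228) (nat_lit 9579855787) (nat_lit 55) (nat_lit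 5) (nat_lit 57) (nat_lit 5) (nat_lit 58) (nat_lit 5) (nat_lit 451) (nat_lit 406) (nat_lit 343)) (XT.lf (nat_lit 0) (nat_lit 12841700144) (nat_lit 152) (nat_lit 3410679552) (nat_lit 228) (nat_lit 4493599399) (nat_lit 55) (nat_lit 5) (nat_lit 57) (nat_lit 5) (nat_lit 58) (nat_lit 5) (nat_lit 452) (nat_lit 406) (nat_lit 342)))) (XT.nd (nat_lit 156) (nat_lit 228) (nat_lit 0) (XT.nd (nat_lit 78) (nat_lit 0) (nat_lit 0) (XT.lf (nat_lit 0) (nat_lit 925641151) (nat_lit 228) (nat_lit 16718625479) (nat_lit 76) (nat_lit 3769581105) (nat_lit 52) (nat_lit 5) (nat_lit 55) (nat_lit 5) (nat_lit 53) (nat_lit 5) (nat_lit 453) (nat_lit 406) (nat_lit 341)) (XT.lf (nat_lit 0) (nat_lit 6627772845) (nat_lit 228) (nat_lit 4091778622) (nat_lit 76) (nat_lit 11383731934) (nat_lit 52) (nat_lit 5) (nat_lit 55) (nat_lit 5) (nat_lit 53) (nat_lit 5) (nat_lit 454) (nat_lit 406) (nat_lit 340))) (XT.nd (nat_lit 78) (nat_lit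 76) (nat_lit 0) (XT.lf (nat_lit 0) (nat_lit 9419604970) (nat_lit 152) (nat_lit 3314828282) (nat_lit 228) (nat_lit 10086790347) (nat_lit 50) (nat_lit 5) (nat_lit 52) (nat_lit 5) (nat_lit 53) (nat_lit 5) (nat_lit 455) (nat_lit 406) (nat_lit 339)) (XT.lf (nat_lit 0) (nat_lit 59604760) (nat_lit 76) (nat_lit 19200431027) (nat_lit 152) (nat_lit 4309348239) (nat_lit 49) (nat_lit 5) (nat_lit 50) (nat_lit 5) (nat_lit 51) (nat_lit 4) (nat_lit 456) (nat_lit 406) (nat_lit 338))))))) (XT.nd (nat_lit 1092) (nat_lit 836) (nat_lit 0) (XT.nd (nat_lit 546) (nat_lit 456) (nat_lit 0) (XT.nd (nat_lit 234) (nat_lit 380) (nat_lit 0) (XT.nd (nat_lit 78) (nat_lit 152) (nat_lit 0) (XT.lf (nat_lit 0) (nat_lit 1958483459) (nat_lit 152) (nat_lit 9818607302) (nat_lit 76) (nat_lit 12563605916) (nat_lit 48) (nat_lit 5) (nat_lit 50) (nat_lit 5) (nat_lit 49) (nat_lit 5) (nat_lit 457) (nat_lit 406) (nat_lit 337)) (XT.nd (nat_lit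 78) (nat_lit 0) (nat_lit 0) (XT.lf (nat_lit 0) (nat_lit 4586933566) (nat_lit 152) (nat_lit 3853590776) (nat_lit 228) (nat_lit 16704239543) (nat_lit 46) (nat_lit 5) (nat_lit 48) (nat_lit 5) (nat_lit 49) (nat_lit 5) (nat_lit 458) (nat_lit 406) (nat_lit 336)) (XT.lf (nat_lit 0) (nat_lit 15459639370) (nat_lit 228) (nat_lit 6046111303) (nat_lit 76) (nat_lit 4472638194) (nat_lit 46) (nat_lit 5) (nat_lit 49) (nat_lit 5) (nat_lit 47) (nat_lit 4) (nat_lit 459) (nat_lit 406) (nat_lit 335)))) (XT.nd (nat_lit 156) (nat_lit 228) (nat_lit 0) (XT.nd (nat_lit 78) (nat_lit 76) (nat_lit 0) (XT.lf (nat_lit 0) (nat_lit 9384016404) (nat_lit 76) (nat_lit 13630840252) (nat_lit 152) (nat_lit 3829583997) (nat_lit 45) (nat_lit 5) (nat_lit 46) (nat_lit 5) (nat_lit 47) (nat_lit 4) (nat_lit 460) (nat_lit 406) (nat_lit 334)) (XT.lf (nat_lit 0) (nat_lit 3171435332) (nat_lit 152) (nat_lit 2049110400) (nat_lit 76) (nat_lit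 22526777269) (nat_lit 44) (nat_lit 5) (nat_lit 46) (nat_lit 5) (nat_lit 45) (nat_lit 5) (nat_lit 461) (nat_lit 406) (nat_lit 333))) (XT.nd (nat_lit 78) (nat_lit 76) (nat_lit 0) (XT.lf (nat_lit 0) (nat_lit 10657582802) (nat_lit 228) (nat_lit 14251394758) (nat_lit 76) (nat_lit 3770046574) (nat_lit 42) (nat_lit 5) (nat_lit 45) (nat_lit 5) (nat_lit 43) (nat_lit 4) (nat_lit 462) (nat_lit 406) (nat_lit 332)) (XT.lf (nat_lit 0) (nat_lit 2081751981) (nat_lit 76) (nat_lit 16566523115) (nat_lit 152) (nat_lit 11002525723) (nat_lit 41) (nat_lit 5) (nat_lit 42) (nat_lit 5) (nat_lit 43) (nat_lit 4) (nat_lit 463) (nat_lit 406) (nat_lit 331))))) (XT.nd (nat_lit 234) (nat_lit 228) (nat_lit 0) (XT.nd (nat_lit 78) (nat_lit 228) (nat_lit 0) (XT.lf (nat_lit 0) (nat_lit 19684520832) (nat_lit 76) (nat_lit 7572664720) (nat_lit 152) (nat_lit 3403048863) (nat_lit 41) (nat_lit 5) (nat_lit 42) (nat_lit 5) (nat_lit 43)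 (nat_lit 4) (nat_lit 464) (nat_lit 406) (nat_lit 330)) (XT.nd (nat_lit 78) (nat_lit 0) (nat_lit 0) (XT.lf (nat_lit 0) (nat_lit 4541929105) (nat_lit 228) (nat_lit 25199560175) (nat_lit 76) (nat_lit 1969479898) (nat_lit 38) (nat_lit 5) (nat_lit 41) (nat_lit 5) (nat_lit 39) (nat_lit 4) (nat_lit 465) (nat_lit 406) (nat_lit 329)) (XT.lf (nat_lit 0) (nat_lit 13061047735) (nat_lit 228) (nat_lit 7774669509) (nat_lit 76) (nat_lit 11961173173) (nat_lit 38) (nat_lit 5) (nat_lit 41) (nat_lit 5) (nat_lit 39) (nat_lit 4) (nat_lit 466) (nat_lit 406) (nat_lit 328)))) (XT.nd (nat_lit 156) (nat_lit 152) (nat_lit 0) (XT.nd (nat_lit 78) (nat_lit 0) (nat_lit 0) (XT.lf (nat_lit 0) (nat_lit 10829323516) (nat_lit 76) (nat_lit 11325101780) (nat_lit 152) (nat_lit 11775269126) (nat_lit 37) (nat_lit 5) (nat_lit 38) (nat_lit 5) (nat_lit 39) (nat_lit 4) (nat_lit 467) (nat_lit 406) (nat_lit 327)) (XT.lf (nat_lit 0) (nat_lit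 30595311975) (nat_lit 76) (nat_lit 1218448446) (nat_lit 152) (nat_lit 3299815539) (nat_lit 37) (nat_lit 5) (nat_lit 38) (nat_lit 5) (nat_lit 39) (nat_lit 4) (nat_lit 468) (nat_lit 406) (nat_lit 326))) (XT.nd (nat_lit 78) (nat_lit 0) (nat_lit 0) (XT.lf (nat_lit 0) (nat_lit 5792036636) (nat_lit 152) (nat_lit 21132846690) (nat_lit 76) (nat_lit 9408806623) (nat_lit 35) (nat_lit 5) (nat_lit 37) (nat_lit 5) (nat_lit 36) (nat_lit 4) (nat_lit 469) (nat_lit 406) (nat_lit 325)) (XT.lf (nat_lit 0) (nat_lit 15305711597) (nat_lit 152) (nat_lit 1660607577) (nat_lit 76) (nat_lit 20641880944) (nat_lit 35) (nat_lit 5) (nat_lit 37) (nat_lit 5) (nat_lit 36) (nat_lit 4) (nat_lit 470) (nat_lit 406) (nat_lit 324)))))) (XT.nd (nat_lit 546) (nat_lit 380) (nat_lit 0) (XT.nd (nat_lit 234) (nat_lit 228) (nat_lit 0) (XT.nd (nat_lit 78) (nat_lit 152) (nat_lit 0) (XT.lf (nat_lit 0) (nat_lit 19369897003) (nat_lit 76) (nat_lit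 6208903730) (nat_lit 152) (nat_lit 13353449995) (nat_lit 34) (nat_lit 5) (nat_lit 35) (nat_lit 5) (nat_lit 36) (nat_lit 4) (nat_lit 471) (nat_lit 406) (nat_lit 323)) (XT.nd (nat_lit 78) (nat_lit 76) (nat_lit 0) (XT.lf (nat_lit 0) (nat_lit 1108695947) (nat_lit 76) (nat_lit 35363558829) (nat_lit 76) (nat_lit 3844914952) (nat_lit 33) (nat_lit 4) (nat_lit 34) (nat_lit 5) (nat_lit 34) (nat_lit 4) (nat_lit 472) (nat_lit 406) (nat_lit 322)) (XT.lf (nat_lit 0) (nat_lit 6362518308) (nat_lit 152) (nat_lit 18500816100) (nat_lit 76) (nat_lit 16882211175) (nat_lit 32) (nat_lit 5) (nat_lit 34) (nat_lit 5) (nat_lit 33) (nat_lit 4) (nat_lit 473) (nat_lit 406) (nat_lit 321)))) (XT.nd (nat_lit 156) (nat_lit 152) (nat_lit 0) (XT.nd (nat_lit 78) (nat_lit 0) (nat_lit 0) (XT.lf (nat_lit 0) (nat_lit 3249442159) (nat_lit 76) (nat_lit 13734728149) (nat_lit 152) (nat_lit 26256366478) (nat_lit 31) (nat_lit 5) (nat_lit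 32) (nat_lit 5) (nat_lit 33) (nat_lit 4) (nat_lit 474) (nat_lit 406) (nat_lit 320)) (XT.lf (nat_lit 0) (nat_lit 26696310945) (nat_lit 76) (nat_lit 1736565781) (nat_lit 152) (nat_lit 16362603369) (nat_lit 31) (nat_lit 5) (nat_lit 32) (nat_lit 5) (nat_lit 33) (nat_lit 4) (nat_lit 475) (nat_lit 406) (nat_lit 319))) (XT.nd (nat_lit 78) (nat_lit 76) (nat_lit 0) (XT.lf (nat_lit 0) (nat_lit 4840480749) (nat_lit 76) (nat_lit 35841931542) (nat_lit 76) (nat_lit 5734339673) (nat_lit 30) (nat_lit 4) (nat_lit 31) (nat_lit 5) (nat_lit 31) (nat_lit 4) (nat_lit 476) (nat_lit 406) (nat_lit 318)) (XT.lf (nat_lit 0) (nat_lit 5574978067) (nat_lit 152) (nat_lit 18698737275) (nat_lit 76) (nat_lit 23824973556) (nat_lit 29) (nat_lit 5) (nat_lit 31) (nat_lit 5) (nat_lit 30) (nat_lit 4) (nat_lit 477) (nat_lit 406) (nat_lit 317))))) (XT.nd (nat_lit 312) (nat_lit 152) (nat_lit 0) (XT.nd (nat_lit 156) (nat_lit 152) (nat_lit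 0) (XT.nd (nat_lit 78) (nat_lit 0) (nat_lit 0) (XT.lf (nat_lit 0) (nat_lit 5369818089) (nat_lit 76) (nat_lit 11955140734) (nat_lit 152) (nat_lit 32531669086) (nat_lit 28) (nat_lit 5) (nat_lit 29) (nat_lit 5) (nat_lit 30) (nat_lit 4) (nat_lit 478) (nat_lit 406) (nat_lit 316)) (XT.lf (nat_lit 0) (nat_lit 29983722426) (nat_lit 152) (nat_lit 20446910424) (nat_lit 0) (nat_lit 1255767722) (nat_lit 28) (nat_lit 5) (nat_lit 30) (nat_lit 4) (nat_lit 28) (nat_lit 4) (nat_lit 479) (nat_lit 406) (nat_lit 315))) (XT.nd (nat_lit 78) (nat_lit 76) (nat_lit 0) (XT.lf (nat_lit 0) (nat_lit 4720780702) (nat_lit 76) (nat_lit 38809219466) (nat_lit 76) (nat_lit 10064933753) (nat_lit 27) (nat_lit 4) (nat_lit 28) (nat_lit 5) (nat_lit 28) (nat_lit 4) (nat_lit 480) (nat_lit 406) (nat_lit 314)) (XT.lf (nat_lit 0) (nat_lit 2422599857) (nat_lit 152) (nat_lit 23793509348) (nat_lit 76) (nat_lit 29364260169) (nat_lit 26) (nat_lit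 5) (nat_lit 28) (nat_lit 5) (nat_lit 27) (nat_lit 4) (nat_lit 481) (nat_lit 406) (nat_lit 313)))) (XT.nd (nat_lit 156) (nat_lit 76) (nat_lit 0) (XT.nd (nat_lit 78) (nat_lit 0) (nat_lit 0) (XT.lf (nat_lit 0) (nat_lit 2425869138) (nat_lit 76) (nat_lit 12793897155) (nat_lit 152) (nat_lit 42435885900) (nat_lit 25) (nat_lit 5) (nat_lit 26) (nat_lit 5) (nat_lit 27) (nat_lit 4) (nat_lit 482) (nat_lit 406) (nat_lit 312)) (XT.lf (nat_lit 0) (nat_lit 29072314717) (nat_lit 152) (nat_lit 29087160049) (nat_lit 0) (nat_lit 1654448903) (nat_lit 25) (nat_lit 5) (nat_lit 27) (nat_lit 4) (nat_lit 25) (nat_lit 4) (nat_lit 483) (nat_lit 406) (nat_lit 311))) (XT.nd (nat_lit 78) (nat_lit 76) (nat_lit 0) (XT.lf (nat_lit 0) (nat_lit 43813584281) (nat_lit 152) (nat_lit 1873797725) (nat_lit 0) (nat_lit 16382922692) (nat_lit 25) (nat_lit 5) (nat_lit 27) (nat_lit 4) (nat_lit 25) (nat_lit 4) (nat_lit 484) (nat_lit 406)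 (nat_lit 310)) (XT.lf (nat_lit 0) (nat_lit 27556837107) (nat_lit 76) (nat_lit 32152327003) (nat_lit 76) (nat_lit 4709478963) (nat_lit 24) (nat_lit 4) (nat_lit 25) (nat_lit 5) (nat_lit 25) (nat_lit 4) (nat_lit 485) (nat_lit 406) (nat_lit 309))))))))
noncomputable def xc110 : XT := (XT.nd (nat_lit 2184) (nat_lit 532) (nat_lit 0) (XT.nd (nat_lit 1092) (nat_lit 456) (nat_lit 0) (XT.nd (nat_lit 546) (nat_lit 228) (nat_lit 0) (XT.nd (nat_lit 234) (nat_lit 228) (nat_lit 0) (XT.nd (nat_lit 78) (nat_lit 76) (nat_lit 0) (XT.lf (nat_lit 0) (nat_lit 9229861290) (nat_lit 152) (nat_lit 8533238538) (nat_lit 76) (nat_lit 49112907219) (nat_lit 23) (nat_lit 5) (nat_lit 25) (nat_lit 5) (nat_lit 24) (nat_lit 4) (nat_lit 486) (nat_lit 406) (nat_lit 308)) (XT.nd (nat_lit 78) (nat_lit 0) (nat_lit 0) (XT.lf (nat_lit 0) (nat_lit 21808359652) (nat_lit 76) (nat_lit 2227673180) (nat_lit 152) (nat_lit 45399940025) (nat_lit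 22) (nat_lit 5) (nat_lit 23) (nat_lit 5) (nat_lit 24) (nat_lit 4) (nat_lit 487) (nat_lit 406) (nat_lit 307)) (XT.lf (nat_lit 0) (nat_lit 39936974044) (nat_lit 152) (nat_lit 18399918496) (nat_lit 0) (nat_lit 13769321883) (nat_lit 22) (nat_lit 5) (nat_lit 24) (nat_lit 4) (nat_lit 22) (nat_lit 4) (nat_lit 488) (nat_lit 406) (nat_lit 306)))) (XT.nd (nat_lit 156) (nat_lit 152) (nat_lit 0) (XT.nd (nat_lit 78) (nat_lit 0) (nat_lit 0) (XT.lf (nat_lit 0) (nat_lit 12633928422) (nat_lit 76) (nat_lit 44221069465) (nat_lit 76) (nat_lit 18043868900) (nat_lit 21) (nat_lit 4) (nat_lit 22) (nat_lit 5) (nat_lit 22) (nat_lit 4) (nat_lit 489) (nat_lit 406) (nat_lit 305)) (XT.lf (nat_lit 0) (nat_lit 45835565632) (nat_lit 76) (nat_lit 29083438418) (nat_lit 76) (nat_lit 2897144135) (nat_lit 21) (nat_lit 4) (nat_lit 22) (nat_lit 5) (nat_lit 22) (nat_lit 4) (nat_lit 490) (nat_lit 406) (nat_lit 304))) (XT.nd (nat_lit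 78) (nat_lit 76) (nat_lit 0) (XT.lf (nat_lit 0) (nat_lit 12579452510) (nat_lit 152) (nat_lit 407077320) (nat_lit 76) (nat_lit 67883168621) (nat_lit 20) (nat_lit 5) (nat_lit 22) (nat_lit 5) (nat_lit 21) (nat_lit 4) (nat_lit 491) (nat_lit 406) (nat_lit 303)) (XT.lf (nat_lit 0) (nat_lit 29319313812) (nat_lit 152) (nat_lit 50361016068) (nat_lit 0) (nat_lit 4363882158) (nat_lit 19) (nat_lit 5) (nat_lit 21) (nat_lit 4) (nat_lit 19) (nat_lit 4) (nat_lit 492) (nat_lit 406) (nat_lit 302))))) (XT.nd (nat_lit 234) (nat_lit 152) (nat_lit 0) (XT.nd (nat_lit 78) (nat_lit 76) (nat_lit 0) (XT.lf (nat_lit 0) (nat_lit 47105464677) (nat_lit 152) (nat_lit 18118970591) (nat_lit 0) (nat_lit 22142551599) (nat_lit 19) (nat_lit 5) (nat_lit 21) (nat_lit 4) (nat_lit 19) (nat_lit 4) (nat_lit 493) (nat_lit 406) (nat_lit 301)) (XT.nd (nat_lit 78) (nat_lit 0) (nat_lit 0) (XT.lf (nat_lit 0) (nat_lit 16234818675) (nat_lit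 76) (nat_lit 49789475902) (nat_lit 76) (nat_lit 24819437658) (nat_lit 18) (nat_lit 4) (nat_lit 19) (nat_lit 5) (nat_lit 19) (nat_lit 4) (nat_lit 494) (nat_lit 406) (nat_lit 300)) (XT.lf (nat_lit 0) (nat_lit 52915695243) (nat_lit 76) (nat_lit 33270298845) (nat_lit 76) (nat_lit 8293474730) (nat_lit 18) (nat_lit 4) (nat_lit 19) (nat_lit 5) (nat_lit 19) (nat_lit 4) (nat_lit 495) (nat_lit 406) (nat_lit 299)))) (XT.nd (nat_lit 156) (nat_lit 0) (nat_lit 0) (XT.nd (nat_lit 78) (nat_lit 76) (nat_lit 0) (XT.lf (nat_lit 0) (nat_lit 8759240540) (nat_lit 152) (nat_lit 7026843742) (nat_lit 76) (nat_lit 82504317020) (nat_lit 17) (nat_lit 5) (nat_lit 19) (nat_lit 5) (nat_lit 18) (nat_lit 4) (nat_lit 496) (nat_lit 406) (nat_lit 298)) (XT.lf (nat_lit 0) (nat_lit 26895743994) (nat_lit 152) (nat_lit 72267569836) (nat_lit 0) (nat_lit 3096275578) (nat_lit 16) (nat_lit 5) (nat_lit 18) (nat_lit 4) (nat_lit 16) (nat_lit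 4) (nat_lit 497) (nat_lit 406) (nat_lit 297))) (XT.nd (nat_lit 78) (nat_lit 0) (nat_lit 0) (XT.lf (nat_lit 0) (nat_lit 46309683445) (nat_lit 152) (nat_lit 37594390947) (nat_lit 0) (nat_lit 22504632275) (nat_lit 16) (nat_lit 5) (nat_lit 18) (nat_lit 4) (nat_lit 16) (nat_lit 4) (nat_lit 498) (nat_lit 406) (nat_lit 296)) (XT.lf (nat_lit 0) (nat_lit 66685623383) (nat_lit 152) (nat_lit 1204836204) (nat_lit 0) (nat_lit 42875255304) (nat_lit 16) (nat_lit 5) (nat_lit 18) (nat_lit 4) (nat_lit 16) (nat_lit 4) (nat_lit 499) (nat_lit 406) (nat_lit 295)))))) (XT.nd (nat_lit 546) (nat_lit 152) (nat_lit 0) (XT.nd (nat_lit 234) (nat_lit 152) (nat_lit 0) (XT.nd (nat_lit 78) (nat_lit 76) (nat_lit 0) (XT.lf (nat_lit 0) (nat_lit 38210717791) (nat_lit 76) (nat_lit 50457936549) (nat_lit 76) (nat_lit 26642504748) (nat_lit 15) (nat_lit 4) (nat_lit 16) (nat_lit 5) (nat_lit 16) (nat_lit 4) (nat_lit 500) (nat_lit 406)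 (nat_lit 294)) (XT.nd (nat_lit 78) (nat_lit 76) (nat_lit 0) (XT.lf (nat_lit 0) (nat_lit 79622684080) (nat_lit 76) (nat_lit 32140416438) (nat_lit 76) (nat_lit 8320162045) (nat_lit 15) (nat_lit 4) (nat_lit 16) (nat_lit 5) (nat_lit 16) (nat_lit 4) (nat_lit 501) (nat_lit 406) (nat_lit 293)) (XT.lf (nat_lit 0) (nat_lit 10560963591) (nat_lit 152) (nat_lit 2174871975) (nat_lit 76) (nat_lit 112350006635) (nat_lit 14) (nat_lit 5) (nat_lit 16) (nat_lit 5) (nat_lit 15) (nat_lit 4) (nat_lit 502) (nat_lit 406) (nat_lit 292)))) (XT.nd (nat_lit 156) (nat_lit 76) (nat_lit 0) (XT.nd (nat_lit 78) (nat_lit 0) (nat_lit 0) (XT.lf (nat_lit 0) (nat_lit 30841295789) (nat_lit 152) (nat_lit 91306898278) (nat_lit 0) (nat_lit 8146799053) (nat_lit 13) (nat_lit 5) (nat_lit 15) (nat_lit 4) (nat_lit 13) (nat_lit 4) (nat_lit 503) (nat_lit 406) (nat_lit 291)) (XT.lf (nat_lit 0) (nat_lit 52374373548) (nat_lit 152) (nat_lit 53702382540)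 (nat_lit 0) (nat_lit 29675909254) (nat_lit 13) (nat_lit 5) (nat_lit 15) (nat_lit 4) (nat_lit 13) (nat_lit 4) (nat_lit 504) (nat_lit 406) (nat_lit 290))) (XT.nd (nat_lit 78) (nat_lit 76) (nat_lit 0) (XT.lf (nat_lit 0) (nat_lit 74976970379) (nat_lit 152) (nat_lit 14231880279) (nat_lit 0) (nat_lit 52274727457) (nat_lit 13) (nat_lit 5) (nat_lit 15) (nat_lit 4) (nat_lit 13) (nat_lit 4) (nat_lit 505) (nat_lit 406) (nat_lit 289)) (XT.lf (nat_lit 0) (nat_lit 28097893974) (nat_lit 76) (nat_lit 71043694881) (nat_lit 76) (nat_lit 48337853266) (nat_lit 12) (nat_lit 4) (nat_lit 13) (nat_lit 5) (nat_lit 13) (nat_lit 4) (nat_lit 506) (nat_lit 406) (nat_lit 288))))) (XT.nd (nat_lit 234) (nat_lit 0) (nat_lit 0) (XT.nd (nat_lit 78) (nat_lit 152) (nat_lit 0) (XT.lf (nat_lit 0) (nat_lit 73024913214) (nat_lit 76) (nat_lit 51723869018) (nat_lit 76) (nat_lit 29014600076) (nat_lit 12) (nat_lit 4) (nat_lit 13) (nat_lit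 5) (nat_lit 13) (nat_lit 4) (nat_lit 507) (nat_lit 406) (nat_lit 287)) (XT.nd (nat_lit 78) (nat_lit 152) (nat_lit 0) (XT.lf (nat_lit 0) (nat_lit 120185576298) (nat_lit 76) (nat_lit 31444397262) (nat_lit 76) (nat_lit 8731864200) (nat_lit 12) (nat_lit 4) (nat_lit 13) (nat_lit 5) (nat_lit 13) (nat_lit 4) (nat_lit 508) (nat_lit 406) (nat_lit 286)) (XT.lf (nat_lit 0) (nat_lit 2278502058) (nat_lit 76) (nat_lit 9913763213) (nat_lit 152) (nat_lit 155086671342) (nat_lit 10) (nat_lit 5) (nat_lit 11) (nat_lit 5) (nat_lit 12) (nat_lit 4) (nat_lit 509) (nat_lit 406) (nat_lit 285)))) (XT.nd (nat_lit 156) (nat_lit 0) (nat_lit 0) (XT.nd (nat_lit 78) (nat_lit 0) (nat_lit 0) (XT.lf (nat_lit 0) (nat_lit 34752742961) (nat_lit 152) (nat_lit 126621832075) (nat_lit 0) (nat_lit 13115978769) (nat_lit 10) (nat_lit 5) (nat_lit 12) (nat_lit 4) (nat_lit 10) (nat_lit 4) (nat_lit 510) (nat_lit 406) (nat_lit 284)) (XT.lf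 (nat_lit 0) (nat_lit 58597909486) (nat_lit 152) (nat_lit 86498549371) (nat_lit 0) (nat_lit 36958459894) (nat_lit 10) (nat_lit 5) (nat_lit 12) (nat_lit 4) (nat_lit 10) (nat_lit 4) (nat_lit 511) (nat_lit 406) (nat_lit 283))) (XT.nd (nat_lit 78) (nat_lit 0) (nat_lit 0) (XT.lf (nat_lit 0) (nat_lit 83629757425) (nat_lit 152) (nat_lit 44380273189) (nat_lit 0) (nat_lit 61987750309) (nat_lit 10) (nat_lit 5) (nat_lit 12) (nat_lit 4) (nat_lit 10) (nat_lit 4) (nat_lit 512) (nat_lit 406) (nat_lit 282)) (XT.lf (nat_lit 0) (nat_lit 109907886415) (nat_lit 152) (nat_lit 166721920) (nat_lit 0) (nat_lit 88263443562) (nat_lit 10) (nat_lit 5) (nat_lit 12) (nat_lit 4) (nat_lit 10) (nat_lit 4) (nat_lit 513) (nat_lit 406) (nat_lit 281))))))) (XT.nd (nat_lit 1092) (nat_lit 228) (nat_lit 0) (XT.nd (nat_lit 546) (nat_lit 76) (nat_lit 0) (XT.nd (nat_lit 234) (nat_lit 152) (nat_lit 0) (XT.nd (nat_lit 78) (nat_lit 0) (nat_lit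 0) (XT.lf (nat_lit 0) (nat_lit 47776521865) (nat_lit 76) (nat_lit 90464266964) (nat_lit 76) (nat_lit 68817504361) (nat_lit 9) (nat_lit 4) (nat_lit 10) (nat_lit 5) (nat_lit 10) (nat_lit 4) (nat_lit 514) (nat_lit 406) (nat_lit 280)) (XT.nd (nat_lit 78) (nat_lit 0) (nat_lit 0) (XT.lf (nat_lit 0) (nat_lit 98112747355) (nat_lit 76) (nat_lit 69875439341) (nat_lit 76) (nat_lit 48226467453) (nat_lit 9) (nat_lit 4) (nat_lit 10) (nat_lit 5) (nat_lit 10) (nat_lit 4) (nat_lit 515) (nat_lit 406) (nat_lit 279)) (XT.lf (nat_lit 0) (nat_lit 150956290124) (nat_lit 76) (nat_lit 48261927964) (nat_lit 76) (nat_lit 26610851995) (nat_lit 9) (nat_lit 4) (nat_lit 10) (nat_lit 5) (nat_lit 10) (nat_lit 4) (nat_lit 516) (nat_lit 406) (nat_lit 278)))) (XT.nd (nat_lit 156) (nat_lit 0) (nat_lit 0) (XT.nd (nat_lit 78) (nat_lit 152) (nat_lit 0) (XT.lf (nat_lit 0) (nat_lit 206432968131) (nat_lit 76) (nat_lit 25572272091) (nat_lit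 76) (nat_lit 3919192235) (nat_lit 9) (nat_lit 4) (nat_lit 10) (nat_lit 5) (nat_lit 10) (nat_lit 4) (nat_lit 517) (nat_lit 406) (nat_lit 277)) (XT.lf (nat_lit 0) (nat_lit 18429206120) (nat_lit 76) (nat_lit 1124059460) (nat_lit 152) (nat_lit 226941588975) (nat_lit 7) (nat_lit 5) (nat_lit 8) (nat_lit 5) (nat_lit 9) (nat_lit 4) (nat_lit 518) (nat_lit 406) (nat_lit 276))) (XT.nd (nat_lit 78) (nat_lit 0) (nat_lit 0) (XT.lf (nat_lit 0) (nat_lit 44954155756) (nat_lit 152) (nat_lit 188263477312) (nat_lit 0) (nat_lit 24328626323) (nat_lit 7) (nat_lit 5) (nat_lit 9) (nat_lit 4) (nat_lit 7) (nat_lit 4) (nat_lit 519) (nat_lit 406) (nat_lit 275)) (XT.lf (nat_lit 0) (nat_lit 71639364706) (nat_lit 152) (nat_lit 146497969465) (nat_lit 0) (nat_lit 51012186671) (nat_lit 7) (nat_lit 5) (nat_lit 9) (nat_lit 4) (nat_lit 7) (nat_lit 4) (nat_lit 520) (nat_lit 406) (nat_lit 274))))) (XT.nd (nat_lit 234) (nat_lit 76)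 (nat_lit 0) (XT.nd (nat_lit 78) (nat_lit 0) (nat_lit 0) (XT.lf (nat_lit 0) (nat_lit 99654878925) (nat_lit 152) (nat_lit 102652133490) (nat_lit 0) (nat_lit 79026130792) (nat_lit 7) (nat_lit 5) (nat_lit 9) (nat_lit 4) (nat_lit 7) (nat_lit 4) (nat_lit 521) (nat_lit 406) (nat_lit 273)) (XT.nd (nat_lit 78) (nat_lit 0) (nat_lit 0) (XT.lf (nat_lit 0) (nat_lit 129067402017) (nat_lit 152) (nat_lit 56621574539) (nat_lit 0) (nat_lit 108437158553) (nat_lit 7) (nat_lit 5) (nat_lit 9) (nat_lit 4) (nat_lit 7) (nat_lit 4) (nat_lit 522) (nat_lit 406) (nat_lit 272)) (XT.lf (nat_lit 0) (nat_lit 159946963800) (nat_lit 152) (nat_lit 8296696044) (nat_lit 0) (nat_lit 139315296211) (nat_lit 7) (nat_lit 5) (nat_lit 9) (nat_lit 4) (nat_lit 7) (nat_lit 4) (nat_lit 523) (nat_lit 406) (nat_lit 271)))) (XT.nd (nat_lit 156) (nat_lit 0) (nat_lit 0) (XT.nd (nat_lit 78) (nat_lit 0) (nat_lit 0) (XT.lf (nat_lit 0) (nat_lit 43840738658)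 (nat_lit 76) (nat_lit 149210825175) (nat_lit 76) (nat_lit 128577801276) (nat_lit 6) (nat_lit 4) (nat_lit 7) (nat_lit 5) (nat_lit 7) (nat_lit 4) (nat_lit 524) (nat_lit 406) (nat_lit 270)) (XT.lf (nat_lit 0) (nat_lit 98866333231) (nat_lit 76) (nat_lit 129082209808) (nat_lit 76) (nat_lit 108447894186) (nat_lit 6) (nat_lit 4) (nat_lit 7) (nat_lit 5) (nat_lit 7) (nat_lit 4) (nat_lit 525) (nat_lit 406) (nat_lit 269))) (XT.nd (nat_lit 78) (nat_lit 0) (nat_lit 0) (XT.lf (nat_lit 0) (nat_lit 156636774754) (nat_lit 76) (nat_lit 107950397032) (nat_lit 76) (nat_lit 87314851197) (nat_lit 6) (nat_lit 4) (nat_lit 7) (nat_lit 5) (nat_lit 7) (nat_lit 4) (nat_lit 526) (nat_lit 406) (nat_lit 268)) (XT.lf (nat_lit 0) (nat_lit 217289611897) (nat_lit 76) (nat_lit 85765073005) (nat_lit 76) (nat_lit 65128355539) (nat_lit 6) (nat_lit 4) (nat_lit 7) (nat_lit 5) (nat_lit 7) (nat_lit 4) (nat_lit 527) (nat_lit 406) (nat_lit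 267)))))) (XT.nd (nat_lit 546) (nat_lit 76) (nat_lit 0) (XT.nd (nat_lit 234) (nat_lit 76) (nat_lit 0) (XT.nd (nat_lit 78) (nat_lit 76) (nat_lit 0) (XT.lf (nat_lit 0) (nat_lit 280969256178) (nat_lit 76) (nat_lit 62473415528) (nat_lit 76) (nat_lit 41835582224) (nat_lit 6) (nat_lit 4) (nat_lit 7) (nat_lit 5) (nat_lit 7) (nat_lit 4) (nat_lit 528) (nat_lit 406) (nat_lit 266)) (XT.nd (nat_lit 78) (nat_lit 76) (nat_lit 0) (XT.lf (nat_lit 0) (nat_lit 347827325797) (nat_lit 76) (nat_lit 38019968275) (nat_lit 76) (nat_lit 17381072266) (nat_lit 6) (nat_lit 4) (nat_lit 7) (nat_lit 5) (nat_lit 7) (nat_lit 4) (nat_lit 529) (nat_lit 406) (nat_lit 265)) (XT.lf (nat_lit 0) (nat_lit 8027958784) (nat_lit 152) (nat_lit 4182592598) (nat_lit 76) (nat_lit 409859090483) (nat_lit 5) (nat_lit 5) (nat_lit 7) (nat_lit 5) (nat_lit 6) (nat_lit 4) (nat_lit 530) (nat_lit 406) (nat_lit 264)))) (XT.nd (nat_lit 156) (nat_lit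 0) (nat_lit 0) (XT.nd (nat_lit 78) (nat_lit 0) (nat_lit 0) (XT.lf (nat_lit 0) (nat_lit 35166177374) (nat_lit 152) (nat_lit 391112210336) (nat_lit 0) (nat_lit 15508204029) (nat_lit 4) (nat_lit 5) (nat_lit 6) (nat_lit 4) (nat_lit 4) (nat_lit 4) (nat_lit 531) (nat_lit 406) (nat_lit 263)) (XT.lf (nat_lit 0) (nat_lit 63930930350) (nat_lit 152) (nat_lit 354272894911) (nat_lit 0) (nat_lit 44272082716) (nat_lit 4) (nat_lit 5) (nat_lit 6) (nat_lit 4) (nat_lit 4) (nat_lit 4) (nat_lit 532) (nat_lit 406) (nat_lit 262))) (XT.nd (nat_lit 78) (nat_lit 0) (nat_lit 0) (XT.lf (nat_lit 0) (nat_lit 94131497203) (nat_lit 152) (nat_lit 315596497145) (nat_lit 0) (nat_lit 74471816912) (nat_lit 4) (nat_lit 5) (nat_lit 6) (nat_lit 4) (nat_lit 4) (nat_lit 4) (nat_lit 533) (nat_lit 406) (nat_lit 261)) (XT.lf (nat_lit 0) (nat_lit 125839784042) (nat_lit 152) (nat_lit 274990930379) (nat_lit 0) (nat_lit 106179310746) (nat_lit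 4) (nat_lit 5) (nat_lit 6) (nat_lit 4) (nat_lit 4) (nat_lit 4) (nat_lit 534) (nat_lit 406) (nat_lit 260))))) (XT.nd (nat_lit 312) (nat_lit 76) (nat_lit 0) (XT.nd (nat_lit 156) (nat_lit 0) (nat_lit 0) (XT.nd (nat_lit 78) (nat_lit 0) (nat_lit 0) (XT.lf (nat_lit 0) (nat_lit 159131286790) (nat_lit 152) (nat_lit 232359514689) (nat_lit 0) (nat_lit 139470058250) (nat_lit 4) (nat_lit 5) (nat_lit 6) (nat_lit 4) (nat_lit 4) (nat_lit 4) (nat_lit 535) (nat_lit 406) (nat_lit 259)) (XT.lf (nat_lit 0) (nat_lit 194085270929) (nat_lit 152) (nat_lit 187600746707) (nat_lit 0) (nat_lit 174423323109) (nat_lit 4) (nat_lit 5) (nat_lit 6) (nat_lit 4) (nat_lit 4) (nat_lit 4) (nat_lit 536) (nat_lit 406) (nat_lit 258))) (XT.nd (nat_lit 78) (nat_lit 0) (nat_lit 0) (XT.lf (nat_lit 0) (nat_lit 230784960230) (nat_lit 152) (nat_lit 140608057936) (nat_lit 0) (nat_lit 211122327382) (nat_lit 4) (nat_lit 5) (nat_lit 6) (nat_lit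 4) (nat_lit 4) (nat_lit 4) (nat_lit 537) (nat_lit 406) (nat_lit 257)) (XT.lf (nat_lit 0) (nat_lit 269317734907) (nat_lit 152) (nat_lit 91269561023) (nat_lit 0) (nat_lit 249654449650) (nat_lit 4) (nat_lit 5) (nat_lit 6) (nat_lit 4) (nat_lit 4) (nat_lit 4) (nat_lit 538) (nat_lit 406) (nat_lit 256)))) (XT.nd (nat_lit 156) (nat_lit 0) (nat_lit 0) (XT.nd (nat_lit 78) (nat_lit 76) (nat_lit 0) (XT.lf (nat_lit 0) (nat_lit 309775339661) (nat_lit 152) (nat_lit 39467783356) (nat_lit 0) (nat_lit 290111433063) (nat_lit 4) (nat_lit 5) (nat_lit 6) (nat_lit 4) (nat_lit 4) (nat_lit 4) (nat_lit 539) (nat_lit 406) (nat_lit 255)) (XT.lf (nat_lit 0) (nat_lit 15413955468) (nat_lit 76) (nat_lit 337080801696) (nat_lit 76) (nat_lit 317416303345) (nat_lit 3) (nat_lit 4) (nat_lit 4) (nat_lit 5) (nat_lit 4) (nat_lit 4) (nat_lit 540) (nat_lit 406) (nat_lit 254))) (XT.nd (nat_lit 78) (nat_lit 0) (nat_lit 0) (XT.lf (nat_lit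 0) (nat_lit 74406598964) (nat_lit 76) (nat_lit 323610258770) (nat_lit 76) (nat_lit 303945196845) (nat_lit 3) (nat_lit 4) (nat_lit 4) (nat_lit 5) (nat_lit 4) (nat_lit 4) (nat_lit 541) (nat_lit 406) (nat_lit 253)) (XT.lf (nat_lit 0) (nat_lit 136345622648) (nat_lit 76) (nat_lit 309467827527) (nat_lit 76) (nat_lit 289802228864) (nat_lit 3) (nat_lit 4) (nat_lit 4) (nat_lit 5) (nat_lit 4) (nat_lit 4) (nat_lit 542) (nat_lit 406) (nat_lit 252))))))))
noncomputable def xc111 : XT := (XT.nd (nat_lit 53898) (nat_lit 0) (nat_lit 3192) (XT.nd (nat_lit 52806) (nat_lit 0) (nat_lit 6840) (XT.nd (nat_lit 52260) (nat_lit 0) (nat_lit 10488) (XT.nd (nat_lit 51948) (nat_lit 0) (nat_lit 11552) (XT.nd (nat_lit 78) (nat_lit 0) (nat_lit 0) (XT.lf (nat_lit 0) (nat_lit 201378500386) (nat_lit 76) (nat_lit 294619835511) (nat_lit 76) (nat_lit 274953725669) (nat_lit 3) (nat_lit 4) (nat_lit 4) (nat_lit 5) (nat_lit 4) (nat_lit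 4) (nat_lit 543) (nat_lit 406) (nat_lit 251)) (XT.nd (nat_lit 51792) (nat_lit 0) (nat_lit 12008) (XT.lf (nat_lit 0) (nat_lit 269660072363) (nat_lit 76) (nat_lit 279030930360) (nat_lit 76) (nat_lit 259364333681) (nat_lit 3) (nat_lit 4) (nat_lit 4) (nat_lit 5) (nat_lit 4) (nat_lit 4) (nat_lit 544) (nat_lit 406) (nat_lit 250)) (XT.lf (nat_lit 0) (nat_lit 719984142) (nat_lit 532) (nat_lit 1392017234) (nat_lit 532) (nat_lit 1392017234) (nat_lit 161) (nat_lit 3) (nat_lit 168) (nat_lit 3) (nat_lit 168) (nat_lit 5) (nat_lit 407) (nat_lit 407) (nat_lit 386)))) (XT.nd (nat_lit 156) (nat_lit 456) (nat_lit 0) (XT.nd (nat_lit 78) (nat_lit 0) (nat_lit 0) (XT.lf (nat_lit 76) (nat_lit 683313854) (nat_lit 0) (nat_lit 2575608491) (nat_lit 532) (nat_lit 3834242355) (nat_lit 162) (nat_lit 5) (nat_lit 161) (nat_lit 3) (nat_lit 168) (nat_lit 5) (nat_lit 408) (nat_lit 407) (nat_lit 385)) (XT.lf (nat_lit 76) (nat_lit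 4359124594) (nat_lit 0) (nat_lit 742438889) (nat_lit 532) (nat_lit 2084407357) (nat_lit 162) (nat_lit 5) (nat_lit 161) (nat_lit 3) (nat_lit 168) (nat_lit 5) (nat_lit 409) (nat_lit 407) (nat_lit 384))) (XT.nd (nat_lit 78) (nat_lit 532) (nat_lit 0) (XT.lf (nat_lit 76) (nat_lit 880097503) (nat_lit 0) (nat_lit 6080264684) (nat_lit 532) (nat_lit 326910260) (nat_lit 163) (nat_lit 5) (nat_lit 162) (nat_lit 5) (nat_lit 169) (nat_lit 5) (nat_lit 410) (nat_lit 407) (nat_lit 383)) (XT.lf (nat_lit 0) (nat_lit 1424912402) (nat_lit 532) (nat_lit 2624799588) (nat_lit 608) (nat_lit 3345040412) (nat_lit 155) (nat_lit 5) (nat_lit 162) (nat_lit 5) (nat_lit 163) (nat_lit 5) (nat_lit 411) (nat_lit 407) (nat_lit 382))))) (XT.nd (nat_lit 234) (nat_lit 1064) (nat_lit 0) (XT.nd (nat_lit 78) (nat_lit 0) (nat_lit 76) (XT.lf (nat_lit 76) (nat_lit 1319352469) (nat_lit 0) (nat_lit 1853844295) (nat_lit 608) (nat_lit 4338197538)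 (nat_lit 156) (nat_lit 5) (nat_lit 155) (nat_lit 5) (nat_lit 163) (nat_lit 5) (nat_lit 412) (nat_lit 407) (nat_lit 381)) (XT.nd (nat_lit 78) (nat_lit 0) (nat_lit 0) (XT.lf (nat_lit 0) (nat_lit 4964726480) (nat_lit 532) (nat_lit 2156184051) (nat_lit 608) (nat_lit 515212638) (nat_lit 156) (nat_lit 5) (nat_lit 163) (nat_lit 5) (nat_lit 164) (nat_lit 5) (nat_lit 413) (nat_lit 407) (nat_lit 380)) (XT.lf (nat_lit 76) (nat_lit 2051405165) (nat_lit 0) (nat_lit 4765033287) (nat_lit 608) (nat_lit 952163958) (nat_lit 157) (nat_lit 5) (nat_lit 156) (nat_lit 5) (nat_lit 164) (nat_lit 5) (nat_lit 414) (nat_lit 407) (nat_lit 379)))) (XT.nd (nat_lit 156) (nat_lit 532) (nat_lit 0) (XT.nd (nat_lit 78) (nat_lit 0) (nat_lit 76) (XT.lf (nat_lit 0) (nat_lit 772907326) (nat_lit 608) (nat_lit 1442853384) (nat_lit 684) (nat_lit 5693960138) (nat_lit 148) (nat_lit 5) (nat_lit 156) (nat_lit 5) (nat_lit 157) (nat_lit 5)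 (nat_lit 415) (nat_lit 407) (nat_lit 378)) (XT.lf (nat_lit 0) (nat_lit 2522985177) (nat_lit 608) (nat_lit 5004050420) (nat_lit 76) (nat_lit 531579752) (nat_lit 149) (nat_lit 5) (nat_lit 157) (nat_lit 5) (nat_lit 150) (nat_lit 5) (nat_lit 416) (nat_lit 407) (nat_lit 377))) (XT.nd (nat_lit 78) (nat_lit 608) (nat_lit 0) (XT.lf (nat_lit 0) (nat_lit 4339472959) (nat_lit 608) (nat_lit 491030042) (nat_lit 76) (nat_lit 3385542648) (nat_lit 149) (nat_lit 5) (nat_lit 157) (nat_lit 5) (nat_lit 150) (nat_lit 5) (nat_lit 417) (nat_lit 407) (nat_lit 376)) (XT.lf (nat_lit 0) (nat_lit 4321657098) (nat_lit 608) (nat_lit 1914264156) (nat_lit 684) (nat_lit 2146004051) (nat_lit 141) (nat_lit 5) (nat_lit 149) (nat_lit 5) (nat_lit 150) (nat_lit 5) (nat_lit 418) (nat_lit 407) (nat_lit 375)))))) (XT.nd (nat_lit 546) (nat_lit 1292) (nat_lit 0) (XT.nd (nat_lit 234) (nat_lit 836) (nat_lit 0) (XT.nd (nat_lit 78) (nat_lit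 836) (nat_lit 0) (XT.lf (nat_lit 0) (nat_lit 775846032) (nat_lit 684) (nat_lit 7414429355) (nat_lit 760) (nat_lit 367702382) (nat_lit 132) (nat_lit 5) (nat_lit 141) (nat_lit 5) (nat_lit 142) (nat_lit 5) (nat_lit 419) (nat_lit 407) (nat_lit 374)) (XT.nd (nat_lit 78) (nat_lit 760) (nat_lit 0) (XT.lf (nat_lit 0) (nat_lit 1478722364) (nat_lit 760) (nat_lit 2869251909) (nat_lit 76) (nat_lit 4392357841) (nat_lit 131) (nat_lit 5) (nat_lit 141) (nat_lit 5) (nat_lit 132) (nat_lit 5) (nat_lit 420) (nat_lit 407) (nat_lit 373)) (XT.lf (nat_lit 0) (nat_lit 2291179627) (nat_lit 760) (nat_lit 1079160937) (nat_lit 836) (nat_lit 5562929248) (nat_lit 121) (nat_lit 5) (nat_lit 131) (nat_lit 5) (nat_lit 132) (nat_lit 5) (nat_lit 421) (nat_lit 407) (nat_lit 372)))) (XT.nd (nat_lit 156) (nat_lit 456) (nat_lit 0) (XT.nd (nat_lit 78) (nat_lit 380) (nat_lit 0) (XT.lf (nat_lit 0) (nat_lit 5374539159) (nat_lit 836) (nat_lit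 1429551298) (nat_lit 76) (nat_lit 2330891110) (nat_lit 121) (nat_lit 5) (nat_lit 132) (nat_lit 5) (nat_lit 122) (nat_lit 5) (nat_lit 422) (nat_lit 407) (nat_lit 371)) (XT.lf (nat_lit 0) (nat_lit 4092294513) (nat_lit 380) (nat_lit 3403353037) (nat_lit 456) (nat_lit 1850322221) (nat_lit 116) (nat_lit 5) (nat_lit 121) (nat_lit 5) (nat_lit 122) (nat_lit 5) (nat_lit 423) (nat_lit 407) (nat_lit 370))) (XT.nd (nat_lit 78) (nat_lit 0) (nat_lit 0) (XT.lf (nat_lit 0) (nat_lit 119129703) (nat_lit 456) (nat_lit 9257102846) (nat_lit 76) (nat_lit 192737228) (nat_lit 110) (nat_lit 5) (nat_lit 116) (nat_lit 5) (nat_lit 111) (nat_lit 5) (nat_lit 424) (nat_lit 407) (nat_lit 369)) (XT.lf (nat_lit 0) (nat_lit 2209243243) (nat_lit 456) (nat_lit 3615882456) (nat_lit 76) (nat_lit 3972281161) (nat_lit 110) (nat_lit 5) (nat_lit 116) (nat_lit 5) (nat_lit 111) (nat_lit 5) (nat_lit 425) (nat_lit 407) (nat_lit 368)))))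 (XT.nd (nat_lit 234) (nat_lit 608) (nat_lit 0) (XT.nd (nat_lit 78) (nat_lit 304) (nat_lit 0) (XT.lf (nat_lit 0) (nat_lit 2317075146) (nat_lit 380) (nat_lit 2064055913) (nat_lit 456) (nat_lit 5657292578) (nat_lit 105) (nat_lit 5) (nat_lit 110) (nat_lit 5) (nat_lit 111) (nat_lit 5) (nat_lit 426) (nat_lit 407) (nat_lit 367)) (XT.nd (nat_lit 78) (nat_lit 304) (nat_lit 0) (XT.lf (nat_lit 0) (nat_lit 6696093012) (nat_lit 456) (nat_lit 1712868919) (nat_lit 76) (nat_lit 1880825591) (nat_lit 105) (nat_lit 5) (nat_lit 111) (nat_lit 5) (nat_lit 106) (nat_lit 5) (nat_lit 427) (nat_lit 407) (nat_lit 366)) (XT.lf (nat_lit 0) (nat_lit 4647892238) (nat_lit 304) (nat_lit 4530845823) (nat_lit 380) (nat_lit 1372404083) (nat_lit 101) (nat_lit 5) (nat_lit 105) (nat_lit 5) (nat_lit 106) (nat_lit 5) (nat_lit 428) (nat_lit 407) (nat_lit 365)))) (XT.nd (nat_lit 156) (nat_lit 228) (nat_lit 0) (XT.nd (nat_lit 78) (nat_lit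 0) (nat_lit 0) (XT.lf (nat_lit 0) (nat_lit 498698962) (nat_lit 304) (nat_lit 414069667) (nat_lit 380) (nat_lit 9912886881) (nat_lit 96) (nat_lit 5) (nat_lit 100) (nat_lit 5) (nat_lit 101) (nat_lit 5) (nat_lit 429) (nat_lit 407) (nat_lit 364)) (XT.lf (nat_lit 0) (nat_lit 3376398420) (nat_lit 380) (nat_lit 3833635430) (nat_lit 76) (nat_lit 3897236429) (nat_lit 96) (nat_lit 5) (nat_lit 101) (nat_lit 5) (nat_lit 97) (nat_lit 5) (nat_lit 430) (nat_lit 407) (nat_lit 363))) (XT.nd (nat_lit 78) (nat_lit 0) (nat_lit 0) (XT.lf (nat_lit 0) (nat_lit 3011796501) (nat_lit 228) (nat_lit 2955398622) (nat_lit 304) (nat_lit 5435587263) (nat_lit 93) (nat_lit 5) (nat_lit 96) (nat_lit 5) (nat_lit 97) (nat_lit 5) (nat_lit 431) (nat_lit 407) (nat_lit 362)) (XT.lf (nat_lit 0) (nat_lit 8728519964) (nat_lit 304) (nat_lit 1465296327) (nat_lit 76) (nat_lit 1517219508) (nat_lit 93) (nat_lit 5) (nat_lit 97) (nat_lit 5)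 (nat_lit 94) (nat_lit 5) (nat_lit 432) (nat_lit 407) (nat_lit 361))))))) (XT.nd (nat_lit 1092) (nat_lit 1444) (nat_lit 0) (XT.nd (nat_lit 546) (nat_lit 836) (nat_lit 0) (XT.nd (nat_lit 234) (nat_lit 760) (nat_lit 0) (XT.nd (nat_lit 78) (nat_lit 304) (nat_lit 0) (XT.lf (nat_lit 0) (nat_lit 5886246881) (nat_lit 304) (nat_lit 5835722163) (nat_lit 380) (nat_lit 308044336) (nat_lit 89) (nat_lit 5) (nat_lit 93) (nat_lit 5) (nat_lit 94) (nat_lit 5) (nat_lit 433) (nat_lit 407) (nat_lit 360)) (XT.nd (nat_lit 78) (nat_lit 0) (nat_lit 0) (XT.lf (nat_lit 0) (nat_lit 1231586466) (nat_lit 228) (nat_lit 1187228379) (nat_lit 304) (nat_lit 9944252107) (nat_lit 85) (nat_lit 5) (nat_lit 88) (nat_lit 5) (nat_lit 89) (nat_lit 5) (nat_lit 434) (nat_lit 407) (nat_lit 359)) (XT.lf (nat_lit 0) (nat_lit 5390323166) (nat_lit 304) (nat_lit 3644936281) (nat_lit 76) (nat_lit 3671340772) (nat_lit 85) (nat_lit 5) (nat_lit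 89) (nat_lit 5) (nat_lit 86) (nat_lit 5) (nat_lit 435) (nat_lit 407) (nat_lit 358)))) (XT.nd (nat_lit 156) (nat_lit 532) (nat_lit 0) (XT.nd (nat_lit 78) (nat_lit 0) (nat_lit 0) (XT.lf (nat_lit 0) (nat_lit 4274280045) (nat_lit 228) (nat_lit 4279690988) (nat_lit 304) (nat_lit 4511172754) (nat_lit 82) (nat_lit 5) (nat_lit 85) (nat_lit 5) (nat_lit 86) (nat_lit 5) (nat_lit 436) (nat_lit 407) (nat_lit 357)) (XT.lf (nat_lit 0) (nat_lit 11907917740) (nat_lit 304) (nat_lit 794554015) (nat_lit 76) (nat_lit 737548236) (nat_lit 82) (nat_lit 5) (nat_lit 86) (nat_lit 5) (nat_lit 83) (nat_lit 5) (nat_lit 437) (nat_lit 407) (nat_lit 356))) (XT.nd (nat_lit 78) (nat_lit 228) (nat_lit 0) (XT.lf (nat_lit 0) (nat_lit 1698242276) (nat_lit 304) (nat_lit 6131967376) (nat_lit 76) (nat_lit 5994524745) (nat_lit 78) (nat_lit 5) (nat_lit 82) (nat_lit 5) (nat_lit 79) (nat_lit 5) (nat_lit 438) (nat_lit 407) (nat_lit 355))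 (XT.lf (nat_lit 0) (nat_lit 2398027561) (nat_lit 228) (nat_lit 2652299869) (nat_lit 304) (nat_lit 9176525412) (nat_lit 75) (nat_lit 5) (nat_lit 78) (nat_lit 5) (nat_lit 79) (nat_lit 5) (nat_lit 439) (nat_lit 407) (nat_lit 354))))) (XT.nd (nat_lit 234) (nat_lit 380) (nat_lit 0) (XT.nd (nat_lit 78) (nat_lit 456) (nat_lit 0) (XT.lf (nat_lit 0) (nat_lit 8680348642) (nat_lit 304) (nat_lit 3179787140) (nat_lit 76) (nat_lit 2783434118) (nat_lit 75) (nat_lit 5) (nat_lit 79) (nat_lit 5) (nat_lit 76) (nat_lit 5) (nat_lit 440) (nat_lit 407) (nat_lit 353)) (XT.nd (nat_lit 78) (nat_lit 304) (nat_lit 0) (XT.lf (nat_lit 0) (nat_lit 5994723288) (nat_lit 152) (nat_lit 6597372484) (nat_lit 228) (nat_lit 2484024633) (nat_lit 73) (nat_lit 5) (nat_lit 75) (nat_lit 5) (nat_lit 76) (nat_lit 5) (nat_lit 441) (nat_lit 407) (nat_lit 352)) (XT.lf (nat_lit 0) (nat_lit 140415180) (nat_lit 228) (nat_lit 1011680371) (nat_lit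 304) (nat_lit 14376279066) (nat_lit 69) (nat_lit 5) (nat_lit 72) (nat_lit 5) (nat_lit 73) (nat_lit 5) (nat_lit 442) (nat_lit 407) (nat_lit 351)))) (XT.nd (nat_lit 156) (nat_lit 228) (nat_lit 0) (XT.nd (nat_lit 78) (nat_lit 152) (nat_lit 0) (XT.lf (nat_lit 0) (nat_lit 5082677784) (nat_lit 304) (nat_lit 6032249213) (nat_lit 76) (nat_lit 4876479316) (nat_lit 69) (nat_lit 5) (nat_lit 73) (nat_lit 5) (nat_lit 70) (nat_lit 5) (nat_lit 443) (nat_lit 407) (nat_lit 350)) (XT.lf (nat_lit 0) (nat_lit 3844092066) (nat_lit 152) (nat_lit 5408054146) (nat_lit 228) (nat_lit 7223332798) (nat_lit 67) (nat_lit 5) (nat_lit 69) (nat_lit 5) (nat_lit 70) (nat_lit 5) (nat_lit 444) (nat_lit 407) (nat_lit 349))) (XT.nd (nat_lit 78) (nat_lit 228) (nat_lit 0) (XT.lf (nat_lit 0) (nat_lit 13709303309) (nat_lit 228) (nat_lit 2619883397) (nat_lit 76) (nat_lit 650614797) (nat_lit 67) (nat_lit 5) (nat_lit 70) (nat_lit 5) (nat_lit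 68) (nat_lit 5) (nat_lit 445) (nat_lit 407) (nat_lit 348)) (XT.lf (nat_lit 0) (nat_lit 1036339807) (nat_lit 228) (nat_lit 9508669596) (nat_lit 76) (nat_lit 6954423731) (nat_lit 64) (nat_lit 5) (nat_lit 67) (nat_lit 5) (nat_lit 65) (nat_lit 5) (nat_lit 446) (nat_lit 407) (nat_lit 347)))))) (XT.nd (nat_lit 546) (nat_lit 760) (nat_lit 0) (XT.nd (nat_lit 234) (nat_lit 380) (nat_lit 0) (XT.nd (nat_lit 78) (nat_lit 152) (nat_lit 0) (XT.lf (nat_lit 0) (nat_lit 1109468957) (nat_lit 152) (nat_lit 4369644162) (nat_lit 228) (nat_lit 12561733292) (nat_lit 62) (nat_lit 5) (nat_lit 64) (nat_lit 5) (nat_lit 65) (nat_lit 5) (nat_lit 447) (nat_lit 407) (nat_lit 346)) (XT.nd (nat_lit 78) (nat_lit 152) (nat_lit 0) (XT.lf (nat_lit 0) (nat_lit 10309213575) (nat_lit 228) (nat_lit 6100489864) (nat_lit 76) (nat_lit 2191373188) (nat_lit 62) (nat_lit 5) (nat_lit 65) (nat_lit 5) (nat_lit 63) (nat_lit 5) (nat_lit 448)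 (nat_lit 407) (nat_lit 345)) (XT.lf (nat_lit 0) (nat_lit 5320903913) (nat_lit 152) (nat_lit 10184624349) (nat_lit 228) (nat_lit 3677560055) (nat_lit 60) (nat_lit 5) (nat_lit 62) (nat_lit 5) (nat_lit 63) (nat_lit 5) (nat_lit 449) (nat_lit 407) (nat_lit 344)))) (XT.nd (nat_lit 156) (nat_lit 152) (nat_lit 0) (XT.nd (nat_lit 78) (nat_lit 152) (nat_lit 0) (XT.lf (nat_lit 0) (nat_lit 1205281126) (nat_lit 228) (nat_lit 2333689220) (nat_lit 76) (nat_lit 16250564355) (nat_lit 59) (nat_lit 5) (nat_lit 62) (nat_lit 5) (nat_lit 60) (nat_lit 5) (nat_lit 450) (nat_lit 407) (nat_lit 343)) (XT.lf (nat_lit 0) (nat_lit 6393073230) (nat_lit 228) (nat_lit 10490918146) (nat_lit 76) (nat_lit 3530082370) (nat_lit 57) (nat_lit 5) (nat_lit 60) (nat_lit 5) (nat_lit 58) (nat_lit 5) (nat_lit 451) (nat_lit 407) (nat_lit 342))) (XT.nd (nat_lit 78) (nat_lit 0) (nat_lit 0) (XT.lf (nat_lit 0) (nat_lit 1755677695) (nat_lit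 152) (nat_lit 10182100914) (nat_lit 228) (nat_lit 9127189416) (nat_lit 55) (nat_lit 5) (nat_lit 57) (nat_lit 5) (nat_lit 58) (nat_lit 5) (nat_lit 452) (nat_lit 407) (nat_lit 341)) (XT.lf (nat_lit 0) (nat_lit 14931745511) (nat_lit 152) (nat_lit 2978170966) (nat_lit 228) (nat_lit 3830984930) (nat_lit 55) (nat_lit 5) (nat_lit 57) (nat_lit 5) (nat_lit 58) (nat_lit 5) (nat_lit 453) (nat_lit 407) (nat_lit 340))))) (XT.nd (nat_lit 312) (nat_lit 304) (nat_lit 0) (XT.nd (nat_lit 156) (nat_lit 228) (nat_lit 0) (XT.nd (nat_lit 78) (nat_lit 0) (nat_lit 0) (XT.lf (nat_lit 0) (nat_lit 1822154079) (nat_lit 228) (nat_lit 16069289703) (nat_lit 76) (nat_lit 4550466200) (nat_lit 52) (nat_lit 5) (nat_lit 55) (nat_lit 5) (nat_lit 53) (nat_lit 5) (nat_lit 454) (nat_lit 407) (nat_lit 339)) (XT.lf (nat_lit 0) (nat_lit 7768905174) (nat_lit 228) (nat_lit 2881827506) (nat_lit 76) (nat_lit 12517114759) (nat_lit 52) (nat_lit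 5) (nat_lit 55) (nat_lit 5) (nat_lit 53) (nat_lit 5) (nat_lit 455) (nat_lit 407) (nat_lit 338))) (XT.nd (nat_lit 78) (nat_lit 76) (nat_lit 0) (XT.lf (nat_lit 0) (nat_lit 11282310104) (nat_lit 152) (nat_lit 2881758000) (nat_lit 228) (nat_lit 9758463446) (nat_lit 50) (nat_lit 5) (nat_lit 52) (nat_lit 5) (nat_lit 53) (nat_lit 5) (nat_lit 456) (nat_lit 407) (nat_lit 337)) (XT.lf (nat_lit 0) (nat_lit 1461776420) (nat_lit 76) (nat_lit 19547165806) (nat_lit 152) (nat_lit 3699513321) (nat_lit 49) (nat_lit 5) (nat_lit 50) (nat_lit 5) (nat_lit 51) (nat_lit 4) (nat_lit 457) (nat_lit 407) (nat_lit 336)))) (XT.nd (nat_lit 156) (nat_lit 76) (nat_lit 0) (XT.nd (nat_lit 78) (nat_lit 152) (nat_lit 0) (XT.lf (nat_lit 0) (nat_lit 2817252871) (nat_lit 152) (nat_lit 8951724506) (nat_lit 76) (nat_lit 13750618950) (nat_lit 48) (nat_lit 5) (nat_lit 50) (nat_lit 5) (nat_lit 49) (nat_lit 5) (nat_lit 458) (nat_lit 407)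 (nat_lit 335)) (XT.lf (nat_lit 0) (nat_lit 6152193194) (nat_lit 152) (nat_lit 3455829223) (nat_lit 228) (nat_lit 16756617571) (nat_lit 46) (nat_lit 5) (nat_lit 48) (nat_lit 5) (nat_lit 49) (nat_lit 5) (nat_lit 459) (nat_lit 407) (nat_lit 334))) (XT.nd (nat_lit 78) (nat_lit 76) (nat_lit 0) (XT.lf (nat_lit 0) (nat_lit 16951374004) (nat_lit 228) (nat_lit 5049315344) (nat_lit 76) (nat_lit 5240597046) (nat_lit 46) (nat_lit 5) (nat_lit 49) (nat_lit 5) (nat_lit 47) (nat_lit 4) (nat_lit 460) (nat_lit 407) (nat_lit 333)) (XT.lf (nat_lit 0) (nat_lit 11131365498) (nat_lit 76) (nat_lit 13738715815) (nat_lit 152) (nat_lit 3281277010) (nat_lit 45) (nat_lit 5) (nat_lit 46) (nat_lit 5) (nat_lit 47) (nat_lit 4) (nat_lit 461) (nat_lit 407) (nat_lit 332))))))))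
noncomputable def xc112 : XT := (XT.nd (nat_lit 2184) (nat_lit 988) (nat_lit 0) (XT.nd (nat_lit 1092) (nat_lit 684) (nat_lit 0) (XT.nd (nat_lit 546) (nat_lit 456) (nat_lit 0) (XT.nd (nat_lit 234) (nat_lit 304) (nat_lit 0) (XT.nd (nat_lit 78) (nat_lit 228) (nat_lit 0) (XT.lf (nat_lit 0) (nat_lit 4012015106) (nat_lit 152) (nat_lit 911658777) (nat_lit 76) (nat_lit 24176842060) (nat_lit 44) (nat_lit 5) (nat_lit 46) (nat_lit 5) (nat_lit 45) (nat_lit 5) (nat_lit 462) (nat_lit 407) (nat_lit 331)) (XT.nd (nat_lit 78) (nat_lit 76) (nat_lit 0) (XT.lf (nat_lit 0) (nat_lit 11867647393) (nat_lit 228) (nat_lit 13719165456) (nat_lit 76) (nat_lit 4492233879) (nat_lit 42) (nat_lit 5) (nat_lit 45) (nat_lit 5) (nat_lit 43) (nat_lit 4) (nat_lit 463) (nat_lit 407) (nat_lit 330)) (XT.lf (nat_lit 0) (nat_lit 3410561217) (nat_lit 76) (nat_lit 16834187496) (nat_lit 152) (nat_lit 10855323116) (nat_lit 41) (nat_lit 5)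 (nat_lit 42) (nat_lit 5) (nat_lit 43) (nat_lit 4) (nat_lit 464) (nat_lit 407) (nat_lit 329)))) (XT.nd (nat_lit 156) (nat_lit 76) (nat_lit 0) (XT.nd (nat_lit 78) (nat_lit 228) (nat_lit 0) (XT.lf (nat_lit 0) (nat_lit 21835148433) (nat_lit 76) (nat_lit 7417334361) (nat_lit 152) (nat_lit 2909078551) (nat_lit 41) (nat_lit 5) (nat_lit 42) (nat_lit 5) (nat_lit 43) (nat_lit 4) (nat_lit 465) (nat_lit 407) (nat_lit 328)) (XT.lf (nat_lit 0) (nat_lit 5407924711) (nat_lit 228) (nat_lit 25267796074) (nat_lit 76) (nat_lit 2588794848) (nat_lit 38) (nat_lit 5) (nat_lit 41) (nat_lit 5) (nat_lit 39) (nat_lit 4) (nat_lit 466) (nat_lit 407) (nat_lit 327))) (XT.nd (nat_lit 78) (nat_lit 76) (nat_lit 0) (XT.lf (nat_lit 0) (nat_lit 14322575503) (nat_lit 228) (nat_lit 7028410499) (nat_lit 76) (nat_lit 13055270837) (nat_lit 38) (nat_lit 5) (nat_lit 41) (nat_lit 5) (nat_lit 39) (nat_lit 4) (nat_lit 467) (nat_lit 407)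 (nat_lit 326)) (XT.lf (nat_lit 0) (nat_lit 12487475846) (nat_lit 76) (nat_lit 11371605677) (nat_lit 152) (nat_lit 11737199128) (nat_lit 37) (nat_lit 5) (nat_lit 38) (nat_lit 5) (nat_lit 39) (nat_lit 4) (nat_lit 468) (nat_lit 407) (nat_lit 325))))) (XT.nd (nat_lit 234) (nat_lit 304) (nat_lit 0) (XT.nd (nat_lit 78) (nat_lit 152) (nat_lit 0) (XT.lf (nat_lit 0) (nat_lit 33188588197) (nat_lit 76) (nat_lit 784369733) (nat_lit 152) (nat_lit 2867822073) (nat_lit 37) (nat_lit 5) (nat_lit 38) (nat_lit 5) (nat_lit 39) (nat_lit 4) (nat_lit 469) (nat_lit 407) (nat_lit 324)) (XT.nd (nat_lit 78) (nat_lit 0) (nat_lit 0) (XT.lf (nat_lit 0) (nat_lit 6656406824) (nat_lit 152) (nat_lit 21103670884) (nat_lit 76) (nat_lit 10361513624) (nat_lit 35) (nat_lit 5) (nat_lit 37) (nat_lit 5) (nat_lit 36) (nat_lit 4) (nat_lit 470) (nat_lit 407) (nat_lit 323)) (XT.lf (nat_lit 0) (nat_lit 16618395610) (nat_lit 152) (nat_lit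 709525441) (nat_lit 76) (nat_lit 22133276582) (nat_lit 35) (nat_lit 5) (nat_lit 37) (nat_lit 5) (nat_lit 36) (nat_lit 4) (nat_lit 471) (nat_lit 407) (nat_lit 322)))) (XT.nd (nat_lit 156) (nat_lit 152) (nat_lit 0) (XT.nd (nat_lit 78) (nat_lit 76) (nat_lit 0) (XT.lf (nat_lit 0) (nat_lit 21355825134) (nat_lit 76) (nat_lit 6039132462) (nat_lit 152) (nat_lit 13457004285) (nat_lit 34) (nat_lit 5) (nat_lit 35) (nat_lit 5) (nat_lit 36) (nat_lit 4) (nat_lit 472) (nat_lit 407) (nat_lit 321)) (XT.lf (nat_lit 0) (nat_lit 2184244705) (nat_lit 76) (nat_lit 36646325221) (nat_lit 76) (nat_lit 3475684558) (nat_lit 33) (nat_lit 4) (nat_lit 34) (nat_lit 5) (nat_lit 34) (nat_lit 4) (nat_lit 473) (nat_lit 407) (nat_lit 320))) (XT.nd (nat_lit 78) (nat_lit 76) (nat_lit 0) (XT.lf (nat_lit 0) (nat_lit 7198268414) (nat_lit 152) (nat_lit 18437169785) (nat_lit 76) (nat_lit 18171468433) (nat_lit 32) (nat_lit 5) (nat_lit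 34) (nat_lit 5) (nat_lit 33) (nat_lit 4) (nat_lit 474) (nat_lit 407) (nat_lit 319)) (XT.lf (nat_lit 0) (nat_lit 4384654820) (nat_lit 76) (nat_lit 13956886628) (nat_lit 152) (nat_lit 27035580691) (nat_lit 31) (nat_lit 5) (nat_lit 32) (nat_lit 5) (nat_lit 33) (nat_lit 4) (nat_lit 475) (nat_lit 407) (nat_lit 318)))))) (XT.nd (nat_lit 546) (nat_lit 304) (nat_lit 0) (XT.nd (nat_lit 234) (nat_lit 228) (nat_lit 0) (XT.nd (nat_lit 78) (nat_lit 152) (nat_lit 0) (XT.lf (nat_lit 0) (nat_lit 28957546067) (nat_lit 76) (nat_lit 1380938901) (nat_lit 152) (nat_lit 16672539147) (nat_lit 31) (nat_lit 5) (nat_lit 32) (nat_lit 5) (nat_lit 33) (nat_lit 4) (nat_lit 476) (nat_lit 407) (nat_lit 317)) (XT.nd (nat_lit 78) (nat_lit 76) (nat_lit 0) (XT.lf (nat_lit 0) (nat_lit 6011024744) (nat_lit 76) (nat_lit 37187502456) (nat_lit 76) (nat_lit 5514932395) (nat_lit 30) (nat_lit 4) (nat_lit 31) (nat_lit 5) (nat_lit 31)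 (nat_lit 4) (nat_lit 477) (nat_lit 407) (nat_lit 316)) (XT.lf (nat_lit 0) (nat_lit 6320322327) (nat_lit 152) (nat_lit 18733914228) (nat_lit 76) (nat_lit 25426029580) (nat_lit 29) (nat_lit 5) (nat_lit 31) (nat_lit 5) (nat_lit 30) (nat_lit 4) (nat_lit 478) (nat_lit 407) (nat_lit 315)))) (XT.nd (nat_lit 156) (nat_lit 152) (nat_lit 0) (XT.nd (nat_lit 78) (nat_lit 0) (nat_lit 0) (XT.lf (nat_lit 0) (nat_lit 6523556648) (nat_lit 76) (nat_lit 12125847843) (nat_lit 152) (nat_lit 33677118793) (nat_lit 28) (nat_lit 5) (nat_lit 29) (nat_lit 5) (nat_lit 30) (nat_lit 4) (nat_lit 479) (nat_lit 407) (nat_lit 314)) (XT.lf (nat_lit 0) (nat_lit 31925637283) (nat_lit 152) (nat_lit 20610669062) (nat_lit 0) (nat_lit 1712252930) (nat_lit 28) (nat_lit 5) (nat_lit 30) (nat_lit 4) (nat_lit 28) (nat_lit 4) (nat_lit 480) (nat_lit 407) (nat_lit 313))) (XT.nd (nat_lit 78) (nat_lit 76) (nat_lit 0) (XT.lf (nat_lit 0) (nat_lit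 5801558445) (nat_lit 76) (nat_lit 40339776885) (nat_lit 76) (nat_lit 10111579824) (nat_lit 27) (nat_lit 4) (nat_lit 28) (nat_lit 5) (nat_lit 28) (nat_lit 4) (nat_lit 481) (nat_lit 407) (nat_lit 312)) (XT.lf (nat_lit 0) (nat_lit 2964669416) (nat_lit 152) (nat_lit 24164732097) (nat_lit 76) (nat_lit 31208917852) (nat_lit 26) (nat_lit 5) (nat_lit 28) (nat_lit 5) (nat_lit 27) (nat_lit 4) (nat_lit 482) (nat_lit 407) (nat_lit 311))))) (XT.nd (nat_lit 234) (nat_lit 228) (nat_lit 0) (XT.nd (nat_lit 78) (nat_lit 0) (nat_lit 0) (XT.lf (nat_lit 0) (nat_lit 3352414464) (nat_lit 76) (nat_lit 13041807208) (nat_lit 152) (nat_lit 44123519302) (nat_lit 25) (nat_lit 5) (nat_lit 26) (nat_lit 5) (nat_lit 27) (nat_lit 4) (nat_lit 483) (nat_lit 407) (nat_lit 310)) (XT.nd (nat_lit 78) (nat_lit 0) (nat_lit 0) (XT.lf (nat_lit 0) (nat_lit 30925534189) (nat_lit 152) (nat_lit 29760728680) (nat_lit 0) (nat_lit 2098357295)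 (nat_lit 25) (nat_lit 5) (nat_lit 27) (nat_lit 4) (nat_lit 25) (nat_lit 4) (nat_lit 484) (nat_lit 407) (nat_lit 309)) (XT.lf (nat_lit 0) (nat_lit 46384838481) (nat_lit 152) (nat_lit 1223878686) (nat_lit 0) (nat_lit 17546055443) (nat_lit 25) (nat_lit 5) (nat_lit 27) (nat_lit 4) (nat_lit 25) (nat_lit 4) (nat_lit 485) (nat_lit 407) (nat_lit 308)))) (XT.nd (nat_lit 156) (nat_lit 76) (nat_lit 0) (XT.nd (nat_lit 78) (nat_lit 76) (nat_lit 0) (XT.lf (nat_lit 0) (nat_lit 29666294195) (nat_lit 76) (nat_lit 33402203053) (nat_lit 76) (nat_lit 4552366544) (nat_lit 24) (nat_lit 4) (nat_lit 25) (nat_lit 5) (nat_lit 25) (nat_lit 4) (nat_lit 486) (nat_lit 407) (nat_lit 307)) (XT.lf (nat_lit 0) (nat_lit 10053279261) (nat_lit 152) (nat_lit 8251141138) (nat_lit 76) (nat_lit 51897274712) (nat_lit 23) (nat_lit 5) (nat_lit 25) (nat_lit 5) (nat_lit 24) (nat_lit 4) (nat_lit 487) (nat_lit 407) (nat_lit 306))) (XT.nd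 (nat_lit 78) (nat_lit 0) (nat_lit 0) (XT.lf (nat_lit 0) (nat_lit 23596105360) (nat_lit 76) (nat_lit 1997306740) (nat_lit 152) (nat_lit 47296565238) (nat_lit 22) (nat_lit 5) (nat_lit 23) (nat_lit 5) (nat_lit 24) (nat_lit 4) (nat_lit 488) (nat_lit 407) (nat_lit 305)) (XT.lf (nat_lit 0) (nat_lit 42277549703) (nat_lit 152) (nat_lit 18643927554) (nat_lit 0) (nat_lit 14772846988) (nat_lit 22) (nat_lit 5) (nat_lit 24) (nat_lit 4) (nat_lit 22) (nat_lit 4) (nat_lit 489) (nat_lit 407) (nat_lit 304))))))) (XT.nd (nat_lit 1092) (nat_lit 380) (nat_lit 0) (XT.nd (nat_lit 546) (nat_lit 304) (nat_lit 0) (XT.nd (nat_lit 234) (nat_lit 76) (nat_lit 0) (XT.nd (nat_lit 78) (nat_lit 152) (nat_lit 0) (XT.lf (nat_lit 0) (nat_lit 13930708696) (nat_lit 76) (nat_lit 46104781914) (nat_lit 76) (nat_lit 18591418516) (nat_lit 21) (nat_lit 4) (nat_lit 22) (nat_lit 5) (nat_lit 22) (nat_lit 4) (nat_lit 490) (nat_lit 407) (nat_lit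 303)) (XT.nd (nat_lit 78) (nat_lit 152) (nat_lit 0) (XT.lf (nat_lit 0) (nat_lit 48760757107) (nat_lit 76) (nat_lit 30225856983) (nat_lit 76) (nat_lit 2704245314) (nat_lit 21) (nat_lit 4) (nat_lit 22) (nat_lit 5) (nat_lit 22) (nat_lit 4) (nat_lit 491) (nat_lit 407) (nat_lit 302)) (XT.lf (nat_lit 0) (nat_lit 192281169) (nat_lit 76) (nat_lit 13330522895) (nat_lit 152) (nat_lit 71374648391) (nat_lit 19) (nat_lit 5) (nat_lit 20) (nat_lit 5) (nat_lit 21) (nat_lit 4) (nat_lit 492) (nat_lit 407) (nat_lit 301)))) (XT.nd (nat_lit 156) (nat_lit 76) (nat_lit 0) (XT.nd (nat_lit 78) (nat_lit 0) (nat_lit 0) (XT.lf (nat_lit 0) (nat_lit 31095901511) (nat_lit 152) (nat_lit 52264742437) (nat_lit 0) (nat_lit 4870236189) (nat_lit 19) (nat_lit 5) (nat_lit 21) (nat_lit 4) (nat_lit 19) (nat_lit 4) (nat_lit 493) (nat_lit 407) (nat_lit 300)) (XT.lf (nat_lit 0) (nat_lit 49756568395) (nat_lit 152) (nat_lit 18439848231)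 (nat_lit 0) (nat_lit 23524117201) (nat_lit 19) (nat_lit 5) (nat_lit 21) (nat_lit 4) (nat_lit 19) (nat_lit 4) (nat_lit 494) (nat_lit 407) (nat_lit 299))) (XT.nd (nat_lit 78) (nat_lit 0) (nat_lit 0) (XT.lf (nat_lit 0) (nat_lit 17622193871) (nat_lit 76) (nat_lit 51994046017) (nat_lit 76) (nat_lit 25755132088) (nat_lit 18) (nat_lit 4) (nat_lit 19) (nat_lit 5) (nat_lit 19) (nat_lit 4) (nat_lit 495) (nat_lit 407) (nat_lit 298)) (XT.lf (nat_lit 0) (nat_lit 56109703112) (nat_lit 76) (nat_lit 34662476950) (nat_lit 76) (nat_lit 8417408035) (nat_lit 18) (nat_lit 4) (nat_lit 19) (nat_lit 5) (nat_lit 19) (nat_lit 4) (nat_lit 496) (nat_lit 407) (nat_lit 297))))) (XT.nd (nat_lit 234) (nat_lit 152) (nat_lit 0) (XT.nd (nat_lit 78) (nat_lit 76) (nat_lit 0) (XT.lf (nat_lit 0) (nat_lit 9465235826) (nat_lit 152) (nat_lit 6847197361) (nat_lit 76) (nat_lit 86879077583) (nat_lit 17) (nat_lit 5) (nat_lit 19) (nat_lit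 5) (nat_lit 18) (nat_lit 4) (nat_lit 497) (nat_lit 407) (nat_lit 296)) (XT.nd (nat_lit 78) (nat_lit 0) (nat_lit 0) (XT.lf (nat_lit 0) (nat_lit 28508001155) (nat_lit 152) (nat_lit 75349387953) (nat_lit 0) (nat_lit 3501797764) (nat_lit 16) (nat_lit 5) (nat_lit 18) (nat_lit 4) (nat_lit 16) (nat_lit 4) (nat_lit 498) (nat_lit 407) (nat_lit 295)) (XT.lf (nat_lit 0) (nat_lit 48879900913) (nat_lit 152) (nat_lit 38967862519) (nat_lit 0) (nat_lit 23868633800) (nat_lit 16) (nat_lit 5) (nat_lit 18) (nat_lit 4) (nat_lit 16) (nat_lit 4) (nat_lit 499) (nat_lit 407) (nat_lit 294)))) (XT.nd (nat_lit 156) (nat_lit 76) (nat_lit 0) (XT.nd (nat_lit 78) (nat_lit 76) (nat_lit 0) (XT.lf (nat_lit 0) (nat_lit 70262507691) (nat_lit 152) (nat_lit 782937084) (nat_lit 0) (nat_lit 45246417986) (nat_lit 16) (nat_lit 5) (nat_lit 18) (nat_lit 4) (nat_lit 16) (nat_lit 4) (nat_lit 500) (nat_lit 407) (nat_lit 293)) (XT.lf (nat_lit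 0) (nat_lit 40595618144) (nat_lit 76) (nat_lit 52744925681) (nat_lit 76) (nat_lit 27724243030) (nat_lit 15) (nat_lit 4) (nat_lit 16) (nat_lit 5) (nat_lit 16) (nat_lit 4) (nat_lit 501) (nat_lit 407) (nat_lit 292))) (XT.nd (nat_lit 78) (nat_lit 76) (nat_lit 0) (XT.lf (nat_lit 0) (nat_lit 84055593963) (nat_lit 76) (nat_lit 33522763264) (nat_lit 76) (nat_lit 8497706379) (nat_lit 15) (nat_lit 4) (nat_lit 16) (nat_lit 5) (nat_lit 16) (nat_lit 4) (nat_lit 502) (nat_lit 407) (nat_lit 291)) (XT.lf (nat_lit 0) (nat_lit 11308851235) (nat_lit 152) (nat_lit 1846077788) (nat_lit 76) (nat_lit 118174206966) (nat_lit 14) (nat_lit 5) (nat_lit 16) (nat_lit 5) (nat_lit 15) (nat_lit 4) (nat_lit 503) (nat_lit 407) (nat_lit 290)))))) (XT.nd (nat_lit 546) (nat_lit 76) (nat_lit 0) (XT.nd (nat_lit 234) (nat_lit 228) (nat_lit 0) (XT.nd (nat_lit 78) (nat_lit 0) (nat_lit 0) (XT.lf (nat_lit 0) (nat_lit 32602799717) (nat_lit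 152) (nat_lit 95434299033) (nat_lit 0) (nat_lit 8761666021) (nat_lit 13) (nat_lit 5) (nat_lit 15) (nat_lit 4) (nat_lit 13) (nat_lit 4) (nat_lit 504) (nat_lit 407) (nat_lit 289)) (XT.nd (nat_lit 78) (nat_lit 0) (nat_lit 0) (XT.lf (nat_lit 0) (nat_lit 55202081882) (nat_lit 152) (nat_lit 55970411993) (nat_lit 0) (nat_lit 31357349493) (nat_lit 13) (nat_lit 5) (nat_lit 15) (nat_lit 4) (nat_lit 13) (nat_lit 4) (nat_lit 505) (nat_lit 407) (nat_lit 288)) (XT.lf (nat_lit 0) (nat_lit 78924856666) (nat_lit 152) (nat_lit 14546246031) (nat_lit 0) (nat_lit 55076696950) (nat_lit 13) (nat_lit 5) (nat_lit 15) (nat_lit 4) (nat_lit 13) (nat_lit 4) (nat_lit 506) (nat_lit 407) (nat_lit 287)))) (XT.nd (nat_lit 156) (nat_lit 152) (nat_lit 0) (XT.nd (nat_lit 78) (nat_lit 0) (nat_lit 0) (XT.lf (nat_lit 0) (nat_lit 29893610027) (nat_lit 76) (nat_lit 74400719867) (nat_lit 76) (nat_lit 50549296031) (nat_lit 12) (nat_lit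 4) (nat_lit 13) (nat_lit 5) (nat_lit 13) (nat_lit 4) (nat_lit 507) (nat_lit 407) (nat_lit 286)) (XT.lf (nat_lit 0) (nat_lit 77048369688) (nat_lit 76) (nat_lit 54124196032) (nat_lit 76) (nat_lit 30269663510) (nat_lit 12) (nat_lit 4) (nat_lit 13) (nat_lit 5) (nat_lit 13) (nat_lit 4) (nat_lit 508) (nat_lit 407) (nat_lit 285))) (XT.nd (nat_lit 78) (nat_lit 152) (nat_lit 0) (XT.lf (nat_lit 0) (nat_lit 126549341602) (nat_lit 76) (nat_lit 32839601472) (nat_lit 76) (nat_lit 8982108296) (nat_lit 12) (nat_lit 4) (nat_lit 13) (nat_lit 5) (nat_lit 13) (nat_lit 4) (nat_lit 509) (nat_lit 407) (nat_lit 284)) (XT.lf (nat_lit 0) (nat_lit 2747068702) (nat_lit 76) (nat_lit 10232141808) (nat_lit 152) (nat_lit 162654802037) (nat_lit 10) (nat_lit 5) (nat_lit 11) (nat_lit 5) (nat_lit 12) (nat_lit 4) (nat_lit 510) (nat_lit 407) (nat_lit 283))))) (XT.nd (nat_lit 234) (nat_lit 76) (nat_lit 0) (XT.nd (nat_lit 78) (nat_lit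 0) (nat_lit 0) (XT.lf (nat_lit 0) (nat_lit 36661904181) (nat_lit 152) (nat_lit 132609357834) (nat_lit 0) (nat_lit 13935239185) (nat_lit 10) (nat_lit 5) (nat_lit 12) (nat_lit 4) (nat_lit 10) (nat_lit 4) (nat_lit 511) (nat_lit 407) (nat_lit 282)) (XT.nd (nat_lit 78) (nat_lit 0) (nat_lit 0) (XT.lf (nat_lit 0) (nat_lit 61691161219) (nat_lit 152) (nat_lit 90496271272) (nat_lit 0) (nat_lit 38962060487) (nat_lit 10) (nat_lit 5) (nat_lit 12) (nat_lit 4) (nat_lit 10) (nat_lit 4) (nat_lit 512) (nat_lit 407) (nat_lit 281)) (XT.lf (nat_lit 0) (nat_lit 87966822685) (nat_lit 152) (nat_lit 46287662499) (nat_lit 0) (nat_lit 65235402203) (nat_lit 10) (nat_lit 5) (nat_lit 12) (nat_lit 4) (nat_lit 10) (nat_lit 4) (nat_lit 513) (nat_lit 407) (nat_lit 280)))) (XT.nd (nat_lit 156) (nat_lit 0) (nat_lit 0) (XT.nd (nat_lit 78) (nat_lit 0) (nat_lit 0) (XT.lf (nat_lit 0) (nat_lit 125751925) (nat_lit 76) (nat_lit 115427661092)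 (nat_lit 76) (nat_lit 92694031325) (nat_lit 9) (nat_lit 4) (nat_lit 10) (nat_lit 5) (nat_lit 10) (nat_lit 4) (nat_lit 514) (nat_lit 407) (nat_lit 279)) (XT.lf (nat_lit 0) (nat_lit 50457346197) (nat_lit 76) (nat_lit 94841154263) (nat_lit 76) (nat_lit 72105420414) (nat_lit 9) (nat_lit 4) (nat_lit 10) (nat_lit 5) (nat_lit 10) (nat_lit 4) (nat_lit 515) (nat_lit 407) (nat_lit 278))) (XT.nd (nat_lit 78) (nat_lit 0) (nat_lit 0) (XT.lf (nat_lit 0) (nat_lit 103296478283) (nat_lit 76) (nat_lit 73229853166) (nat_lit 76) (nat_lit 50492115430) (nat_lit 9) (nat_lit 4) (nat_lit 10) (nat_lit 5) (nat_lit 10) (nat_lit 4) (nat_lit 516) (nat_lit 407) (nat_lit 277)) (XT.lf (nat_lit 0) (nat_lit 158768955640) (nat_lit 76) (nat_lit 50542302322) (nat_lit 76) (nat_lit 27802656122) (nat_lit 9) (nat_lit 4) (nat_lit 10) (nat_lit 5) (nat_lit 10) (nat_lit 4) (nat_lit 517) (nat_lit 407) (nat_lit 276))))))))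
noncomputable def xc113 : XT := (XT.nd (nat_lit 53976) (nat_lit 0) (nat_lit 6004) (XT.nd (nat_lit 1092) (nat_lit 152) (nat_lit 0) (XT.nd (nat_lit 546) (nat_lit 152) (nat_lit 0) (XT.nd (nat_lit 234) (nat_lit 0) (nat_lit 0) (XT.nd (nat_lit 78) (nat_lit 152) (nat_lit 0) (XT.lf (nat_lit 0) (nat_lit 217006855595) (nat_lit 76) (nat_lit 26724483753) (nat_lit 76) (nat_lit 3983019969) (nat_lit 9) (nat_lit 4) (nat_lit 10) (nat_lit 5) (nat_lit 10) (nat_lit 4) (nat_lit 518) (nat_lit 407) (nat_lit 275)) (XT.nd (nat_lit 78) (nat_lit 0) (nat_lit 0) (XT.lf (nat_lit 0) (nat_lit 19603000671) (nat_lit 76) (nat_lit 1053680054) (nat_lit 152) (nat_lit 238156626325) (nat_lit 7) (nat_lit 5) (nat_lit 8) (nat_lit 5) (nat_lit 9) (nat_lit 4) (nat_lit 519) (nat_lit 407) (nat_lit 274)) (XT.lf (nat_lit 0) (nat_lit 47323509422) (nat_lit 152) (nat_lit 197432224348) (nat_lit 0) (nat_lit 25661753784) (nat_lit 7) (nat_lit 5)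 (nat_lit 9) (nat_lit 4) (nat_lit 7) (nat_lit 4) (nat_lit 520) (nat_lit 407) (nat_lit 273)))) (XT.nd (nat_lit 156) (nat_lit 0) (nat_lit 0) (XT.nd (nat_lit 78) (nat_lit 0) (nat_lit 0) (XT.lf (nat_lit 0) (nat_lit 75337186159) (nat_lit 152) (nat_lit 153590080482) (nat_lit 0) (nat_lit 53673935190) (nat_lit 7) (nat_lit 5) (nat_lit 9) (nat_lit 4) (nat_lit 7) (nat_lit 4) (nat_lit 521) (nat_lit 407) (nat_lit 272)) (XT.lf (nat_lit 0) (nat_lit 104747959269) (nat_lit 152) (nat_lit 107563037825) (nat_lit 0) (nat_lit 83083284175) (nat_lit 7) (nat_lit 5) (nat_lit 9) (nat_lit 4) (nat_lit 7) (nat_lit 4) (nat_lit 522) (nat_lit 407) (nat_lit 271))) (XT.nd (nat_lit 78) (nat_lit 0) (nat_lit 0) (XT.lf (nat_lit 0) (nat_lit 135625854402) (nat_lit 152) (nat_lit 59241508181) (nat_lit 0) (nat_lit 113959822999) (nat_lit 7) (nat_lit 5) (nat_lit 9) (nat_lit 4) (nat_lit 7) (nat_lit 4) (nat_lit 523) (nat_lit 407) (nat_lit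 270)) (XT.lf (nat_lit 0) (nat_lit 168044390355) (nat_lit 152) (nat_lit 8510440288) (nat_lit 0) (nat_lit 146377067229) (nat_lit 7) (nat_lit 5) (nat_lit 9) (nat_lit 4) (nat_lit 7) (nat_lit 4) (nat_lit 524) (nat_lit 407) (nat_lit 269))))) (XT.nd (nat_lit 234) (nat_lit 76) (nat_lit 0) (XT.nd (nat_lit 78) (nat_lit 0) (nat_lit 0) (XT.lf (nat_lit 0) (nat_lit 46230622753) (nat_lit 76) (nat_lit 156571920949) (nat_lit 76) (nat_lit 134903367610) (nat_lit 6) (nat_lit 4) (nat_lit 7) (nat_lit 5) (nat_lit 7) (nat_lit 4) (nat_lit 525) (nat_lit 407) (nat_lit 268)) (XT.nd (nat_lit 78) (nat_lit 0) (nat_lit 0) (XT.lf (nat_lit 0) (nat_lit 103998075761) (nat_lit 76) (nat_lit 135441610314) (nat_lit 76) (nat_lit 113771885343) (nat_lit 6) (nat_lit 4) (nat_lit 7) (nat_lit 5) (nat_lit 7) (nat_lit 4) (nat_lit 526) (nat_lit 407) (nat_lit 267)) (XT.lf (nat_lit 0) (nat_lit 164648066700) (nat_lit 76) (nat_lit 113257716897)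 (nat_lit 76) (nat_lit 91586876088) (nat_lit 6) (nat_lit 4) (nat_lit 7) (nat_lit 5) (nat_lit 7) (nat_lit 4) (nat_lit 527) (nat_lit 407) (nat_lit 266)))) (XT.nd (nat_lit 156) (nat_lit 76) (nat_lit 0) (XT.nd (nat_lit 78) (nat_lit 0) (nat_lit 0) (XT.lf (nat_lit 0) (nat_lit 228325000309) (nat_lit 76) (nat_lit 89967421907) (nat_lit 76) (nat_lit 68295518394) (nat_lit 6) (nat_lit 4) (nat_lit 7) (nat_lit 5) (nat_lit 7) (nat_lit 4) (nat_lit 528) (nat_lit 407) (nat_lit 265)) (XT.lf (nat_lit 0) (nat_lit 295180488337) (nat_lit 76) (nat_lit 65515272259) (nat_lit 76) (nat_lit 43842356646) (nat_lit 6) (nat_lit 4) (nat_lit 7) (nat_lit 5) (nat_lit 7) (nat_lit 4) (nat_lit 529) (nat_lit 407) (nat_lit 264))) (XT.nd (nat_lit 78) (nat_lit 76) (nat_lit 0) (XT.lf (nat_lit 0) (nat_lit 365373710515) (nat_lit 76) (nat_lit 39843048549) (nat_lit 76) (nat_lit 18169169033) (nat_lit 6) (nat_lit 4) (nat_lit 7) (nat_lit 5) (nat_lit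 7) (nat_lit 4) (nat_lit 530) (nat_lit 407) (nat_lit 263)) (XT.lf (nat_lit 0) (nat_lit 8503990744) (nat_lit 152) (nat_lit 4241616493) (nat_lit 76) (nat_lit 430423783622) (nat_lit 5) (nat_lit 5) (nat_lit 7) (nat_lit 5) (nat_lit 6) (nat_lit 4) (nat_lit 531) (nat_lit 407) (nat_lit 262)))))) (XT.nd (nat_lit 546) (nat_lit 76) (nat_lit 0) (XT.nd (nat_lit 234) (nat_lit 0) (nat_lit 0) (XT.nd (nat_lit 78) (nat_lit 0) (nat_lit 0) (XT.lf (nat_lit 0) (nat_lit 36999032047) (nat_lit 152) (nat_lit 410517625570) (nat_lit 0) (nat_lit 16355535086) (nat_lit 4) (nat_lit 5) (nat_lit 6) (nat_lit 4) (nat_lit 4) (nat_lit 4) (nat_lit 532) (nat_lit 407) (nat_lit 261)) (XT.nd (nat_lit 78) (nat_lit 0) (nat_lit 0) (XT.lf (nat_lit 0) (nat_lit 67198472872) (nat_lit 152) (nat_lit 371843496530) (nat_lit 0) (nat_lit 46554182905) (nat_lit 4) (nat_lit 5) (nat_lit 6) (nat_lit 4) (nat_lit 4) (nat_lit 4) (nat_lit 533) (nat_lit 407)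 (nat_lit 260)) (XT.lf (nat_lit 0) (nat_lit 98905687305) (nat_lit 152) (nat_lit 331240090454) (nat_lit 0) (nat_lit 78260642094) (nat_lit 4) (nat_lit 5) (nat_lit 6) (nat_lit 4) (nat_lit 4) (nat_lit 4) (nat_lit 534) (nat_lit 407) (nat_lit 259)))) (XT.nd (nat_lit 156) (nat_lit 0) (nat_lit 0) (XT.nd (nat_lit 78) (nat_lit 0) (nat_lit 0) (XT.lf (nat_lit 0) (nat_lit 132196168713) (nat_lit 152) (nat_lit 288610732565) (nat_lit 0) (nat_lit 111550404222) (nat_lit 4) (nat_lit 5) (nat_lit 6) (nat_lit 4) (nat_lit 4) (nat_lit 4) (nat_lit 535) (nat_lit 407) (nat_lit 258)) (XT.lf (nat_lit 0) (nat_lit 167149180147) (nat_lit 152) (nat_lit 243853924393) (nat_lit 0) (nat_lit 146502730628) (nat_lit 4) (nat_lit 5) (nat_lit 6) (nat_lit 4) (nat_lit 4) (nat_lit 4) (nat_lit 536) (nat_lit 407) (nat_lit 257))) (XT.nd (nat_lit 78) (nat_lit 0) (nat_lit 0) (XT.lf (nat_lit 0) (nat_lit 203847943064) (nat_lit 152) (nat_lit 196863102108)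 (nat_lit 0) (nat_lit 183200841136) (nat_lit 4) (nat_lit 5) (nat_lit 6) (nat_lit 4) (nat_lit 4) (nat_lit 4) (nat_lit 537) (nat_lit 407) (nat_lit 256)) (XT.lf (nat_lit 0) (nat_lit 242379835469) (nat_lit 152) (nat_lit 147526382800) (nat_lit 0) (nat_lit 221732112200) (nat_lit 4) (nat_lit 5) (nat_lit 6) (nat_lit 4) (nat_lit 4) (nat_lit 4) (nat_lit 538) (nat_lit 407) (nat_lit 255))))) (XT.nd (nat_lit 234) (nat_lit 0) (nat_lit 0) (XT.nd (nat_lit 78) (nat_lit 76) (nat_lit 0) (XT.lf (nat_lit 0) (nat_lit 282836599964) (nat_lit 152) (nat_lit 95726298091) (nat_lit 0) (nat_lit 262188284942) (nat_lit 4) (nat_lit 5) (nat_lit 6) (nat_lit 4) (nat_lit 4) (nat_lit 4) (nat_lit 539) (nat_lit 407) (nat_lit 254)) (XT.nd (nat_lit 78) (nat_lit 76) (nat_lit 0) (XT.lf (nat_lit 0) (nat_lit 325314562179) (nat_lit 152) (nat_lit 41339514444) (nat_lit 0) (nat_lit 304665683582) (nat_lit 4) (nat_lit 5) (nat_lit 6) (nat_lit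 4) (nat_lit 4) (nat_lit 4) (nat_lit 540) (nat_lit 407) (nat_lit 253)) (XT.lf (nat_lit 0) (nat_lit 16284671674) (nat_lit 76) (nat_lit 353884437806) (nat_lit 76) (nat_lit 333235022472) (nat_lit 3) (nat_lit 4) (nat_lit 4) (nat_lit 5) (nat_lit 4) (nat_lit 4) (nat_lit 541) (nat_lit 407) (nat_lit 252)))) (XT.nd (nat_lit 156) (nat_lit 0) (nat_lit 0) (XT.nd (nat_lit 78) (nat_lit 0) (nat_lit 0) (XT.lf (nat_lit 0) (nat_lit 78222184563) (nat_lit 76) (nat_lit 339742767924) (nat_lit 76) (nat_lit 319092841411) (nat_lit 3) (nat_lit 4) (nat_lit 4) (nat_lit 5) (nat_lit 4) (nat_lit 4) (nat_lit 542) (nat_lit 407) (nat_lit 251)) (XT.lf (nat_lit 0) (nat_lit 143253623448) (nat_lit 76) (nat_lit 324895501013) (nat_lit 76) (nat_lit 304245087663) (nat_lit 3) (nat_lit 4) (nat_lit 4) (nat_lit 5) (nat_lit 4) (nat_lit 4) (nat_lit 543) (nat_lit 407) (nat_lit 250))) (XT.nd (nat_lit 51870) (nat_lit 0) (nat_lit 12008) (XT.lf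 (nat_lit 0) (nat_lit 211533825088) (nat_lit 76) (nat_lit 309307286438) (nat_lit 76) (nat_lit 288656409434) (nat_lit 3) (nat_lit 4) (nat_lit 4) (nat_lit 5) (nat_lit 4) (nat_lit 4) (nat_lit 544) (nat_lit 407) (nat_lit 249)) (XT.lf (nat_lit 0) (nat_lit 2500599401) (nat_lit 532) (nat_lit 545239040) (nat_lit 532) (nat_lit 545239040) (nat_lit 161) (nat_lit 3) (nat_lit 168) (nat_lit 3) (nat_lit 168) (nat_lit 5) (nat_lit 408) (nat_lit 408) (nat_lit 384))))))) (XT.nd (nat_lit 1092) (nat_lit 2964) (nat_lit 0) (XT.nd (nat_lit 546) (nat_lit 1976) (nat_lit 0) (XT.nd (nat_lit 234) (nat_lit 532) (nat_lit 0) (XT.nd (nat_lit 78) (nat_lit 532) (nat_lit 0) (XT.lf (nat_lit 76) (nat_lit 2520677044) (nat_lit 0) (nat_lit 4252422579) (nat_lit 532) (nat_lit 505426027) (nat_lit 162) (nat_lit 5) (nat_lit 161) (nat_lit 3) (nat_lit 168) (nat_lit 5) (nat_lit 409) (nat_lit 408) (nat_lit 383)) (XT.nd (nat_lit 78) (nat_lit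 0) (nat_lit 0) (XT.lf (nat_lit 0) (nat_lit 1126993029) (nat_lit 532) (nat_lit 1107799406) (nat_lit 608) (nat_lit 5148332572) (nat_lit 154) (nat_lit 5) (nat_lit 161) (nat_lit 3) (nat_lit 162) (nat_lit 5) (nat_lit 410) (nat_lit 408) (nat_lit 382)) (XT.lf (nat_lit 76) (nat_lit 2747865488) (nat_lit 0) (nat_lit 18582756) (nat_lit 608) (nat_lit 4729020513) (nat_lit 155) (nat_lit 5) (nat_lit 154) (nat_lit 5) (nat_lit 162) (nat_lit 5) (nat_lit 411) (nat_lit 408) (nat_lit 381)))) (XT.nd (nat_lit 156) (nat_lit 608) (nat_lit 0) (XT.nd (nat_lit 78) (nat_lit 0) (nat_lit 0) (XT.lf (nat_lit 0) (nat_lit 4447041413) (nat_lit 532) (nat_lit 875219218) (nat_lit 608) (nat_lit 2293257233) (nat_lit 155) (nat_lit 5) (nat_lit 162) (nat_lit 5) (nat_lit 163) (nat_lit 5) (nat_lit 412) (nat_lit 408) (nat_lit 380)) (XT.lf (nat_lit 76) (nat_lit 3235804629) (nat_lit 0) (nat_lit 2935308357) (nat_lit 608) (nat_lit 1572528223)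 (nat_lit 156) (nat_lit 5) (nat_lit 155) (nat_lit 5) (nat_lit 163) (nat_lit 5) (nat_lit 413) (nat_lit 408) (nat_lit 379))) (XT.nd (nat_lit 78) (nat_lit 0) (nat_lit 76) (XT.lf (nat_lit 0) (nat_lit 25577726) (nat_lit 608) (nat_lit 356816285) (nat_lit 684) (nat_lit 7499453046) (nat_lit 147) (nat_lit 5) (nat_lit 155) (nat_lit 5) (nat_lit 156) (nat_lit 5) (nat_lit 414) (nat_lit 408) (nat_lit 378)) (XT.lf (nat_lit 0) (nat_lit 1666572281) (nat_lit 608) (nat_lit 4016467153) (nat_lit 684) (nat_lit 2341881475) (nat_lit 148) (nat_lit 5) (nat_lit 156) (nat_lit 5) (nat_lit 157) (nat_lit 5) (nat_lit 415) (nat_lit 408) (nat_lit 377))))) (XT.nd (nat_lit 234) (nat_lit 1520) (nat_lit 0) (XT.nd (nat_lit 78) (nat_lit 532) (nat_lit 0) (XT.lf (nat_lit 76) (nat_lit 374102032) (nat_lit 0) (nat_lit 2952191904) (nat_lit 684) (nat_lit 4852057029) (nat_lit 149) (nat_lit 5) (nat_lit 148) (nat_lit 5) (nat_lit 157) (nat_lit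 5) (nat_lit 416) (nat_lit 408) (nat_lit 376)) (XT.nd (nat_lit 78) (nat_lit 608) (nat_lit 0) (XT.lf (nat_lit 0) (nat_lit 5058476532) (nat_lit 608) (nat_lit 3276504503) (nat_lit 76) (nat_lit 5032390) (nat_lit 149) (nat_lit 5) (nat_lit 157) (nat_lit 5) (nat_lit 150) (nat_lit 5) (nat_lit 417) (nat_lit 408) (nat_lit 375)) (XT.lf (nat_lit 0) (nat_lit 1413220269) (nat_lit 608) (nat_lit 5459902187) (nat_lit 684) (nat_lit 1636876840) (nat_lit 141) (nat_lit 5) (nat_lit 149) (nat_lit 5) (nat_lit 150) (nat_lit 5) (nat_lit 418) (nat_lit 408) (nat_lit 374)))) (XT.nd (nat_lit 156) (nat_lit 760) (nat_lit 0) (XT.nd (nat_lit 78) (nat_lit 684) (nat_lit 0) (XT.lf (nat_lit 0) (nat_lit 70328564) (nat_lit 684) (nat_lit 2299545762) (nat_lit 76) (nat_lit 6319410120) (nat_lit 140) (nat_lit 5) (nat_lit 149) (nat_lit 5) (nat_lit 141) (nat_lit 5) (nat_lit 419) (nat_lit 408) (nat_lit 373)) (XT.lf (nat_lit 0) (nat_lit 1795875805)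 (nat_lit 760) (nat_lit 6153871381) (nat_lit 76) (nat_lit 927073902) (nat_lit 131) (nat_lit 5) (nat_lit 141) (nat_lit 5) (nat_lit 132) (nat_lit 5) (nat_lit 420) (nat_lit 408) (nat_lit 372))) (XT.nd (nat_lit 78) (nat_lit 760) (nat_lit 0) (XT.lf (nat_lit 0) (nat_lit 3618950003) (nat_lit 760) (nat_lit 1097153518) (nat_lit 76) (nat_lit 4357095708) (nat_lit 131) (nat_lit 5) (nat_lit 141) (nat_lit 5) (nat_lit 132) (nat_lit 5) (nat_lit 421) (nat_lit 408) (nat_lit 371)) (XT.lf (nat_lit 0) (nat_lit 4290403451) (nat_lit 760) (nat_lit 1245775728) (nat_lit 836) (nat_lit 3743092888) (nat_lit 121) (nat_lit 5) (nat_lit 131) (nat_lit 5) (nat_lit 132) (nat_lit 5) (nat_lit 422) (nat_lit 408) (nat_lit 370)))))) (XT.nd (nat_lit 546) (nat_lit 1368) (nat_lit 0) (XT.nd (nat_lit 234) (nat_lit 760) (nat_lit 0) (XT.nd (nat_lit 78) (nat_lit 456) (nat_lit 0) (XT.lf (nat_lit 0) (nat_lit 404375551) (nat_lit 380) (nat_lit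 7145739904) (nat_lit 456) (nat_lit 1945515431) (nat_lit 116) (nat_lit 5) (nat_lit 121) (nat_lit 5) (nat_lit 122) (nat_lit 5) (nat_lit 423) (nat_lit 408) (nat_lit 369)) (XT.nd (nat_lit 78) (nat_lit 456) (nat_lit 0) (XT.lf (nat_lit 0) (nat_lit 6158847532) (nat_lit 380) (nat_lit 3550686664) (nat_lit 456) (nat_lit 11057619) (nat_lit 116) (nat_lit 5) (nat_lit 121) (nat_lit 5) (nat_lit 122) (nat_lit 5) (nat_lit 424) (nat_lit 408) (nat_lit 368)) (XT.lf (nat_lit 0) (nat_lit 1936849077) (nat_lit 456) (nat_lit 7736660806) (nat_lit 76) (nat_lit 282666060) (nat_lit 110) (nat_lit 5) (nat_lit 116) (nat_lit 5) (nat_lit 111) (nat_lit 5) (nat_lit 425) (nat_lit 408) (nat_lit 367)))) (XT.nd (nat_lit 156) (nat_lit 380) (nat_lit 0) (XT.nd (nat_lit 78) (nat_lit 380) (nat_lit 0) (XT.lf (nat_lit 0) (nat_lit 4045193871) (nat_lit 456) (nat_lit 1907822120) (nat_lit 76) (nat_lit 4247363762) (nat_lit 110) (nat_lit 5) (nat_lit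 116) (nat_lit 5) (nat_lit 111) (nat_lit 5) (nat_lit 426) (nat_lit 408) (nat_lit 366)) (XT.lf (nat_lit 0) (nat_lit 4291317967) (nat_lit 380) (nat_lit 1981206655) (nat_lit 456) (nat_lit 4183609988) (nat_lit 105) (nat_lit 5) (nat_lit 110) (nat_lit 5) (nat_lit 111) (nat_lit 5) (nat_lit 427) (nat_lit 408) (nat_lit 365))) (XT.nd (nat_lit 78) (nat_lit 76) (nat_lit 0) (XT.lf (nat_lit 0) (nat_lit 50429777) (nat_lit 304) (nat_lit 8576723620) (nat_lit 380) (nat_lit 2096745611) (nat_lit 101) (nat_lit 5) (nat_lit 105) (nat_lit 5) (nat_lit 106) (nat_lit 5) (nat_lit 428) (nat_lit 408) (nat_lit 364)) (XT.lf (nat_lit 0) (nat_lit 178863857) (nat_lit 380) (nat_lit 4305833125) (nat_lit 76) (nat_lit 6515926307) (nat_lit 100) (nat_lit 5) (nat_lit 105) (nat_lit 5) (nat_lit 101) (nat_lit 5) (nat_lit 429) (nat_lit 408) (nat_lit 363))))) (XT.nd (nat_lit 312) (nat_lit 532) (nat_lit 0) (XT.nd (nat_lit 156) (nat_lit 532)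 (nat_lit 0) (XT.nd (nat_lit 78) (nat_lit 0) (nat_lit 0) (XT.lf (nat_lit 0) (nat_lit 2363552166) (nat_lit 304) (nat_lit 122406289) (nat_lit 380) (nat_lit 8804114105) (nat_lit 96) (nat_lit 5) (nat_lit 100) (nat_lit 5) (nat_lit 101) (nat_lit 5) (nat_lit 430) (nat_lit 408) (nat_lit 362)) (XT.lf (nat_lit 0) (nat_lit 5004673880) (nat_lit 380) (nat_lit 2204453334) (nat_lit 76) (nat_lit 4380068890) (nat_lit 96) (nat_lit 5) (nat_lit 101) (nat_lit 5) (nat_lit 97) (nat_lit 5) (nat_lit 431) (nat_lit 408) (nat_lit 361))) (XT.nd (nat_lit 78) (nat_lit 304) (nat_lit 0) (XT.lf (nat_lit 0) (nat_lit 4953881421) (nat_lit 228) (nat_lit 2729601373) (nat_lit 304) (nat_lit 4218099542) (nat_lit 93) (nat_lit 5) (nat_lit 96) (nat_lit 5) (nat_lit 97) (nat_lit 5) (nat_lit 432) (nat_lit 408) (nat_lit 360)) (XT.lf (nat_lit 0) (nat_lit 237617267) (nat_lit 304) (nat_lit 10287000800) (nat_lit 380) (nat_lit 1703564228) (nat_lit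 89) (nat_lit 5) (nat_lit 93) (nat_lit 5) (nat_lit 94) (nat_lit 5) (nat_lit 433) (nat_lit 408) (nat_lit 359)))) (XT.nd (nat_lit 156) (nat_lit 228) (nat_lit 0) (XT.nd (nat_lit 78) (nat_lit 228) (nat_lit 0) (XT.lf (nat_lit 0) (nat_lit 1027469868) (nat_lit 380) (nat_lit 4661149529) (nat_lit 76) (nat_lit 6875736458) (nat_lit 88) (nat_lit 5) (nat_lit 93) (nat_lit 5) (nat_lit 89) (nat_lit 5) (nat_lit 434) (nat_lit 408) (nat_lit 358)) (XT.lf (nat_lit 0) (nat_lit 3049134801) (nat_lit 228) (nat_lit 794764110) (nat_lit 304) (nat_lit 9071749952) (nat_lit 85) (nat_lit 5) (nat_lit 88) (nat_lit 5) (nat_lit 89) (nat_lit 5) (nat_lit 435) (nat_lit 408) (nat_lit 357))) (XT.nd (nat_lit 78) (nat_lit 228) (nat_lit 0) (XT.lf (nat_lit 0) (nat_lit 6908598932) (nat_lit 304) (nat_lit 2099101017) (nat_lit 76) (nat_lit 4271445377) (nat_lit 85) (nat_lit 5) (nat_lit 89) (nat_lit 5) (nat_lit 86) (nat_lit 5) (nat_lit 436)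 (nat_lit 408) (nat_lit 356)) (XT.lf (nat_lit 0) (nat_lit 6188203835) (nat_lit 228) (nat_lit 4009305654) (nat_lit 304) (nat_lit 3459769088) (nat_lit 82) (nat_lit 5) (nat_lit 85) (nat_lit 5) (nat_lit 86) (nat_lit 5) (nat_lit 437) (nat_lit 408) (nat_lit 355))))))))
noncomputable def xc114 : XT := (XT.nd (nat_lit 2184) (nat_lit 1672) (nat_lit 0) (XT.nd (nat_lit 1092) (nat_lit 1368) (nat_lit 0) (XT.nd (nat_lit 546) (nat_lit 760) (nat_lit 0) (XT.nd (nat_lit 234) (nat_lit 456) (nat_lit 0) (XT.nd (nat_lit 78) (nat_lit 304) (nat_lit 0) (XT.lf (nat_lit 0) (nat_lit 863616368) (nat_lit 228) (nat_lit 12818325756) (nat_lit 304) (nat_lit 370832772) (nat_lit 79) (nat_lit 5) (nat_lit 82) (nat_lit 5) (nat_lit 83) (nat_lit 5) (nat_lit 438) (nat_lit 408) (nat_lit 354)) (XT.nd (nat_lit 78) (nat_lit 228) (nat_lit 0) (XT.lf (nat_lit 0) (nat_lit 2937374983) (nat_lit 304) (nat_lit 4756799246) (nat_lit 76) (nat_lit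 6763800443) (nat_lit 78) (nat_lit 5) (nat_lit 82) (nat_lit 5) (nat_lit 79) (nat_lit 5) (nat_lit 439) (nat_lit 408) (nat_lit 353)) (XT.lf (nat_lit 0) (nat_lit 4172570172) (nat_lit 228) (nat_lit 2255364925) (nat_lit 304) (nat_lit 8453733998) (nat_lit 75) (nat_lit 5) (nat_lit 78) (nat_lit 5) (nat_lit 79) (nat_lit 5) (nat_lit 440) (nat_lit 408) (nat_lit 352)))) (XT.nd (nat_lit 156) (nat_lit 304) (nat_lit 0) (XT.nd (nat_lit 78) (nat_lit 152) (nat_lit 0) (XT.lf (nat_lit 0) (nat_lit 10193755649) (nat_lit 304) (nat_lit 1716967103) (nat_lit 76) (nat_lit 3410797284) (nat_lit 75) (nat_lit 5) (nat_lit 79) (nat_lit 5) (nat_lit 76) (nat_lit 5) (nat_lit 441) (nat_lit 408) (nat_lit 351)) (XT.lf (nat_lit 0) (nat_lit 7890110630) (nat_lit 152) (nat_lit 6384492589) (nat_lit 228) (nat_lit 1502431520) (nat_lit 73) (nat_lit 5) (nat_lit 75) (nat_lit 5) (nat_lit 76) (nat_lit 5) (nat_lit 442) (nat_lit 408) (nat_lit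 350))) (XT.nd (nat_lit 78) (nat_lit 0) (nat_lit 0) (XT.lf (nat_lit 0) (nat_lit 1752403313) (nat_lit 228) (nat_lit 501785549) (nat_lit 304) (nat_lit 13998156430) (nat_lit 69) (nat_lit 5) (nat_lit 72) (nat_lit 5) (nat_lit 73) (nat_lit 5) (nat_lit 443) (nat_lit 408) (nat_lit 349)) (XT.lf (nat_lit 0) (nat_lit 6339896605) (nat_lit 304) (nat_lit 4763704735) (nat_lit 76) (nat_lit 5637008061) (nat_lit 69) (nat_lit 5) (nat_lit 73) (nat_lit 5) (nat_lit 70) (nat_lit 5) (nat_lit 444) (nat_lit 408) (nat_lit 348))))) (XT.nd (nat_lit 234) (nat_lit 380) (nat_lit 0) (XT.nd (nat_lit 78) (nat_lit 228) (nat_lit 0) (XT.lf (nat_lit 0) (nat_lit 5581128496) (nat_lit 152) (nat_lit 5113063163) (nat_lit 228) (nat_lit 6555886555) (nat_lit 67) (nat_lit 5) (nat_lit 69) (nat_lit 5) (nat_lit 70) (nat_lit 5) (nat_lit 445) (nat_lit 408) (nat_lit 347)) (XT.nd (nat_lit 78) (nat_lit 228) (nat_lit 0) (XT.lf (nat_lit 0) (nat_lit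 15335973729) (nat_lit 228) (nat_lit 1241183097) (nat_lit 76) (nat_lit 1204381310) (nat_lit 67) (nat_lit 5) (nat_lit 70) (nat_lit 5) (nat_lit 68) (nat_lit 5) (nat_lit 446) (nat_lit 408) (nat_lit 346)) (XT.lf (nat_lit 0) (nat_lit 2022986259) (nat_lit 228) (nat_lit 8467673613) (nat_lit 76) (nat_lit 7836828225) (nat_lit 64) (nat_lit 5) (nat_lit 67) (nat_lit 5) (nat_lit 65) (nat_lit 5) (nat_lit 447) (nat_lit 408) (nat_lit 345)))) (XT.nd (nat_lit 156) (nat_lit 228) (nat_lit 0) (XT.nd (nat_lit 78) (nat_lit 0) (nat_lit 0) (XT.lf (nat_lit 0) (nat_lit 2656913329) (nat_lit 152) (nat_lit 4009763068) (nat_lit 228) (nat_lit 12230365078) (nat_lit 62) (nat_lit 5) (nat_lit 64) (nat_lit 5) (nat_lit 65) (nat_lit 5) (nat_lit 448) (nat_lit 408) (nat_lit 344)) (XT.lf (nat_lit 0) (nat_lit 11703376628) (nat_lit 228) (nat_lit 4949525491) (nat_lit 76) (nat_lit 2834134290) (nat_lit 62) (nat_lit 5) (nat_lit 65) (nat_lit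 5) (nat_lit 63) (nat_lit 5) (nat_lit 449) (nat_lit 408) (nat_lit 343))) (XT.nd (nat_lit 78) (nat_lit 76) (nat_lit 0) (XT.lf (nat_lit 0) (nat_lit 7019454284) (nat_lit 152) (nat_lit 10120575217) (nat_lit 228) (nat_lit 2959100630) (nat_lit 60) (nat_lit 5) (nat_lit 62) (nat_lit 5) (nat_lit 63) (nat_lit 5) (nat_lit 450) (nat_lit 408) (nat_lit 342)) (XT.lf (nat_lit 0) (nat_lit 2097408987) (nat_lit 228) (nat_lit 1058440575) (nat_lit 76) (nat_lit 17581431394) (nat_lit 59) (nat_lit 5) (nat_lit 62) (nat_lit 5) (nat_lit 60) (nat_lit 5) (nat_lit 451) (nat_lit 408) (nat_lit 341)))))) (XT.nd (nat_lit 546) (nat_lit 608) (nat_lit 0) (XT.nd (nat_lit 234) (nat_lit 456) (nat_lit 0) (XT.nd (nat_lit 78) (nat_lit 152) (nat_lit 0) (XT.lf (nat_lit 0) (nat_lit 7535037970) (nat_lit 228) (nat_lit 9613847468) (nat_lit 76) (nat_lit 4244645690) (nat_lit 57) (nat_lit 5) (nat_lit 60) (nat_lit 5) (nat_lit 58) (nat_lit 5) (nat_lit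 452) (nat_lit 408) (nat_lit 340)) (XT.nd (nat_lit 78) (nat_lit 0) (nat_lit 0) (XT.lf (nat_lit 0) (nat_lit 3222471446) (nat_lit 152) (nat_lit 10116879710) (nat_lit 228) (nat_lit 8738506564) (nat_lit 55) (nat_lit 5) (nat_lit 57) (nat_lit 5) (nat_lit 58) (nat_lit 5) (nat_lit 453) (nat_lit 408) (nat_lit 339)) (XT.lf (nat_lit 0) (nat_lit 16991675517) (nat_lit 152) (nat_lit 2580102134) (nat_lit 228) (nat_lit 3217731964) (nat_lit 55) (nat_lit 5) (nat_lit 57) (nat_lit 5) (nat_lit 58) (nat_lit 5) (nat_lit 454) (nat_lit 408) (nat_lit 338)))) (XT.nd (nat_lit 156) (nat_lit 228) (nat_lit 0) (XT.nd (nat_lit 78) (nat_lit 0) (nat_lit 0) (XT.lf (nat_lit 0) (nat_lit 2684446246) (nat_lit 228) (nat_lit 15525573190) (nat_lit 76) (nat_lit 5315319251) (nat_lit 52) (nat_lit 5) (nat_lit 55) (nat_lit 5) (nat_lit 53) (nat_lit 5) (nat_lit 455) (nat_lit 408) (nat_lit 337)) (XT.lf (nat_lit 0) (nat_lit 8891811826) (nat_lit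 228) (nat_lit 1742889360) (nat_lit 76) (nat_lit 13654713107) (nat_lit 52) (nat_lit 5) (nat_lit 55) (nat_lit 5) (nat_lit 53) (nat_lit 5) (nat_lit 456) (nat_lit 408) (nat_lit 336))) (XT.nd (nat_lit 78) (nat_lit 76) (nat_lit 0) (XT.lf (nat_lit 0) (nat_lit 13108761106) (nat_lit 152) (nat_lit 2482706039) (nat_lit 228) (nat_lit 9491133631) (nat_lit 50) (nat_lit 5) (nat_lit 52) (nat_lit 5) (nat_lit 53) (nat_lit 5) (nat_lit 457) (nat_lit 408) (nat_lit 335)) (XT.lf (nat_lit 0) (nat_lit 2803973107) (nat_lit 76) (nat_lit 19968254915) (nat_lit 152) (nat_lit 3135915446) (nat_lit 49) (nat_lit 5) (nat_lit 50) (nat_lit 5) (nat_lit 51) (nat_lit 4) (nat_lit 458) (nat_lit 408) (nat_lit 334))))) (XT.nd (nat_lit 234) (nat_lit 380) (nat_lit 0) (XT.nd (nat_lit 78) (nat_lit 152) (nat_lit 0) (XT.lf (nat_lit 0) (nat_lit 3648224575) (nat_lit 152) (nat_lit 8167734167) (nat_lit 76) (nat_lit 14945027664) (nat_lit 48) (nat_lit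 5) (nat_lit 50) (nat_lit 5) (nat_lit 49) (nat_lit 5) (nat_lit 459) (nat_lit 408) (nat_lit 333)) (XT.nd (nat_lit 78) (nat_lit 0) (nat_lit 0) (XT.lf (nat_lit 0) (nat_lit 7671515279) (nat_lit 152) (nat_lit 3093073210) (nat_lit 228) (nat_lit 16884394980) (nat_lit 46) (nat_lit 5) (nat_lit 48) (nat_lit 5) (nat_lit 49) (nat_lit 5) (nat_lit 460) (nat_lit 408) (nat_lit 332)) (XT.lf (nat_lit 0) (nat_lit 18450872559) (nat_lit 228) (nat_lit 4123457733) (nat_lit 76) (nat_lit 5996347480) (nat_lit 46) (nat_lit 5) (nat_lit 49) (nat_lit 5) (nat_lit 47) (nat_lit 4) (nat_lit 461) (nat_lit 408) (nat_lit 331)))) (XT.nd (nat_lit 156) (nat_lit 76) (nat_lit 0) (XT.nd (nat_lit 78) (nat_lit 228) (nat_lit 0) (XT.lf (nat_lit 0) (nat_lit 12847251935) (nat_lit 76) (nat_lit 13905319225) (nat_lit 152) (nat_lit 2774332982) (nat_lit 45) (nat_lit 5) (nat_lit 46) (nat_lit 5) (nat_lit 47) (nat_lit 4) (nat_lit 462) (nat_lit 408)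 (nat_lit 330)) (XT.lf (nat_lit 0) (nat_lit 172925302) (nat_lit 152) (nat_lit 4660991775) (nat_lit 228) (nat_lit 25690493564) (nat_lit 42) (nat_lit 5) (nat_lit 44) (nat_lit 5) (nat_lit 45) (nat_lit 5) (nat_lit 463) (nat_lit 408) (nat_lit 329))) (XT.nd (nat_lit 78) (nat_lit 76) (nat_lit 0) (XT.lf (nat_lit 0) (nat_lit 13075256929) (nat_lit 228) (nat_lit 13276054304) (nat_lit 76) (nat_lit 5200913579) (nat_lit 42) (nat_lit 5) (nat_lit 45) (nat_lit 5) (nat_lit 43) (nat_lit 4) (nat_lit 464) (nat_lit 408) (nat_lit 328)) (XT.lf (nat_lit 0) (nat_lit 4691947905) (nat_lit 76) (nat_lit 17167360114) (nat_lit 152) (nat_lit 10765591409) (nat_lit 41) (nat_lit 5) (nat_lit 42) (nat_lit 5) (nat_lit 43) (nat_lit 4) (nat_lit 465) (nat_lit 408) (nat_lit 327))))))) (XT.nd (nat_lit 1092) (nat_lit 760) (nat_lit 0) (XT.nd (nat_lit 546) (nat_lit 380) (nat_lit 0) (XT.nd (nat_lit 234) (nat_lit 304) (nat_lit 0) (XT.nd (nat_lit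 78) (nat_lit 228) (nat_lit 0) (XT.lf (nat_lit 0) (nat_lit 23984866451) (nat_lit 76) (nat_lit 7303880358) (nat_lit 152) (nat_lit 2452153561) (nat_lit 41) (nat_lit 5) (nat_lit 42) (nat_lit 5) (nat_lit 43) (nat_lit 4) (nat_lit 466) (nat_lit 408) (nat_lit 326)) (XT.nd (nat_lit 78) (nat_lit 0) (nat_lit 0) (XT.lf (nat_lit 0) (nat_lit 6257821310) (nat_lit 228) (nat_lit 25450240654) (nat_lit 76) (nat_lit 3190652690) (nat_lit 38) (nat_lit 5) (nat_lit 41) (nat_lit 5) (nat_lit 39) (nat_lit 4) (nat_lit 467) (nat_lit 408) (nat_lit 325)) (XT.lf (nat_lit 0) (nat_lit 15590609385) (nat_lit 228) (nat_lit 6350359382) (nat_lit 76) (nat_lit 14157956378) (nat_lit 38) (nat_lit 5) (nat_lit 41) (nat_lit 5) (nat_lit 39) (nat_lit 4) (nat_lit 468) (nat_lit 408) (nat_lit 324)))) (XT.nd (nat_lit 156) (nat_lit 228) (nat_lit 0) (XT.nd (nat_lit 78) (nat_lit 0) (nat_lit 0) (XT.lf (nat_lit 0) (nat_lit 14124716899) (nat_lit 76)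 (nat_lit 11468756309) (nat_lit 152) (nat_lit 11755502663) (nat_lit 37) (nat_lit 5) (nat_lit 38) (nat_lit 5) (nat_lit 39) (nat_lit 4) (nat_lit 469) (nat_lit 408) (nat_lit 323)) (XT.lf (nat_lit 0) (nat_lit 35812653093) (nat_lit 76) (nat_lit 374607599) (nat_lit 152) (nat_lit 2469730870) (nat_lit 37) (nat_lit 5) (nat_lit 38) (nat_lit 5) (nat_lit 39) (nat_lit 4) (nat_lit 470) (nat_lit 408) (nat_lit 322))) (XT.nd (nat_lit 78) (nat_lit 76) (nat_lit 0) (XT.lf (nat_lit 0) (nat_lit 7510559007) (nat_lit 152) (nat_lit 21173985366) (nat_lit 76) (nat_lit 11317019392) (nat_lit 35) (nat_lit 5) (nat_lit 37) (nat_lit 5) (nat_lit 36) (nat_lit 4) (nat_lit 471) (nat_lit 408) (nat_lit 321)) (XT.lf (nat_lit 0) (nat_lit 199349242) (nat_lit 76) (nat_lit 17749585065) (nat_lit 152) (nat_lit 23460303652) (nat_lit 34) (nat_lit 5) (nat_lit 35) (nat_lit 5) (nat_lit 36) (nat_lit 4) (nat_lit 472) (nat_lit 408) (nat_lit 320)))))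 (XT.nd (nat_lit 234) (nat_lit 228) (nat_lit 0) (XT.nd (nat_lit 78) (nat_lit 152) (nat_lit 0) (XT.lf (nat_lit 0) (nat_lit 23346458369) (nat_lit 76) (nat_lit 5905518605) (nat_lit 152) (nat_lit 13618182653) (nat_lit 34) (nat_lit 5) (nat_lit 35) (nat_lit 5) (nat_lit 36) (nat_lit 4) (nat_lit 473) (nat_lit 408) (nat_lit 319)) (XT.nd (nat_lit 78) (nat_lit 76) (nat_lit 0) (XT.lf (nat_lit 0) (nat_lit 3218730373) (nat_lit 76) (nat_lit 38038358897) (nat_lit 76) (nat_lit 3140193373) (nat_lit 33) (nat_lit 4) (nat_lit 34) (nat_lit 5) (nat_lit 34) (nat_lit 4) (nat_lit 474) (nat_lit 408) (nat_lit 318)) (XT.lf (nat_lit 0) (nat_lit 8027682233) (nat_lit 152) (nat_lit 18462259912) (nat_lit 76) (nat_lit 19483803032) (nat_lit 32) (nat_lit 5) (nat_lit 34) (nat_lit 5) (nat_lit 33) (nat_lit 4) (nat_lit 475) (nat_lit 408) (nat_lit 317)))) (XT.nd (nat_lit 156) (nat_lit 152) (nat_lit 0) (XT.nd (nat_lit 78) (nat_lit 0)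 (nat_lit 0) (XT.lf (nat_lit 0) (nat_lit 5486191918) (nat_lit 76) (nat_lit 14233345083) (nat_lit 152) (nat_lit 27903365068) (nat_lit 31) (nat_lit 5) (nat_lit 32) (nat_lit 5) (nat_lit 33) (nat_lit 4) (nat_lit 476) (nat_lit 408) (nat_lit 316)) (XT.lf (nat_lit 0) (nat_lit 31245713234) (nat_lit 76) (nat_lit 1048665963) (nat_lit 152) (nat_lit 17045218811) (nat_lit 31) (nat_lit 5) (nat_lit 32) (nat_lit 5) (nat_lit 33) (nat_lit 4) (nat_lit 477) (nat_lit 408) (nat_lit 315))) (XT.nd (nat_lit 78) (nat_lit 76) (nat_lit 0) (XT.lf (nat_lit 0) (nat_lit 7153770953) (nat_lit 76) (nat_lit 38641865639) (nat_lit 76) (nat_lit 5331609390) (nat_lit 30) (nat_lit 4) (nat_lit 31) (nat_lit 5) (nat_lit 31) (nat_lit 4) (nat_lit 478) (nat_lit 408) (nat_lit 314)) (XT.lf (nat_lit 0) (nat_lit 7059554186) (nat_lit 152) (nat_lit 18854501176) (nat_lit 76) (nat_lit 27069038402) (nat_lit 29) (nat_lit 5) (nat_lit 31) (nat_lit 5)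 (nat_lit 30) (nat_lit 4) (nat_lit 479) (nat_lit 408) (nat_lit 313)))))) (XT.nd (nat_lit 546) (nat_lit 456) (nat_lit 0) (XT.nd (nat_lit 234) (nat_lit 152) (nat_lit 0) (XT.nd (nat_lit 78) (nat_lit 76) (nat_lit 0) (XT.lf (nat_lit 0) (nat_lit 7652680199) (nat_lit 76) (nat_lit 12344793362) (nat_lit 152) (nat_lit 34924572241) (nat_lit 28) (nat_lit 5) (nat_lit 29) (nat_lit 5) (nat_lit 30) (nat_lit 4) (nat_lit 480) (nat_lit 408) (nat_lit 312)) (XT.nd (nat_lit 78) (nat_lit 76) (nat_lit 0) (XT.lf (nat_lit 0) (nat_lit 33923487162) (nat_lit 152) (nat_lit 20862438901) (nat_lit 0) (nat_lit 2154960200) (nat_lit 28) (nat_lit 5) (nat_lit 30) (nat_lit 4) (nat_lit 28) (nat_lit 4) (nat_lit 481) (nat_lit 408) (nat_lit 311)) (XT.lf (nat_lit 0) (nat_lit 6857839278) (nat_lit 76) (nat_lit 41984971122) (nat_lit 76) (nat_lit 10203008597) (nat_lit 27) (nat_lit 4) (nat_lit 28) (nat_lit 5) (nat_lit 28) (nat_lit 4) (nat_lit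 482) (nat_lit 408) (nat_lit 310)))) (XT.nd (nat_lit 156) (nat_lit 0) (nat_lit 0) (XT.nd (nat_lit 78) (nat_lit 76) (nat_lit 0) (XT.lf (nat_lit 0) (nat_lit 3494707482) (nat_lit 152) (nat_lit 24630607959) (nat_lit 76) (nat_lit 33110810161) (nat_lit 26) (nat_lit 5) (nat_lit 28) (nat_lit 5) (nat_lit 27) (nat_lit 4) (nat_lit 483) (nat_lit 408) (nat_lit 309)) (XT.lf (nat_lit 0) (nat_lit 4250422370) (nat_lit 76) (nat_lit 13338537200) (nat_lit 152) (nat_lit 45935898538) (nat_lit 25) (nat_lit 5) (nat_lit 26) (nat_lit 5) (nat_lit 27) (nat_lit 4) (nat_lit 484) (nat_lit 408) (nat_lit 308))) (XT.nd (nat_lit 78) (nat_lit 0) (nat_lit 0) (XT.lf (nat_lit 0) (nat_lit 32834263266) (nat_lit 152) (nat_lit 30540566138) (nat_lit 0) (nat_lit 2530881461) (nat_lit 25) (nat_lit 5) (nat_lit 27) (nat_lit 4) (nat_lit 25) (nat_lit 4) (nat_lit 485) (nat_lit 408) (nat_lit 307)) (XT.lf (nat_lit 0) (nat_lit 49049273136) (nat_lit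 152) (nat_lit 610597405) (nat_lit 0) (nat_lit 18735364217) (nat_lit 25) (nat_lit 5) (nat_lit 27) (nat_lit 4) (nat_lit 25) (nat_lit 4) (nat_lit 486) (nat_lit 408) (nat_lit 306))))) (XT.nd (nat_lit 312) (nat_lit 228) (nat_lit 0) (XT.nd (nat_lit 156) (nat_lit 76) (nat_lit 0) (XT.nd (nat_lit 78) (nat_lit 76) (nat_lit 0) (XT.lf (nat_lit 0) (nat_lit 31813205487) (nat_lit 76) (nat_lit 34747832207) (nat_lit 76) (nat_lit 4423897464) (nat_lit 24) (nat_lit 4) (nat_lit 25) (nat_lit 5) (nat_lit 25) (nat_lit 4) (nat_lit 487) (nat_lit 408) (nat_lit 305)) (XT.lf (nat_lit 0) (nat_lit 10884219782) (nat_lit 152) (nat_lit 8020832591) (nat_lit 76) (nat_lit 54790299112) (nat_lit 23) (nat_lit 5) (nat_lit 25) (nat_lit 5) (nat_lit 24) (nat_lit 4) (nat_lit 488) (nat_lit 408) (nat_lit 304))) (XT.nd (nat_lit 78) (nat_lit 0) (nat_lit 0) (XT.lf (nat_lit 0) (nat_lit 25408407432) (nat_lit 76) (nat_lit 1787194663) (nat_lit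 152) (nat_lit 49322734281) (nat_lit 22) (nat_lit 5) (nat_lit 23) (nat_lit 5) (nat_lit 24) (nat_lit 4) (nat_lit 489) (nat_lit 408) (nat_lit 303)) (XT.lf (nat_lit 0) (nat_lit 44703197669) (nat_lit 152) (nat_lit 18962983917) (nat_lit 0) (nat_lit 15797257147) (nat_lit 22) (nat_lit 5) (nat_lit 24) (nat_lit 4) (nat_lit 22) (nat_lit 4) (nat_lit 490) (nat_lit 408) (nat_lit 302)))) (XT.nd (nat_lit 156) (nat_lit 152) (nat_lit 0) (XT.nd (nat_lit 78) (nat_lit 0) (nat_lit 0) (XT.lf (nat_lit 0) (nat_lit 15230494791) (nat_lit 76) (nat_lit 48113113051) (nat_lit 76) (nat_lit 19199317034) (nat_lit 21) (nat_lit 4) (nat_lit 22) (nat_lit 5) (nat_lit 22) (nat_lit 4) (nat_lit 491) (nat_lit 408) (nat_lit 301)) (XT.lf (nat_lit 0) (nat_lit 51773319400) (nat_lit 76) (nat_lit 31454380348) (nat_lit 76) (nat_lit 2533102906) (nat_lit 21) (nat_lit 4) (nat_lit 22) (nat_lit 5) (nat_lit 22) (nat_lit 4) (nat_lit 492) (nat_lit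 408) (nat_lit 300))) (XT.nd (nat_lit 78) (nat_lit 0) (nat_lit 0) (XT.lf (nat_lit 0) (nat_lit 776811474) (nat_lit 76) (nat_lit 13713536857) (nat_lit 152) (nat_lit 74637395684) (nat_lit 19) (nat_lit 5) (nat_lit 20) (nat_lit 5) (nat_lit 21) (nat_lit 4) (nat_lit 493) (nat_lit 408) (nat_lit 299)) (XT.lf (nat_lit 0) (nat_lit 32932439904) (nat_lit 152) (nat_lit 54320769189) (nat_lit 0) (nat_lit 5375117543) (nat_lit 19) (nat_lit 5) (nat_lit 21) (nat_lit 4) (nat_lit 19) (nat_lit 4) (nat_lit 494) (nat_lit 408) (nat_lit 298))))))))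
noncomputable def xc115 : XT := (XT.nd (nat_lit 2184) (nat_lit 304) (nat_lit 0) (XT.nd (nat_lit 1092) (nat_lit 380) (nat_lit 0) (XT.nd (nat_lit 546) (nat_lit 304) (nat_lit 0) (XT.nd (nat_lit 234) (nat_lit 152) (nat_lit 0) (XT.nd (nat_lit 78) (nat_lit 76) (nat_lit 0) (XT.lf (nat_lit 0) (nat_lit 52512723784) (nat_lit 152) (nat_lit 18831164099) (nat_lit 0) (nat_lit 24949246437) (nat_lit 19) (nat_lit 5) (nat_lit 21) (nat_lit 4) (nat_lit 19) (nat_lit 4) (nat_lit 495) (nat_lit 408) (nat_lit 297)) (XT.nd (nat_lit 78) (nat_lit 0) (nat_lit 0) (XT.lf (nat_lit 0) (nat_lit 19025420809) (nat_lit 76) (nat_lit 54335332282) (nat_lit 76) (nat_lit 26765993043) (nat_lit 18) (nat_lit 4) (nat_lit 19) (nat_lit 5) (nat_lit 19) (nat_lit 4) (nat_lit 496) (nat_lit 408) (nat_lit 296)) (XT.lf (nat_lit 0) (nat_lit 59412442786) (nat_lit 76) (nat_lit 36149490287) (nat_lit 76) (nat_lit 8574568294) (nat_lit 18) (nat_lit 4)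 (nat_lit 19) (nat_lit 5) (nat_lit 19) (nat_lit 4) (nat_lit 497) (nat_lit 408) (nat_lit 295)))) (XT.nd (nat_lit 156) (nat_lit 0) (nat_lit 0) (XT.nd (nat_lit 78) (nat_lit 76) (nat_lit 0) (XT.lf (nat_lit 0) (nat_lit 10181611685) (nat_lit 152) (nat_lit 6707934945) (nat_lit 76) (nat_lit 91449375873) (nat_lit 17) (nat_lit 5) (nat_lit 19) (nat_lit 5) (nat_lit 18) (nat_lit 4) (nat_lit 498) (nat_lit 408) (nat_lit 294)) (XT.lf (nat_lit 0) (nat_lit 30176004352) (nat_lit 152) (nat_lit 78634716421) (nat_lit 0) (nat_lit 3904287568) (nat_lit 16) (nat_lit 5) (nat_lit 18) (nat_lit 4) (nat_lit 16) (nat_lit 4) (nat_lit 499) (nat_lit 408) (nat_lit 293))) (XT.nd (nat_lit 78) (nat_lit 0) (nat_lit 0) (XT.lf (nat_lit 0) (nat_lit 51554946568) (nat_lit 152) (nat_lit 40457073807) (nat_lit 0) (nat_lit 25278636839) (nat_lit 16) (nat_lit 5) (nat_lit 18) (nat_lit 4) (nat_lit 16) (nat_lit 4) (nat_lit 500) (nat_lit 408) (nat_lit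 292)) (XT.lf (nat_lit 0) (nat_lit 73995681275) (nat_lit 152) (nat_lit 384767903) (nat_lit 0) (nat_lit 47714997312) (nat_lit 16) (nat_lit 5) (nat_lit 18) (nat_lit 4) (nat_lit 16) (nat_lit 4) (nat_lit 501) (nat_lit 408) (nat_lit 291))))) (XT.nd (nat_lit 234) (nat_lit 152) (nat_lit 0) (XT.nd (nat_lit 78) (nat_lit 76) (nat_lit 0) (XT.lf (nat_lit 0) (nat_lit 43055661602) (nat_lit 76) (nat_lit 55168196731) (nat_lit 76) (nat_lit 28883346831) (nat_lit 15) (nat_lit 4) (nat_lit 16) (nat_lit 5) (nat_lit 16) (nat_lit 4) (nat_lit 502) (nat_lit 408) (nat_lit 290)) (XT.nd (nat_lit 78) (nat_lit 76) (nat_lit 0) (XT.lf (nat_lit 0) (nat_lit 88668147520) (nat_lit 76) (nat_lit 34995115490) (nat_lit 76) (nat_lit 8706298032) (nat_lit 15) (nat_lit 4) (nat_lit 16) (nat_lit 5) (nat_lit 16) (nat_lit 4) (nat_lit 503) (nat_lit 408) (nat_lit 289)) (XT.lf (nat_lit 0) (nat_lit 12073694672) (nat_lit 152) (nat_lit 1541522008)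 (nat_lit 76) (nat_lit 124270400307) (nat_lit 14) (nat_lit 5) (nat_lit 16) (nat_lit 5) (nat_lit 15) (nat_lit 4) (nat_lit 504) (nat_lit 408) (nat_lit 288)))) (XT.nd (nat_lit 156) (nat_lit 76) (nat_lit 0) (XT.nd (nat_lit 78) (nat_lit 0) (nat_lit 0) (XT.lf (nat_lit 0) (nat_lit 34431977471) (nat_lit 152) (nat_lit 99808785724) (nat_lit 0) (nat_lit 9387982443) (nat_lit 13) (nat_lit 5) (nat_lit 15) (nat_lit 4) (nat_lit 13) (nat_lit 4) (nat_lit 505) (nat_lit 408) (nat_lit 287)) (XT.lf (nat_lit 0) (nat_lit 58151745755) (nat_lit 152) (nat_lit 58390619963) (nat_lit 0) (nat_lit 33104486607) (nat_lit 13) (nat_lit 5) (nat_lit 15) (nat_lit 4) (nat_lit 13) (nat_lit 4) (nat_lit 506) (nat_lit 408) (nat_lit 286))) (XT.nd (nat_lit 78) (nat_lit 76) (nat_lit 0) (XT.lf (nat_lit 0) (nat_lit 83051632621) (nat_lit 152) (nat_lit 14913260590) (nat_lit 0) (nat_lit 58001264787) (nat_lit 13) (nat_lit 5) (nat_lit 15) (nat_lit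 4) (nat_lit 13) (nat_lit 4) (nat_lit 507) (nat_lit 408) (nat_lit 285)) (XT.lf (nat_lit 0) (nat_lit 31742777017) (nat_lit 76) (nat_lit 77943740206) (nat_lit 76) (nat_lit 52890411718) (nat_lit 12) (nat_lit 4) (nat_lit 13) (nat_lit 5) (nat_lit 13) (nat_lit 4) (nat_lit 508) (nat_lit 408) (nat_lit 284)))))) (XT.nd (nat_lit 546) (nat_lit 152) (nat_lit 0) (XT.nd (nat_lit 234) (nat_lit 76) (nat_lit 0) (XT.nd (nat_lit 78) (nat_lit 152) (nat_lit 0) (XT.lf (nat_lit 0) (nat_lit 81238394352) (nat_lit 76) (nat_lit 56661819497) (nat_lit 76) (nat_lit 31605671339) (nat_lit 12) (nat_lit 4) (nat_lit 13) (nat_lit 5) (nat_lit 13) (nat_lit 4) (nat_lit 509) (nat_lit 408) (nat_lit 283)) (XT.nd (nat_lit 78) (nat_lit 152) (nat_lit 0) (XT.lf (nat_lit 0) (nat_lit 133198338377) (nat_lit 76) (nat_lit 34321023129) (nat_lit 76) (nat_lit 9262189571) (nat_lit 12) (nat_lit 4) (nat_lit 13) (nat_lit 5) (nat_lit 13) (nat_lit 4)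 (nat_lit 510) (nat_lit 408) (nat_lit 282)) (XT.lf (nat_lit 0) (nat_lit 3206092468) (nat_lit 76) (nat_lit 10582923897) (nat_lit 152) (nat_lit 170618650645) (nat_lit 10) (nat_lit 5) (nat_lit 11) (nat_lit 5) (nat_lit 12) (nat_lit 4) (nat_lit 511) (nat_lit 408) (nat_lit 281)))) (XT.nd (nat_lit 156) (nat_lit 76) (nat_lit 0) (XT.nd (nat_lit 78) (nat_lit 0) (nat_lit 0) (XT.lf (nat_lit 0) (nat_lit 38650576779) (nat_lit 152) (nat_lit 138928201376) (nat_lit 0) (nat_lit 14780265523) (nat_lit 10) (nat_lit 5) (nat_lit 12) (nat_lit 4) (nat_lit 10) (nat_lit 4) (nat_lit 512) (nat_lit 408) (nat_lit 280)) (XT.lf (nat_lit 0) (nat_lit 64923888222) (nat_lit 152) (nat_lit 94724299741) (nat_lit 0) (nat_lit 41051367681) (nat_lit 10) (nat_lit 5) (nat_lit 12) (nat_lit 4) (nat_lit 10) (nat_lit 4) (nat_lit 513) (nat_lit 408) (nat_lit 279))) (XT.nd (nat_lit 78) (nat_lit 76) (nat_lit 0) (XT.lf (nat_lit 0) (nat_lit 92506277098)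 (nat_lit 152) (nat_lit 48319393153) (nat_lit 0) (nat_lit 68631652475) (nat_lit 10) (nat_lit 5) (nat_lit 12) (nat_lit 4) (nat_lit 10) (nat_lit 4) (nat_lit 514) (nat_lit 408) (nat_lit 278)) (XT.lf (nat_lit 0) (nat_lit 410133081) (nat_lit 76) (nat_lit 121059686005) (nat_lit 76) (nat_lit 97183057495) (nat_lit 9) (nat_lit 4) (nat_lit 10) (nat_lit 5) (nat_lit 10) (nat_lit 4) (nat_lit 515) (nat_lit 408) (nat_lit 277))))) (XT.nd (nat_lit 234) (nat_lit 152) (nat_lit 0) (XT.nd (nat_lit 78) (nat_lit 0) (nat_lit 0) (XT.lf (nat_lit 0) (nat_lit 53245064517) (nat_lit 76) (nat_lit 99450489936) (nat_lit 76) (nat_lit 75571952963) (nat_lit 9) (nat_lit 4) (nat_lit 10) (nat_lit 5) (nat_lit 10) (nat_lit 4) (nat_lit 516) (nat_lit 408) (nat_lit 276)) (XT.nd (nat_lit 78) (nat_lit 0) (nat_lit 0) (XT.lf (nat_lit 0) (nat_lit 108713541254) (nat_lit 76) (nat_lit 76764943881) (nat_lit 76) (nat_lit 52884589323) (nat_lit 9)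 (nat_lit 4) (nat_lit 10) (nat_lit 5) (nat_lit 10) (nat_lit 4) (nat_lit 517) (nat_lit 408) (nat_lit 275)) (XT.lf (nat_lit 0) (nat_lit 166947631095) (nat_lit 76) (nat_lit 52949034635) (nat_lit 76) (nat_lit 29066949044) (nat_lit 9) (nat_lit 4) (nat_lit 10) (nat_lit 5) (nat_lit 10) (nat_lit 4) (nat_lit 518) (nat_lit 408) (nat_lit 274)))) (XT.nd (nat_lit 156) (nat_lit 0) (nat_lit 0) (XT.nd (nat_lit 78) (nat_lit 152) (nat_lit 0) (XT.lf (nat_lit 0) (nat_lit 228085986635) (nat_lit 76) (nat_lit 27946057652) (nat_lit 76) (nat_lit 4062323459) (nat_lit 9) (nat_lit 4) (nat_lit 10) (nat_lit 5) (nat_lit 10) (nat_lit 4) (nat_lit 519) (nat_lit 408) (nat_lit 273)) (XT.lf (nat_lit 0) (nat_lit 20812025304) (nat_lit 76) (nat_lit 991550107) (nat_lit 152) (nat_lit 249944691566) (nat_lit 7) (nat_lit 5) (nat_lit 8) (nat_lit 5) (nat_lit 9) (nat_lit 4) (nat_lit 520) (nat_lit 408) (nat_lit 272))) (XT.nd (nat_lit 78) (nat_lit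 0) (nat_lit 0) (XT.lf (nat_lit 0) (nat_lit 49800021290) (nat_lit 152) (nat_lit 207082133226) (nat_lit 0) (nat_lit 27050688317) (nat_lit 7) (nat_lit 5) (nat_lit 9) (nat_lit 4) (nat_lit 7) (nat_lit 4) (nat_lit 521) (nat_lit 408) (nat_lit 271)) (XT.lf (nat_lit 0) (nat_lit 79209127750) (nat_lit 152) (nat_lit 161058439420) (nat_lit 0) (nat_lit 56458438468) (nat_lit 7) (nat_lit 5) (nat_lit 9) (nat_lit 4) (nat_lit 7) (nat_lit 4) (nat_lit 522) (nat_lit 408) (nat_lit 270))))))) (XT.nd (nat_lit 1092) (nat_lit 76) (nat_lit 0) (XT.nd (nat_lit 546) (nat_lit 152) (nat_lit 0) (XT.nd (nat_lit 234) (nat_lit 76) (nat_lit 0) (XT.nd (nat_lit 78) (nat_lit 0) (nat_lit 0) (XT.lf (nat_lit 0) (nat_lit 110085435597) (nat_lit 152) (nat_lit 112740099158) (nat_lit 0) (nat_lit 87333454591) (nat_lit 7) (nat_lit 5) (nat_lit 9) (nat_lit 4) (nat_lit 7) (nat_lit 4) (nat_lit 523) (nat_lit 408) (nat_lit 269)) (XT.nd (nat_lit 78)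 (nat_lit 0) (nat_lit 0) (XT.lf (nat_lit 0) (nat_lit 142502459850) (nat_lit 152) (nat_lit 62012068773) (nat_lit 0) (nat_lit 119749248632) (nat_lit 7) (nat_lit 5) (nat_lit 9) (nat_lit 4) (nat_lit 7) (nat_lit 4) (nat_lit 524) (nat_lit 408) (nat_lit 268)) (XT.lf (nat_lit 0) (nat_lit 176537383900) (nat_lit 152) (nat_lit 8753567239) (nat_lit 0) (nat_lit 153783001051) (nat_lit 7) (nat_lit 5) (nat_lit 9) (nat_lit 4) (nat_lit 7) (nat_lit 4) (nat_lit 525) (nat_lit 408) (nat_lit 267)))) (XT.nd (nat_lit 156) (nat_lit 0) (nat_lit 0) (XT.nd (nat_lit 78) (nat_lit 0) (nat_lit 0) (XT.lf (nat_lit 0) (nat_lit 48721607098) (nat_lit 76) (nat_lit 164310317011) (nat_lit 76) (nat_lit 141554818322) (nat_lit 6) (nat_lit 4) (nat_lit 7) (nat_lit 5) (nat_lit 7) (nat_lit 4) (nat_lit 526) (nat_lit 408) (nat_lit 266)) (XT.lf (nat_lit 0) (nat_lit 109368887366) (nat_lit 76) (nat_lit 142127786081) (nat_lit 76) (nat_lit 119371224688)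 (nat_lit 6) (nat_lit 4) (nat_lit 7) (nat_lit 5) (nat_lit 7) (nat_lit 4) (nat_lit 527) (nat_lit 408) (nat_lit 265))) (XT.nd (nat_lit 78) (nat_lit 0) (nat_lit 0) (XT.lf (nat_lit 0) (nat_lit 173043239384) (nat_lit 76) (nat_lit 118838788696) (nat_lit 76) (nat_lit 96081215204) (nat_lit 6) (nat_lit 4) (nat_lit 7) (nat_lit 5) (nat_lit 7) (nat_lit 4) (nat_lit 528) (nat_lit 408) (nat_lit 264)) (XT.lf (nat_lit 0) (nat_lit 239896268753) (nat_lit 76) (nat_lit 94387874863) (nat_lit 76) (nat_lit 71629337467) (nat_lit 6) (nat_lit 4) (nat_lit 7) (nat_lit 5) (nat_lit 7) (nat_lit 4) (nat_lit 529) (nat_lit 408) (nat_lit 263))))) (XT.nd (nat_lit 234) (nat_lit 76) (nat_lit 0) (XT.nd (nat_lit 78) (nat_lit 76) (nat_lit 0) (XT.lf (nat_lit 0) (nat_lit 310087149352) (nat_lit 76) (nat_lit 68716828120) (nat_lit 76) (nat_lit 45957372721) (nat_lit 6) (nat_lit 4) (nat_lit 7) (nat_lit 5) (nat_lit 7) (nat_lit 4) (nat_lit 530)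 (nat_lit 408) (nat_lit 262)) (XT.nd (nat_lit 78) (nat_lit 76) (nat_lit 0) (XT.lf (nat_lit 0) (nat_lit 383783002325) (nat_lit 76) (nat_lit 41764526928) (nat_lit 76) (nat_lit 19004197239) (nat_lit 6) (nat_lit 4) (nat_lit 7) (nat_lit 5) (nat_lit 7) (nat_lit 4) (nat_lit 531) (nat_lit 408) (nat_lit 261)) (XT.lf (nat_lit 0) (nat_lit 8996885538) (nat_lit 152) (nat_lit 4317546991) (nat_lit 76) (nat_lit 452010041841) (nat_lit 5) (nat_lit 5) (nat_lit 7) (nat_lit 5) (nat_lit 6) (nat_lit 4) (nat_lit 532) (nat_lit 408) (nat_lit 260)))) (XT.nd (nat_lit 156) (nat_lit 0) (nat_lit 0) (XT.nd (nat_lit 78) (nat_lit 0) (nat_lit 0) (XT.lf (nat_lit 0) (nat_lit 38916598892) (nat_lit 152) (nat_lit 430907275299) (nat_lit 0) (nat_lit 17238546176) (nat_lit 4) (nat_lit 5) (nat_lit 6) (nat_lit 4) (nat_lit 4) (nat_lit 4) (nat_lit 533) (nat_lit 408) (nat_lit 259)) (XT.lf (nat_lit 0) (nat_lit 70622791985) (nat_lit 152) (nat_lit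 390305927024) (nat_lit 0) (nat_lit 48944019990) (nat_lit 4) (nat_lit 5) (nat_lit 6) (nat_lit 4) (nat_lit 4) (nat_lit 4) (nat_lit 534) (nat_lit 408) (nat_lit 258))) (XT.nd (nat_lit 78) (nat_lit 0) (nat_lit 0) (XT.lf (nat_lit 0) (nat_lit 103912300689) (nat_lit 152) (nat_lit 347678528945) (nat_lit 0) (nat_lit 82232843665) (nat_lit 4) (nat_lit 5) (nat_lit 6) (nat_lit 4) (nat_lit 4) (nat_lit 4) (nat_lit 535) (nat_lit 408) (nat_lit 257)) (XT.lf (nat_lit 0) (nat_lit 138864385738) (nat_lit 152) (nat_lit 302923587259) (nat_lit 0) (nat_lit 117184276306) (nat_lit 4) (nat_lit 5) (nat_lit 6) (nat_lit 4) (nat_lit 4) (nat_lit 4) (nat_lit 536) (nat_lit 408) (nat_lit 256)))))) (XT.nd (nat_lit 52494) (nat_lit 0) (nat_lit 10944) (XT.nd (nat_lit 234) (nat_lit 76) (nat_lit 0) (XT.nd (nat_lit 78) (nat_lit 0) (nat_lit 0) (XT.lf (nat_lit 0) (nat_lit 175562266382) (nat_lit 152) (nat_lit 255934542580) (nat_lit 0) (nat_lit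 153881535609) (nat_lit 4) (nat_lit 5) (nat_lit 6) (nat_lit 4) (nat_lit 4) (nat_lit 4) (nat_lit 537) (nat_lit 408) (nat_lit 255)) (XT.nd (nat_lit 78) (nat_lit 0) (nat_lit 0) (XT.lf (nat_lit 0) (nat_lit 214093318529) (nat_lit 152) (nat_lit 206599516230) (nat_lit 0) (nat_lit 192411996002) (nat_lit 4) (nat_lit 5) (nat_lit 6) (nat_lit 4) (nat_lit 4) (nat_lit 4) (nat_lit 538) (nat_lit 408) (nat_lit 254)) (XT.lf (nat_lit 0) (nat_lit 254549282777) (nat_lit 152) (nat_lit 154801043861) (nat_lit 0) (nat_lit 232867396677) (nat_lit 4) (nat_lit 5) (nat_lit 6) (nat_lit 4) (nat_lit 4) (nat_lit 4) (nat_lit 539) (nat_lit 408) (nat_lit 253)))) (XT.nd (nat_lit 156) (nat_lit 76) (nat_lit 0) (XT.nd (nat_lit 78) (nat_lit 0) (nat_lit 0) (XT.lf (nat_lit 0) (nat_lit 297026482853) (nat_lit 152) (nat_lit 100415795777) (nat_lit 0) (nat_lit 275344060014) (nat_lit 4) (nat_lit 5) (nat_lit 6) (nat_lit 4) (nat_lit 4) (nat_lit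 4) (nat_lit 540) (nat_lit 408) (nat_lit 252)) (XT.lf (nat_lit 0) (nat_lit 341626054945) (nat_lit 152) (nat_lit 43314283291) (nat_lit 0) (nat_lit 319943120928) (nat_lit 4) (nat_lit 5) (nat_lit 6) (nat_lit 4) (nat_lit 4) (nat_lit 4) (nat_lit 541) (nat_lit 408) (nat_lit 251))) (XT.nd (nat_lit 78) (nat_lit 0) (nat_lit 0) (XT.lf (nat_lit 0) (nat_lit 17189624925) (nat_lit 76) (nat_lit 371532941806) (nat_lit 76) (nat_lit 349849520952) (nat_lit 3) (nat_lit 4) (nat_lit 4) (nat_lit 5) (nat_lit 4) (nat_lit 4) (nat_lit 542) (nat_lit 408) (nat_lit 250)) (XT.lf (nat_lit 0) (nat_lit 82219693474) (nat_lit 76) (nat_lit 356686365471) (nat_lit 76) (nat_lit 335002480963) (nat_lit 3) (nat_lit 4) (nat_lit 4) (nat_lit 5) (nat_lit 4) (nat_lit 4) (nat_lit 543) (nat_lit 408) (nat_lit 249))))) (XT.nd (nat_lit 312) (nat_lit 532) (nat_lit 0) (XT.nd (nat_lit 156) (nat_lit 0) (nat_lit 0) (XT.nd (nat_lit 78) (nat_lit 0) (nat_lit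 0) (XT.lf (nat_lit 0) (nat_lit 254509536) (nat_lit 0) (nat_lit 254509536) (nat_lit 532) (nat_lit 3180850247) (nat_lit 154) (nat_lit 5) (nat_lit 154) (nat_lit 3) (nat_lit 161) (nat_lit 3) (nat_lit 409) (nat_lit 409) (nat_lit 382)) (XT.lf (nat_lit 0) (nat_lit 2577308299) (nat_lit 532) (nat_lit 3248199611) (nat_lit 608) (nat_lit 1661307918) (nat_lit 154) (nat_lit 5) (nat_lit 161) (nat_lit 3) (nat_lit 162) (nat_lit 5) (nat_lit 410) (nat_lit 409) (nat_lit 381))) (XT.nd (nat_lit 78) (nat_lit 0) (nat_lit 0) (XT.lf (nat_lit 76) (nat_lit 509553569) (nat_lit 0) (nat_lit 3625573241) (nat_lit 608) (nat_lit 3468137253) (nat_lit 155) (nat_lit 5) (nat_lit 154) (nat_lit 5) (nat_lit 162) (nat_lit 5) (nat_lit 411) (nat_lit 409) (nat_lit 380)) (XT.lf (nat_lit 76) (nat_lit 4514976134) (nat_lit 0) (nat_lit 1218885235) (nat_lit 608) (nat_lit 1993566302) (nat_lit 155) (nat_lit 5) (nat_lit 154) (nat_lit 5) (nat_lit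 162) (nat_lit 5) (nat_lit 412) (nat_lit 409) (nat_lit 379)))) (XT.nd (nat_lit 156) (nat_lit 0) (nat_lit 0) (XT.nd (nat_lit 78) (nat_lit 608) (nat_lit 0) (XT.lf (nat_lit 76) (nat_lit 813000410) (nat_lit 0) (nat_lit 6545624512) (nat_lit 608) (nat_lit 501912038) (nat_lit 156) (nat_lit 5) (nat_lit 155) (nat_lit 5) (nat_lit 163) (nat_lit 5) (nat_lit 413) (nat_lit 409) (nat_lit 378)) (XT.lf (nat_lit 0) (nat_lit 1020393786) (nat_lit 608) (nat_lit 2941244339) (nat_lit 684) (nat_lit 4038364235) (nat_lit 147) (nat_lit 5) (nat_lit 155) (nat_lit 5) (nat_lit 156) (nat_lit 5) (nat_lit 414) (nat_lit 409) (nat_lit 377))) (XT.nd (nat_lit 78) (nat_lit 0) (nat_lit 76) (XT.lf (nat_lit 76) (nat_lit 1350672788) (nat_lit 0) (nat_lit 1191272718) (nat_lit 684) (nat_lit 5607120594) (nat_lit 148) (nat_lit 5) (nat_lit 147) (nat_lit 5) (nat_lit 156) (nat_lit 5) (nat_lit 415) (nat_lit 409) (nat_lit 376)) (XT.lf (nat_lit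 0) (nat_lit 4139329907) (nat_lit 608) (nat_lit 2429552906) (nat_lit 684) (nat_lit 1736747105) (nat_lit 148) (nat_lit 5) (nat_lit 156) (nat_lit 5) (nat_lit 157) (nat_lit 5) (nat_lit 416) (nat_lit 409) (nat_lit 375))))))))
noncomputable def xc116 : XT := (XT.nd (nat_lit 2184) (nat_lit 2584) (nat_lit 0) (XT.nd (nat_lit 1092) (nat_lit 2356) (nat_lit 0) (XT.nd (nat_lit 546) (nat_lit 1596) (nat_lit 0) (XT.nd (nat_lit 234) (nat_lit 1444) (nat_lit 0) (XT.nd (nat_lit 78) (nat_lit 608) (nat_lit 0) (XT.lf (nat_lit 76) (nat_lit 2151710261) (nat_lit 0) (nat_lit 3644006456) (nat_lit 684) (nat_lit 2675381547) (nat_lit 149) (nat_lit 5) (nat_lit 148) (nat_lit 5) (nat_lit 157) (nat_lit 5) (nat_lit 417) (nat_lit 409) (nat_lit 374)) (XT.nd (nat_lit 78) (nat_lit 608) (nat_lit 0) (XT.lf (nat_lit 76) (nat_lit 6991919691) (nat_lit 0) (nat_lit 512831712) (nat_lit 684) (nat_lit 1141628622) (nat_lit 149) (nat_lit 5)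 (nat_lit 148) (nat_lit 5) (nat_lit 157) (nat_lit 5) (nat_lit 418) (nat_lit 409) (nat_lit 373)) (XT.lf (nat_lit 0) (nat_lit 480587218) (nat_lit 684) (nat_lit 5588064444) (nat_lit 76) (nat_lit 2760097734) (nat_lit 140) (nat_lit 5) (nat_lit 149) (nat_lit 5) (nat_lit 141) (nat_lit 5) (nat_lit 419) (nat_lit 409) (nat_lit 372)))) (XT.nd (nat_lit 156) (nat_lit 760) (nat_lit 0) (XT.nd (nat_lit 78) (nat_lit 684) (nat_lit 0) (XT.lf (nat_lit 0) (nat_lit 2116033664) (nat_lit 684) (nat_lit 665266396) (nat_lit 76) (nat_lit 6239504260) (nat_lit 140) (nat_lit 5) (nat_lit 149) (nat_lit 5) (nat_lit 141) (nat_lit 5) (nat_lit 420) (nat_lit 409) (nat_lit 371)) (XT.lf (nat_lit 0) (nat_lit 3853566282) (nat_lit 760) (nat_lit 4637221153) (nat_lit 76) (nat_lit 730684716) (nat_lit 131) (nat_lit 5) (nat_lit 141) (nat_lit 5) (nat_lit 132) (nat_lit 5) (nat_lit 421) (nat_lit 409) (nat_lit 370))) (XT.nd (nat_lit 78) (nat_lit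 0) (nat_lit 0) (XT.lf (nat_lit 0) (nat_lit 604817010) (nat_lit 760) (nat_lit 5078710701) (nat_lit 836) (nat_lit 3748392676) (nat_lit 121) (nat_lit 5) (nat_lit 131) (nat_lit 5) (nat_lit 132) (nat_lit 5) (nat_lit 422) (nat_lit 409) (nat_lit 369)) (XT.lf (nat_lit 0) (nat_lit 6214370192) (nat_lit 760) (nat_lit 1410247502) (nat_lit 836) (nat_lit 2027315267) (nat_lit 121) (nat_lit 5) (nat_lit 131) (nat_lit 5) (nat_lit 132) (nat_lit 5) (nat_lit 423) (nat_lit 409) (nat_lit 368))))) (XT.nd (nat_lit 234) (nat_lit 760) (nat_lit 0) (XT.nd (nat_lit 78) (nat_lit 456) (nat_lit 0) (XT.lf (nat_lit 0) (nat_lit 2197868894) (nat_lit 380) (nat_lit 7481280209) (nat_lit 456) (nat_lit 203000047) (nat_lit 116) (nat_lit 5) (nat_lit 121) (nat_lit 5) (nat_lit 122) (nat_lit 5) (nat_lit 424) (nat_lit 409) (nat_lit 367)) (XT.nd (nat_lit 78) (nat_lit 380) (nat_lit 0) (XT.lf (nat_lit 0) (nat_lit 1684862391) (nat_lit 456) (nat_lit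 1994113512) (nat_lit 76) (nat_lit 6442226476) (nat_lit 115) (nat_lit 5) (nat_lit 121) (nat_lit 5) (nat_lit 116) (nat_lit 5) (nat_lit 425) (nat_lit 409) (nat_lit 366)) (XT.lf (nat_lit 0) (nat_lit 3677013879) (nat_lit 456) (nat_lit 6324584839) (nat_lit 76) (nat_lit 369626547) (nat_lit 110) (nat_lit 5) (nat_lit 116) (nat_lit 5) (nat_lit 111) (nat_lit 5) (nat_lit 426) (nat_lit 409) (nat_lit 365)))) (XT.nd (nat_lit 156) (nat_lit 380) (nat_lit 0) (XT.nd (nat_lit 78) (nat_lit 380) (nat_lit 0) (XT.lf (nat_lit 0) (nat_lit 5812522468) (nat_lit 456) (nat_lit 289966552) (nat_lit 76) (nat_lit 4529091173) (nat_lit 110) (nat_lit 5) (nat_lit 116) (nat_lit 5) (nat_lit 111) (nat_lit 5) (nat_lit 427) (nat_lit 409) (nat_lit 364)) (XT.lf (nat_lit 0) (nat_lit 6191497529) (nat_lit 380) (nat_lit 1911512290) (nat_lit 456) (nat_lit 2799550380) (nat_lit 105) (nat_lit 5) (nat_lit 110) (nat_lit 5) (nat_lit 111) (nat_lit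 5) (nat_lit 428) (nat_lit 409) (nat_lit 363))) (XT.nd (nat_lit 78) (nat_lit 76) (nat_lit 0) (XT.lf (nat_lit 0) (nat_lit 1783934562) (nat_lit 304) (nat_lit 8748738862) (nat_lit 380) (nat_lit 653199851) (nat_lit 101) (nat_lit 5) (nat_lit 105) (nat_lit 5) (nat_lit 106) (nat_lit 5) (nat_lit 429) (nat_lit 409) (nat_lit 362)) (XT.lf (nat_lit 0) (nat_lit 1615259539) (nat_lit 380) (nat_lit 2824906323) (nat_lit 76) (nat_lit 7038651055) (nat_lit 100) (nat_lit 5) (nat_lit 105) (nat_lit 5) (nat_lit 101) (nat_lit 5) (nat_lit 430) (nat_lit 409) (nat_lit 361)))))) (XT.nd (nat_lit 546) (nat_lit 1216) (nat_lit 0) (XT.nd (nat_lit 234) (nat_lit 608) (nat_lit 0) (XT.nd (nat_lit 78) (nat_lit 228) (nat_lit 0) (XT.lf (nat_lit 0) (nat_lit 3998207373) (nat_lit 380) (nat_lit 7636683689) (nat_lit 76) (nat_lit 149844802) (nat_lit 96) (nat_lit 5) (nat_lit 101) (nat_lit 5) (nat_lit 97) (nat_lit 5) (nat_lit 431) (nat_lit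 409) (nat_lit 360)) (XT.nd (nat_lit 78) (nat_lit 228) (nat_lit 0) (XT.lf (nat_lit 0) (nat_lit 6578676770) (nat_lit 380) (nat_lit 663098798) (nat_lit 76) (nat_lit 4860270193) (nat_lit 96) (nat_lit 5) (nat_lit 101) (nat_lit 5) (nat_lit 97) (nat_lit 5) (nat_lit 432) (nat_lit 409) (nat_lit 359)) (XT.lf (nat_lit 0) (nat_lit 6826514354) (nat_lit 228) (nat_lit 2527244998) (nat_lit 304) (nat_lit 3078195373) (nat_lit 93) (nat_lit 5) (nat_lit 96) (nat_lit 5) (nat_lit 97) (nat_lit 5) (nat_lit 433) (nat_lit 409) (nat_lit 358)))) (XT.nd (nat_lit 156) (nat_lit 228) (nat_lit 0) (XT.nd (nat_lit 78) (nat_lit 76) (nat_lit 0) (XT.lf (nat_lit 0) (nat_lit 1906686512) (nat_lit 304) (nat_lit 10399933532) (nat_lit 380) (nat_lit 469800329) (nat_lit 89) (nat_lit 5) (nat_lit 93) (nat_lit 5) (nat_lit 94) (nat_lit 5) (nat_lit 434) (nat_lit 409) (nat_lit 357)) (XT.lf (nat_lit 0) (nat_lit 2294774529) (nat_lit 380) (nat_lit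 3275381256) (nat_lit 76) (nat_lit 7561274379) (nat_lit 88) (nat_lit 5) (nat_lit 93) (nat_lit 5) (nat_lit 89) (nat_lit 5) (nat_lit 435) (nat_lit 409) (nat_lit 356))) (XT.nd (nat_lit 78) (nat_lit 0) (nat_lit 0) (XT.lf (nat_lit 0) (nat_lit 4794307197) (nat_lit 228) (nat_lit 424683098) (nat_lit 304) (nat_lit 8282965785) (nat_lit 85) (nat_lit 5) (nat_lit 88) (nat_lit 5) (nat_lit 89) (nat_lit 5) (nat_lit 436) (nat_lit 409) (nat_lit 355)) (XT.lf (nat_lit 0) (nat_lit 8386690655) (nat_lit 304) (nat_lit 636634681) (nat_lit 76) (nat_lit 4862829497) (nat_lit 85) (nat_lit 5) (nat_lit 89) (nat_lit 5) (nat_lit 86) (nat_lit 5) (nat_lit 437) (nat_lit 409) (nat_lit 354))))) (XT.nd (nat_lit 234) (nat_lit 684) (nat_lit 0) (XT.nd (nat_lit 78) (nat_lit 304) (nat_lit 0) (XT.lf (nat_lit 0) (nat_lit 8039754423) (nat_lit 228) (nat_lit 3770433175) (nat_lit 304) (nat_lit 2474515090) (nat_lit 82) (nat_lit 5) (nat_lit 85)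 (nat_lit 5) (nat_lit 86) (nat_lit 5) (nat_lit 438) (nat_lit 409) (nat_lit 353)) (XT.nd (nat_lit 78) (nat_lit 0) (nat_lit 0) (XT.lf (nat_lit 0) (nat_lit 722345710) (nat_lit 304) (nat_lit 12240854848) (nat_lit 76) (nat_lit 1737282333) (nat_lit 78) (nat_lit 5) (nat_lit 82) (nat_lit 5) (nat_lit 79) (nat_lit 5) (nat_lit 439) (nat_lit 409) (nat_lit 352)) (XT.lf (nat_lit 0) (nat_lit 4131155836) (nat_lit 304) (nat_lit 3469227417) (nat_lit 76) (nat_lit 7527885667) (nat_lit 78) (nat_lit 5) (nat_lit 82) (nat_lit 5) (nat_lit 79) (nat_lit 5) (nat_lit 440) (nat_lit 409) (nat_lit 351)))) (XT.nd (nat_lit 156) (nat_lit 456) (nat_lit 0) (XT.nd (nat_lit 78) (nat_lit 0) (nat_lit 0) (XT.lf (nat_lit 0) (nat_lit 5882007056) (nat_lit 228) (nat_lit 1887815767) (nat_lit 304) (nat_lit 7804658626) (nat_lit 75) (nat_lit 5) (nat_lit 78) (nat_lit 5) (nat_lit 79) (nat_lit 5) (nat_lit 441) (nat_lit 409) (nat_lit 350)) (XT.lf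 (nat_lit 0) (nat_lit 11682481595) (nat_lit 304) (nat_lit 331786529) (nat_lit 76) (nat_lit 4024141193) (nat_lit 75) (nat_lit 5) (nat_lit 79) (nat_lit 5) (nat_lit 76) (nat_lit 5) (nat_lit 442) (nat_lit 409) (nat_lit 349))) (XT.nd (nat_lit 78) (nat_lit 304) (nat_lit 0) (XT.lf (nat_lit 0) (nat_lit 9731918817) (nat_lit 152) (nat_lit 6211428311) (nat_lit 228) (nat_lit 574565030) (nat_lit 73) (nat_lit 5) (nat_lit 75) (nat_lit 5) (nat_lit 76) (nat_lit 5) (nat_lit 443) (nat_lit 409) (nat_lit 348)) (XT.lf (nat_lit 0) (nat_lit 3295776200) (nat_lit 228) (nat_lit 18503995) (nat_lit 304) (nat_lit 13703110428) (nat_lit 69) (nat_lit 5) (nat_lit 72) (nat_lit 5) (nat_lit 73) (nat_lit 5) (nat_lit 444) (nat_lit 409) (nat_lit 347))))))) (XT.nd (nat_lit 1092) (nat_lit 1140) (nat_lit 0) (XT.nd (nat_lit 546) (nat_lit 760) (nat_lit 0) (XT.nd (nat_lit 234) (nat_lit 380) (nat_lit 0) (XT.nd (nat_lit 78) (nat_lit 304)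 (nat_lit 0) (XT.lf (nat_lit 0) (nat_lit 7566719038) (nat_lit 304) (nat_lit 3577711342) (nat_lit 76) (nat_lit 6387524930) (nat_lit 69) (nat_lit 5) (nat_lit 73) (nat_lit 5) (nat_lit 70) (nat_lit 5) (nat_lit 445) (nat_lit 409) (nat_lit 346)) (XT.nd (nat_lit 78) (nat_lit 152) (nat_lit 0) (XT.lf (nat_lit 0) (nat_lit 7261392927) (nat_lit 152) (nat_lit 4855887577) (nat_lit 228) (nat_lit 5950698676) (nat_lit 67) (nat_lit 5) (nat_lit 69) (nat_lit 5) (nat_lit 70) (nat_lit 5) (nat_lit 446) (nat_lit 409) (nat_lit 345)) (XT.lf (nat_lit 0) (nat_lit 68280538) (nat_lit 152) (nat_lit 16889258838) (nat_lit 228) (nat_lit 1670162098) (nat_lit 65) (nat_lit 5) (nat_lit 67) (nat_lit 5) (nat_lit 68) (nat_lit 5) (nat_lit 447) (nat_lit 409) (nat_lit 344)))) (XT.nd (nat_lit 156) (nat_lit 152) (nat_lit 0) (XT.nd (nat_lit 78) (nat_lit 152) (nat_lit 0) (XT.lf (nat_lit 0) (nat_lit 2972053452) (nat_lit 228) (nat_lit 7515611068)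 (nat_lit 76) (nat_lit 8713643158) (nat_lit 64) (nat_lit 5) (nat_lit 67) (nat_lit 5) (nat_lit 65) (nat_lit 5) (nat_lit 448) (nat_lit 409) (nat_lit 343)) (XT.lf (nat_lit 0) (nat_lit 4143020604) (nat_lit 152) (nat_lit 3685658656) (nat_lit 228) (nat_lit 11971629474) (nat_lit 62) (nat_lit 5) (nat_lit 64) (nat_lit 5) (nat_lit 65) (nat_lit 5) (nat_lit 449) (nat_lit 409) (nat_lit 342))) (XT.nd (nat_lit 78) (nat_lit 152) (nat_lit 0) (XT.lf (nat_lit 0) (nat_lit 13085554416) (nat_lit 228) (nat_lit 3876376944) (nat_lit 76) (nat_lit 3459462268) (nat_lit 62) (nat_lit 5) (nat_lit 65) (nat_lit 5) (nat_lit 63) (nat_lit 5) (nat_lit 450) (nat_lit 409) (nat_lit 341)) (XT.lf (nat_lit 0) (nat_lit 8669751419) (nat_lit 152) (nat_lit 10106621801) (nat_lit 228) (nat_lit 2288609015) (nat_lit 60) (nat_lit 5) (nat_lit 62) (nat_lit 5) (nat_lit 63) (nat_lit 5) (nat_lit 451) (nat_lit 409) (nat_lit 340))))) (XT.nd (nat_lit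 234) (nat_lit 380) (nat_lit 0) (XT.nd (nat_lit 78) (nat_lit 152) (nat_lit 0) (XT.lf (nat_lit 0) (nat_lit 156159845) (nat_lit 152) (nat_lit 2803082676) (nat_lit 228) (nat_lit 18776929802) (nat_lit 57) (nat_lit 5) (nat_lit 59) (nat_lit 5) (nat_lit 60) (nat_lit 5) (nat_lit 452) (nat_lit 409) (nat_lit 339)) (XT.nd (nat_lit 78) (nat_lit 152) (nat_lit 0) (XT.lf (nat_lit 0) (nat_lit 8657650256) (nat_lit 228) (nat_lit 8823232281) (nat_lit 76) (nat_lit 4944913532) (nat_lit 57) (nat_lit 5) (nat_lit 60) (nat_lit 5) (nat_lit 58) (nat_lit 5) (nat_lit 453) (nat_lit 409) (nat_lit 338)) (XT.lf (nat_lit 0) (nat_lit 4634397618) (nat_lit 152) (nat_lit 10101792856) (nat_lit 228) (nat_lit 8408953595) (nat_lit 55) (nat_lit 5) (nat_lit 57) (nat_lit 5) (nat_lit 58) (nat_lit 5) (nat_lit 454) (nat_lit 409) (nat_lit 337)))) (XT.nd (nat_lit 156) (nat_lit 152) (nat_lit 0) (XT.nd (nat_lit 78) (nat_lit 228) (nat_lit 0) (XT.lf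 (nat_lit 0) (nat_lit 19032499864) (nat_lit 152) (nat_lit 2212982631) (nat_lit 228) (nat_lit 2648639232) (nat_lit 55) (nat_lit 5) (nat_lit 57) (nat_lit 5) (nat_lit 58) (nat_lit 5) (nat_lit 455) (nat_lit 409) (nat_lit 336)) (XT.lf (nat_lit 0) (nat_lit 3518155599) (nat_lit 228) (nat_lit 15079918972) (nat_lit 76) (nat_lit 6068459129) (nat_lit 52) (nat_lit 5) (nat_lit 55) (nat_lit 5) (nat_lit 53) (nat_lit 5) (nat_lit 456) (nat_lit 409) (nat_lit 335))) (XT.nd (nat_lit 78) (nat_lit 152) (nat_lit 0) (XT.lf (nat_lit 0) (nat_lit 10002580551) (nat_lit 228) (nat_lit 666288230) (nat_lit 76) (nat_lit 14801614396) (nat_lit 52) (nat_lit 5) (nat_lit 55) (nat_lit 5) (nat_lit 53) (nat_lit 5) (nat_lit 457) (nat_lit 409) (nat_lit 334)) (XT.lf (nat_lit 0) (nat_lit 14909174669) (nat_lit 152) (nat_lit 2114197477) (nat_lit 228) (nat_lit 9280653590) (nat_lit 50) (nat_lit 5) (nat_lit 52) (nat_lit 5) (nat_lit 53) (nat_lit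 5) (nat_lit 458) (nat_lit 409) (nat_lit 333)))))) (XT.nd (nat_lit 546) (nat_lit 532) (nat_lit 0) (XT.nd (nat_lit 234) (nat_lit 304) (nat_lit 0) (XT.nd (nat_lit 78) (nat_lit 228) (nat_lit 0) (XT.lf (nat_lit 0) (nat_lit 4095290008) (nat_lit 76) (nat_lit 20462115115) (nat_lit 152) (nat_lit 2613732949) (nat_lit 49) (nat_lit 5) (nat_lit 50) (nat_lit 5) (nat_lit 51) (nat_lit 4) (nat_lit 459) (nat_lit 409) (nat_lit 332)) (XT.nd (nat_lit 78) (nat_lit 152) (nat_lit 0) (XT.lf (nat_lit 0) (nat_lit 4456585065) (nat_lit 152) (nat_lit 7459044627) (nat_lit 76) (nat_lit 16152032124) (nat_lit 48) (nat_lit 5) (nat_lit 50) (nat_lit 5) (nat_lit 49) (nat_lit 5) (nat_lit 460) (nat_lit 409) (nat_lit 331)) (XT.lf (nat_lit 0) (nat_lit 9154149933) (nat_lit 152) (nat_lit 2761969523) (nat_lit 228) (nat_lit 17084575302) (nat_lit 46) (nat_lit 5) (nat_lit 48) (nat_lit 5) (nat_lit 49) (nat_lit 5) (nat_lit 461) (nat_lit 409)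 (nat_lit 330)))) (XT.nd (nat_lit 156) (nat_lit 228) (nat_lit 0) (XT.nd (nat_lit 78) (nat_lit 76) (nat_lit 0) (XT.lf (nat_lit 0) (nat_lit 19964735784) (nat_lit 228) (nat_lit 3260856581) (nat_lit 76) (nat_lit 6743983976) (nat_lit 46) (nat_lit 5) (nat_lit 49) (nat_lit 5) (nat_lit 47) (nat_lit 4) (nat_lit 462) (nat_lit 409) (nat_lit 329)) (XT.lf (nat_lit 0) (nat_lit 14541150279) (nat_lit 76) (nat_lit 14128628379) (nat_lit 152) (nat_lit 2304425705) (nat_lit 45) (nat_lit 5) (nat_lit 46) (nat_lit 5) (nat_lit 47) (nat_lit 4) (nat_lit 463) (nat_lit 409) (nat_lit 328))) (XT.nd (nat_lit 78) (nat_lit 0) (nat_lit 0) (XT.lf (nat_lit 0) (nat_lit 1235374517) (nat_lit 152) (nat_lit 4417780907) (nat_lit 228) (nat_lit 26368538725) (nat_lit 42) (nat_lit 5) (nat_lit 44) (nat_lit 5) (nat_lit 45) (nat_lit 5) (nat_lit 464) (nat_lit 409) (nat_lit 327)) (XT.lf (nat_lit 0) (nat_lit 14286141922) (nat_lit 228) (nat_lit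 12915757769) (nat_lit 76) (nat_lit 5900023208) (nat_lit 42) (nat_lit 5) (nat_lit 45) (nat_lit 5) (nat_lit 43) (nat_lit 4) (nat_lit 465) (nat_lit 409) (nat_lit 326))))) (XT.nd (nat_lit 234) (nat_lit 228) (nat_lit 0) (XT.nd (nat_lit 78) (nat_lit 228) (nat_lit 0) (XT.lf (nat_lit 0) (nat_lit 5934126821) (nat_lit 76) (nat_lit 17564470290) (nat_lit 152) (nat_lit 10730176773) (nat_lit 41) (nat_lit 5) (nat_lit 42) (nat_lit 5) (nat_lit 43) (nat_lit 4) (nat_lit 466) (nat_lit 409) (nat_lit 325)) (XT.nd (nat_lit 78) (nat_lit 228) (nat_lit 0) (XT.lf (nat_lit 0) (nat_lit 26143711223) (nat_lit 76) (nat_lit 7229781205) (nat_lit 152) (nat_lit 2028385805) (nat_lit 41) (nat_lit 5) (nat_lit 42) (nat_lit 5) (nat_lit 43) (nat_lit 4) (nat_lit 467) (nat_lit 409) (nat_lit 324)) (XT.lf (nat_lit 0) (nat_lit 7096336287) (nat_lit 228) (nat_lit 25742303504) (nat_lit 76) (nat_lit 3778682467) (nat_lit 38) (nat_lit 5) (nat_lit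 41) (nat_lit 5) (nat_lit 39) (nat_lit 4) (nat_lit 468) (nat_lit 409) (nat_lit 323)))) (XT.nd (nat_lit 156) (nat_lit 152) (nat_lit 0) (XT.nd (nat_lit 78) (nat_lit 76) (nat_lit 0) (XT.lf (nat_lit 0) (nat_lit 16870734057) (nat_lit 228) (nat_lit 5734116225) (nat_lit 76) (nat_lit 15273946714) (nat_lit 38) (nat_lit 5) (nat_lit 41) (nat_lit 5) (nat_lit 39) (nat_lit 4) (nat_lit 469) (nat_lit 409) (nat_lit 322)) (XT.lf (nat_lit 0) (nat_lit 15749653207) (nat_lit 76) (nat_lit 11614593533) (nat_lit 152) (nat_lit 11827580362) (nat_lit 37) (nat_lit 5) (nat_lit 38) (nat_lit 5) (nat_lit 39) (nat_lit 4) (nat_lit 470) (nat_lit 409) (nat_lit 321))) (XT.nd (nat_lit 78) (nat_lit 152) (nat_lit 0) (XT.lf (nat_lit 0) (nat_lit 38464554920) (nat_lit 152) (nat_lit 2088393350) (nat_lit 0) (nat_lit 13455770) (nat_lit 37) (nat_lit 5) (nat_lit 39) (nat_lit 4) (nat_lit 37) (nat_lit 4) (nat_lit 471) (nat_lit 409) (nat_lit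 320)) (XT.lf (nat_lit 0) (nat_lit 8358950305) (nat_lit 152) (nat_lit 21339379363) (nat_lit 76) (nat_lit 12279632345) (nat_lit 35) (nat_lit 5) (nat_lit 37) (nat_lit 5) (nat_lit 36) (nat_lit 4) (nat_lit 472) (nat_lit 409) (nat_lit 319))))))))
noncomputable def xc117 : XT := (XT.nd (nat_lit 2184) (nat_lit 760) (nat_lit 0) (XT.nd (nat_lit 1092) (nat_lit 684) (nat_lit 0) (XT.nd (nat_lit 546) (nat_lit 380) (nat_lit 0) (XT.nd (nat_lit 234) (nat_lit 228) (nat_lit 0) (XT.nd (nat_lit 78) (nat_lit 76) (nat_lit 0) (XT.lf (nat_lit 0) (nat_lit 1088213826) (nat_lit 76) (nat_lit 18222235289) (nat_lit 152) (nat_lit 24146012315) (nat_lit 34) (nat_lit 5) (nat_lit 35) (nat_lit 5) (nat_lit 36) (nat_lit 4) (nat_lit 473) (nat_lit 409) (nat_lit 318)) (XT.nd (nat_lit 78) (nat_lit 76) (nat_lit 0) (XT.lf (nat_lit 0) (nat_lit 25350826166) (nat_lit 76) (nat_lit 5805719269) (nat_lit 152) (nat_lit 13834990339) (nat_lit 34)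 (nat_lit 5) (nat_lit 35) (nat_lit 5) (nat_lit 36) (nat_lit 4) (nat_lit 474) (nat_lit 409) (nat_lit 317)) (XT.lf (nat_lit 0) (nat_lit 4218917171) (nat_lit 76) (nat_lit 39540927559) (nat_lit 76) (nat_lit 2835275230) (nat_lit 33) (nat_lit 4) (nat_lit 34) (nat_lit 5) (nat_lit 34) (nat_lit 4) (nat_lit 475) (nat_lit 409) (nat_lit 316)))) (XT.nd (nat_lit 156) (nat_lit 76) (nat_lit 0) (XT.nd (nat_lit 78) (nat_lit 76) (nat_lit 0) (XT.lf (nat_lit 0) (nat_lit 8854917047) (nat_lit 152) (nat_lit 18571977567) (nat_lit 76) (nat_lit 20824216475) (nat_lit 32) (nat_lit 5) (nat_lit 34) (nat_lit 5) (nat_lit 33) (nat_lit 4) (nat_lit 476) (nat_lit 409) (nat_lit 315)) (XT.lf (nat_lit 0) (nat_lit 6560777575) (nat_lit 76) (nat_lit 14562802926) (nat_lit 152) (nat_lit 28859535899) (nat_lit 31) (nat_lit 5) (nat_lit 32) (nat_lit 5) (nat_lit 33) (nat_lit 4) (nat_lit 477) (nat_lit 409) (nat_lit 314))) (XT.nd (nat_lit 78)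 (nat_lit 76) (nat_lit 0) (XT.lf (nat_lit 0) (nat_lit 33570166573) (nat_lit 76) (nat_lit 737090298) (nat_lit 152) (nat_lit 17479386969) (nat_lit 31) (nat_lit 5) (nat_lit 32) (nat_lit 5) (nat_lit 33) (nat_lit 4) (nat_lit 478) (nat_lit 409) (nat_lit 313)) (XT.lf (nat_lit 0) (nat_lit 8275355168) (nat_lit 76) (nat_lit 40206601153) (nat_lit 76) (nat_lit 5181800177) (nat_lit 30) (nat_lit 4) (nat_lit 31) (nat_lit 5) (nat_lit 31) (nat_lit 4) (nat_lit 479) (nat_lit 409) (nat_lit 312))))) (XT.nd (nat_lit 234) (nat_lit 228) (nat_lit 0) (XT.nd (nat_lit 78) (nat_lit 76) (nat_lit 0) (XT.lf (nat_lit 0) (nat_lit 7796401050) (nat_lit 152) (nat_lit 19056991529) (nat_lit 76) (nat_lit 28759639840) (nat_lit 29) (nat_lit 5) (nat_lit 31) (nat_lit 5) (nat_lit 30) (nat_lit 4) (nat_lit 480) (nat_lit 409) (nat_lit 311)) (XT.nd (nat_lit 78) (nat_lit 0) (nat_lit 0) (XT.lf (nat_lit 0) (nat_lit 8763609645) (nat_lit 76) (nat_lit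 12610697998) (nat_lit 152) (nat_lit 36274970929) (nat_lit 28) (nat_lit 5) (nat_lit 29) (nat_lit 5) (nat_lit 30) (nat_lit 4) (nat_lit 481) (nat_lit 409) (nat_lit 310)) (XT.lf (nat_lit 0) (nat_lit 35983895547) (nat_lit 152) (nat_lit 21199199292) (nat_lit 0) (nat_lit 2586603559) (nat_lit 28) (nat_lit 5) (nat_lit 30) (nat_lit 4) (nat_lit 28) (nat_lit 4) (nat_lit 482) (nat_lit 409) (nat_lit 309)))) (XT.nd (nat_lit 156) (nat_lit 76) (nat_lit 0) (XT.nd (nat_lit 78) (nat_lit 76) (nat_lit 0) (XT.lf (nat_lit 0) (nat_lit 7895699868) (nat_lit 76) (nat_lit 43746991010) (nat_lit 76) (nat_lit 10337512570) (nat_lit 27) (nat_lit 4) (nat_lit 28) (nat_lit 5) (nat_lit 28) (nat_lit 4) (nat_lit 483) (nat_lit 409) (nat_lit 308)) (XT.lf (nat_lit 0) (nat_lit 4015750880) (nat_lit 152) (nat_lit 25188795279) (nat_lit 76) (nat_lit 35076052634) (nat_lit 26) (nat_lit 5) (nat_lit 28) (nat_lit 5) (nat_lit 27) (nat_lit 4) (nat_lit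 484) (nat_lit 409) (nat_lit 307))) (XT.nd (nat_lit 78) (nat_lit 0) (nat_lit 0) (XT.lf (nat_lit 0) (nat_lit 5125426193) (nat_lit 76) (nat_lit 13683141732) (nat_lit 152) (nat_lit 47875508224) (nat_lit 25) (nat_lit 5) (nat_lit 26) (nat_lit 5) (nat_lit 27) (nat_lit 4) (nat_lit 485) (nat_lit 409) (nat_lit 306)) (XT.lf (nat_lit 0) (nat_lit 34804731411) (nat_lit 152) (nat_lit 31425237097) (nat_lit 0) (nat_lit 2954574107) (nat_lit 25) (nat_lit 5) (nat_lit 27) (nat_lit 4) (nat_lit 25) (nat_lit 4) (nat_lit 486) (nat_lit 409) (nat_lit 305)))))) (XT.nd (nat_lit 546) (nat_lit 380) (nat_lit 0) (XT.nd (nat_lit 234) (nat_lit 152) (nat_lit 0) (XT.nd (nat_lit 78) (nat_lit 152) (nat_lit 0) (XT.lf (nat_lit 0) (nat_lit 51814836776) (nat_lit 152) (nat_lit 29358373) (nat_lit 0) (nat_lit 19955131068) (nat_lit 25) (nat_lit 5) (nat_lit 27) (nat_lit 4) (nat_lit 25) (nat_lit 4) (nat_lit 487) (nat_lit 409) (nat_lit 304))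 (XT.nd (nat_lit 78) (nat_lit 76) (nat_lit 0) (XT.lf (nat_lit 0) (nat_lit 34005767424) (nat_lit 76) (nat_lit 36190909987) (nat_lit 76) (nat_lit 4322110561) (nat_lit 24) (nat_lit 4) (nat_lit 25) (nat_lit 5) (nat_lit 25) (nat_lit 4) (nat_lit 488) (nat_lit 409) (nat_lit 303)) (XT.lf (nat_lit 0) (nat_lit 11726187288) (nat_lit 152) (nat_lit 7838776168) (nat_lit 76) (nat_lit 57800254580) (nat_lit 23) (nat_lit 5) (nat_lit 25) (nat_lit 5) (nat_lit 24) (nat_lit 4) (nat_lit 489) (nat_lit 409) (nat_lit 302)))) (XT.nd (nat_lit 156) (nat_lit 76) (nat_lit 0) (XT.nd (nat_lit 78) (nat_lit 0) (nat_lit 0) (XT.lf (nat_lit 0) (nat_lit 27252521049) (nat_lit 76) (nat_lit 1595395744) (nat_lit 152) (nat_lit 51481697102) (nat_lit 22) (nat_lit 5) (nat_lit 23) (nat_lit 5) (nat_lit 24) (nat_lit 4) (nat_lit 490) (nat_lit 409) (nat_lit 301)) (XT.lf (nat_lit 0) (nat_lit 47221142570) (nat_lit 152) (nat_lit 19354997045) (nat_lit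 0) (nat_lit 16846319833) (nat_lit 22) (nat_lit 5) (nat_lit 24) (nat_lit 4) (nat_lit 22) (nat_lit 4) (nat_lit 491) (nat_lit 409) (nat_lit 300))) (XT.nd (nat_lit 78) (nat_lit 0) (nat_lit 0) (XT.lf (nat_lit 0) (nat_lit 16539185662) (nat_lit 76) (nat_lit 50249464433) (nat_lit 76) (nat_lit 19867516530) (nat_lit 21) (nat_lit 4) (nat_lit 22) (nat_lit 5) (nat_lit 22) (nat_lit 4) (nat_lit 492) (nat_lit 409) (nat_lit 299)) (XT.lf (nat_lit 0) (nat_lit 54883095972) (nat_lit 76) (nat_lit 32770619107) (nat_lit 76) (nat_lit 2381885332) (nat_lit 21) (nat_lit 4) (nat_lit 22) (nat_lit 5) (nat_lit 22) (nat_lit 4) (nat_lit 493) (nat_lit 409) (nat_lit 298))))) (XT.nd (nat_lit 234) (nat_lit 228) (nat_lit 0) (XT.nd (nat_lit 78) (nat_lit 0) (nat_lit 0) (XT.lf (nat_lit 0) (nat_lit 1337118031) (nat_lit 76) (nat_lit 14142059793) (nat_lit 152) (nat_lit 78091727939) (nat_lit 19) (nat_lit 5) (nat_lit 20) (nat_lit 5) (nat_lit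 21) (nat_lit 4) (nat_lit 494) (nat_lit 409) (nat_lit 297)) (XT.nd (nat_lit 78) (nat_lit 0) (nat_lit 0) (XT.lf (nat_lit 0) (nat_lit 34834611394) (nat_lit 152) (nat_lit 56531401416) (nat_lit 0) (nat_lit 5880943302) (nat_lit 19) (nat_lit 5) (nat_lit 21) (nat_lit 4) (nat_lit 19) (nat_lit 4) (nat_lit 495) (nat_lit 409) (nat_lit 296)) (XT.lf (nat_lit 0) (nat_lit 55381740445) (nat_lit 152) (nat_lit 19291383036) (nat_lit 0) (nat_lit 26422489599) (nat_lit 19) (nat_lit 5) (nat_lit 21) (nat_lit 4) (nat_lit 19) (nat_lit 4) (nat_lit 496) (nat_lit 409) (nat_lit 295)))) (XT.nd (nat_lit 156) (nat_lit 152) (nat_lit 0) (XT.nd (nat_lit 78) (nat_lit 0) (nat_lit 0) (XT.lf (nat_lit 0) (nat_lit 20450267581) (nat_lit 76) (nat_lit 56817707933) (nat_lit 76) (nat_lit 27853140179) (nat_lit 18) (nat_lit 4) (nat_lit 19) (nat_lit 5) (nat_lit 19) (nat_lit 4) (nat_lit 497) (nat_lit 409) (nat_lit 294)) (XT.lf (nat_lit 0) (nat_lit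 62834089432) (nat_lit 76) (nat_lit 37733735313) (nat_lit 76) (nat_lit 8764103836) (nat_lit 18) (nat_lit 4) (nat_lit 19) (nat_lit 5) (nat_lit 19) (nat_lit 4) (nat_lit 498) (nat_lit 409) (nat_lit 293))) (XT.nd (nat_lit 78) (nat_lit 76) (nat_lit 0) (XT.lf (nat_lit 0) (nat_lit 10911203895) (nat_lit 152) (nat_lit 6606486083) (nat_lit 76) (nat_lit 96227145719) (nat_lit 17) (nat_lit 5) (nat_lit 19) (nat_lit 5) (nat_lit 18) (nat_lit 4) (nat_lit 499) (nat_lit 409) (nat_lit 292)) (XT.lf (nat_lit 0) (nat_lit 31904852768) (nat_lit 152) (nat_lit 82129136206) (nat_lit 0) (nat_lit 4305760374) (nat_lit 16) (nat_lit 5) (nat_lit 18) (nat_lit 4) (nat_lit 16) (nat_lit 4) (nat_lit 500) (nat_lit 409) (nat_lit 291))))))) (XT.nd (nat_lit 1092) (nat_lit 304) (nat_lit 0) (XT.nd (nat_lit 546) (nat_lit 228) (nat_lit 0) (XT.nd (nat_lit 234) (nat_lit 152) (nat_lit 0) (XT.nd (nat_lit 78) (nat_lit 76) (nat_lit 0) (XT.lf (nat_lit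 0) (nat_lit 54342263610) (nat_lit 152) (nat_lit 42063436035) (nat_lit 0) (nat_lit 26739005278) (nat_lit 16) (nat_lit 5) (nat_lit 18) (nat_lit 4) (nat_lit 16) (nat_lit 4) (nat_lit 501) (nat_lit 409) (nat_lit 290)) (XT.nd (nat_lit 78) (nat_lit 76) (nat_lit 0) (XT.lf (nat_lit 0) (nat_lit 77895055542) (nat_lit 152) (nat_lit 7347762) (nat_lit 0) (nat_lit 50287829651) (nat_lit 16) (nat_lit 5) (nat_lit 18) (nat_lit 4) (nat_lit 16) (nat_lit 4) (nat_lit 502) (nat_lit 409) (nat_lit 289)) (XT.lf (nat_lit 0) (nat_lit 45598705500) (nat_lit 76) (nat_lit 57732524723) (nat_lit 76) (nat_lit 30121520205) (nat_lit 15) (nat_lit 4) (nat_lit 16) (nat_lit 5) (nat_lit 16) (nat_lit 4) (nat_lit 503) (nat_lit 409) (nat_lit 288)))) (XT.nd (nat_lit 156) (nat_lit 76) (nat_lit 0) (XT.nd (nat_lit 78) (nat_lit 76) (nat_lit 0) (XT.lf (nat_lit 0) (nat_lit 93473231865) (nat_lit 76) (nat_lit 36560031413) (nat_lit 76) (nat_lit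 8945428202) (nat_lit 15) (nat_lit 4) (nat_lit 16) (nat_lit 5) (nat_lit 16) (nat_lit 4) (nat_lit 504) (nat_lit 409) (nat_lit 287)) (XT.lf (nat_lit 0) (nat_lit 12858241876) (nat_lit 152) (nat_lit 1258634689) (nat_lit 76) (nat_lit 130653972923) (nat_lit 14) (nat_lit 5) (nat_lit 16) (nat_lit 5) (nat_lit 15) (nat_lit 4) (nat_lit 505) (nat_lit 409) (nat_lit 286))) (XT.nd (nat_lit 78) (nat_lit 0) (nat_lit 0) (XT.lf (nat_lit 0) (nat_lit 36334109467) (nat_lit 152) (nat_lit 104438927267) (nat_lit 0) (nat_lit 10028114555) (nat_lit 13) (nat_lit 5) (nat_lit 15) (nat_lit 4) (nat_lit 13) (nat_lit 4) (nat_lit 506) (nat_lit 409) (nat_lit 285)) (XT.lf (nat_lit 0) (nat_lit 61231269350) (nat_lit 152) (nat_lit 60967010253) (nat_lit 0) (nat_lit 34922313784) (nat_lit 13) (nat_lit 5) (nat_lit 15) (nat_lit 4) (nat_lit 13) (nat_lit 4) (nat_lit 507) (nat_lit 409) (nat_lit 284))))) (XT.nd (nat_lit 234) (nat_lit 152) (nat_lit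 0) (XT.nd (nat_lit 78) (nat_lit 76) (nat_lit 0) (XT.lf (nat_lit 0) (nat_lit 87367963117) (nat_lit 152) (nat_lit 15332122946) (nat_lit 0) (nat_lit 61056187881) (nat_lit 13) (nat_lit 5) (nat_lit 15) (nat_lit 4) (nat_lit 13) (nat_lit 4) (nat_lit 508) (nat_lit 409) (nat_lit 283)) (XT.nd (nat_lit 78) (nat_lit 0) (nat_lit 0) (XT.lf (nat_lit 0) (nat_lit 33651445563) (nat_lit 76) (nat_lit 81680368800) (nat_lit 76) (nat_lit 55365908164) (nat_lit 12) (nat_lit 4) (nat_lit 13) (nat_lit 5) (nat_lit 13) (nat_lit 4) (nat_lit 509) (nat_lit 409) (nat_lit 282)) (XT.lf (nat_lit 0) (nat_lit 85606532827) (nat_lit 76) (nat_lit 59341997694) (nat_lit 76) (nat_lit 33024979534) (nat_lit 12) (nat_lit 4) (nat_lit 13) (nat_lit 5) (nat_lit 13) (nat_lit 4) (nat_lit 510) (nat_lit 409) (nat_lit 281)))) (XT.nd (nat_lit 156) (nat_lit 0) (nat_lit 0) (XT.nd (nat_lit 78) (nat_lit 152) (nat_lit 0) (XT.lf (nat_lit 0) (nat_lit 140149892207)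 (nat_lit 76) (nat_lit 35891443069) (nat_lit 76) (nat_lit 9571989172) (nat_lit 12) (nat_lit 4) (nat_lit 13) (nat_lit 5) (nat_lit 13) (nat_lit 4) (nat_lit 511) (nat_lit 409) (nat_lit 280)) (XT.lf (nat_lit 0) (nat_lit 3658161565) (nat_lit 76) (nat_lit 10966197074) (nat_lit 152) (nat_lit 178996393614) (nat_lit 10) (nat_lit 5) (nat_lit 11) (nat_lit 5) (nat_lit 12) (nat_lit 4) (nat_lit 512) (nat_lit 409) (nat_lit 279))) (XT.nd (nat_lit 78) (nat_lit 0) (nat_lit 0) (XT.lf (nat_lit 0) (nat_lit 40724218896) (nat_lit 152) (nat_lit 145591958974) (nat_lit 0) (nat_lit 15653758962) (nat_lit 10) (nat_lit 5) (nat_lit 12) (nat_lit 4) (nat_lit 10) (nat_lit 4) (nat_lit 513) (nat_lit 409) (nat_lit 278)) (XT.lf (nat_lit 0) (nat_lit 68304476232) (nat_lit 152) (nat_lit 99191321899) (nat_lit 0) (nat_lit 43232012410) (nat_lit 10) (nat_lit 5) (nat_lit 12) (nat_lit 4) (nat_lit 10) (nat_lit 4) (nat_lit 514) (nat_lit 409)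 (nat_lit 277)))))) (XT.nd (nat_lit 546) (nat_lit 76) (nat_lit 0) (XT.nd (nat_lit 234) (nat_lit 152) (nat_lit 0) (XT.nd (nat_lit 78) (nat_lit 76) (nat_lit 0) (XT.lf (nat_lit 0) (nat_lit 97259584856) (nat_lit 152) (nat_lit 50478988687) (nat_lit 0) (nat_lit 72185212570) (nat_lit 10) (nat_lit 5) (nat_lit 12) (nat_lit 4) (nat_lit 10) (nat_lit 4) (nat_lit 515) (nat_lit 409) (nat_lit 276)) (XT.nd (nat_lit 78) (nat_lit 0) (nat_lit 0) (XT.lf (nat_lit 0) (nat_lit 682878793) (nat_lit 76) (nat_lit 126986268362) (nat_lit 76) (nat_lit 101910078492) (nat_lit 9) (nat_lit 4) (nat_lit 10) (nat_lit 5) (nat_lit 10) (nat_lit 4) (nat_lit 516) (nat_lit 409) (nat_lit 275)) (XT.lf (nat_lit 0) (nat_lit 56147545416) (nat_lit 76) (nat_lit 104302631629) (nat_lit 76) (nat_lit 79224710727) (nat_lit 9) (nat_lit 4) (nat_lit 10) (nat_lit 5) (nat_lit 10) (nat_lit 4) (nat_lit 517) (nat_lit 409) (nat_lit 274)))) (XT.nd (nat_lit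 156) (nat_lit 152) (nat_lit 0) (XT.nd (nat_lit 78) (nat_lit 0) (nat_lit 0) (XT.lf (nat_lit 0) (nat_lit 114378006577) (nat_lit 76) (nat_lit 80488540786) (nat_lit 76) (nat_lit 55408971281) (nat_lit 9) (nat_lit 4) (nat_lit 10) (nat_lit 5) (nat_lit 10) (nat_lit 4) (nat_lit 518) (nat_lit 409) (nat_lit 273)) (XT.lf (nat_lit 0) (nat_lit 175512906231) (nat_lit 76) (nat_lit 55487295615) (nat_lit 76) (nat_lit 30406156012) (nat_lit 9) (nat_lit 4) (nat_lit 10) (nat_lit 5) (nat_lit 10) (nat_lit 4) (nat_lit 519) (nat_lit 409) (nat_lit 272))) (XT.nd (nat_lit 78) (nat_lit 152) (nat_lit 0) (XT.lf (nat_lit 0) (nat_lit 239697803663) (nat_lit 76) (nat_lit 29239369343) (nat_lit 76) (nat_lit 4156734409) (nat_lit 9) (nat_lit 4) (nat_lit 10) (nat_lit 5) (nat_lit 10) (nat_lit 4) (nat_lit 520) (nat_lit 409) (nat_lit 271)) (XT.lf (nat_lit 0) (nat_lit 22060222577) (nat_lit 76) (nat_lit 936987976) (nat_lit 152) (nat_lit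 262333294784) (nat_lit 7) (nat_lit 5) (nat_lit 8) (nat_lit 5) (nat_lit 9) (nat_lit 4) (nat_lit 521) (nat_lit 409) (nat_lit 270))))) (XT.nd (nat_lit 312) (nat_lit 76) (nat_lit 0) (XT.nd (nat_lit 156) (nat_lit 0) (nat_lit 0) (XT.nd (nat_lit 78) (nat_lit 0) (nat_lit 0) (XT.lf (nat_lit 0) (nat_lit 52390100720) (nat_lit 152) (nat_lit 217235149329) (nat_lit 0) (nat_lit 28499228940) (nat_lit 7) (nat_lit 5) (nat_lit 9) (nat_lit 4) (nat_lit 7) (nat_lit 4) (nat_lit 522) (nat_lit 409) (nat_lit 269)) (XT.lf (nat_lit 0) (nat_lit 83264896866) (nat_lit 152) (nat_lit 168919846574) (nat_lit 0) (nat_lit 59372794874) (nat_lit 7) (nat_lit 5) (nat_lit 9) (nat_lit 4) (nat_lit 7) (nat_lit 4) (nat_lit 523) (nat_lit 409) (nat_lit 268))) (XT.nd (nat_lit 78) (nat_lit 0) (nat_lit 0) (XT.lf (nat_lit 0) (nat_lit 115680481404) (nat_lit 152) (nat_lit 118194709053) (nat_lit 0) (nat_lit 91787207781) (nat_lit 7) (nat_lit 5)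 (nat_lit 9) (nat_lit 4) (nat_lit 7) (nat_lit 4) (nat_lit 524) (nat_lit 409) (nat_lit 267)) (XT.lf (nat_lit 0) (nat_lit 149714034297) (nat_lit 152) (nat_lit 64938962627) (nat_lit 0) (nat_lit 125819644835) (nat_lit 7) (nat_lit 5) (nat_lit 9) (nat_lit 4) (nat_lit 7) (nat_lit 4) (nat_lit 525) (nat_lit 409) (nat_lit 266)))) (XT.nd (nat_lit 156) (nat_lit 0) (nat_lit 0) (XT.nd (nat_lit 78) (nat_lit 76) (nat_lit 0) (XT.lf (nat_lit 0) (nat_lit 185446587814) (nat_lit 152) (nat_lit 9025807901) (nat_lit 0) (nat_lit 161551135647) (nat_lit 7) (nat_lit 5) (nat_lit 9) (nat_lit 4) (nat_lit 7) (nat_lit 4) (nat_lit 526) (nat_lit 409) (nat_lit 265)) (XT.lf (nat_lit 0) (nat_lit 51320456803) (nat_lit 76) (nat_lit 172444018816) (nat_lit 76) (nat_lit 148547554550) (nat_lit 6) (nat_lit 4) (nat_lit 7) (nat_lit 5) (nat_lit 7) (nat_lit 4) (nat_lit 527) (nat_lit 409) (nat_lit 264))) (XT.nd (nat_lit 78) (nat_lit 0) (nat_lit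 0) (XT.lf (nat_lit 0) (nat_lit 114992350162) (nat_lit 76) (nat_lit 149156257246) (nat_lit 76) (nat_lit 125258829076) (nat_lit 6) (nat_lit 4) (nat_lit 7) (nat_lit 5) (nat_lit 7) (nat_lit 4) (nat_lit 528) (nat_lit 409) (nat_lit 263)) (XT.lf (nat_lit 0) (nat_lit 181843037952) (nat_lit 76) (nat_lit 124706520380) (nat_lit 76) (nat_lit 100808174206) (nat_lit 6) (nat_lit 4) (nat_lit 7) (nat_lit 5) (nat_lit 7) (nat_lit 4) (nat_lit 529) (nat_lit 409) (nat_lit 262))))))))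
noncomputable def xc118 : XT := (XT.nd (nat_lit 54210) (nat_lit 0) (nat_lit 4332) (XT.nd (nat_lit 53118) (nat_lit 0) (nat_lit 8968) (XT.nd (nat_lit 546) (nat_lit 76) (nat_lit 0) (XT.nd (nat_lit 234) (nat_lit 152) (nat_lit 0) (XT.nd (nat_lit 78) (nat_lit 0) (nat_lit 0) (XT.lf (nat_lit 0) (nat_lit 252031688475) (nat_lit 76) (nat_lit 99036594557) (nat_lit 76) (nat_lit 75137374095) (nat_lit 6) (nat_lit 4) (nat_lit 7) (nat_lit 5) (nat_lit 7) (nat_lit 4) (nat_lit 530) (nat_lit 409) (nat_lit 261)) (XT.nd (nat_lit 78) (nat_lit 0) (nat_lit 0) (XT.lf (nat_lit 0) (nat_lit 325725417566) (nat_lit 76) (nat_lit 72085360908) (nat_lit 76) (nat_lit 48185307789) (nat_lit 6) (nat_lit 4) (nat_lit 7) (nat_lit 5) (nat_lit 7) (nat_lit 4) (nat_lit 531) (nat_lit 409) (nat_lit 260)) (XT.lf (nat_lit 0) (nat_lit 403099686486) (nat_lit 76) (nat_lit 43788649828) (nat_lit 76) (nat_lit 19887803703) (nat_lit 6) (nat_lit 4)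 (nat_lit 7) (nat_lit 5) (nat_lit 7) (nat_lit 4) (nat_lit 532) (nat_lit 409) (nat_lit 259)))) (XT.nd (nat_lit 156) (nat_lit 0) (nat_lit 0) (XT.nd (nat_lit 78) (nat_lit 76) (nat_lit 0) (XT.lf (nat_lit 0) (nat_lit 9508131408) (nat_lit 152) (nat_lit 4409931981) (nat_lit 76) (nat_lit 474669563469) (nat_lit 5) (nat_lit 5) (nat_lit 7) (nat_lit 5) (nat_lit 6) (nat_lit 4) (nat_lit 533) (nat_lit 409) (nat_lit 258)) (XT.lf (nat_lit 0) (nat_lit 40923757855) (nat_lit 152) (nat_lit 452329073033) (nat_lit 0) (nat_lit 18159642951) (nat_lit 4) (nat_lit 5) (nat_lit 6) (nat_lit 4) (nat_lit 4) (nat_lit 4) (nat_lit 534) (nat_lit 409) (nat_lit 257))) (XT.nd (nat_lit 78) (nat_lit 0) (nat_lit 0) (XT.lf (nat_lit 0) (nat_lit 74212340173) (nat_lit 152) (nat_lit 409703541440) (nat_lit 0) (nat_lit 51447572861) (nat_lit 4) (nat_lit 5) (nat_lit 6) (nat_lit 4) (nat_lit 4) (nat_lit 4) (nat_lit 535) (nat_lit 409) (nat_lit 256))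 (XT.lf (nat_lit 0) (nat_lit 109163542950) (nat_lit 152) (nat_lit 364950377360) (nat_lit 0) (nat_lit 86398154298) (nat_lit 4) (nat_lit 5) (nat_lit 6) (nat_lit 4) (nat_lit 4) (nat_lit 4) (nat_lit 536) (nat_lit 409) (nat_lit 255))))) (XT.nd (nat_lit 234) (nat_lit 76) (nat_lit 0) (XT.nd (nat_lit 78) (nat_lit 0) (nat_lit 0) (XT.lf (nat_lit 0) (nat_lit 145860583336) (nat_lit 152) (nat_lit 317963025638) (nat_lit 0) (nat_lit 123094602930) (nat_lit 4) (nat_lit 5) (nat_lit 6) (nat_lit 4) (nat_lit 4) (nat_lit 4) (nat_lit 537) (nat_lit 409) (nat_lit 254)) (XT.nd (nat_lit 78) (nat_lit 0) (nat_lit 0) (XT.lf (nat_lit 0) (nat_lit 184390835236) (nat_lit 152) (nat_lit 268629611629) (nat_lit 0) (nat_lit 161624291256) (nat_lit 4) (nat_lit 5) (nat_lit 6) (nat_lit 4) (nat_lit 4) (nat_lit 4) (nat_lit 538) (nat_lit 409) (nat_lit 253)) (XT.lf (nat_lit 0) (nat_lit 224846037345) (nat_lit 152) (nat_lit 216832674823) (nat_lit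 0) (nat_lit 202078956627) (nat_lit 4) (nat_lit 5) (nat_lit 6) (nat_lit 4) (nat_lit 4) (nat_lit 4) (nat_lit 539) (nat_lit 409) (nat_lit 252)))) (XT.nd (nat_lit 156) (nat_lit 76) (nat_lit 0) (XT.nd (nat_lit 78) (nat_lit 0) (nat_lit 0) (XT.lf (nat_lit 0) (nat_lit 267322511574) (nat_lit 152) (nat_lit 162448889179) (nat_lit 0) (nat_lit 244554919677) (nat_lit 4) (nat_lit 5) (nat_lit 6) (nat_lit 4) (nat_lit 4) (nat_lit 4) (nat_lit 540) (nat_lit 409) (nat_lit 251)) (XT.lf (nat_lit 0) (nat_lit 311921392383) (nat_lit 152) (nat_lit 105348769494) (nat_lit 0) (nat_lit 289153313650) (nat_lit 4) (nat_lit 5) (nat_lit 6) (nat_lit 4) (nat_lit 4) (nat_lit 4) (nat_lit 541) (nat_lit 409) (nat_lit 250))) (XT.nd (nat_lit 78) (nat_lit 76) (nat_lit 0) (XT.lf (nat_lit 0) (nat_lit 358748867586) (nat_lit 152) (nat_lit 45396363102) (nat_lit 0) (nat_lit 335980325198) (nat_lit 4) (nat_lit 5) (nat_lit 6) (nat_lit 4) (nat_lit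 4) (nat_lit 4) (nat_lit 542) (nat_lit 409) (nat_lit 249)) (XT.lf (nat_lit 0) (nat_lit 18131391584) (nat_lit 76) (nat_lit 390068121421) (nat_lit 76) (nat_lit 367299137458) (nat_lit 3) (nat_lit 4) (nat_lit 4) (nat_lit 5) (nat_lit 4) (nat_lit 4) (nat_lit 543) (nat_lit 409) (nat_lit 248)))))) (XT.nd (nat_lit 546) (nat_lit 1900) (nat_lit 0) (XT.nd (nat_lit 234) (nat_lit 608) (nat_lit 0) (XT.nd (nat_lit 78) (nat_lit 0) (nat_lit 0) (XT.lf (nat_lit 0) (nat_lit 1008982535) (nat_lit 0) (nat_lit 1008982535) (nat_lit 532) (nat_lit 1781508970) (nat_lit 154) (nat_lit 5) (nat_lit 154) (nat_lit 3) (nat_lit 161) (nat_lit 3) (nat_lit 410) (nat_lit 410) (nat_lit 380)) (XT.nd (nat_lit 78) (nat_lit 0) (nat_lit 0) (XT.lf (nat_lit 0) (nat_lit 5509819972) (nat_lit 532) (nat_lit 1833053354) (nat_lit 608) (nat_lit 376740993) (nat_lit 154) (nat_lit 5) (nat_lit 161) (nat_lit 3) (nat_lit 162) (nat_lit 5) (nat_lit 411)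 (nat_lit 410) (nat_lit 379)) (XT.lf (nat_lit 76) (nat_lit 2087143030) (nat_lit 0) (nat_lit 4949112228) (nat_lit 608) (nat_lit 811158175) (nat_lit 155) (nat_lit 5) (nat_lit 154) (nat_lit 5) (nat_lit 162) (nat_lit 5) (nat_lit 412) (nat_lit 410) (nat_lit 378)))) (XT.nd (nat_lit 156) (nat_lit 0) (nat_lit 76) (XT.nd (nat_lit 78) (nat_lit 0) (nat_lit 76) (XT.lf (nat_lit 0) (nat_lit 583081725) (nat_lit 608) (nat_lit 1774739977) (nat_lit 684) (nat_lit 5625970142) (nat_lit 146) (nat_lit 5) (nat_lit 154) (nat_lit 5) (nat_lit 155) (nat_lit 5) (nat_lit 413) (nat_lit 410) (nat_lit 377)) (XT.lf (nat_lit 0) (nat_lit 1983861001) (nat_lit 608) (nat_lit 5709585388) (nat_lit 684) (nat_lit 434709901) (nat_lit 147) (nat_lit 5) (nat_lit 155) (nat_lit 5) (nat_lit 156) (nat_lit 5) (nat_lit 414) (nat_lit 410) (nat_lit 376))) (XT.nd (nat_lit 78) (nat_lit 0) (nat_lit 0) (XT.lf (nat_lit 0) (nat_lit 3446652624) (nat_lit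 608) (nat_lit 1486306629) (nat_lit 684) (nat_lit 3347215681) (nat_lit 147) (nat_lit 5) (nat_lit 155) (nat_lit 5) (nat_lit 156) (nat_lit 5) (nat_lit 415) (nat_lit 410) (nat_lit 375)) (XT.lf (nat_lit 76) (nat_lit 2994367646) (nat_lit 0) (nat_lit 1961415952) (nat_lit 684) (nat_lit 3485383922) (nat_lit 148) (nat_lit 5) (nat_lit 147) (nat_lit 5) (nat_lit 156) (nat_lit 5) (nat_lit 416) (nat_lit 410) (nat_lit 374))))) (XT.nd (nat_lit 234) (nat_lit 1368) (nat_lit 0) (XT.nd (nat_lit 78) (nat_lit 684) (nat_lit 0) (XT.lf (nat_lit 0) (nat_lit 6513578952) (nat_lit 608) (nat_lit 929499844) (nat_lit 684) (nat_lit 1168501971) (nat_lit 148) (nat_lit 5) (nat_lit 156) (nat_lit 5) (nat_lit 157) (nat_lit 5) (nat_lit 417) (nat_lit 410) (nat_lit 373)) (XT.nd (nat_lit 78) (nat_lit 684) (nat_lit 0) (XT.lf (nat_lit 76) (nat_lit 3854672760) (nat_lit 0) (nat_lit 4319816718) (nat_lit 684) (nat_lit 614793859) (nat_lit 149)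 (nat_lit 5) (nat_lit 148) (nat_lit 5) (nat_lit 157) (nat_lit 5) (nat_lit 418) (nat_lit 410) (nat_lit 372)) (XT.lf (nat_lit 0) (nat_lit 862631053) (nat_lit 684) (nat_lit 131337874) (nat_lit 760) (nat_lit 7983682201) (nat_lit 139) (nat_lit 5) (nat_lit 148) (nat_lit 5) (nat_lit 149) (nat_lit 5) (nat_lit 419) (nat_lit 410) (nat_lit 371)))) (XT.nd (nat_lit 156) (nat_lit 760) (nat_lit 0) (XT.nd (nat_lit 78) (nat_lit 684) (nat_lit 0) (XT.lf (nat_lit 0) (nat_lit 2449558171) (nat_lit 684) (nat_lit 4201508948) (nat_lit 76) (nat_lit 2521077511) (nat_lit 140) (nat_lit 5) (nat_lit 149) (nat_lit 5) (nat_lit 141) (nat_lit 5) (nat_lit 420) (nat_lit 410) (nat_lit 370)) (XT.lf (nat_lit 0) (nat_lit 917462153) (nat_lit 684) (nat_lit 3171022675) (nat_lit 760) (nat_lit 5289269942) (nat_lit 131) (nat_lit 5) (nat_lit 140) (nat_lit 5) (nat_lit 141) (nat_lit 5) (nat_lit 421) (nat_lit 410) (nat_lit 369))) (XT.nd (nat_lit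 78) (nat_lit 760) (nat_lit 0) (XT.lf (nat_lit 0) (nat_lit 5831184901) (nat_lit 760) (nat_lit 3214348608) (nat_lit 76) (nat_lit 547044004) (nat_lit 131) (nat_lit 5) (nat_lit 141) (nat_lit 5) (nat_lit 132) (nat_lit 5) (nat_lit 422) (nat_lit 410) (nat_lit 368)) (XT.lf (nat_lit 0) (nat_lit 2263102211) (nat_lit 760) (nat_lit 5429963368) (nat_lit 836) (nat_lit 2123495867) (nat_lit 121) (nat_lit 5) (nat_lit 131) (nat_lit 5) (nat_lit 132) (nat_lit 5) (nat_lit 423) (nat_lit 410) (nat_lit 367))))))) (XT.nd (nat_lit 1092) (nat_lit 1900) (nat_lit 0) (XT.nd (nat_lit 546) (nat_lit 1140) (nat_lit 0) (XT.nd (nat_lit 234) (nat_lit 1140) (nat_lit 0) (XT.nd (nat_lit 78) (nat_lit 456) (nat_lit 0) (XT.lf (nat_lit 0) (nat_lit 8075607131) (nat_lit 760) (nat_lit 1573442860) (nat_lit 836) (nat_lit 402665370) (nat_lit 121) (nat_lit 5) (nat_lit 131) (nat_lit 5) (nat_lit 132) (nat_lit 5) (nat_lit 424) (nat_lit 410) (nat_lit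 366)) (XT.nd (nat_lit 78) (nat_lit 0) (nat_lit 0) (XT.lf (nat_lit 0) (nat_lit 1409006638) (nat_lit 456) (nat_lit 6402750483) (nat_lit 76) (nat_lit 2483305795) (nat_lit 115) (nat_lit 5) (nat_lit 121) (nat_lit 5) (nat_lit 116) (nat_lit 5) (nat_lit 425) (nat_lit 410) (nat_lit 365)) (XT.lf (nat_lit 0) (nat_lit 3307519374) (nat_lit 456) (nat_lit 510565932) (nat_lit 76) (nat_lit 6731691395) (nat_lit 115) (nat_lit 5) (nat_lit 121) (nat_lit 5) (nat_lit 116) (nat_lit 5) (nat_lit 426) (nat_lit 410) (nat_lit 364)))) (XT.nd (nat_lit 156) (nat_lit 380) (nat_lit 0) (XT.nd (nat_lit 78) (nat_lit 380) (nat_lit 0) (XT.lf (nat_lit 0) (nat_lit 5351406386) (nat_lit 456) (nat_lit 5009150581) (nat_lit 76) (nat_lit 454164277) (nat_lit 110) (nat_lit 5) (nat_lit 116) (nat_lit 5) (nat_lit 111) (nat_lit 5) (nat_lit 427) (nat_lit 410) (nat_lit 363)) (XT.lf (nat_lit 0) (nat_lit 1290814482) (nat_lit 380) (nat_lit 6252050971)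 (nat_lit 456) (nat_lit 3547795340) (nat_lit 105) (nat_lit 5) (nat_lit 110) (nat_lit 5) (nat_lit 111) (nat_lit 5) (nat_lit 428) (nat_lit 410) (nat_lit 362))) (XT.nd (nat_lit 78) (nat_lit 380) (nat_lit 0) (XT.lf (nat_lit 0) (nat_lit 8029973687) (nat_lit 380) (nat_lit 1854022419) (nat_lit 456) (nat_lit 1494412155) (nat_lit 105) (nat_lit 5) (nat_lit 110) (nat_lit 5) (nat_lit 111) (nat_lit 5) (nat_lit 429) (nat_lit 410) (nat_lit 361)) (XT.lf (nat_lit 0) (nat_lit 695570514) (nat_lit 380) (nat_lit 8245881305) (nat_lit 76) (nat_lit 2735833829) (nat_lit 100) (nat_lit 5) (nat_lit 105) (nat_lit 5) (nat_lit 101) (nat_lit 5) (nat_lit 430) (nat_lit 410) (nat_lit 360))))) (XT.nd (nat_lit 234) (nat_lit 608) (nat_lit 0) (XT.nd (nat_lit 78) (nat_lit 532) (nat_lit 0) (XT.lf (nat_lit 0) (nat_lit 2990764002) (nat_lit 380) (nat_lit 1427631496) (nat_lit 76) (nat_lit 7569203502) (nat_lit 100) (nat_lit 5) (nat_lit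 105) (nat_lit 5) (nat_lit 101) (nat_lit 5) (nat_lit 431) (nat_lit 410) (nat_lit 359)) (XT.nd (nat_lit 78) (nat_lit 228) (nat_lit 0) (XT.lf (nat_lit 0) (nat_lit 5458850309) (nat_lit 380) (nat_lit 6445587204) (nat_lit 76) (nat_lit 406096908) (nat_lit 96) (nat_lit 5) (nat_lit 101) (nat_lit 5) (nat_lit 97) (nat_lit 5) (nat_lit 432) (nat_lit 410) (nat_lit 358)) (XT.lf (nat_lit 0) (nat_lit 828285789) (nat_lit 228) (nat_lit 7292954365) (nat_lit 304) (nat_lit 4524843934) (nat_lit 93) (nat_lit 5) (nat_lit 96) (nat_lit 5) (nat_lit 97) (nat_lit 5) (nat_lit 433) (nat_lit 410) (nat_lit 357)))) (XT.nd (nat_lit 156) (nat_lit 228) (nat_lit 0) (XT.nd (nat_lit 78) (nat_lit 380) (nat_lit 0) (XT.lf (nat_lit 0) (nat_lit 8641707520) (nat_lit 228) (nat_lit 2346272604) (nat_lit 304) (nat_lit 2006881426) (nat_lit 93) (nat_lit 5) (nat_lit 96) (nat_lit 5) (nat_lit 97) (nat_lit 5) (nat_lit 434) (nat_lit 410) (nat_lit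 356)) (XT.lf (nat_lit 0) (nat_lit 680527708) (nat_lit 380) (nat_lit 9863780101) (nat_lit 76) (nat_lit 2813086776) (nat_lit 88) (nat_lit 5) (nat_lit 93) (nat_lit 5) (nat_lit 89) (nat_lit 5) (nat_lit 435) (nat_lit 410) (nat_lit 355))) (XT.nd (nat_lit 78) (nat_lit 228) (nat_lit 0) (XT.lf (nat_lit 0) (nat_lit 3512398668) (nat_lit 380) (nat_lit 1970827644) (nat_lit 76) (nat_lit 8249316419) (nat_lit 88) (nat_lit 5) (nat_lit 93) (nat_lit 5) (nat_lit 89) (nat_lit 5) (nat_lit 436) (nat_lit 410) (nat_lit 354)) (XT.lf (nat_lit 0) (nat_lit 6478662608) (nat_lit 228) (nat_lit 74199141) (nat_lit 304) (nat_lit 7570246352) (nat_lit 85) (nat_lit 5) (nat_lit 88) (nat_lit 5) (nat_lit 89) (nat_lit 5) (nat_lit 437) (nat_lit 410) (nat_lit 353)))))) (XT.nd (nat_lit 546) (nat_lit 912) (nat_lit 0) (XT.nd (nat_lit 234) (nat_lit 456) (nat_lit 0) (XT.nd (nat_lit 78) (nat_lit 304) (nat_lit 0) (XT.lf (nat_lit 0) (nat_lit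 778136205) (nat_lit 228) (nat_lit 9067395489) (nat_lit 304) (nat_lit 4682670140) (nat_lit 82) (nat_lit 5) (nat_lit 85) (nat_lit 5) (nat_lit 86) (nat_lit 5) (nat_lit 438) (nat_lit 410) (nat_lit 352)) (XT.nd (nat_lit 78) (nat_lit 304) (nat_lit 0) (XT.lf (nat_lit 0) (nat_lit 9840508944) (nat_lit 228) (nat_lit 3560462533) (nat_lit 304) (nat_lit 1547680797) (nat_lit 82) (nat_lit 5) (nat_lit 85) (nat_lit 5) (nat_lit 86) (nat_lit 5) (nat_lit 439) (nat_lit 410) (nat_lit 351)) (XT.lf (nat_lit 0) (nat_lit 1755522141) (nat_lit 304) (nat_lit 11400124457) (nat_lit 76) (nat_lit 2229760928) (nat_lit 78) (nat_lit 5) (nat_lit 82) (nat_lit 5) (nat_lit 79) (nat_lit 5) (nat_lit 440) (nat_lit 410) (nat_lit 350)))) (XT.nd (nat_lit 156) (nat_lit 228) (nat_lit 0) (XT.nd (nat_lit 78) (nat_lit 228) (nat_lit 0) (XT.lf (nat_lit 0) (nat_lit 5287293767) (nat_lit 304) (nat_lit 2259095327) (nat_lit 76) (nat_lit 8290579454)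 (nat_lit 78) (nat_lit 5) (nat_lit 82) (nat_lit 5) (nat_lit 79) (nat_lit 5) (nat_lit 441) (nat_lit 410) (nat_lit 349)) (XT.lf (nat_lit 0) (nat_lit 7537384846) (nat_lit 228) (nat_lit 1546544511) (nat_lit 304) (nat_lit 7222771764) (nat_lit 75) (nat_lit 5) (nat_lit 78) (nat_lit 5) (nat_lit 79) (nat_lit 5) (nat_lit 442) (nat_lit 410) (nat_lit 348))) (XT.nd (nat_lit 78) (nat_lit 76) (nat_lit 0) (XT.lf (nat_lit 0) (nat_lit 1018488746) (nat_lit 152) (nat_lit 12152034867) (nat_lit 228) (nat_lit 3624397292) (nat_lit 73) (nat_lit 5) (nat_lit 75) (nat_lit 5) (nat_lit 76) (nat_lit 5) (nat_lit 443) (nat_lit 410) (nat_lit 347)) (XT.lf (nat_lit 0) (nat_lit 296638261) (nat_lit 228) (nat_lit 5773817203) (nat_lit 76) (nat_lit 11229598958) (nat_lit 72) (nat_lit 5) (nat_lit 75) (nat_lit 5) (nat_lit 73) (nat_lit 5) (nat_lit 444) (nat_lit 410) (nat_lit 346))))) (XT.nd (nat_lit 312) (nat_lit 380) (nat_lit 0) (XT.nd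 (nat_lit 156) (nat_lit 304) (nat_lit 0) (XT.nd (nat_lit 78) (nat_lit 0) (nat_lit 0) (XT.lf (nat_lit 0) (nat_lit 4346193339) (nat_lit 304) (nat_lit 13051031201) (nat_lit 76) (nat_lit 427541676) (nat_lit 69) (nat_lit 5) (nat_lit 73) (nat_lit 5) (nat_lit 70) (nat_lit 5) (nat_lit 445) (nat_lit 410) (nat_lit 345)) (XT.lf (nat_lit 0) (nat_lit 8770295446) (nat_lit 304) (nat_lit 2464824910) (nat_lit 76) (nat_lit 7131995478) (nat_lit 69) (nat_lit 5) (nat_lit 73) (nat_lit 5) (nat_lit 70) (nat_lit 5) (nat_lit 446) (nat_lit 410) (nat_lit 344))) (XT.nd (nat_lit 78) (nat_lit 152) (nat_lit 0) (XT.lf (nat_lit 0) (nat_lit 8895399541) (nat_lit 152) (nat_lit 4633531168) (nat_lit 228) (nat_lit 5401991245) (nat_lit 67) (nat_lit 5) (nat_lit 69) (nat_lit 5) (nat_lit 70) (nat_lit 5) (nat_lit 447) (nat_lit 410) (nat_lit 343)) (XT.lf (nat_lit 0) (nat_lit 1354791042) (nat_lit 152) (nat_lit 17244989926) (nat_lit 228)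 (nat_lit 919428418) (nat_lit 65) (nat_lit 5) (nat_lit 67) (nat_lit 5) (nat_lit 68) (nat_lit 5) (nat_lit 448) (nat_lit 410) (nat_lit 342)))) (XT.nd (nat_lit 156) (nat_lit 152) (nat_lit 0) (XT.nd (nat_lit 78) (nat_lit 152) (nat_lit 0) (XT.lf (nat_lit 0) (nat_lit 3889742637) (nat_lit 228) (nat_lit 6643821349) (nat_lit 76) (nat_lit 9589210596) (nat_lit 64) (nat_lit 5) (nat_lit 67) (nat_lit 5) (nat_lit 65) (nat_lit 5) (nat_lit 449) (nat_lit 410) (nat_lit 341)) (XT.lf (nat_lit 0) (nat_lit 5577619805) (nat_lit 152) (nat_lit 3394120669) (nat_lit 228) (nat_lit 11780865045) (nat_lit 62) (nat_lit 5) (nat_lit 64) (nat_lit 5) (nat_lit 65) (nat_lit 5) (nat_lit 450) (nat_lit 410) (nat_lit 340))) (XT.nd (nat_lit 78) (nat_lit 152) (nat_lit 0) (XT.lf (nat_lit 0) (nat_lit 14462742755) (nat_lit 228) (nat_lit 2872350148) (nat_lit 76) (nat_lit 4071094123) (nat_lit 62) (nat_lit 5) (nat_lit 65) (nat_lit 5) (nat_lit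 63) (nat_lit 5) (nat_lit 451) (nat_lit 410) (nat_lit 339)) (XT.lf (nat_lit 0) (nat_lit 10281764542) (nat_lit 152) (nat_lit 10140313728) (nat_lit 228) (nat_lit 1660684231) (nat_lit 60) (nat_lit 5) (nat_lit 62) (nat_lit 5) (nat_lit 63) (nat_lit 5) (nat_lit 452) (nat_lit 410) (nat_lit 338))))))))
noncomputable def xc119 : XT := (XT.nd (nat_lit 2184) (nat_lit 1292) (nat_lit 0) (XT.nd (nat_lit 1092) (nat_lit 912) (nat_lit 0) (XT.nd (nat_lit 546) (nat_lit 608) (nat_lit 0) (XT.nd (nat_lit 234) (nat_lit 380) (nat_lit 0) (XT.nd (nat_lit 78) (nat_lit 152) (nat_lit 0) (XT.lf (nat_lit 0) (nat_lit 1346978374) (nat_lit 152) (nat_lit 2463072794) (nat_lit 228) (nat_lit 18977674497) (nat_lit 57) (nat_lit 5) (nat_lit 59) (nat_lit 5) (nat_lit 60) (nat_lit 5) (nat_lit 453) (nat_lit 410) (nat_lit 337)) (XT.nd (nat_lit 78) (nat_lit 152) (nat_lit 0) (XT.lf (nat_lit 0) (nat_lit 9767050128) (nat_lit 228) (nat_lit 8111280461)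 (nat_lit 76) (nat_lit 5634821845) (nat_lit 57) (nat_lit 5) (nat_lit 60) (nat_lit 5) (nat_lit 58) (nat_lit 5) (nat_lit 454) (nat_lit 410) (nat_lit 336)) (XT.lf (nat_lit 0) (nat_lit 6000632329) (nat_lit 152) (nat_lit 10134382871) (nat_lit 228) (nat_lit 8134182865) (nat_lit 55) (nat_lit 5) (nat_lit 57) (nat_lit 5) (nat_lit 58) (nat_lit 5) (nat_lit 455) (nat_lit 410) (nat_lit 335)))) (XT.nd (nat_lit 156) (nat_lit 152) (nat_lit 0) (XT.nd (nat_lit 78) (nat_lit 228) (nat_lit 0) (XT.lf (nat_lit 0) (nat_lit 21064615171) (nat_lit 152) (nat_lit 1873632118) (nat_lit 228) (nat_lit 2118958422) (nat_lit 55) (nat_lit 5) (nat_lit 57) (nat_lit 5) (nat_lit 58) (nat_lit 5) (nat_lit 456) (nat_lit 410) (nat_lit 334)) (XT.lf (nat_lit 0) (nat_lit 4328518746) (nat_lit 228) (nat_lit 14725585780) (nat_lit 76) (nat_lit 6813944593) (nat_lit 52) (nat_lit 5) (nat_lit 55) (nat_lit 5) (nat_lit 53) (nat_lit 5) (nat_lit 457)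 (nat_lit 410) (nat_lit 333))) (XT.nd (nat_lit 78) (nat_lit 0) (nat_lit 0) (XT.lf (nat_lit 0) (nat_lit 367718199) (nat_lit 152) (nat_lit 10744975697) (nat_lit 228) (nat_lit 15600729940) (nat_lit 50) (nat_lit 5) (nat_lit 52) (nat_lit 5) (nat_lit 53) (nat_lit 5) (nat_lit 458) (nat_lit 410) (nat_lit 332)) (XT.lf (nat_lit 0) (nat_lit 16693159940) (nat_lit 152) (nat_lit 1773064843) (nat_lit 228) (nat_lit 9123337768) (nat_lit 50) (nat_lit 5) (nat_lit 52) (nat_lit 5) (nat_lit 53) (nat_lit 5) (nat_lit 459) (nat_lit 410) (nat_lit 331))))) (XT.nd (nat_lit 234) (nat_lit 304) (nat_lit 0) (XT.nd (nat_lit 78) (nat_lit 228) (nat_lit 0) (XT.lf (nat_lit 0) (nat_lit 5344152690) (nat_lit 76) (nat_lit 21027576839) (nat_lit 152) (nat_lit 2128566292) (nat_lit 49) (nat_lit 5) (nat_lit 50) (nat_lit 5) (nat_lit 51) (nat_lit 4) (nat_lit 460) (nat_lit 410) (nat_lit 330)) (XT.nd (nat_lit 78) (nat_lit 152) (nat_lit 0) (XT.lf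 (nat_lit 0) (nat_lit 5247168750) (nat_lit 152) (nat_lit 6818775772) (nat_lit 76) (nat_lit 17376643323) (nat_lit 48) (nat_lit 5) (nat_lit 50) (nat_lit 5) (nat_lit 49) (nat_lit 5) (nat_lit 461) (nat_lit 410) (nat_lit 329)) (XT.lf (nat_lit 0) (nat_lit 10608736241) (nat_lit 152) (nat_lit 2459471767) (nat_lit 228) (nat_lit 17354641321) (nat_lit 46) (nat_lit 5) (nat_lit 48) (nat_lit 5) (nat_lit 49) (nat_lit 5) (nat_lit 462) (nat_lit 410) (nat_lit 328)))) (XT.nd (nat_lit 156) (nat_lit 228) (nat_lit 0) (XT.nd (nat_lit 78) (nat_lit 76) (nat_lit 0) (XT.lf (nat_lit 0) (nat_lit 21499316878) (nat_lit 228) (nat_lit 2454489851) (nat_lit 76) (nat_lit 7487368320) (nat_lit 46) (nat_lit 5) (nat_lit 49) (nat_lit 5) (nat_lit 47) (nat_lit 4) (nat_lit 463) (nat_lit 410) (nat_lit 327)) (XT.lf (nat_lit 0) (nat_lit 16221981714) (nat_lit 76) (nat_lit 14406981061) (nat_lit 152) (nat_lit 1867607149) (nat_lit 45) (nat_lit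 5) (nat_lit 46) (nat_lit 5) (nat_lit 47) (nat_lit 4) (nat_lit 464) (nat_lit 410) (nat_lit 326))) (XT.nd (nat_lit 78) (nat_lit 0) (nat_lit 0) (XT.lf (nat_lit 0) (nat_lit 2252973584) (nat_lit 152) (nat_lit 4206687678) (nat_lit 228) (nat_lit 27136870862) (nat_lit 42) (nat_lit 5) (nat_lit 44) (nat_lit 5) (nat_lit 45) (nat_lit 5) (nat_lit 465) (nat_lit 410) (nat_lit 325)) (XT.lf (nat_lit 0) (nat_lit 15505775228) (nat_lit 228) (nat_lit 12632657448) (nat_lit 76) (nat_lit 6593268315) (nat_lit 42) (nat_lit 5) (nat_lit 45) (nat_lit 5) (nat_lit 43) (nat_lit 4) (nat_lit 466) (nat_lit 410) (nat_lit 324)))))) (XT.nd (nat_lit 546) (nat_lit 380) (nat_lit 0) (XT.nd (nat_lit 234) (nat_lit 228) (nat_lit 0) (XT.nd (nat_lit 78) (nat_lit 228) (nat_lit 0) (XT.lf (nat_lit 0) (nat_lit 7144739304) (nat_lit 76) (nat_lit 18024319355) (nat_lit 152) (nat_lit 10746328055) (nat_lit 41) (nat_lit 5) (nat_lit 42) (nat_lit 5)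 (nat_lit 43) (nat_lit 4) (nat_lit 467) (nat_lit 410) (nat_lit 323)) (XT.nd (nat_lit 78) (nat_lit 228) (nat_lit 0) (XT.lf (nat_lit 0) (nat_lit 28321283586) (nat_lit 76) (nat_lit 7192818409) (nat_lit 152) (nat_lit 1634226470) (nat_lit 41) (nat_lit 5) (nat_lit 42) (nat_lit 5) (nat_lit 43) (nat_lit 4) (nat_lit 468) (nat_lit 410) (nat_lit 322)) (XT.lf (nat_lit 0) (nat_lit 7927909484) (nat_lit 228) (nat_lit 26140122368) (nat_lit 76) (nat_lit 4356276130) (nat_lit 38) (nat_lit 5) (nat_lit 41) (nat_lit 5) (nat_lit 39) (nat_lit 4) (nat_lit 469) (nat_lit 410) (nat_lit 321)))) (XT.nd (nat_lit 156) (nat_lit 152) (nat_lit 0) (XT.nd (nat_lit 78) (nat_lit 76) (nat_lit 0) (XT.lf (nat_lit 0) (nat_lit 18168324458) (nat_lit 228) (nat_lit 5173873168) (nat_lit 76) (nat_lit 16407795992) (nat_lit 38) (nat_lit 5) (nat_lit 41) (nat_lit 5) (nat_lit 39) (nat_lit 4) (nat_lit 470) (nat_lit 410) (nat_lit 320)) (XT.lf (nat_lit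 0) (nat_lit 17370424270) (nat_lit 76) (nat_lit 11807476868) (nat_lit 152) (nat_lit 11951206605) (nat_lit 37) (nat_lit 5) (nat_lit 38) (nat_lit 5) (nat_lit 39) (nat_lit 4) (nat_lit 471) (nat_lit 410) (nat_lit 319))) (XT.nd (nat_lit 78) (nat_lit 152) (nat_lit 0) (XT.lf (nat_lit 0) (nat_lit 40817780217) (nat_lit 152) (nat_lit 1383723734) (nat_lit 0) (nat_lit 371683641) (nat_lit 37) (nat_lit 5) (nat_lit 39) (nat_lit 4) (nat_lit 37) (nat_lit 4) (nat_lit 472) (nat_lit 410) (nat_lit 318)) (XT.lf (nat_lit 0) (nat_lit 9205798817) (nat_lit 152) (nat_lit 21596094116) (nat_lit 76) (nat_lit 13253488776) (nat_lit 35) (nat_lit 5) (nat_lit 37) (nat_lit 5) (nat_lit 36) (nat_lit 4) (nat_lit 473) (nat_lit 410) (nat_lit 317))))) (XT.nd (nat_lit 234) (nat_lit 228) (nat_lit 0) (XT.nd (nat_lit 78) (nat_lit 76) (nat_lit 0) (XT.lf (nat_lit 0) (nat_lit 1939810116) (nat_lit 76) (nat_lit 18757084896) (nat_lit 152) (nat_lit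 24911311552) (nat_lit 34) (nat_lit 5) (nat_lit 35) (nat_lit 5) (nat_lit 36) (nat_lit 4) (nat_lit 474) (nat_lit 410) (nat_lit 316)) (XT.nd (nat_lit 78) (nat_lit 76) (nat_lit 0) (XT.lf (nat_lit 0) (nat_lit 27377591854) (nat_lit 76) (nat_lit 5737660321) (nat_lit 152) (nat_lit 14105786162) (nat_lit 34) (nat_lit 5) (nat_lit 35) (nat_lit 5) (nat_lit 36) (nat_lit 4) (nat_lit 475) (nat_lit 410) (nat_lit 315)) (XT.lf (nat_lit 0) (nat_lit 5191087773) (nat_lit 76) (nat_lit 41155752364) (nat_lit 76) (nat_lit 2558056849) (nat_lit 33) (nat_lit 4) (nat_lit 34) (nat_lit 5) (nat_lit 34) (nat_lit 4) (nat_lit 476) (nat_lit 410) (nat_lit 314)))) (XT.nd (nat_lit 156) (nat_lit 76) (nat_lit 0) (XT.nd (nat_lit 78) (nat_lit 76) (nat_lit 0) (XT.lf (nat_lit 0) (nat_lit 9683922039) (nat_lit 152) (nat_lit 18762802894) (nat_lit 76) (nat_lit 22197602619) (nat_lit 32) (nat_lit 5) (nat_lit 34) (nat_lit 5) (nat_lit 33) (nat_lit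 4) (nat_lit 477) (nat_lit 410) (nat_lit 313)) (XT.lf (nat_lit 0) (nat_lit 7614690432) (nat_lit 76) (nat_lit 14944267869) (nat_lit 152) (nat_lit 29904329092) (nat_lit 31) (nat_lit 5) (nat_lit 32) (nat_lit 5) (nat_lit 33) (nat_lit 4) (nat_lit 478) (nat_lit 410) (nat_lit 312))) (XT.nd (nat_lit 78) (nat_lit 76) (nat_lit 0) (XT.lf (nat_lit 0) (nat_lit 35939983452) (nat_lit 76) (nat_lit 443777953) (nat_lit 152) (nat_lit 17974133838) (nat_lit 31) (nat_lit 5) (nat_lit 32) (nat_lit 5) (nat_lit 33) (nat_lit 4) (nat_lit 479) (nat_lit 410) (nat_lit 311)) (XT.lf (nat_lit 0) (nat_lit 9381998814) (nat_lit 76) (nat_lit 41883726886) (nat_lit 76) (nat_lit 5063212469) (nat_lit 30) (nat_lit 4) (nat_lit 31) (nat_lit 5) (nat_lit 31) (nat_lit 4) (nat_lit 480) (nat_lit 410) (nat_lit 310))))))) (XT.nd (nat_lit 1092) (nat_lit 608) (nat_lit 0) (XT.nd (nat_lit 546) (nat_lit 304) (nat_lit 0) (XT.nd (nat_lit 234) (nat_lit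 228) (nat_lit 0) (XT.nd (nat_lit 78) (nat_lit 76) (nat_lit 0) (XT.lf (nat_lit 0) (nat_lit 8534401742) (nat_lit 152) (nat_lit 19338426407) (nat_lit 76) (nat_lit 30503426384) (nat_lit 29) (nat_lit 5) (nat_lit 31) (nat_lit 5) (nat_lit 30) (nat_lit 4) (nat_lit 481) (nat_lit 410) (nat_lit 309)) (XT.nd (nat_lit 78) (nat_lit 0) (nat_lit 0) (XT.lf (nat_lit 0) (nat_lit 9862375557) (nat_lit 76) (nat_lit 12922561667) (nat_lit 152) (nat_lit 37729690065) (nat_lit 28) (nat_lit 5) (nat_lit 29) (nat_lit 5) (nat_lit 30) (nat_lit 4) (nat_lit 482) (nat_lit 410) (nat_lit 308)) (XT.lf (nat_lit 0) (nat_lit 38113461324) (nat_lit 152) (nat_lit 21618468504) (nat_lit 0) (nat_lit 3009716367) (nat_lit 28) (nat_lit 5) (nat_lit 30) (nat_lit 4) (nat_lit 28) (nat_lit 4) (nat_lit 483) (nat_lit 410) (nat_lit 307)))) (XT.nd (nat_lit 156) (nat_lit 76) (nat_lit 0) (XT.nd (nat_lit 78) (nat_lit 76) (nat_lit 0) (XT.lf (nat_lit 0)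 (nat_lit 8920841892) (nat_lit 76) (nat_lit 45628464217) (nat_lit 76) (nat_lit 10513665789) (nat_lit 27) (nat_lit 4) (nat_lit 28) (nat_lit 5) (nat_lit 28) (nat_lit 4) (nat_lit 484) (nat_lit 410) (nat_lit 306)) (XT.lf (nat_lit 0) (nat_lit 4530650009) (nat_lit 152) (nat_lit 25837493022) (nat_lit 76) (nat_lit 37110764077) (nat_lit 26) (nat_lit 5) (nat_lit 28) (nat_lit 5) (nat_lit 27) (nat_lit 4) (nat_lit 485) (nat_lit 410) (nat_lit 305))) (XT.nd (nat_lit 78) (nat_lit 0) (nat_lit 0) (XT.lf (nat_lit 0) (nat_lit 5982588846) (nat_lit 76) (nat_lit 14074942964) (nat_lit 152) (nat_lit 49945306092) (nat_lit 25) (nat_lit 5) (nat_lit 26) (nat_lit 5) (nat_lit 27) (nat_lit 4) (nat_lit 486) (nat_lit 410) (nat_lit 304)) (XT.lf (nat_lit 0) (nat_lit 36843158442) (nat_lit 152) (nat_lit 32413861901) (nat_lit 0) (nat_lit 3371825328) (nat_lit 25) (nat_lit 5) (nat_lit 27) (nat_lit 4) (nat_lit 25) (nat_lit 4) (nat_lit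 487) (nat_lit 410) (nat_lit 303))))) (XT.nd (nat_lit 234) (nat_lit 152) (nat_lit 0) (XT.nd (nat_lit 78) (nat_lit 76) (nat_lit 0) (XT.lf (nat_lit 0) (nat_lit 541394130) (nat_lit 76) (nat_lit 54156628079) (nat_lit 76) (nat_lit 20676634281) (nat_lit 24) (nat_lit 4) (nat_lit 25) (nat_lit 5) (nat_lit 25) (nat_lit 4) (nat_lit 488) (nat_lit 410) (nat_lit 302)) (XT.nd (nat_lit 78) (nat_lit 76) (nat_lit 0) (XT.lf (nat_lit 0) (nat_lit 36251998346) (nat_lit 76) (nat_lit 37733504166) (nat_lit 76) (nat_lit 4245262098) (nat_lit 24) (nat_lit 4) (nat_lit 25) (nat_lit 5) (nat_lit 25) (nat_lit 4) (nat_lit 489) (nat_lit 410) (nat_lit 301)) (XT.lf (nat_lit 0) (nat_lit 12582570589) (nat_lit 152) (nat_lit 7701827853) (nat_lit 76) (nat_lit 60935564825) (nat_lit 23) (nat_lit 5) (nat_lit 25) (nat_lit 5) (nat_lit 24) (nat_lit 4) (nat_lit 490) (nat_lit 410) (nat_lit 300)))) (XT.nd (nat_lit 156) (nat_lit 76) (nat_lit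 0) (XT.nd (nat_lit 78) (nat_lit 0) (nat_lit 0) (XT.lf (nat_lit 0) (nat_lit 29135503787) (nat_lit 76) (nat_lit 1420146346) (nat_lit 152) (nat_lit 53777166180) (nat_lit 22) (nat_lit 5) (nat_lit 23) (nat_lit 5) (nat_lit 24) (nat_lit 4) (nat_lit 491) (nat_lit 410) (nat_lit 299)) (XT.lf (nat_lit 0) (nat_lit 49838694045) (nat_lit 152) (nat_lit 19818315089) (nat_lit 0) (nat_lit 17923737709) (nat_lit 22) (nat_lit 5) (nat_lit 24) (nat_lit 4) (nat_lit 22) (nat_lit 4) (nat_lit 492) (nat_lit 410) (nat_lit 298))) (XT.nd (nat_lit 78) (nat_lit 0) (nat_lit 0) (XT.lf (nat_lit 0) (nat_lit 17862440756) (nat_lit 76) (nat_lit 52517670742) (nat_lit 76) (nat_lit 20596251671) (nat_lit 21) (nat_lit 4) (nat_lit 22) (nat_lit 5) (nat_lit 22) (nat_lit 4) (nat_lit 493) (nat_lit 410) (nat_lit 297)) (XT.lf (nat_lit 0) (nat_lit 58099913447) (nat_lit 76) (nat_lit 34176514908) (nat_lit 76) (nat_lit 2248940850) (nat_lit 21) (nat_lit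 4) (nat_lit 22) (nat_lit 5) (nat_lit 22) (nat_lit 4) (nat_lit 494) (nat_lit 410) (nat_lit 296)))))) (XT.nd (nat_lit 546) (nat_lit 228) (nat_lit 0) (XT.nd (nat_lit 234) (nat_lit 228) (nat_lit 0) (XT.nd (nat_lit 78) (nat_lit 0) (nat_lit 0) (XT.lf (nat_lit 0) (nat_lit 1876958952) (nat_lit 76) (nat_lit 14615916609) (nat_lit 152) (nat_lit 81744579615) (nat_lit 19) (nat_lit 5) (nat_lit 20) (nat_lit 5) (nat_lit 21) (nat_lit 4) (nat_lit 495) (nat_lit 410) (nat_lit 295)) (XT.nd (nat_lit 78) (nat_lit 0) (nat_lit 0) (XT.lf (nat_lit 0) (nat_lit 36808132889) (nat_lit 152) (nat_lit 58899553136) (nat_lit 0) (nat_lit 6390019839) (nat_lit 19) (nat_lit 5) (nat_lit 21) (nat_lit 4) (nat_lit 19) (nat_lit 4) (nat_lit 496) (nat_lit 410) (nat_lit 294)) (XT.lf (nat_lit 0) (nat_lit 58371580729) (nat_lit 152) (nat_lit 19819363282) (nat_lit 0) (nat_lit 27948403956) (nat_lit 19) (nat_lit 5) (nat_lit 21) (nat_lit 4) (nat_lit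 19) (nat_lit 4) (nat_lit 497) (nat_lit 410) (nat_lit 293)))) (XT.nd (nat_lit 156) (nat_lit 152) (nat_lit 0) (XT.nd (nat_lit 78) (nat_lit 0) (nat_lit 0) (XT.lf (nat_lit 0) (nat_lit 21902328109) (nat_lit 76) (nat_lit 59445993818) (nat_lit 76) (nat_lit 29017994452) (nat_lit 18) (nat_lit 4) (nat_lit 19) (nat_lit 5) (nat_lit 19) (nat_lit 4) (nat_lit 498) (nat_lit 410) (nat_lit 292)) (XT.lf (nat_lit 0) (nat_lit 66384886426) (nat_lit 76) (nat_lit 39417946352) (nat_lit 76) (nat_lit 8985354042) (nat_lit 18) (nat_lit 4) (nat_lit 19) (nat_lit 5) (nat_lit 19) (nat_lit 4) (nat_lit 499) (nat_lit 410) (nat_lit 291))) (XT.nd (nat_lit 78) (nat_lit 76) (nat_lit 0) (XT.lf (nat_lit 0) (nat_lit 11656774634) (nat_lit 152) (nat_lit 6540578542) (nat_lit 76) (nat_lit 101224717111) (nat_lit 17) (nat_lit 5) (nat_lit 19) (nat_lit 5) (nat_lit 18) (nat_lit 4) (nat_lit 500) (nat_lit 410) (nat_lit 290)) (XT.lf (nat_lit 0)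 (nat_lit 33699685610) (nat_lit 152) (nat_lit 85838934481) (nat_lit 0) (nat_lit 4708130866) (nat_lit 16) (nat_lit 5) (nat_lit 18) (nat_lit 4) (nat_lit 16) (nat_lit 4) (nat_lit 501) (nat_lit 410) (nat_lit 289))))) (XT.nd (nat_lit 312) (nat_lit 152) (nat_lit 0) (XT.nd (nat_lit 156) (nat_lit 0) (nat_lit 0) (XT.nd (nat_lit 78) (nat_lit 76) (nat_lit 0) (XT.lf (nat_lit 0) (nat_lit 57249462698) (nat_lit 152) (nat_lit 43788837802) (nat_lit 0) (nat_lit 28254129326) (nat_lit 16) (nat_lit 5) (nat_lit 18) (nat_lit 4) (nat_lit 16) (nat_lit 4) (nat_lit 502) (nat_lit 410) (nat_lit 288)) (XT.lf (nat_lit 0) (nat_lit 363706720) (nat_lit 76) (nat_lit 81612814277) (nat_lit 76) (nat_lit 52613882213) (nat_lit 15) (nat_lit 4) (nat_lit 16) (nat_lit 5) (nat_lit 16) (nat_lit 4) (nat_lit 503) (nat_lit 410) (nat_lit 287))) (XT.nd (nat_lit 78) (nat_lit 0) (nat_lit 0) (XT.lf (nat_lit 0) (nat_lit 48232618841) (nat_lit 76)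 (nat_lit 60443113004) (nat_lit 76) (nat_lit 31440753614) (nat_lit 15) (nat_lit 4) (nat_lit 16) (nat_lit 5) (nat_lit 16) (nat_lit 4) (nat_lit 504) (nat_lit 410) (nat_lit 286)) (XT.lf (nat_lit 0) (nat_lit 98484015425) (nat_lit 76) (nat_lit 38220377789) (nat_lit 76) (nat_lit 9214754277) (nat_lit 15) (nat_lit 4) (nat_lit 16) (nat_lit 5) (nat_lit 16) (nat_lit 4) (nat_lit 505) (nat_lit 410) (nat_lit 285)))) (XT.nd (nat_lit 156) (nat_lit 0) (nat_lit 0) (XT.nd (nat_lit 78) (nat_lit 76) (nat_lit 0) (XT.lf (nat_lit 0) (nat_lit 13665201563) (nat_lit 152) (nat_lit 995068991) (nat_lit 76) (nat_lit 137340914291) (nat_lit 14) (nat_lit 5) (nat_lit 16) (nat_lit 5) (nat_lit 15) (nat_lit 4) (nat_lit 506) (nat_lit 410) (nat_lit 284)) (XT.lf (nat_lit 0) (nat_lit 38314563804) (nat_lit 152) (nat_lit 109334072957) (nat_lit 0) (nat_lit 10684380137) (nat_lit 13) (nat_lit 5) (nat_lit 15) (nat_lit 4) (nat_lit 13) (nat_lit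 4) (nat_lit 507) (nat_lit 410) (nat_lit 283))) (XT.nd (nat_lit 78) (nat_lit 0) (nat_lit 0) (XT.lf (nat_lit 0) (nat_lit 64448784117) (nat_lit 152) (nat_lit 63704122029) (nat_lit 0) (nat_lit 36815915049) (nat_lit 13) (nat_lit 5) (nat_lit 15) (nat_lit 4) (nat_lit 13) (nat_lit 4) (nat_lit 508) (nat_lit 410) (nat_lit 282)) (XT.lf (nat_lit 0) (nat_lit 91884886319) (nat_lit 152) (nat_lit 15802311248) (nat_lit 0) (nat_lit 64249459728) (nat_lit 13) (nat_lit 5) (nat_lit 15) (nat_lit 4) (nat_lit 13) (nat_lit 4) (nat_lit 509) (nat_lit 410) (nat_lit 281))))))))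
noncomputable def xc120 : XT := (XT.nd (nat_lit 2184) (nat_lit 0) (nat_lit 0) (XT.nd (nat_lit 1092) (nat_lit 228) (nat_lit 0) (XT.nd (nat_lit 546) (nat_lit 228) (nat_lit 0) (XT.nd (nat_lit 234) (nat_lit 152) (nat_lit 0) (XT.nd (nat_lit 78) (nat_lit 0) (nat_lit 0) (XT.lf (nat_lit 0) (nat_lit 35625654753) (nat_lit 76) (nat_lit 85618756023) (nat_lit 76) (nat_lit 57980893695) (nat_lit 12) (nat_lit 4) (nat_lit 13) (nat_lit 5) (nat_lit 13) (nat_lit 4) (nat_lit 510) (nat_lit 410) (nat_lit 280)) (XT.nd (nat_lit 78) (nat_lit 0) (nat_lit 0) (XT.lf (nat_lit 0) (nat_lit 90164608908) (nat_lit 76) (nat_lit 62170401182) (nat_lit 76) (nat_lit 34530219104) (nat_lit 12) (nat_lit 4) (nat_lit 13) (nat_lit 5) (nat_lit 13) (nat_lit 4) (nat_lit 511) (nat_lit 410) (nat_lit 279)) (XT.lf (nat_lit 0) (nat_lit 147421910094) (nat_lit 76) (nat_lit 37553923416) (nat_lit 76) (nat_lit 9911532052) (nat_lit 12) (nat_lit 4) (nat_lit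 13) (nat_lit 5) (nat_lit 13) (nat_lit 4) (nat_lit 512) (nat_lit 410) (nat_lit 278)))) (XT.nd (nat_lit 156) (nat_lit 0) (nat_lit 0) (XT.nd (nat_lit 78) (nat_lit 0) (nat_lit 0) (XT.lf (nat_lit 0) (nat_lit 4105708621) (nat_lit 76) (nat_lit 11382195800) (nat_lit 152) (nat_lit 187807265845) (nat_lit 10) (nat_lit 5) (nat_lit 11) (nat_lit 5) (nat_lit 12) (nat_lit 4) (nat_lit 513) (nat_lit 410) (nat_lit 277)) (XT.lf (nat_lit 0) (nat_lit 42888423744) (nat_lit 152) (nat_lit 152615182799) (nat_lit 0) (nat_lit 16558424381) (nat_lit 10) (nat_lit 5) (nat_lit 12) (nat_lit 4) (nat_lit 10) (nat_lit 4) (nat_lit 514) (nat_lit 410) (nat_lit 276))) (XT.nd (nat_lit 78) (nat_lit 0) (nat_lit 0) (XT.lf (nat_lit 0) (nat_lit 71841598999) (nat_lit 152) (nat_lit 103906722162) (nat_lit 0) (nat_lit 45509782051) (nat_lit 10) (nat_lit 5) (nat_lit 12) (nat_lit 4) (nat_lit 10) (nat_lit 4) (nat_lit 515) (nat_lit 410) (nat_lit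 275)) (XT.lf (nat_lit 0) (nat_lit 102238658342) (nat_lit 152) (nat_lit 52770399234) (nat_lit 0) (nat_lit 75905110361) (nat_lit 10) (nat_lit 5) (nat_lit 12) (nat_lit 4) (nat_lit 10) (nat_lit 4) (nat_lit 516) (nat_lit 410) (nat_lit 274))))) (XT.nd (nat_lit 234) (nat_lit 152) (nat_lit 0) (XT.nd (nat_lit 78) (nat_lit 0) (nat_lit 0) (XT.lf (nat_lit 0) (nat_lit 945810993) (nat_lit 76) (nat_lit 133220931491) (nat_lit 76) (nat_lit 106885734908) (nat_lit 9) (nat_lit 4) (nat_lit 10) (nat_lit 5) (nat_lit 10) (nat_lit 4) (nat_lit 517) (nat_lit 410) (nat_lit 273)) (XT.nd (nat_lit 78) (nat_lit 0) (nat_lit 0) (XT.lf (nat_lit 0) (nat_lit 59172816268) (nat_lit 76) (nat_lit 109408572460) (nat_lit 76) (nat_lit 83071805779) (nat_lit 9) (nat_lit 4) (nat_lit 10) (nat_lit 5) (nat_lit 10) (nat_lit 4) (nat_lit 518) (nat_lit 410) (nat_lit 272)) (XT.lf (nat_lit 0) (nat_lit 120304424603) (nat_lit 76) (nat_lit 84408976634)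 (nat_lit 76) (nat_lit 58070714622) (nat_lit 9) (nat_lit 4) (nat_lit 10) (nat_lit 5) (nat_lit 10) (nat_lit 4) (nat_lit 519) (nat_lit 410) (nat_lit 271)))) (XT.nd (nat_lit 156) (nat_lit 152) (nat_lit 0) (XT.nd (nat_lit 78) (nat_lit 0) (nat_lit 0) (XT.lf (nat_lit 0) (nat_lit 184486187444) (nat_lit 76) (nat_lit 58162621166) (nat_lit 76) (nat_lit 31822935029) (nat_lit 9) (nat_lit 4) (nat_lit 10) (nat_lit 5) (nat_lit 10) (nat_lit 4) (nat_lit 520) (nat_lit 410) (nat_lit 270)) (XT.lf (nat_lit 0) (nat_lit 251870918514) (nat_lit 76) (nat_lit 30607014734) (nat_lit 76) (nat_lit 4265972287) (nat_lit 9) (nat_lit 4) (nat_lit 10) (nat_lit 5) (nat_lit 10) (nat_lit 4) (nat_lit 521) (nat_lit 410) (nat_lit 269))) (XT.nd (nat_lit 78) (nat_lit 0) (nat_lit 0) (XT.lf (nat_lit 0) (nat_lit 23351529405) (nat_lit 76) (nat_lit 889379655) (nat_lit 152) (nat_lit 275351427676) (nat_lit 7) (nat_lit 5) (nat_lit 8) (nat_lit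 5) (nat_lit 9) (nat_lit 4) (nat_lit 522) (nat_lit 410) (nat_lit 268)) (XT.lf (nat_lit 0) (nat_lit 55100379783) (nat_lit 152) (nat_lit 227914511732) (nat_lit 0) (nat_lit 30011270848) (nat_lit 7) (nat_lit 5) (nat_lit 9) (nat_lit 4) (nat_lit 7) (nat_lit 4) (nat_lit 523) (nat_lit 410) (nat_lit 267)))))) (XT.nd (nat_lit 546) (nat_lit 152) (nat_lit 0) (XT.nd (nat_lit 234) (nat_lit 76) (nat_lit 0) (XT.nd (nat_lit 78) (nat_lit 0) (nat_lit 0) (XT.lf (nat_lit 0) (nat_lit 87514593164) (nat_lit 152) (nat_lit 177192129319) (nat_lit 0) (nat_lit 62424368389) (nat_lit 7) (nat_lit 5) (nat_lit 9) (nat_lit 4) (nat_lit 7) (nat_lit 4) (nat_lit 524) (nat_lit 410) (nat_lit 266)) (XT.nd (nat_lit 78) (nat_lit 0) (nat_lit 0) (XT.lf (nat_lit 0) (nat_lit 121546840193) (nat_lit 152) (nat_lit 123939006806) (nat_lit 0) (nat_lit 96455552714) (nat_lit 7) (nat_lit 5) (nat_lit 9) (nat_lit 4) (nat_lit 7) (nat_lit 4) (nat_lit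 525) (nat_lit 410) (nat_lit 265)) (XT.lf (nat_lit 0) (nat_lit 157278150030) (nat_lit 152) (nat_lit 68028351044) (nat_lit 0) (nat_lit 132185850452) (nat_lit 7) (nat_lit 5) (nat_lit 9) (nat_lit 4) (nat_lit 7) (nat_lit 4) (nat_lit 526) (nat_lit 410) (nat_lit 264)))) (XT.nd (nat_lit 156) (nat_lit 0) (nat_lit 0) (XT.nd (nat_lit 78) (nat_lit 76) (nat_lit 0) (XT.lf (nat_lit 0) (nat_lit 194793597222) (nat_lit 152) (nat_lit 9327041426) (nat_lit 0) (nat_lit 169700333740) (nat_lit 7) (nat_lit 5) (nat_lit 9) (nat_lit 4) (nat_lit 7) (nat_lit 4) (nat_lit 527) (nat_lit 410) (nat_lit 263)) (XT.lf (nat_lit 0) (nat_lit 54034116241) (nat_lit 76) (nat_lit 180992012005) (nat_lit 76) (nat_lit 155897830519) (nat_lit 6) (nat_lit 4) (nat_lit 7) (nat_lit 5) (nat_lit 7) (nat_lit 4) (nat_lit 528) (nat_lit 410) (nat_lit 262))) (XT.nd (nat_lit 78) (nat_lit 0) (nat_lit 0) (XT.lf (nat_lit 0) (nat_lit 120882573955) (nat_lit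 76) (nat_lit 156543396059) (nat_lit 76) (nat_lit 131448340285) (nat_lit 6) (nat_lit 4) (nat_lit 7) (nat_lit 5) (nat_lit 7) (nat_lit 4) (nat_lit 529) (nat_lit 410) (nat_lit 261)) (XT.lf (nat_lit 0) (nat_lit 191069100596) (nat_lit 76) (nat_lit 130874537780) (nat_lit 76) (nat_lit 105778649349) (nat_lit 6) (nat_lit 4) (nat_lit 7) (nat_lit 5) (nat_lit 7) (nat_lit 4) (nat_lit 530) (nat_lit 410) (nat_lit 260))))) (XT.nd (nat_lit 234) (nat_lit 152) (nat_lit 0) (XT.nd (nat_lit 78) (nat_lit 0) (nat_lit 0) (XT.lf (nat_lit 0) (nat_lit 264760806943) (nat_lit 76) (nat_lit 103924320839) (nat_lit 76) (nat_lit 78827639402) (nat_lit 6) (nat_lit 4) (nat_lit 7) (nat_lit 5) (nat_lit 7) (nat_lit 4) (nat_lit 531) (nat_lit 410) (nat_lit 259)) (XT.nd (nat_lit 78) (nat_lit 0) (nat_lit 0) (XT.lf (nat_lit 0) (nat_lit 342133149439) (nat_lit 76) (nat_lit 75628578053) (nat_lit 76) (nat_lit 50531141372) (nat_lit 6) (nat_lit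 4) (nat_lit 7) (nat_lit 5) (nat_lit 7) (nat_lit 4) (nat_lit 532) (nat_lit 410) (nat_lit 258)) (XT.lf (nat_lit 0) (nat_lit 423370347948) (nat_lit 76) (nat_lit 45919938604) (nat_lit 76) (nat_lit 20821782644) (nat_lit 6) (nat_lit 4) (nat_lit 7) (nat_lit 5) (nat_lit 7) (nat_lit 4) (nat_lit 533) (nat_lit 410) (nat_lit 257)))) (XT.nd (nat_lit 156) (nat_lit 0) (nat_lit 0) (XT.nd (nat_lit 78) (nat_lit 76) (nat_lit 0) (XT.lf (nat_lit 0) (nat_lit 10039231033) (nat_lit 152) (nat_lit 4518417370) (nat_lit 76) (nat_lit 498456574102) (nat_lit 5) (nat_lit 5) (nat_lit 7) (nat_lit 5) (nat_lit 6) (nat_lit 4) (nat_lit 534) (nat_lit 410) (nat_lit 256)) (XT.lf (nat_lit 0) (nat_lit 43025572975) (nat_lit 152) (nat_lit 474833448652) (nat_lit 0) (nat_lit 19121293549) (nat_lit 4) (nat_lit 5) (nat_lit 6) (nat_lit 4) (nat_lit 4) (nat_lit 4) (nat_lit 535) (nat_lit 410) (nat_lit 255))) (XT.nd (nat_lit 78) (nat_lit 0) (nat_lit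 0) (XT.lf (nat_lit 0) (nat_lit 77975935493) (nat_lit 152) (nat_lit 430081977529) (nat_lit 0) (nat_lit 54071064314) (nat_lit 4) (nat_lit 5) (nat_lit 6) (nat_lit 4) (nat_lit 4) (nat_lit 4) (nat_lit 536) (nat_lit 410) (nat_lit 254)) (XT.lf (nat_lit 0) (nat_lit 114672175633) (nat_lit 152) (nat_lit 383096238148) (nat_lit 0) (nat_lit 90766740879) (nat_lit 4) (nat_lit 5) (nat_lit 6) (nat_lit 4) (nat_lit 4) (nat_lit 4) (nat_lit 537) (nat_lit 410) (nat_lit 253))))))) (XT.nd (nat_lit 53196) (nat_lit 0) (nat_lit 7296) (XT.nd (nat_lit 52650) (nat_lit 0) (nat_lit 10716) (XT.nd (nat_lit 234) (nat_lit 0) (nat_lit 0) (XT.nd (nat_lit 78) (nat_lit 0) (nat_lit 0) (XT.lf (nat_lit 0) (nat_lit 153201665393) (nat_lit 152) (nat_lit 333764359702) (nat_lit 0) (nat_lit 129295693902) (nat_lit 4) (nat_lit 5) (nat_lit 6) (nat_lit 4) (nat_lit 4) (nat_lit 4) (nat_lit 538) (nat_lit 410) (nat_lit 252)) (XT.nd (nat_lit 78) (nat_lit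 0) (nat_lit 0) (XT.lf (nat_lit 0) (nat_lit 193656141656) (nat_lit 152) (nat_lit 281968885336) (nat_lit 0) (nat_lit 169749658985) (nat_lit 4) (nat_lit 5) (nat_lit 6) (nat_lit 4) (nat_lit 4) (nat_lit 4) (nat_lit 539) (nat_lit 410) (nat_lit 251)) (XT.lf (nat_lit 0) (nat_lit 236131924601) (nat_lit 152) (nat_lit 227586492493) (nat_lit 0) (nat_lit 212224955093) (nat_lit 4) (nat_lit 5) (nat_lit 6) (nat_lit 4) (nat_lit 4) (nat_lit 4) (nat_lit 540) (nat_lit 410) (nat_lit 250)))) (XT.nd (nat_lit 156) (nat_lit 0) (nat_lit 0) (XT.nd (nat_lit 78) (nat_lit 0) (nat_lit 0) (XT.lf (nat_lit 0) (nat_lit 280730147046) (nat_lit 152) (nat_lit 170487699284) (nat_lit 0) (nat_lit 256822713884) (nat_lit 4) (nat_lit 5) (nat_lit 6) (nat_lit 4) (nat_lit 4) (nat_lit 4) (nat_lit 541) (nat_lit 410) (nat_lit 249)) (XT.lf (nat_lit 0) (nat_lit 327556995234) (nat_lit 152) (nat_lit 110536556204) (nat_lit 0) (nat_lit 303649120497)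 (nat_lit 4) (nat_lit 5) (nat_lit 6) (nat_lit 4) (nat_lit 4) (nat_lit 4) (nat_lit 542) (nat_lit 410) (nat_lit 248))) (XT.nd (nat_lit 52182) (nat_lit 0) (nat_lit 11400) (XT.lf (nat_lit 0) (nat_lit 376723961662) (nat_lit 152) (nat_lit 47590322433) (nat_lit 0) (nat_lit 352815666377) (nat_lit 4) (nat_lit 5) (nat_lit 6) (nat_lit 4) (nat_lit 4) (nat_lit 4) (nat_lit 543) (nat_lit 410) (nat_lit 247)) (XT.lf (nat_lit 0) (nat_lit 1732218529) (nat_lit 0) (nat_lit 1732218529) (nat_lit 532) (nat_lit 457084383) (nat_lit 154) (nat_lit 5) (nat_lit 154) (nat_lit 3) (nat_lit 161) (nat_lit 3) (nat_lit 411) (nat_lit 411) (nat_lit 378))))) (XT.nd (nat_lit 234) (nat_lit 0) (nat_lit 76) (XT.nd (nat_lit 78) (nat_lit 0) (nat_lit 76) (XT.lf (nat_lit 0) (nat_lit 353702642) (nat_lit 684) (nat_lit 513148387) (nat_lit 684) (nat_lit 7109394347) (nat_lit 145) (nat_lit 3) (nat_lit 154) (nat_lit 3) (nat_lit 154) (nat_lit 5)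 (nat_lit 412) (nat_lit 411) (nat_lit 377)) (XT.nd (nat_lit 78) (nat_lit 0) (nat_lit 0) (XT.lf (nat_lit 0) (nat_lit 1660619808) (nat_lit 608) (nat_lit 4543888418) (nat_lit 684) (nat_lit 1910568114) (nat_lit 146) (nat_lit 5) (nat_lit 154) (nat_lit 5) (nat_lit 155) (nat_lit 5) (nat_lit 413) (nat_lit 411) (nat_lit 376)) (XT.lf (nat_lit 0) (nat_lit 2978974534) (nat_lit 608) (nat_lit 443383804) (nat_lit 684) (nat_lit 4841220576) (nat_lit 146) (nat_lit 5) (nat_lit 154) (nat_lit 5) (nat_lit 155) (nat_lit 5) (nat_lit 414) (nat_lit 411) (nat_lit 375)))) (XT.nd (nat_lit 156) (nat_lit 0) (nat_lit 76) (XT.nd (nat_lit 78) (nat_lit 0) (nat_lit 76) (XT.lf (nat_lit 76) (nat_lit 3944418015) (nat_lit 0) (nat_lit 407124920) (nat_lit 684) (nat_lit 4068581881) (nat_lit 147) (nat_lit 5) (nat_lit 146) (nat_lit 5) (nat_lit 155) (nat_lit 5) (nat_lit 415) (nat_lit 411) (nat_lit 374)) (XT.lf (nat_lit 0) (nat_lit 5773397182)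 (nat_lit 608) (nat_lit 107560802) (nat_lit 684) (nat_lit 2704538583) (nat_lit 147) (nat_lit 5) (nat_lit 155) (nat_lit 5) (nat_lit 156) (nat_lit 5) (nat_lit 416) (nat_lit 411) (nat_lit 373))) (XT.nd (nat_lit 78) (nat_lit 0) (nat_lit 76) (XT.lf (nat_lit 76) (nat_lit 4573710716) (nat_lit 0) (nat_lit 2704003392) (nat_lit 684) (nat_lit 1480884228) (nat_lit 148) (nat_lit 5) (nat_lit 147) (nat_lit 5) (nat_lit 156) (nat_lit 5) (nat_lit 417) (nat_lit 411) (nat_lit 372)) (XT.lf (nat_lit 76) (nat_lit 511161680) (nat_lit 0) (nat_lit 8301866047) (nat_lit 684) (nat_lit 129566928) (nat_lit 149) (nat_lit 5) (nat_lit 148) (nat_lit 5) (nat_lit 157) (nat_lit 5) (nat_lit 418) (nat_lit 411) (nat_lit 371)))))) (XT.nd (nat_lit 546) (nat_lit 1520) (nat_lit 0) (XT.nd (nat_lit 234) (nat_lit 1444) (nat_lit 0) (XT.nd (nat_lit 78) (nat_lit 0) (nat_lit 0) (XT.lf (nat_lit 0) (nat_lit 1301770313) (nat_lit 684) (nat_lit 3659709896)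 (nat_lit 760) (nat_lit 4170643930) (nat_lit 139) (nat_lit 5) (nat_lit 148) (nat_lit 5) (nat_lit 149) (nat_lit 5) (nat_lit 419) (nat_lit 411) (nat_lit 370)) (XT.nd (nat_lit 78) (nat_lit 0) (nat_lit 76) (XT.lf (nat_lit 76) (nat_lit 1344708219) (nat_lit 0) (nat_lit 1416946918) (nat_lit 760) (nat_lit 6571326630) (nat_lit 140) (nat_lit 5) (nat_lit 139) (nat_lit 5) (nat_lit 149) (nat_lit 5) (nat_lit 420) (nat_lit 411) (nat_lit 369)) (XT.lf (nat_lit 0) (nat_lit 4336155438) (nat_lit 684) (nat_lit 2900510727) (nat_lit 76) (nat_lit 2305158498) (nat_lit 140) (nat_lit 5) (nat_lit 149) (nat_lit 5) (nat_lit 141) (nat_lit 5) (nat_lit 421) (nat_lit 411) (nat_lit 368)))) (XT.nd (nat_lit 156) (nat_lit 836) (nat_lit 0) (XT.nd (nat_lit 78) (nat_lit 0) (nat_lit 0) (XT.lf (nat_lit 0) (nat_lit 2450036772) (nat_lit 684) (nat_lit 3546197548) (nat_lit 760) (nat_lit 3764555039) (nat_lit 131) (nat_lit 5) (nat_lit 140)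 (nat_lit 5) (nat_lit 141) (nat_lit 5) (nat_lit 422) (nat_lit 411) (nat_lit 367)) (XT.lf (nat_lit 0) (nat_lit 7741737620) (nat_lit 760) (nat_lit 1874173882) (nat_lit 76) (nat_lit 374691035) (nat_lit 131) (nat_lit 5) (nat_lit 141) (nat_lit 5) (nat_lit 132) (nat_lit 5) (nat_lit 423) (nat_lit 411) (nat_lit 366))) (XT.nd (nat_lit 78) (nat_lit 76) (nat_lit 0) (XT.lf (nat_lit 0) (nat_lit 3852941540) (nat_lit 760) (nat_lit 5789731043) (nat_lit 836) (nat_lit 585846222) (nat_lit 121) (nat_lit 5) (nat_lit 131) (nat_lit 5) (nat_lit 132) (nat_lit 5) (nat_lit 424) (nat_lit 411) (nat_lit 365)) (XT.lf (nat_lit 0) (nat_lit 1106173357) (nat_lit 836) (nat_lit 611274261) (nat_lit 76) (nat_lit 8760846471) (nat_lit 120) (nat_lit 5) (nat_lit 131) (nat_lit 5) (nat_lit 121) (nat_lit 5) (nat_lit 425) (nat_lit 411) (nat_lit 364))))) (XT.nd (nat_lit 234) (nat_lit 760) (nat_lit 0) (XT.nd (nat_lit 78) (nat_lit 380) (nat_lit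 0) (XT.lf (nat_lit 0) (nat_lit 2944613031) (nat_lit 456) (nat_lit 5215027764) (nat_lit 76) (nat_lit 2576379270) (nat_lit 115) (nat_lit 5) (nat_lit 121) (nat_lit 5) (nat_lit 116) (nat_lit 5) (nat_lit 426) (nat_lit 411) (nat_lit 363)) (XT.nd (nat_lit 78) (nat_lit 0) (nat_lit 0) (XT.lf (nat_lit 0) (nat_lit 929719991) (nat_lit 380) (nat_lit 3953077611) (nat_lit 456) (nat_lit 6123460257) (nat_lit 110) (nat_lit 5) (nat_lit 115) (nat_lit 5) (nat_lit 116) (nat_lit 5) (nat_lit 427) (nat_lit 411) (nat_lit 362)) (XT.lf (nat_lit 0) (nat_lit 6970942068) (nat_lit 456) (nat_lit 3779641218) (nat_lit 76) (nat_lit 536787595) (nat_lit 110) (nat_lit 5) (nat_lit 116) (nat_lit 5) (nat_lit 111) (nat_lit 5) (nat_lit 428) (nat_lit 411) (nat_lit 361)))) (XT.nd (nat_lit 156) (nat_lit 380) (nat_lit 0) (XT.nd (nat_lit 78) (nat_lit 0) (nat_lit 0) (XT.lf (nat_lit 0) (nat_lit 2811451665) (nat_lit 380) (nat_lit 6418876867)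 (nat_lit 456) (nat_lit 2348884399) (nat_lit 105) (nat_lit 5) (nat_lit 110) (nat_lit 5) (nat_lit 111) (nat_lit 5) (nat_lit 429) (nat_lit 411) (nat_lit 360)) (XT.lf (nat_lit 0) (nat_lit 9818230904) (nat_lit 380) (nat_lit 1807888633) (nat_lit 456) (nat_lit 258370183) (nat_lit 105) (nat_lit 5) (nat_lit 110) (nat_lit 5) (nat_lit 111) (nat_lit 5) (nat_lit 430) (nat_lit 411) (nat_lit 359))) (XT.nd (nat_lit 78) (nat_lit 0) (nat_lit 0) (XT.lf (nat_lit 0) (nat_lit 1963436170) (nat_lit 380) (nat_lit 7192918091) (nat_lit 76) (nat_lit 3042739705) (nat_lit 100) (nat_lit 5) (nat_lit 105) (nat_lit 5) (nat_lit 101) (nat_lit 5) (nat_lit 431) (nat_lit 411) (nat_lit 358)) (XT.lf (nat_lit 0) (nat_lit 4314670897) (nat_lit 380) (nat_lit 103529948) (nat_lit 76) (nat_lit 8109677186) (nat_lit 100) (nat_lit 5) (nat_lit 105) (nat_lit 5) (nat_lit 101) (nat_lit 5) (nat_lit 432) (nat_lit 411) (nat_lit 357))))))))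
noncomputable def xc121 : XT := (XT.nd (nat_lit 2184) (nat_lit 1976) (nat_lit 0) (XT.nd (nat_lit 1092) (nat_lit 1444) (nat_lit 0) (XT.nd (nat_lit 546) (nat_lit 988) (nat_lit 0) (XT.nd (nat_lit 234) (nat_lit 836) (nat_lit 0) (XT.nd (nat_lit 78) (nat_lit 228) (nat_lit 0) (XT.lf (nat_lit 0) (nat_lit 6875314428) (nat_lit 380) (nat_lit 5341172079) (nat_lit 76) (nat_lit 652034285) (nat_lit 96) (nat_lit 5) (nat_lit 101) (nat_lit 5) (nat_lit 97) (nat_lit 5) (nat_lit 433) (nat_lit 411) (nat_lit 356)) (XT.nd (nat_lit 78) (nat_lit 0) (nat_lit 0) (XT.lf (nat_lit 0) (nat_lit 2273383363) (nat_lit 228) (nat_lit 7364902422) (nat_lit 304) (nat_lit 3584206402) (nat_lit 93) (nat_lit 5) (nat_lit 96) (nat_lit 5) (nat_lit 97) (nat_lit 5) (nat_lit 434) (nat_lit 411) (nat_lit 355)) (XT.lf (nat_lit 0) (nat_lit 10410634118) (nat_lit 228) (nat_lit 2184824653) (nat_lit 304) (nat_lit 995911470) (nat_lit 93) (nat_lit 5)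 (nat_lit 96) (nat_lit 5) (nat_lit 97) (nat_lit 5) (nat_lit 435) (nat_lit 411) (nat_lit 354)))) (XT.nd (nat_lit 156) (nat_lit 456) (nat_lit 0) (XT.nd (nat_lit 78) (nat_lit 0) (nat_lit 0) (XT.lf (nat_lit 0) (nat_lit 1764921154) (nat_lit 380) (nat_lit 8958566558) (nat_lit 76) (nat_lit 3248958563) (nat_lit 88) (nat_lit 5) (nat_lit 93) (nat_lit 5) (nat_lit 89) (nat_lit 5) (nat_lit 436) (nat_lit 411) (nat_lit 353)) (XT.lf (nat_lit 0) (nat_lit 4688368183) (nat_lit 380) (nat_lit 737557076) (nat_lit 76) (nat_lit 8942941715) (nat_lit 88) (nat_lit 5) (nat_lit 93) (nat_lit 5) (nat_lit 89) (nat_lit 5) (nat_lit 437) (nat_lit 411) (nat_lit 352))) (XT.nd (nat_lit 78) (nat_lit 228) (nat_lit 0) (XT.lf (nat_lit 0) (nat_lit 7857724287) (nat_lit 304) (nat_lit 6671453862) (nat_lit 76) (nat_lit 250952561) (nat_lit 85) (nat_lit 5) (nat_lit 89) (nat_lit 5) (nat_lit 86) (nat_lit 5) (nat_lit 438) (nat_lit 411) (nat_lit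 351)) (XT.lf (nat_lit 0) (nat_lit 2149201872) (nat_lit 228) (nat_lit 9141248786) (nat_lit 304) (nat_lit 3916270268) (nat_lit 82) (nat_lit 5) (nat_lit 85) (nat_lit 5) (nat_lit 86) (nat_lit 5) (nat_lit 439) (nat_lit 411) (nat_lit 350))))) (XT.nd (nat_lit 234) (nat_lit 684) (nat_lit 0) (XT.nd (nat_lit 78) (nat_lit 304) (nat_lit 0) (XT.lf (nat_lit 0) (nat_lit 11601257112) (nat_lit 228) (nat_lit 3377041395) (nat_lit 304) (nat_lit 672175905) (nat_lit 82) (nat_lit 5) (nat_lit 85) (nat_lit 5) (nat_lit 86) (nat_lit 5) (nat_lit 440) (nat_lit 411) (nat_lit 349)) (XT.nd (nat_lit 78) (nat_lit 0) (nat_lit 0) (XT.lf (nat_lit 0) (nat_lit 2747660285) (nat_lit 304) (nat_lit 10652422622) (nat_lit 76) (nat_lit 2709153263) (nat_lit 78) (nat_lit 5) (nat_lit 82) (nat_lit 5) (nat_lit 79) (nat_lit 5) (nat_lit 441) (nat_lit 411) (nat_lit 348)) (XT.lf (nat_lit 0) (nat_lit 6412955633) (nat_lit 304) (nat_lit 1117090038)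 (nat_lit 76) (nat_lit 9055493463) (nat_lit 78) (nat_lit 5) (nat_lit 82) (nat_lit 5) (nat_lit 79) (nat_lit 5) (nat_lit 442) (nat_lit 411) (nat_lit 347)))) (XT.nd (nat_lit 156) (nat_lit 304) (nat_lit 0) (XT.nd (nat_lit 78) (nat_lit 152) (nat_lit 0) (XT.lf (nat_lit 0) (nat_lit 9148972853) (nat_lit 228) (nat_lit 1228713419) (nat_lit 304) (nat_lit 6702169044) (nat_lit 75) (nat_lit 5) (nat_lit 78) (nat_lit 5) (nat_lit 79) (nat_lit 5) (nat_lit 443) (nat_lit 411) (nat_lit 346)) (XT.lf (nat_lit 0) (nat_lit 2319647634) (nat_lit 152) (nat_lit 12334378943) (nat_lit 228) (nat_lit 2939198353) (nat_lit 73) (nat_lit 5) (nat_lit 75) (nat_lit 5) (nat_lit 76) (nat_lit 5) (nat_lit 444) (nat_lit 411) (nat_lit 345))) (XT.nd (nat_lit 78) (nat_lit 228) (nat_lit 0) (XT.lf (nat_lit 0) (nat_lit 1110220641) (nat_lit 228) (nat_lit 4845223069) (nat_lit 76) (nat_lit 12169500690) (nat_lit 72) (nat_lit 5) (nat_lit 75) (nat_lit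 5) (nat_lit 73) (nat_lit 5) (nat_lit 445) (nat_lit 411) (nat_lit 344)) (XT.lf (nat_lit 0) (nat_lit 5349446297) (nat_lit 304) (nat_lit 12473323714) (nat_lit 76) (nat_lit 853770474) (nat_lit 69) (nat_lit 5) (nat_lit 73) (nat_lit 5) (nat_lit 70) (nat_lit 5) (nat_lit 446) (nat_lit 411) (nat_lit 343)))))) (XT.nd (nat_lit 546) (nat_lit 760) (nat_lit 0) (XT.nd (nat_lit 234) (nat_lit 380) (nat_lit 0) (XT.nd (nat_lit 78) (nat_lit 304) (nat_lit 0) (XT.lf (nat_lit 0) (nat_lit 9957327638) (nat_lit 304) (nat_lit 1416390872) (nat_lit 76) (nat_lit 7874168313) (nat_lit 69) (nat_lit 5) (nat_lit 73) (nat_lit 5) (nat_lit 70) (nat_lit 5) (nat_lit 447) (nat_lit 411) (nat_lit 342)) (XT.nd (nat_lit 78) (nat_lit 152) (nat_lit 0) (XT.lf (nat_lit 0) (nat_lit 10492946813) (nat_lit 152) (nat_lit 4443302249) (nat_lit 228) (nat_lit 4904524037) (nat_lit 67) (nat_lit 5) (nat_lit 69) (nat_lit 5) (nat_lit 70) (nat_lit 5) (nat_lit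 448) (nat_lit 411) (nat_lit 341)) (XT.lf (nat_lit 0) (nat_lit 2586336923) (nat_lit 152) (nat_lit 17663945225) (nat_lit 228) (nat_lit 208717948) (nat_lit 65) (nat_lit 5) (nat_lit 67) (nat_lit 5) (nat_lit 68) (nat_lit 5) (nat_lit 449) (nat_lit 411) (nat_lit 340)))) (XT.nd (nat_lit 156) (nat_lit 152) (nat_lit 0) (XT.nd (nat_lit 78) (nat_lit 152) (nat_lit 0) (XT.lf (nat_lit 0) (nat_lit 4781813907) (nat_lit 228) (nat_lit 5844429403) (nat_lit 76) (nat_lit 10467660042) (nat_lit 64) (nat_lit 5) (nat_lit 67) (nat_lit 5) (nat_lit 65) (nat_lit 5) (nat_lit 450) (nat_lit 411) (nat_lit 339)) (XT.lf (nat_lit 0) (nat_lit 6969832470) (nat_lit 152) (nat_lit 3132243101) (nat_lit 228) (nat_lit 11653948294) (nat_lit 62) (nat_lit 5) (nat_lit 64) (nat_lit 5) (nat_lit 65) (nat_lit 5) (nat_lit 451) (nat_lit 411) (nat_lit 338))) (XT.nd (nat_lit 78) (nat_lit 152) (nat_lit 0) (XT.lf (nat_lit 0) (nat_lit 15841581134) (nat_lit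 228) (nat_lit 1929486346) (nat_lit 76) (nat_lit 4672525239) (nat_lit 62) (nat_lit 5) (nat_lit 65) (nat_lit 5) (nat_lit 63) (nat_lit 5) (nat_lit 452) (nat_lit 411) (nat_lit 337)) (XT.lf (nat_lit 0) (nat_lit 11864810186) (nat_lit 152) (nat_lit 10219538791) (nat_lit 228) (nat_lit 1070380361) (nat_lit 60) (nat_lit 5) (nat_lit 62) (nat_lit 5) (nat_lit 63) (nat_lit 5) (nat_lit 453) (nat_lit 411) (nat_lit 336))))) (XT.nd (nat_lit 234) (nat_lit 380) (nat_lit 0) (XT.nd (nat_lit 78) (nat_lit 152) (nat_lit 0) (XT.lf (nat_lit 0) (nat_lit 2487352723) (nat_lit 152) (nat_lit 2150703517) (nat_lit 228) (nat_lit 19257078136) (nat_lit 57) (nat_lit 5) (nat_lit 59) (nat_lit 5) (nat_lit 60) (nat_lit 5) (nat_lit 454) (nat_lit 411) (nat_lit 335)) (XT.nd (nat_lit 78) (nat_lit 152) (nat_lit 0) (XT.lf (nat_lit 0) (nat_lit 10869023821) (nat_lit 228) (nat_lit 7470936608) (nat_lit 76) (nat_lit 6318070998) (nat_lit 57) (nat_lit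 5) (nat_lit 60) (nat_lit 5) (nat_lit 58) (nat_lit 5) (nat_lit 455) (nat_lit 411) (nat_lit 334)) (XT.lf (nat_lit 0) (nat_lit 7329702339) (nat_lit 152) (nat_lit 10212530924) (nat_lit 228) (nat_lit 7910308416) (nat_lit 55) (nat_lit 5) (nat_lit 57) (nat_lit 5) (nat_lit 58) (nat_lit 5) (nat_lit 456) (nat_lit 411) (nat_lit 333)))) (XT.nd (nat_lit 156) (nat_lit 152) (nat_lit 0) (XT.nd (nat_lit 78) (nat_lit 228) (nat_lit 0) (XT.lf (nat_lit 0) (nat_lit 23097882496) (nat_lit 152) (nat_lit 1559150780) (nat_lit 228) (nat_lit 1624350541) (nat_lit 55) (nat_lit 5) (nat_lit 57) (nat_lit 5) (nat_lit 58) (nat_lit 5) (nat_lit 457) (nat_lit 411) (nat_lit 332)) (XT.lf (nat_lit 0) (nat_lit 5120414403) (nat_lit 228) (nat_lit 14456577867) (nat_lit 76) (nat_lit 7555605549) (nat_lit 52) (nat_lit 5) (nat_lit 55) (nat_lit 5) (nat_lit 53) (nat_lit 5) (nat_lit 458) (nat_lit 411) (nat_lit 331))) (XT.nd (nat_lit 78) (nat_lit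 0) (nat_lit 0) (XT.lf (nat_lit 0) (nat_lit 1375177002) (nat_lit 152) (nat_lit 10856660189) (nat_lit 228) (nat_lit 15789005960) (nat_lit 50) (nat_lit 5) (nat_lit 52) (nat_lit 5) (nat_lit 53) (nat_lit 5) (nat_lit 459) (nat_lit 411) (nat_lit 330)) (XT.lf (nat_lit 0) (nat_lit 18469792121) (nat_lit 152) (nat_lit 1456418758) (nat_lit 228) (nat_lit 9015923249) (nat_lit 50) (nat_lit 5) (nat_lit 52) (nat_lit 5) (nat_lit 53) (nat_lit 5) (nat_lit 460) (nat_lit 411) (nat_lit 329))))))) (XT.nd (nat_lit 1092) (nat_lit 836) (nat_lit 0) (XT.nd (nat_lit 546) (nat_lit 532) (nat_lit 0) (XT.nd (nat_lit 234) (nat_lit 304) (nat_lit 0) (XT.nd (nat_lit 78) (nat_lit 228) (nat_lit 0) (XT.lf (nat_lit 0) (nat_lit 6558388154) (nat_lit 76) (nat_lit 21663859053) (nat_lit 152) (nat_lit 1676397504) (nat_lit 49) (nat_lit 5) (nat_lit 50) (nat_lit 5) (nat_lit 51) (nat_lit 4) (nat_lit 461) (nat_lit 411) (nat_lit 328)) (XT.nd (nat_lit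 78) (nat_lit 152) (nat_lit 0) (XT.lf (nat_lit 0) (nat_lit 6024497194) (nat_lit 152) (nat_lit 6240693166) (nat_lit 76) (nat_lit 18623715483) (nat_lit 48) (nat_lit 5) (nat_lit 50) (nat_lit 5) (nat_lit 49) (nat_lit 5) (nat_lit 462) (nat_lit 411) (nat_lit 327)) (XT.lf (nat_lit 0) (nat_lit 12043371521) (nat_lit 152) (nat_lit 2182811584) (nat_lit 228) (nat_lit 17692520556) (nat_lit 46) (nat_lit 5) (nat_lit 48) (nat_lit 5) (nat_lit 49) (nat_lit 5) (nat_lit 463) (nat_lit 411) (nat_lit 326)))) (XT.nd (nat_lit 156) (nat_lit 228) (nat_lit 0) (XT.nd (nat_lit 78) (nat_lit 76) (nat_lit 0) (XT.lf (nat_lit 0) (nat_lit 23060762817) (nat_lit 228) (nat_lit 1697931297) (nat_lit 76) (nat_lit 8230158636) (nat_lit 46) (nat_lit 5) (nat_lit 49) (nat_lit 5) (nat_lit 47) (nat_lit 4) (nat_lit 464) (nat_lit 411) (nat_lit 325)) (XT.lf (nat_lit 0) (nat_lit 17898181862) (nat_lit 76) (nat_lit 14739050080) (nat_lit 152) (nat_lit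 1460271096) (nat_lit 45) (nat_lit 5) (nat_lit 46) (nat_lit 5) (nat_lit 47) (nat_lit 4) (nat_lit 465) (nat_lit 411) (nat_lit 324))) (XT.nd (nat_lit 78) (nat_lit 0) (nat_lit 0) (XT.lf (nat_lit 0) (nat_lit 3232588558) (nat_lit 152) (nat_lit 4025201405) (nat_lit 228) (nat_lit 27994762205) (nat_lit 42) (nat_lit 5) (nat_lit 44) (nat_lit 5) (nat_lit 45) (nat_lit 5) (nat_lit 466) (nat_lit 411) (nat_lit 323)) (XT.lf (nat_lit 0) (nat_lit 16739409757) (nat_lit 228) (nat_lit 12421761332) (nat_lit 76) (nat_lit 7284150730) (nat_lit 42) (nat_lit 5) (nat_lit 45) (nat_lit 5) (nat_lit 43) (nat_lit 4) (nat_lit 467) (nat_lit 411) (nat_lit 322))))) (XT.nd (nat_lit 234) (nat_lit 228) (nat_lit 0) (XT.nd (nat_lit 78) (nat_lit 228) (nat_lit 0) (XT.lf (nat_lit 0) (nat_lit 8330916080) (nat_lit 76) (nat_lit 18546057365) (nat_lit 152) (nat_lit 10811664815) (nat_lit 41) (nat_lit 5) (nat_lit 42) (nat_lit 5) (nat_lit 43)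 (nat_lit 4) (nat_lit 468) (nat_lit 411) (nat_lit 321)) (XT.nd (nat_lit 78) (nat_lit 228) (nat_lit 0) (XT.lf (nat_lit 0) (nat_lit 30526814252) (nat_lit 76) (nat_lit 7191051751) (nat_lit 152) (nat_lit 1266433371) (nat_lit 41) (nat_lit 5) (nat_lit 42) (nat_lit 5) (nat_lit 43) (nat_lit 4) (nat_lit 469) (nat_lit 411) (nat_lit 320)) (XT.lf (nat_lit 0) (nat_lit 8756737052) (nat_lit 228) (nat_lit 26640510518) (nat_lit 76) (nat_lit 4926615596) (nat_lit 38) (nat_lit 5) (nat_lit 41) (nat_lit 5) (nat_lit 39) (nat_lit 4) (nat_lit 470) (nat_lit 411) (nat_lit 319)))) (XT.nd (nat_lit 156) (nat_lit 152) (nat_lit 0) (XT.nd (nat_lit 78) (nat_lit 76) (nat_lit 0) (XT.lf (nat_lit 0) (nat_lit 19488580769) (nat_lit 228) (nat_lit 4664359237) (nat_lit 76) (nat_lit 17563924516) (nat_lit 38) (nat_lit 5) (nat_lit 41) (nat_lit 5) (nat_lit 39) (nat_lit 4) (nat_lit 471) (nat_lit 411) (nat_lit 318)) (XT.lf (nat_lit 0) (nat_lit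 18994762628) (nat_lit 76) (nat_lit 12046062647) (nat_lit 152) (nat_lit 12124501379) (nat_lit 37) (nat_lit 5) (nat_lit 38) (nat_lit 5) (nat_lit 39) (nat_lit 4) (nat_lit 472) (nat_lit 411) (nat_lit 317))) (XT.nd (nat_lit 78) (nat_lit 152) (nat_lit 0) (XT.lf (nat_lit 0) (nat_lit 43248689683) (nat_lit 152) (nat_lit 719042089) (nat_lit 0) (nat_lit 714580822) (nat_lit 37) (nat_lit 5) (nat_lit 39) (nat_lit 4) (nat_lit 37) (nat_lit 4) (nat_lit 473) (nat_lit 411) (nat_lit 316)) (XT.lf (nat_lit 0) (nat_lit 10055114605) (nat_lit 152) (nat_lit 21940974364) (nat_lit 76) (nat_lit 14242580281) (nat_lit 35) (nat_lit 5) (nat_lit 37) (nat_lit 5) (nat_lit 36) (nat_lit 4) (nat_lit 474) (nat_lit 411) (nat_lit 315)))))) (XT.nd (nat_lit 546) (nat_lit 456) (nat_lit 0) (XT.nd (nat_lit 234) (nat_lit 228) (nat_lit 0) (XT.nd (nat_lit 78) (nat_lit 76) (nat_lit 0) (XT.lf (nat_lit 0) (nat_lit 2759871459) (nat_lit 76) (nat_lit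 19353658272) (nat_lit 152) (nat_lit 25755968850) (nat_lit 34) (nat_lit 5) (nat_lit 35) (nat_lit 5) (nat_lit 36) (nat_lit 4) (nat_lit 475) (nat_lit 411) (nat_lit 314)) (XT.nd (nat_lit 78) (nat_lit 76) (nat_lit 0) (XT.lf (nat_lit 0) (nat_lit 29435110339) (nat_lit 76) (nat_lit 5699513938) (nat_lit 152) (nat_lit 14429258061) (nat_lit 34) (nat_lit 5) (nat_lit 35) (nat_lit 5) (nat_lit 36) (nat_lit 4) (nat_lit 476) (nat_lit 411) (nat_lit 313)) (XT.lf (nat_lit 0) (nat_lit 6141095444) (nat_lit 76) (nat_lit 42884994339) (nat_lit 76) (nat_lit 2305930538) (nat_lit 33) (nat_lit 4) (nat_lit 34) (nat_lit 5) (nat_lit 34) (nat_lit 4) (nat_lit 477) (nat_lit 411) (nat_lit 312)))) (XT.nd (nat_lit 156) (nat_lit 76) (nat_lit 0) (XT.nd (nat_lit 78) (nat_lit 76) (nat_lit 0) (XT.lf (nat_lit 0) (nat_lit 10518466568) (nat_lit 152) (nat_lit 19031760679) (nat_lit 76) (nat_lit 23608775558) (nat_lit 32) (nat_lit 5) (nat_lit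 34) (nat_lit 5) (nat_lit 33) (nat_lit 4) (nat_lit 478) (nat_lit 411) (nat_lit 311)) (XT.lf (nat_lit 0) (nat_lit 8653814049) (nat_lit 76) (nat_lit 15377036634) (nat_lit 152) (nat_lit 31038381281) (nat_lit 31) (nat_lit 5) (nat_lit 32) (nat_lit 5) (nat_lit 33) (nat_lit 4) (nat_lit 479) (nat_lit 411) (nat_lit 310))) (XT.nd (nat_lit 78) (nat_lit 76) (nat_lit 0) (XT.lf (nat_lit 0) (nat_lit 38364019858) (nat_lit 76) (nat_lit 166495776) (nat_lit 152) (nat_lit 18528874563) (nat_lit 31) (nat_lit 5) (nat_lit 32) (nat_lit 5) (nat_lit 33) (nat_lit 4) (nat_lit 480) (nat_lit 411) (nat_lit 309)) (XT.lf (nat_lit 0) (nat_lit 10479557610) (nat_lit 76) (nat_lit 43675687085) (nat_lit 76) (nat_lit 4973808270) (nat_lit 30) (nat_lit 4) (nat_lit 31) (nat_lit 5) (nat_lit 31) (nat_lit 4) (nat_lit 481) (nat_lit 411) (nat_lit 308))))) (XT.nd (nat_lit 312) (nat_lit 228) (nat_lit 0) (XT.nd (nat_lit 156) (nat_lit 76) (nat_lit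 0) (XT.nd (nat_lit 78) (nat_lit 76) (nat_lit 0) (XT.lf (nat_lit 0) (nat_lit 9276931933) (nat_lit 152) (nat_lit 19696354803) (nat_lit 76) (nat_lit 32305971446) (nat_lit 29) (nat_lit 5) (nat_lit 31) (nat_lit 5) (nat_lit 30) (nat_lit 4) (nat_lit 482) (nat_lit 411) (nat_lit 307)) (XT.lf (nat_lit 0) (nat_lit 10954664792) (nat_lit 76) (nat_lit 13279645550) (nat_lit 152) (nat_lit 39290524310) (nat_lit 28) (nat_lit 5) (nat_lit 29) (nat_lit 5) (nat_lit 30) (nat_lit 4) (nat_lit 483) (nat_lit 411) (nat_lit 306))) (XT.nd (nat_lit 78) (nat_lit 76) (nat_lit 0) (XT.lf (nat_lit 0) (nat_lit 40318790626) (nat_lit 152) (nat_lit 22118266530) (nat_lit 0) (nat_lit 3426671691) (nat_lit 28) (nat_lit 5) (nat_lit 30) (nat_lit 4) (nat_lit 28) (nat_lit 4) (nat_lit 484) (nat_lit 411) (nat_lit 305)) (XT.lf (nat_lit 0) (nat_lit 9938636395) (nat_lit 76) (nat_lit 47632448567) (nat_lit 76) (nat_lit 10730303809) (nat_lit 27)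 (nat_lit 4) (nat_lit 28) (nat_lit 5) (nat_lit 28) (nat_lit 4) (nat_lit 485) (nat_lit 411) (nat_lit 304)))) (XT.nd (nat_lit 156) (nat_lit 76) (nat_lit 0) (XT.nd (nat_lit 78) (nat_lit 76) (nat_lit 0) (XT.lf (nat_lit 0) (nat_lit 5042090977) (nat_lit 152) (nat_lit 26575406657) (nat_lit 76) (nat_lit 39221094854) (nat_lit 26) (nat_lit 5) (nat_lit 28) (nat_lit 5) (nat_lit 27) (nat_lit 4) (nat_lit 486) (nat_lit 411) (nat_lit 303)) (XT.lf (nat_lit 0) (nat_lit 6826744449) (nat_lit 76) (nat_lit 14513514735) (nat_lit 152) (nat_lit 52148714215) (nat_lit 25) (nat_lit 5) (nat_lit 26) (nat_lit 5) (nat_lit 27) (nat_lit 4) (nat_lit 487) (nat_lit 411) (nat_lit 302))) (XT.nd (nat_lit 78) (nat_lit 76) (nat_lit 0) (XT.lf (nat_lit 0) (nat_lit 38955783902) (nat_lit 152) (nat_lit 33506086017) (nat_lit 0) (nat_lit 3784881461) (nat_lit 25) (nat_lit 5) (nat_lit 27) (nat_lit 4) (nat_lit 25) (nat_lit 4) (nat_lit 488) (nat_lit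 411) (nat_lit 301)) (XT.lf (nat_lit 0) (nat_lit 1088409123) (nat_lit 76) (nat_lit 56610220130) (nat_lit 76) (nat_lit 21431462194) (nat_lit 24) (nat_lit 4) (nat_lit 25) (nat_lit 5) (nat_lit 25) (nat_lit 4) (nat_lit 489) (nat_lit 411) (nat_lit 300))))))))
noncomputable def xc122 : XT := (XT.nd (nat_lit 2184) (nat_lit 456) (nat_lit 0) (XT.nd (nat_lit 1092) (nat_lit 456) (nat_lit 0) (XT.nd (nat_lit 546) (nat_lit 228) (nat_lit 0) (XT.nd (nat_lit 234) (nat_lit 228) (nat_lit 0) (XT.nd (nat_lit 78) (nat_lit 152) (nat_lit 0) (XT.lf (nat_lit 0) (nat_lit 38559784251) (nat_lit 76) (nat_lit 39378046657) (nat_lit 76) (nat_lit 4191807297) (nat_lit 24) (nat_lit 4) (nat_lit 25) (nat_lit 5) (nat_lit 25) (nat_lit 4) (nat_lit 490) (nat_lit 411) (nat_lit 299)) (XT.nd (nat_lit 78) (nat_lit 76) (nat_lit 0) (XT.lf (nat_lit 0) (nat_lit 13456664141) (nat_lit 152) (nat_lit 7607203035) (nat_lit 76) (nat_lit 64204835145)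 (nat_lit 23) (nat_lit 5) (nat_lit 25) (nat_lit 5) (nat_lit 24) (nat_lit 4) (nat_lit 491) (nat_lit 411) (nat_lit 298)) (XT.lf (nat_lit 0) (nat_lit 31064257829) (nat_lit 76) (nat_lit 1259843744) (nat_lit 152) (nat_lit 56213311766) (nat_lit 22) (nat_lit 5) (nat_lit 23) (nat_lit 5) (nat_lit 24) (nat_lit 4) (nat_lit 492) (nat_lit 411) (nat_lit 297)))) (XT.nd (nat_lit 156) (nat_lit 152) (nat_lit 0) (XT.nd (nat_lit 78) (nat_lit 76) (nat_lit 0) (XT.lf (nat_lit 0) (nat_lit 52563276681) (nat_lit 152) (nat_lit 20351696324) (nat_lit 0) (nat_lit 19033168935) (nat_lit 22) (nat_lit 5) (nat_lit 24) (nat_lit 4) (nat_lit 22) (nat_lit 4) (nat_lit 493) (nat_lit 411) (nat_lit 296)) (XT.lf (nat_lit 0) (nat_lit 19205717725) (nat_lit 76) (nat_lit 54921996989) (nat_lit 76) (nat_lit 21386027351) (nat_lit 21) (nat_lit 4) (nat_lit 22) (nat_lit 5) (nat_lit 22) (nat_lit 4) (nat_lit 494) (nat_lit 411) (nat_lit 295))) (XT.nd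 (nat_lit 78) (nat_lit 152) (nat_lit 0) (XT.lf (nat_lit 0) (nat_lit 61433628101) (nat_lit 76) (nat_lit 35674333710) (nat_lit 76) (nat_lit 2132781319) (nat_lit 21) (nat_lit 4) (nat_lit 22) (nat_lit 5) (nat_lit 22) (nat_lit 4) (nat_lit 495) (nat_lit 411) (nat_lit 294)) (XT.lf (nat_lit 0) (nat_lit 2399818254) (nat_lit 76) (nat_lit 15135151284) (nat_lit 152) (nat_lit 85603477783) (nat_lit 19) (nat_lit 5) (nat_lit 20) (nat_lit 5) (nat_lit 21) (nat_lit 4) (nat_lit 496) (nat_lit 411) (nat_lit 293))))) (XT.nd (nat_lit 234) (nat_lit 152) (nat_lit 0) (XT.nd (nat_lit 78) (nat_lit 76) (nat_lit 0) (XT.lf (nat_lit 0) (nat_lit 38858780735) (nat_lit 152) (nat_lit 61428731835) (nat_lit 0) (nat_lit 6904558809) (nat_lit 19) (nat_lit 5) (nat_lit 21) (nat_lit 4) (nat_lit 19) (nat_lit 4) (nat_lit 497) (nat_lit 411) (nat_lit 292)) (XT.nd (nat_lit 78) (nat_lit 76) (nat_lit 0) (XT.lf (nat_lit 0) (nat_lit 61490389481)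 (nat_lit 152) (nat_lit 20414332439) (nat_lit 0) (nat_lit 29531574610) (nat_lit 19) (nat_lit 5) (nat_lit 21) (nat_lit 4) (nat_lit 19) (nat_lit 4) (nat_lit 498) (nat_lit 411) (nat_lit 291)) (XT.lf (nat_lit 0) (nat_lit 23387056441) (nat_lit 76) (nat_lit 62225459483) (nat_lit 76) (nat_lit 30262270378) (nat_lit 18) (nat_lit 4) (nat_lit 19) (nat_lit 5) (nat_lit 19) (nat_lit 4) (nat_lit 499) (nat_lit 411) (nat_lit 290)))) (XT.nd (nat_lit 156) (nat_lit 76) (nat_lit 0) (XT.nd (nat_lit 78) (nat_lit 76) (nat_lit 0) (XT.lf (nat_lit 0) (nat_lit 70075189726) (nat_lit 76) (nat_lit 41205192218) (nat_lit 76) (nat_lit 9237837176) (nat_lit 18) (nat_lit 4) (nat_lit 19) (nat_lit 5) (nat_lit 19) (nat_lit 4) (nat_lit 500) (nat_lit 411) (nat_lit 289)) (XT.lf (nat_lit 0) (nat_lit 12421028826) (nat_lit 152) (nat_lit 6508213505) (nat_lit 76) (nat_lit 106454854651) (nat_lit 17) (nat_lit 5) (nat_lit 19) (nat_lit 5) (nat_lit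 18) (nat_lit 4) (nat_lit 501) (nat_lit 411) (nat_lit 288))) (XT.nd (nat_lit 78) (nat_lit 0) (nat_lit 0) (XT.lf (nat_lit 0) (nat_lit 35565704088) (nat_lit 152) (nat_lit 89771100220) (nat_lit 0) (nat_lit 5113226728) (nat_lit 16) (nat_lit 5) (nat_lit 18) (nat_lit 4) (nat_lit 16) (nat_lit 4) (nat_lit 502) (nat_lit 411) (nat_lit 287)) (XT.lf (nat_lit 0) (nat_lit 60284349354) (nat_lit 152) (nat_lit 45635631136) (nat_lit 0) (nat_lit 29828444668) (nat_lit 16) (nat_lit 5) (nat_lit 18) (nat_lit 4) (nat_lit 16) (nat_lit 4) (nat_lit 503) (nat_lit 411) (nat_lit 286)))))) (XT.nd (nat_lit 546) (nat_lit 228) (nat_lit 0) (XT.nd (nat_lit 234) (nat_lit 152) (nat_lit 0) (XT.nd (nat_lit 78) (nat_lit 0) (nat_lit 0) (XT.lf (nat_lit 0) (nat_lit 719014024) (nat_lit 76) (nat_lit 85525799796) (nat_lit 76) (nat_lit 55066630989) (nat_lit 15) (nat_lit 4) (nat_lit 16) (nat_lit 5) (nat_lit 16) (nat_lit 4) (nat_lit 504) (nat_lit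 411) (nat_lit 285)) (XT.nd (nat_lit 78) (nat_lit 0) (nat_lit 0) (XT.lf (nat_lit 0) (nat_lit 50965318324) (nat_lit 76) (nat_lit 63305597040) (nat_lit 76) (nat_lit 32843319547) (nat_lit 15) (nat_lit 4) (nat_lit 16) (nat_lit 5) (nat_lit 16) (nat_lit 4) (nat_lit 505) (nat_lit 411) (nat_lit 284)) (XT.lf (nat_lit 0) (nat_lit 103713995759) (nat_lit 76) (nat_lit 39979328474) (nat_lit 76) (nat_lit 9514090327) (nat_lit 15) (nat_lit 4) (nat_lit 16) (nat_lit 5) (nat_lit 16) (nat_lit 4) (nat_lit 506) (nat_lit 411) (nat_lit 283)))) (XT.nd (nat_lit 156) (nat_lit 0) (nat_lit 0) (XT.nd (nat_lit 78) (nat_lit 76) (nat_lit 0) (XT.lf (nat_lit 0) (nat_lit 14497257644) (nat_lit 152) (nat_lit 748679645) (nat_lit 76) (nat_lit 144347862701) (nat_lit 14) (nat_lit 5) (nat_lit 16) (nat_lit 5) (nat_lit 15) (nat_lit 4) (nat_lit 507) (nat_lit 411) (nat_lit 282)) (XT.lf (nat_lit 0) (nat_lit 40378817041) (nat_lit 152) (nat_lit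 114504358760) (nat_lit 0) (nat_lit 11359061596) (nat_lit 13) (nat_lit 5) (nat_lit 15) (nat_lit 4) (nat_lit 13) (nat_lit 4) (nat_lit 508) (nat_lit 411) (nat_lit 281))) (XT.nd (nat_lit 78) (nat_lit 0) (nat_lit 0) (XT.lf (nat_lit 0) (nat_lit 67812675748) (nat_lit 152) (nat_lit 66607025421) (nat_lit 0) (nat_lit 38790484566) (nat_lit 13) (nat_lit 5) (nat_lit 15) (nat_lit 4) (nat_lit 13) (nat_lit 4) (nat_lit 509) (nat_lit 411) (nat_lit 280)) (XT.lf (nat_lit 0) (nat_lit 96613847231) (nat_lit 152) (nat_lit 16323567088) (nat_lit 0) (nat_lit 67589336300) (nat_lit 13) (nat_lit 5) (nat_lit 15) (nat_lit 4) (nat_lit 13) (nat_lit 4) (nat_lit 510) (nat_lit 411) (nat_lit 279))))) (XT.nd (nat_lit 234) (nat_lit 152) (nat_lit 0) (XT.nd (nat_lit 78) (nat_lit 0) (nat_lit 0) (XT.lf (nat_lit 0) (nat_lit 37671460767) (nat_lit 76) (nat_lit 89767602018) (nat_lit 76) (nat_lit 60740881801) (nat_lit 12) (nat_lit 4) (nat_lit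 13) (nat_lit 5) (nat_lit 13) (nat_lit 4) (nat_lit 511) (nat_lit 411) (nat_lit 278)) (XT.nd (nat_lit 78) (nat_lit 0) (nat_lit 0) (XT.lf (nat_lit 0) (nat_lit 94924766283) (nat_lit 76) (nat_lit 65153119521) (nat_lit 76) (nat_lit 36124295223) (nat_lit 12) (nat_lit 4) (nat_lit 13) (nat_lit 5) (nat_lit 13) (nat_lit 4) (nat_lit 512) (nat_lit 411) (nat_lit 277)) (XT.lf (nat_lit 0) (nat_lit 155032936007) (nat_lit 76) (nat_lit 39311808424) (nat_lit 76) (nat_lit 10280980239) (nat_lit 12) (nat_lit 4) (nat_lit 13) (nat_lit 5) (nat_lit 13) (nat_lit 4) (nat_lit 513) (nat_lit 411) (nat_lit 276)))) (XT.nd (nat_lit 156) (nat_lit 0) (nat_lit 0) (XT.nd (nat_lit 78) (nat_lit 0) (nat_lit 0) (XT.lf (nat_lit 0) (nat_lit 4551029407) (nat_lit 76) (nat_lit 11831295498) (nat_lit 152) (nat_lit 197071599704) (nat_lit 10) (nat_lit 5) (nat_lit 11) (nat_lit 5) (nat_lit 12) (nat_lit 4) (nat_lit 514) (nat_lit 411) (nat_lit 275))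 (XT.lf (nat_lit 0) (nat_lit 45148939175) (nat_lit 152) (nat_lit 160013403051) (nat_lit 0) (nat_lit 17496982762) (nat_lit 10) (nat_lit 5) (nat_lit 12) (nat_lit 4) (nat_lit 10) (nat_lit 4) (nat_lit 515) (nat_lit 411) (nat_lit 274))) (XT.nd (nat_lit 78) (nat_lit 0) (nat_lit 0) (XT.lf (nat_lit 0) (nat_lit 75544244894) (nat_lit 152) (nat_lit 108880592662) (nat_lit 0) (nat_lit 47890639880) (nat_lit 10) (nat_lit 5) (nat_lit 12) (nat_lit 4) (nat_lit 10) (nat_lit 4) (nat_lit 516) (nat_lit 411) (nat_lit 273)) (XT.lf (nat_lit 0) (nat_lit 107455892160) (nat_lit 152) (nat_lit 55197999569) (nat_lit 0) (nat_lit 79800717047) (nat_lit 10) (nat_lit 5) (nat_lit 12) (nat_lit 4) (nat_lit 10) (nat_lit 4) (nat_lit 517) (nat_lit 411) (nat_lit 272))))))) (XT.nd (nat_lit 1092) (nat_lit 152) (nat_lit 0) (XT.nd (nat_lit 546) (nat_lit 76) (nat_lit 0) (XT.nd (nat_lit 234) (nat_lit 152) (nat_lit 0) (XT.nd (nat_lit 78) (nat_lit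 0) (nat_lit 0) (XT.lf (nat_lit 0) (nat_lit 1200619239) (nat_lit 76) (nat_lit 139777986874) (nat_lit 76) (nat_lit 112121316430) (nat_lit 9) (nat_lit 4) (nat_lit 10) (nat_lit 5) (nat_lit 10) (nat_lit 4) (nat_lit 518) (nat_lit 411) (nat_lit 271)) (XT.nd (nat_lit 78) (nat_lit 0) (nat_lit 0) (XT.lf (nat_lit 0) (nat_lit 62329092983) (nat_lit 76) (nat_lit 114779961853) (nat_lit 76) (nat_lit 87121867284) (nat_lit 9) (nat_lit 4) (nat_lit 10) (nat_lit 5) (nat_lit 10) (nat_lit 4) (nat_lit 519) (nat_lit 411) (nat_lit 270)) (XT.lf (nat_lit 0) (nat_lit 126507870501) (nat_lit 76) (nat_lit 88535102390) (nat_lit 76) (nat_lit 60875651511) (nat_lit 9) (nat_lit 4) (nat_lit 10) (nat_lit 5) (nat_lit 10) (nat_lit 4) (nat_lit 520) (nat_lit 411) (nat_lit 269)))) (XT.nd (nat_lit 156) (nat_lit 152) (nat_lit 0) (XT.nd (nat_lit 78) (nat_lit 0) (nat_lit 0) (XT.lf (nat_lit 0) (nat_lit 193889758405) (nat_lit 76) (nat_lit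 60980920723) (nat_lit 76) (nat_lit 33320178122) (nat_lit 9) (nat_lit 4) (nat_lit 10) (nat_lit 5) (nat_lit 10) (nat_lit 4) (nat_lit 521) (nat_lit 411) (nat_lit 268)) (XT.lf (nat_lit 0) (nat_lit 264635189762) (nat_lit 76) (nat_lit 32051811660) (nat_lit 76) (nat_lit 4389838846) (nat_lit 9) (nat_lit 4) (nat_lit 10) (nat_lit 5) (nat_lit 10) (nat_lit 4) (nat_lit 522) (nat_lit 411) (nat_lit 267))) (XT.nd (nat_lit 78) (nat_lit 0) (nat_lit 0) (XT.lf (nat_lit 0) (nat_lit 24689895625) (nat_lit 76) (nat_lit 848172701) (nat_lit 152) (nat_lit 289029627771) (nat_lit 7) (nat_lit 5) (nat_lit 8) (nat_lit 5) (nat_lit 9) (nat_lit 4) (nat_lit 523) (nat_lit 411) (nat_lit 266)) (XT.lf (nat_lit 0) (nat_lit 57937733491) (nat_lit 152) (nat_lit 239144799619) (nat_lit 0) (nat_lit 31590818934) (nat_lit 7) (nat_lit 5) (nat_lit 9) (nat_lit 4) (nat_lit 7) (nat_lit 4) (nat_lit 524) (nat_lit 411) (nat_lit 265))))) (XT.nd (nat_lit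 234) (nat_lit 76) (nat_lit 0) (XT.nd (nat_lit 78) (nat_lit 0) (nat_lit 0) (XT.lf (nat_lit 0) (nat_lit 91968736840) (nat_lit 152) (nat_lit 185894176071) (nat_lit 0) (nat_lit 65620810184) (nat_lit 7) (nat_lit 5) (nat_lit 9) (nat_lit 4) (nat_lit 7) (nat_lit 4) (nat_lit 525) (nat_lit 411) (nat_lit 264)) (XT.nd (nat_lit 78) (nat_lit 0) (nat_lit 0) (XT.lf (nat_lit 0) (nat_lit 127698862220) (nat_lit 152) (nat_lit 129985900276) (nat_lit 0) (nat_lit 101349971660) (nat_lit 7) (nat_lit 5) (nat_lit 9) (nat_lit 4) (nat_lit 7) (nat_lit 4) (nat_lit 526) (nat_lit 411) (nat_lit 263)) (XT.lf (nat_lit 0) (nat_lit 165213181357) (nat_lit 152) (nat_lit 71286857292) (nat_lit 0) (nat_lit 138863372794) (nat_lit 7) (nat_lit 5) (nat_lit 9) (nat_lit 4) (nat_lit 7) (nat_lit 4) (nat_lit 527) (nat_lit 411) (nat_lit 262)))) (XT.nd (nat_lit 156) (nat_lit 0) (nat_lit 0) (XT.nd (nat_lit 78) (nat_lit 76) (nat_lit 0) (XT.lf (nat_lit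 0) (nat_lit 204601014060) (nat_lit 152) (nat_lit 9657287492) (nat_lit 0) (nat_lit 178250331207) (nat_lit 7) (nat_lit 5) (nat_lit 9) (nat_lit 4) (nat_lit 7) (nat_lit 4) (nat_lit 528) (nat_lit 411) (nat_lit 261)) (XT.lf (nat_lit 0) (nat_lit 56869732800) (nat_lit 76) (nat_lit 189974303987) (nat_lit 76) (nat_lit 163622788478) (nat_lit 6) (nat_lit 4) (nat_lit 7) (nat_lit 5) (nat_lit 7) (nat_lit 4) (nat_lit 529) (nat_lit 411) (nat_lit 260))) (XT.nd (nat_lit 78) (nat_lit 0) (nat_lit 0) (XT.lf (nat_lit 0) (nat_lit 127054236697) (nat_lit 76) (nat_lit 164306462416) (nat_lit 76) (nat_lit 137954153901) (nat_lit 6) (nat_lit 4) (nat_lit 7) (nat_lit 5) (nat_lit 7) (nat_lit 4) (nat_lit 530) (nat_lit 411) (nat_lit 259)) (XT.lf (nat_lit 0) (nat_lit 200744016620) (nat_lit 76) (nat_lit 137357213769) (nat_lit 76) (nat_lit 111004150010) (nat_lit 6) (nat_lit 4) (nat_lit 7) (nat_lit 5) (nat_lit 7) (nat_lit 4) (nat_lit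 531) (nat_lit 411) (nat_lit 258)))))) (XT.nd (nat_lit 546) (nat_lit 0) (nat_lit 0) (XT.nd (nat_lit 234) (nat_lit 152) (nat_lit 0) (XT.nd (nat_lit 78) (nat_lit 0) (nat_lit 0) (XT.lf (nat_lit 0) (nat_lit 278114524428) (nat_lit 76) (nat_lit 109062393166) (nat_lit 76) (nat_lit 82708610127) (nat_lit 6) (nat_lit 4) (nat_lit 7) (nat_lit 5) (nat_lit 7) (nat_lit 4) (nat_lit 532) (nat_lit 411) (nat_lit 257)) (XT.nd (nat_lit 78) (nat_lit 0) (nat_lit 0) (XT.lf (nat_lit 0) (nat_lit 359349975614) (nat_lit 76) (nat_lit 79354631989) (nat_lit 76) (nat_lit 53000163921) (nat_lit 6) (nat_lit 4) (nat_lit 7) (nat_lit 5) (nat_lit 7) (nat_lit 4) (nat_lit 533) (nat_lit 411) (nat_lit 256)) (XT.lf (nat_lit 0) (nat_lit 444643787919) (nat_lit 76) (nat_lit 48163197471) (nat_lit 76) (nat_lit 21808076996) (nat_lit 6) (nat_lit 4) (nat_lit 7) (nat_lit 5) (nat_lit 7) (nat_lit 4) (nat_lit 534) (nat_lit 411) (nat_lit 255)))) (XT.nd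 (nat_lit 156) (nat_lit 0) (nat_lit 0) (XT.nd (nat_lit 78) (nat_lit 76) (nat_lit 0) (XT.lf (nat_lit 0) (nat_lit 10591707828) (nat_lit 152) (nat_lit 4642740768) (nat_lit 76) (nat_lit 523427958325) (nat_lit 5) (nat_lit 5) (nat_lit 7) (nat_lit 5) (nat_lit 6) (nat_lit 4) (nat_lit 535) (nat_lit 411) (nat_lit 254)) (XT.lf (nat_lit 0) (nat_lit 45227307158) (nat_lit 152) (nat_lit 498473463005) (nat_lit 0) (nat_lit 20126037092) (nat_lit 4) (nat_lit 5) (nat_lit 6) (nat_lit 4) (nat_lit 4) (nat_lit 4) (nat_lit 536) (nat_lit 411) (nat_lit 253))) (XT.nd (nat_lit 78) (nat_lit 0) (nat_lit 0) (XT.lf (nat_lit 0) (nat_lit 81922785158) (nat_lit 152) (nat_lit 451489259187) (nat_lit 0) (nat_lit 56820978354) (nat_lit 4) (nat_lit 5) (nat_lit 6) (nat_lit 4) (nat_lit 4) (nat_lit 4) (nat_lit 537) (nat_lit 411) (nat_lit 252)) (XT.lf (nat_lit 0) (nat_lit 120451549072) (nat_lit 152) (nat_lit 402158843181) (nat_lit 0) (nat_lit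 95349231089) (nat_lit 4) (nat_lit 5) (nat_lit 6) (nat_lit 4) (nat_lit 4) (nat_lit 4) (nat_lit 538) (nat_lit 411) (nat_lit 251))))) (XT.nd (nat_lit 312) (nat_lit 0) (nat_lit 0) (XT.nd (nat_lit 156) (nat_lit 0) (nat_lit 0) (XT.nd (nat_lit 78) (nat_lit 0) (nat_lit 0) (XT.lf (nat_lit 0) (nat_lit 160905334051) (nat_lit 152) (nat_lit 350364761615) (nat_lit 0) (nat_lit 135802529231) (nat_lit 4) (nat_lit 5) (nat_lit 6) (nat_lit 4) (nat_lit 4) (nat_lit 4) (nat_lit 539) (nat_lit 411) (nat_lit 250)) (XT.lf (nat_lit 0) (nat_lit 203380458632) (nat_lit 152) (nat_lit 295983695249) (nat_lit 0) (nat_lit 178277190158) (nat_lit 4) (nat_lit 5) (nat_lit 6) (nat_lit 4) (nat_lit 4) (nat_lit 4) (nat_lit 540) (nat_lit 411) (nat_lit 249))) (XT.nd (nat_lit 78) (nat_lit 0) (nat_lit 0) (XT.lf (nat_lit 0) (nat_lit 247978054063) (nat_lit 152) (nat_lit 238886165352) (nat_lit 0) (nat_lit 222874344013) (nat_lit 4) (nat_lit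 5) (nat_lit 6) (nat_lit 4) (nat_lit 4) (nat_lit 4) (nat_lit 541) (nat_lit 411) (nat_lit 248)) (XT.lf (nat_lit 0) (nat_lit 294804305095) (nat_lit 152) (nat_lit 178936225424) (nat_lit 0) (nat_lit 269700174498) (nat_lit 4) (nat_lit 5) (nat_lit 6) (nat_lit 4) (nat_lit 4) (nat_lit 4) (nat_lit 542) (nat_lit 411) (nat_lit 247)))) (XT.nd (nat_lit 52338) (nat_lit 0) (nat_lit 10716) (XT.nd (nat_lit 52260) (nat_lit 0) (nat_lit 10716) (XT.lf (nat_lit 0) (nat_lit 343970702803) (nat_lit 152) (nat_lit 115991137515) (nat_lit 0) (nat_lit 318866171683) (nat_lit 4) (nat_lit 5) (nat_lit 6) (nat_lit 4) (nat_lit 4) (nat_lit 4) (nat_lit 543) (nat_lit 411) (nat_lit 246)) (XT.lf (nat_lit 0) (nat_lit 776473864) (nat_lit 684) (nat_lit 1639443152) (nat_lit 684) (nat_lit 1639443152) (nat_lit 145) (nat_lit 3) (nat_lit 154) (nat_lit 3) (nat_lit 154) (nat_lit 5) (nat_lit 412) (nat_lit 412) (nat_lit 376))) (XT.nd (nat_lit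 78) (nat_lit 0) (nat_lit 76) (XT.lf (nat_lit 76) (nat_lit 726015449) (nat_lit 0) (nat_lit 2020614955) (nat_lit 684) (nat_lit 5508599523) (nat_lit 146) (nat_lit 5) (nat_lit 145) (nat_lit 3) (nat_lit 154) (nat_lit 5) (nat_lit 413) (nat_lit 412) (nat_lit 375)) (XT.lf (nat_lit 0) (nat_lit 3997687678) (nat_lit 608) (nat_lit 3418613151) (nat_lit 684) (nat_lit 990812640) (nat_lit 146) (nat_lit 5) (nat_lit 154) (nat_lit 5) (nat_lit 155) (nat_lit 5) (nat_lit 414) (nat_lit 412) (nat_lit 374))))))))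
noncomputable def xc123 : XT := (XT.nd (nat_lit 2184) (nat_lit 3040) (nat_lit 0) (XT.nd (nat_lit 1092) (nat_lit 2432) (nat_lit 0) (XT.nd (nat_lit 546) (nat_lit 2128) (nat_lit 0) (XT.nd (nat_lit 234) (nat_lit 608) (nat_lit 0) (XT.nd (nat_lit 78) (nat_lit 0) (nat_lit 0) (XT.lf (nat_lit 76) (nat_lit 849709380) (nat_lit 0) (nat_lit 4438182014) (nat_lit 684) (nat_lit 3279901541) (nat_lit 147) (nat_lit 5) (nat_lit 146) (nat_lit 5) (nat_lit 155) (nat_lit 5) (nat_lit 415) (nat_lit 412) (nat_lit 373)) (XT.nd (nat_lit 78) (nat_lit 0) (nat_lit 76) (XT.lf (nat_lit 76) (nat_lit 5408930021) (nat_lit 0) (nat_lit 1224453921) (nat_lit 684) (nat_lit 2103613428) (nat_lit 147) (nat_lit 5) (nat_lit 146) (nat_lit 5) (nat_lit 155) (nat_lit 5) (nat_lit 416) (nat_lit 412) (nat_lit 372)) (XT.lf (nat_lit 76) (nat_lit 1244874211) (nat_lit 0) (nat_lit 6790743931) (nat_lit 684) (nat_lit 879599038) (nat_lit 148) (nat_lit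 5) (nat_lit 147) (nat_lit 5) (nat_lit 156) (nat_lit 5) (nat_lit 417) (nat_lit 412) (nat_lit 371)))) (XT.nd (nat_lit 156) (nat_lit 0) (nat_lit 76) (XT.nd (nat_lit 78) (nat_lit 0) (nat_lit 76) (XT.lf (nat_lit 0) (nat_lit 407795606) (nat_lit 684) (nat_lit 3009097333) (nat_lit 760) (nat_lit 5684406165) (nat_lit 138) (nat_lit 5) (nat_lit 147) (nat_lit 5) (nat_lit 148) (nat_lit 5) (nat_lit 418) (nat_lit 412) (nat_lit 370)) (XT.lf (nat_lit 0) (nat_lit 1703206891) (nat_lit 684) (nat_lit 7411306649) (nat_lit 760) (nat_lit 182814864) (nat_lit 139) (nat_lit 5) (nat_lit 148) (nat_lit 5) (nat_lit 149) (nat_lit 5) (nat_lit 419) (nat_lit 412) (nat_lit 369))) (XT.nd (nat_lit 78) (nat_lit 0) (nat_lit 0) (XT.lf (nat_lit 0) (nat_lit 3114380608) (nat_lit 684) (nat_lit 2471672603) (nat_lit 760) (nat_lit 3914579816) (nat_lit 139) (nat_lit 5) (nat_lit 148) (nat_lit 5) (nat_lit 149) (nat_lit 5) (nat_lit 420) (nat_lit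 412) (nat_lit 368)) (XT.lf (nat_lit 76) (nat_lit 2760853147) (nat_lit 0) (nat_lit 1824251461) (nat_lit 760) (nat_lit 5129571025) (nat_lit 140) (nat_lit 5) (nat_lit 139) (nat_lit 5) (nat_lit 149) (nat_lit 5) (nat_lit 421) (nat_lit 412) (nat_lit 367))))) (XT.nd (nat_lit 234) (nat_lit 1596) (nat_lit 0) (XT.nd (nat_lit 78) (nat_lit 684) (nat_lit 0) (XT.lf (nat_lit 0) (nat_lit 6153071471) (nat_lit 684) (nat_lit 1674947903) (nat_lit 76) (nat_lit 2110236931) (nat_lit 140) (nat_lit 5) (nat_lit 149) (nat_lit 5) (nat_lit 141) (nat_lit 5) (nat_lit 422) (nat_lit 412) (nat_lit 366)) (XT.nd (nat_lit 78) (nat_lit 0) (nat_lit 0) (XT.lf (nat_lit 0) (nat_lit 3921020708) (nat_lit 684) (nat_lit 3919991543) (nat_lit 760) (nat_lit 2329945240) (nat_lit 131) (nat_lit 5) (nat_lit 140) (nat_lit 5) (nat_lit 141) (nat_lit 5) (nat_lit 423) (nat_lit 412) (nat_lit 365)) (XT.lf (nat_lit 0) (nat_lit 9597299307) (nat_lit 760)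 (nat_lit 606529146) (nat_lit 76) (nat_lit 212287112) (nat_lit 131) (nat_lit 5) (nat_lit 141) (nat_lit 5) (nat_lit 132) (nat_lit 5) (nat_lit 424) (nat_lit 412) (nat_lit 364)))) (XT.nd (nat_lit 156) (nat_lit 380) (nat_lit 0) (XT.nd (nat_lit 78) (nat_lit 380) (nat_lit 0) (XT.lf (nat_lit 0) (nat_lit 847825741) (nat_lit 836) (nat_lit 5297096560) (nat_lit 76) (nat_lit 4522800654) (nat_lit 120) (nat_lit 5) (nat_lit 131) (nat_lit 5) (nat_lit 121) (nat_lit 5) (nat_lit 425) (nat_lit 412) (nat_lit 363)) (XT.lf (nat_lit 0) (nat_lit 702213955) (nat_lit 380) (nat_lit 1844780169) (nat_lit 456) (nat_lit 8385426500) (nat_lit 115) (nat_lit 5) (nat_lit 120) (nat_lit 5) (nat_lit 121) (nat_lit 5) (nat_lit 426) (nat_lit 412) (nat_lit 362))) (XT.nd (nat_lit 78) (nat_lit 380) (nat_lit 0) (XT.lf (nat_lit 0) (nat_lit 4420783419) (nat_lit 456) (nat_lit 4108105462) (nat_lit 76) (nat_lit 2676997042) (nat_lit 115) (nat_lit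 5) (nat_lit 121) (nat_lit 5) (nat_lit 116) (nat_lit 5) (nat_lit 427) (nat_lit 412) (nat_lit 361)) (XT.lf (nat_lit 0) (nat_lit 2321820427) (nat_lit 380) (nat_lit 4091782759) (nat_lit 456) (nat_lit 5078169368) (nat_lit 110) (nat_lit 5) (nat_lit 115) (nat_lit 5) (nat_lit 116) (nat_lit 5) (nat_lit 428) (nat_lit 412) (nat_lit 360)))))) (XT.nd (nat_lit 546) (nat_lit 1140) (nat_lit 0) (XT.nd (nat_lit 234) (nat_lit 836) (nat_lit 0) (XT.nd (nat_lit 78) (nat_lit 456) (nat_lit 0) (XT.lf (nat_lit 0) (nat_lit 8545761610) (nat_lit 456) (nat_lit 2626249680) (nat_lit 76) (nat_lit 617971740) (nat_lit 110) (nat_lit 5) (nat_lit 116) (nat_lit 5) (nat_lit 111) (nat_lit 5) (nat_lit 429) (nat_lit 412) (nat_lit 359)) (XT.nd (nat_lit 78) (nat_lit 76) (nat_lit 0) (XT.lf (nat_lit 0) (nat_lit 4272746660) (nat_lit 380) (nat_lit 6607596989) (nat_lit 456) (nat_lit 1217983305) (nat_lit 105) (nat_lit 5) (nat_lit 110) (nat_lit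 5) (nat_lit 111) (nat_lit 5) (nat_lit 430) (nat_lit 412) (nat_lit 358)) (XT.lf (nat_lit 0) (nat_lit 888242304) (nat_lit 456) (nat_lit 869070593) (nat_lit 76) (nat_lit 10663688200) (nat_lit 104) (nat_lit 5) (nat_lit 110) (nat_lit 5) (nat_lit 105) (nat_lit 5) (nat_lit 431) (nat_lit 412) (nat_lit 357)))) (XT.nd (nat_lit 156) (nat_lit 228) (nat_lit 0) (XT.nd (nat_lit 78) (nat_lit 304) (nat_lit 0) (XT.lf (nat_lit 0) (nat_lit 3180054355) (nat_lit 380) (nat_lit 6223532450) (nat_lit 76) (nat_lit 3349175270) (nat_lit 100) (nat_lit 5) (nat_lit 105) (nat_lit 5) (nat_lit 101) (nat_lit 5) (nat_lit 432) (nat_lit 412) (nat_lit 356)) (XT.lf (nat_lit 0) (nat_lit 1195294780) (nat_lit 304) (nat_lit 4418958588) (nat_lit 380) (nat_lit 7485479194) (nat_lit 96) (nat_lit 5) (nat_lit 100) (nat_lit 5) (nat_lit 101) (nat_lit 5) (nat_lit 433) (nat_lit 412) (nat_lit 355))) (XT.nd (nat_lit 78) (nat_lit 228) (nat_lit 0)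 (XT.lf (nat_lit 0) (nat_lit 8256287953) (nat_lit 380) (nat_lit 4314176728) (nat_lit 76) (nat_lit 889291356) (nat_lit 96) (nat_lit 5) (nat_lit 101) (nat_lit 5) (nat_lit 97) (nat_lit 5) (nat_lit 434) (nat_lit 412) (nat_lit 354)) (XT.lf (nat_lit 0) (nat_lit 3660234648) (nat_lit 228) (nat_lit 7467660323) (nat_lit 304) (nat_lit 2705022410) (nat_lit 93) (nat_lit 5) (nat_lit 96) (nat_lit 5) (nat_lit 97) (nat_lit 5) (nat_lit 435) (nat_lit 412) (nat_lit 353))))) (XT.nd (nat_lit 234) (nat_lit 532) (nat_lit 0) (XT.nd (nat_lit 78) (nat_lit 608) (nat_lit 0) (XT.lf (nat_lit 0) (nat_lit 12143720221) (nat_lit 228) (nat_lit 2041220914) (nat_lit 304) (nat_lit 37712460) (nat_lit 93) (nat_lit 5) (nat_lit 96) (nat_lit 5) (nat_lit 97) (nat_lit 5) (nat_lit 436) (nat_lit 412) (nat_lit 352)) (XT.nd (nat_lit 78) (nat_lit 228) (nat_lit 0) (XT.lf (nat_lit 0) (nat_lit 2805881098) (nat_lit 380) (nat_lit 8138102553) (nat_lit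 76) (nat_lit 3679177420) (nat_lit 88) (nat_lit 5) (nat_lit 93) (nat_lit 5) (nat_lit 89) (nat_lit 5) (nat_lit 437) (nat_lit 412) (nat_lit 351)) (XT.lf (nat_lit 0) (nat_lit 447893145) (nat_lit 228) (nat_lit 5389232872) (nat_lit 304) (nat_lit 9204208454) (nat_lit 85) (nat_lit 5) (nat_lit 88) (nat_lit 5) (nat_lit 89) (nat_lit 5) (nat_lit 438) (nat_lit 412) (nat_lit 350)))) (XT.nd (nat_lit 156) (nat_lit 304) (nat_lit 0) (XT.nd (nat_lit 78) (nat_lit 228) (nat_lit 0) (XT.lf (nat_lit 0) (nat_lit 9138080640) (nat_lit 304) (nat_lit 5776910885) (nat_lit 76) (nat_lit 559525660) (nat_lit 85) (nat_lit 5) (nat_lit 89) (nat_lit 5) (nat_lit 86) (nat_lit 5) (nat_lit 439) (nat_lit 412) (nat_lit 349)) (XT.lf (nat_lit 0) (nat_lit 3464969319) (nat_lit 228) (nat_lit 9254078593) (nat_lit 304) (nat_lit 3204570513) (nat_lit 82) (nat_lit 5) (nat_lit 85) (nat_lit 5) (nat_lit 86) (nat_lit 5) (nat_lit 440) (nat_lit 412)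 (nat_lit 348))) (XT.nd (nat_lit 78) (nat_lit 228) (nat_lit 0) (XT.lf (nat_lit 0) (nat_lit 153440223) (nat_lit 304) (nat_lit 3062014054) (nat_lit 76) (nat_lit 13176050067) (nat_lit 81) (nat_lit 5) (nat_lit 85) (nat_lit 5) (nat_lit 82) (nat_lit 5) (nat_lit 441) (nat_lit 412) (nat_lit 347)) (XT.lf (nat_lit 0) (nat_lit 3705326327) (nat_lit 304) (nat_lit 9989843700) (nat_lit 76) (nat_lit 3178310961) (nat_lit 78) (nat_lit 5) (nat_lit 82) (nat_lit 5) (nat_lit 79) (nat_lit 5) (nat_lit 442) (nat_lit 412) (nat_lit 346))))))) (XT.nd (nat_lit 1092) (nat_lit 1444) (nat_lit 0) (XT.nd (nat_lit 546) (nat_lit 760) (nat_lit 0) (XT.nd (nat_lit 234) (nat_lit 456) (nat_lit 0) (XT.nd (nat_lit 78) (nat_lit 380) (nat_lit 0) (XT.lf (nat_lit 0) (nat_lit 7514825345) (nat_lit 304) (nat_lit 34658776) (nat_lit 76) (nat_lit 9826077693) (nat_lit 78) (nat_lit 5) (nat_lit 82) (nat_lit 5) (nat_lit 79) (nat_lit 5) (nat_lit 443)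 (nat_lit 412) (nat_lit 345)) (XT.nd (nat_lit 78) (nat_lit 152) (nat_lit 0) (XT.lf (nat_lit 0) (nat_lit 10726347812) (nat_lit 228) (nat_lit 931728848) (nat_lit 304) (nat_lit 6237512136) (nat_lit 75) (nat_lit 5) (nat_lit 78) (nat_lit 5) (nat_lit 79) (nat_lit 5) (nat_lit 444) (nat_lit 412) (nat_lit 344)) (XT.lf (nat_lit 0) (nat_lit 3569629517) (nat_lit 152) (nat_lit 12565376650) (nat_lit 228) (nat_lit 2300290876) (nat_lit 73) (nat_lit 5) (nat_lit 75) (nat_lit 5) (nat_lit 76) (nat_lit 5) (nat_lit 445) (nat_lit 412) (nat_lit 343)))) (XT.nd (nat_lit 156) (nat_lit 152) (nat_lit 0) (XT.nd (nat_lit 78) (nat_lit 228) (nat_lit 0) (XT.lf (nat_lit 0) (nat_lit 1890221892) (nat_lit 228) (nat_lit 3983370848) (nat_lit 76) (nat_lit 13121215437) (nat_lit 72) (nat_lit 5) (nat_lit 75) (nat_lit 5) (nat_lit 73) (nat_lit 5) (nat_lit 446) (nat_lit 412) (nat_lit 342)) (XT.lf (nat_lit 0) (nat_lit 6329792346) (nat_lit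 304) (nat_lit 11981108677) (nat_lit 76) (nat_lit 1263671438) (nat_lit 69) (nat_lit 5) (nat_lit 73) (nat_lit 5) (nat_lit 70) (nat_lit 5) (nat_lit 447) (nat_lit 412) (nat_lit 341))) (XT.nd (nat_lit 78) (nat_lit 152) (nat_lit 0) (XT.lf (nat_lit 0) (nat_lit 11134121385) (nat_lit 304) (nat_lit 424466395) (nat_lit 76) (nat_lit 8617602862) (nat_lit 69) (nat_lit 5) (nat_lit 73) (nat_lit 5) (nat_lit 70) (nat_lit 5) (nat_lit 448) (nat_lit 412) (nat_lit 340)) (XT.lf (nat_lit 0) (nat_lit 12063197142) (nat_lit 152) (nat_lit 4282786657) (nat_lit 228) (nat_lit 4453544551) (nat_lit 67) (nat_lit 5) (nat_lit 69) (nat_lit 5) (nat_lit 70) (nat_lit 5) (nat_lit 449) (nat_lit 412) (nat_lit 339))))) (XT.nd (nat_lit 234) (nat_lit 380) (nat_lit 0) (XT.nd (nat_lit 78) (nat_lit 152) (nat_lit 0) (XT.lf (nat_lit 0) (nat_lit 452226291) (nat_lit 228) (nat_lit 17685176618) (nat_lit 76) (nat_lit 3311375453) (nat_lit 64) (nat_lit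 5) (nat_lit 67) (nat_lit 5) (nat_lit 65) (nat_lit 5) (nat_lit 450) (nat_lit 412) (nat_lit 338)) (XT.nd (nat_lit 78) (nat_lit 152) (nat_lit 0) (XT.lf (nat_lit 0) (nat_lit 5653633980) (nat_lit 228) (nat_lit 5110271723) (nat_lit 76) (nat_lit 11352937753) (nat_lit 64) (nat_lit 5) (nat_lit 67) (nat_lit 5) (nat_lit 65) (nat_lit 5) (nat_lit 451) (nat_lit 412) (nat_lit 337)) (XT.lf (nat_lit 0) (nat_lit 8328148742) (nat_lit 152) (nat_lit 2897396208) (nat_lit 228) (nat_lit 11587248881) (nat_lit 62) (nat_lit 5) (nat_lit 64) (nat_lit 5) (nat_lit 65) (nat_lit 5) (nat_lit 452) (nat_lit 412) (nat_lit 336)))) (XT.nd (nat_lit 156) (nat_lit 228) (nat_lit 0) (XT.nd (nat_lit 78) (nat_lit 152) (nat_lit 0) (XT.lf (nat_lit 0) (nat_lit 17228400545) (nat_lit 228) (nat_lit 1040490089) (nat_lit 76) (nat_lit 5267037134) (nat_lit 62) (nat_lit 5) (nat_lit 65) (nat_lit 5) (nat_lit 63) (nat_lit 5) (nat_lit 453) (nat_lit 412)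 (nat_lit 335)) (XT.lf (nat_lit 0) (nat_lit 13427626584) (nat_lit 152) (nat_lit 10342497024) (nat_lit 228) (nat_lit 513161890) (nat_lit 60) (nat_lit 5) (nat_lit 62) (nat_lit 5) (nat_lit 63) (nat_lit 5) (nat_lit 454) (nat_lit 412) (nat_lit 334))) (XT.nd (nat_lit 78) (nat_lit 0) (nat_lit 0) (XT.lf (nat_lit 0) (nat_lit 3584986055) (nat_lit 152) (nat_lit 1863206568) (nat_lit 228) (nat_lit 19612693869) (nat_lit 57) (nat_lit 5) (nat_lit 59) (nat_lit 5) (nat_lit 60) (nat_lit 5) (nat_lit 455) (nat_lit 412) (nat_lit 333)) (XT.lf (nat_lit 0) (nat_lit 11969047517) (nat_lit 228) (nat_lit 6895814163) (nat_lit 76) (nat_lit 6998154195) (nat_lit 57) (nat_lit 5) (nat_lit 60) (nat_lit 5) (nat_lit 58) (nat_lit 5) (nat_lit 456) (nat_lit 412) (nat_lit 332)))))) (XT.nd (nat_lit 546) (nat_lit 760) (nat_lit 0) (XT.nd (nat_lit 234) (nat_lit 304) (nat_lit 0) (XT.nd (nat_lit 78) (nat_lit 228) (nat_lit 0) (XT.lf (nat_lit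 0) (nat_lit 8629555615) (nat_lit 152) (nat_lit 10334430857) (nat_lit 228) (nat_lit 7733865931) (nat_lit 55) (nat_lit 5) (nat_lit 57) (nat_lit 5) (nat_lit 58) (nat_lit 5) (nat_lit 457) (nat_lit 412) (nat_lit 331)) (XT.nd (nat_lit 78) (nat_lit 228) (nat_lit 0) (XT.lf (nat_lit 0) (nat_lit 25141698676) (nat_lit 152) (nat_lit 1266892497) (nat_lit 228) (nat_lit 1160846253) (nat_lit 55) (nat_lit 5) (nat_lit 57) (nat_lit 5) (nat_lit 58) (nat_lit 5) (nat_lit 458) (nat_lit 412) (nat_lit 330)) (XT.lf (nat_lit 0) (nat_lit 5898403123) (nat_lit 228) (nat_lit 14267581633) (nat_lit 76) (nat_lit 8297071746) (nat_lit 52) (nat_lit 5) (nat_lit 55) (nat_lit 5) (nat_lit 53) (nat_lit 5) (nat_lit 459) (nat_lit 412) (nat_lit 329)))) (XT.nd (nat_lit 156) (nat_lit 152) (nat_lit 0) (XT.nd (nat_lit 78) (nat_lit 0) (nat_lit 0) (XT.lf (nat_lit 0) (nat_lit 2341054122) (nat_lit 152) (nat_lit 11013493840) (nat_lit 228) (nat_lit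 16041712060) (nat_lit 50) (nat_lit 5) (nat_lit 52) (nat_lit 5) (nat_lit 53) (nat_lit 5) (nat_lit 460) (nat_lit 412) (nat_lit 328)) (XT.lf (nat_lit 0) (nat_lit 20247680079) (nat_lit 152) (nat_lit 1161621259) (nat_lit 228) (nat_lit 8955534461) (nat_lit 50) (nat_lit 5) (nat_lit 52) (nat_lit 5) (nat_lit 53) (nat_lit 5) (nat_lit 461) (nat_lit 412) (nat_lit 327))) (XT.nd (nat_lit 78) (nat_lit 76) (nat_lit 0) (XT.lf (nat_lit 0) (nat_lit 7745289720) (nat_lit 76) (nat_lit 22370547128) (nat_lit 152) (nat_lit 1253553341) (nat_lit 49) (nat_lit 5) (nat_lit 50) (nat_lit 5) (nat_lit 51) (nat_lit 4) (nat_lit 462) (nat_lit 412) (nat_lit 326)) (XT.lf (nat_lit 0) (nat_lit 6792815030) (nat_lit 152) (nat_lit 5719148329) (nat_lit 76) (nat_lit 19897976081) (nat_lit 48) (nat_lit 5) (nat_lit 50) (nat_lit 5) (nat_lit 49) (nat_lit 5) (nat_lit 463) (nat_lit 412) (nat_lit 325))))) (XT.nd (nat_lit 312) (nat_lit 304) (nat_lit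 0) (XT.nd (nat_lit 156) (nat_lit 304) (nat_lit 0) (XT.nd (nat_lit 78) (nat_lit 0) (nat_lit 0) (XT.lf (nat_lit 0) (nat_lit 13465674763) (nat_lit 152) (nat_lit 1929472552) (nat_lit 228) (nat_lit 18096554447) (nat_lit 46) (nat_lit 5) (nat_lit 48) (nat_lit 5) (nat_lit 49) (nat_lit 5) (nat_lit 464) (nat_lit 412) (nat_lit 324)) (XT.lf (nat_lit 0) (nat_lit 24655052746) (nat_lit 228) (nat_lit 985292218) (nat_lit 76) (nat_lit 8975836091) (nat_lit 46) (nat_lit 5) (nat_lit 49) (nat_lit 5) (nat_lit 47) (nat_lit 4) (nat_lit 465) (nat_lit 412) (nat_lit 323))) (XT.nd (nat_lit 78) (nat_lit 228) (nat_lit 0) (XT.lf (nat_lit 0) (nat_lit 19577763121) (nat_lit 76) (nat_lit 15123821148) (nat_lit 152) (nat_lit 1079120106) (nat_lit 45) (nat_lit 5) (nat_lit 46) (nat_lit 5) (nat_lit 47) (nat_lit 4) (nat_lit 466) (nat_lit 412) (nat_lit 322)) (XT.lf (nat_lit 0) (nat_lit 4180581972) (nat_lit 152) (nat_lit 3871068589) (nat_lit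 228) (nat_lit 28941935962) (nat_lit 42) (nat_lit 5) (nat_lit 44) (nat_lit 5) (nat_lit 45) (nat_lit 5) (nat_lit 467) (nat_lit 412) (nat_lit 321)))) (XT.nd (nat_lit 156) (nat_lit 228) (nat_lit 0) (XT.nd (nat_lit 78) (nat_lit 76) (nat_lit 0) (XT.lf (nat_lit 0) (nat_lit 17992113369) (nat_lit 228) (nat_lit 12278650769) (nat_lit 76) (nat_lit 7975994546) (nat_lit 42) (nat_lit 5) (nat_lit 45) (nat_lit 5) (nat_lit 43) (nat_lit 4) (nat_lit 468) (nat_lit 412) (nat_lit 320)) (XT.lf (nat_lit 0) (nat_lit 9499334729) (nat_lit 76) (nat_lit 19129162539) (nat_lit 152) (nat_lit 10924148606) (nat_lit 41) (nat_lit 5) (nat_lit 42) (nat_lit 5) (nat_lit 43) (nat_lit 4) (nat_lit 469) (nat_lit 412) (nat_lit 319))) (XT.nd (nat_lit 78) (nat_lit 228) (nat_lit 0) (XT.lf (nat_lit 0) (nat_lit 32769224340) (nat_lit 76) (nat_lit 7222797010) (nat_lit 152) (nat_lit 922041278) (nat_lit 41) (nat_lit 5) (nat_lit 42) (nat_lit 5)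 (nat_lit 43) (nat_lit 4) (nat_lit 470) (nat_lit 412) (nat_lit 318)) (XT.lf (nat_lit 0) (nat_lit 9586802561) (nat_lit 228) (nat_lit 27240909768) (nat_lit 76) (nat_lit 5492697542) (nat_lit 38) (nat_lit 5) (nat_lit 41) (nat_lit 5) (nat_lit 39) (nat_lit 4) (nat_lit 471) (nat_lit 412) (nat_lit 317))))))))
noncomputable def xc124 : XT := (XT.nd (nat_lit 2184) (nat_lit 912) (nat_lit 0) (XT.nd (nat_lit 1092) (nat_lit 684) (nat_lit 0) (XT.nd (nat_lit 546) (nat_lit 380) (nat_lit 0) (XT.nd (nat_lit 234) (nat_lit 304) (nat_lit 0) (XT.nd (nat_lit 78) (nat_lit 76) (nat_lit 0) (XT.lf (nat_lit 0) (nat_lit 20836560909) (nat_lit 228) (nat_lit 4200790270) (nat_lit 76) (nat_lit 18746645661) (nat_lit 38) (nat_lit 5) (nat_lit 41) (nat_lit 5) (nat_lit 39) (nat_lit 4) (nat_lit 472) (nat_lit 412) (nat_lit 316)) (XT.nd (nat_lit 78) (nat_lit 0) (nat_lit 0) (XT.lf (nat_lit 0) (nat_lit 20630049190) (nat_lit 76) (nat_lit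 12329283635) (nat_lit 152) (nat_lit 12345905083) (nat_lit 37) (nat_lit 5) (nat_lit 38) (nat_lit 5) (nat_lit 39) (nat_lit 4) (nat_lit 473) (nat_lit 412) (nat_lit 315)) (XT.lf (nat_lit 0) (nat_lit 45764884216) (nat_lit 152) (nat_lit 89354437) (nat_lit 0) (nat_lit 1044471314) (nat_lit 37) (nat_lit 5) (nat_lit 39) (nat_lit 4) (nat_lit 37) (nat_lit 4) (nat_lit 474) (nat_lit 412) (nat_lit 314)))) (XT.nd (nat_lit 156) (nat_lit 76) (nat_lit 0) (XT.nd (nat_lit 78) (nat_lit 76) (nat_lit 0) (XT.lf (nat_lit 0) (nat_lit 10910728246) (nat_lit 152) (nat_lit 22371424935) (nat_lit 76) (nat_lit 15250779195) (nat_lit 35) (nat_lit 5) (nat_lit 37) (nat_lit 5) (nat_lit 36) (nat_lit 4) (nat_lit 475) (nat_lit 412) (nat_lit 313)) (XT.lf (nat_lit 0) (nat_lit 3553711597) (nat_lit 76) (nat_lit 20011789378) (nat_lit 152) (nat_lit 26680131664) (nat_lit 34) (nat_lit 5) (nat_lit 35) (nat_lit 5) (nat_lit 36) (nat_lit 4) (nat_lit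 476) (nat_lit 412) (nat_lit 312))) (XT.nd (nat_lit 78) (nat_lit 76) (nat_lit 0) (XT.lf (nat_lit 0) (nat_lit 31531481632) (nat_lit 76) (nat_lit 5689678389) (nat_lit 152) (nat_lit 14804401318) (nat_lit 34) (nat_lit 5) (nat_lit 35) (nat_lit 5) (nat_lit 36) (nat_lit 4) (nat_lit 477) (nat_lit 412) (nat_lit 311)) (XT.lf (nat_lit 0) (nat_lit 7074411696) (nat_lit 76) (nat_lit 44731243472) (nat_lit 76) (nat_lit 2076529419) (nat_lit 33) (nat_lit 4) (nat_lit 34) (nat_lit 5) (nat_lit 34) (nat_lit 4) (nat_lit 478) (nat_lit 412) (nat_lit 310))))) (XT.nd (nat_lit 234) (nat_lit 228) (nat_lit 0) (XT.nd (nat_lit 78) (nat_lit 76) (nat_lit 0) (XT.lf (nat_lit 0) (nat_lit 11362166246) (nat_lit 152) (nat_lit 19376380587) (nat_lit 76) (nat_lit 25062495794) (nat_lit 32) (nat_lit 5) (nat_lit 34) (nat_lit 5) (nat_lit 33) (nat_lit 4) (nat_lit 479) (nat_lit 412) (nat_lit 309)) (XT.nd (nat_lit 78) (nat_lit 0) (nat_lit 0)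 (XT.lf (nat_lit 0) (nat_lit 9683683069) (nat_lit 76) (nat_lit 15860677918) (nat_lit 152) (nat_lit 32262713709) (nat_lit 31) (nat_lit 5) (nat_lit 32) (nat_lit 5) (nat_lit 33) (nat_lit 4) (nat_lit 480) (nat_lit 412) (nat_lit 308)) (XT.lf (nat_lit 0) (nat_lit 40755665031) (nat_lit 152) (nat_lit 19048033944) (nat_lit 0) (nat_lit 93710050) (nat_lit 31) (nat_lit 5) (nat_lit 33) (nat_lit 4) (nat_lit 31) (nat_lit 4) (nat_lit 481) (nat_lit 412) (nat_lit 307)))) (XT.nd (nat_lit 156) (nat_lit 76) (nat_lit 0) (XT.nd (nat_lit 78) (nat_lit 76) (nat_lit 0) (XT.lf (nat_lit 0) (nat_lit 11573566198) (nat_lit 76) (nat_lit 45585343417) (nat_lit 76) (nat_lit 4911782292) (nat_lit 30) (nat_lit 4) (nat_lit 31) (nat_lit 5) (nat_lit 31) (nat_lit 4) (nat_lit 482) (nat_lit 412) (nat_lit 306)) (XT.lf (nat_lit 0) (nat_lit 10027227603) (nat_lit 152) (nat_lit 20128798009) (nat_lit 76) (nat_lit 34172856179) (nat_lit 29) (nat_lit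 5) (nat_lit 31) (nat_lit 5) (nat_lit 30) (nat_lit 4) (nat_lit 483) (nat_lit 412) (nat_lit 305))) (XT.nd (nat_lit 78) (nat_lit 0) (nat_lit 0) (XT.lf (nat_lit 0) (nat_lit 12045863300) (nat_lit 76) (nat_lit 13681456217) (nat_lit 152) (nat_lit 40959676142) (nat_lit 28) (nat_lit 5) (nat_lit 29) (nat_lit 5) (nat_lit 30) (nat_lit 4) (nat_lit 484) (nat_lit 412) (nat_lit 304)) (XT.lf (nat_lit 0) (nat_lit 42606527196) (nat_lit 152) (nat_lit 22697081989) (nat_lit 0) (nat_lit 3839700972) (nat_lit 28) (nat_lit 5) (nat_lit 30) (nat_lit 4) (nat_lit 28) (nat_lit 4) (nat_lit 485) (nat_lit 412) (nat_lit 303)))))) (XT.nd (nat_lit 546) (nat_lit 304) (nat_lit 0) (XT.nd (nat_lit 234) (nat_lit 152) (nat_lit 0) (XT.nd (nat_lit 78) (nat_lit 152) (nat_lit 0) (XT.lf (nat_lit 0) (nat_lit 10954164504) (nat_lit 76) (nat_lit 49762425771) (nat_lit 76) (nat_lit 10986505830) (nat_lit 27) (nat_lit 4) (nat_lit 28) (nat_lit 5)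 (nat_lit 28) (nat_lit 4) (nat_lit 486) (nat_lit 412) (nat_lit 302)) (XT.nd (nat_lit 78) (nat_lit 76) (nat_lit 0) (XT.lf (nat_lit 0) (nat_lit 5552615905) (nat_lit 152) (nat_lit 27401718019) (nat_lit 76) (nat_lit 41413253972) (nat_lit 26) (nat_lit 5) (nat_lit 28) (nat_lit 5) (nat_lit 27) (nat_lit 4) (nat_lit 487) (nat_lit 412) (nat_lit 301)) (XT.lf (nat_lit 0) (nat_lit 7662436467) (nat_lit 76) (nat_lit 14998668587) (nat_lit 152) (nat_lit 54489612799) (nat_lit 25) (nat_lit 5) (nat_lit 26) (nat_lit 5) (nat_lit 27) (nat_lit 4) (nat_lit 488) (nat_lit 412) (nat_lit 300)))) (XT.nd (nat_lit 156) (nat_lit 76) (nat_lit 0) (XT.nd (nat_lit 78) (nat_lit 76) (nat_lit 0) (XT.lf (nat_lit 0) (nat_lit 41148895126) (nat_lit 152) (nat_lit 34702053374) (nat_lit 0) (nat_lit 4195862374) (nat_lit 25) (nat_lit 5) (nat_lit 27) (nat_lit 4) (nat_lit 25) (nat_lit 4) (nat_lit 489) (nat_lit 412) (nat_lit 299)) (XT.lf (nat_lit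 0) (nat_lit 1614435281) (nat_lit 76) (nat_lit 59210128549) (nat_lit 76) (nat_lit 22249970631) (nat_lit 24) (nat_lit 4) (nat_lit 25) (nat_lit 5) (nat_lit 25) (nat_lit 4) (nat_lit 490) (nat_lit 412) (nat_lit 298))) (XT.nd (nat_lit 78) (nat_lit 76) (nat_lit 0) (XT.lf (nat_lit 0) (nat_lit 40936921751) (nat_lit 76) (nat_lit 41127327478) (nat_lit 76) (nat_lit 4160383688) (nat_lit 24) (nat_lit 4) (nat_lit 25) (nat_lit 5) (nat_lit 25) (nat_lit 4) (nat_lit 491) (nat_lit 412) (nat_lit 297)) (XT.lf (nat_lit 0) (nat_lit 14351687845) (nat_lit 152) (nat_lit 7552446442) (nat_lit 76) (nat_lit 67616883776) (nat_lit 23) (nat_lit 5) (nat_lit 25) (nat_lit 5) (nat_lit 24) (nat_lit 4) (nat_lit 492) (nat_lit 412) (nat_lit 296))))) (XT.nd (nat_lit 234) (nat_lit 152) (nat_lit 0) (XT.nd (nat_lit 78) (nat_lit 76) (nat_lit 0) (XT.lf (nat_lit 0) (nat_lit 33045569453) (nat_lit 76) (nat_lit 1113031017) (nat_lit 152) (nat_lit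 58794759465) (nat_lit 22) (nat_lit 5) (nat_lit 23) (nat_lit 5) (nat_lit 24) (nat_lit 4) (nat_lit 493) (nat_lit 412) (nat_lit 295)) (XT.nd (nat_lit 78) (nat_lit 76) (nat_lit 0) (XT.lf (nat_lit 0) (nat_lit 55402459049) (nat_lit 152) (nat_lit 20954283843) (nat_lit 0) (nat_lit 20178246284) (nat_lit 22) (nat_lit 5) (nat_lit 24) (nat_lit 4) (nat_lit 22) (nat_lit 4) (nat_lit 494) (nat_lit 412) (nat_lit 294)) (XT.lf (nat_lit 0) (nat_lit 20574307403) (nat_lit 76) (nat_lit 57467137845) (nat_lit 76) (nat_lit 22237608172) (nat_lit 21) (nat_lit 4) (nat_lit 22) (nat_lit 5) (nat_lit 22) (nat_lit 4) (nat_lit 495) (nat_lit 412) (nat_lit 293)))) (XT.nd (nat_lit 156) (nat_lit 0) (nat_lit 0) (XT.nd (nat_lit 78) (nat_lit 152) (nat_lit 0) (XT.lf (nat_lit 0) (nat_lit 64894170261) (nat_lit 76) (nat_lit 37266660878) (nat_lit 76) (nat_lit 2032067483) (nat_lit 21) (nat_lit 4) (nat_lit 22) (nat_lit 5) (nat_lit 22) (nat_lit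 4) (nat_lit 496) (nat_lit 412) (nat_lit 292)) (XT.lf (nat_lit 0) (nat_lit 2908935113) (nat_lit 76) (nat_lit 15700016643) (nat_lit 152) (nat_lit 89676548895) (nat_lit 19) (nat_lit 5) (nat_lit 20) (nat_lit 5) (nat_lit 21) (nat_lit 4) (nat_lit 497) (nat_lit 412) (nat_lit 291))) (XT.nd (nat_lit 78) (nat_lit 0) (nat_lit 0) (XT.lf (nat_lit 0) (nat_lit 40992414740) (nat_lit 152) (nat_lit 64123026515) (nat_lit 0) (nat_lit 7426691946) (nat_lit 19) (nat_lit 5) (nat_lit 21) (nat_lit 4) (nat_lit 19) (nat_lit 4) (nat_lit 498) (nat_lit 412) (nat_lit 290)) (XT.lf (nat_lit 0) (nat_lit 64746523210) (nat_lit 152) (nat_lit 21075866288) (nat_lit 0) (nat_lit 31176634480) (nat_lit 19) (nat_lit 5) (nat_lit 21) (nat_lit 4) (nat_lit 19) (nat_lit 4) (nat_lit 499) (nat_lit 412) (nat_lit 289))))))) (XT.nd (nat_lit 1092) (nat_lit 380) (nat_lit 0) (XT.nd (nat_lit 546) (nat_lit 228) (nat_lit 0) (XT.nd (nat_lit 234) (nat_lit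 152) (nat_lit 0) (XT.nd (nat_lit 78) (nat_lit 76) (nat_lit 0) (XT.lf (nat_lit 0) (nat_lit 24909798766) (nat_lit 76) (nat_lit 65161826313) (nat_lit 76) (nat_lit 31587970023) (nat_lit 18) (nat_lit 4) (nat_lit 19) (nat_lit 5) (nat_lit 19) (nat_lit 4) (nat_lit 500) (nat_lit 412) (nat_lit 288)) (XT.nd (nat_lit 78) (nat_lit 76) (nat_lit 0) (XT.lf (nat_lit 0) (nat_lit 73915510643) (nat_lit 76) (nat_lit 43098874547) (nat_lit 76) (nat_lit 9521239630) (nat_lit 18) (nat_lit 4) (nat_lit 19) (nat_lit 5) (nat_lit 19) (nat_lit 4) (nat_lit 501) (nat_lit 412) (nat_lit 287)) (XT.lf (nat_lit 0) (nat_lit 13206629438) (nat_lit 152) (nat_lit 6507643261) (nat_lit 76) (nat_lit 111930796190) (nat_lit 17) (nat_lit 5) (nat_lit 19) (nat_lit 5) (nat_lit 18) (nat_lit 4) (nat_lit 502) (nat_lit 412) (nat_lit 286)))) (XT.nd (nat_lit 156) (nat_lit 76) (nat_lit 0) (XT.nd (nat_lit 78) (nat_lit 0) (nat_lit 0) (XT.lf (nat_lit 0)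 (nat_lit 37508192646) (nat_lit 152) (nat_lit 93933323272) (nat_lit 0) (nat_lit 5522801278) (nat_lit 16) (nat_lit 5) (nat_lit 18) (nat_lit 4) (nat_lit 16) (nat_lit 4) (nat_lit 503) (nat_lit 412) (nat_lit 285)) (XT.lf (nat_lit 0) (nat_lit 63454950969) (nat_lit 152) (nat_lit 47606620350) (nat_lit 0) (nat_lit 31466450914) (nat_lit 16) (nat_lit 5) (nat_lit 18) (nat_lit 4) (nat_lit 16) (nat_lit 4) (nat_lit 504) (nat_lit 412) (nat_lit 284))) (XT.nd (nat_lit 78) (nat_lit 0) (nat_lit 0) (XT.lf (nat_lit 0) (nat_lit 1060744287) (nat_lit 76) (nat_lit 89650021582) (nat_lit 76) (nat_lit 57658560874) (nat_lit 15) (nat_lit 4) (nat_lit 16) (nat_lit 5) (nat_lit 16) (nat_lit 4) (nat_lit 505) (nat_lit 412) (nat_lit 283)) (XT.lf (nat_lit 0) (nat_lit 53804802871) (nat_lit 76) (nat_lit 66326050032) (nat_lit 76) (nat_lit 34331769654) (nat_lit 15) (nat_lit 4) (nat_lit 16) (nat_lit 5) (nat_lit 16) (nat_lit 4) (nat_lit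 506) (nat_lit 412) (nat_lit 282))))) (XT.nd (nat_lit 234) (nat_lit 76) (nat_lit 0) (XT.nd (nat_lit 78) (nat_lit 152) (nat_lit 0) (XT.lf (nat_lit 0) (nat_lit 109177046624) (nat_lit 76) (nat_lit 41840364554) (nat_lit 76) (nat_lit 9843398776) (nat_lit 15) (nat_lit 4) (nat_lit 16) (nat_lit 5) (nat_lit 16) (nat_lit 4) (nat_lit 507) (nat_lit 412) (nat_lit 281)) (XT.nd (nat_lit 78) (nat_lit 76) (nat_lit 0) (XT.lf (nat_lit 0) (nat_lit 15357082887) (nat_lit 152) (nat_lit 517503381) (nat_lit 76) (nat_lit 151692151706) (nat_lit 14) (nat_lit 5) (nat_lit 16) (nat_lit 5) (nat_lit 15) (nat_lit 4) (nat_lit 508) (nat_lit 412) (nat_lit 280)) (XT.lf (nat_lit 0) (nat_lit 42532474489) (nat_lit 152) (nat_lit 119960716975) (nat_lit 0) (nat_lit 12054418262) (nat_lit 13) (nat_lit 5) (nat_lit 15) (nat_lit 4) (nat_lit 13) (nat_lit 4) (nat_lit 509) (nat_lit 412) (nat_lit 279)))) (XT.nd (nat_lit 156) (nat_lit 76) (nat_lit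 0) (XT.nd (nat_lit 78) (nat_lit 0) (nat_lit 0) (XT.lf (nat_lit 0) (nat_lit 71331611055) (nat_lit 152) (nat_lit 69681319813) (nat_lit 0) (nat_lit 40851345542) (nat_lit 13) (nat_lit 5) (nat_lit 15) (nat_lit 4) (nat_lit 13) (nat_lit 4) (nat_lit 510) (nat_lit 412) (nat_lit 278)) (XT.lf (nat_lit 0) (nat_lit 101566731516) (nat_lit 152) (nat_lit 16895881748) (nat_lit 0) (nat_lit 71084361922) (nat_lit 13) (nat_lit 5) (nat_lit 15) (nat_lit 4) (nat_lit 13) (nat_lit 4) (nat_lit 511) (nat_lit 412) (nat_lit 277))) (XT.nd (nat_lit 78) (nat_lit 0) (nat_lit 0) (XT.lf (nat_lit 0) (nat_lit 39794964214) (nat_lit 76) (nat_lit 94136170956) (nat_lit 76) (nat_lit 63651797476) (nat_lit 12) (nat_lit 4) (nat_lit 13) (nat_lit 5) (nat_lit 13) (nat_lit 4) (nat_lit 512) (nat_lit 412) (nat_lit 276)) (XT.lf (nat_lit 0) (nat_lit 99899509749) (nat_lit 76) (nat_lit 68296669628) (nat_lit 76) (nat_lit 37810387683) (nat_lit 12)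 (nat_lit 4) (nat_lit 13) (nat_lit 5) (nat_lit 13) (nat_lit 4) (nat_lit 513) (nat_lit 412) (nat_lit 275)))))) (XT.nd (nat_lit 546) (nat_lit 152) (nat_lit 0) (XT.nd (nat_lit 234) (nat_lit 76) (nat_lit 0) (XT.nd (nat_lit 78) (nat_lit 152) (nat_lit 0) (XT.lf (nat_lit 0) (nat_lit 163002206761) (nat_lit 76) (nat_lit 41168726589) (nat_lit 76) (nat_lit 10680627060) (nat_lit 12) (nat_lit 4) (nat_lit 13) (nat_lit 5) (nat_lit 13) (nat_lit 4) (nat_lit 514) (nat_lit 412) (nat_lit 274)) (XT.nd (nat_lit 78) (nat_lit 0) (nat_lit 0) (XT.lf (nat_lit 0) (nat_lit 4996300019) (nat_lit 76) (nat_lit 12314007581) (nat_lit 152) (nat_lit 206810867278) (nat_lit 10) (nat_lit 5) (nat_lit 11) (nat_lit 5) (nat_lit 12) (nat_lit 4) (nat_lit 515) (nat_lit 412) (nat_lit 273)) (XT.lf (nat_lit 0) (nat_lit 47511687034) (nat_lit 152) (nat_lit 167803153578) (nat_lit 0) (nat_lit 18472183068) (nat_lit 10) (nat_lit 5) (nat_lit 12) (nat_lit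 4) (nat_lit 10) (nat_lit 4) (nat_lit 516) (nat_lit 412) (nat_lit 272)))) (XT.nd (nat_lit 156) (nat_lit 76) (nat_lit 0) (XT.nd (nat_lit 78) (nat_lit 0) (nat_lit 0) (XT.lf (nat_lit 0) (nat_lit 79421743711) (nat_lit 152) (nat_lit 114123746461) (nat_lit 0) (nat_lit 50380744414) (nat_lit 10) (nat_lit 5) (nat_lit 12) (nat_lit 4) (nat_lit 10) (nat_lit 4) (nat_lit 517) (nat_lit 412) (nat_lit 271)) (XT.lf (nat_lit 0) (nat_lit 112924197789) (nat_lit 152) (nat_lit 57766589229) (nat_lit 0) (nat_lit 83881774366) (nat_lit 10) (nat_lit 5) (nat_lit 12) (nat_lit 4) (nat_lit 10) (nat_lit 4) (nat_lit 518) (nat_lit 412) (nat_lit 270))) (XT.nd (nat_lit 78) (nat_lit 0) (nat_lit 0) (XT.lf (nat_lit 0) (nat_lit 1448874869) (nat_lit 76) (nat_lit 146672563142) (nat_lit 76) (nat_lit 117628783410) (nat_lit 9) (nat_lit 4) (nat_lit 10) (nat_lit 5) (nat_lit 10) (nat_lit 4) (nat_lit 519) (nat_lit 412) (nat_lit 269)) (XT.lf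 (nat_lit 0) (nat_lit 65624809221) (nat_lit 76) (nat_lit 120429128444) (nat_lit 76) (nat_lit 91384056989) (nat_lit 9) (nat_lit 4) (nat_lit 10) (nat_lit 5) (nat_lit 10) (nat_lit 4) (nat_lit 520) (nat_lit 412) (nat_lit 268))))) (XT.nd (nat_lit 312) (nat_lit 0) (nat_lit 0) (XT.nd (nat_lit 156) (nat_lit 152) (nat_lit 0) (XT.nd (nat_lit 78) (nat_lit 0) (nat_lit 0) (XT.lf (nat_lit 0) (nat_lit 133003989349) (nat_lit 76) (nat_lit 92876303698) (nat_lit 76) (nat_lit 63830002031) (nat_lit 9) (nat_lit 4) (nat_lit 10) (nat_lit 5) (nat_lit 10) (nat_lit 4) (nat_lit 521) (nat_lit 412) (nat_lit 267)) (XT.lf (nat_lit 0) (nat_lit 203746841871) (nat_lit 76) (nat_lit 63948486940) (nat_lit 76) (nat_lit 34901013641) (nat_lit 9) (nat_lit 4) (nat_lit 10) (nat_lit 5) (nat_lit 10) (nat_lit 4) (nat_lit 522) (nat_lit 412) (nat_lit 266))) (XT.nd (nat_lit 78) (nat_lit 152) (nat_lit 0) (XT.lf (nat_lit 0) (nat_lit 278021802151)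 (nat_lit 76) (nat_lit 33576802415) (nat_lit 76) (nat_lit 4528213277) (nat_lit 9) (nat_lit 4) (nat_lit 10) (nat_lit 5) (nat_lit 10) (nat_lit 4) (nat_lit 523) (nat_lit 412) (nat_lit 265)) (XT.lf (nat_lit 0) (nat_lit 26079301744) (nat_lit 76) (nat_lit 812870736) (nat_lit 152) (nat_lit 303400046766) (nat_lit 7) (nat_lit 5) (nat_lit 8) (nat_lit 5) (nat_lit 9) (nat_lit 4) (nat_lit 524) (nat_lit 412) (nat_lit 264)))) (XT.nd (nat_lit 156) (nat_lit 0) (nat_lit 0) (XT.nd (nat_lit 78) (nat_lit 0) (nat_lit 0) (XT.lf (nat_lit 0) (nat_lit 60909300183) (nat_lit 152) (nat_lit 250951982730) (nat_lit 0) (nat_lit 33242001191) (nat_lit 7) (nat_lit 5) (nat_lit 9) (nat_lit 4) (nat_lit 7) (nat_lit 4) (nat_lit 525) (nat_lit 412) (nat_lit 263)) (XT.lf (nat_lit 0) (nat_lit 96638297508) (nat_lit 152) (nat_lit 195045973569) (nat_lit 0) (nat_lit 68970080513) (nat_lit 7) (nat_lit 5) (nat_lit 9) (nat_lit 4) (nat_lit 7) (nat_lit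 4) (nat_lit 526) (nat_lit 412) (nat_lit 262))) (XT.nd (nat_lit 78) (nat_lit 0) (nat_lit 0) (XT.lf (nat_lit 0) (nat_lit 134151542308) (nat_lit 152) (nat_lit 136349089285) (nat_lit 0) (nat_lit 106482451023) (nat_lit 7) (nat_lit 5) (nat_lit 9) (nat_lit 4) (nat_lit 7) (nat_lit 4) (nat_lit 527) (nat_lit 412) (nat_lit 261)) (XT.lf (nat_lit 0) (nat_lit 173538351832) (nat_lit 152) (nat_lit 74721575390) (nat_lit 0) (nat_lit 145868427891) (nat_lit 7) (nat_lit 5) (nat_lit 9) (nat_lit 4) (nat_lit 7) (nat_lit 4) (nat_lit 528) (nat_lit 412) (nat_lit 260))))))))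
noncomputable def xc125 : XT := (XT.nd (nat_lit 54444) (nat_lit 0) (nat_lit 4408) (XT.nd (nat_lit 1092) (nat_lit 0) (nat_lit 0) (XT.nd (nat_lit 546) (nat_lit 152) (nat_lit 0) (XT.nd (nat_lit 234) (nat_lit 0) (nat_lit 0) (XT.nd (nat_lit 78) (nat_lit 76) (nat_lit 0) (XT.lf (nat_lit 0) (nat_lit 214892504197) (nat_lit 152) (nat_lit 10016699708) (nat_lit 0) (nat_lit 187221787251) (nat_lit 7) (nat_lit 5) (nat_lit 9) (nat_lit 4) (nat_lit 7) (nat_lit 4) (nat_lit 529) (nat_lit 412) (nat_lit 259)) (XT.nd (nat_lit 78) (nat_lit 0) (nat_lit 0) (XT.lf (nat_lit 0) (nat_lit 59834680435) (nat_lit 76) (nat_lit 199411968285) (nat_lit 76) (nat_lit 171740496095) (nat_lit 6) (nat_lit 4) (nat_lit 7) (nat_lit 5) (nat_lit 7) (nat_lit 4) (nat_lit 530) (nat_lit 412) (nat_lit 258)) (XT.lf (nat_lit 0) (nat_lit 133522625669) (nat_lit 76) (nat_lit 172463641822) (nat_lit 76) (nat_lit 144791450351) (nat_lit 6) (nat_lit 4)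 (nat_lit 7) (nat_lit 5) (nat_lit 7) (nat_lit 4) (nat_lit 531) (nat_lit 412) (nat_lit 257)))) (XT.nd (nat_lit 156) (nat_lit 0) (nat_lit 0) (XT.nd (nat_lit 78) (nat_lit 0) (nat_lit 0) (XT.lf (nat_lit 0) (nat_lit 210891386154) (nat_lit 76) (nat_lit 144169699490) (nat_lit 76) (nat_lit 116496822991) (nat_lit 6) (nat_lit 4) (nat_lit 7) (nat_lit 5) (nat_lit 7) (nat_lit 4) (nat_lit 532) (nat_lit 412) (nat_lit 256)) (XT.lf (nat_lit 0) (nat_lit 292125173223) (nat_lit 76) (nat_lit 114462774761) (nat_lit 76) (nat_lit 86789245854) (nat_lit 6) (nat_lit 4) (nat_lit 7) (nat_lit 5) (nat_lit 7) (nat_lit 4) (nat_lit 533) (nat_lit 412) (nat_lit 255))) (XT.nd (nat_lit 78) (nat_lit 0) (nat_lit 0) (XT.lf (nat_lit 0) (nat_lit 377417400655) (nat_lit 76) (nat_lit 83272136861) (nat_lit 76) (nat_lit 55597986613) (nat_lit 6) (nat_lit 4) (nat_lit 7) (nat_lit 5) (nat_lit 7) (nat_lit 4) (nat_lit 534) (nat_lit 412) (nat_lit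 254)) (XT.lf (nat_lit 0) (nat_lit 466971145183) (nat_lit 76) (nat_lit 50523522366) (nat_lit 76) (nat_lit 22848780365) (nat_lit 6) (nat_lit 4) (nat_lit 7) (nat_lit 5) (nat_lit 7) (nat_lit 4) (nat_lit 535) (nat_lit 412) (nat_lit 253))))) (XT.nd (nat_lit 234) (nat_lit 0) (nat_lit 0) (XT.nd (nat_lit 78) (nat_lit 76) (nat_lit 0) (XT.lf (nat_lit 0) (nat_lit 11167112033) (nat_lit 152) (nat_lit 4782725907) (nat_lit 76) (nat_lit 549643397528) (nat_lit 5) (nat_lit 5) (nat_lit 7) (nat_lit 5) (nat_lit 6) (nat_lit 4) (nat_lit 536) (nat_lit 412) (nat_lit 252)) (XT.nd (nat_lit 78) (nat_lit 0) (nat_lit 0) (XT.lf (nat_lit 0) (nat_lit 47534437174) (nat_lit 152) (nat_lit 523304929281) (nat_lit 0) (nat_lit 21176492113) (nat_lit 4) (nat_lit 5) (nat_lit 6) (nat_lit 4) (nat_lit 4) (nat_lit 4) (nat_lit 537) (nat_lit 412) (nat_lit 251)) (XT.lf (nat_lit 0) (nat_lit 86062509804) (nat_lit 152) (nat_lit 473975906075) (nat_lit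 0) (nat_lit 59704077907) (nat_lit 4) (nat_lit 5) (nat_lit 6) (nat_lit 4) (nat_lit 4) (nat_lit 4) (nat_lit 538) (nat_lit 412) (nat_lit 250)))) (XT.nd (nat_lit 156) (nat_lit 0) (nat_lit 0) (XT.nd (nat_lit 78) (nat_lit 0) (nat_lit 0) (XT.lf (nat_lit 0) (nat_lit 126515636419) (nat_lit 152) (nat_lit 422183150986) (nat_lit 0) (nat_lit 100156740867) (nat_lit 4) (nat_lit 5) (nat_lit 6) (nat_lit 4) (nat_lit 4) (nat_lit 4) (nat_lit 539) (nat_lit 412) (nat_lit 249)) (XT.lf (nat_lit 0) (nat_lit 168990133986) (nat_lit 152) (nat_lit 367803347931) (nat_lit 0) (nat_lit 142630796858) (nat_lit 4) (nat_lit 5) (nat_lit 6) (nat_lit 4) (nat_lit 4) (nat_lit 4) (nat_lit 540) (nat_lit 412) (nat_lit 248))) (XT.nd (nat_lit 78) (nat_lit 0) (nat_lit 0) (XT.lf (nat_lit 0) (nat_lit 213587132261) (nat_lit 152) (nat_lit 310707021187) (nat_lit 0) (nat_lit 187227374585) (nat_lit 4) (nat_lit 5) (nat_lit 6) (nat_lit 4) (nat_lit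 4) (nat_lit 4) (nat_lit 541) (nat_lit 412) (nat_lit 247)) (XT.lf (nat_lit 0) (nat_lit 260412814573) (nat_lit 152) (nat_lit 250758227120) (nat_lit 0) (nat_lit 234052656375) (nat_lit 4) (nat_lit 5) (nat_lit 6) (nat_lit 4) (nat_lit 4) (nat_lit 4) (nat_lit 542) (nat_lit 412) (nat_lit 246)))))) (XT.nd (nat_lit 52806) (nat_lit 0) (nat_lit 8816) (XT.nd (nat_lit 52494) (nat_lit 0) (nat_lit 10184) (XT.nd (nat_lit 52338) (nat_lit 0) (nat_lit 10716) (XT.lf (nat_lit 0) (nat_lit 309578670642) (nat_lit 152) (nat_lit 187814230506) (nat_lit 0) (nat_lit 283218130995) (nat_lit 4) (nat_lit 5) (nat_lit 6) (nat_lit 4) (nat_lit 4) (nat_lit 4) (nat_lit 543) (nat_lit 412) (nat_lit 245)) (XT.nd (nat_lit 78) (nat_lit 0) (nat_lit 0) (XT.lf (nat_lit 0) (nat_lit 1940967792) (nat_lit 684) (nat_lit 1130184725) (nat_lit 684) (nat_lit 1130184725) (nat_lit 145) (nat_lit 3) (nat_lit 154) (nat_lit 3) (nat_lit 154) (nat_lit 5)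 (nat_lit 413) (nat_lit 413) (nat_lit 374)) (XT.lf (nat_lit 76) (nat_lit 1925705436) (nat_lit 0) (nat_lit 3120554036) (nat_lit 684) (nat_lit 3512650556) (nat_lit 146) (nat_lit 5) (nat_lit 145) (nat_lit 3) (nat_lit 154) (nat_lit 5) (nat_lit 414) (nat_lit 413) (nat_lit 373)))) (XT.nd (nat_lit 156) (nat_lit 608) (nat_lit 0) (XT.nd (nat_lit 78) (nat_lit 0) (nat_lit 0) (XT.lf (nat_lit 0) (nat_lit 6242049956) (nat_lit 608) (nat_lit 2362813934) (nat_lit 684) (nat_lit 119460865) (nat_lit 146) (nat_lit 5) (nat_lit 154) (nat_lit 5) (nat_lit 155) (nat_lit 5) (nat_lit 415) (nat_lit 413) (nat_lit 372)) (XT.lf (nat_lit 76) (nat_lit 2099138759) (nat_lit 0) (nat_lit 5419112786) (nat_lit 684) (nat_lit 1378756097) (nat_lit 147) (nat_lit 5) (nat_lit 146) (nat_lit 5) (nat_lit 155) (nat_lit 5) (nat_lit 416) (nat_lit 413) (nat_lit 371))) (XT.nd (nat_lit 78) (nat_lit 608) (nat_lit 0) (XT.lf (nat_lit 76) (nat_lit 6828846912)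 (nat_lit 0) (nat_lit 2008554400) (nat_lit 684) (nat_lit 241993603) (nat_lit 147) (nat_lit 5) (nat_lit 146) (nat_lit 5) (nat_lit 155) (nat_lit 5) (nat_lit 417) (nat_lit 413) (nat_lit 370)) (XT.lf (nat_lit 0) (nat_lit 927844757) (nat_lit 684) (nat_lit 6743480578) (nat_lit 760) (nat_lit 1598523221) (nat_lit 138) (nat_lit 5) (nat_lit 147) (nat_lit 5) (nat_lit 148) (nat_lit 5) (nat_lit 418) (nat_lit 413) (nat_lit 369))))) (XT.nd (nat_lit 234) (nat_lit 1368) (nat_lit 0) (XT.nd (nat_lit 78) (nat_lit 0) (nat_lit 0) (XT.lf (nat_lit 0) (nat_lit 2163293436) (nat_lit 684) (nat_lit 1925304692) (nat_lit 760) (nat_lit 5380289298) (nat_lit 138) (nat_lit 5) (nat_lit 147) (nat_lit 5) (nat_lit 148) (nat_lit 5) (nat_lit 419) (nat_lit 413) (nat_lit 368)) (XT.nd (nat_lit 78) (nat_lit 0) (nat_lit 76) (XT.lf (nat_lit 76) (nat_lit 3197913995) (nat_lit 0) (nat_lit 258800294) (nat_lit 760) (nat_lit 6221376296) (nat_lit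 139) (nat_lit 5) (nat_lit 138) (nat_lit 5) (nat_lit 148) (nat_lit 5) (nat_lit 420) (nat_lit 413) (nat_lit 367)) (XT.lf (nat_lit 0) (nat_lit 4855153406) (nat_lit 684) (nat_lit 1351698149) (nat_lit 760) (nat_lit 3688906257) (nat_lit 139) (nat_lit 5) (nat_lit 148) (nat_lit 5) (nat_lit 149) (nat_lit 5) (nat_lit 421) (nat_lit 413) (nat_lit 366)))) (XT.nd (nat_lit 156) (nat_lit 1444) (nat_lit 0) (XT.nd (nat_lit 78) (nat_lit 0) (nat_lit 76) (XT.lf (nat_lit 76) (nat_lit 4122396500) (nat_lit 0) (nat_lit 2220640630) (nat_lit 760) (nat_lit 3780315394) (nat_lit 140) (nat_lit 5) (nat_lit 139) (nat_lit 5) (nat_lit 149) (nat_lit 5) (nat_lit 422) (nat_lit 413) (nat_lit 365)) (XT.lf (nat_lit 0) (nat_lit 7912070406) (nat_lit 684) (nat_lit 515531252) (nat_lit 76) (nat_lit 1934406836) (nat_lit 140) (nat_lit 5) (nat_lit 149) (nat_lit 5) (nat_lit 141) (nat_lit 5) (nat_lit 423) (nat_lit 413) (nat_lit 364))) (XT.nd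 (nat_lit 78) (nat_lit 836) (nat_lit 0) (XT.lf (nat_lit 0) (nat_lit 5340184756) (nat_lit 684) (nat_lit 4294208007) (nat_lit 760) (nat_lit 974481004) (nat_lit 131) (nat_lit 5) (nat_lit 140) (nat_lit 5) (nat_lit 141) (nat_lit 5) (nat_lit 424) (nat_lit 413) (nat_lit 363)) (XT.lf (nat_lit 0) (nat_lit 531868839) (nat_lit 836) (nat_lit 10260179558) (nat_lit 76) (nat_lit 76826127) (nat_lit 120) (nat_lit 5) (nat_lit 131) (nat_lit 5) (nat_lit 121) (nat_lit 5) (nat_lit 425) (nat_lit 413) (nat_lit 362))))))) (XT.nd (nat_lit 1092) (nat_lit 1748) (nat_lit 0) (XT.nd (nat_lit 546) (nat_lit 1140) (nat_lit 0) (XT.nd (nat_lit 234) (nat_lit 1140) (nat_lit 0) (XT.nd (nat_lit 78) (nat_lit 380) (nat_lit 0) (XT.lf (nat_lit 0) (nat_lit 2199310906) (nat_lit 836) (nat_lit 4303306914) (nat_lit 76) (nat_lit 4632548432) (nat_lit 120) (nat_lit 5) (nat_lit 131) (nat_lit 5) (nat_lit 121) (nat_lit 5) (nat_lit 426) (nat_lit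 413) (nat_lit 361)) (XT.nd (nat_lit 78) (nat_lit 0) (nat_lit 0) (XT.lf (nat_lit 0) (nat_lit 1975668409) (nat_lit 380) (nat_lit 1964765512) (nat_lit 456) (nat_lit 7474838318) (nat_lit 115) (nat_lit 5) (nat_lit 120) (nat_lit 5) (nat_lit 121) (nat_lit 5) (nat_lit 427) (nat_lit 413) (nat_lit 360)) (XT.lf (nat_lit 0) (nat_lit 5847210107) (nat_lit 456) (nat_lit 3072990382) (nat_lit 76) (nat_lit 2785267582) (nat_lit 115) (nat_lit 5) (nat_lit 121) (nat_lit 5) (nat_lit 116) (nat_lit 5) (nat_lit 428) (nat_lit 413) (nat_lit 359)))) (XT.nd (nat_lit 156) (nat_lit 760) (nat_lit 0) (XT.nd (nat_lit 78) (nat_lit 0) (nat_lit 0) (XT.lf (nat_lit 0) (nat_lit 3658423409) (nat_lit 380) (nat_lit 4242903660) (nat_lit 456) (nat_lit 4106260238) (nat_lit 110) (nat_lit 5) (nat_lit 115) (nat_lit 5) (nat_lit 116) (nat_lit 5) (nat_lit 429) (nat_lit 413) (nat_lit 358)) (XT.lf (nat_lit 0) (nat_lit 10085314940) (nat_lit 456)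 (nat_lit 1539989738) (nat_lit 76) (nat_lit 698162632) (nat_lit 110) (nat_lit 5) (nat_lit 116) (nat_lit 5) (nat_lit 111) (nat_lit 5) (nat_lit 430) (nat_lit 413) (nat_lit 357))) (XT.nd (nat_lit 78) (nat_lit 380) (nat_lit 0) (XT.lf (nat_lit 0) (nat_lit 5684318154) (nat_lit 380) (nat_lit 6818046026) (nat_lit 456) (nat_lit 146596472) (nat_lit 105) (nat_lit 5) (nat_lit 110) (nat_lit 5) (nat_lit 111) (nat_lit 5) (nat_lit 431) (nat_lit 413) (nat_lit 356)) (XT.lf (nat_lit 0) (nat_lit 271930448) (nat_lit 304) (nat_lit 1708822687) (nat_lit 380) (nat_lit 11008546158) (nat_lit 100) (nat_lit 5) (nat_lit 104) (nat_lit 5) (nat_lit 105) (nat_lit 5) (nat_lit 432) (nat_lit 413) (nat_lit 355))))) (XT.nd (nat_lit 234) (nat_lit 836) (nat_lit 0) (XT.nd (nat_lit 78) (nat_lit 304) (nat_lit 0) (XT.lf (nat_lit 0) (nat_lit 4353520906) (nat_lit 380) (nat_lit 5329238283) (nat_lit 76) (nat_lit 3656587394) (nat_lit 100) (nat_lit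 5) (nat_lit 105) (nat_lit 5) (nat_lit 101) (nat_lit 5) (nat_lit 433) (nat_lit 413) (nat_lit 354)) (XT.nd (nat_lit 78) (nat_lit 0) (nat_lit 0) (XT.lf (nat_lit 0) (nat_lit 2441087232) (nat_lit 304) (nat_lit 4438552053) (nat_lit 380) (nat_lit 6825531573) (nat_lit 96) (nat_lit 5) (nat_lit 100) (nat_lit 5) (nat_lit 101) (nat_lit 5) (nat_lit 434) (nat_lit 413) (nat_lit 353)) (XT.lf (nat_lit 0) (nat_lit 9609880404) (nat_lit 380) (nat_lit 3356140480) (nat_lit 76) (nat_lit 1119384366) (nat_lit 96) (nat_lit 5) (nat_lit 101) (nat_lit 5) (nat_lit 97) (nat_lit 5) (nat_lit 435) (nat_lit 413) (nat_lit 352)))) (XT.nd (nat_lit 156) (nat_lit 532) (nat_lit 0) (XT.nd (nat_lit 78) (nat_lit 76) (nat_lit 0) (XT.lf (nat_lit 0) (nat_lit 4998060092) (nat_lit 228) (nat_lit 7600238604) (nat_lit 304) (nat_lit 1880278689) (nat_lit 93) (nat_lit 5) (nat_lit 96) (nat_lit 5) (nat_lit 97) (nat_lit 5) (nat_lit 436) (nat_lit 413)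 (nat_lit 351)) (XT.lf (nat_lit 0) (nat_lit 846687407) (nat_lit 304) (nat_lit 1052917648) (nat_lit 76) (nat_lit 12989702346) (nat_lit 92) (nat_lit 5) (nat_lit 96) (nat_lit 5) (nat_lit 93) (nat_lit 5) (nat_lit 437) (nat_lit 413) (nat_lit 350))) (XT.nd (nat_lit 78) (nat_lit 228) (nat_lit 0) (XT.lf (nat_lit 0) (nat_lit 3810314732) (nat_lit 380) (nat_lit 7394538444) (nat_lit 76) (nat_lit 4106012417) (nat_lit 88) (nat_lit 5) (nat_lit 93) (nat_lit 5) (nat_lit 89) (nat_lit 5) (nat_lit 438) (nat_lit 413) (nat_lit 349)) (XT.lf (nat_lit 0) (nat_lit 1602201084) (nat_lit 228) (nat_lit 5367443648) (nat_lit 304) (nat_lit 8781488530) (nat_lit 85) (nat_lit 5) (nat_lit 88) (nat_lit 5) (nat_lit 89) (nat_lit 5) (nat_lit 439) (nat_lit 413) (nat_lit 348)))))) (XT.nd (nat_lit 546) (nat_lit 836) (nat_lit 0) (XT.nd (nat_lit 234) (nat_lit 608) (nat_lit 0) (XT.nd (nat_lit 78) (nat_lit 304) (nat_lit 0) (XT.lf (nat_lit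 0) (nat_lit 10399946250) (nat_lit 304) (nat_lit 4951819314) (nat_lit 76) (nat_lit 856005772) (nat_lit 85) (nat_lit 5) (nat_lit 89) (nat_lit 5) (nat_lit 86) (nat_lit 5) (nat_lit 440) (nat_lit 413) (nat_lit 347)) (XT.nd (nat_lit 78) (nat_lit 76) (nat_lit 0) (XT.lf (nat_lit 0) (nat_lit 4734188173) (nat_lit 228) (nat_lit 9404553377) (nat_lit 304) (nat_lit 2541657752) (nat_lit 82) (nat_lit 5) (nat_lit 85) (nat_lit 5) (nat_lit 86) (nat_lit 5) (nat_lit 441) (nat_lit 413) (nat_lit 346)) (XT.lf (nat_lit 0) (nat_lit 919965211) (nat_lit 304) (nat_lit 2146049148) (nat_lit 76) (nat_lit 14106929374) (nat_lit 81) (nat_lit 5) (nat_lit 85) (nat_lit 5) (nat_lit 82) (nat_lit 5) (nat_lit 442) (nat_lit 413) (nat_lit 345)))) (XT.nd (nat_lit 156) (nat_lit 152) (nat_lit 0) (XT.nd (nat_lit 78) (nat_lit 228) (nat_lit 0) (XT.lf (nat_lit 0) (nat_lit 4634613529) (nat_lit 304) (nat_lit 9405254204) (nat_lit 76) (nat_lit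 3639902278) (nat_lit 78) (nat_lit 5) (nat_lit 82) (nat_lit 5) (nat_lit 79) (nat_lit 5) (nat_lit 443) (nat_lit 413) (nat_lit 344)) (XT.lf (nat_lit 0) (nat_lit 1029001502) (nat_lit 228) (nat_lit 7586222027) (nat_lit 304) (nat_lit 9592708309) (nat_lit 75) (nat_lit 5) (nat_lit 78) (nat_lit 5) (nat_lit 79) (nat_lit 5) (nat_lit 444) (nat_lit 413) (nat_lit 343))) (XT.nd (nat_lit 78) (nat_lit 152) (nat_lit 0) (XT.lf (nat_lit 0) (nat_lit 12278471385) (nat_lit 228) (nat_lit 653217565) (nat_lit 304) (nat_lit 5823976986) (nat_lit 75) (nat_lit 5) (nat_lit 78) (nat_lit 5) (nat_lit 79) (nat_lit 5) (nat_lit 445) (nat_lit 413) (nat_lit 342)) (XT.lf (nat_lit 0) (nat_lit 4776681970) (nat_lit 152) (nat_lit 12843784948) (nat_lit 228) (nat_lit 1702500526) (nat_lit 73) (nat_lit 5) (nat_lit 75) (nat_lit 5) (nat_lit 76) (nat_lit 5) (nat_lit 446) (nat_lit 413) (nat_lit 341))))) (XT.nd (nat_lit 312) (nat_lit 380) (nat_lit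 0) (XT.nd (nat_lit 156) (nat_lit 152) (nat_lit 0) (XT.nd (nat_lit 78) (nat_lit 228) (nat_lit 0) (XT.lf (nat_lit 0) (nat_lit 2641866973) (nat_lit 228) (nat_lit 3181076013) (nat_lit 76) (nat_lit 14088604747) (nat_lit 72) (nat_lit 5) (nat_lit 75) (nat_lit 5) (nat_lit 73) (nat_lit 5) (nat_lit 447) (nat_lit 413) (nat_lit 340)) (XT.lf (nat_lit 0) (nat_lit 7292879454) (nat_lit 304) (nat_lit 11568026949) (nat_lit 76) (nat_lit 1659927518) (nat_lit 69) (nat_lit 5) (nat_lit 73) (nat_lit 5) (nat_lit 70) (nat_lit 5) (nat_lit 448) (nat_lit 413) (nat_lit 339))) (XT.nd (nat_lit 78) (nat_lit 0) (nat_lit 0) (XT.lf (nat_lit 0) (nat_lit 535386139) (nat_lit 152) (nat_lit 11779607327) (nat_lit 228) (nat_lit 8838667655) (nat_lit 67) (nat_lit 5) (nat_lit 69) (nat_lit 5) (nat_lit 70) (nat_lit 5) (nat_lit 449) (nat_lit 413) (nat_lit 338)) (XT.lf (nat_lit 0) (nat_lit 13614749732) (nat_lit 152) (nat_lit 4149823310) (nat_lit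 228) (nat_lit 4044742697) (nat_lit 67) (nat_lit 5) (nat_lit 69) (nat_lit 5) (nat_lit 70) (nat_lit 5) (nat_lit 450) (nat_lit 413) (nat_lit 337)))) (XT.nd (nat_lit 156) (nat_lit 152) (nat_lit 0) (XT.nd (nat_lit 78) (nat_lit 0) (nat_lit 0) (XT.lf (nat_lit 0) (nat_lit 1077437013) (nat_lit 228) (nat_lit 17591931496) (nat_lit 76) (nat_lit 3821605853) (nat_lit 64) (nat_lit 5) (nat_lit 67) (nat_lit 5) (nat_lit 65) (nat_lit 5) (nat_lit 451) (nat_lit 413) (nat_lit 336)) (XT.lf (nat_lit 0) (nat_lit 6510219875) (nat_lit 228) (nat_lit 4434829164) (nat_lit 76) (nat_lit 12248833809) (nat_lit 64) (nat_lit 5) (nat_lit 67) (nat_lit 5) (nat_lit 65) (nat_lit 5) (nat_lit 452) (nat_lit 413) (nat_lit 335))) (XT.nd (nat_lit 78) (nat_lit 0) (nat_lit 0) (XT.lf (nat_lit 0) (nat_lit 9660496903) (nat_lit 152) (nat_lit 2687201121) (nat_lit 228) (nat_lit 11577589258) (nat_lit 62) (nat_lit 5) (nat_lit 64) (nat_lit 5) (nat_lit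 65) (nat_lit 5) (nat_lit 453) (nat_lit 413) (nat_lit 334)) (XT.lf (nat_lit 0) (nat_lit 18629267606) (nat_lit 228) (nat_lit 198663731) (nat_lit 76) (nat_lit 5857722898) (nat_lit 62) (nat_lit 5) (nat_lit 65) (nat_lit 5) (nat_lit 63) (nat_lit 5) (nat_lit 454) (nat_lit 413) (nat_lit 333))))))))
noncomputable def xc126 : XT := (XT.nd (nat_lit 2184) (nat_lit 1368) (nat_lit 0) (XT.nd (nat_lit 1092) (nat_lit 836) (nat_lit 0) (XT.nd (nat_lit 546) (nat_lit 608) (nat_lit 0) (XT.nd (nat_lit 234) (nat_lit 532) (nat_lit 0) (XT.nd (nat_lit 78) (nat_lit 152) (nat_lit 0) (XT.lf (nat_lit 0) (nat_lit 14652445) (nat_lit 228) (nat_lit 10492776879) (nat_lit 76) (nat_lit 14963541234) (nat_lit 59) (nat_lit 5) (nat_lit 62) (nat_lit 5) (nat_lit 60) (nat_lit 5) (nat_lit 455) (nat_lit 413) (nat_lit 332)) (XT.nd (nat_lit 78) (nat_lit 0) (nat_lit 0) (XT.lf (nat_lit 0) (nat_lit 4647016035) (nat_lit 152) (nat_lit 1598061115)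 (nat_lit 228) (nat_lit 20042545638) (nat_lit 57) (nat_lit 5) (nat_lit 59) (nat_lit 5) (nat_lit 60) (nat_lit 5) (nat_lit 456) (nat_lit 413) (nat_lit 331)) (XT.lf (nat_lit 0) (nat_lit 13072327562) (nat_lit 228) (nat_lit 6380133873) (nat_lit 76) (nat_lit 7678383580) (nat_lit 57) (nat_lit 5) (nat_lit 60) (nat_lit 5) (nat_lit 58) (nat_lit 5) (nat_lit 457) (nat_lit 413) (nat_lit 330)))) (XT.nd (nat_lit 156) (nat_lit 380) (nat_lit 0) (XT.nd (nat_lit 78) (nat_lit 0) (nat_lit 0) (XT.lf (nat_lit 0) (nat_lit 9907625829) (nat_lit 152) (nat_lit 10498565903) (nat_lit 228) (nat_lit 7601776545) (nat_lit 55) (nat_lit 5) (nat_lit 57) (nat_lit 5) (nat_lit 58) (nat_lit 5) (nat_lit 458) (nat_lit 413) (nat_lit 329)) (XT.lf (nat_lit 0) (nat_lit 27205062118) (nat_lit 152) (nat_lit 994440459) (nat_lit 228) (nat_lit 724809821) (nat_lit 55) (nat_lit 5) (nat_lit 57) (nat_lit 5) (nat_lit 58) (nat_lit 5) (nat_lit 459) (nat_lit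 413) (nat_lit 328))) (XT.nd (nat_lit 78) (nat_lit 152) (nat_lit 0) (XT.lf (nat_lit 0) (nat_lit 6666763642) (nat_lit 228) (nat_lit 14153908446) (nat_lit 76) (nat_lit 9041799183) (nat_lit 52) (nat_lit 5) (nat_lit 55) (nat_lit 5) (nat_lit 53) (nat_lit 5) (nat_lit 460) (nat_lit 413) (nat_lit 327)) (XT.lf (nat_lit 0) (nat_lit 3271819544) (nat_lit 152) (nat_lit 11214055735) (nat_lit 228) (nat_lit 16356954854) (nat_lit 50) (nat_lit 5) (nat_lit 52) (nat_lit 5) (nat_lit 53) (nat_lit 5) (nat_lit 461) (nat_lit 413) (nat_lit 326))))) (XT.nd (nat_lit 234) (nat_lit 456) (nat_lit 0) (XT.nd (nat_lit 78) (nat_lit 152) (nat_lit 0) (XT.lf (nat_lit 0) (nat_lit 22035028575) (nat_lit 152) (nat_lit 886261563) (nat_lit 228) (nat_lit 8939651366) (nat_lit 50) (nat_lit 5) (nat_lit 52) (nat_lit 5) (nat_lit 53) (nat_lit 5) (nat_lit 462) (nat_lit 413) (nat_lit 325)) (XT.nd (nat_lit 78) (nat_lit 76) (nat_lit 0) (XT.lf (nat_lit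 0) (nat_lit 8911676344) (nat_lit 76) (nat_lit 23147573461) (nat_lit 152) (nat_lit 856671790) (nat_lit 49) (nat_lit 5) (nat_lit 50) (nat_lit 5) (nat_lit 51) (nat_lit 4) (nat_lit 463) (nat_lit 413) (nat_lit 324)) (XT.lf (nat_lit 0) (nat_lit 7556122880) (nat_lit 152) (nat_lit 5249024570) (nat_lit 76) (nat_lit 21204053864) (nat_lit 48) (nat_lit 5) (nat_lit 50) (nat_lit 5) (nat_lit 49) (nat_lit 5) (nat_lit 464) (nat_lit 413) (nat_lit 323)))) (XT.nd (nat_lit 156) (nat_lit 304) (nat_lit 0) (XT.nd (nat_lit 78) (nat_lit 0) (nat_lit 0) (XT.lf (nat_lit 0) (nat_lit 14882844818) (nat_lit 152) (nat_lit 1697166486) (nat_lit 228) (nat_lit 18565470934) (nat_lit 46) (nat_lit 5) (nat_lit 48) (nat_lit 5) (nat_lit 49) (nat_lit 5) (nat_lit 465) (nat_lit 413) (nat_lit 322)) (XT.lf (nat_lit 0) (nat_lit 26288033761) (nat_lit 228) (nat_lit 311168490) (nat_lit 76) (nat_lit 9727729505) (nat_lit 46) (nat_lit 5) (nat_lit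 49) (nat_lit 5) (nat_lit 47) (nat_lit 4) (nat_lit 466) (nat_lit 413) (nat_lit 321))) (XT.nd (nat_lit 78) (nat_lit 228) (nat_lit 0) (XT.lf (nat_lit 0) (nat_lit 21268372062) (nat_lit 76) (nat_lit 15560573261) (nat_lit 152) (nat_lit 721135482) (nat_lit 45) (nat_lit 5) (nat_lit 46) (nat_lit 5) (nat_lit 47) (nat_lit 4) (nat_lit 467) (nat_lit 413) (nat_lit 320)) (XT.lf (nat_lit 0) (nat_lit 5102866388) (nat_lit 152) (nat_lit 3742270195) (nat_lit 228) (nat_lit 29978543551) (nat_lit 42) (nat_lit 5) (nat_lit 44) (nat_lit 5) (nat_lit 45) (nat_lit 5) (nat_lit 468) (nat_lit 413) (nat_lit 319)))))) (XT.nd (nat_lit 546) (nat_lit 380) (nat_lit 0) (XT.nd (nat_lit 234) (nat_lit 380) (nat_lit 0) (XT.nd (nat_lit 78) (nat_lit 76) (nat_lit 0) (XT.lf (nat_lit 0) (nat_lit 19268801235) (nat_lit 228) (nat_lit 12199432624) (nat_lit 76) (nat_lit 8671970038) (nat_lit 42) (nat_lit 5) (nat_lit 45) (nat_lit 5) (nat_lit 43)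 (nat_lit 4) (nat_lit 469) (nat_lit 413) (nat_lit 318)) (XT.nd (nat_lit 78) (nat_lit 0) (nat_lit 0) (XT.lf (nat_lit 0) (nat_lit 10656272299) (nat_lit 76) (nat_lit 19773423211) (nat_lit 152) (nat_lit 11082057215) (nat_lit 41) (nat_lit 5) (nat_lit 42) (nat_lit 5) (nat_lit 43) (nat_lit 4) (nat_lit 470) (nat_lit 413) (nat_lit 317)) (XT.lf (nat_lit 0) (nat_lit 35057181589) (nat_lit 76) (nat_lit 7286605951) (nat_lit 152) (nat_lit 598334942) (nat_lit 41) (nat_lit 5) (nat_lit 42) (nat_lit 5) (nat_lit 43) (nat_lit 4) (nat_lit 471) (nat_lit 413) (nat_lit 316)))) (XT.nd (nat_lit 156) (nat_lit 152) (nat_lit 0) (XT.nd (nat_lit 78) (nat_lit 0) (nat_lit 0) (XT.lf (nat_lit 0) (nat_lit 10421905642) (nat_lit 228) (nat_lit 27939348657) (nat_lit 76) (nat_lit 6057356151) (nat_lit 38) (nat_lit 5) (nat_lit 41) (nat_lit 5) (nat_lit 39) (nat_lit 4) (nat_lit 472) (nat_lit 413) (nat_lit 315)) (XT.lf (nat_lit 0) (nat_lit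 22217210815) (nat_lit 228) (nat_lit 3778823498) (nat_lit 76) (nat_lit 19960191022) (nat_lit 38) (nat_lit 5) (nat_lit 41) (nat_lit 5) (nat_lit 39) (nat_lit 4) (nat_lit 473) (nat_lit 413) (nat_lit 314))) (XT.nd (nat_lit 78) (nat_lit 76) (nat_lit 0) (XT.lf (nat_lit 0) (nat_lit 22283364285) (nat_lit 76) (nat_lit 12656330905) (nat_lit 152) (nat_lit 12614156014) (nat_lit 37) (nat_lit 5) (nat_lit 38) (nat_lit 5) (nat_lit 39) (nat_lit 4) (nat_lit 474) (nat_lit 413) (nat_lit 313)) (XT.lf (nat_lit 0) (nat_lit 526793399) (nat_lit 76) (nat_lit 47855430542) (nat_lit 76) (nat_lit 844939309) (nat_lit 36) (nat_lit 4) (nat_lit 37) (nat_lit 5) (nat_lit 37) (nat_lit 4) (nat_lit 475) (nat_lit 413) (nat_lit 312))))) (XT.nd (nat_lit 234) (nat_lit 228) (nat_lit 0) (XT.nd (nat_lit 78) (nat_lit 76) (nat_lit 0) (XT.lf (nat_lit 0) (nat_lit 11776317186) (nat_lit 152) (nat_lit 22885372011) (nat_lit 76) (nat_lit 16281862282)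 (nat_lit 35) (nat_lit 5) (nat_lit 37) (nat_lit 5) (nat_lit 36) (nat_lit 4) (nat_lit 476) (nat_lit 413) (nat_lit 311)) (XT.nd (nat_lit 78) (nat_lit 0) (nat_lit 0) (XT.lf (nat_lit 0) (nat_lit 4326269344) (nat_lit 76) (nat_lit 20731606231) (nat_lit 152) (nat_lit 27684310014) (nat_lit 34) (nat_lit 5) (nat_lit 35) (nat_lit 5) (nat_lit 36) (nat_lit 4) (nat_lit 477) (nat_lit 413) (nat_lit 310)) (XT.lf (nat_lit 0) (nat_lit 33674600635) (nat_lit 76) (nat_lit 5706759818) (nat_lit 152) (nat_lit 15230499256) (nat_lit 34) (nat_lit 5) (nat_lit 35) (nat_lit 5) (nat_lit 36) (nat_lit 4) (nat_lit 478) (nat_lit 413) (nat_lit 309)))) (XT.nd (nat_lit 156) (nat_lit 76) (nat_lit 0) (XT.nd (nat_lit 78) (nat_lit 76) (nat_lit 0) (XT.lf (nat_lit 0) (nat_lit 7996169905) (nat_lit 76) (nat_lit 46697510332) (nat_lit 76) (nat_lit 1867704965) (nat_lit 33) (nat_lit 4) (nat_lit 34) (nat_lit 5) (nat_lit 34) (nat_lit 4) (nat_lit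 479) (nat_lit 413) (nat_lit 308)) (XT.lf (nat_lit 0) (nat_lit 12218507076) (nat_lit 152) (nat_lit 19794661633) (nat_lit 76) (nat_lit 26563494922) (nat_lit 32) (nat_lit 5) (nat_lit 34) (nat_lit 5) (nat_lit 33) (nat_lit 4) (nat_lit 480) (nat_lit 413) (nat_lit 307))) (XT.nd (nat_lit 78) (nat_lit 0) (nat_lit 0) (XT.lf (nat_lit 0) (nat_lit 10709525561) (nat_lit 76) (nat_lit 16395017440) (nat_lit 152) (nat_lit 33578718660) (nat_lit 31) (nat_lit 5) (nat_lit 32) (nat_lit 5) (nat_lit 33) (nat_lit 4) (nat_lit 481) (nat_lit 413) (nat_lit 306)) (XT.lf (nat_lit 0) (nat_lit 43066784386) (nat_lit 152) (nat_lit 19474925008) (nat_lit 0) (nat_lit 336885589) (nat_lit 31) (nat_lit 5) (nat_lit 33) (nat_lit 4) (nat_lit 31) (nat_lit 4) (nat_lit 482) (nat_lit 413) (nat_lit 305))))))) (XT.nd (nat_lit 1092) (nat_lit 608) (nat_lit 0) (XT.nd (nat_lit 546) (nat_lit 304) (nat_lit 0) (XT.nd (nat_lit 234) (nat_lit 228) (nat_lit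 0) (XT.nd (nat_lit 78) (nat_lit 152) (nat_lit 0) (XT.lf (nat_lit 0) (nat_lit 12669279164) (nat_lit 76) (nat_lit 47615968391) (nat_lit 76) (nat_lit 4875542479) (nat_lit 30) (nat_lit 4) (nat_lit 31) (nat_lit 5) (nat_lit 31) (nat_lit 4) (nat_lit 483) (nat_lit 413) (nat_lit 304)) (XT.nd (nat_lit 78) (nat_lit 76) (nat_lit 0) (XT.lf (nat_lit 0) (nat_lit 10788406737) (nat_lit 152) (nat_lit 20634217924) (nat_lit 76) (nat_lit 36109695053) (nat_lit 29) (nat_lit 5) (nat_lit 31) (nat_lit 5) (nat_lit 30) (nat_lit 4) (nat_lit 484) (nat_lit 413) (nat_lit 303)) (XT.lf (nat_lit 0) (nat_lit 13141095483) (nat_lit 76) (nat_lit 14127731649) (nat_lit 152) (nat_lit 42739746675) (nat_lit 28) (nat_lit 5) (nat_lit 29) (nat_lit 5) (nat_lit 30) (nat_lit 4) (nat_lit 485) (nat_lit 413) (nat_lit 302)))) (XT.nd (nat_lit 156) (nat_lit 152) (nat_lit 0) (XT.nd (nat_lit 78) (nat_lit 76) (nat_lit 0) (XT.lf (nat_lit 0) (nat_lit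 44983381482) (nat_lit 152) (nat_lit 23353842785) (nat_lit 0) (nat_lit 4250911143) (nat_lit 28) (nat_lit 5) (nat_lit 30) (nat_lit 4) (nat_lit 28) (nat_lit 4) (nat_lit 486) (nat_lit 413) (nat_lit 301)) (XT.lf (nat_lit 0) (nat_lit 11972254851) (nat_lit 76) (nat_lit 52022297423) (nat_lit 76) (nat_lit 11281578813) (nat_lit 27) (nat_lit 4) (nat_lit 28) (nat_lit 5) (nat_lit 28) (nat_lit 4) (nat_lit 487) (nat_lit 413) (nat_lit 300))) (XT.nd (nat_lit 78) (nat_lit 76) (nat_lit 0) (XT.lf (nat_lit 0) (nat_lit 6064641601) (nat_lit 152) (nat_lit 28316058820) (nat_lit 76) (nat_lit 43693535151) (nat_lit 26) (nat_lit 5) (nat_lit 28) (nat_lit 5) (nat_lit 27) (nat_lit 4) (nat_lit 488) (nat_lit 413) (nat_lit 299)) (XT.lf (nat_lit 0) (nat_lit 8493952662) (nat_lit 76) (nat_lit 15530441577) (nat_lit 152) (nat_lit 56972336408) (nat_lit 25) (nat_lit 5) (nat_lit 26) (nat_lit 5) (nat_lit 27) (nat_lit 4) (nat_lit 489)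 (nat_lit 413) (nat_lit 298))))) (XT.nd (nat_lit 234) (nat_lit 228) (nat_lit 0) (XT.nd (nat_lit 78) (nat_lit 76) (nat_lit 0) (XT.lf (nat_lit 0) (nat_lit 43428854195) (nat_lit 152) (nat_lit 36002383305) (nat_lit 0) (nat_lit 4606777343) (nat_lit 25) (nat_lit 5) (nat_lit 27) (nat_lit 4) (nat_lit 25) (nat_lit 4) (nat_lit 490) (nat_lit 413) (nat_lit 297)) (XT.nd (nat_lit 78) (nat_lit 0) (nat_lit 0) (XT.lf (nat_lit 0) (nat_lit 2122917319) (nat_lit 76) (nat_lit 61961471632) (nat_lit 76) (nat_lit 23132932045) (nat_lit 24) (nat_lit 4) (nat_lit 25) (nat_lit 5) (nat_lit 25) (nat_lit 4) (nat_lit 491) (nat_lit 413) (nat_lit 296)) (XT.lf (nat_lit 0) (nat_lit 43391158576) (nat_lit 76) (nat_lit 42984490667) (nat_lit 76) (nat_lit 4149796093) (nat_lit 24) (nat_lit 4) (nat_lit 25) (nat_lit 5) (nat_lit 25) (nat_lit 4) (nat_lit 492) (nat_lit 413) (nat_lit 295)))) (XT.nd (nat_lit 156) (nat_lit 76) (nat_lit 0) (XT.nd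 (nat_lit 78) (nat_lit 76) (nat_lit 0) (XT.lf (nat_lit 0) (nat_lit 15270805568) (nat_lit 152) (nat_lit 7535405049) (nat_lit 76) (nat_lit 71180772748) (nat_lit 23) (nat_lit 5) (nat_lit 25) (nat_lit 5) (nat_lit 24) (nat_lit 4) (nat_lit 493) (nat_lit 413) (nat_lit 294)) (XT.lf (nat_lit 0) (nat_lit 35086146097) (nat_lit 76) (nat_lit 978383325) (nat_lit 152) (nat_lit 61526590056) (nat_lit 22) (nat_lit 5) (nat_lit 23) (nat_lit 5) (nat_lit 24) (nat_lit 4) (nat_lit 494) (nat_lit 413) (nat_lit 293))) (XT.nd (nat_lit 78) (nat_lit 76) (nat_lit 0) (XT.lf (nat_lit 0) (nat_lit 58363982032) (nat_lit 152) (nat_lit 21625583254) (nat_lit 0) (nat_lit 21362595244) (nat_lit 22) (nat_lit 5) (nat_lit 24) (nat_lit 4) (nat_lit 22) (nat_lit 4) (nat_lit 495) (nat_lit 413) (nat_lit 292)) (XT.lf (nat_lit 0) (nat_lit 21973366349) (nat_lit 76) (nat_lit 60158219007) (nat_lit 76) (nat_lit 23152009626) (nat_lit 21) (nat_lit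 4) (nat_lit 22) (nat_lit 5) (nat_lit 22) (nat_lit 4) (nat_lit 496) (nat_lit 413) (nat_lit 291)))))) (XT.nd (nat_lit 546) (nat_lit 304) (nat_lit 0) (XT.nd (nat_lit 234) (nat_lit 152) (nat_lit 0) (XT.nd (nat_lit 78) (nat_lit 152) (nat_lit 0) (XT.lf (nat_lit 0) (nat_lit 68491586941) (nat_lit 76) (nat_lit 38956397988) (nat_lit 76) (nat_lit 1945595662) (nat_lit 21) (nat_lit 4) (nat_lit 22) (nat_lit 5) (nat_lit 22) (nat_lit 4) (nat_lit 497) (nat_lit 413) (nat_lit 290)) (XT.nd (nat_lit 78) (nat_lit 0) (nat_lit 0) (XT.lf (nat_lit 0) (nat_lit 3407330572) (nat_lit 76) (nat_lit 16310965589) (nat_lit 152) (nat_lit 93972528015) (nat_lit 19) (nat_lit 5) (nat_lit 20) (nat_lit 5) (nat_lit 21) (nat_lit 4) (nat_lit 498) (nat_lit 413) (nat_lit 289)) (XT.lf (nat_lit 0) (nat_lit 43215001434) (nat_lit 152) (nat_lit 66987099009) (nat_lit 0) (nat_lit 7958484770) (nat_lit 19) (nat_lit 5) (nat_lit 21) (nat_lit 4) (nat_lit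 19) (nat_lit 4) (nat_lit 499) (nat_lit 413) (nat_lit 288)))) (XT.nd (nat_lit 156) (nat_lit 76) (nat_lit 0) (XT.nd (nat_lit 78) (nat_lit 76) (nat_lit 0) (XT.lf (nat_lit 0) (nat_lit 68148578854) (nat_lit 152) (nat_lit 21803870239) (nat_lit 0) (nat_lit 32888283563) (nat_lit 19) (nat_lit 5) (nat_lit 21) (nat_lit 4) (nat_lit 19) (nat_lit 4) (nat_lit 500) (nat_lit 413) (nat_lit 287)) (XT.lf (nat_lit 0) (nat_lit 26475823400) (nat_lit 76) (nat_lit 68261272599) (nat_lit 76) (nat_lit 32997378615) (nat_lit 18) (nat_lit 4) (nat_lit 19) (nat_lit 5) (nat_lit 19) (nat_lit 4) (nat_lit 501) (nat_lit 413) (nat_lit 286))) (XT.nd (nat_lit 78) (nat_lit 76) (nat_lit 0) (XT.lf (nat_lit 0) (nat_lit 77916557314) (nat_lit 76) (nat_lit 45102727771) (nat_lit 76) (nat_lit 9835406461) (nat_lit 18) (nat_lit 4) (nat_lit 19) (nat_lit 5) (nat_lit 19) (nat_lit 4) (nat_lit 502) (nat_lit 413) (nat_lit 285)) (XT.lf (nat_lit 0)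 (nat_lit 14016211858) (nat_lit 152) (nat_lit 6537351121) (nat_lit 76) (nat_lit 117666291832) (nat_lit 17) (nat_lit 5) (nat_lit 19) (nat_lit 5) (nat_lit 18) (nat_lit 4) (nat_lit 503) (nat_lit 413) (nat_lit 284))))) (XT.nd (nat_lit 312) (nat_lit 152) (nat_lit 0) (XT.nd (nat_lit 156) (nat_lit 76) (nat_lit 0) (XT.nd (nat_lit 78) (nat_lit 0) (nat_lit 0) (XT.lf (nat_lit 0) (nat_lit 39532539561) (nat_lit 152) (nat_lit 98333996729) (nat_lit 0) (nat_lit 5938545164) (nat_lit 16) (nat_lit 5) (nat_lit 18) (nat_lit 4) (nat_lit 16) (nat_lit 4) (nat_lit 504) (nat_lit 413) (nat_lit 283)) (XT.lf (nat_lit 0) (nat_lit 66769543548) (nat_lit 152) (nat_lit 49705053552) (nat_lit 0) (nat_lit 33172729481) (nat_lit 16) (nat_lit 5) (nat_lit 18) (nat_lit 4) (nat_lit 16) (nat_lit 4) (nat_lit 505) (nat_lit 413) (nat_lit 282))) (XT.nd (nat_lit 78) (nat_lit 0) (nat_lit 0) (XT.lf (nat_lit 0) (nat_lit 1391132579) (nat_lit 76)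 (nat_lit 93994592317) (nat_lit 76) (nat_lit 60395092850) (nat_lit 15) (nat_lit 4) (nat_lit 16) (nat_lit 5) (nat_lit 16) (nat_lit 4) (nat_lit 506) (nat_lit 413) (nat_lit 281)) (XT.lf (nat_lit 0) (nat_lit 56759186897) (nat_lit 76) (nat_lit 69510990301) (nat_lit 76) (nat_lit 35908933310) (nat_lit 15) (nat_lit 4) (nat_lit 16) (nat_lit 5) (nat_lit 16) (nat_lit 4) (nat_lit 507) (nat_lit 413) (nat_lit 280)))) (XT.nd (nat_lit 156) (nat_lit 76) (nat_lit 0) (XT.nd (nat_lit 78) (nat_lit 76) (nat_lit 0) (XT.lf (nat_lit 0) (nat_lit 114887464558) (nat_lit 76) (nat_lit 43807275894) (nat_lit 76) (nat_lit 10202783167) (nat_lit 15) (nat_lit 4) (nat_lit 16) (nat_lit 5) (nat_lit 16) (nat_lit 4) (nat_lit 508) (nat_lit 413) (nat_lit 279)) (XT.lf (nat_lit 0) (nat_lit 16247351872) (nat_lit 152) (nat_lit 299741139) (nat_lit 76) (nat_lit 159391857585) (nat_lit 14) (nat_lit 5) (nat_lit 16) (nat_lit 5) (nat_lit 15) (nat_lit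 4) (nat_lit 509) (nat_lit 413) (nat_lit 278))) (XT.nd (nat_lit 78) (nat_lit 0) (nat_lit 0) (XT.lf (nat_lit 0) (nat_lit 44781290137) (nat_lit 152) (nat_lit 125714889130) (nat_lit 0) (nat_lit 12772697982) (nat_lit 13) (nat_lit 5) (nat_lit 15) (nat_lit 4) (nat_lit 13) (nat_lit 4) (nat_lit 510) (nat_lit 413) (nat_lit 277)) (XT.lf (nat_lit 0) (nat_lit 75014564868) (nat_lit 152) (nat_lit 72933134667) (nat_lit 0) (nat_lit 43003968827) (nat_lit 13) (nat_lit 5) (nat_lit 15) (nat_lit 4) (nat_lit 13) (nat_lit 4) (nat_lit 511) (nat_lit 413) (nat_lit 276))))))))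
noncomputable def xc127 : XT := (XT.nd (nat_lit 2184) (nat_lit 0) (nat_lit 0) (XT.nd (nat_lit 1092) (nat_lit 228) (nat_lit 0) (XT.nd (nat_lit 546) (nat_lit 228) (nat_lit 0) (XT.nd (nat_lit 234) (nat_lit 152) (nat_lit 0) (XT.nd (nat_lit 78) (nat_lit 76) (nat_lit 0) (XT.lf (nat_lit 0) (nat_lit 106755899769) (nat_lit 152) (nat_lit 17519484276) (nat_lit 0) (nat_lit 74743395263) (nat_lit 13) (nat_lit 5) (nat_lit 15) (nat_lit 4) (nat_lit 13) (nat_lit 4) (nat_lit 512) (nat_lit 413) (nat_lit 275)) (XT.nd (nat_lit 78) (nat_lit 0) (nat_lit 0) (XT.lf (nat_lit 0) (nat_lit 42002336378) (nat_lit 76) (nat_lit 98734307248) (nat_lit 76) (nat_lit 66719985158) (nat_lit 12) (nat_lit 4) (nat_lit 13) (nat_lit 5) (nat_lit 13) (nat_lit 4) (nat_lit 513) (nat_lit 413) (nat_lit 274)) (XT.lf (nat_lit 0) (nat_lit 105101746144) (nat_lit 76) (nat_lit 71608005722) (nat_lit 76) (nat_lit 39591952600) (nat_lit 12) (nat_lit 4)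 (nat_lit 13) (nat_lit 5) (nat_lit 13) (nat_lit 4) (nat_lit 514) (nat_lit 413) (nat_lit 273)))) (XT.nd (nat_lit 156) (nat_lit 0) (nat_lit 0) (XT.nd (nat_lit 78) (nat_lit 152) (nat_lit 0) (XT.lf (nat_lit 0) (nat_lit 171349708441) (nat_lit 76) (nat_lit 43128593979) (nat_lit 76) (nat_lit 11110892254) (nat_lit 12) (nat_lit 4) (nat_lit 13) (nat_lit 5) (nat_lit 13) (nat_lit 4) (nat_lit 515) (nat_lit 413) (nat_lit 272)) (XT.lf (nat_lit 0) (nat_lit 5443592700) (nat_lit 76) (nat_lit 12830975359) (nat_lit 152) (nat_lit 217047725915) (nat_lit 10) (nat_lit 5) (nat_lit 11) (nat_lit 5) (nat_lit 12) (nat_lit 4) (nat_lit 516) (nat_lit 413) (nat_lit 271))) (XT.nd (nat_lit 78) (nat_lit 0) (nat_lit 0) (XT.lf (nat_lit 0) (nat_lit 49982782407) (nat_lit 152) (nat_lit 176002000938) (nat_lit 0) (nat_lit 19486813689) (nat_lit 10) (nat_lit 5) (nat_lit 12) (nat_lit 4) (nat_lit 10) (nat_lit 4) (nat_lit 517) (nat_lit 413)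 (nat_lit 270)) (XT.lf (nat_lit 0) (nat_lit 83483793774) (nat_lit 152) (nat_lit 119647733481) (nat_lit 0) (nat_lit 52986468746) (nat_lit 10) (nat_lit 5) (nat_lit 12) (nat_lit 4) (nat_lit 10) (nat_lit 4) (nat_lit 518) (nat_lit 413) (nat_lit 269))))) (XT.nd (nat_lit 234) (nat_lit 152) (nat_lit 0) (XT.nd (nat_lit 78) (nat_lit 76) (nat_lit 0) (XT.lf (nat_lit 0) (nat_lit 118657038990) (nat_lit 152) (nat_lit 60481394593) (nat_lit 0) (nat_lit 88158422239) (nat_lit 10) (nat_lit 5) (nat_lit 12) (nat_lit 4) (nat_lit 10) (nat_lit 4) (nat_lit 519) (nat_lit 413) (nat_lit 268)) (XT.nd (nat_lit 78) (nat_lit 0) (nat_lit 0) (XT.lf (nat_lit 0) (nat_lit 1692043935) (nat_lit 76) (nat_lit 153920637488) (nat_lit 76) (nat_lit 123420790525) (nat_lit 9) (nat_lit 4) (nat_lit 10) (nat_lit 5) (nat_lit 10) (nat_lit 4) (nat_lit 520) (nat_lit 413) (nat_lit 267)) (XT.lf (nat_lit 0) (nat_lit 69068645227) (nat_lit 76) (nat_lit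 126369105047) (nat_lit 76) (nat_lit 95868086452) (nat_lit 9) (nat_lit 4) (nat_lit 10) (nat_lit 5) (nat_lit 10) (nat_lit 4) (nat_lit 521) (nat_lit 413) (nat_lit 266)))) (XT.nd (nat_lit 156) (nat_lit 152) (nat_lit 0) (XT.nd (nat_lit 78) (nat_lit 0) (nat_lit 0) (XT.lf (nat_lit 0) (nat_lit 139809041716) (nat_lit 76) (nat_lit 97442519055) (nat_lit 76) (nat_lit 66940384621) (nat_lit 9) (nat_lit 4) (nat_lit 10) (nat_lit 5) (nat_lit 10) (nat_lit 4) (nat_lit 522) (nat_lit 413) (nat_lit 265)) (XT.lf (nat_lit 0) (nat_lit 214081662917) (nat_lit 76) (nat_lit 67072006689) (nat_lit 76) (nat_lit 36568809551) (nat_lit 9) (nat_lit 4) (nat_lit 10) (nat_lit 5) (nat_lit 10) (nat_lit 4) (nat_lit 523) (nat_lit 413) (nat_lit 264))) (XT.nd (nat_lit 78) (nat_lit 152) (nat_lit 0) (XT.lf (nat_lit 0) (nat_lit 292063348404) (nat_lit 76) (nat_lit 35185257204) (nat_lit 76) (nat_lit 4681047967) (nat_lit 9) (nat_lit 4) (nat_lit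 10) (nat_lit 5) (nat_lit 10) (nat_lit 4) (nat_lit 524) (nat_lit 413) (nat_lit 263)) (XT.lf (nat_lit 0) (nat_lit 27523775981) (nat_lit 76) (nat_lit 783028468) (nat_lit 152) (nat_lit 318496523123) (nat_lit 7) (nat_lit 5) (nat_lit 8) (nat_lit 5) (nat_lit 9) (nat_lit 4) (nat_lit 525) (nat_lit 413) (nat_lit 262)))))) (XT.nd (nat_lit 546) (nat_lit 152) (nat_lit 0) (XT.nd (nat_lit 234) (nat_lit 76) (nat_lit 0) (XT.nd (nat_lit 78) (nat_lit 0) (nat_lit 0) (XT.lf (nat_lit 0) (nat_lit 64022502169) (nat_lit 152) (nat_lit 263363475861) (nat_lit 0) (nat_lit 34969082031) (nat_lit 7) (nat_lit 5) (nat_lit 9) (nat_lit 4) (nat_lit 7) (nat_lit 4) (nat_lit 526) (nat_lit 413) (nat_lit 261)) (XT.nd (nat_lit 78) (nat_lit 0) (nat_lit 0) (XT.lf (nat_lit 0) (nat_lit 101534723790) (nat_lit 152) (nat_lit 204668647481) (nat_lit 0) (nat_lit 72480470996) (nat_lit 7) (nat_lit 5) (nat_lit 9) (nat_lit 4) (nat_lit 7) (nat_lit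 4) (nat_lit 527) (nat_lit 413) (nat_lit 260)) (XT.lf (nat_lit 0) (nat_lit 140920558858) (nat_lit 152) (nat_lit 143043091590) (nat_lit 0) (nat_lit 111865513058) (nat_lit 7) (nat_lit 5) (nat_lit 9) (nat_lit 4) (nat_lit 7) (nat_lit 4) (nat_lit 528) (nat_lit 413) (nat_lit 259)))) (XT.nd (nat_lit 156) (nat_lit 76) (nat_lit 0) (XT.nd (nat_lit 78) (nat_lit 0) (nat_lit 0) (XT.lf (nat_lit 0) (nat_lit 182273783171) (nat_lit 152) (nat_lit 78340080675) (nat_lit 0) (nat_lit 153217982126) (nat_lit 7) (nat_lit 5) (nat_lit 9) (nat_lit 4) (nat_lit 7) (nat_lit 4) (nat_lit 529) (nat_lit 413) (nat_lit 258)) (XT.lf (nat_lit 0) (nat_lit 225692856786) (nat_lit 152) (nat_lit 10405559947) (nat_lit 0) (nat_lit 196636336462) (nat_lit 7) (nat_lit 5) (nat_lit 9) (nat_lit 4) (nat_lit 7) (nat_lit 4) (nat_lit 530) (nat_lit 413) (nat_lit 257))) (XT.nd (nat_lit 78) (nat_lit 0) (nat_lit 0) (XT.lf (nat_lit 0) (nat_lit 62936583159)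 (nat_lit 76) (nat_lit 209327191733) (nat_lit 76) (nat_lit 180269986380) (nat_lit 6) (nat_lit 4) (nat_lit 7) (nat_lit 5) (nat_lit 7) (nat_lit 4) (nat_lit 531) (nat_lit 413) (nat_lit 256)) (XT.lf (nat_lit 0) (nat_lit 140303679527) (nat_lit 76) (nat_lit 181034085850) (nat_lit 76) (nat_lit 151976228089) (nat_lit 6) (nat_lit 4) (nat_lit 7) (nat_lit 5) (nat_lit 7) (nat_lit 4) (nat_lit 532) (nat_lit 413) (nat_lit 255))))) (XT.nd (nat_lit 234) (nat_lit 152) (nat_lit 0) (XT.nd (nat_lit 78) (nat_lit 0) (nat_lit 0) (XT.lf (nat_lit 0) (nat_lit 221535881723) (nat_lit 76) (nat_lit 151327957738) (nat_lit 76) (nat_lit 122269478636) (nat_lit 6) (nat_lit 4) (nat_lit 7) (nat_lit 5) (nat_lit 7) (nat_lit 4) (nat_lit 533) (nat_lit 413) (nat_lit 254)) (XT.nd (nat_lit 78) (nat_lit 0) (nat_lit 0) (XT.lf (nat_lit 0) (nat_lit 306826599752) (nat_lit 76) (nat_lit 120138078521) (nat_lit 76) (nat_lit 91079007666) (nat_lit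 6) (nat_lit 4) (nat_lit 7) (nat_lit 5) (nat_lit 7) (nat_lit 4) (nat_lit 534) (nat_lit 413) (nat_lit 253)) (XT.lf (nat_lit 0) (nat_lit 396378906753) (nat_lit 76) (nat_lit 87390186582) (nat_lit 76) (nat_lit 58330552152) (nat_lit 6) (nat_lit 4) (nat_lit 7) (nat_lit 5) (nat_lit 7) (nat_lit 4) (nat_lit 535) (nat_lit 413) (nat_lit 252)))) (XT.nd (nat_lit 156) (nat_lit 76) (nat_lit 0) (XT.nd (nat_lit 78) (nat_lit 76) (nat_lit 0) (XT.lf (nat_lit 0) (nat_lit 490406022503) (nat_lit 76) (nat_lit 53006310749) (nat_lit 76) (nat_lit 23946139582) (nat_lit 6) (nat_lit 4) (nat_lit 7) (nat_lit 5) (nat_lit 7) (nat_lit 4) (nat_lit 536) (nat_lit 413) (nat_lit 251)) (XT.lf (nat_lit 0) (nat_lit 11767026650) (nat_lit 152) (nat_lit 4938277712) (nat_lit 76) (nat_lit 577165514149) (nat_lit 5) (nat_lit 5) (nat_lit 7) (nat_lit 5) (nat_lit 6) (nat_lit 4) (nat_lit 537) (nat_lit 413) (nat_lit 250))) (XT.nd (nat_lit 78) (nat_lit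 0) (nat_lit 0) (XT.lf (nat_lit 0) (nat_lit 49952668926) (nat_lit 152) (nat_lit 549386541391) (nat_lit 0) (nat_lit 22275364942) (nat_lit 4) (nat_lit 5) (nat_lit 6) (nat_lit 4) (nat_lit 4) (nat_lit 4) (nat_lit 538) (nat_lit 413) (nat_lit 249)) (XT.lf (nat_lit 0) (nat_lit 90405168527) (nat_lit 152) (nat_lit 497595049613) (nat_lit 0) (nat_lit 62727422967) (nat_lit 4) (nat_lit 5) (nat_lit 6) (nat_lit 4) (nat_lit 4) (nat_lit 4) (nat_lit 539) (nat_lit 413) (nat_lit 248))))))) (XT.nd (nat_lit 53430) (nat_lit 0) (nat_lit 6688) (XT.nd (nat_lit 52884) (nat_lit 0) (nat_lit 10108) (XT.nd (nat_lit 234) (nat_lit 0) (nat_lit 0) (XT.nd (nat_lit 78) (nat_lit 0) (nat_lit 0) (XT.lf (nat_lit 0) (nat_lit 132879068937) (nat_lit 152) (nat_lit 443216449711) (nat_lit 0) (nat_lit 105200902830) (nat_lit 4) (nat_lit 5) (nat_lit 6) (nat_lit 4) (nat_lit 4) (nat_lit 4) (nat_lit 540) (nat_lit 413) (nat_lit 247)) (XT.nd (nat_lit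 78) (nat_lit 0) (nat_lit 0) (XT.lf (nat_lit 0) (nat_lit 177475498492) (nat_lit 152) (nat_lit 386121268828) (nat_lit 0) (nat_lit 149796931862) (nat_lit 4) (nat_lit 5) (nat_lit 6) (nat_lit 4) (nat_lit 4) (nat_lit 4) (nat_lit 541) (nat_lit 413) (nat_lit 246)) (XT.lf (nat_lit 0) (nat_lit 224300639166) (nat_lit 152) (nat_lit 326173566057) (nat_lit 0) (nat_lit 196621691087) (nat_lit 4) (nat_lit 5) (nat_lit 6) (nat_lit 4) (nat_lit 4) (nat_lit 4) (nat_lit 542) (nat_lit 413) (nat_lit 245)))) (XT.nd (nat_lit 52494) (nat_lit 0) (nat_lit 10716) (XT.nd (nat_lit 52416) (nat_lit 0) (nat_lit 10716) (XT.lf (nat_lit 0) (nat_lit 273465979389) (nat_lit 152) (nat_lit 263230608772) (nat_lit 0) (nat_lit 245786668025) (nat_lit 4) (nat_lit 5) (nat_lit 6) (nat_lit 4) (nat_lit 4) (nat_lit 4) (nat_lit 543) (nat_lit 413) (nat_lit 244)) (XT.lf (nat_lit 0) (nat_lit 3059032269) (nat_lit 684) (nat_lit 650430393) (nat_lit 684)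 (nat_lit 650430393) (nat_lit 145) (nat_lit 3) (nat_lit 154) (nat_lit 3) (nat_lit 154) (nat_lit 5) (nat_lit 414) (nat_lit 414) (nat_lit 372))) (XT.nd (nat_lit 78) (nat_lit 0) (nat_lit 0) (XT.lf (nat_lit 76) (nat_lit 3077219021) (nat_lit 0) (nat_lit 4182621042) (nat_lit 684) (nat_lit 1628075425) (nat_lit 146) (nat_lit 5) (nat_lit 145) (nat_lit 3) (nat_lit 154) (nat_lit 5) (nat_lit 415) (nat_lit 414) (nat_lit 371)) (XT.lf (nat_lit 76) (nat_lit 7686689992) (nat_lit 0) (nat_lit 733313255) (nat_lit 684) (nat_lit 646410291) (nat_lit 146) (nat_lit 5) (nat_lit 145) (nat_lit 3) (nat_lit 154) (nat_lit 5) (nat_lit 416) (nat_lit 414) (nat_lit 370))))) (XT.nd (nat_lit 234) (nat_lit 0) (nat_lit 76) (XT.nd (nat_lit 78) (nat_lit 0) (nat_lit 0) (XT.lf (nat_lit 0) (nat_lit 411832389) (nat_lit 684) (nat_lit 5959716487) (nat_lit 760) (nat_lit 2880022432) (nat_lit 137) (nat_lit 5) (nat_lit 146) (nat_lit 5) (nat_lit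 147) (nat_lit 5) (nat_lit 417) (nat_lit 414) (nat_lit 369)) (XT.nd (nat_lit 78) (nat_lit 0) (nat_lit 76) (XT.lf (nat_lit 0) (nat_lit 1480887902) (nat_lit 684) (nat_lit 1258686122) (nat_lit 760) (nat_lit 6706925331) (nat_lit 137) (nat_lit 5) (nat_lit 146) (nat_lit 5) (nat_lit 147) (nat_lit 5) (nat_lit 418) (nat_lit 414) (nat_lit 368)) (XT.lf (nat_lit 0) (nat_lit 2626720852) (nat_lit 684) (nat_lit 5905180790) (nat_lit 760) (nat_lit 1118128263) (nat_lit 138) (nat_lit 5) (nat_lit 147) (nat_lit 5) (nat_lit 148) (nat_lit 5) (nat_lit 419) (nat_lit 414) (nat_lit 367)))) (XT.nd (nat_lit 156) (nat_lit 0) (nat_lit 76) (XT.nd (nat_lit 78) (nat_lit 0) (nat_lit 0) (XT.lf (nat_lit 0) (nat_lit 3845252257) (nat_lit 684) (nat_lit 902071053) (nat_lit 760) (nat_lit 5115664602) (nat_lit 138) (nat_lit 5) (nat_lit 147) (nat_lit 5) (nat_lit 148) (nat_lit 5) (nat_lit 420) (nat_lit 414) (nat_lit 366)) (XT.lf (nat_lit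 76) (nat_lit 4459252135) (nat_lit 0) (nat_lit 686346044) (nat_lit 760) (nat_lit 4939971501) (nat_lit 139) (nat_lit 5) (nat_lit 138) (nat_lit 5) (nat_lit 148) (nat_lit 5) (nat_lit 421) (nat_lit 414) (nat_lit 365))) (XT.nd (nat_lit 78) (nat_lit 0) (nat_lit 0) (XT.lf (nat_lit 0) (nat_lit 6535601568) (nat_lit 684) (nat_lit 291339216) (nat_lit 760) (nat_lit 3491127035) (nat_lit 139) (nat_lit 5) (nat_lit 148) (nat_lit 5) (nat_lit 149) (nat_lit 5) (nat_lit 422) (nat_lit 414) (nat_lit 364)) (XT.lf (nat_lit 76) (nat_lit 5438267522) (nat_lit 0) (nat_lit 2608476830) (nat_lit 760) (nat_lit 2512882925) (nat_lit 140) (nat_lit 5) (nat_lit 139) (nat_lit 5) (nat_lit 149) (nat_lit 5) (nat_lit 423) (nat_lit 414) (nat_lit 363)))))) (XT.nd (nat_lit 546) (nat_lit 1368) (nat_lit 0) (XT.nd (nat_lit 234) (nat_lit 760) (nat_lit 0) (XT.nd (nat_lit 78) (nat_lit 836) (nat_lit 0) (XT.lf (nat_lit 0) (nat_lit 605663639) (nat_lit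 684) (nat_lit 9027879420) (nat_lit 760) (nat_lit 1179734210) (nat_lit 131) (nat_lit 5) (nat_lit 140) (nat_lit 5) (nat_lit 141) (nat_lit 5) (nat_lit 424) (nat_lit 414) (nat_lit 362)) (XT.nd (nat_lit 78) (nat_lit 760) (nat_lit 0) (XT.lf (nat_lit 0) (nat_lit 301924429) (nat_lit 760) (nat_lit 4363528711) (nat_lit 76) (nat_lit 6409555886) (nat_lit 130) (nat_lit 5) (nat_lit 140) (nat_lit 5) (nat_lit 131) (nat_lit 5) (nat_lit 425) (nat_lit 414) (nat_lit 361)) (XT.lf (nat_lit 0) (nat_lit 1774524870) (nat_lit 760) (nat_lit 31180296) (nat_lit 836) (nat_lit 9543786028) (nat_lit 120) (nat_lit 5) (nat_lit 130) (nat_lit 5) (nat_lit 131) (nat_lit 5) (nat_lit 426) (nat_lit 414) (nat_lit 360)))) (XT.nd (nat_lit 156) (nat_lit 380) (nat_lit 0) (XT.nd (nat_lit 78) (nat_lit 380) (nat_lit 0) (XT.lf (nat_lit 0) (nat_lit 3496663188) (nat_lit 836) (nat_lit 3376844619) (nat_lit 76) (nat_lit 4758604647) (nat_lit 120)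 (nat_lit 5) (nat_lit 131) (nat_lit 5) (nat_lit 121) (nat_lit 5) (nat_lit 427) (nat_lit 414) (nat_lit 359)) (XT.lf (nat_lit 0) (nat_lit 3197666122) (nat_lit 380) (nat_lit 2088170530) (nat_lit 456) (nat_lit 6642358459) (nat_lit 115) (nat_lit 5) (nat_lit 120) (nat_lit 5) (nat_lit 121) (nat_lit 5) (nat_lit 428) (nat_lit 414) (nat_lit 358))) (XT.nd (nat_lit 78) (nat_lit 380) (nat_lit 0) (XT.lf (nat_lit 0) (nat_lit 7232892623) (nat_lit 456) (nat_lit 2101451372) (nat_lit 76) (nat_lit 2901329771) (nat_lit 115) (nat_lit 5) (nat_lit 121) (nat_lit 5) (nat_lit 116) (nat_lit 5) (nat_lit 429) (nat_lit 414) (nat_lit 357)) (XT.lf (nat_lit 0) (nat_lit 4948384907) (nat_lit 380) (nat_lit 4406551576) (nat_lit 456) (nat_lit 3199720554) (nat_lit 110) (nat_lit 5) (nat_lit 115) (nat_lit 5) (nat_lit 116) (nat_lit 5) (nat_lit 430) (nat_lit 414) (nat_lit 356))))) (XT.nd (nat_lit 312) (nat_lit 608) (nat_lit 0) (XT.nd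 (nat_lit 156) (nat_lit 304) (nat_lit 0) (XT.nd (nat_lit 78) (nat_lit 456) (nat_lit 0) (XT.lf (nat_lit 0) (nat_lit 11598438057) (nat_lit 456) (nat_lit 512615143) (nat_lit 76) (nat_lit 777780337) (nat_lit 110) (nat_lit 5) (nat_lit 116) (nat_lit 5) (nat_lit 111) (nat_lit 5) (nat_lit 431) (nat_lit 414) (nat_lit 355)) (XT.lf (nat_lit 0) (nat_lit 845146135) (nat_lit 456) (nat_lit 6190708450) (nat_lit 76) (nat_lit 6195636564) (nat_lit 104) (nat_lit 5) (nat_lit 110) (nat_lit 5) (nat_lit 105) (nat_lit 5) (nat_lit 432) (nat_lit 414) (nat_lit 354))) (XT.nd (nat_lit 78) (nat_lit 0) (nat_lit 0) (XT.lf (nat_lit 0) (nat_lit 1387229229) (nat_lit 304) (nat_lit 1656567773) (nat_lit 380) (nat_lit 10546452274) (nat_lit 100) (nat_lit 5) (nat_lit 104) (nat_lit 5) (nat_lit 105) (nat_lit 5) (nat_lit 433) (nat_lit 414) (nat_lit 353)) (XT.lf (nat_lit 0) (nat_lit 5491345553) (nat_lit 380) (nat_lit 4502302655) (nat_lit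 76) (nat_lit 3966358587) (nat_lit 100) (nat_lit 5) (nat_lit 105) (nat_lit 5) (nat_lit 101) (nat_lit 5) (nat_lit 434) (nat_lit 414) (nat_lit 352)))) (XT.nd (nat_lit 156) (nat_lit 304) (nat_lit 0) (XT.nd (nat_lit 78) (nat_lit 0) (nat_lit 0) (XT.lf (nat_lit 0) (nat_lit 3638903691) (nat_lit 304) (nat_lit 4477845221) (nat_lit 380) (nat_lit 6228738690) (nat_lit 96) (nat_lit 5) (nat_lit 100) (nat_lit 5) (nat_lit 101) (nat_lit 5) (nat_lit 435) (nat_lit 414) (nat_lit 351)) (XT.lf (nat_lit 0) (nat_lit 10943687851) (nat_lit 380) (nat_lit 2459326113) (nat_lit 76) (nat_lit 1343724053) (nat_lit 96) (nat_lit 5) (nat_lit 101) (nat_lit 5) (nat_lit 97) (nat_lit 5) (nat_lit 436) (nat_lit 414) (nat_lit 350))) (XT.nd (nat_lit 78) (nat_lit 76) (nat_lit 0) (XT.lf (nat_lit 0) (nat_lit 6295413175) (nat_lit 228) (nat_lit 7761833541) (nat_lit 304) (nat_lit 1103549004) (nat_lit 93) (nat_lit 5) (nat_lit 96) (nat_lit 5)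 (nat_lit 97) (nat_lit 5) (nat_lit 437) (nat_lit 414) (nat_lit 349)) (XT.lf (nat_lit 0) (nat_lit 1691759288) (nat_lit 304) (nat_lit 81215088) (nat_lit 76) (nat_lit 13820426708) (nat_lit 92) (nat_lit 5) (nat_lit 96) (nat_lit 5) (nat_lit 93) (nat_lit 5) (nat_lit 438) (nat_lit 414) (nat_lit 348))))))))
noncomputable def xc128 : XT := (XT.nd (nat_lit 2184) (nat_lit 1748) (nat_lit 0) (XT.nd (nat_lit 1092) (nat_lit 1368) (nat_lit 0) (XT.nd (nat_lit 546) (nat_lit 836) (nat_lit 0) (XT.nd (nat_lit 234) (nat_lit 760) (nat_lit 0) (XT.nd (nat_lit 78) (nat_lit 228) (nat_lit 0) (XT.lf (nat_lit 0) (nat_lit 4784630541) (nat_lit 380) (nat_lit 6720755854) (nat_lit 76) (nat_lit 4531608843) (nat_lit 88) (nat_lit 5) (nat_lit 93) (nat_lit 5) (nat_lit 89) (nat_lit 5) (nat_lit 439) (nat_lit 414) (nat_lit 347)) (XT.nd (nat_lit 78) (nat_lit 0) (nat_lit 0) (XT.lf (nat_lit 0) (nat_lit 2708989851) (nat_lit 228) (nat_lit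 5371642709) (nat_lit 304) (nat_lit 8419719105) (nat_lit 85) (nat_lit 5) (nat_lit 88) (nat_lit 5) (nat_lit 89) (nat_lit 5) (nat_lit 440) (nat_lit 414) (nat_lit 346)) (XT.lf (nat_lit 0) (nat_lit 11650067442) (nat_lit 304) (nat_lit 4189036478) (nat_lit 76) (nat_lit 1142346949) (nat_lit 85) (nat_lit 5) (nat_lit 89) (nat_lit 5) (nat_lit 86) (nat_lit 5) (nat_lit 441) (nat_lit 414) (nat_lit 345)))) (XT.nd (nat_lit 156) (nat_lit 456) (nat_lit 0) (XT.nd (nat_lit 78) (nat_lit 76) (nat_lit 0) (XT.lf (nat_lit 0) (nat_lit 5964975031) (nat_lit 228) (nat_lit 9591580008) (nat_lit 304) (nat_lit 1922127227) (nat_lit 82) (nat_lit 5) (nat_lit 85) (nat_lit 5) (nat_lit 86) (nat_lit 5) (nat_lit 442) (nat_lit 414) (nat_lit 344)) (XT.lf (nat_lit 0) (nat_lit 1654265490) (nat_lit 304) (nat_lit 1283677583) (nat_lit 76) (nat_lit 15059057524) (nat_lit 81) (nat_lit 5) (nat_lit 85) (nat_lit 5) (nat_lit 82) (nat_lit 5) (nat_lit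 443) (nat_lit 414) (nat_lit 343))) (XT.nd (nat_lit 78) (nat_lit 228) (nat_lit 0) (XT.lf (nat_lit 0) (nat_lit 5541193082) (nat_lit 304) (nat_lit 8892222873) (nat_lit 76) (nat_lit 4096433237) (nat_lit 78) (nat_lit 5) (nat_lit 82) (nat_lit 5) (nat_lit 79) (nat_lit 5) (nat_lit 444) (nat_lit 414) (nat_lit 342)) (XT.lf (nat_lit 0) (nat_lit 2047886037) (nat_lit 228) (nat_lit 7655916247) (nat_lit 304) (nat_lit 9381476337) (nat_lit 75) (nat_lit 5) (nat_lit 78) (nat_lit 5) (nat_lit 79) (nat_lit 5) (nat_lit 445) (nat_lit 414) (nat_lit 341))))) (XT.nd (nat_lit 234) (nat_lit 608) (nat_lit 0) (XT.nd (nat_lit 78) (nat_lit 228) (nat_lit 0) (XT.lf (nat_lit 0) (nat_lit 13813761107) (nat_lit 228) (nat_lit 391005223) (nat_lit 304) (nat_lit 5457206895) (nat_lit 75) (nat_lit 5) (nat_lit 78) (nat_lit 5) (nat_lit 79) (nat_lit 5) (nat_lit 446) (nat_lit 414) (nat_lit 340)) (XT.nd (nat_lit 78) (nat_lit 76) (nat_lit 0)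 (XT.lf (nat_lit 0) (nat_lit 5948460265) (nat_lit 152) (nat_lit 13168640376) (nat_lit 228) (nat_lit 1141090502) (nat_lit 73) (nat_lit 5) (nat_lit 75) (nat_lit 5) (nat_lit 76) (nat_lit 5) (nat_lit 447) (nat_lit 414) (nat_lit 339)) (XT.lf (nat_lit 0) (nat_lit 3370000218) (nat_lit 228) (nat_lit 2431773008) (nat_lit 76) (nat_lit 15075419146) (nat_lit 72) (nat_lit 5) (nat_lit 75) (nat_lit 5) (nat_lit 73) (nat_lit 5) (nat_lit 448) (nat_lit 414) (nat_lit 338)))) (XT.nd (nat_lit 156) (nat_lit 228) (nat_lit 0) (XT.nd (nat_lit 78) (nat_lit 152) (nat_lit 0) (XT.lf (nat_lit 0) (nat_lit 8244006411) (nat_lit 304) (nat_lit 11228390053) (nat_lit 76) (nat_lit 2045030477) (nat_lit 69) (nat_lit 5) (nat_lit 73) (nat_lit 5) (nat_lit 70) (nat_lit 5) (nat_lit 449) (nat_lit 414) (nat_lit 337)) (XT.lf (nat_lit 0) (nat_lit 1465386621) (nat_lit 152) (nat_lit 12038013712) (nat_lit 228) (nat_lit 8679192389) (nat_lit 67)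 (nat_lit 5) (nat_lit 69) (nat_lit 5) (nat_lit 70) (nat_lit 5) (nat_lit 450) (nat_lit 414) (nat_lit 336))) (XT.nd (nat_lit 78) (nat_lit 228) (nat_lit 0) (XT.lf (nat_lit 0) (nat_lit 15155707385) (nat_lit 152) (nat_lit 4042482113) (nat_lit 228) (nat_lit 3674209690) (nat_lit 67) (nat_lit 5) (nat_lit 69) (nat_lit 5) (nat_lit 70) (nat_lit 5) (nat_lit 451) (nat_lit 414) (nat_lit 335)) (XT.lf (nat_lit 0) (nat_lit 1677884289) (nat_lit 228) (nat_lit 17584903171) (nat_lit 76) (nat_lit 4325304402) (nat_lit 64) (nat_lit 5) (nat_lit 67) (nat_lit 5) (nat_lit 65) (nat_lit 5) (nat_lit 452) (nat_lit 414) (nat_lit 334)))))) (XT.nd (nat_lit 546) (nat_lit 684) (nat_lit 0) (XT.nd (nat_lit 234) (nat_lit 380) (nat_lit 0) (XT.nd (nat_lit 78) (nat_lit 304) (nat_lit 0) (XT.lf (nat_lit 0) (nat_lit 7356278893) (nat_lit 228) (nat_lit 3812165955) (nat_lit 76) (nat_lit 13159007172) (nat_lit 64) (nat_lit 5) (nat_lit 67) (nat_lit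 5) (nat_lit 65) (nat_lit 5) (nat_lit 453) (nat_lit 414) (nat_lit 333)) (XT.nd (nat_lit 78) (nat_lit 152) (nat_lit 0) (XT.lf (nat_lit 0) (nat_lit 10974306985) (nat_lit 152) (nat_lit 2499506849) (nat_lit 228) (nat_lit 11622208344) (nat_lit 62) (nat_lit 5) (nat_lit 64) (nat_lit 5) (nat_lit 65) (nat_lit 5) (nat_lit 454) (nat_lit 414) (nat_lit 332)) (XT.lf (nat_lit 0) (nat_lit 622062032) (nat_lit 152) (nat_lit 19437675447) (nat_lit 228) (nat_lit 5835160645) (nat_lit 60) (nat_lit 5) (nat_lit 62) (nat_lit 5) (nat_lit 63) (nat_lit 5) (nat_lit 455) (nat_lit 414) (nat_lit 331)))) (XT.nd (nat_lit 156) (nat_lit 152) (nat_lit 0) (XT.nd (nat_lit 78) (nat_lit 152) (nat_lit 0) (XT.lf (nat_lit 0) (nat_lit 501758605) (nat_lit 228) (nat_lit 10203581264) (nat_lit 76) (nat_lit 16014780270) (nat_lit 59) (nat_lit 5) (nat_lit 62) (nat_lit 5) (nat_lit 60) (nat_lit 5) (nat_lit 456) (nat_lit 414) (nat_lit 330)) (XT.lf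 (nat_lit 0) (nat_lit 5680074933) (nat_lit 152) (nat_lit 1352970265) (nat_lit 228) (nat_lit 20545096572) (nat_lit 57) (nat_lit 5) (nat_lit 59) (nat_lit 5) (nat_lit 60) (nat_lit 5) (nat_lit 457) (nat_lit 414) (nat_lit 329))) (XT.nd (nat_lit 78) (nat_lit 152) (nat_lit 0) (XT.lf (nat_lit 0) (nat_lit 14183837518) (nat_lit 228) (nat_lit 5918668006) (nat_lit 76) (nat_lit 8361914255) (nat_lit 57) (nat_lit 5) (nat_lit 60) (nat_lit 5) (nat_lit 58) (nat_lit 5) (nat_lit 458) (nat_lit 414) (nat_lit 328)) (XT.lf (nat_lit 0) (nat_lit 11170891414) (nat_lit 152) (nat_lit 10703687852) (nat_lit 228) (nat_lit 7511314188) (nat_lit 55) (nat_lit 5) (nat_lit 57) (nat_lit 5) (nat_lit 58) (nat_lit 5) (nat_lit 459) (nat_lit 414) (nat_lit 327))))) (XT.nd (nat_lit 234) (nat_lit 304) (nat_lit 0) (XT.nd (nat_lit 78) (nat_lit 380) (nat_lit 0) (XT.lf (nat_lit 0) (nat_lit 29296633599) (nat_lit 152) (nat_lit 739585009) (nat_lit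 228) (nat_lit 312906326) (nat_lit 55) (nat_lit 5) (nat_lit 57) (nat_lit 5) (nat_lit 58) (nat_lit 5) (nat_lit 460) (nat_lit 414) (nat_lit 326)) (XT.nd (nat_lit 78) (nat_lit 152) (nat_lit 0) (XT.lf (nat_lit 0) (nat_lit 7429526190) (nat_lit 228) (nat_lit 14111443080) (nat_lit 76) (nat_lit 9793094448) (nat_lit 52) (nat_lit 5) (nat_lit 55) (nat_lit 5) (nat_lit 53) (nat_lit 5) (nat_lit 461) (nat_lit 414) (nat_lit 325)) (XT.lf (nat_lit 0) (nat_lit 4173471943) (nat_lit 152) (nat_lit 11457195894) (nat_lit 228) (nat_lit 16733221817) (nat_lit 50) (nat_lit 5) (nat_lit 52) (nat_lit 5) (nat_lit 53) (nat_lit 5) (nat_lit 462) (nat_lit 414) (nat_lit 324)))) (XT.nd (nat_lit 156) (nat_lit 228) (nat_lit 0) (XT.nd (nat_lit 78) (nat_lit 76) (nat_lit 0) (XT.lf (nat_lit 0) (nat_lit 23839695643) (nat_lit 152) (nat_lit 628134044) (nat_lit 228) (nat_lit 8966080811) (nat_lit 50) (nat_lit 5) (nat_lit 52) (nat_lit 5) (nat_lit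 53) (nat_lit 5) (nat_lit 463) (nat_lit 414) (nat_lit 323)) (XT.lf (nat_lit 0) (nat_lit 10063946909) (nat_lit 76) (nat_lit 23995200640) (nat_lit 152) (nat_lit 482671621) (nat_lit 49) (nat_lit 5) (nat_lit 50) (nat_lit 5) (nat_lit 51) (nat_lit 4) (nat_lit 464) (nat_lit 414) (nat_lit 322))) (XT.nd (nat_lit 78) (nat_lit 152) (nat_lit 0) (XT.lf (nat_lit 0) (nat_lit 8318207571) (nat_lit 152) (nat_lit 4825687884) (nat_lit 76) (nat_lit 22546505064) (nat_lit 48) (nat_lit 5) (nat_lit 50) (nat_lit 5) (nat_lit 49) (nat_lit 5) (nat_lit 465) (nat_lit 414) (nat_lit 321)) (XT.lf (nat_lit 0) (nat_lit 16301713878) (nat_lit 152) (nat_lit 1483811938) (nat_lit 228) (nat_lit 19098360141) (nat_lit 46) (nat_lit 5) (nat_lit 48) (nat_lit 5) (nat_lit 49) (nat_lit 5) (nat_lit 466) (nat_lit 414) (nat_lit 320))))))) (XT.nd (nat_lit 1092) (nat_lit 760) (nat_lit 0) (XT.nd (nat_lit 546) (nat_lit 380) (nat_lit 0) (XT.nd (nat_lit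 234) (nat_lit 304) (nat_lit 0) (XT.nd (nat_lit 78) (nat_lit 228) (nat_lit 0) (XT.lf (nat_lit 0) (nat_lit 340299336) (nat_lit 76) (nat_lit 27630468077) (nat_lit 152) (nat_lit 10154051765) (nat_lit 45) (nat_lit 5) (nat_lit 46) (nat_lit 5) (nat_lit 47) (nat_lit 4) (nat_lit 467) (nat_lit 414) (nat_lit 319)) (XT.nd (nat_lit 78) (nat_lit 228) (nat_lit 0) (XT.lf (nat_lit 0) (nat_lit 22977342397) (nat_lit 76) (nat_lit 16048861385) (nat_lit 152) (nat_lit 383549961) (nat_lit 45) (nat_lit 5) (nat_lit 46) (nat_lit 5) (nat_lit 47) (nat_lit 4) (nat_lit 468) (nat_lit 414) (nat_lit 318)) (XT.lf (nat_lit 0) (nat_lit 6004953305) (nat_lit 152) (nat_lit 3637001098) (nat_lit 228) (nat_lit 31105144916) (nat_lit 42) (nat_lit 5) (nat_lit 44) (nat_lit 5) (nat_lit 45) (nat_lit 5) (nat_lit 469) (nat_lit 414) (nat_lit 317)))) (XT.nd (nat_lit 156) (nat_lit 228) (nat_lit 0) (XT.nd (nat_lit 78) (nat_lit 76) (nat_lit 0) (XT.lf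 (nat_lit 0) (nat_lit 20574265966) (nat_lit 228) (nat_lit 12180696152) (nat_lit 76) (nat_lit 9375115719) (nat_lit 42) (nat_lit 5) (nat_lit 45) (nat_lit 5) (nat_lit 43) (nat_lit 4) (nat_lit 470) (nat_lit 414) (nat_lit 316)) (XT.lf (nat_lit 0) (nat_lit 11807653564) (nat_lit 76) (nat_lit 20478922076) (nat_lit 152) (nat_lit 11283961599) (nat_lit 41) (nat_lit 5) (nat_lit 42) (nat_lit 5) (nat_lit 43) (nat_lit 4) (nat_lit 471) (nat_lit 414) (nat_lit 315))) (XT.nd (nat_lit 78) (nat_lit 228) (nat_lit 0) (XT.lf (nat_lit 0) (nat_lit 37399152716) (nat_lit 76) (nat_lit 7381248349) (nat_lit 152) (nat_lit 292824568) (nat_lit 41) (nat_lit 5) (nat_lit 42) (nat_lit 5) (nat_lit 43) (nat_lit 4) (nat_lit 472) (nat_lit 414) (nat_lit 314)) (XT.lf (nat_lit 0) (nat_lit 11265688410) (nat_lit 228) (nat_lit 28734405342) (nat_lit 76) (nat_lit 6623284034) (nat_lit 38) (nat_lit 5) (nat_lit 41) (nat_lit 5) (nat_lit 39) (nat_lit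 4) (nat_lit 473) (nat_lit 414) (nat_lit 313))))) (XT.nd (nat_lit 234) (nat_lit 228) (nat_lit 0) (XT.nd (nat_lit 78) (nat_lit 152) (nat_lit 0) (XT.lf (nat_lit 0) (nat_lit 23635392771) (nat_lit 228) (nat_lit 3394516342) (nat_lit 76) (nat_lit 21208733978) (nat_lit 38) (nat_lit 5) (nat_lit 41) (nat_lit 5) (nat_lit 39) (nat_lit 4) (nat_lit 474) (nat_lit 414) (nat_lit 312)) (XT.nd (nat_lit 78) (nat_lit 76) (nat_lit 0) (XT.lf (nat_lit 0) (nat_lit 23961534889) (nat_lit 76) (nat_lit 13026637780) (nat_lit 152) (nat_lit 12928270325) (nat_lit 37) (nat_lit 5) (nat_lit 38) (nat_lit 5) (nat_lit 39) (nat_lit 4) (nat_lit 475) (nat_lit 414) (nat_lit 311)) (XT.lf (nat_lit 0) (nat_lit 1118863449) (nat_lit 76) (nat_lit 49982343594) (nat_lit 76) (nat_lit 572295885) (nat_lit 36) (nat_lit 4) (nat_lit 37) (nat_lit 5) (nat_lit 37) (nat_lit 4) (nat_lit 476) (nat_lit 414) (nat_lit 310)))) (XT.nd (nat_lit 156) (nat_lit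 76) (nat_lit 0) (XT.nd (nat_lit 78) (nat_lit 76) (nat_lit 0) (XT.lf (nat_lit 0) (nat_lit 12655430122) (nat_lit 152) (nat_lit 23481228666) (nat_lit 76) (nat_lit 17339532836) (nat_lit 35) (nat_lit 5) (nat_lit 37) (nat_lit 5) (nat_lit 36) (nat_lit 4) (nat_lit 477) (nat_lit 414) (nat_lit 309)) (XT.lf (nat_lit 0) (nat_lit 5082149403) (nat_lit 76) (nat_lit 21513517504) (nat_lit 152) (nat_lit 28769361583) (nat_lit 34) (nat_lit 5) (nat_lit 35) (nat_lit 5) (nat_lit 36) (nat_lit 4) (nat_lit 478) (nat_lit 414) (nat_lit 308))) (XT.nd (nat_lit 78) (nat_lit 76) (nat_lit 0) (XT.lf (nat_lit 0) (nat_lit 35872203611) (nat_lit 76) (nat_lit 5749555867) (nat_lit 152) (nat_lit 15707106190) (nat_lit 34) (nat_lit 5) (nat_lit 35) (nat_lit 5) (nat_lit 36) (nat_lit 4) (nat_lit 479) (nat_lit 414) (nat_lit 307)) (XT.lf (nat_lit 0) (nat_lit 8911205270) (nat_lit 76) (nat_lit 48787220030) (nat_lit 76) (nat_lit 1677506607)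 (nat_lit 33) (nat_lit 4) (nat_lit 34) (nat_lit 5) (nat_lit 34) (nat_lit 4) (nat_lit 480) (nat_lit 414) (nat_lit 306)))))) (XT.nd (nat_lit 546) (nat_lit 380) (nat_lit 0) (XT.nd (nat_lit 234) (nat_lit 228) (nat_lit 0) (XT.nd (nat_lit 78) (nat_lit 76) (nat_lit 0) (XT.lf (nat_lit 0) (nat_lit 13090867820) (nat_lit 152) (nat_lit 20285040535) (nat_lit 76) (nat_lit 28116499000) (nat_lit 32) (nat_lit 5) (nat_lit 34) (nat_lit 5) (nat_lit 33) (nat_lit 4) (nat_lit 481) (nat_lit 414) (nat_lit 305)) (XT.nd (nat_lit 78) (nat_lit 0) (nat_lit 0) (XT.lf (nat_lit 0) (nat_lit 11736301919) (nat_lit 76) (nat_lit 16980124888) (nat_lit 152) (nat_lit 34988148257) (nat_lit 31) (nat_lit 5) (nat_lit 32) (nat_lit 5) (nat_lit 33) (nat_lit 4) (nat_lit 482) (nat_lit 414) (nat_lit 304)) (XT.lf (nat_lit 0) (nat_lit 45468047508) (nat_lit 152) (nat_lit 19972017622) (nat_lit 0) (nat_lit 570047362) (nat_lit 31) (nat_lit 5) (nat_lit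 33) (nat_lit 4) (nat_lit 31) (nat_lit 4) (nat_lit 483) (nat_lit 414) (nat_lit 303)))) (XT.nd (nat_lit 156) (nat_lit 76) (nat_lit 0) (XT.nd (nat_lit 78) (nat_lit 76) (nat_lit 0) (XT.lf (nat_lit 0) (nat_lit 13771708796) (nat_lit 76) (nat_lit 49771241008) (nat_lit 76) (nat_lit 4863692458) (nat_lit 30) (nat_lit 4) (nat_lit 31) (nat_lit 5) (nat_lit 31) (nat_lit 4) (nat_lit 484) (nat_lit 414) (nat_lit 302)) (XT.lf (nat_lit 0) (nat_lit 11563489435) (nat_lit 152) (nat_lit 21211488923) (nat_lit 76) (nat_lit 38122160363) (nat_lit 29) (nat_lit 5) (nat_lit 31) (nat_lit 5) (nat_lit 30) (nat_lit 4) (nat_lit 485) (nat_lit 414) (nat_lit 301))) (XT.nd (nat_lit 78) (nat_lit 0) (nat_lit 0) (XT.lf (nat_lit 0) (nat_lit 14245260478) (nat_lit 76) (nat_lit 14618428999) (nat_lit 152) (nat_lit 44633728772) (nat_lit 28) (nat_lit 5) (nat_lit 29) (nat_lit 5) (nat_lit 30) (nat_lit 4) (nat_lit 486) (nat_lit 414) (nat_lit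 300)) (XT.lf (nat_lit 0) (nat_lit 47456158653) (nat_lit 152) (nat_lit 24087890204) (nat_lit 0) (nat_lit 4662300348) (nat_lit 28) (nat_lit 5) (nat_lit 30) (nat_lit 4) (nat_lit 28) (nat_lit 4) (nat_lit 487) (nat_lit 414) (nat_lit 299))))) (XT.nd (nat_lit 234) (nat_lit 152) (nat_lit 0) (XT.nd (nat_lit 78) (nat_lit 152) (nat_lit 0) (XT.lf (nat_lit 0) (nat_lit 12997518044) (nat_lit 76) (nat_lit 54416383145) (nat_lit 76) (nat_lit 11615043415) (nat_lit 27) (nat_lit 4) (nat_lit 28) (nat_lit 5) (nat_lit 28) (nat_lit 4) (nat_lit 488) (nat_lit 414) (nat_lit 298)) (XT.nd (nat_lit 78) (nat_lit 76) (nat_lit 0) (XT.lf (nat_lit 0) (nat_lit 6580476767) (nat_lit 152) (nat_lit 29318487522) (nat_lit 76) (nat_lit 46068342049) (nat_lit 26) (nat_lit 5) (nat_lit 28) (nat_lit 5) (nat_lit 27) (nat_lit 4) (nat_lit 489) (nat_lit 414) (nat_lit 297)) (XT.lf (nat_lit 0) (nat_lit 9325357208) (nat_lit 76) (nat_lit 16109085706)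 (nat_lit 152) (nat_lit 59601672475) (nat_lit 25) (nat_lit 5) (nat_lit 26) (nat_lit 5) (nat_lit 27) (nat_lit 4) (nat_lit 490) (nat_lit 414) (nat_lit 296)))) (XT.nd (nat_lit 156) (nat_lit 76) (nat_lit 0) (XT.nd (nat_lit 78) (nat_lit 76) (nat_lit 0) (XT.lf (nat_lit 0) (nat_lit 45802123945) (nat_lit 152) (nat_lit 37408150781) (nat_lit 0) (nat_lit 5019539657) (nat_lit 25) (nat_lit 5) (nat_lit 27) (nat_lit 4) (nat_lit 25) (nat_lit 4) (nat_lit 491) (nat_lit 414) (nat_lit 295)) (XT.lf (nat_lit 0) (nat_lit 2617054363) (nat_lit 76) (nat_lit 64869827894) (nat_lit 76) (nat_lit 24081381714) (nat_lit 24) (nat_lit 4) (nat_lit 25) (nat_lit 5) (nat_lit 25) (nat_lit 4) (nat_lit 492) (nat_lit 414) (nat_lit 294))) (XT.nd (nat_lit 78) (nat_lit 76) (nat_lit 0) (XT.lf (nat_lit 0) (nat_lit 45930231913) (nat_lit 76) (nat_lit 44953032039) (nat_lit 76) (nat_lit 4159003105) (nat_lit 24) (nat_lit 4) (nat_lit 25) (nat_lit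 5) (nat_lit 25) (nat_lit 4) (nat_lit 493) (nat_lit 414) (nat_lit 293)) (XT.lf (nat_lit 0) (nat_lit 16217142518) (nat_lit 152) (nat_lit 7554203679) (nat_lit 76) (nat_lit 74905838400) (nat_lit 23) (nat_lit 5) (nat_lit 25) (nat_lit 5) (nat_lit 24) (nat_lit 4) (nat_lit 494) (nat_lit 414) (nat_lit 292))))))))
noncomputable def xc129 : XT := (XT.nd (nat_lit 2184) (nat_lit 380) (nat_lit 0) (XT.nd (nat_lit 1092) (nat_lit 456) (nat_lit 0) (XT.nd (nat_lit 546) (nat_lit 304) (nat_lit 0) (XT.nd (nat_lit 234) (nat_lit 152) (nat_lit 0) (XT.nd (nat_lit 78) (nat_lit 76) (nat_lit 0) (XT.lf (nat_lit 0) (nat_lit 37192651288) (nat_lit 76) (nat_lit 854695468) (nat_lit 152) (nat_lit 64414341434) (nat_lit 22) (nat_lit 5) (nat_lit 23) (nat_lit 5) (nat_lit 24) (nat_lit 4) (nat_lit 495) (nat_lit 414) (nat_lit 291)) (XT.nd (nat_lit 78) (nat_lit 76) (nat_lit 0) (XT.lf (nat_lit 0) (nat_lit 61455786603) (nat_lit 152) (nat_lit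 22365443113) (nat_lit 0) (nat_lit 22589851216) (nat_lit 22) (nat_lit 5) (nat_lit 24) (nat_lit 4) (nat_lit 22) (nat_lit 4) (nat_lit 496) (nat_lit 414) (nat_lit 290)) (XT.lf (nat_lit 0) (nat_lit 23407947206) (nat_lit 76) (nat_lit 63000800496) (nat_lit 76) (nat_lit 24130490875) (nat_lit 21) (nat_lit 4) (nat_lit 22) (nat_lit 5) (nat_lit 22) (nat_lit 4) (nat_lit 497) (nat_lit 414) (nat_lit 289)))) (XT.nd (nat_lit 156) (nat_lit 0) (nat_lit 0) (XT.nd (nat_lit 78) (nat_lit 152) (nat_lit 0) (XT.lf (nat_lit 0) (nat_lit 72236082993) (nat_lit 76) (nat_lit 40746761258) (nat_lit 76) (nat_lit 1872285700) (nat_lit 21) (nat_lit 4) (nat_lit 22) (nat_lit 5) (nat_lit 22) (nat_lit 4) (nat_lit 498) (nat_lit 414) (nat_lit 288)) (XT.lf (nat_lit 0) (nat_lit 3897831979) (nat_lit 76) (nat_lit 16968643677) (nat_lit 152) (nat_lit 98500770448) (nat_lit 19) (nat_lit 5) (nat_lit 20) (nat_lit 5) (nat_lit 21) (nat_lit 4) (nat_lit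 499) (nat_lit 414) (nat_lit 287))) (XT.nd (nat_lit 78) (nat_lit 0) (nat_lit 0) (XT.lf (nat_lit 0) (nat_lit 45532636727) (nat_lit 152) (nat_lit 70026178376) (nat_lit 0) (nat_lit 8501949352) (nat_lit 19) (nat_lit 5) (nat_lit 21) (nat_lit 4) (nat_lit 19) (nat_lit 4) (nat_lit 500) (nat_lit 414) (nat_lit 286)) (XT.lf (nat_lit 0) (nat_lit 71705422293) (nat_lit 152) (nat_lit 22598563194) (nat_lit 0) (nat_lit 34671307591) (nat_lit 19) (nat_lit 5) (nat_lit 21) (nat_lit 4) (nat_lit 19) (nat_lit 4) (nat_lit 501) (nat_lit 414) (nat_lit 285))))) (XT.nd (nat_lit 234) (nat_lit 152) (nat_lit 0) (XT.nd (nat_lit 78) (nat_lit 76) (nat_lit 0) (XT.lf (nat_lit 0) (nat_lit 28090348989) (nat_lit 76) (nat_lit 71530440510) (nat_lit 76) (nat_lit 34493061688) (nat_lit 18) (nat_lit 4) (nat_lit 19) (nat_lit 5) (nat_lit 19) (nat_lit 4) (nat_lit 502) (nat_lit 414) (nat_lit 284)) (XT.nd (nat_lit 78) (nat_lit 76) (nat_lit 0)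 (XT.lf (nat_lit 0) (nat_lit 82089275102) (nat_lit 76) (nat_lit 47220820618) (nat_lit 76) (nat_lit 10180333109) (nat_lit 18) (nat_lit 4) (nat_lit 19) (nat_lit 5) (nat_lit 19) (nat_lit 4) (nat_lit 503) (nat_lit 414) (nat_lit 283)) (XT.lf (nat_lit 0) (nat_lit 14852397460) (nat_lit 152) (nat_lit 6596033368) (nat_lit 76) (nat_lit 123675643461) (nat_lit 17) (nat_lit 5) (nat_lit 19) (nat_lit 5) (nat_lit 18) (nat_lit 4) (nat_lit 504) (nat_lit 414) (nat_lit 282)))) (XT.nd (nat_lit 156) (nat_lit 76) (nat_lit 0) (XT.nd (nat_lit 78) (nat_lit 0) (nat_lit 0) (XT.lf (nat_lit 0) (nat_lit 41644257045) (nat_lit 152) (nat_lit 102982222455) (nat_lit 0) (nat_lit 6362097205) (nat_lit 16) (nat_lit 5) (nat_lit 18) (nat_lit 4) (nat_lit 16) (nat_lit 4) (nat_lit 505) (nat_lit 414) (nat_lit 281)) (XT.lf (nat_lit 0) (nat_lit 70236678350) (nat_lit 152) (nat_lit 51934616601) (nat_lit 0) (nat_lit 34951960986) (nat_lit 16)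 (nat_lit 5) (nat_lit 18) (nat_lit 4) (nat_lit 16) (nat_lit 4) (nat_lit 506) (nat_lit 414) (nat_lit 280))) (XT.nd (nat_lit 78) (nat_lit 0) (nat_lit 0) (XT.lf (nat_lit 0) (nat_lit 1712254810) (nat_lit 76) (nat_lit 98569215046) (nat_lit 76) (nat_lit 63282061944) (nat_lit 15) (nat_lit 4) (nat_lit 16) (nat_lit 5) (nat_lit 16) (nat_lit 4) (nat_lit 507) (nat_lit 414) (nat_lit 279)) (XT.lf (nat_lit 0) (nat_lit 59836732530) (nat_lit 76) (nat_lit 72867390400) (nat_lit 76) (nat_lit 37577917549) (nat_lit 15) (nat_lit 4) (nat_lit 16) (nat_lit 5) (nat_lit 16) (nat_lit 4) (nat_lit 508) (nat_lit 414) (nat_lit 278)))))) (XT.nd (nat_lit 546) (nat_lit 228) (nat_lit 0) (XT.nd (nat_lit 234) (nat_lit 76) (nat_lit 0) (XT.nd (nat_lit 78) (nat_lit 152) (nat_lit 0) (XT.lf (nat_lit 0) (nat_lit 120860015203) (nat_lit 76) (nat_lit 45884164054) (nat_lit 76) (nat_lit 10592481918) (nat_lit 15) (nat_lit 4) (nat_lit 16) (nat_lit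 5) (nat_lit 16) (nat_lit 4) (nat_lit 509) (nat_lit 414) (nat_lit 277)) (XT.nd (nat_lit 78) (nat_lit 76) (nat_lit 0) (XT.lf (nat_lit 0) (nat_lit 17170753333) (nat_lit 152) (nat_lit 93741882) (nat_lit 76) (nat_lit 167465848010) (nat_lit 14) (nat_lit 5) (nat_lit 16) (nat_lit 5) (nat_lit 15) (nat_lit 4) (nat_lit 510) (nat_lit 414) (nat_lit 276)) (XT.lf (nat_lit 0) (nat_lit 47131186321) (nat_lit 152) (nat_lit 131779442027) (nat_lit 0) (nat_lit 13516148126) (nat_lit 13) (nat_lit 5) (nat_lit 15) (nat_lit 4) (nat_lit 13) (nat_lit 4) (nat_lit 511) (nat_lit 414) (nat_lit 275)))) (XT.nd (nat_lit 156) (nat_lit 76) (nat_lit 0) (XT.nd (nat_lit 78) (nat_lit 0) (nat_lit 0) (XT.lf (nat_lit 0) (nat_lit 78870847090) (nat_lit 152) (nat_lit 76369132772) (nat_lit 0) (nat_lit 45253991311) (nat_lit 13) (nat_lit 5) (nat_lit 15) (nat_lit 4) (nat_lit 13) (nat_lit 4) (nat_lit 512) (nat_lit 414) (nat_lit 274)) (XT.lf (nat_lit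 0) (nat_lit 112194222355) (nat_lit 152) (nat_lit 18194831225) (nat_lit 0) (nat_lit 78575635543) (nat_lit 13) (nat_lit 5) (nat_lit 15) (nat_lit 4) (nat_lit 13) (nat_lit 4) (nat_lit 513) (nat_lit 414) (nat_lit 273))) (XT.nd (nat_lit 78) (nat_lit 0) (nat_lit 0) (XT.lf (nat_lit 0) (nat_lit 44299844539) (nat_lit 76) (nat_lit 103572453671) (nat_lit 76) (nat_lit 69952218257) (nat_lit 12) (nat_lit 4) (nat_lit 13) (nat_lit 5) (nat_lit 13) (nat_lit 4) (nat_lit 514) (nat_lit 414) (nat_lit 272)) (XT.lf (nat_lit 0) (nat_lit 110544825205) (nat_lit 76) (nat_lit 75094530828) (nat_lit 76) (nat_lit 41472725316) (nat_lit 12) (nat_lit 4) (nat_lit 13) (nat_lit 5) (nat_lit 13) (nat_lit 4) (nat_lit 515) (nat_lit 414) (nat_lit 271))))) (XT.nd (nat_lit 234) (nat_lit 76) (nat_lit 0) (XT.nd (nat_lit 78) (nat_lit 152) (nat_lit 0) (XT.lf (nat_lit 0) (nat_lit 180096233628) (nat_lit 76) (nat_lit 45195618744) (nat_lit 76)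 (nat_lit 11572317900) (nat_lit 12) (nat_lit 4) (nat_lit 13) (nat_lit 5) (nat_lit 13) (nat_lit 4) (nat_lit 516) (nat_lit 414) (nat_lit 270)) (XT.nd (nat_lit 78) (nat_lit 0) (nat_lit 0) (XT.lf (nat_lit 0) (nat_lit 5894890412) (nat_lit 76) (nat_lit 13382970748) (nat_lit 152) (nat_lit 227806067108) (nat_lit 10) (nat_lit 5) (nat_lit 11) (nat_lit 5) (nat_lit 12) (nat_lit 4) (nat_lit 517) (nat_lit 414) (nat_lit 269)) (XT.lf (nat_lit 0) (nat_lit 52568552839) (nat_lit 152) (nat_lit 184628576887) (nat_lit 0) (nat_lit 20543713527) (nat_lit 10) (nat_lit 5) (nat_lit 12) (nat_lit 4) (nat_lit 10) (nat_lit 4) (nat_lit 518) (nat_lit 414) (nat_lit 268)))) (XT.nd (nat_lit 156) (nat_lit 76) (nat_lit 0) (XT.nd (nat_lit 78) (nat_lit 0) (nat_lit 0) (XT.lf (nat_lit 0) (nat_lit 87740489474) (nat_lit 152) (nat_lit 125464859109) (nat_lit 0) (nat_lit 55714419949) (nat_lit 10) (nat_lit 5) (nat_lit 12) (nat_lit 4) (nat_lit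 10) (nat_lit 4) (nat_lit 519) (nat_lit 414) (nat_lit 267)) (XT.lf (nat_lit 0) (nat_lit 124668468093) (nat_lit 152) (nat_lit 63348072850) (nat_lit 0) (nat_lit 92641226937) (nat_lit 10) (nat_lit 5) (nat_lit 12) (nat_lit 4) (nat_lit 10) (nat_lit 4) (nat_lit 520) (nat_lit 414) (nat_lit 266))) (XT.nd (nat_lit 78) (nat_lit 0) (nat_lit 0) (XT.lf (nat_lit 0) (nat_lit 1931499032) (nat_lit 76) (nat_lit 161539069535) (nat_lit 76) (nat_lit 129510712540) (nat_lit 9) (nat_lit 4) (nat_lit 10) (nat_lit 5) (nat_lit 10) (nat_lit 4) (nat_lit 521) (nat_lit 414) (nat_lit 265)) (XT.lf (nat_lit 0) (nat_lit 72669556441) (nat_lit 76) (nat_lit 132613655701) (nat_lit 76) (nat_lit 100584236002) (nat_lit 9) (nat_lit 4) (nat_lit 10) (nat_lit 5) (nat_lit 10) (nat_lit 4) (nat_lit 522) (nat_lit 414) (nat_lit 264))))))) (XT.nd (nat_lit 1092) (nat_lit 152) (nat_lit 0) (XT.nd (nat_lit 546) (nat_lit 76) (nat_lit 0) (XT.nd (nat_lit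 234) (nat_lit 152) (nat_lit 0) (XT.nd (nat_lit 78) (nat_lit 0) (nat_lit 0) (XT.lf (nat_lit 0) (nat_lit 146939949947) (nat_lit 76) (nat_lit 102244259676) (nat_lit 76) (nat_lit 70213827878) (nat_lit 9) (nat_lit 4) (nat_lit 10) (nat_lit 5) (nat_lit 10) (nat_lit 4) (nat_lit 523) (nat_lit 414) (nat_lit 263)) (XT.nd (nat_lit 78) (nat_lit 0) (nat_lit 0) (XT.lf (nat_lit 0) (nat_lit 224919513820) (nat_lit 76) (nat_lit 70358573374) (nat_lit 76) (nat_lit 38327177672) (nat_lit 9) (nat_lit 4) (nat_lit 10) (nat_lit 5) (nat_lit 10) (nat_lit 4) (nat_lit 524) (nat_lit 414) (nat_lit 262)) (XT.lf (nat_lit 0) (nat_lit 306793913688) (nat_lit 76) (nat_lit 36880678493) (nat_lit 76) (nat_lit 4848364788) (nat_lit 9) (nat_lit 4) (nat_lit 10) (nat_lit 5) (nat_lit 10) (nat_lit 4) (nat_lit 525) (nat_lit 414) (nat_lit 261)))) (XT.nd (nat_lit 156) (nat_lit 0) (nat_lit 0) (XT.nd (nat_lit 78) (nat_lit 0) (nat_lit 0) (XT.lf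 (nat_lit 0) (nat_lit 29027410721) (nat_lit 76) (nat_lit 758247188) (nat_lit 152) (nat_lit 334354659047) (nat_lit 7) (nat_lit 5) (nat_lit 8) (nat_lit 5) (nat_lit 9) (nat_lit 4) (nat_lit 526) (nat_lit 414) (nat_lit 260)) (XT.lf (nat_lit 0) (nat_lit 67285066712) (nat_lit 152) (nat_lit 276408197496) (nat_lit 0) (nat_lit 36776475615) (nat_lit 7) (nat_lit 5) (nat_lit 9) (nat_lit 4) (nat_lit 7) (nat_lit 4) (nat_lit 527) (nat_lit 414) (nat_lit 259))) (XT.nd (nat_lit 78) (nat_lit 0) (nat_lit 0) (XT.lf (nat_lit 0) (nat_lit 106669973727) (nat_lit 152) (nat_lit 214784506371) (nat_lit 0) (nat_lit 76160627387) (nat_lit 7) (nat_lit 5) (nat_lit 9) (nat_lit 4) (nat_lit 7) (nat_lit 4) (nat_lit 528) (nat_lit 414) (nat_lit 258)) (XT.lf (nat_lit 0) (nat_lit 148022314179) (nat_lit 152) (nat_lit 150083271423) (nat_lit 0) (nat_lit 117512248559) (nat_lit 7) (nat_lit 5) (nat_lit 9) (nat_lit 4) (nat_lit 7) (nat_lit 4)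 (nat_lit 529) (nat_lit 414) (nat_lit 257))))) (XT.nd (nat_lit 234) (nat_lit 0) (nat_lit 0) (XT.nd (nat_lit 78) (nat_lit 76) (nat_lit 0) (XT.lf (nat_lit 0) (nat_lit 191440546023) (nat_lit 152) (nat_lit 82150442092) (nat_lit 0) (nat_lit 160929795374) (nat_lit 7) (nat_lit 5) (nat_lit 9) (nat_lit 4) (nat_lit 7) (nat_lit 4) (nat_lit 530) (nat_lit 414) (nat_lit 256)) (XT.nd (nat_lit 78) (nat_lit 76) (nat_lit 0) (XT.lf (nat_lit 0) (nat_lit 237028046000) (nat_lit 152) (nat_lit 10824273548) (nat_lit 0) (nat_lit 206516642943) (nat_lit 7) (nat_lit 5) (nat_lit 9) (nat_lit 4) (nat_lit 7) (nat_lit 4) (nat_lit 531) (nat_lit 414) (nat_lit 255)) (XT.lf (nat_lit 0) (nat_lit 66183338578) (nat_lit 76) (nat_lit 219743324592) (nat_lit 76) (nat_lit 189231300195) (nat_lit 6) (nat_lit 4) (nat_lit 7) (nat_lit 5) (nat_lit 7) (nat_lit 4) (nat_lit 532) (nat_lit 414) (nat_lit 254)))) (XT.nd (nat_lit 156) (nat_lit 0) (nat_lit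 0) (XT.nd (nat_lit 78) (nat_lit 0) (nat_lit 0) (XT.lf (nat_lit 0) (nat_lit 147414031371) (nat_lit 76) (nat_lit 190037955164) (nat_lit 76) (nat_lit 159525339013) (nat_lit 6) (nat_lit 4) (nat_lit 7) (nat_lit 5) (nat_lit 7) (nat_lit 4) (nat_lit 533) (nat_lit 414) (nat_lit 253)) (XT.lf (nat_lit 0) (nat_lit 232703311873) (nat_lit 76) (nat_lit 158848798502) (nat_lit 76) (nat_lit 128335618777) (nat_lit 6) (nat_lit 4) (nat_lit 7) (nat_lit 5) (nat_lit 7) (nat_lit 4) (nat_lit 534) (nat_lit 414) (nat_lit 252))) (XT.nd (nat_lit 78) (nat_lit 0) (nat_lit 0) (XT.lf (nat_lit 0) (nat_lit 322254249801) (nat_lit 76) (nat_lit 126101594711) (nat_lit 76) (nat_lit 95587878248) (nat_lit 6) (nat_lit 4) (nat_lit 7) (nat_lit 5) (nat_lit 7) (nat_lit 4) (nat_lit 535) (nat_lit 414) (nat_lit 251)) (XT.lf (nat_lit 0) (nat_lit 416280061672) (nat_lit 76) (nat_lit 91718374258) (nat_lit 76) (nat_lit 61204146616) (nat_lit 6) (nat_lit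 4) (nat_lit 7) (nat_lit 5) (nat_lit 7) (nat_lit 4) (nat_lit 536) (nat_lit 414) (nat_lit 250)))))) (XT.nd (nat_lit 52962) (nat_lit 0) (nat_lit 10032) (XT.nd (nat_lit 234) (nat_lit 0) (nat_lit 0) (XT.nd (nat_lit 78) (nat_lit 152) (nat_lit 0) (XT.lf (nat_lit 0) (nat_lit 515004618469) (nat_lit 76) (nat_lit 55617272332) (nat_lit 76) (nat_lit 25102557853) (nat_lit 6) (nat_lit 4) (nat_lit 7) (nat_lit 5) (nat_lit 7) (nat_lit 4) (nat_lit 537) (nat_lit 414) (nat_lit 249)) (XT.nd (nat_lit 78) (nat_lit 76) (nat_lit 0) (XT.lf (nat_lit 0) (nat_lit 12393073234) (nat_lit 152) (nat_lit 5109378001) (nat_lit 76) (nat_lit 606060022732) (nat_lit 5) (nat_lit 5) (nat_lit 7) (nat_lit 5) (nat_lit 6) (nat_lit 4) (nat_lit 538) (nat_lit 414) (nat_lit 248)) (XT.lf (nat_lit 0) (nat_lit 52487953069) (nat_lit 152) (nat_lit 576780009636) (nat_lit 0) (nat_lit 23425458109) (nat_lit 4) (nat_lit 5) (nat_lit 6) (nat_lit 4) (nat_lit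 4) (nat_lit 4) (nat_lit 539) (nat_lit 414) (nat_lit 247)))) (XT.nd (nat_lit 156) (nat_lit 0) (nat_lit 0) (XT.nd (nat_lit 78) (nat_lit 0) (nat_lit 0) (XT.lf (nat_lit 0) (nat_lit 94961284760) (nat_lit 152) (nat_lit 522402555595) (nat_lit 0) (nat_lit 65898389277) (nat_lit 4) (nat_lit 5) (nat_lit 6) (nat_lit 4) (nat_lit 4) (nat_lit 4) (nat_lit 540) (nat_lit 414) (nat_lit 246)) (XT.lf (nat_lit 0) (nat_lit 139557172676) (nat_lit 152) (nat_lit 465308466007) (nat_lit 0) (nat_lit 110493895744) (nat_lit 4) (nat_lit 5) (nat_lit 6) (nat_lit 4) (nat_lit 4) (nat_lit 4) (nat_lit 541) (nat_lit 414) (nat_lit 245))) (XT.nd (nat_lit 78) (nat_lit 0) (nat_lit 0) (XT.lf (nat_lit 0) (nat_lit 186381797504) (nat_lit 152) (nat_lit 405361802565) (nat_lit 0) (nat_lit 157318157287) (nat_lit 4) (nat_lit 5) (nat_lit 6) (nat_lit 4) (nat_lit 4) (nat_lit 4) (nat_lit 542) (nat_lit 414) (nat_lit 244)) (XT.lf (nat_lit 0) (nat_lit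 235546646446) (nat_lit 152) (nat_lit 342419835117) (nat_lit 0) (nat_lit 206482660242) (nat_lit 4) (nat_lit 5) (nat_lit 6) (nat_lit 4) (nat_lit 4) (nat_lit 4) (nat_lit 543) (nat_lit 414) (nat_lit 243))))) (XT.nd (nat_lit 312) (nat_lit 0) (nat_lit 76) (XT.nd (nat_lit 156) (nat_lit 0) (nat_lit 0) (XT.nd (nat_lit 78) (nat_lit 684) (nat_lit 0) (XT.lf (nat_lit 0) (nat_lit 4138075571) (nat_lit 684) (nat_lit 196545047) (nat_lit 684) (nat_lit 196545047) (nat_lit 145) (nat_lit 3) (nat_lit 154) (nat_lit 3) (nat_lit 154) (nat_lit 5) (nat_lit 415) (nat_lit 415) (nat_lit 370)) (XT.lf (nat_lit 0) (nat_lit 154094810) (nat_lit 684) (nat_lit 5056851971) (nat_lit 760) (nat_lit 4031498677) (nat_lit 136) (nat_lit 5) (nat_lit 145) (nat_lit 3) (nat_lit 146) (nat_lit 5) (nat_lit 416) (nat_lit 415) (nat_lit 369))) (XT.nd (nat_lit 78) (nat_lit 0) (nat_lit 76) (XT.lf (nat_lit 0) (nat_lit 1065716626) (nat_lit 684) (nat_lit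 468884682) (nat_lit 760) (nat_lit 7898805331) (nat_lit 136) (nat_lit 5) (nat_lit 145) (nat_lit 3) (nat_lit 146) (nat_lit 5) (nat_lit 417) (nat_lit 415) (nat_lit 368)) (XT.lf (nat_lit 0) (nat_lit 2077041736) (nat_lit 684) (nat_lit 5209681194) (nat_lit 760) (nat_lit 2344509170) (nat_lit 137) (nat_lit 5) (nat_lit 146) (nat_lit 5) (nat_lit 147) (nat_lit 5) (nat_lit 418) (nat_lit 415) (nat_lit 367)))) (XT.nd (nat_lit 156) (nat_lit 0) (nat_lit 76) (XT.nd (nat_lit 78) (nat_lit 0) (nat_lit 76) (XT.lf (nat_lit 0) (nat_lit 3121234895) (nat_lit 684) (nat_lit 323505079) (nat_lit 760) (nat_lit 6395115042) (nat_lit 137) (nat_lit 5) (nat_lit 146) (nat_lit 5) (nat_lit 147) (nat_lit 5) (nat_lit 419) (nat_lit 415) (nat_lit 366)) (XT.lf (nat_lit 0) (nat_lit 4256908466) (nat_lit 684) (nat_lit 5134250426) (nat_lit 760) (nat_lit 665806904) (nat_lit 138) (nat_lit 5) (nat_lit 147) (nat_lit 5) (nat_lit 148) (nat_lit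 5) (nat_lit 420) (nat_lit 415) (nat_lit 365))) (XT.nd (nat_lit 78) (nat_lit 0) (nat_lit 0) (XT.lf (nat_lit 76) (nat_lit 70500323) (nat_lit 0) (nat_lit 5395592941) (nat_lit 760) (nat_lit 4818021766) (nat_lit 139) (nat_lit 5) (nat_lit 138) (nat_lit 5) (nat_lit 148) (nat_lit 5) (nat_lit 421) (nat_lit 415) (nat_lit 364)) (XT.lf (nat_lit 76) (nat_lit 5681255503) (nat_lit 0) (nat_lit 1096722969) (nat_lit 760) (nat_lit 3742549569) (nat_lit 139) (nat_lit 5) (nat_lit 138) (nat_lit 5) (nat_lit 148) (nat_lit 5) (nat_lit 422) (nat_lit 415) (nat_lit 363))))))))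
noncomputable def xc130 : XT := (XT.nd (nat_lit 2184) (nat_lit 2660) (nat_lit 0) (XT.nd (nat_lit 1092) (nat_lit 2052) (nat_lit 0) (XT.nd (nat_lit 546) (nat_lit 1444) (nat_lit 0) (XT.nd (nat_lit 234) (nat_lit 1140) (nat_lit 0) (XT.nd (nat_lit 78) (nat_lit 684) (nat_lit 0) (XT.lf (nat_lit 76) (nat_lit 740885085) (nat_lit 0) (nat_lit 7437091511) (nat_lit 760) (nat_lit 2589676673) (nat_lit 140) (nat_lit 5) (nat_lit 139) (nat_lit 5) (nat_lit 149) (nat_lit 5) (nat_lit 423) (nat_lit 415) (nat_lit 362)) (XT.nd (nat_lit 78) (nat_lit 684) (nat_lit 0) (XT.lf (nat_lit 76) (nat_lit 6716757949) (nat_lit 0) (nat_lit 2989970212) (nat_lit 760) (nat_lit 1317485586) (nat_lit 140) (nat_lit 5) (nat_lit 139) (nat_lit 5) (nat_lit 149) (nat_lit 5) (nat_lit 424) (nat_lit 415) (nat_lit 361)) (XT.lf (nat_lit 0) (nat_lit 31764487) (nat_lit 760) (nat_lit 9600921404) (nat_lit 76) (nat_lit 1660215395) (nat_lit 130) (nat_lit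 5) (nat_lit 140) (nat_lit 5) (nat_lit 131) (nat_lit 5) (nat_lit 425) (nat_lit 415) (nat_lit 360)))) (XT.nd (nat_lit 156) (nat_lit 380) (nat_lit 0) (XT.nd (nat_lit 78) (nat_lit 760) (nat_lit 0) (XT.lf (nat_lit 0) (nat_lit 1489247891) (nat_lit 760) (nat_lit 3536245144) (nat_lit 76) (nat_lit 6544212307) (nat_lit 130) (nat_lit 5) (nat_lit 140) (nat_lit 5) (nat_lit 131) (nat_lit 5) (nat_lit 426) (nat_lit 415) (nat_lit 359)) (XT.lf (nat_lit 0) (nat_lit 2891848858) (nat_lit 760) (nat_lit 136607756) (nat_lit 836) (nat_lit 8831464142) (nat_lit 120) (nat_lit 5) (nat_lit 130) (nat_lit 5) (nat_lit 131) (nat_lit 5) (nat_lit 427) (nat_lit 415) (nat_lit 358))) (XT.nd (nat_lit 78) (nat_lit 380) (nat_lit 0) (XT.lf (nat_lit 0) (nat_lit 4748491120) (nat_lit 836) (nat_lit 2510196926) (nat_lit 76) (nat_lit 4900778683) (nat_lit 120) (nat_lit 5) (nat_lit 131) (nat_lit 5) (nat_lit 121) (nat_lit 5) (nat_lit 428) (nat_lit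 415) (nat_lit 357)) (XT.lf (nat_lit 0) (nat_lit 4376337901) (nat_lit 380) (nat_lit 2215406034) (nat_lit 456) (nat_lit 5880397674) (nat_lit 115) (nat_lit 5) (nat_lit 120) (nat_lit 5) (nat_lit 121) (nat_lit 5) (nat_lit 429) (nat_lit 415) (nat_lit 356))))) (XT.nd (nat_lit 234) (nat_lit 684) (nat_lit 0) (XT.nd (nat_lit 78) (nat_lit 760) (nat_lit 0) (XT.lf (nat_lit 0) (nat_lit 8586212547) (nat_lit 456) (nat_lit 1185944775) (nat_lit 76) (nat_lit 3025352096) (nat_lit 115) (nat_lit 5) (nat_lit 121) (nat_lit 5) (nat_lit 116) (nat_lit 5) (nat_lit 430) (nat_lit 415) (nat_lit 355)) (XT.nd (nat_lit 78) (nat_lit 380) (nat_lit 0) (XT.lf (nat_lit 0) (nat_lit 6199922363) (nat_lit 380) (nat_lit 4582890703) (nat_lit 456) (nat_lit 2351223410) (nat_lit 110) (nat_lit 5) (nat_lit 115) (nat_lit 5) (nat_lit 116) (nat_lit 5) (nat_lit 431) (nat_lit 415) (nat_lit 354)) (XT.lf (nat_lit 0) (nat_lit 478777827) (nat_lit 380)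 (nat_lit 12622120570) (nat_lit 456) (nat_lit 385919492) (nat_lit 105) (nat_lit 5) (nat_lit 110) (nat_lit 5) (nat_lit 111) (nat_lit 5) (nat_lit 432) (nat_lit 415) (nat_lit 353)))) (XT.nd (nat_lit 156) (nat_lit 304) (nat_lit 0) (XT.nd (nat_lit 78) (nat_lit 304) (nat_lit 0) (XT.lf (nat_lit 0) (nat_lit 1789123014) (nat_lit 456) (nat_lit 5484585867) (nat_lit 76) (nat_lit 6573971161) (nat_lit 104) (nat_lit 5) (nat_lit 110) (nat_lit 5) (nat_lit 105) (nat_lit 5) (nat_lit 433) (nat_lit 415) (nat_lit 352)) (XT.lf (nat_lit 0) (nat_lit 2455867116) (nat_lit 304) (nat_lit 1614501786) (nat_lit 380) (nat_lit 10155388319) (nat_lit 100) (nat_lit 5) (nat_lit 104) (nat_lit 5) (nat_lit 105) (nat_lit 5) (nat_lit 434) (nat_lit 415) (nat_lit 351))) (XT.nd (nat_lit 78) (nat_lit 304) (nat_lit 0) (XT.lf (nat_lit 0) (nat_lit 6600514737) (nat_lit 380) (nat_lit 3735673986) (nat_lit 76) (nat_lit 4279816493) (nat_lit 100)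 (nat_lit 5) (nat_lit 105) (nat_lit 5) (nat_lit 101) (nat_lit 5) (nat_lit 435) (nat_lit 415) (nat_lit 350)) (XT.lf (nat_lit 0) (nat_lit 4796596810) (nat_lit 304) (nat_lit 4536082666) (nat_lit 380) (nat_lit 5689318970) (nat_lit 96) (nat_lit 5) (nat_lit 100) (nat_lit 5) (nat_lit 101) (nat_lit 5) (nat_lit 436) (nat_lit 415) (nat_lit 349)))))) (XT.nd (nat_lit 546) (nat_lit 988) (nat_lit 0) (XT.nd (nat_lit 234) (nat_lit 456) (nat_lit 0) (XT.nd (nat_lit 78) (nat_lit 608) (nat_lit 0) (XT.lf (nat_lit 0) (nat_lit 12264852676) (nat_lit 380) (nat_lit 1616649433) (nat_lit 76) (nat_lit 1563627234) (nat_lit 96) (nat_lit 5) (nat_lit 101) (nat_lit 5) (nat_lit 97) (nat_lit 5) (nat_lit 437) (nat_lit 415) (nat_lit 348)) (XT.nd (nat_lit 78) (nat_lit 380) (nat_lit 0) (XT.lf (nat_lit 0) (nat_lit 7560251932) (nat_lit 228) (nat_lit 7951814567) (nat_lit 304) (nat_lit 368936323) (nat_lit 93) (nat_lit 5) (nat_lit 96)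 (nat_lit 5) (nat_lit 97) (nat_lit 5) (nat_lit 438) (nat_lit 415) (nat_lit 347)) (XT.lf (nat_lit 0) (nat_lit 871739499) (nat_lit 304) (nat_lit 1646324636) (nat_lit 380) (nat_lit 13817708179) (nat_lit 88) (nat_lit 5) (nat_lit 92) (nat_lit 5) (nat_lit 93) (nat_lit 5) (nat_lit 439) (nat_lit 415) (nat_lit 346)))) (XT.nd (nat_lit 156) (nat_lit 228) (nat_lit 0) (XT.nd (nat_lit 78) (nat_lit 228) (nat_lit 0) (XT.lf (nat_lit 0) (nat_lit 5734791838) (nat_lit 380) (nat_lit 6110299759) (nat_lit 76) (nat_lit 4958004075) (nat_lit 88) (nat_lit 5) (nat_lit 93) (nat_lit 5) (nat_lit 89) (nat_lit 5) (nat_lit 440) (nat_lit 415) (nat_lit 345)) (XT.lf (nat_lit 0) (nat_lit 3775667201) (nat_lit 228) (nat_lit 5400612035) (nat_lit 304) (nat_lit 8114316078) (nat_lit 85) (nat_lit 5) (nat_lit 88) (nat_lit 5) (nat_lit 89) (nat_lit 5) (nat_lit 441) (nat_lit 415) (nat_lit 344))) (XT.nd (nat_lit 78) (nat_lit 228) (nat_lit 0)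 (XT.lf (nat_lit 0) (nat_lit 12894814696) (nat_lit 304) (nat_lit 3482049480) (nat_lit 76) (nat_lit 1420363061) (nat_lit 85) (nat_lit 5) (nat_lit 89) (nat_lit 5) (nat_lit 86) (nat_lit 5) (nat_lit 442) (nat_lit 415) (nat_lit 343)) (XT.lf (nat_lit 0) (nat_lit 7164881334) (nat_lit 228) (nat_lit 9814287318) (nat_lit 304) (nat_lit 1341033215) (nat_lit 82) (nat_lit 5) (nat_lit 85) (nat_lit 5) (nat_lit 86) (nat_lit 5) (nat_lit 443) (nat_lit 415) (nat_lit 342))))) (XT.nd (nat_lit 234) (nat_lit 456) (nat_lit 0) (XT.nd (nat_lit 78) (nat_lit 456) (nat_lit 0) (XT.lf (nat_lit 0) (nat_lit 2361288986) (nat_lit 304) (nat_lit 468338540) (nat_lit 76) (nat_lit 16035848660) (nat_lit 81) (nat_lit 5) (nat_lit 85) (nat_lit 5) (nat_lit 82) (nat_lit 5) (nat_lit 444) (nat_lit 415) (nat_lit 341)) (XT.nd (nat_lit 78) (nat_lit 228) (nat_lit 0) (XT.lf (nat_lit 0) (nat_lit 6430360560) (nat_lit 304) (nat_lit 8444957336) (nat_lit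 76) (nat_lit 4550267003) (nat_lit 78) (nat_lit 5) (nat_lit 82) (nat_lit 5) (nat_lit 79) (nat_lit 5) (nat_lit 445) (nat_lit 415) (nat_lit 340)) (XT.lf (nat_lit 0) (nat_lit 3027771913) (nat_lit 228) (nat_lit 7757880421) (nat_lit 304) (nat_lit 9223913068) (nat_lit 75) (nat_lit 5) (nat_lit 78) (nat_lit 5) (nat_lit 79) (nat_lit 5) (nat_lit 446) (nat_lit 415) (nat_lit 339)))) (XT.nd (nat_lit 156) (nat_lit 304) (nat_lit 0) (XT.nd (nat_lit 78) (nat_lit 152) (nat_lit 0) (XT.lf (nat_lit 0) (nat_lit 15340155423) (nat_lit 228) (nat_lit 143096781) (nat_lit 304) (nat_lit 5133270015) (nat_lit 75) (nat_lit 5) (nat_lit 78) (nat_lit 5) (nat_lit 79) (nat_lit 5) (nat_lit 447) (nat_lit 415) (nat_lit 338)) (XT.lf (nat_lit 0) (nat_lit 7092091166) (nat_lit 152) (nat_lit 13539241267) (nat_lit 228) (nat_lit 611718677) (nat_lit 73) (nat_lit 5) (nat_lit 75) (nat_lit 5) (nat_lit 76) (nat_lit 5) (nat_lit 448) (nat_lit 415)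 (nat_lit 337))) (XT.nd (nat_lit 78) (nat_lit 228) (nat_lit 0) (XT.lf (nat_lit 0) (nat_lit 4079125986) (nat_lit 228) (nat_lit 1729455260) (nat_lit 76) (nat_lit 16085320863) (nat_lit 72) (nat_lit 5) (nat_lit 75) (nat_lit 5) (nat_lit 73) (nat_lit 5) (nat_lit 449) (nat_lit 415) (nat_lit 336)) (XT.lf (nat_lit 0) (nat_lit 9188164088) (nat_lit 304) (nat_lit 10957121807) (nat_lit 76) (nat_lit 2421301577) (nat_lit 69) (nat_lit 5) (nat_lit 73) (nat_lit 5) (nat_lit 70) (nat_lit 5) (nat_lit 450) (nat_lit 415) (nat_lit 335))))))) (XT.nd (nat_lit 1092) (nat_lit 1216) (nat_lit 0) (XT.nd (nat_lit 546) (nat_lit 684) (nat_lit 0) (XT.nd (nat_lit 234) (nat_lit 380) (nat_lit 0) (XT.nd (nat_lit 78) (nat_lit 228) (nat_lit 0) (XT.lf (nat_lit 0) (nat_lit 2357913253) (nat_lit 152) (nat_lit 12340074052) (nat_lit 228) (nat_lit 8567656635) (nat_lit 67) (nat_lit 5) (nat_lit 69) (nat_lit 5) (nat_lit 70) (nat_lit 5) (nat_lit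 451) (nat_lit 415) (nat_lit 334)) (XT.nd (nat_lit 78) (nat_lit 228) (nat_lit 0) (XT.lf (nat_lit 0) (nat_lit 16693737802) (nat_lit 152) (nat_lit 3959043985) (nat_lit 228) (nat_lit 3338400771) (nat_lit 67) (nat_lit 5) (nat_lit 69) (nat_lit 5) (nat_lit 70) (nat_lit 5) (nat_lit 452) (nat_lit 415) (nat_lit 333)) (XT.lf (nat_lit 0) (nat_lit 2257538526) (nat_lit 228) (nat_lit 17659953408) (nat_lit 76) (nat_lit 4825123596) (nat_lit 64) (nat_lit 5) (nat_lit 67) (nat_lit 5) (nat_lit 65) (nat_lit 5) (nat_lit 453) (nat_lit 415) (nat_lit 332)))) (XT.nd (nat_lit 156) (nat_lit 228) (nat_lit 0) (XT.nd (nat_lit 78) (nat_lit 152) (nat_lit 0) (XT.lf (nat_lit 0) (nat_lit 8196245241) (nat_lit 228) (nat_lit 3236874327) (nat_lit 76) (nat_lit 14087008934) (nat_lit 64) (nat_lit 5) (nat_lit 67) (nat_lit 5) (nat_lit 65) (nat_lit 5) (nat_lit 454) (nat_lit 415) (nat_lit 331)) (XT.lf (nat_lit 0) (nat_lit 12276569035) (nat_lit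 152) (nat_lit 2332369423) (nat_lit 228) (nat_lit 11718728849) (nat_lit 62) (nat_lit 5) (nat_lit 64) (nat_lit 5) (nat_lit 65) (nat_lit 5) (nat_lit 455) (nat_lit 415) (nat_lit 330))) (XT.nd (nat_lit 78) (nat_lit 76) (nat_lit 0) (XT.lf (nat_lit 0) (nat_lit 1412853212) (nat_lit 152) (nat_lit 20105536410) (nat_lit 228) (nat_lit 5648389874) (nat_lit 60) (nat_lit 5) (nat_lit 62) (nat_lit 5) (nat_lit 63) (nat_lit 5) (nat_lit 456) (nat_lit 415) (nat_lit 329)) (XT.lf (nat_lit 0) (nat_lit 968001672) (nat_lit 228) (nat_lit 9975588483) (nat_lit 76) (nat_lit 17090405427) (nat_lit 59) (nat_lit 5) (nat_lit 62) (nat_lit 5) (nat_lit 60) (nat_lit 5) (nat_lit 457) (nat_lit 415) (nat_lit 328))))) (XT.nd (nat_lit 234) (nat_lit 380) (nat_lit 0) (XT.nd (nat_lit 78) (nat_lit 152) (nat_lit 0) (XT.lf (nat_lit 0) (nat_lit 6690344527) (nat_lit 152) (nat_lit 1125839725) (nat_lit 228) (nat_lit 21119220926) (nat_lit 57) (nat_lit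 5) (nat_lit 59) (nat_lit 5) (nat_lit 60) (nat_lit 5) (nat_lit 458) (nat_lit 415) (nat_lit 327)) (XT.nd (nat_lit 78) (nat_lit 152) (nat_lit 0) (XT.lf (nat_lit 0) (nat_lit 15308352366) (nat_lit 228) (nat_lit 5506689787) (nat_lit 76) (nat_lit 9051766428) (nat_lit 57) (nat_lit 5) (nat_lit 60) (nat_lit 5) (nat_lit 58) (nat_lit 5) (nat_lit 459) (nat_lit 415) (nat_lit 326)) (XT.lf (nat_lit 0) (nat_lit 12425929675) (nat_lit 152) (nat_lit 10948798461) (nat_lit 228) (nat_lit 7460076101) (nat_lit 55) (nat_lit 5) (nat_lit 57) (nat_lit 5) (nat_lit 58) (nat_lit 5) (nat_lit 460) (nat_lit 415) (nat_lit 325)))) (XT.nd (nat_lit 156) (nat_lit 152) (nat_lit 0) (XT.nd (nat_lit 78) (nat_lit 152) (nat_lit 0) (XT.lf (nat_lit 0) (nat_lit 75433975) (nat_lit 228) (nat_lit 423592027) (nat_lit 76) (nat_lit 31348081117) (nat_lit 54) (nat_lit 5) (nat_lit 57) (nat_lit 5) (nat_lit 55) (nat_lit 5) (nat_lit 461) (nat_lit 415)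 (nat_lit 324)) (XT.lf (nat_lit 0) (nat_lit 8190503057) (nat_lit 228) (nat_lit 14136597285) (nat_lit 76) (nat_lit 10554137202) (nat_lit 52) (nat_lit 5) (nat_lit 55) (nat_lit 5) (nat_lit 53) (nat_lit 5) (nat_lit 462) (nat_lit 415) (nat_lit 323))) (XT.nd (nat_lit 78) (nat_lit 0) (nat_lit 0) (XT.lf (nat_lit 0) (nat_lit 5051589005) (nat_lit 152) (nat_lit 11742017024) (nat_lit 228) (nat_lit 17169356123) (nat_lit 50) (nat_lit 5) (nat_lit 52) (nat_lit 5) (nat_lit 53) (nat_lit 5) (nat_lit 463) (nat_lit 415) (nat_lit 322)) (XT.lf (nat_lit 0) (nat_lit 25669245630) (nat_lit 152) (nat_lit 385218208) (nat_lit 228) (nat_lit 9032930771) (nat_lit 50) (nat_lit 5) (nat_lit 52) (nat_lit 5) (nat_lit 53) (nat_lit 5) (nat_lit 464) (nat_lit 415) (nat_lit 321)))))) (XT.nd (nat_lit 546) (nat_lit 608) (nat_lit 0) (XT.nd (nat_lit 234) (nat_lit 304) (nat_lit 0) (XT.nd (nat_lit 78) (nat_lit 228) (nat_lit 0) (XT.lf (nat_lit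 0) (nat_lit 11208129966) (nat_lit 76) (nat_lit 24914006935) (nat_lit 152) (nat_lit 128724696) (nat_lit 49) (nat_lit 5) (nat_lit 50) (nat_lit 5) (nat_lit 51) (nat_lit 4) (nat_lit 465) (nat_lit 415) (nat_lit 320)) (XT.nd (nat_lit 78) (nat_lit 152) (nat_lit 0) (XT.lf (nat_lit 0) (nat_lit 9082669920) (nat_lit 152) (nat_lit 4444942424) (nat_lit 76) (nat_lit 23929838033) (nat_lit 48) (nat_lit 5) (nat_lit 50) (nat_lit 5) (nat_lit 49) (nat_lit 5) (nat_lit 466) (nat_lit 415) (nat_lit 319)) (XT.lf (nat_lit 0) (nat_lit 17728796686) (nat_lit 152) (nat_lit 1287514668) (nat_lit 228) (nat_lit 19694652896) (nat_lit 46) (nat_lit 5) (nat_lit 48) (nat_lit 5) (nat_lit 49) (nat_lit 5) (nat_lit 467) (nat_lit 415) (nat_lit 318)))) (XT.nd (nat_lit 156) (nat_lit 228) (nat_lit 0) (XT.nd (nat_lit 78) (nat_lit 0) (nat_lit 0) (XT.lf (nat_lit 0) (nat_lit 972125476) (nat_lit 76) (nat_lit 28736048110) (nat_lit 152) (nat_lit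 10305904548) (nat_lit 45) (nat_lit 5) (nat_lit 46) (nat_lit 5) (nat_lit 47) (nat_lit 4) (nat_lit 468) (nat_lit 415) (nat_lit 317)) (XT.lf (nat_lit 0) (nat_lit 24711743968) (nat_lit 76) (nat_lit 16588501244) (nat_lit 152) (nat_lit 63822884) (nat_lit 45) (nat_lit 5) (nat_lit 46) (nat_lit 5) (nat_lit 47) (nat_lit 4) (nat_lit 469) (nat_lit 415) (nat_lit 316))) (XT.nd (nat_lit 78) (nat_lit 0) (nat_lit 0) (XT.lf (nat_lit 0) (nat_lit 6891997884) (nat_lit 152) (nat_lit 3553651509) (nat_lit 228) (nat_lit 32322691673) (nat_lit 42) (nat_lit 5) (nat_lit 44) (nat_lit 5) (nat_lit 45) (nat_lit 5) (nat_lit 470) (nat_lit 415) (nat_lit 315)) (XT.lf (nat_lit 0) (nat_lit 21913205722) (nat_lit 228) (nat_lit 12219474177) (nat_lit 76) (nat_lit 10088358741) (nat_lit 42) (nat_lit 5) (nat_lit 45) (nat_lit 5) (nat_lit 43) (nat_lit 4) (nat_lit 471) (nat_lit 415) (nat_lit 314))))) (XT.nd (nat_lit 312) (nat_lit 304) (nat_lit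 0) (XT.nd (nat_lit 156) (nat_lit 228) (nat_lit 0) (XT.nd (nat_lit 78) (nat_lit 0) (nat_lit 0) (XT.lf (nat_lit 0) (nat_lit 12959095335) (nat_lit 76) (nat_lit 21246022561) (nat_lit 152) (nat_lit 11528705279) (nat_lit 41) (nat_lit 5) (nat_lit 42) (nat_lit 5) (nat_lit 43) (nat_lit 4) (nat_lit 472) (nat_lit 415) (nat_lit 313)) (XT.lf (nat_lit 0) (nat_lit 39803452345) (nat_lit 76) (nat_lit 7505695891) (nat_lit 152) (nat_lit 3223510) (nat_lit 41) (nat_lit 5) (nat_lit 42) (nat_lit 5) (nat_lit 43) (nat_lit 4) (nat_lit 473) (nat_lit 415) (nat_lit 312))) (XT.nd (nat_lit 78) (nat_lit 0) (nat_lit 0) (XT.lf (nat_lit 0) (nat_lit 12121659893) (nat_lit 228) (nat_lit 29625174817) (nat_lit 76) (nat_lit 7193051478) (nat_lit 38) (nat_lit 5) (nat_lit 41) (nat_lit 5) (nat_lit 39) (nat_lit 4) (nat_lit 474) (nat_lit 415) (nat_lit 311)) (XT.lf (nat_lit 0) (nat_lit 25095911992) (nat_lit 228) (nat_lit 3044289024) (nat_lit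 76) (nat_lit 22496411861) (nat_lit 38) (nat_lit 5) (nat_lit 41) (nat_lit 5) (nat_lit 39) (nat_lit 4) (nat_lit 475) (nat_lit 415) (nat_lit 310)))) (XT.nd (nat_lit 156) (nat_lit 152) (nat_lit 0) (XT.nd (nat_lit 78) (nat_lit 76) (nat_lit 0) (XT.lf (nat_lit 0) (nat_lit 25671178428) (nat_lit 76) (nat_lit 13439865660) (nat_lit 152) (nat_lit 13287524213) (nat_lit 37) (nat_lit 5) (nat_lit 38) (nat_lit 5) (nat_lit 39) (nat_lit 4) (nat_lit 476) (nat_lit 415) (nat_lit 309)) (XT.lf (nat_lit 0) (nat_lit 1687940753) (nat_lit 76) (nat_lit 52240319300) (nat_lit 76) (nat_lit 315295813) (nat_lit 36) (nat_lit 4) (nat_lit 37) (nat_lit 5) (nat_lit 37) (nat_lit 4) (nat_lit 477) (nat_lit 415) (nat_lit 308))) (XT.nd (nat_lit 78) (nat_lit 76) (nat_lit 0) (XT.lf (nat_lit 0) (nat_lit 13551509634) (nat_lit 152) (nat_lit 24157864298) (nat_lit 76) (nat_lit 18427441397) (nat_lit 35) (nat_lit 5) (nat_lit 37) (nat_lit 5) (nat_lit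 36) (nat_lit 4) (nat_lit 478) (nat_lit 415) (nat_lit 307)) (XT.lf (nat_lit 0) (nat_lit 5825659677) (nat_lit 76) (nat_lit 22358201054) (nat_lit 152) (nat_lit 29936479158) (nat_lit 34) (nat_lit 5) (nat_lit 35) (nat_lit 5) (nat_lit 36) (nat_lit 4) (nat_lit 479) (nat_lit 415) (nat_lit 306))))))))
noncomputable def xc131 : XT := (XT.nd (nat_lit 2184) (nat_lit 760) (nat_lit 0) (XT.nd (nat_lit 1092) (nat_lit 608) (nat_lit 0) (XT.nd (nat_lit 546) (nat_lit 380) (nat_lit 0) (XT.nd (nat_lit 234) (nat_lit 228) (nat_lit 0) (XT.nd (nat_lit 78) (nat_lit 152) (nat_lit 0) (XT.lf (nat_lit 0) (nat_lit 38131911701) (nat_lit 76) (nat_lit 5817040969) (nat_lit 152) (nat_lit 16234032448) (nat_lit 34) (nat_lit 5) (nat_lit 35) (nat_lit 5) (nat_lit 36) (nat_lit 4) (nat_lit 480) (nat_lit 415) (nat_lit 305)) (XT.nd (nat_lit 78) (nat_lit 76) (nat_lit 0) (XT.lf (nat_lit 0) (nat_lit 9824091492) (nat_lit 76) (nat_lit 51004208408)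 (nat_lit 76) (nat_lit 1504163247) (nat_lit 33) (nat_lit 4) (nat_lit 34) (nat_lit 5) (nat_lit 34) (nat_lit 4) (nat_lit 481) (nat_lit 415) (nat_lit 304)) (XT.lf (nat_lit 0) (nat_lit 13982540816) (nat_lit 152) (nat_lit 20846363600) (nat_lit 76) (nat_lit 29726250782) (nat_lit 32) (nat_lit 5) (nat_lit 34) (nat_lit 5) (nat_lit 33) (nat_lit 4) (nat_lit 482) (nat_lit 415) (nat_lit 303)))) (XT.nd (nat_lit 156) (nat_lit 152) (nat_lit 0) (XT.nd (nat_lit 78) (nat_lit 0) (nat_lit 0) (XT.lf (nat_lit 0) (nat_lit 12768740671) (nat_lit 76) (nat_lit 17616302631) (nat_lit 152) (nat_lit 36493105479) (nat_lit 31) (nat_lit 5) (nat_lit 32) (nat_lit 5) (nat_lit 33) (nat_lit 4) (nat_lit 483) (nat_lit 415) (nat_lit 302)) (XT.lf (nat_lit 0) (nat_lit 47966324172) (nat_lit 152) (nat_lit 20538279605) (nat_lit 0) (nat_lit 794756074) (nat_lit 31) (nat_lit 5) (nat_lit 33) (nat_lit 4) (nat_lit 31) (nat_lit 4) (nat_lit 484)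 (nat_lit 415) (nat_lit 301))) (XT.nd (nat_lit 78) (nat_lit 76) (nat_lit 0) (XT.lf (nat_lit 0) (nat_lit 14885659926) (nat_lit 76) (nat_lit 52055244507) (nat_lit 76) (nat_lit 4875015725) (nat_lit 30) (nat_lit 4) (nat_lit 31) (nat_lit 5) (nat_lit 31) (nat_lit 4) (nat_lit 485) (nat_lit 415) (nat_lit 300)) (XT.lf (nat_lit 0) (nat_lit 12355416616) (nat_lit 152) (nat_lit 21859872987) (nat_lit 76) (nat_lit 40216005848) (nat_lit 29) (nat_lit 5) (nat_lit 31) (nat_lit 5) (nat_lit 30) (nat_lit 4) (nat_lit 486) (nat_lit 415) (nat_lit 299))))) (XT.nd (nat_lit 234) (nat_lit 228) (nat_lit 0) (XT.nd (nat_lit 78) (nat_lit 76) (nat_lit 0) (XT.lf (nat_lit 0) (nat_lit 15363065652) (nat_lit 76) (nat_lit 15153713956) (nat_lit 152) (nat_lit 46645002298) (nat_lit 28) (nat_lit 5) (nat_lit 29) (nat_lit 5) (nat_lit 30) (nat_lit 4) (nat_lit 487) (nat_lit 415) (nat_lit 298)) (XT.nd (nat_lit 78) (nat_lit 76) (nat_lit 0)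 (XT.lf (nat_lit 0) (nat_lit 50031785721) (nat_lit 152) (nat_lit 24898956170) (nat_lit 0) (nat_lit 5075772415) (nat_lit 28) (nat_lit 5) (nat_lit 30) (nat_lit 4) (nat_lit 28) (nat_lit 4) (nat_lit 488) (nat_lit 415) (nat_lit 297)) (XT.lf (nat_lit 0) (nat_lit 14034378481) (nat_lit 76) (nat_lit 56949420761) (nat_lit 76) (nat_lit 11986621583) (nat_lit 27) (nat_lit 4) (nat_lit 28) (nat_lit 5) (nat_lit 28) (nat_lit 4) (nat_lit 489) (nat_lit 415) (nat_lit 296)))) (XT.nd (nat_lit 156) (nat_lit 76) (nat_lit 0) (XT.nd (nat_lit 78) (nat_lit 76) (nat_lit 0) (XT.lf (nat_lit 0) (nat_lit 7102337870) (nat_lit 152) (nat_lit 30409469277) (nat_lit 76) (nat_lit 48544212794) (nat_lit 26) (nat_lit 5) (nat_lit 28) (nat_lit 5) (nat_lit 27) (nat_lit 4) (nat_lit 490) (nat_lit 415) (nat_lit 295)) (XT.lf (nat_lit 0) (nat_lit 10160520227) (nat_lit 76) (nat_lit 16735058858) (nat_lit 152) (nat_lit 62382861991) (nat_lit 25)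 (nat_lit 5) (nat_lit 26) (nat_lit 5) (nat_lit 27) (nat_lit 4) (nat_lit 491) (nat_lit 415) (nat_lit 294))) (XT.nd (nat_lit 78) (nat_lit 76) (nat_lit 0) (XT.lf (nat_lit 0) (nat_lit 48275293218) (nat_lit 152) (nat_lit 38920869713) (nat_lit 0) (nat_lit 5435980084) (nat_lit 25) (nat_lit 5) (nat_lit 27) (nat_lit 4) (nat_lit 25) (nat_lit 4) (nat_lit 492) (nat_lit 415) (nat_lit 293)) (XT.lf (nat_lit 0) (nat_lit 3099826518) (nat_lit 76) (nat_lit 67941240088) (nat_lit 76) (nat_lit 25096610045) (nat_lit 24) (nat_lit 4) (nat_lit 25) (nat_lit 5) (nat_lit 25) (nat_lit 4) (nat_lit 493) (nat_lit 415) (nat_lit 292)))))) (XT.nd (nat_lit 546) (nat_lit 228) (nat_lit 0) (XT.nd (nat_lit 234) (nat_lit 228) (nat_lit 0) (XT.nd (nat_lit 78) (nat_lit 152) (nat_lit 0) (XT.lf (nat_lit 0) (nat_lit 48561904876) (nat_lit 76) (nat_lit 47036798687) (nat_lit 76) (nat_lit 4187104923) (nat_lit 24) (nat_lit 4) (nat_lit 25) (nat_lit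 5) (nat_lit 25) (nat_lit 4) (nat_lit 494) (nat_lit 415) (nat_lit 291)) (XT.nd (nat_lit 78) (nat_lit 76) (nat_lit 0) (XT.lf (nat_lit 0) (nat_lit 17193801613) (nat_lit 152) (nat_lit 7607223049) (nat_lit 76) (nat_lit 78801721717) (nat_lit 23) (nat_lit 5) (nat_lit 25) (nat_lit 5) (nat_lit 24) (nat_lit 4) (nat_lit 495) (nat_lit 415) (nat_lit 290)) (XT.lf (nat_lit 0) (nat_lit 39371737719) (nat_lit 76) (nat_lit 740870584) (nat_lit 152) (nat_lit 67464012588) (nat_lit 22) (nat_lit 5) (nat_lit 23) (nat_lit 5) (nat_lit 24) (nat_lit 4) (nat_lit 496) (nat_lit 415) (nat_lit 289)))) (XT.nd (nat_lit 156) (nat_lit 152) (nat_lit 0) (XT.nd (nat_lit 78) (nat_lit 76) (nat_lit 0) (XT.lf (nat_lit 0) (nat_lit 64686041213) (nat_lit 152) (nat_lit 23174037897) (nat_lit 0) (nat_lit 23863675940) (nat_lit 22) (nat_lit 5) (nat_lit 24) (nat_lit 4) (nat_lit 22) (nat_lit 4) (nat_lit 497) (nat_lit 415) (nat_lit 288)) (XT.lf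 (nat_lit 0) (nat_lit 24883027143) (nat_lit 76) (nat_lit 66000881826) (nat_lit 76) (nat_lit 25174548994) (nat_lit 21) (nat_lit 4) (nat_lit 22) (nat_lit 5) (nat_lit 22) (nat_lit 4) (nat_lit 498) (nat_lit 415) (nat_lit 287))) (XT.nd (nat_lit 78) (nat_lit 152) (nat_lit 0) (XT.lf (nat_lit 0) (nat_lit 76138061024) (nat_lit 76) (nat_lit 42641281516) (nat_lit 76) (nat_lit 1811170057) (nat_lit 21) (nat_lit 4) (nat_lit 22) (nat_lit 5) (nat_lit 22) (nat_lit 4) (nat_lit 499) (nat_lit 415) (nat_lit 286)) (XT.lf (nat_lit 0) (nat_lit 4383095349) (nat_lit 76) (nat_lit 17673882943) (nat_lit 152) (nat_lit 103271265689) (nat_lit 19) (nat_lit 5) (nat_lit 20) (nat_lit 5) (nat_lit 21) (nat_lit 4) (nat_lit 500) (nat_lit 415) (nat_lit 285))))) (XT.nd (nat_lit 234) (nat_lit 152) (nat_lit 0) (XT.nd (nat_lit 78) (nat_lit 76) (nat_lit 0) (XT.lf (nat_lit 0) (nat_lit 47951568084) (nat_lit 152) (nat_lit 73246058193) (nat_lit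 0) (nat_lit 9059056200) (nat_lit 19) (nat_lit 5) (nat_lit 21) (nat_lit 4) (nat_lit 19) (nat_lit 4) (nat_lit 501) (nat_lit 415) (nat_lit 284)) (XT.nd (nat_lit 78) (nat_lit 76) (nat_lit 0) (XT.lf (nat_lit 0) (nat_lit 75426216761) (nat_lit 152) (nat_lit 23460463639) (nat_lit 0) (nat_lit 36530596191) (nat_lit 19) (nat_lit 5) (nat_lit 21) (nat_lit 4) (nat_lit 19) (nat_lit 4) (nat_lit 502) (nat_lit 415) (nat_lit 283)) (XT.lf (nat_lit 0) (nat_lit 29758571126) (nat_lit 76) (nat_lit 74976444877) (nat_lit 76) (nat_lit 36077863653) (nat_lit 18) (nat_lit 4) (nat_lit 19) (nat_lit 5) (nat_lit 19) (nat_lit 4) (nat_lit 503) (nat_lit 415) (nat_lit 282)))) (XT.nd (nat_lit 156) (nat_lit 76) (nat_lit 0) (XT.nd (nat_lit 78) (nat_lit 76) (nat_lit 0) (XT.lf (nat_lit 0) (nat_lit 86444886179) (nat_lit 76) (nat_lit 49457559117) (nat_lit 76) (nat_lit 10556158223) (nat_lit 18) (nat_lit 4) (nat_lit 19) (nat_lit 5) (nat_lit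 19) (nat_lit 4) (nat_lit 504) (nat_lit 415) (nat_lit 281)) (XT.lf (nat_lit 0) (nat_lit 15717806457) (nat_lit 152) (nat_lit 6682583055) (nat_lit 76) (nat_lit 129973744942) (nat_lit 17) (nat_lit 5) (nat_lit 19) (nat_lit 5) (nat_lit 18) (nat_lit 4) (nat_lit 505) (nat_lit 415) (nat_lit 280))) (XT.nd (nat_lit 78) (nat_lit 0) (nat_lit 0) (XT.lf (nat_lit 0) (nat_lit 43849000968) (nat_lit 152) (nat_lit 107887819645) (nat_lit 0) (nat_lit 6795054475) (nat_lit 16) (nat_lit 5) (nat_lit 18) (nat_lit 4) (nat_lit 16) (nat_lit 4) (nat_lit 506) (nat_lit 415) (nat_lit 279)) (XT.lf (nat_lit 0) (nat_lit 73865208526) (nat_lit 152) (nat_lit 54299429400) (nat_lit 0) (nat_lit 36808942283) (nat_lit 16) (nat_lit 5) (nat_lit 18) (nat_lit 4) (nat_lit 16) (nat_lit 4) (nat_lit 507) (nat_lit 415) (nat_lit 278))))))) (XT.nd (nat_lit 1092) (nat_lit 304) (nat_lit 0) (XT.nd (nat_lit 546) (nat_lit 228) (nat_lit 0) (XT.nd (nat_lit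 234) (nat_lit 152) (nat_lit 0) (XT.nd (nat_lit 78) (nat_lit 0) (nat_lit 0) (XT.lf (nat_lit 0) (nat_lit 2026044968) (nat_lit 76) (nat_lit 103384200163) (nat_lit 76) (nat_lit 66325724635) (nat_lit 15) (nat_lit 4) (nat_lit 16) (nat_lit 5) (nat_lit 16) (nat_lit 4) (nat_lit 508) (nat_lit 415) (nat_lit 277)) (XT.nd (nat_lit 78) (nat_lit 0) (nat_lit 0) (XT.lf (nat_lit 0) (nat_lit 63045880983) (nat_lit 76) (nat_lit 76402687886) (nat_lit 76) (nat_lit 39342108277) (nat_lit 15) (nat_lit 4) (nat_lit 16) (nat_lit 5) (nat_lit 16) (nat_lit 4) (nat_lit 509) (nat_lit 415) (nat_lit 276)) (XT.lf (nat_lit 0) (nat_lit 127109979607) (nat_lit 76) (nat_lit 48075446511) (nat_lit 76) (nat_lit 11012863015) (nat_lit 15) (nat_lit 4) (nat_lit 16) (nat_lit 5) (nat_lit 16) (nat_lit 4) (nat_lit 510) (nat_lit 415) (nat_lit 275)))) (XT.nd (nat_lit 156) (nat_lit 0) (nat_lit 0) (XT.nd (nat_lit 78) (nat_lit 0) (nat_lit 0) (XT.lf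 (nat_lit 0) (nat_lit 105385105) (nat_lit 76) (nat_lit 18026262243) (nat_lit 152) (nat_lit 175830092312) (nat_lit 13) (nat_lit 5) (nat_lit 14) (nat_lit 5) (nat_lit 15) (nat_lit 4) (nat_lit 511) (nat_lit 415) (nat_lit 274)) (XT.lf (nat_lit 0) (nat_lit 49588273235) (nat_lit 152) (nat_lit 138167786863) (nat_lit 0) (nat_lit 14287026050) (nat_lit 13) (nat_lit 5) (nat_lit 15) (nat_lit 4) (nat_lit 13) (nat_lit 4) (nat_lit 512) (nat_lit 415) (nat_lit 273))) (XT.nd (nat_lit 78) (nat_lit 0) (nat_lit 0) (XT.lf (nat_lit 0) (nat_lit 82910130013) (nat_lit 152) (nat_lit 79996515825) (nat_lit 0) (nat_lit 47607234226) (nat_lit 13) (nat_lit 5) (nat_lit 15) (nat_lit 4) (nat_lit 13) (nat_lit 4) (nat_lit 513) (nat_lit 415) (nat_lit 272)) (XT.lf (nat_lit 0) (nat_lit 117895114967) (nat_lit 152) (nat_lit 18922597943) (nat_lit 0) (nat_lit 82590649082) (nat_lit 13) (nat_lit 5) (nat_lit 15) (nat_lit 4) (nat_lit 13) (nat_lit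 4) (nat_lit 514) (nat_lit 415) (nat_lit 271))))) (XT.nd (nat_lit 234) (nat_lit 152) (nat_lit 0) (XT.nd (nat_lit 78) (nat_lit 0) (nat_lit 0) (XT.lf (nat_lit 0) (nat_lit 46693876531) (nat_lit 76) (nat_lit 108661671420) (nat_lit 76) (nat_lit 73355710204) (nat_lit 12) (nat_lit 4) (nat_lit 13) (nat_lit 5) (nat_lit 13) (nat_lit 4) (nat_lit 515) (nat_lit 415) (nat_lit 270)) (XT.nd (nat_lit 78) (nat_lit 0) (nat_lit 0) (XT.lf (nat_lit 0) (nat_lit 116242580528) (nat_lit 76) (nat_lit 78764109813) (nat_lit 76) (nat_lit 43456724471) (nat_lit 12) (nat_lit 4) (nat_lit 13) (nat_lit 5) (nat_lit 13) (nat_lit 4) (nat_lit 516) (nat_lit 415) (nat_lit 269)) (XT.lf (nat_lit 0) (nat_lit 189263439654) (nat_lit 76) (nat_lit 47374306770) (nat_lit 76) (nat_lit 12065565119) (nat_lit 12) (nat_lit 4) (nat_lit 13) (nat_lit 5) (nat_lit 13) (nat_lit 4) (nat_lit 517) (nat_lit 415) (nat_lit 268)))) (XT.nd (nat_lit 156) (nat_lit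 0) (nat_lit 0) (XT.nd (nat_lit 78) (nat_lit 0) (nat_lit 0) (XT.lf (nat_lit 0) (nat_lit 6352100309) (nat_lit 76) (nat_lit 13970891731) (nat_lit 152) (nat_lit 239111068782) (nat_lit 10) (nat_lit 5) (nat_lit 11) (nat_lit 5) (nat_lit 12) (nat_lit 4) (nat_lit 518) (nat_lit 415) (nat_lit 267)) (XT.lf (nat_lit 0) (nat_lit 55275557635) (nat_lit 152) (nat_lit 193702614259) (nat_lit 0) (nat_lit 21645782790) (nat_lit 10) (nat_lit 5) (nat_lit 12) (nat_lit 4) (nat_lit 10) (nat_lit 4) (nat_lit 519) (nat_lit 415) (nat_lit 266))) (XT.nd (nat_lit 78) (nat_lit 0) (nat_lit 0) (XT.lf (nat_lit 0) (nat_lit 92202349332) (nat_lit 152) (nat_lit 131588205425) (nat_lit 0) (nat_lit 58571458648) (nat_lit 10) (nat_lit 5) (nat_lit 12) (nat_lit 4) (nat_lit 10) (nat_lit 4) (nat_lit 520) (nat_lit 415) (nat_lit 265)) (XT.lf (nat_lit 0) (nat_lit 130973163292) (nat_lit 152) (nat_lit 66372717788) (nat_lit 0) (nat_lit 97341209904)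 (nat_lit 10) (nat_lit 5) (nat_lit 12) (nat_lit 4) (nat_lit 10) (nat_lit 4) (nat_lit 521) (nat_lit 415) (nat_lit 264)))))) (XT.nd (nat_lit 546) (nat_lit 76) (nat_lit 0) (XT.nd (nat_lit 234) (nat_lit 152) (nat_lit 0) (XT.nd (nat_lit 78) (nat_lit 0) (nat_lit 0) (XT.lf (nat_lit 0) (nat_lit 2168530129) (nat_lit 76) (nat_lit 169545637680) (nat_lit 76) (nat_lit 135912672193) (nat_lit 9) (nat_lit 4) (nat_lit 10) (nat_lit 5) (nat_lit 10) (nat_lit 4) (nat_lit 522) (nat_lit 415) (nat_lit 263)) (XT.nd (nat_lit 78) (nat_lit 0) (nat_lit 0) (XT.lf (nat_lit 0) (nat_lit 76436802021) (nat_lit 76) (nat_lit 139177304837) (nat_lit 76) (nat_lit 105543375446) (nat_lit 9) (nat_lit 4) (nat_lit 10) (nat_lit 5) (nat_lit 10) (nat_lit 4) (nat_lit 523) (nat_lit 415) (nat_lit 262)) (XT.lf (nat_lit 0) (nat_lit 154414345309) (nat_lit 76) (nat_lit 107292631089) (nat_lit 76) (nat_lit 73657783695) (nat_lit 9) (nat_lit 4) (nat_lit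 10) (nat_lit 5) (nat_lit 10) (nat_lit 4) (nat_lit 524) (nat_lit 415) (nat_lit 261)))) (XT.nd (nat_lit 156) (nat_lit 152) (nat_lit 0) (XT.nd (nat_lit 78) (nat_lit 0) (nat_lit 0) (XT.lf (nat_lit 0) (nat_lit 236286820810) (nat_lit 76) (nat_lit 73815700547) (nat_lit 76) (nat_lit 40179978863) (nat_lit 9) (nat_lit 4) (nat_lit 10) (nat_lit 5) (nat_lit 10) (nat_lit 4) (nat_lit 525) (nat_lit 415) (nat_lit 260)) (XT.lf (nat_lit 0) (nat_lit 322249162991) (nat_lit 76) (nat_lit 38666806232) (nat_lit 76) (nat_lit 5030251892) (nat_lit 9) (nat_lit 4) (nat_lit 10) (nat_lit 5) (nat_lit 10) (nat_lit 4) (nat_lit 526) (nat_lit 415) (nat_lit 259))) (XT.nd (nat_lit 78) (nat_lit 0) (nat_lit 0) (XT.lf (nat_lit 0) (nat_lit 30594378482) (nat_lit 76) (nat_lit 738170702) (nat_lit 152) (nat_lit 351011901993) (nat_lit 7) (nat_lit 5) (nat_lit 8) (nat_lit 5) (nat_lit 9) (nat_lit 4) (nat_lit 527) (nat_lit 415) (nat_lit 258))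 (XT.lf (nat_lit 0) (nat_lit 70705047426) (nat_lit 152) (nat_lit 290116632624) (nat_lit 0) (nat_lit 38668759245) (nat_lit 7) (nat_lit 5) (nat_lit 9) (nat_lit 4) (nat_lit 7) (nat_lit 4) (nat_lit 528) (nat_lit 415) (nat_lit 257))))) (XT.nd (nat_lit 312) (nat_lit 76) (nat_lit 0) (XT.nd (nat_lit 156) (nat_lit 0) (nat_lit 0) (XT.nd (nat_lit 78) (nat_lit 0) (nat_lit 0) (XT.lf (nat_lit 0) (nat_lit 112056546107) (nat_lit 152) (nat_lit 225417089073) (nat_lit 0) (nat_lit 80019572897) (nat_lit 7) (nat_lit 5) (nat_lit 9) (nat_lit 4) (nat_lit 7) (nat_lit 4) (nat_lit 529) (nat_lit 415) (nat_lit 256)) (XT.lf (nat_lit 0) (nat_lit 155473976263) (nat_lit 152) (nat_lit 157485870598) (nat_lit 0) (nat_lit 123436350646) (nat_lit 7) (nat_lit 5) (nat_lit 9) (nat_lit 4) (nat_lit 7) (nat_lit 4) (nat_lit 530) (nat_lit 415) (nat_lit 255))) (XT.nd (nat_lit 78) (nat_lit 0) (nat_lit 0) (XT.lf (nat_lit 0) (nat_lit 201060712729)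 (nat_lit 152) (nat_lit 86161236201) (nat_lit 0) (nat_lit 169022465770) (nat_lit 7) (nat_lit 5) (nat_lit 9) (nat_lit 4) (nat_lit 7) (nat_lit 4) (nat_lit 531) (nat_lit 415) (nat_lit 254)) (XT.lf (nat_lit 0) (nat_lit 248925295352) (nat_lit 152) (nat_lit 11273365324) (nat_lit 0) (nat_lit 216886456640) (nat_lit 7) (nat_lit 5) (nat_lit 9) (nat_lit 4) (nat_lit 7) (nat_lit 4) (nat_lit 532) (nat_lit 415) (nat_lit 253)))) (XT.nd (nat_lit 156) (nat_lit 0) (nat_lit 0) (XT.nd (nat_lit 78) (nat_lit 0) (nat_lit 0) (XT.lf (nat_lit 0) (nat_lit 69583141572) (nat_lit 76) (nat_lit 230684933700) (nat_lit 76) (nat_lit 198645531413) (nat_lit 6) (nat_lit 4) (nat_lit 7) (nat_lit 5) (nat_lit 7) (nat_lit 4) (nat_lit 533) (nat_lit 415) (nat_lit 252)) (XT.lf (nat_lit 0) (nat_lit 154871053001) (nat_lit 76) (nat_lit 199496465187) (nat_lit 76) (nat_lit 167456526162) (nat_lit 6) (nat_lit 4) (nat_lit 7) (nat_lit 5) (nat_lit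 7) (nat_lit 4) (nat_lit 534) (nat_lit 415) (nat_lit 251))) (XT.nd (nat_lit 78) (nat_lit 0) (nat_lit 0) (XT.lf (nat_lit 0) (nat_lit 244420687049) (nat_lit 76) (nat_lit 166749916775) (nat_lit 76) (nat_lit 134709466572) (nat_lit 6) (nat_lit 4) (nat_lit 7) (nat_lit 5) (nat_lit 7) (nat_lit 4) (nat_lit 535) (nat_lit 415) (nat_lit 250)) (XT.lf (nat_lit 0) (nat_lit 338445257131) (nat_lit 76) (nat_lit 132367320492) (nat_lit 76) (nat_lit 100326383452) (nat_lit 6) (nat_lit 4) (nat_lit 7) (nat_lit 5) (nat_lit 7) (nat_lit 4) (nat_lit 536) (nat_lit 415) (nat_lit 249))))))))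
noncomputable def xc132 : XT := (XT.nd (nat_lit 54678) (nat_lit 0) (nat_lit 3496) (XT.nd (nat_lit 53586) (nat_lit 0) (nat_lit 7296) (XT.nd (nat_lit 53040) (nat_lit 0) (nat_lit 10032) (XT.nd (nat_lit 234) (nat_lit 76) (nat_lit 0) (XT.nd (nat_lit 78) (nat_lit 76) (nat_lit 0) (XT.lf (nat_lit 0) (nat_lit 437168631271) (nat_lit 76) (nat_lit 96266813014) (nat_lit 76) (nat_lit 64225412320) (nat_lit 6) (nat_lit 4) (nat_lit 7) (nat_lit 5) (nat_lit 7) (nat_lit 4) (nat_lit 537) (nat_lit 415) (nat_lit 248)) (XT.nd (nat_lit 78) (nat_lit 76) (nat_lit 0) (XT.lf (nat_lit 0) (nat_lit 540825865120) (nat_lit 76) (nat_lit 58362440751) (nat_lit 76) (nat_lit 26320598482) (nat_lit 6) (nat_lit 4) (nat_lit 7) (nat_lit 5) (nat_lit 7) (nat_lit 4) (nat_lit 538) (nat_lit 415) (nat_lit 247)) (XT.lf (nat_lit 0) (nat_lit 13046917601) (nat_lit 152) (nat_lit 5296081735) (nat_lit 76) (nat_lit 636395888154) (nat_lit 5) (nat_lit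 5) (nat_lit 7) (nat_lit 5) (nat_lit 6) (nat_lit 4) (nat_lit 539) (nat_lit 415) (nat_lit 246)))) (XT.nd (nat_lit 156) (nat_lit 0) (nat_lit 0) (XT.nd (nat_lit 78) (nat_lit 0) (nat_lit 0) (XT.lf (nat_lit 0) (nat_lit 55146501015) (nat_lit 152) (nat_lit 605550203928) (nat_lit 0) (nat_lit 24629678787) (nat_lit 4) (nat_lit 5) (nat_lit 6) (nat_lit 4) (nat_lit 4) (nat_lit 4) (nat_lit 540) (nat_lit 415) (nat_lit 245)) (XT.lf (nat_lit 0) (nat_lit 99741873085) (nat_lit 152) (nat_lit 548457153670) (nat_lit 0) (nat_lit 69224687572) (nat_lit 4) (nat_lit 5) (nat_lit 6) (nat_lit 4) (nat_lit 4) (nat_lit 4) (nat_lit 541) (nat_lit 415) (nat_lit 244))) (XT.nd (nat_lit 78) (nat_lit 0) (nat_lit 0) (XT.lf (nat_lit 0) (nat_lit 146566006631) (nat_lit 152) (nat_lit 488511480065) (nat_lit 0) (nat_lit 116048475132) (nat_lit 4) (nat_lit 5) (nat_lit 6) (nat_lit 4) (nat_lit 4) (nat_lit 4) (nat_lit 542) (nat_lit 415) (nat_lit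 243)) (XT.lf (nat_lit 0) (nat_lit 195730387686) (nat_lit 152) (nat_lit 425570455320) (nat_lit 0) (nat_lit 165212526676) (nat_lit 4) (nat_lit 5) (nat_lit 6) (nat_lit 4) (nat_lit 4) (nat_lit 4) (nat_lit 543) (nat_lit 415) (nat_lit 242))))) (XT.nd (nat_lit 234) (nat_lit 0) (nat_lit 76) (XT.nd (nat_lit 78) (nat_lit 0) (nat_lit 0) (XT.lf (nat_lit 0) (nat_lit 231025757) (nat_lit 0) (nat_lit 231025757) (nat_lit 684) (nat_lit 4252554738) (nat_lit 136) (nat_lit 5) (nat_lit 136) (nat_lit 3) (nat_lit 145) (nat_lit 3) (nat_lit 416) (nat_lit 416) (nat_lit 368)) (XT.nd (nat_lit 78) (nat_lit 0) (nat_lit 0) (XT.lf (nat_lit 0) (nat_lit 1802488891) (nat_lit 684) (nat_lit 4386620139) (nat_lit 760) (nat_lit 3432737348) (nat_lit 136) (nat_lit 5) (nat_lit 145) (nat_lit 3) (nat_lit 146) (nat_lit 5) (nat_lit 417) (nat_lit 416) (nat_lit 367)) (XT.lf (nat_lit 76) (nat_lit 399578599) (nat_lit 0) (nat_lit 2288223676)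 (nat_lit 760) (nat_lit 7138180527) (nat_lit 137) (nat_lit 5) (nat_lit 136) (nat_lit 5) (nat_lit 146) (nat_lit 5) (nat_lit 418) (nat_lit 416) (nat_lit 366)))) (XT.nd (nat_lit 156) (nat_lit 0) (nat_lit 76) (XT.nd (nat_lit 78) (nat_lit 0) (nat_lit 0) (XT.lf (nat_lit 0) (nat_lit 3672610583) (nat_lit 684) (nat_lit 4519579206) (nat_lit 760) (nat_lit 1845395052) (nat_lit 137) (nat_lit 5) (nat_lit 146) (nat_lit 5) (nat_lit 147) (nat_lit 5) (nat_lit 419) (nat_lit 416) (nat_lit 365)) (XT.lf (nat_lit 76) (nat_lit 584342315) (nat_lit 0) (nat_lit 4122760174) (nat_lit 760) (nat_lit 5552661626) (nat_lit 138) (nat_lit 5) (nat_lit 137) (nat_lit 5) (nat_lit 147) (nat_lit 5) (nat_lit 420) (nat_lit 416) (nat_lit 364))) (XT.nd (nat_lit 78) (nat_lit 0) (nat_lit 0) (XT.lf (nat_lit 0) (nat_lit 5829256448) (nat_lit 684) (nat_lit 4423897729) (nat_lit 760) (nat_lit 238119677) (nat_lit 138) (nat_lit 5) (nat_lit 147) (nat_lit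 5) (nat_lit 148) (nat_lit 5) (nat_lit 421) (nat_lit 416) (nat_lit 363)) (XT.lf (nat_lit 76) (nat_lit 1025492732) (nat_lit 0) (nat_lit 6023524610) (nat_lit 760) (nat_lit 3683284276) (nat_lit 139) (nat_lit 5) (nat_lit 138) (nat_lit 5) (nat_lit 148) (nat_lit 5) (nat_lit 422) (nat_lit 416) (nat_lit 362)))))) (XT.nd (nat_lit 546) (nat_lit 1520) (nat_lit 0) (XT.nd (nat_lit 234) (nat_lit 1368) (nat_lit 0) (XT.nd (nat_lit 78) (nat_lit 0) (nat_lit 76) (XT.lf (nat_lit 76) (nat_lit 6871477700) (nat_lit 0) (nat_lit 1492656281) (nat_lit 760) (nat_lit 2619545068) (nat_lit 139) (nat_lit 5) (nat_lit 138) (nat_lit 5) (nat_lit 148) (nat_lit 5) (nat_lit 423) (nat_lit 416) (nat_lit 361)) (XT.nd (nat_lit 78) (nat_lit 0) (nat_lit 0) (XT.lf (nat_lit 76) (nat_lit 1736574149) (nat_lit 0) (nat_lit 8048059935) (nat_lit 760) (nat_lit 1461025758) (nat_lit 140) (nat_lit 5) (nat_lit 139) (nat_lit 5) (nat_lit 149) (nat_lit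 5) (nat_lit 424) (nat_lit 416) (nat_lit 360)) (XT.lf (nat_lit 76) (nat_lit 7965590903) (nat_lit 0) (nat_lit 3367196197) (nat_lit 760) (nat_lit 185136295) (nat_lit 140) (nat_lit 5) (nat_lit 139) (nat_lit 5) (nat_lit 149) (nat_lit 5) (nat_lit 425) (nat_lit 416) (nat_lit 359)))) (XT.nd (nat_lit 156) (nat_lit 760) (nat_lit 0) (XT.nd (nat_lit 78) (nat_lit 0) (nat_lit 0) (XT.lf (nat_lit 0) (nat_lit 1149759607) (nat_lit 760) (nat_lit 9085291281) (nat_lit 76) (nat_lit 1566253429) (nat_lit 130) (nat_lit 5) (nat_lit 140) (nat_lit 5) (nat_lit 131) (nat_lit 5) (nat_lit 426) (nat_lit 416) (nat_lit 358)) (XT.lf (nat_lit 0) (nat_lit 2626954949) (nat_lit 760) (nat_lit 2764794360) (nat_lit 76) (nat_lit 6702877460) (nat_lit 130) (nat_lit 5) (nat_lit 140) (nat_lit 5) (nat_lit 131) (nat_lit 5) (nat_lit 427) (nat_lit 416) (nat_lit 357))) (XT.nd (nat_lit 78) (nat_lit 0) (nat_lit 0) (XT.lf (nat_lit 0) (nat_lit 3969409776)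 (nat_lit 760) (nat_lit 237649885) (nat_lit 836) (nat_lit 8194115637) (nat_lit 120) (nat_lit 5) (nat_lit 130) (nat_lit 5) (nat_lit 131) (nat_lit 5) (nat_lit 428) (nat_lit 416) (nat_lit 356)) (XT.lf (nat_lit 0) (nat_lit 5962781684) (nat_lit 836) (nat_lit 1696486887) (nat_lit 76) (nat_lit 5058963925) (nat_lit 120) (nat_lit 5) (nat_lit 131) (nat_lit 5) (nat_lit 121) (nat_lit 5) (nat_lit 429) (nat_lit 416) (nat_lit 355))))) (XT.nd (nat_lit 234) (nat_lit 760) (nat_lit 0) (XT.nd (nat_lit 78) (nat_lit 380) (nat_lit 0) (XT.lf (nat_lit 0) (nat_lit 5519225974) (nat_lit 380) (nat_lit 2346881077) (nat_lit 456) (nat_lit 5182055919) (nat_lit 115) (nat_lit 5) (nat_lit 120) (nat_lit 5) (nat_lit 121) (nat_lit 5) (nat_lit 430) (nat_lit 416) (nat_lit 354)) (XT.nd (nat_lit 78) (nat_lit 380) (nat_lit 0) (XT.lf (nat_lit 0) (nat_lit 9915001899) (nat_lit 456) (nat_lit 319546626) (nat_lit 76) (nat_lit 3157532025) (nat_lit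 115) (nat_lit 5) (nat_lit 121) (nat_lit 5) (nat_lit 116) (nat_lit 5) (nat_lit 431) (nat_lit 416) (nat_lit 353)) (XT.lf (nat_lit 0) (nat_lit 7420683298) (nat_lit 380) (nat_lit 4772136416) (nat_lit 456) (nat_lit 1554060615) (nat_lit 110) (nat_lit 5) (nat_lit 115) (nat_lit 5) (nat_lit 116) (nat_lit 5) (nat_lit 432) (nat_lit 416) (nat_lit 352)))) (XT.nd (nat_lit 156) (nat_lit 304) (nat_lit 0) (XT.nd (nat_lit 78) (nat_lit 0) (nat_lit 0) (XT.lf (nat_lit 0) (nat_lit 466534503) (nat_lit 456) (nat_lit 12684822177) (nat_lit 76) (nat_lit 966893987) (nat_lit 104) (nat_lit 5) (nat_lit 110) (nat_lit 5) (nat_lit 105) (nat_lit 5) (nat_lit 433) (nat_lit 416) (nat_lit 351)) (XT.lf (nat_lit 0) (nat_lit 2696465398) (nat_lit 456) (nat_lit 4837583408) (nat_lit 76) (nat_lit 6964849102) (nat_lit 104) (nat_lit 5) (nat_lit 110) (nat_lit 5) (nat_lit 105) (nat_lit 5) (nat_lit 434) (nat_lit 416) (nat_lit 350))) (XT.nd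 (nat_lit 78) (nat_lit 0) (nat_lit 0) (XT.lf (nat_lit 0) (nat_lit 3485033647) (nat_lit 304) (nat_lit 1581943996) (nat_lit 380) (nat_lit 9830154045) (nat_lit 100) (nat_lit 5) (nat_lit 104) (nat_lit 5) (nat_lit 105) (nat_lit 5) (nat_lit 435) (nat_lit 416) (nat_lit 349)) (XT.lf (nat_lit 0) (nat_lit 7687549005) (nat_lit 380) (nat_lit 3022916822) (nat_lit 76) (nat_lit 4598242670) (nat_lit 100) (nat_lit 5) (nat_lit 105) (nat_lit 5) (nat_lit 101) (nat_lit 5) (nat_lit 436) (nat_lit 416) (nat_lit 348))))))) (XT.nd (nat_lit 1092) (nat_lit 1672) (nat_lit 0) (XT.nd (nat_lit 546) (nat_lit 988) (nat_lit 0) (XT.nd (nat_lit 234) (nat_lit 532) (nat_lit 0) (XT.nd (nat_lit 78) (nat_lit 304) (nat_lit 0) (XT.lf (nat_lit 0) (nat_lit 5921458790) (nat_lit 304) (nat_lit 4612632998) (nat_lit 380) (nat_lit 5202032851) (nat_lit 96) (nat_lit 5) (nat_lit 100) (nat_lit 5) (nat_lit 101) (nat_lit 5) (nat_lit 437) (nat_lit 416)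 (nat_lit 347)) (XT.nd (nat_lit 78) (nat_lit 304) (nat_lit 0) (XT.lf (nat_lit 0) (nat_lit 13580118377) (nat_lit 380) (nat_lit 821615252) (nat_lit 76) (nat_lit 1780327397) (nat_lit 96) (nat_lit 5) (nat_lit 101) (nat_lit 5) (nat_lit 97) (nat_lit 5) (nat_lit 438) (nat_lit 416) (nat_lit 346)) (XT.lf (nat_lit 0) (nat_lit 318450383) (nat_lit 304) (nat_lit 7845869600) (nat_lit 76) (nat_lit 8476160805) (nat_lit 92) (nat_lit 5) (nat_lit 96) (nat_lit 5) (nat_lit 93) (nat_lit 5) (nat_lit 439) (nat_lit 416) (nat_lit 345)))) (XT.nd (nat_lit 156) (nat_lit 228) (nat_lit 0) (XT.nd (nat_lit 78) (nat_lit 0) (nat_lit 0) (XT.lf (nat_lit 0) (nat_lit 1785925064) (nat_lit 304) (nat_lit 1532048897) (nat_lit 380) (nat_lit 13800693456) (nat_lit 88) (nat_lit 5) (nat_lit 92) (nat_lit 5) (nat_lit 93) (nat_lit 5) (nat_lit 440) (nat_lit 416) (nat_lit 344)) (XT.lf (nat_lit 0) (nat_lit 6666365689) (nat_lit 380) (nat_lit 5557316889)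 (nat_lit 76) (nat_lit 5387142183) (nat_lit 88) (nat_lit 5) (nat_lit 93) (nat_lit 5) (nat_lit 89) (nat_lit 5) (nat_lit 441) (nat_lit 416) (nat_lit 343))) (XT.nd (nat_lit 78) (nat_lit 0) (nat_lit 0) (XT.lf (nat_lit 0) (nat_lit 4809101680) (nat_lit 228) (nat_lit 5453306755) (nat_lit 304) (nat_lit 7861175663) (nat_lit 85) (nat_lit 5) (nat_lit 88) (nat_lit 5) (nat_lit 89) (nat_lit 5) (nat_lit 442) (nat_lit 416) (nat_lit 342)) (XT.lf (nat_lit 0) (nat_lit 14140230154) (nat_lit 304) (nat_lit 2824914927) (nat_lit 76) (nat_lit 1691742905) (nat_lit 85) (nat_lit 5) (nat_lit 89) (nat_lit 5) (nat_lit 86) (nat_lit 5) (nat_lit 443) (nat_lit 416) (nat_lit 341))))) (XT.nd (nat_lit 234) (nat_lit 456) (nat_lit 0) (XT.nd (nat_lit 78) (nat_lit 304) (nat_lit 0) (XT.lf (nat_lit 0) (nat_lit 8340955378) (nat_lit 228) (nat_lit 10072011488) (nat_lit 304) (nat_lit 793844174) (nat_lit 82) (nat_lit 5) (nat_lit 85) (nat_lit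 5) (nat_lit 86) (nat_lit 5) (nat_lit 444) (nat_lit 416) (nat_lit 340)) (XT.nd (nat_lit 78) (nat_lit 0) (nat_lit 0) (XT.lf (nat_lit 0) (nat_lit 316115417) (nat_lit 228) (nat_lit 2734441241) (nat_lit 304) (nat_lit 16729489024) (nat_lit 78) (nat_lit 5) (nat_lit 81) (nat_lit 5) (nat_lit 82) (nat_lit 5) (nat_lit 445) (nat_lit 416) (nat_lit 339)) (XT.lf (nat_lit 0) (nat_lit 7307078429) (nat_lit 304) (nat_lit 8058246761) (nat_lit 76) (nat_lit 5003641672) (nat_lit 78) (nat_lit 5) (nat_lit 82) (nat_lit 5) (nat_lit 79) (nat_lit 5) (nat_lit 446) (nat_lit 416) (nat_lit 338)))) (XT.nd (nat_lit 156) (nat_lit 228) (nat_lit 0) (XT.nd (nat_lit 78) (nat_lit 0) (nat_lit 0) (XT.lf (nat_lit 0) (nat_lit 3975071233) (nat_lit 228) (nat_lit 7891051868) (nat_lit 304) (nat_lit 9116730412) (nat_lit 75) (nat_lit 5) (nat_lit 78) (nat_lit 5) (nat_lit 79) (nat_lit 5) (nat_lit 447) (nat_lit 416) (nat_lit 337)) (XT.lf (nat_lit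 0) (nat_lit 16774273807) (nat_lit 304) (nat_lit 4757721239) (nat_lit 76) (nat_lit 89385808) (nat_lit 75) (nat_lit 5) (nat_lit 79) (nat_lit 5) (nat_lit 76) (nat_lit 5) (nat_lit 448) (nat_lit 416) (nat_lit 336))) (XT.nd (nat_lit 78) (nat_lit 76) (nat_lit 0) (XT.lf (nat_lit 0) (nat_lit 8214231223) (nat_lit 152) (nat_lit 13955132012) (nat_lit 228) (nat_lit 110398625) (nat_lit 73) (nat_lit 5) (nat_lit 75) (nat_lit 5) (nat_lit 76) (nat_lit 5) (nat_lit 449) (nat_lit 416) (nat_lit 335)) (XT.lf (nat_lit 0) (nat_lit 4773445783) (nat_lit 228) (nat_lit 1068620631) (nat_lit 76) (nat_lit 17121905054) (nat_lit 72) (nat_lit 5) (nat_lit 75) (nat_lit 5) (nat_lit 73) (nat_lit 5) (nat_lit 450) (nat_lit 416) (nat_lit 334)))))) (XT.nd (nat_lit 546) (nat_lit 760) (nat_lit 0) (XT.nd (nat_lit 234) (nat_lit 532) (nat_lit 0) (XT.nd (nat_lit 78) (nat_lit 152) (nat_lit 0) (XT.lf (nat_lit 0) (nat_lit 10130073295) (nat_lit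 304) (nat_lit 10749705563) (nat_lit 76) (nat_lit 2790910489) (nat_lit 69) (nat_lit 5) (nat_lit 73) (nat_lit 5) (nat_lit 70) (nat_lit 5) (nat_lit 451) (nat_lit 416) (nat_lit 333)) (XT.nd (nat_lit 78) (nat_lit 0) (nat_lit 0) (XT.lf (nat_lit 0) (nat_lit 3218899438) (nat_lit 152) (nat_lit 12685113723) (nat_lit 228) (nat_lit 8501259083) (nat_lit 67) (nat_lit 5) (nat_lit 69) (nat_lit 5) (nat_lit 70) (nat_lit 5) (nat_lit 452) (nat_lit 416) (nat_lit 332)) (XT.lf (nat_lit 0) (nat_lit 18236129952) (nat_lit 152) (nat_lit 3897982820) (nat_lit 228) (nat_lit 3034101396) (nat_lit 67) (nat_lit 5) (nat_lit 69) (nat_lit 5) (nat_lit 70) (nat_lit 5) (nat_lit 453) (nat_lit 416) (nat_lit 331)))) (XT.nd (nat_lit 156) (nat_lit 304) (nat_lit 0) (XT.nd (nat_lit 78) (nat_lit 0) (nat_lit 0) (XT.lf (nat_lit 0) (nat_lit 2820084408) (nat_lit 228) (nat_lit 17813522578) (nat_lit 76) (nat_lit 5323571588) (nat_lit 64) (nat_lit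 5) (nat_lit 67) (nat_lit 5) (nat_lit 65) (nat_lit 5) (nat_lit 454) (nat_lit 416) (nat_lit 330)) (XT.lf (nat_lit 0) (nat_lit 9034313651) (nat_lit 228) (nat_lit 2704024234) (nat_lit 76) (nat_lit 15036303965) (nat_lit 64) (nat_lit 5) (nat_lit 67) (nat_lit 5) (nat_lit 65) (nat_lit 5) (nat_lit 455) (nat_lit 416) (nat_lit 329))) (XT.nd (nat_lit 78) (nat_lit 152) (nat_lit 0) (XT.lf (nat_lit 0) (nat_lit 13573886557) (nat_lit 152) (nat_lit 2184033001) (nat_lit 228) (nat_lit 11865127957) (nat_lit 62) (nat_lit 5) (nat_lit 64) (nat_lit 5) (nat_lit 65) (nat_lit 5) (nat_lit 456) (nat_lit 416) (nat_lit 328)) (XT.lf (nat_lit 0) (nat_lit 2172555355) (nat_lit 152) (nat_lit 20835055580) (nat_lit 228) (nat_lit 5496769637) (nat_lit 60) (nat_lit 5) (nat_lit 62) (nat_lit 5) (nat_lit 63) (nat_lit 5) (nat_lit 457) (nat_lit 416) (nat_lit 327))))) (XT.nd (nat_lit 234) (nat_lit 532) (nat_lit 0) (XT.nd (nat_lit 78) (nat_lit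 152) (nat_lit 0) (XT.lf (nat_lit 0) (nat_lit 1416542468) (nat_lit 228) (nat_lit 9804824283) (nat_lit 76) (nat_lit 18194255535) (nat_lit 59) (nat_lit 5) (nat_lit 62) (nat_lit 5) (nat_lit 60) (nat_lit 5) (nat_lit 458) (nat_lit 416) (nat_lit 326)) (XT.nd (nat_lit 78) (nat_lit 0) (nat_lit 0) (XT.lf (nat_lit 0) (nat_lit 7683606286) (nat_lit 152) (nat_lit 914758420) (nat_lit 228) (nat_lit 21764179274) (nat_lit 57) (nat_lit 5) (nat_lit 59) (nat_lit 5) (nat_lit 60) (nat_lit 5) (nat_lit 459) (nat_lit 416) (nat_lit 325)) (XT.lf (nat_lit 0) (nat_lit 16450480164) (nat_lit 228) (nat_lit 5139927569) (nat_lit 76) (nat_lit 9750845869) (nat_lit 57) (nat_lit 5) (nat_lit 60) (nat_lit 5) (nat_lit 58) (nat_lit 5) (nat_lit 460) (nat_lit 416) (nat_lit 324)))) (XT.nd (nat_lit 156) (nat_lit 152) (nat_lit 0) (XT.nd (nat_lit 78) (nat_lit 228) (nat_lit 0) (XT.lf (nat_lit 0) (nat_lit 13678966468) (nat_lit 152) (nat_lit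 11233132912) (nat_lit 228) (nat_lit 7445956281) (nat_lit 55) (nat_lit 5) (nat_lit 57) (nat_lit 5) (nat_lit 58) (nat_lit 5) (nat_lit 461) (nat_lit 416) (nat_lit 323)) (XT.lf (nat_lit 0) (nat_lit 174317144) (nat_lit 152) (nat_lit 264498919) (nat_lit 228) (nat_lit 32982614149) (nat_lit 52) (nat_lit 5) (nat_lit 54) (nat_lit 5) (nat_lit 55) (nat_lit 5) (nat_lit 462) (nat_lit 416) (nat_lit 322))) (XT.nd (nat_lit 78) (nat_lit 152) (nat_lit 0) (XT.lf (nat_lit 0) (nat_lit 8953316698) (nat_lit 228) (nat_lit 14226268012) (nat_lit 76) (nat_lit 11328001008) (nat_lit 52) (nat_lit 5) (nat_lit 55) (nat_lit 5) (nat_lit 53) (nat_lit 5) (nat_lit 463) (nat_lit 416) (nat_lit 321)) (XT.lf (nat_lit 0) (nat_lit 5911373413) (nat_lit 152) (nat_lit 12067858316) (nat_lit 228) (nat_lit 17664534329) (nat_lit 50) (nat_lit 5) (nat_lit 52) (nat_lit 5) (nat_lit 53) (nat_lit 5) (nat_lit 464) (nat_lit 416) (nat_lit 320))))))))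
noncomputable def xc133 : XT := (XT.nd (nat_lit 2184) (nat_lit 1140) (nat_lit 0) (XT.nd (nat_lit 1092) (nat_lit 836) (nat_lit 0) (XT.nd (nat_lit 546) (nat_lit 456) (nat_lit 0) (XT.nd (nat_lit 234) (nat_lit 456) (nat_lit 0) (XT.nd (nat_lit 78) (nat_lit 152) (nat_lit 0) (XT.lf (nat_lit 0) (nat_lit 27530998348) (nat_lit 152) (nat_lit 155660490) (nat_lit 228) (nat_lit 9138587214) (nat_lit 50) (nat_lit 5) (nat_lit 52) (nat_lit 5) (nat_lit 53) (nat_lit 5) (nat_lit 465) (nat_lit 416) (nat_lit 319)) (XT.nd (nat_lit 78) (nat_lit 0) (nat_lit 0) (XT.lf (nat_lit 0) (nat_lit 201119320) (nat_lit 152) (nat_lit 25700348587) (nat_lit 76) (nat_lit 12145404027) (nat_lit 48) (nat_lit 5) (nat_lit 50) (nat_lit 5) (nat_lit 49) (nat_lit 5) (nat_lit 466) (nat_lit 416) (nat_lit 318)) (XT.lf (nat_lit 0) (nat_lit 9852950328) (nat_lit 152) (nat_lit 4102990132) (nat_lit 76) (nat_lit 25358536480) (nat_lit 48) (nat_lit 5)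 (nat_lit 50) (nat_lit 5) (nat_lit 49) (nat_lit 5) (nat_lit 467) (nat_lit 416) (nat_lit 317)))) (XT.nd (nat_lit 156) (nat_lit 228) (nat_lit 0) (XT.nd (nat_lit 78) (nat_lit 76) (nat_lit 0) (XT.lf (nat_lit 0) (nat_lit 19170335944) (nat_lit 152) (nat_lit 1106549932) (nat_lit 228) (nat_lit 20354101865) (nat_lit 46) (nat_lit 5) (nat_lit 48) (nat_lit 5) (nat_lit 49) (nat_lit 5) (nat_lit 468) (nat_lit 416) (nat_lit 316)) (XT.lf (nat_lit 0) (nat_lit 1578383608) (nat_lit 76) (nat_lit 29922561744) (nat_lit 152) (nat_lit 10498433513) (nat_lit 45) (nat_lit 5) (nat_lit 46) (nat_lit 5) (nat_lit 47) (nat_lit 4) (nat_lit 469) (nat_lit 416) (nat_lit 315))) (XT.nd (nat_lit 78) (nat_lit 152) (nat_lit 0) (XT.lf (nat_lit 0) (nat_lit 232688673) (nat_lit 152) (nat_lit 16942926678) (nat_lit 76) (nat_lit 26241798805) (nat_lit 44) (nat_lit 5) (nat_lit 46) (nat_lit 5) (nat_lit 45) (nat_lit 5) (nat_lit 470) (nat_lit 416)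 (nat_lit 314)) (XT.lf (nat_lit 0) (nat_lit 7768839878) (nat_lit 152) (nat_lit 3490790190) (nat_lit 228) (nat_lit 33632512889) (nat_lit 42) (nat_lit 5) (nat_lit 44) (nat_lit 5) (nat_lit 45) (nat_lit 5) (nat_lit 471) (nat_lit 416) (nat_lit 313))))) (XT.nd (nat_lit 234) (nat_lit 304) (nat_lit 0) (XT.nd (nat_lit 78) (nat_lit 152) (nat_lit 0) (XT.lf (nat_lit 0) (nat_lit 23290250550) (nat_lit 228) (nat_lit 12313208173) (nat_lit 76) (nat_lit 10814533809) (nat_lit 42) (nat_lit 5) (nat_lit 45) (nat_lit 5) (nat_lit 43) (nat_lit 4) (nat_lit 472) (nat_lit 416) (nat_lit 312)) (XT.nd (nat_lit 78) (nat_lit 76) (nat_lit 0) (XT.lf (nat_lit 0) (nat_lit 14115947239) (nat_lit 76) (nat_lit 22075357142) (nat_lit 152) (nat_lit 11815385984) (nat_lit 41) (nat_lit 5) (nat_lit 42) (nat_lit 5) (nat_lit 43) (nat_lit 4) (nat_lit 473) (nat_lit 416) (nat_lit 311)) (XT.lf (nat_lit 0) (nat_lit 263848028) (nat_lit 152) (nat_lit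 7390791360) (nat_lit 76) (nat_lit 42009972479) (nat_lit 40) (nat_lit 5) (nat_lit 42) (nat_lit 5) (nat_lit 41) (nat_lit 5) (nat_lit 474) (nat_lit 416) (nat_lit 310)))) (XT.nd (nat_lit 156) (nat_lit 152) (nat_lit 0) (XT.nd (nat_lit 78) (nat_lit 0) (nat_lit 0) (XT.lf (nat_lit 0) (nat_lit 12993218681) (nat_lit 228) (nat_lit 30611240096) (nat_lit 76) (nat_lit 7769124227) (nat_lit 38) (nat_lit 5) (nat_lit 41) (nat_lit 5) (nat_lit 39) (nat_lit 4) (nat_lit 475) (nat_lit 416) (nat_lit 309)) (XT.lf (nat_lit 0) (nat_lit 26603541681) (nat_lit 228) (nat_lit 2724890654) (nat_lit 76) (nat_lit 23827346906) (nat_lit 38) (nat_lit 5) (nat_lit 41) (nat_lit 5) (nat_lit 39) (nat_lit 4) (nat_lit 476) (nat_lit 416) (nat_lit 308))) (XT.nd (nat_lit 78) (nat_lit 76) (nat_lit 0) (XT.lf (nat_lit 0) (nat_lit 27418743511) (nat_lit 76) (nat_lit 13895891587) (nat_lit 152) (nat_lit 13691438177) (nat_lit 37) (nat_lit 5) (nat_lit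 38) (nat_lit 5) (nat_lit 39) (nat_lit 4) (nat_lit 477) (nat_lit 416) (nat_lit 307)) (XT.lf (nat_lit 0) (nat_lit 2237765575) (nat_lit 76) (nat_lit 54633612840) (nat_lit 76) (nat_lit 71999501) (nat_lit 36) (nat_lit 4) (nat_lit 37) (nat_lit 5) (nat_lit 37) (nat_lit 4) (nat_lit 478) (nat_lit 416) (nat_lit 306)))))) (XT.nd (nat_lit 546) (nat_lit 456) (nat_lit 0) (XT.nd (nat_lit 234) (nat_lit 228) (nat_lit 0) (XT.nd (nat_lit 78) (nat_lit 76) (nat_lit 0) (XT.lf (nat_lit 0) (nat_lit 14467913239) (nat_lit 152) (nat_lit 24914577648) (nat_lit 76) (nat_lit 19549205229) (nat_lit 35) (nat_lit 5) (nat_lit 37) (nat_lit 5) (nat_lit 36) (nat_lit 4) (nat_lit 479) (nat_lit 416) (nat_lit 305)) (XT.nd (nat_lit 78) (nat_lit 0) (nat_lit 0) (XT.lf (nat_lit 0) (nat_lit 6560845432) (nat_lit 76) (nat_lit 23266594258) (nat_lit 152) (nat_lit 31187180210) (nat_lit 34) (nat_lit 5) (nat_lit 35) (nat_lit 5) (nat_lit 36) (nat_lit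 4) (nat_lit 480) (nat_lit 416) (nat_lit 304)) (XT.lf (nat_lit 0) (nat_lit 40461271829) (nat_lit 76) (nat_lit 5908353162) (nat_lit 152) (nat_lit 16811331302) (nat_lit 34) (nat_lit 5) (nat_lit 35) (nat_lit 5) (nat_lit 36) (nat_lit 4) (nat_lit 481) (nat_lit 416) (nat_lit 303)))) (XT.nd (nat_lit 156) (nat_lit 76) (nat_lit 0) (XT.nd (nat_lit 78) (nat_lit 76) (nat_lit 0) (XT.lf (nat_lit 0) (nat_lit 10739174488) (nat_lit 76) (nat_lit 53352720304) (nat_lit 76) (nat_lit 1346066475) (nat_lit 33) (nat_lit 4) (nat_lit 34) (nat_lit 5) (nat_lit 34) (nat_lit 4) (nat_lit 482) (nat_lit 416) (nat_lit 302)) (XT.lf (nat_lit 0) (nat_lit 14896751400) (nat_lit 152) (nat_lit 21477861861) (nat_lit 76) (nat_lit 31397530969) (nat_lit 32) (nat_lit 5) (nat_lit 34) (nat_lit 5) (nat_lit 33) (nat_lit 4) (nat_lit 483) (nat_lit 416) (nat_lit 301))) (XT.nd (nat_lit 78) (nat_lit 0) (nat_lit 0) (XT.lf (nat_lit 0) (nat_lit 13811371496)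 (nat_lit 76) (nat_lit 18304076037) (nat_lit 152) (nat_lit 38096037223) (nat_lit 31) (nat_lit 5) (nat_lit 32) (nat_lit 5) (nat_lit 33) (nat_lit 4) (nat_lit 484) (nat_lit 416) (nat_lit 300)) (XT.lf (nat_lit 0) (nat_lit 50568607989) (nat_lit 152) (nat_lit 21173049459) (nat_lit 0) (nat_lit 1012458815) (nat_lit 31) (nat_lit 5) (nat_lit 33) (nat_lit 4) (nat_lit 31) (nat_lit 4) (nat_lit 485) (nat_lit 416) (nat_lit 299))))) (XT.nd (nat_lit 234) (nat_lit 228) (nat_lit 0) (XT.nd (nat_lit 78) (nat_lit 152) (nat_lit 0) (XT.lf (nat_lit 0) (nat_lit 16015762143) (nat_lit 76) (nat_lit 54472466096) (nat_lit 76) (nat_lit 4908461427) (nat_lit 30) (nat_lit 4) (nat_lit 31) (nat_lit 5) (nat_lit 31) (nat_lit 4) (nat_lit 486) (nat_lit 416) (nat_lit 298)) (XT.nd (nat_lit 78) (nat_lit 76) (nat_lit 0) (XT.lf (nat_lit 0) (nat_lit 13167067455) (nat_lit 152) (nat_lit 22578997809) (nat_lit 76) (nat_lit 42397089557) (nat_lit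 29) (nat_lit 5) (nat_lit 31) (nat_lit 5) (nat_lit 30) (nat_lit 4) (nat_lit 487) (nat_lit 416) (nat_lit 297)) (XT.lf (nat_lit 0) (nat_lit 16499057620) (nat_lit 76) (nat_lit 15733951589) (nat_lit 152) (nat_lit 48777331403) (nat_lit 28) (nat_lit 5) (nat_lit 29) (nat_lit 5) (nat_lit 30) (nat_lit 4) (nat_lit 488) (nat_lit 416) (nat_lit 296)))) (XT.nd (nat_lit 156) (nat_lit 152) (nat_lit 0) (XT.nd (nat_lit 78) (nat_lit 76) (nat_lit 0) (XT.lf (nat_lit 0) (nat_lit 52717337942) (nat_lit 152) (nat_lit 25787143394) (nat_lit 0) (nat_lit 5493150197) (nat_lit 28) (nat_lit 5) (nat_lit 30) (nat_lit 4) (nat_lit 28) (nat_lit 4) (nat_lit 489) (nat_lit 416) (nat_lit 295)) (XT.lf (nat_lit 0) (nat_lit 15087103787) (nat_lit 76) (nat_lit 59626568405) (nat_lit 76) (nat_lit 12396225675) (nat_lit 27) (nat_lit 4) (nat_lit 28) (nat_lit 5) (nat_lit 28) (nat_lit 4) (nat_lit 490) (nat_lit 416) (nat_lit 294))) (XT.nd (nat_lit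 78) (nat_lit 76) (nat_lit 0) (XT.lf (nat_lit 0) (nat_lit 7632363848) (nat_lit 152) (nat_lit 31589858731) (nat_lit 76) (nat_lit 51127843972) (nat_lit 26) (nat_lit 5) (nat_lit 28) (nat_lit 5) (nat_lit 27) (nat_lit 4) (nat_lit 491) (nat_lit 416) (nat_lit 293)) (XT.lf (nat_lit 0) (nat_lit 11003145023) (nat_lit 76) (nat_lit 17409017122) (nat_lit 152) (nat_lit 65321602272) (nat_lit 25) (nat_lit 5) (nat_lit 26) (nat_lit 5) (nat_lit 27) (nat_lit 4) (nat_lit 492) (nat_lit 416) (nat_lit 292))))))) (XT.nd (nat_lit 1092) (nat_lit 532) (nat_lit 0) (XT.nd (nat_lit 546) (nat_lit 304) (nat_lit 0) (XT.nd (nat_lit 234) (nat_lit 228) (nat_lit 0) (XT.nd (nat_lit 78) (nat_lit 76) (nat_lit 0) (XT.lf (nat_lit 0) (nat_lit 50855101485) (nat_lit 152) (nat_lit 40542479088) (nat_lit 0) (nat_lit 5857859310) (nat_lit 25) (nat_lit 5) (nat_lit 27) (nat_lit 4) (nat_lit 25) (nat_lit 4) (nat_lit 493) (nat_lit 416) (nat_lit 291))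 (XT.nd (nat_lit 78) (nat_lit 0) (nat_lit 0) (XT.lf (nat_lit 0) (nat_lit 3574019146) (nat_lit 76) (nat_lit 71182221184) (nat_lit 76) (nat_lit 26180156416) (nat_lit 24) (nat_lit 4) (nat_lit 25) (nat_lit 5) (nat_lit 25) (nat_lit 4) (nat_lit 494) (nat_lit 416) (nat_lit 290)) (XT.lf (nat_lit 0) (nat_lit 51294001360) (nat_lit 76) (nat_lit 49239990137) (nat_lit 76) (nat_lit 4233332424) (nat_lit 24) (nat_lit 4) (nat_lit 25) (nat_lit 5) (nat_lit 25) (nat_lit 4) (nat_lit 495) (nat_lit 416) (nat_lit 289)))) (XT.nd (nat_lit 156) (nat_lit 76) (nat_lit 0) (XT.nd (nat_lit 78) (nat_lit 76) (nat_lit 0) (XT.lf (nat_lit 0) (nat_lit 18203878968) (nat_lit 152) (nat_lit 7693080061) (nat_lit 76) (nat_lit 82878398638) (nat_lit 23) (nat_lit 5) (nat_lit 25) (nat_lit 5) (nat_lit 24) (nat_lit 4) (nat_lit 496) (nat_lit 416) (nat_lit 288)) (XT.lf (nat_lit 0) (nat_lit 41630078678) (nat_lit 76) (nat_lit 635909888) (nat_lit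 152) (nat_lit 70682069527) (nat_lit 22) (nat_lit 5) (nat_lit 23) (nat_lit 5) (nat_lit 24) (nat_lit 4) (nat_lit 497) (nat_lit 416) (nat_lit 287))) (XT.nd (nat_lit 78) (nat_lit 76) (nat_lit 0) (XT.lf (nat_lit 0) (nat_lit 68063168923) (nat_lit 152) (nat_lit 24051853286) (nat_lit 0) (nat_lit 25187773263) (nat_lit 22) (nat_lit 5) (nat_lit 24) (nat_lit 4) (nat_lit 22) (nat_lit 4) (nat_lit 498) (nat_lit 416) (nat_lit 286)) (XT.lf (nat_lit 0) (nat_lit 26403534578) (nat_lit 76) (nat_lit 69164908960) (nat_lit 76) (nat_lit 26285914608) (nat_lit 21) (nat_lit 4) (nat_lit 22) (nat_lit 5) (nat_lit 22) (nat_lit 4) (nat_lit 499) (nat_lit 416) (nat_lit 285))))) (XT.nd (nat_lit 234) (nat_lit 152) (nat_lit 0) (XT.nd (nat_lit 78) (nat_lit 152) (nat_lit 0) (XT.lf (nat_lit 0) (nat_lit 80208160340) (nat_lit 76) (nat_lit 44643805633) (nat_lit 76) (nat_lit 1761383954) (nat_lit 21) (nat_lit 4) (nat_lit 22) (nat_lit 5)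 (nat_lit 22) (nat_lit 4) (nat_lit 500) (nat_lit 416) (nat_lit 284)) (XT.nd (nat_lit 78) (nat_lit 0) (nat_lit 0) (XT.lf (nat_lit 0) (nat_lit 4865625874) (nat_lit 76) (nat_lit 18427696893) (nat_lit 152) (nat_lit 108294653661) (nat_lit 19) (nat_lit 5) (nat_lit 20) (nat_lit 5) (nat_lit 21) (nat_lit 4) (nat_lit 501) (nat_lit 416) (nat_lit 283)) (XT.lf (nat_lit 0) (nat_lit 50478216349) (nat_lit 152) (nat_lit 76653096612) (nat_lit 0) (nat_lit 9631745410) (nat_lit 19) (nat_lit 5) (nat_lit 21) (nat_lit 4) (nat_lit 19) (nat_lit 4) (nat_lit 502) (nat_lit 416) (nat_lit 282)))) (XT.nd (nat_lit 156) (nat_lit 76) (nat_lit 0) (XT.nd (nat_lit 78) (nat_lit 76) (nat_lit 0) (XT.lf (nat_lit 0) (nat_lit 79320451276) (nat_lit 152) (nat_lit 24390377782) (nat_lit 0) (nat_lit 38471160667) (nat_lit 19) (nat_lit 5) (nat_lit 21) (nat_lit 4) (nat_lit 19) (nat_lit 4) (nat_lit 503) (nat_lit 416) (nat_lit 281)) (XT.lf (nat_lit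 0) (nat_lit 31485687608) (nat_lit 76) (nat_lit 78606883758) (nat_lit 76) (nat_lit 37754907749) (nat_lit 18) (nat_lit 4) (nat_lit 19) (nat_lit 5) (nat_lit 19) (nat_lit 4) (nat_lit 504) (nat_lit 416) (nat_lit 280))) (XT.nd (nat_lit 78) (nat_lit 76) (nat_lit 0) (XT.lf (nat_lit 0) (nat_lit 90994928512) (nat_lit 76) (nat_lit 51817691012) (nat_lit 76) (nat_lit 10963157479) (nat_lit 18) (nat_lit 4) (nat_lit 19) (nat_lit 5) (nat_lit 19) (nat_lit 4) (nat_lit 505) (nat_lit 416) (nat_lit 279)) (XT.lf (nat_lit 0) (nat_lit 16615070136) (nat_lit 152) (nat_lit 6796075490) (nat_lit 76) (nat_lit 136576123172) (nat_lit 17) (nat_lit 5) (nat_lit 19) (nat_lit 5) (nat_lit 18) (nat_lit 4) (nat_lit 506) (nat_lit 416) (nat_lit 278)))))) (XT.nd (nat_lit 546) (nat_lit 228) (nat_lit 0) (XT.nd (nat_lit 234) (nat_lit 152) (nat_lit 0) (XT.nd (nat_lit 78) (nat_lit 76) (nat_lit 0) (XT.lf (nat_lit 0) (nat_lit 46152590310) (nat_lit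 152) (nat_lit 113061336313) (nat_lit 0) (nat_lit 7238981720) (nat_lit 16) (nat_lit 5) (nat_lit 18) (nat_lit 4) (nat_lit 16) (nat_lit 4) (nat_lit 507) (nat_lit 416) (nat_lit 277)) (XT.nd (nat_lit 78) (nat_lit 76) (nat_lit 0) (XT.lf (nat_lit 0) (nat_lit 77664315898) (nat_lit 152) (nat_lit 56804044379) (nat_lit 0) (nat_lit 38748603227) (nat_lit 16) (nat_lit 5) (nat_lit 18) (nat_lit 4) (nat_lit 16) (nat_lit 4) (nat_lit 508) (nat_lit 416) (nat_lit 276)) (XT.lf (nat_lit 0) (nat_lit 2334310860) (nat_lit 76) (nat_lit 108450484425) (nat_lit 76) (nat_lit 69532767867) (nat_lit 15) (nat_lit 4) (nat_lit 16) (nat_lit 5) (nat_lit 16) (nat_lit 4) (nat_lit 509) (nat_lit 416) (nat_lit 275)))) (XT.nd (nat_lit 156) (nat_lit 152) (nat_lit 0) (XT.nd (nat_lit 78) (nat_lit 0) (nat_lit 0) (XT.lf (nat_lit 0) (nat_lit 66395283264) (nat_lit 76) (nat_lit 80124797760) (nat_lit 76) (nat_lit 41205172739) (nat_lit 15) (nat_lit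 4) (nat_lit 16) (nat_lit 5) (nat_lit 16) (nat_lit 4) (nat_lit 510) (nat_lit 416) (nat_lit 274)) (XT.lf (nat_lit 0) (nat_lit 133653200713) (nat_lit 76) (nat_lit 50385862150) (nat_lit 76) (nat_lit 11464419545) (nat_lit 15) (nat_lit 4) (nat_lit 16) (nat_lit 5) (nat_lit 16) (nat_lit 4) (nat_lit 511) (nat_lit 416) (nat_lit 273))) (XT.nd (nat_lit 78) (nat_lit 0) (nat_lit 0) (XT.lf (nat_lit 0) (nat_lit 298471675) (nat_lit 76) (nat_lit 18834038233) (nat_lit 152) (nat_lit 184522600087) (nat_lit 13) (nat_lit 5) (nat_lit 14) (nat_lit 5) (nat_lit 15) (nat_lit 4) (nat_lit 512) (nat_lit 416) (nat_lit 272)) (XT.lf (nat_lit 0) (nat_lit 52158868391) (nat_lit 152) (nat_lit 144894201363) (nat_lit 0) (nat_lit 15087609114) (nat_lit 13) (nat_lit 5) (nat_lit 15) (nat_lit 4) (nat_lit 13) (nat_lit 4) (nat_lit 513) (nat_lit 416) (nat_lit 271))))) (XT.nd (nat_lit 312) (nat_lit 152) (nat_lit 0) (XT.nd (nat_lit 156) (nat_lit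 76) (nat_lit 0) (XT.nd (nat_lit 78) (nat_lit 0) (nat_lit 0) (XT.lf (nat_lit 0) (nat_lit 87142476033) (nat_lit 152) (nat_lit 83823032242) (nat_lit 0) (nat_lit 50069721424) (nat_lit 13) (nat_lit 5) (nat_lit 15) (nat_lit 4) (nat_lit 13) (nat_lit 4) (nat_lit 514) (nat_lit 416) (nat_lit 270)) (XT.lf (nat_lit 0) (nat_lit 123872575019) (nat_lit 152) (nat_lit 19703671293) (nat_lit 0) (nat_lit 86798396286) (nat_lit 13) (nat_lit 5) (nat_lit 15) (nat_lit 4) (nat_lit 13) (nat_lit 4) (nat_lit 515) (nat_lit 416) (nat_lit 269))) (XT.nd (nat_lit 78) (nat_lit 0) (nat_lit 0) (XT.lf (nat_lit 0) (nat_lit 49190964702) (nat_lit 76) (nat_lit 114013662081) (nat_lit 76) (nat_lit 76938127038) (nat_lit 12) (nat_lit 4) (nat_lit 13) (nat_lit 5) (nat_lit 13) (nat_lit 4) (nat_lit 516) (nat_lit 416) (nat_lit 268)) (XT.lf (nat_lit 0) (nat_lit 122209370835) (nat_lit 76) (nat_lit 82625083960) (nat_lit 76) (nat_lit 45548257194)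 (nat_lit 12) (nat_lit 4) (nat_lit 13) (nat_lit 5) (nat_lit 13) (nat_lit 4) (nat_lit 517) (nat_lit 416) (nat_lit 267)))) (XT.nd (nat_lit 156) (nat_lit 0) (nat_lit 0) (XT.nd (nat_lit 78) (nat_lit 152) (nat_lit 0) (XT.lf (nat_lit 0) (nat_lit 198873908095) (nat_lit 76) (nat_lit 49669468448) (nat_lit 76) (nat_lit 12591411469) (nat_lit 12) (nat_lit 4) (nat_lit 13) (nat_lit 5) (nat_lit 13) (nat_lit 4) (nat_lit 518) (nat_lit 416) (nat_lit 266)) (XT.lf (nat_lit 0) (nat_lit 6817066209) (nat_lit 76) (nat_lit 14595760531) (nat_lit 152) (nat_lit 250989251082) (nat_lit 10) (nat_lit 5) (nat_lit 11) (nat_lit 5) (nat_lit 12) (nat_lit 4) (nat_lit 519) (nat_lit 416) (nat_lit 265))) (XT.nd (nat_lit 78) (nat_lit 0) (nat_lit 0) (XT.lf (nat_lit 0) (nat_lit 58110607311) (nat_lit 152) (nat_lit 203244986267) (nat_lit 0) (nat_lit 22795993549) (nat_lit 10) (nat_lit 5) (nat_lit 12) (nat_lit 4) (nat_lit 10) (nat_lit 4)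 (nat_lit 520) (nat_lit 416) (nat_lit 264)) (XT.lf (nat_lit 0) (nat_lit 96880344698) (nat_lit 152) (nat_lit 138031655024) (nat_lit 0) (nat_lit 61564718838) (nat_lit 10) (nat_lit 5) (nat_lit 12) (nat_lit 4) (nat_lit 10) (nat_lit 4) (nat_lit 521) (nat_lit 416) (nat_lit 263))))))))
noncomputable def xc134 : XT := (XT.nd (nat_lit 54756) (nat_lit 0) (nat_lit 5168) (XT.nd (nat_lit 1092) (nat_lit 152) (nat_lit 0) (XT.nd (nat_lit 546) (nat_lit 76) (nat_lit 0) (XT.nd (nat_lit 234) (nat_lit 152) (nat_lit 0) (XT.nd (nat_lit 78) (nat_lit 76) (nat_lit 0) (XT.lf (nat_lit 0) (nat_lit 137586467075) (nat_lit 152) (nat_lit 69561867323) (nat_lit 0) (nat_lit 102269877311) (nat_lit 10) (nat_lit 5) (nat_lit 12) (nat_lit 4) (nat_lit 10) (nat_lit 4) (nat_lit 522) (nat_lit 416) (nat_lit 262)) (XT.nd (nat_lit 78) (nat_lit 0) (nat_lit 0) (XT.lf (nat_lit 0) (nat_lit 2404354499) (nat_lit 76) (nat_lit 177959077993) (nat_lit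 76) (nat_lit 142641570225) (nat_lit 9) (nat_lit 4) (nat_lit 10) (nat_lit 5) (nat_lit 10) (nat_lit 4) (nat_lit 523) (nat_lit 416) (nat_lit 261)) (XT.lf (nat_lit 0) (nat_lit 80379973421) (nat_lit 76) (nat_lit 146075368583) (nat_lit 76) (nat_lit 110756986526) (nat_lit 9) (nat_lit 4) (nat_lit 10) (nat_lit 5) (nat_lit 10) (nat_lit 4) (nat_lit 524) (nat_lit 416) (nat_lit 260)))) (XT.nd (nat_lit 156) (nat_lit 152) (nat_lit 0) (XT.nd (nat_lit 78) (nat_lit 0) (nat_lit 0) (XT.lf (nat_lit 0) (nat_lit 162250616193) (nat_lit 76) (nat_lit 112599356457) (nat_lit 76) (nat_lit 77280141744) (nat_lit 9) (nat_lit 4) (nat_lit 10) (nat_lit 5) (nat_lit 10) (nat_lit 4) (nat_lit 525) (nat_lit 416) (nat_lit 259)) (XT.lf (nat_lit 0) (nat_lit 248211212916) (nat_lit 76) (nat_lit 77451336825) (nat_lit 76) (nat_lit 42131329105) (nat_lit 9) (nat_lit 4) (nat_lit 10) (nat_lit 5) (nat_lit 10) (nat_lit 4) (nat_lit 526) (nat_lit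 416) (nat_lit 258))) (XT.nd (nat_lit 78) (nat_lit 152) (nat_lit 0) (XT.lf (nat_lit 0) (nat_lit 338466431679) (nat_lit 76) (nat_lit 40547623925) (nat_lit 76) (nat_lit 5226860962) (nat_lit 9) (nat_lit 4) (nat_lit 10) (nat_lit 5) (nat_lit 10) (nat_lit 4) (nat_lit 527) (nat_lit 416) (nat_lit 257)) (XT.lf (nat_lit 0) (nat_lit 32228947497) (nat_lit 76) (nat_lit 722481644) (nat_lit 152) (nat_lit 368507630873) (nat_lit 7) (nat_lit 5) (nat_lit 8) (nat_lit 5) (nat_lit 9) (nat_lit 4) (nat_lit 528) (nat_lit 416) (nat_lit 256))))) (XT.nd (nat_lit 234) (nat_lit 76) (nat_lit 0) (XT.nd (nat_lit 78) (nat_lit 0) (nat_lit 0) (XT.lf (nat_lit 0) (nat_lit 74290846172) (nat_lit 152) (nat_lit 304520899859) (nat_lit 0) (nat_lit 40650686866) (nat_lit 7) (nat_lit 5) (nat_lit 9) (nat_lit 4) (nat_lit 7) (nat_lit 4) (nat_lit 529) (nat_lit 416) (nat_lit 255)) (XT.nd (nat_lit 78) (nat_lit 0) (nat_lit 0) (XT.lf (nat_lit 0)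 (nat_lit 117707512817) (nat_lit 152) (nat_lit 236591215530) (nat_lit 0) (nat_lit 84066732170) (nat_lit 7) (nat_lit 5) (nat_lit 9) (nat_lit 4) (nat_lit 7) (nat_lit 4) (nat_lit 530) (nat_lit 416) (nat_lit 254)) (XT.lf (nat_lit 0) (nat_lit 163293522129) (nat_lit 152) (nat_lit 165268042226) (nat_lit 0) (nat_lit 129652149728) (nat_lit 7) (nat_lit 5) (nat_lit 9) (nat_lit 4) (nat_lit 7) (nat_lit 4) (nat_lit 531) (nat_lit 416) (nat_lit 253)))) (XT.nd (nat_lit 156) (nat_lit 76) (nat_lit 0) (XT.nd (nat_lit 78) (nat_lit 0) (nat_lit 0) (XT.lf (nat_lit 0) (nat_lit 211157412225) (nat_lit 152) (nat_lit 90381562866) (nat_lit 0) (nat_lit 177515476249) (nat_lit 7) (nat_lit 5) (nat_lit 9) (nat_lit 4) (nat_lit 7) (nat_lit 4) (nat_lit 532) (nat_lit 416) (nat_lit 252)) (XT.lf (nat_lit 0) (nat_lit 261413144748) (nat_lit 152) (nat_lit 11753476310) (nat_lit 0) (nat_lit 227770672035) (nat_lit 7) (nat_lit 5) (nat_lit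 9) (nat_lit 4) (nat_lit 7) (nat_lit 4) (nat_lit 533) (nat_lit 416) (nat_lit 251))) (XT.nd (nat_lit 78) (nat_lit 0) (nat_lit 0) (XT.lf (nat_lit 0) (nat_lit 73144508232) (nat_lit 76) (nat_lit 242177858732) (nat_lit 76) (nat_lit 208534874840) (nat_lit 6) (nat_lit 4) (nat_lit 7) (nat_lit 5) (nat_lit 7) (nat_lit 4) (nat_lit 534) (nat_lit 416) (nat_lit 250)) (XT.lf (nat_lit 0) (nat_lit 162692900491) (nat_lit 76) (nat_lit 209431934491) (nat_lit 76) (nat_lit 175788463762) (nat_lit 6) (nat_lit 4) (nat_lit 7) (nat_lit 5) (nat_lit 7) (nat_lit 4) (nat_lit 535) (nat_lit 416) (nat_lit 249)))))) (XT.nd (nat_lit 546) (nat_lit 0) (nat_lit 0) (XT.nd (nat_lit 234) (nat_lit 152) (nat_lit 0) (XT.nd (nat_lit 78) (nat_lit 0) (nat_lit 0) (XT.lf (nat_lit 0) (nat_lit 256716287916) (nat_lit 76) (nat_lit 175049932656) (nat_lit 76) (nat_lit 141405998273) (nat_lit 6) (nat_lit 4) (nat_lit 7) (nat_lit 5) (nat_lit 7) (nat_lit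 4) (nat_lit 536) (nat_lit 416) (nat_lit 248)) (XT.nd (nat_lit 78) (nat_lit 0) (nat_lit 0) (XT.lf (nat_lit 0) (nat_lit 355438535716) (nat_lit 76) (nat_lit 138949991319) (nat_lit 76) (nat_lit 105305615361) (nat_lit 6) (nat_lit 4) (nat_lit 7) (nat_lit 5) (nat_lit 7) (nat_lit 4) (nat_lit 537) (nat_lit 416) (nat_lit 247)) (XT.lf (nat_lit 0) (nat_lit 459094696861) (nat_lit 76) (nat_lit 101046158239) (nat_lit 76) (nat_lit 67401361732) (nat_lit 6) (nat_lit 4) (nat_lit 7) (nat_lit 5) (nat_lit 7) (nat_lit 4) (nat_lit 538) (nat_lit 416) (nat_lit 246)))) (XT.nd (nat_lit 156) (nat_lit 76) (nat_lit 0) (XT.nd (nat_lit 78) (nat_lit 76) (nat_lit 0) (XT.lf (nat_lit 0) (nat_lit 567931571735) (nat_lit 76) (nat_lit 61248186193) (nat_lit 76) (nat_lit 27602989164) (nat_lit 6) (nat_lit 4) (nat_lit 7) (nat_lit 5) (nat_lit 7) (nat_lit 4) (nat_lit 539) (nat_lit 416) (nat_lit 245)) (XT.lf (nat_lit 0) (nat_lit 13730275458)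 (nat_lit 152) (nat_lit 5498513788) (nat_lit 76) (nat_lit 668245491438) (nat_lit 5) (nat_lit 5) (nat_lit 7) (nat_lit 5) (nat_lit 6) (nat_lit 4) (nat_lit 540) (nat_lit 416) (nat_lit 244))) (XT.nd (nat_lit 78) (nat_lit 0) (nat_lit 0) (XT.lf (nat_lit 0) (nat_lit 57934801387) (nat_lit 152) (nat_lit 635765304883) (nat_lit 0) (nat_lit 25891047327) (nat_lit 4) (nat_lit 5) (nat_lit 6) (nat_lit 4) (nat_lit 4) (nat_lit 4) (nat_lit 541) (nat_lit 416) (nat_lit 243)) (XT.lf (nat_lit 0) (nat_lit 104758467046) (nat_lit 152) (nat_lit 575820573980) (nat_lit 0) (nat_lit 72714383475) (nat_lit 4) (nat_lit 5) (nat_lit 6) (nat_lit 4) (nat_lit 4) (nat_lit 4) (nat_lit 542) (nat_lit 416) (nat_lit 242))))) (XT.nd (nat_lit 52806) (nat_lit 0) (nat_lit 10032) (XT.nd (nat_lit 52650) (nat_lit 0) (nat_lit 10032) (XT.lf (nat_lit 0) (nat_lit 153922402493) (nat_lit 152) (nat_lit 512880447046) (nat_lit 0) (nat_lit 121878005103)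 (nat_lit 4) (nat_lit 5) (nat_lit 6) (nat_lit 4) (nat_lit 4) (nat_lit 4) (nat_lit 543) (nat_lit 416) (nat_lit 241)) (XT.nd (nat_lit 78) (nat_lit 0) (nat_lit 0) (XT.lf (nat_lit 0) (nat_lit 636290852) (nat_lit 0) (nat_lit 636290852) (nat_lit 684) (nat_lit 3638056391) (nat_lit 136) (nat_lit 5) (nat_lit 136) (nat_lit 3) (nat_lit 145) (nat_lit 3) (nat_lit 417) (nat_lit 417) (nat_lit 366)) (XT.lf (nat_lit 0) (nat_lit 3380766932) (nat_lit 684) (nat_lit 3768695427) (nat_lit 760) (nat_lit 2878445631) (nat_lit 136) (nat_lit 5) (nat_lit 145) (nat_lit 3) (nat_lit 146) (nat_lit 5) (nat_lit 418) (nat_lit 417) (nat_lit 365)))) (XT.nd (nat_lit 156) (nat_lit 0) (nat_lit 76) (XT.nd (nat_lit 78) (nat_lit 0) (nat_lit 76) (XT.lf (nat_lit 76) (nat_lit 1243309123) (nat_lit 0) (nat_lit 3009033476) (nat_lit 760) (nat_lit 5992838474) (nat_lit 137) (nat_lit 5) (nat_lit 136) (nat_lit 5) (nat_lit 146) (nat_lit 5) (nat_lit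 419) (nat_lit 417) (nat_lit 364)) (XT.lf (nat_lit 0) (nat_lit 5209272187) (nat_lit 684) (nat_lit 3883348599) (nat_lit 760) (nat_lit 1378626639) (nat_lit 137) (nat_lit 5) (nat_lit 146) (nat_lit 5) (nat_lit 147) (nat_lit 5) (nat_lit 420) (nat_lit 417) (nat_lit 363))) (XT.nd (nat_lit 78) (nat_lit 0) (nat_lit 0) (XT.lf (nat_lit 76) (nat_lit 1461862392) (nat_lit 0) (nat_lit 4782440633) (nat_lit 760) (nat_lit 4462818833) (nat_lit 138) (nat_lit 5) (nat_lit 137) (nat_lit 5) (nat_lit 147) (nat_lit 5) (nat_lit 421) (nat_lit 417) (nat_lit 362)) (XT.lf (nat_lit 76) (nat_lit 7182886819) (nat_lit 0) (nat_lit 173652550) (nat_lit 760) (nat_lit 3596994607) (nat_lit 138) (nat_lit 5) (nat_lit 137) (nat_lit 5) (nat_lit 147) (nat_lit 5) (nat_lit 422) (nat_lit 417) (nat_lit 361))))))) (XT.nd (nat_lit 1092) (nat_lit 2128) (nat_lit 0) (XT.nd (nat_lit 546) (nat_lit 1520) (nat_lit 0) (XT.nd (nat_lit 234) (nat_lit 1368)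 (nat_lit 0) (XT.nd (nat_lit 78) (nat_lit 0) (nat_lit 0) (XT.lf (nat_lit 76) (nat_lit 1939776341) (nat_lit 0) (nat_lit 6649555282) (nat_lit 760) (nat_lit 2619703747) (nat_lit 139) (nat_lit 5) (nat_lit 138) (nat_lit 5) (nat_lit 148) (nat_lit 5) (nat_lit 423) (nat_lit 417) (nat_lit 360)) (XT.nd (nat_lit 78) (nat_lit 0) (nat_lit 76) (XT.lf (nat_lit 76) (nat_lit 8036964892) (nat_lit 0) (nat_lit 1876674278) (nat_lit 760) (nat_lit 1562193996) (nat_lit 139) (nat_lit 5) (nat_lit 138) (nat_lit 5) (nat_lit 148) (nat_lit 5) (nat_lit 424) (nat_lit 417) (nat_lit 359)) (XT.lf (nat_lit 76) (nat_lit 2692921958) (nat_lit 0) (nat_lit 8667346241) (nat_lit 760) (nat_lit 392911741) (nat_lit 140) (nat_lit 5) (nat_lit 139) (nat_lit 5) (nat_lit 149) (nat_lit 5) (nat_lit 425) (nat_lit 417) (nat_lit 358)))) (XT.nd (nat_lit 156) (nat_lit 684) (nat_lit 0) (XT.nd (nat_lit 78) (nat_lit 0) (nat_lit 76) (XT.lf (nat_lit 0)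 (nat_lit 863867623) (nat_lit 760) (nat_lit 2863613900) (nat_lit 836) (nat_lit 8313486238) (nat_lit 129) (nat_lit 5) (nat_lit 139) (nat_lit 5) (nat_lit 140) (nat_lit 5) (nat_lit 426) (nat_lit 417) (nat_lit 357)) (XT.lf (nat_lit 0) (nat_lit 2219861551) (nat_lit 760) (nat_lit 8636448188) (nat_lit 76) (nat_lit 1484046611) (nat_lit 130) (nat_lit 5) (nat_lit 140) (nat_lit 5) (nat_lit 131) (nat_lit 5) (nat_lit 427) (nat_lit 417) (nat_lit 356))) (XT.nd (nat_lit 78) (nat_lit 760) (nat_lit 0) (XT.lf (nat_lit 0) (nat_lit 3722696948) (nat_lit 760) (nat_lit 2042931547) (nat_lit 76) (nat_lit 6885145629) (nat_lit 130) (nat_lit 5) (nat_lit 140) (nat_lit 5) (nat_lit 131) (nat_lit 5) (nat_lit 428) (nat_lit 417) (nat_lit 355)) (XT.lf (nat_lit 0) (nat_lit 5014110175) (nat_lit 760) (nat_lit 334985206) (nat_lit 836) (nat_lit 7625207621) (nat_lit 120) (nat_lit 5) (nat_lit 130) (nat_lit 5) (nat_lit 131) (nat_lit 5)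 (nat_lit 429) (nat_lit 417) (nat_lit 354))))) (XT.nd (nat_lit 234) (nat_lit 760) (nat_lit 0) (XT.nd (nat_lit 78) (nat_lit 760) (nat_lit 0) (XT.lf (nat_lit 0) (nat_lit 7146967033) (nat_lit 836) (nat_lit 929411108) (nat_lit 76) (nat_lit 5233133262) (nat_lit 120) (nat_lit 5) (nat_lit 131) (nat_lit 5) (nat_lit 121) (nat_lit 5) (nat_lit 430) (nat_lit 417) (nat_lit 353)) (XT.nd (nat_lit 78) (nat_lit 380) (nat_lit 0) (XT.lf (nat_lit 0) (nat_lit 6633347071) (nat_lit 380) (nat_lit 2483004942) (nat_lit 456) (nat_lit 4541057454) (nat_lit 115) (nat_lit 5) (nat_lit 120) (nat_lit 5) (nat_lit 121) (nat_lit 5) (nat_lit 431) (nat_lit 417) (nat_lit 352)) (XT.lf (nat_lit 0) (nat_lit 520777168) (nat_lit 380) (nat_lit 10713959334) (nat_lit 456) (nat_lit 2785449164) (nat_lit 110) (nat_lit 5) (nat_lit 115) (nat_lit 5) (nat_lit 116) (nat_lit 5) (nat_lit 432) (nat_lit 417) (nat_lit 351)))) (XT.nd (nat_lit 156) (nat_lit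 304) (nat_lit 0) (XT.nd (nat_lit 78) (nat_lit 456) (nat_lit 0) (XT.lf (nat_lit 0) (nat_lit 8617807999) (nat_lit 380) (nat_lit 4974553830) (nat_lit 456) (nat_lit 802082044) (nat_lit 110) (nat_lit 5) (nat_lit 115) (nat_lit 5) (nat_lit 116) (nat_lit 5) (nat_lit 433) (nat_lit 417) (nat_lit 350)) (XT.lf (nat_lit 0) (nat_lit 1268800498) (nat_lit 456) (nat_lit 12441699713) (nat_lit 76) (nat_lit 1074457146) (nat_lit 104) (nat_lit 5) (nat_lit 110) (nat_lit 5) (nat_lit 105) (nat_lit 5) (nat_lit 434) (nat_lit 417) (nat_lit 349))) (XT.nd (nat_lit 78) (nat_lit 304) (nat_lit 0) (XT.lf (nat_lit 0) (nat_lit 3573135591) (nat_lit 456) (nat_lit 4243878224) (nat_lit 76) (nat_lit 7369490089) (nat_lit 104) (nat_lit 5) (nat_lit 110) (nat_lit 5) (nat_lit 105) (nat_lit 5) (nat_lit 435) (nat_lit 417) (nat_lit 348)) (XT.lf (nat_lit 0) (nat_lit 4481392517) (nat_lit 304) (nat_lit 1558290284) (nat_lit 380) (nat_lit 9566102845)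 (nat_lit 100) (nat_lit 5) (nat_lit 104) (nat_lit 5) (nat_lit 105) (nat_lit 5) (nat_lit 436) (nat_lit 417) (nat_lit 347)))))) (XT.nd (nat_lit 546) (nat_lit 988) (nat_lit 0) (XT.nd (nat_lit 234) (nat_lit 836) (nat_lit 0) (XT.nd (nat_lit 78) (nat_lit 304) (nat_lit 0) (XT.lf (nat_lit 0) (nat_lit 8758555509) (nat_lit 380) (nat_lit 2358152583) (nat_lit 76) (nat_lit 4922880747) (nat_lit 100) (nat_lit 5) (nat_lit 105) (nat_lit 5) (nat_lit 101) (nat_lit 5) (nat_lit 437) (nat_lit 417) (nat_lit 346)) (XT.nd (nat_lit 78) (nat_lit 0) (nat_lit 0) (XT.lf (nat_lit 0) (nat_lit 7020281970) (nat_lit 304) (nat_lit 4706980020) (nat_lit 380) (nat_lit 4762132619) (nat_lit 96) (nat_lit 5) (nat_lit 100) (nat_lit 5) (nat_lit 101) (nat_lit 5) (nat_lit 438) (nat_lit 417) (nat_lit 345)) (XT.lf (nat_lit 0) (nat_lit 14895879913) (nat_lit 380) (nat_lit 68259141) (nat_lit 76) (nat_lit 1994984403) (nat_lit 96) (nat_lit 5) (nat_lit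 101) (nat_lit 5) (nat_lit 97) (nat_lit 5) (nat_lit 439) (nat_lit 417) (nat_lit 344)))) (XT.nd (nat_lit 156) (nat_lit 228) (nat_lit 0) (XT.nd (nat_lit 78) (nat_lit 304) (nat_lit 0) (XT.lf (nat_lit 0) (nat_lit 963338747) (nat_lit 304) (nat_lit 7435559271) (nat_lit 76) (nat_lit 9041974536) (nat_lit 92) (nat_lit 5) (nat_lit 96) (nat_lit 5) (nat_lit 93) (nat_lit 5) (nat_lit 440) (nat_lit 417) (nat_lit 343)) (XT.lf (nat_lit 0) (nat_lit 2664879903) (nat_lit 304) (nat_lit 1430336629) (nat_lit 380) (nat_lit 13848641841) (nat_lit 88) (nat_lit 5) (nat_lit 92) (nat_lit 5) (nat_lit 93) (nat_lit 5) (nat_lit 441) (nat_lit 417) (nat_lit 342))) (XT.nd (nat_lit 78) (nat_lit 228) (nat_lit 0) (XT.lf (nat_lit 0) (nat_lit 7584567656) (nat_lit 380) (nat_lit 5056499869) (nat_lit 76) (nat_lit 5820887414) (nat_lit 88) (nat_lit 5) (nat_lit 93) (nat_lit 5) (nat_lit 89) (nat_lit 5) (nat_lit 442) (nat_lit 417) (nat_lit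 341)) (XT.lf (nat_lit 0) (nat_lit 5815680227) (nat_lit 228) (nat_lit 5528842042) (nat_lit 304) (nat_lit 7656632434) (nat_lit 85) (nat_lit 5) (nat_lit 88) (nat_lit 5) (nat_lit 89) (nat_lit 5) (nat_lit 443) (nat_lit 417) (nat_lit 340))))) (XT.nd (nat_lit 312) (nat_lit 456) (nat_lit 0) (XT.nd (nat_lit 156) (nat_lit 304) (nat_lit 0) (XT.nd (nat_lit 78) (nat_lit 228) (nat_lit 0) (XT.lf (nat_lit 0) (nat_lit 15392071342) (nat_lit 304) (nat_lit 2212204187) (nat_lit 76) (nat_lit 1958064011) (nat_lit 85) (nat_lit 5) (nat_lit 89) (nat_lit 5) (nat_lit 86) (nat_lit 5) (nat_lit 444) (nat_lit 417) (nat_lit 339)) (XT.lf (nat_lit 0) (nat_lit 9499799046) (nat_lit 228) (nat_lit 10364283087) (nat_lit 304) (nat_lit 276401960) (nat_lit 82) (nat_lit 5) (nat_lit 85) (nat_lit 5) (nat_lit 86) (nat_lit 5) (nat_lit 445) (nat_lit 417) (nat_lit 338))) (XT.nd (nat_lit 78) (nat_lit 0) (nat_lit 0) (XT.lf (nat_lit 0) (nat_lit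 1079431883) (nat_lit 228) (nat_lit 2648944908) (nat_lit 304) (nat_lit 17014275807) (nat_lit 78) (nat_lit 5) (nat_lit 81) (nat_lit 5) (nat_lit 82) (nat_lit 5) (nat_lit 446) (nat_lit 417) (nat_lit 337)) (XT.lf (nat_lit 0) (nat_lit 8176014972) (nat_lit 304) (nat_lit 7727409946) (nat_lit 76) (nat_lit 5458686629) (nat_lit 78) (nat_lit 5) (nat_lit 82) (nat_lit 5) (nat_lit 79) (nat_lit 5) (nat_lit 447) (nat_lit 417) (nat_lit 336)))) (XT.nd (nat_lit 156) (nat_lit 228) (nat_lit 0) (XT.nd (nat_lit 78) (nat_lit 0) (nat_lit 0) (XT.lf (nat_lit 0) (nat_lit 4895739284) (nat_lit 228) (nat_lit 8054563578) (nat_lit 304) (nat_lit 9057031051) (nat_lit 75) (nat_lit 5) (nat_lit 78) (nat_lit 5) (nat_lit 79) (nat_lit 5) (nat_lit 448) (nat_lit 417) (nat_lit 335)) (XT.lf (nat_lit 0) (nat_lit 18083921594) (nat_lit 304) (nat_lit 4288017234) (nat_lit 76) (nat_lit 306851415) (nat_lit 75) (nat_lit 5) (nat_lit 79) (nat_lit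 5) (nat_lit 76) (nat_lit 5) (nat_lit 449) (nat_lit 417) (nat_lit 334))) (XT.nd (nat_lit 78) (nat_lit 0) (nat_lit 0) (XT.lf (nat_lit 0) (nat_lit 354804416) (nat_lit 228) (nat_lit 14055276031) (nat_lit 76) (nat_lit 8960306907) (nat_lit 72) (nat_lit 5) (nat_lit 75) (nat_lit 5) (nat_lit 73) (nat_lit 5) (nat_lit 450) (nat_lit 417) (nat_lit 333)) (XT.lf (nat_lit 0) (nat_lit 5456892220) (nat_lit 228) (nat_lit 444221829) (nat_lit 76) (nat_lit 18188719716) (nat_lit 72) (nat_lit 5) (nat_lit 75) (nat_lit 5) (nat_lit 73) (nat_lit 5) (nat_lit 451) (nat_lit 417) (nat_lit 332))))))))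
noncomputable def xc135 : XT := (XT.nd (nat_lit 2184) (nat_lit 1444) (nat_lit 0) (XT.nd (nat_lit 1092) (nat_lit 1140) (nat_lit 0) (XT.nd (nat_lit 546) (nat_lit 760) (nat_lit 0) (XT.nd (nat_lit 234) (nat_lit 532) (nat_lit 0) (XT.nd (nat_lit 78) (nat_lit 152) (nat_lit 0) (XT.lf (nat_lit 0) (nat_lit 11074219593) (nat_lit 304) (nat_lit 10602136570) (nat_lit 76) (nat_lit 3155892597) (nat_lit 69) (nat_lit 5) (nat_lit 73) (nat_lit 5) (nat_lit 70) (nat_lit 5) (nat_lit 452) (nat_lit 417) (nat_lit 331)) (XT.nd (nat_lit 78) (nat_lit 0) (nat_lit 0) (XT.lf (nat_lit 0) (nat_lit 4053849419) (nat_lit 152) (nat_lit 13072690015) (nat_lit 228) (nat_lit 8477541643) (nat_lit 67) (nat_lit 5) (nat_lit 69) (nat_lit 5) (nat_lit 70) (nat_lit 5) (nat_lit 453) (nat_lit 417) (nat_lit 330)) (XT.lf (nat_lit 0) (nat_lit 19789845982) (nat_lit 152) (nat_lit 3857949205) (nat_lit 228) (nat_lit 2758396567) (nat_lit 67) (nat_lit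 5) (nat_lit 69) (nat_lit 5) (nat_lit 70) (nat_lit 5) (nat_lit 454) (nat_lit 417) (nat_lit 329)))) (XT.nd (nat_lit 156) (nat_lit 304) (nat_lit 0) (XT.nd (nat_lit 78) (nat_lit 0) (nat_lit 0) (XT.lf (nat_lit 0) (nat_lit 3368951626) (nat_lit 228) (nat_lit 18042585556) (nat_lit 76) (nat_lit 5823030724) (nat_lit 64) (nat_lit 5) (nat_lit 67) (nat_lit 5) (nat_lit 65) (nat_lit 5) (nat_lit 455) (nat_lit 417) (nat_lit 328)) (XT.lf (nat_lit 0) (nat_lit 9874470284) (nat_lit 228) (nat_lit 2209117682) (nat_lit 76) (nat_lit 16010291121) (nat_lit 64) (nat_lit 5) (nat_lit 67) (nat_lit 5) (nat_lit 65) (nat_lit 5) (nat_lit 456) (nat_lit 417) (nat_lit 327))) (XT.nd (nat_lit 78) (nat_lit 152) (nat_lit 0) (XT.lf (nat_lit 0) (nat_lit 14872525620) (nat_lit 152) (nat_lit 2052912753) (nat_lit 228) (nat_lit 12059711036) (nat_lit 62) (nat_lit 5) (nat_lit 64) (nat_lit 5) (nat_lit 65) (nat_lit 5) (nat_lit 457) (nat_lit 417)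 (nat_lit 326)) (XT.lf (nat_lit 0) (nat_lit 2906180386) (nat_lit 152) (nat_lit 21626688041) (nat_lit 228) (nat_lit 5377921288) (nat_lit 60) (nat_lit 5) (nat_lit 62) (nat_lit 5) (nat_lit 63) (nat_lit 5) (nat_lit 458) (nat_lit 417) (nat_lit 325))))) (XT.nd (nat_lit 234) (nat_lit 532) (nat_lit 0) (XT.nd (nat_lit 78) (nat_lit 152) (nat_lit 0) (XT.lf (nat_lit 0) (nat_lit 1850309014) (nat_lit 228) (nat_lit 9687769694) (nat_lit 76) (nat_lit 19330117822) (nat_lit 59) (nat_lit 5) (nat_lit 62) (nat_lit 5) (nat_lit 60) (nat_lit 5) (nat_lit 459) (nat_lit 417) (nat_lit 324)) (XT.nd (nat_lit 78) (nat_lit 0) (nat_lit 0) (XT.lf (nat_lit 0) (nat_lit 8665287311) (nat_lit 152) (nat_lit 717980885) (nat_lit 228) (nat_lit 22479596675) (nat_lit 57) (nat_lit 5) (nat_lit 59) (nat_lit 5) (nat_lit 60) (nat_lit 5) (nat_lit 460) (nat_lit 417) (nat_lit 323)) (XT.lf (nat_lit 0) (nat_lit 17614691410) (nat_lit 228) (nat_lit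 4814523306) (nat_lit 76) (nat_lit 10461962874) (nat_lit 57) (nat_lit 5) (nat_lit 60) (nat_lit 5) (nat_lit 58) (nat_lit 5) (nat_lit 461) (nat_lit 417) (nat_lit 322)))) (XT.nd (nat_lit 156) (nat_lit 152) (nat_lit 0) (XT.nd (nat_lit 78) (nat_lit 228) (nat_lit 0) (XT.lf (nat_lit 0) (nat_lit 14935921874) (nat_lit 152) (nat_lit 11556145137) (nat_lit 228) (nat_lit 7467121556) (nat_lit 55) (nat_lit 5) (nat_lit 57) (nat_lit 5) (nat_lit 58) (nat_lit 5) (nat_lit 462) (nat_lit 417) (nat_lit 321)) (XT.lf (nat_lit 0) (nat_lit 757903687) (nat_lit 152) (nat_lit 35537192) (nat_lit 228) (nat_lit 34282379709) (nat_lit 52) (nat_lit 5) (nat_lit 54) (nat_lit 5) (nat_lit 55) (nat_lit 5) (nat_lit 463) (nat_lit 417) (nat_lit 320))) (XT.nd (nat_lit 78) (nat_lit 152) (nat_lit 0) (XT.lf (nat_lit 0) (nat_lit 9721425606) (nat_lit 228) (nat_lit 14377799882) (nat_lit 76) (nat_lit 12117672665) (nat_lit 52) (nat_lit 5) (nat_lit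 55) (nat_lit 5) (nat_lit 53) (nat_lit 5) (nat_lit 464) (nat_lit 417) (nat_lit 319)) (XT.lf (nat_lit 0) (nat_lit 6757694880) (nat_lit 152) (nat_lit 12434281109) (nat_lit 228) (nat_lit 18218246669) (nat_lit 50) (nat_lit 5) (nat_lit 52) (nat_lit 5) (nat_lit 53) (nat_lit 5) (nat_lit 465) (nat_lit 417) (nat_lit 318)))))) (XT.nd (nat_lit 546) (nat_lit 532) (nat_lit 0) (XT.nd (nat_lit 234) (nat_lit 456) (nat_lit 0) (XT.nd (nat_lit 78) (nat_lit 152) (nat_lit 0) (XT.lf (nat_lit 0) (nat_lit 29370804199) (nat_lit 228) (nat_lit 9220422821) (nat_lit 76) (nat_lit 60250172) (nat_lit 50) (nat_lit 5) (nat_lit 53) (nat_lit 5) (nat_lit 51) (nat_lit 4) (nat_lit 466) (nat_lit 417) (nat_lit 317)) (XT.nd (nat_lit 78) (nat_lit 0) (nat_lit 0) (XT.lf (nat_lit 0) (nat_lit 512267583) (nat_lit 152) (nat_lit 26448033241) (nat_lit 76) (nat_lit 12973823319) (nat_lit 48) (nat_lit 5) (nat_lit 50) (nat_lit 5) (nat_lit 49) (nat_lit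 5) (nat_lit 467) (nat_lit 417) (nat_lit 316)) (XT.lf (nat_lit 0) (nat_lit 10632352413) (nat_lit 152) (nat_lit 3796394138) (nat_lit 76) (nat_lit 26837081485) (nat_lit 48) (nat_lit 5) (nat_lit 50) (nat_lit 5) (nat_lit 49) (nat_lit 5) (nat_lit 468) (nat_lit 417) (nat_lit 315)))) (XT.nd (nat_lit 156) (nat_lit 228) (nat_lit 0) (XT.nd (nat_lit 78) (nat_lit 76) (nat_lit 0) (XT.lf (nat_lit 0) (nat_lit 20632344282) (nat_lit 152) (nat_lit 939346391) (nat_lit 228) (nat_lit 21076765076) (nat_lit 46) (nat_lit 5) (nat_lit 48) (nat_lit 5) (nat_lit 49) (nat_lit 5) (nat_lit 469) (nat_lit 417) (nat_lit 314)) (XT.lf (nat_lit 0) (nat_lit 2163109462) (nat_lit 76) (nat_lit 31191670537) (nat_lit 152) (nat_lit 10730596674) (nat_lit 45) (nat_lit 5) (nat_lit 46) (nat_lit 5) (nat_lit 47) (nat_lit 4) (nat_lit 470) (nat_lit 417) (nat_lit 313))) (XT.nd (nat_lit 78) (nat_lit 152) (nat_lit 0) (XT.lf (nat_lit 0) (nat_lit 514216835)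 (nat_lit 152) (nat_lit 17299399652) (nat_lit 76) (nat_lit 27761144879) (nat_lit 44) (nat_lit 5) (nat_lit 46) (nat_lit 5) (nat_lit 45) (nat_lit 5) (nat_lit 471) (nat_lit 417) (nat_lit 312)) (XT.lf (nat_lit 0) (nat_lit 8640041145) (nat_lit 152) (nat_lit 3447149297) (nat_lit 228) (nat_lit 35036303279) (nat_lit 42) (nat_lit 5) (nat_lit 44) (nat_lit 5) (nat_lit 45) (nat_lit 5) (nat_lit 472) (nat_lit 417) (nat_lit 311))))) (XT.nd (nat_lit 234) (nat_lit 380) (nat_lit 0) (XT.nd (nat_lit 78) (nat_lit 152) (nat_lit 0) (XT.lf (nat_lit 0) (nat_lit 24709987152) (nat_lit 228) (nat_lit 12459716916) (nat_lit 76) (nat_lit 11556400755) (nat_lit 42) (nat_lit 5) (nat_lit 45) (nat_lit 5) (nat_lit 43) (nat_lit 4) (nat_lit 473) (nat_lit 417) (nat_lit 310)) (XT.nd (nat_lit 78) (nat_lit 76) (nat_lit 0) (XT.lf (nat_lit 0) (nat_lit 15283329305) (nat_lit 76) (nat_lit 22967817472) (nat_lit 152) (nat_lit 12143339358) (nat_lit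 41) (nat_lit 5) (nat_lit 42) (nat_lit 5) (nat_lit 43) (nat_lit 4) (nat_lit 474) (nat_lit 417) (nat_lit 309)) (XT.lf (nat_lit 0) (nat_lit 519330120) (nat_lit 152) (nat_lit 7312692681) (nat_lit 76) (nat_lit 44303682600) (nat_lit 40) (nat_lit 5) (nat_lit 42) (nat_lit 5) (nat_lit 41) (nat_lit 5) (nat_lit 475) (nat_lit 417) (nat_lit 308)))) (XT.nd (nat_lit 156) (nat_lit 228) (nat_lit 0) (XT.nd (nat_lit 78) (nat_lit 0) (nat_lit 0) (XT.lf (nat_lit 0) (nat_lit 13883673985) (nat_lit 228) (nat_lit 31692647034) (nat_lit 76) (nat_lit 8353879916) (nat_lit 38) (nat_lit 5) (nat_lit 41) (nat_lit 5) (nat_lit 39) (nat_lit 4) (nat_lit 476) (nat_lit 417) (nat_lit 307)) (XT.lf (nat_lit 0) (nat_lit 28163046737) (nat_lit 228) (nat_lit 2433368456) (nat_lit 76) (nat_lit 25205666135) (nat_lit 38) (nat_lit 5) (nat_lit 41) (nat_lit 5) (nat_lit 39) (nat_lit 4) (nat_lit 477) (nat_lit 417) (nat_lit 306))) (XT.nd (nat_lit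 78) (nat_lit 152) (nat_lit 0) (XT.lf (nat_lit 0) (nat_lit 29210547954) (nat_lit 76) (nat_lit 14394797409) (nat_lit 152) (nat_lit 14139763149) (nat_lit 37) (nat_lit 5) (nat_lit 38) (nat_lit 5) (nat_lit 39) (nat_lit 4) (nat_lit 478) (nat_lit 417) (nat_lit 305)) (XT.lf (nat_lit 0) (nat_lit 154275534) (nat_lit 152) (nat_lit 57010017530) (nat_lit 76) (nat_lit 2614922308) (nat_lit 35) (nat_lit 5) (nat_lit 37) (nat_lit 5) (nat_lit 36) (nat_lit 4) (nat_lit 479) (nat_lit 417) (nat_lit 304))))))) (XT.nd (nat_lit 1092) (nat_lit 684) (nat_lit 0) (XT.nd (nat_lit 546) (nat_lit 456) (nat_lit 0) (XT.nd (nat_lit 234) (nat_lit 228) (nat_lit 0) (XT.nd (nat_lit 78) (nat_lit 76) (nat_lit 0) (XT.lf (nat_lit 0) (nat_lit 15407933049) (nat_lit 152) (nat_lit 25751073093) (nat_lit 76) (nat_lit 20708426726) (nat_lit 35) (nat_lit 5) (nat_lit 37) (nat_lit 5) (nat_lit 36) (nat_lit 4) (nat_lit 480) (nat_lit 417) (nat_lit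 303)) (XT.nd (nat_lit 78) (nat_lit 0) (nat_lit 0) (XT.lf (nat_lit 0) (nat_lit 7291520602) (nat_lit 76) (nat_lit 24239886013) (nat_lit 152) (nat_lit 32523298489) (nat_lit 34) (nat_lit 5) (nat_lit 35) (nat_lit 5) (nat_lit 36) (nat_lit 4) (nat_lit 481) (nat_lit 417) (nat_lit 302)) (XT.lf (nat_lit 0) (nat_lit 42867795324) (nat_lit 76) (nat_lit 6022782289) (nat_lit 152) (nat_lit 17439287647) (nat_lit 34) (nat_lit 5) (nat_lit 35) (nat_lit 5) (nat_lit 36) (nat_lit 4) (nat_lit 482) (nat_lit 417) (nat_lit 301)))) (XT.nd (nat_lit 156) (nat_lit 76) (nat_lit 0) (XT.nd (nat_lit 78) (nat_lit 76) (nat_lit 0) (XT.lf (nat_lit 0) (nat_lit 11660603435) (nat_lit 76) (nat_lit 55837409811) (nat_lit 76) (nat_lit 1201755346) (nat_lit 33) (nat_lit 4) (nat_lit 34) (nat_lit 5) (nat_lit 34) (nat_lit 4) (nat_lit 483) (nat_lit 417) (nat_lit 300)) (XT.lf (nat_lit 0) (nat_lit 15836676083) (nat_lit 152) (nat_lit 22179129177)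 (nat_lit 76) (nat_lit 33135178627) (nat_lit 32) (nat_lit 5) (nat_lit 34) (nat_lit 5) (nat_lit 33) (nat_lit 4) (nat_lit 484) (nat_lit 417) (nat_lit 299))) (XT.nd (nat_lit 78) (nat_lit 0) (nat_lit 0) (XT.lf (nat_lit 0) (nat_lit 14868555755) (nat_lit 76) (nat_lit 19044185304) (nat_lit 152) (nat_lit 39799729307) (nat_lit 31) (nat_lit 5) (nat_lit 32) (nat_lit 5) (nat_lit 33) (nat_lit 4) (nat_lit 485) (nat_lit 417) (nat_lit 298)) (XT.lf (nat_lit 0) (nat_lit 53282043023) (nat_lit 152) (nat_lit 21876015650) (nat_lit 0) (nat_lit 1224501201) (nat_lit 31) (nat_lit 5) (nat_lit 33) (nat_lit 4) (nat_lit 31) (nat_lit 4) (nat_lit 486) (nat_lit 417) (nat_lit 297))))) (XT.nd (nat_lit 234) (nat_lit 228) (nat_lit 0) (XT.nd (nat_lit 78) (nat_lit 152) (nat_lit 0) (XT.lf (nat_lit 0) (nat_lit 17166499657) (nat_lit 76) (nat_lit 57027798575) (nat_lit 76) (nat_lit 4963131587) (nat_lit 30) (nat_lit 4) (nat_lit 31) (nat_lit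 5) (nat_lit 31) (nat_lit 4) (nat_lit 487) (nat_lit 417) (nat_lit 296)) (XT.nd (nat_lit 78) (nat_lit 76) (nat_lit 0) (XT.lf (nat_lit 0) (nat_lit 14001275710) (nat_lit 152) (nat_lit 23368837652) (nat_lit 76) (nat_lit 44671396114) (nat_lit 29) (nat_lit 5) (nat_lit 31) (nat_lit 5) (nat_lit 30) (nat_lit 4) (nat_lit 488) (nat_lit 417) (nat_lit 295)) (XT.lf (nat_lit 0) (nat_lit 17657651032) (nat_lit 76) (nat_lit 16359698542) (nat_lit 152) (nat_lit 51034863724) (nat_lit 28) (nat_lit 5) (nat_lit 29) (nat_lit 5) (nat_lit 30) (nat_lit 4) (nat_lit 489) (nat_lit 417) (nat_lit 294)))) (XT.nd (nat_lit 156) (nat_lit 152) (nat_lit 0) (XT.nd (nat_lit 78) (nat_lit 76) (nat_lit 0) (XT.lf (nat_lit 0) (nat_lit 55520064643) (nat_lit 152) (nat_lit 26752908197) (nat_lit 0) (nat_lit 5916187899) (nat_lit 28) (nat_lit 5) (nat_lit 30) (nat_lit 4) (nat_lit 28) (nat_lit 4) (nat_lit 490) (nat_lit 417) (nat_lit 293)) (XT.lf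 (nat_lit 0) (nat_lit 16159832111) (nat_lit 76) (nat_lit 62453408487) (nat_lit 76) (nat_lit 12843948989) (nat_lit 27) (nat_lit 4) (nat_lit 28) (nat_lit 5) (nat_lit 28) (nat_lit 4) (nat_lit 491) (nat_lit 417) (nat_lit 292))) (XT.nd (nat_lit 78) (nat_lit 76) (nat_lit 0) (XT.lf (nat_lit 0) (nat_lit 8172629736) (nat_lit 152) (nat_lit 32860885446) (nat_lit 76) (nat_lit 53826114209) (nat_lit 26) (nat_lit 5) (nat_lit 28) (nat_lit 5) (nat_lit 27) (nat_lit 4) (nat_lit 492) (nat_lit 417) (nat_lit 291)) (XT.lf (nat_lit 0) (nat_lit 11856793234) (nat_lit 76) (nat_lit 18131808405) (nat_lit 152) (nat_lit 68424051711) (nat_lit 25) (nat_lit 5) (nat_lit 26) (nat_lit 5) (nat_lit 27) (nat_lit 4) (nat_lit 493) (nat_lit 417) (nat_lit 290)))))) (XT.nd (nat_lit 546) (nat_lit 380) (nat_lit 0) (XT.nd (nat_lit 234) (nat_lit 228) (nat_lit 0) (XT.nd (nat_lit 78) (nat_lit 76) (nat_lit 0) (XT.lf (nat_lit 0) (nat_lit 53548463004)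 (nat_lit 152) (nat_lit 42275331740) (nat_lit 0) (nat_lit 6286879460) (nat_lit 25) (nat_lit 5) (nat_lit 27) (nat_lit 4) (nat_lit 25) (nat_lit 4) (nat_lit 494) (nat_lit 417) (nat_lit 289)) (XT.nd (nat_lit 78) (nat_lit 0) (nat_lit 0) (XT.lf (nat_lit 0) (nat_lit 4042245095) (nat_lit 76) (nat_lit 74599762258) (nat_lit 76) (nat_lit 27333804480) (nat_lit 24) (nat_lit 4) (nat_lit 25) (nat_lit 5) (nat_lit 25) (nat_lit 4) (nat_lit 495) (nat_lit 417) (nat_lit 288)) (XT.lf (nat_lit 0) (nat_lit 54134439515) (nat_lit 76) (nat_lit 51567161087) (nat_lit 76) (nat_lit 4297037373) (nat_lit 24) (nat_lit 4) (nat_lit 25) (nat_lit 5) (nat_lit 25) (nat_lit 4) (nat_lit 496) (nat_lit 417) (nat_lit 287)))) (XT.nd (nat_lit 156) (nat_lit 76) (nat_lit 0) (XT.nd (nat_lit 78) (nat_lit 76) (nat_lit 0) (XT.lf (nat_lit 0) (nat_lit 19250478607) (nat_lit 152) (nat_lit 7810610128) (nat_lit 76) (nat_lit 87146210485) (nat_lit 23)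 (nat_lit 5) (nat_lit 25) (nat_lit 5) (nat_lit 24) (nat_lit 4) (nat_lit 497) (nat_lit 417) (nat_lit 286)) (XT.lf (nat_lit 0) (nat_lit 43974398098) (nat_lit 76) (nat_lit 538903364) (nat_lit 152) (nat_lit 74075453103) (nat_lit 22) (nat_lit 5) (nat_lit 23) (nat_lit 5) (nat_lit 24) (nat_lit 4) (nat_lit 498) (nat_lit 417) (nat_lit 285))) (XT.nd (nat_lit 78) (nat_lit 76) (nat_lit 0) (XT.lf (nat_lit 0) (nat_lit 71595874444) (nat_lit 152) (nat_lit 24999673610) (nat_lit 0) (nat_lit 26565904354) (nat_lit 22) (nat_lit 5) (nat_lit 24) (nat_lit 4) (nat_lit 22) (nat_lit 4) (nat_lit 499) (nat_lit 417) (nat_lit 284)) (XT.lf (nat_lit 0) (nat_lit 27974374416) (nat_lit 76) (nat_lit 72499783019) (nat_lit 76) (nat_lit 27466548809) (nat_lit 21) (nat_lit 4) (nat_lit 22) (nat_lit 5) (nat_lit 22) (nat_lit 4) (nat_lit 500) (nat_lit 417) (nat_lit 283))))) (XT.nd (nat_lit 312) (nat_lit 228) (nat_lit 0) (XT.nd (nat_lit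 156) (nat_lit 0) (nat_lit 0) (XT.nd (nat_lit 78) (nat_lit 152) (nat_lit 0) (XT.lf (nat_lit 0) (nat_lit 84457295128) (nat_lit 76) (nat_lit 46758499353) (nat_lit 76) (nat_lit 1722156457) (nat_lit 21) (nat_lit 4) (nat_lit 22) (nat_lit 5) (nat_lit 22) (nat_lit 4) (nat_lit 501) (nat_lit 417) (nat_lit 282)) (XT.lf (nat_lit 0) (nat_lit 5347796743) (nat_lit 76) (nat_lit 19231276570) (nat_lit 152) (nat_lit 113582243204) (nat_lit 19) (nat_lit 5) (nat_lit 20) (nat_lit 5) (nat_lit 21) (nat_lit 4) (nat_lit 502) (nat_lit 417) (nat_lit 281))) (XT.nd (nat_lit 78) (nat_lit 0) (nat_lit 0) (XT.lf (nat_lit 0) (nat_lit 53119197334) (nat_lit 152) (nat_lit 80254219024) (nat_lit 0) (nat_lit 10221937125) (nat_lit 19) (nat_lit 5) (nat_lit 21) (nat_lit 4) (nat_lit 19) (nat_lit 4) (nat_lit 503) (nat_lit 417) (nat_lit 280)) (XT.lf (nat_lit 0) (nat_lit 83397969238) (nat_lit 152) (nat_lit 25389389606) (nat_lit 0) (nat_lit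 40498151505) (nat_lit 19) (nat_lit 5) (nat_lit 21) (nat_lit 4) (nat_lit 19) (nat_lit 4) (nat_lit 504) (nat_lit 417) (nat_lit 279)))) (XT.nd (nat_lit 156) (nat_lit 152) (nat_lit 0) (XT.nd (nat_lit 78) (nat_lit 0) (nat_lit 0) (XT.lf (nat_lit 0) (nat_lit 33276922488) (nat_lit 76) (nat_lit 82429850745) (nat_lit 76) (nat_lit 39527597275) (nat_lit 18) (nat_lit 4) (nat_lit 19) (nat_lit 5) (nat_lit 19) (nat_lit 4) (nat_lit 505) (nat_lit 417) (nat_lit 278)) (XT.lf (nat_lit 0) (nat_lit 95751294461) (nat_lit 76) (nat_lit 54306311562) (nat_lit 76) (nat_lit 11401738343) (nat_lit 18) (nat_lit 4) (nat_lit 19) (nat_lit 5) (nat_lit 19) (nat_lit 4) (nat_lit 506) (nat_lit 417) (nat_lit 277))) (XT.nd (nat_lit 78) (nat_lit 76) (nat_lit 0) (XT.lf (nat_lit 0) (nat_lit 17546842559) (nat_lit 152) (nat_lit 6935755258) (nat_lit 76) (nat_lit 143498980108) (nat_lit 17) (nat_lit 5) (nat_lit 19) (nat_lit 5) (nat_lit 18)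 (nat_lit 4) (nat_lit 507) (nat_lit 417) (nat_lit 276)) (XT.lf (nat_lit 0) (nat_lit 48561026441) (nat_lit 152) (nat_lit 118514063613) (nat_lit 0) (nat_lit 7695420168) (nat_lit 16) (nat_lit 5) (nat_lit 18) (nat_lit 4) (nat_lit 16) (nat_lit 4) (nat_lit 508) (nat_lit 417) (nat_lit 275))))))))
noncomputable def xc136 : XT := (XT.nd (nat_lit 2184) (nat_lit 152) (nat_lit 0) (XT.nd (nat_lit 1092) (nat_lit 304) (nat_lit 0) (XT.nd (nat_lit 546) (nat_lit 228) (nat_lit 0) (XT.nd (nat_lit 234) (nat_lit 152) (nat_lit 0) (XT.nd (nat_lit 78) (nat_lit 76) (nat_lit 0) (XT.lf (nat_lit 0) (nat_lit 81643537993) (nat_lit 152) (nat_lit 59453447061) (nat_lit 0) (nat_lit 40776023257) (nat_lit 16) (nat_lit 5) (nat_lit 18) (nat_lit 4) (nat_lit 16) (nat_lit 4) (nat_lit 509) (nat_lit 417) (nat_lit 274)) (XT.nd (nat_lit 78) (nat_lit 0) (nat_lit 0) (XT.lf (nat_lit 0) (nat_lit 2638748529) (nat_lit 76) (nat_lit 113779651960)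 (nat_lit 76) (nat_lit 72910319640) (nat_lit 15) (nat_lit 4) (nat_lit 16) (nat_lit 5) (nat_lit 16) (nat_lit 4) (nat_lit 510) (nat_lit 417) (nat_lit 273)) (XT.lf (nat_lit 0) (nat_lit 69893830404) (nat_lit 76) (nat_lit 84042126519) (nat_lit 76) (nat_lit 43171063166) (nat_lit 15) (nat_lit 4) (nat_lit 16) (nat_lit 5) (nat_lit 16) (nat_lit 4) (nat_lit 511) (nat_lit 417) (nat_lit 272)))) (XT.nd (nat_lit 156) (nat_lit 0) (nat_lit 0) (XT.nd (nat_lit 78) (nat_lit 152) (nat_lit 0) (XT.lf (nat_lit 0) (nat_lit 140506130251) (nat_lit 76) (nat_lit 52820477992) (nat_lit 76) (nat_lit 11947766036) (nat_lit 15) (nat_lit 4) (nat_lit 16) (nat_lit 5) (nat_lit 16) (nat_lit 4) (nat_lit 512) (nat_lit 417) (nat_lit 271)) (XT.lf (nat_lit 0) (nat_lit 483751099) (nat_lit 76) (nat_lit 19690899218) (nat_lit 152) (nat_lit 193658937039) (nat_lit 13) (nat_lit 5) (nat_lit 14) (nat_lit 5) (nat_lit 15) (nat_lit 4) (nat_lit 513)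 (nat_lit 417) (nat_lit 270))) (XT.nd (nat_lit 78) (nat_lit 0) (nat_lit 0) (XT.lf (nat_lit 0) (nat_lit 54849516114) (nat_lit 152) (nat_lit 151973854884) (nat_lit 0) (nat_lit 15920204319) (nat_lit 13) (nat_lit 5) (nat_lit 15) (nat_lit 4) (nat_lit 13) (nat_lit 4) (nat_lit 514) (nat_lit 417) (nat_lit 269)) (XT.lf (nat_lit 0) (nat_lit 91578365838) (nat_lit 152) (nat_lit 87856987142) (nat_lit 0) (nat_lit 52647697733) (nat_lit 13) (nat_lit 5) (nat_lit 15) (nat_lit 4) (nat_lit 13) (nat_lit 4) (nat_lit 515) (nat_lit 417) (nat_lit 268))))) (XT.nd (nat_lit 234) (nat_lit 152) (nat_lit 0) (XT.nd (nat_lit 78) (nat_lit 76) (nat_lit 0) (XT.lf (nat_lit 0) (nat_lit 130141219012) (nat_lit 152) (nat_lit 20539143703) (nat_lit 0) (nat_lit 91209259184) (nat_lit 13) (nat_lit 5) (nat_lit 15) (nat_lit 4) (nat_lit 13) (nat_lit 4) (nat_lit 516) (nat_lit 417) (nat_lit 267)) (XT.nd (nat_lit 78) (nat_lit 0) (nat_lit 0) (XT.lf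 (nat_lit 0) (nat_lit 51797809395) (nat_lit 76) (nat_lit 119640791524) (nat_lit 76) (nat_lit 80707601483) (nat_lit 12) (nat_lit 4) (nat_lit 13) (nat_lit 5) (nat_lit 13) (nat_lit 4) (nat_lit 517) (nat_lit 417) (nat_lit 266)) (XT.lf (nat_lit 0) (nat_lit 128460121718) (nat_lit 76) (nat_lit 86686287053) (nat_lit 76) (nat_lit 47751925381) (nat_lit 12) (nat_lit 4) (nat_lit 13) (nat_lit 5) (nat_lit 13) (nat_lit 4) (nat_lit 518) (nat_lit 417) (nat_lit 265)))) (XT.nd (nat_lit 156) (nat_lit 0) (nat_lit 0) (XT.nd (nat_lit 78) (nat_lit 152) (nat_lit 0) (XT.lf (nat_lit 0) (nat_lit 208951205729) (nat_lit 76) (nat_lit 52086226532) (nat_lit 76) (nat_lit 13150749021) (nat_lit 12) (nat_lit 4) (nat_lit 13) (nat_lit 5) (nat_lit 13) (nat_lit 4) (nat_lit 519) (nat_lit 417) (nat_lit 264)) (XT.lf (nat_lit 0) (nat_lit 7291580187) (nat_lit 76) (nat_lit 15258722448) (nat_lit 152) (nat_lit 263468535732) (nat_lit 10) (nat_lit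 5) (nat_lit 11) (nat_lit 5) (nat_lit 12) (nat_lit 4) (nat_lit 520) (nat_lit 417) (nat_lit 263))) (XT.nd (nat_lit 78) (nat_lit 0) (nat_lit 0) (XT.lf (nat_lit 0) (nat_lit 61080783295) (nat_lit 152) (nat_lit 213277749227) (nat_lit 0) (nat_lit 23997400139) (nat_lit 10) (nat_lit 5) (nat_lit 12) (nat_lit 4) (nat_lit 10) (nat_lit 4) (nat_lit 521) (nat_lit 417) (nat_lit 262)) (XT.lf (nat_lit 0) (nat_lit 101785929189) (nat_lit 152) (nat_lit 144809917439) (nat_lit 0) (nat_lit 64701628029) (nat_lit 10) (nat_lit 5) (nat_lit 12) (nat_lit 4) (nat_lit 10) (nat_lit 4) (nat_lit 522) (nat_lit 417) (nat_lit 261)))))) (XT.nd (nat_lit 546) (nat_lit 76) (nat_lit 0) (XT.nd (nat_lit 234) (nat_lit 152) (nat_lit 0) (XT.nd (nat_lit 78) (nat_lit 76) (nat_lit 0) (XT.lf (nat_lit 0) (nat_lit 144524425911) (nat_lit 152) (nat_lit 72922512749) (nat_lit 0) (nat_lit 107439250462) (nat_lit 10) (nat_lit 5) (nat_lit 12) (nat_lit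 4) (nat_lit 10) (nat_lit 4) (nat_lit 523) (nat_lit 417) (nat_lit 260)) (XT.nd (nat_lit 78) (nat_lit 0) (nat_lit 0) (XT.lf (nat_lit 0) (nat_lit 2640125843) (nat_lit 76) (nat_lit 186799125706) (nat_lit 76) (nat_lit 149713117601) (nat_lit 9) (nat_lit 4) (nat_lit 10) (nat_lit 5) (nat_lit 10) (nat_lit 4) (nat_lit 524) (nat_lit 417) (nat_lit 259)) (XT.lf (nat_lit 0) (nat_lit 84509023157) (nat_lit 76) (nat_lit 153323988263) (nat_lit 76) (nat_lit 116237187152) (nat_lit 9) (nat_lit 4) (nat_lit 10) (nat_lit 5) (nat_lit 10) (nat_lit 4) (nat_lit 525) (nat_lit 417) (nat_lit 258)))) (XT.nd (nat_lit 156) (nat_lit 152) (nat_lit 0) (XT.nd (nat_lit 78) (nat_lit 0) (nat_lit 0) (XT.lf (nat_lit 0) (nat_lit 170467957540) (nat_lit 76) (nat_lit 118176801662) (nat_lit 76) (nat_lit 81089245307) (nat_lit 9) (nat_lit 4) (nat_lit 10) (nat_lit 5) (nat_lit 10) (nat_lit 4) (nat_lit 526) (nat_lit 417) (nat_lit 257)) (XT.lf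 (nat_lit 0) (nat_lit 260721593122) (nat_lit 76) (nat_lit 81273882125) (nat_lit 76) (nat_lit 44185606490) (nat_lit 9) (nat_lit 4) (nat_lit 10) (nat_lit 5) (nat_lit 10) (nat_lit 4) (nat_lit 527) (nat_lit 417) (nat_lit 256))) (XT.nd (nat_lit 78) (nat_lit 152) (nat_lit 0) (XT.lf (nat_lit 0) (nat_lit 355484819510) (nat_lit 76) (nat_lit 42527365558) (nat_lit 76) (nat_lit 5438404894) (nat_lit 9) (nat_lit 4) (nat_lit 10) (nat_lit 5) (nat_lit 10) (nat_lit 4) (nat_lit 528) (nat_lit 417) (nat_lit 255)) (XT.lf (nat_lit 0) (nat_lit 33935496995) (nat_lit 76) (nat_lit 710898159) (nat_lit 152) (nat_lit 386883247139) (nat_lit 7) (nat_lit 5) (nat_lit 8) (nat_lit 5) (nat_lit 9) (nat_lit 4) (nat_lit 529) (nat_lit 417) (nat_lit 254))))) (XT.nd (nat_lit 234) (nat_lit 76) (nat_lit 0) (XT.nd (nat_lit 78) (nat_lit 0) (nat_lit 0) (XT.lf (nat_lit 0) (nat_lit 78051235533) (nat_lit 152) (nat_lit 319654822950) (nat_lit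 0) (nat_lit 42727202759) (nat_lit 7) (nat_lit 5) (nat_lit 9) (nat_lit 4) (nat_lit 7) (nat_lit 4) (nat_lit 530) (nat_lit 417) (nat_lit 253)) (XT.nd (nat_lit 78) (nat_lit 0) (nat_lit 0) (XT.lf (nat_lit 0) (nat_lit 123636552317) (nat_lit 152) (nat_lit 248333041163) (nat_lit 0) (nat_lit 88311955968) (nat_lit 7) (nat_lit 5) (nat_lit 9) (nat_lit 4) (nat_lit 7) (nat_lit 4) (nat_lit 531) (nat_lit 417) (nat_lit 252)) (XT.lf (nat_lit 0) (nat_lit 171499782863) (nat_lit 152) (nat_lit 173447887057) (nat_lit 0) (nat_lit 136174649776) (nat_lit 7) (nat_lit 5) (nat_lit 9) (nat_lit 4) (nat_lit 7) (nat_lit 4) (nat_lit 532) (nat_lit 417) (nat_lit 251)))) (XT.nd (nat_lit 156) (nat_lit 76) (nat_lit 0) (XT.nd (nat_lit 78) (nat_lit 0) (nat_lit 0) (XT.lf (nat_lit 0) (nat_lit 221754887243) (nat_lit 152) (nat_lit 94821062647) (nat_lit 0) (nat_lit 186429242978) (nat_lit 7) (nat_lit 5) (nat_lit 9) (nat_lit 4) (nat_lit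 7) (nat_lit 4) (nat_lit 533) (nat_lit 417) (nat_lit 250)) (XT.lf (nat_lit 0) (nat_lit 274521520468) (nat_lit 152) (nat_lit 12265361209) (nat_lit 0) (nat_lit 239195389366) (nat_lit 7) (nat_lit 5) (nat_lit 9) (nat_lit 4) (nat_lit 7) (nat_lit 4) (nat_lit 534) (nat_lit 417) (nat_lit 249))) (XT.nd (nat_lit 78) (nat_lit 0) (nat_lit 0) (XT.lf (nat_lit 0) (nat_lit 76876300158) (nat_lit 76) (nat_lit 254249271712) (nat_lit 76) (nat_lit 218922676955) (nat_lit 6) (nat_lit 4) (nat_lit 7) (nat_lit 5) (nat_lit 7) (nat_lit 4) (nat_lit 535) (nat_lit 417) (nat_lit 248)) (XT.lf (nat_lit 0) (nat_lit 170898561244) (nat_lit 76) (nat_lit 219867836018) (nat_lit 76) (nat_lit 184540799686) (nat_lit 6) (nat_lit 4) (nat_lit 7) (nat_lit 5) (nat_lit 7) (nat_lit 4) (nat_lit 536) (nat_lit 417) (nat_lit 247))))))) (XT.nd (nat_lit 53742) (nat_lit 0) (nat_lit 7296) (XT.nd (nat_lit 53196) (nat_lit 0) (nat_lit 10032) (XT.nd (nat_lit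 234) (nat_lit 152) (nat_lit 0) (XT.nd (nat_lit 78) (nat_lit 0) (nat_lit 0) (XT.lf (nat_lit 0) (nat_lit 269619736339) (nat_lit 76) (nat_lit 183768433863) (nat_lit 76) (nat_lit 148440976983) (nat_lit 6) (nat_lit 4) (nat_lit 7) (nat_lit 5) (nat_lit 7) (nat_lit 4) (nat_lit 537) (nat_lit 417) (nat_lit 246)) (XT.nd (nat_lit 78) (nat_lit 0) (nat_lit 0) (XT.lf (nat_lit 0) (nat_lit 373274875860) (nat_lit 76) (nat_lit 145865114289) (nat_lit 76) (nat_lit 110537256887) (nat_lit 6) (nat_lit 4) (nat_lit 7) (nat_lit 5) (nat_lit 7) (nat_lit 4) (nat_lit 538) (nat_lit 417) (nat_lit 245)) (XT.lf (nat_lit 0) (nat_lit 482110777760) (nat_lit 76) (nat_lit 106067631297) (nat_lit 76) (nat_lit 70739392446) (nat_lit 6) (nat_lit 4) (nat_lit 7) (nat_lit 5) (nat_lit 7) (nat_lit 4) (nat_lit 539) (nat_lit 417) (nat_lit 244)))) (XT.nd (nat_lit 156) (nat_lit 76) (nat_lit 0) (XT.nd (nat_lit 78) (nat_lit 76) (nat_lit 0) (XT.lf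 (nat_lit 0) (nat_lit 596386575137) (nat_lit 76) (nat_lit 64281228975) (nat_lit 76) (nat_lit 28952626838) (nat_lit 6) (nat_lit 4) (nat_lit 7) (nat_lit 5) (nat_lit 7) (nat_lit 4) (nat_lit 540) (nat_lit 417) (nat_lit 243)) (XT.lf (nat_lit 0) (nat_lit 14444918008) (nat_lit 152) (nat_lit 5716866204) (nat_lit 76) (nat_lit 701684803539) (nat_lit 5) (nat_lit 5) (nat_lit 7) (nat_lit 5) (nat_lit 6) (nat_lit 4) (nat_lit 541) (nat_lit 417) (nat_lit 242))) (XT.nd (nat_lit 78) (nat_lit 0) (nat_lit 0) (XT.lf (nat_lit 0) (nat_lit 60859636987) (nat_lit 152) (nat_lit 667496963104) (nat_lit 0) (nat_lit 27212705908) (nat_lit 4) (nat_lit 5) (nat_lit 6) (nat_lit 4) (nat_lit 4) (nat_lit 4) (nat_lit 542) (nat_lit 417) (nat_lit 241)) (XT.lf (nat_lit 0) (nat_lit 110023148046) (nat_lit 152) (nat_lit 604557691229) (nat_lit 0) (nat_lit 76375918091) (nat_lit 4) (nat_lit 5) (nat_lit 6) (nat_lit 4) (nat_lit 4) (nat_lit 4)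 (nat_lit 543) (nat_lit 417) (nat_lit 240))))) (XT.nd (nat_lit 234) (nat_lit 0) (nat_lit 76) (XT.nd (nat_lit 78) (nat_lit 0) (nat_lit 0) (XT.lf (nat_lit 0) (nat_lit 1025215424) (nat_lit 0) (nat_lit 1025215424) (nat_lit 684) (nat_lit 3069731470) (nat_lit 136) (nat_lit 5) (nat_lit 136) (nat_lit 3) (nat_lit 145) (nat_lit 3) (nat_lit 418) (nat_lit 418) (nat_lit 364)) (XT.nd (nat_lit 78) (nat_lit 0) (nat_lit 0) (XT.lf (nat_lit 0) (nat_lit 4899604460) (nat_lit 684) (nat_lit 3197714580) (nat_lit 760) (nat_lit 2363929288) (nat_lit 136) (nat_lit 5) (nat_lit 145) (nat_lit 3) (nat_lit 146) (nat_lit 5) (nat_lit 419) (nat_lit 418) (nat_lit 363)) (XT.lf (nat_lit 76) (nat_lit 2052641558) (nat_lit 0) (nat_lit 3709506570) (nat_lit 760) (nat_lit 4929894385) (nat_lit 137) (nat_lit 5) (nat_lit 136) (nat_lit 5) (nat_lit 146) (nat_lit 5) (nat_lit 420) (nat_lit 418) (nat_lit 362)))) (XT.nd (nat_lit 156) (nat_lit 0)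 (nat_lit 0) (XT.nd (nat_lit 78) (nat_lit 0) (nat_lit 0) (XT.lf (nat_lit 0) (nat_lit 6696974867) (nat_lit 684) (nat_lit 3295466536) (nat_lit 760) (nat_lit 940493876) (nat_lit 137) (nat_lit 5) (nat_lit 146) (nat_lit 5) (nat_lit 147) (nat_lit 5) (nat_lit 421) (nat_lit 418) (nat_lit 361)) (XT.lf (nat_lit 76) (nat_lit 2304391304) (nat_lit 0) (nat_lit 5432939036) (nat_lit 760) (nat_lit 3445618845) (nat_lit 138) (nat_lit 5) (nat_lit 137) (nat_lit 5) (nat_lit 147) (nat_lit 5) (nat_lit 422) (nat_lit 418) (nat_lit 360))) (XT.nd (nat_lit 78) (nat_lit 0) (nat_lit 76) (XT.lf (nat_lit 76) (nat_lit 8274827153) (nat_lit 0) (nat_lit 574122198) (nat_lit 760) (nat_lit 2595567262) (nat_lit 138) (nat_lit 5) (nat_lit 137) (nat_lit 5) (nat_lit 147) (nat_lit 5) (nat_lit 423) (nat_lit 418) (nat_lit 359)) (XT.lf (nat_lit 76) (nat_lit 2819539736) (nat_lit 0) (nat_lit 7276685601) (nat_lit 760) (nat_lit 1618947672) (nat_lit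 139) (nat_lit 5) (nat_lit 138) (nat_lit 5) (nat_lit 148) (nat_lit 5) (nat_lit 424) (nat_lit 418) (nat_lit 358)))))) (XT.nd (nat_lit 546) (nat_lit 1520) (nat_lit 0) (XT.nd (nat_lit 234) (nat_lit 684) (nat_lit 0) (XT.nd (nat_lit 78) (nat_lit 684) (nat_lit 0) (XT.lf (nat_lit 76) (nat_lit 9184312735) (nat_lit 0) (nat_lit 2251129472) (nat_lit 760) (nat_lit 562454874) (nat_lit 139) (nat_lit 5) (nat_lit 138) (nat_lit 5) (nat_lit 148) (nat_lit 5) (nat_lit 425) (nat_lit 418) (nat_lit 357)) (XT.nd (nat_lit 78) (nat_lit 0) (nat_lit 0) (XT.lf (nat_lit 0) (nat_lit 602588930) (nat_lit 760) (nat_lit 8684639042) (nat_lit 836) (nat_lit 3003453448) (nat_lit 129) (nat_lit 5) (nat_lit 139) (nat_lit 5) (nat_lit 140) (nat_lit 5) (nat_lit 426) (nat_lit 418) (nat_lit 356)) (XT.lf (nat_lit 0) (nat_lit 1861291337) (nat_lit 760) (nat_lit 2223755867) (nat_lit 836) (nat_lit 8509893158) (nat_lit 129) (nat_lit 5) (nat_lit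 139) (nat_lit 5) (nat_lit 140) (nat_lit 5) (nat_lit 427) (nat_lit 418) (nat_lit 355)))) (XT.nd (nat_lit 156) (nat_lit 760) (nat_lit 0) (XT.nd (nat_lit 78) (nat_lit 0) (nat_lit 0) (XT.lf (nat_lit 0) (nat_lit 3249325345) (nat_lit 760) (nat_lit 8249125329) (nat_lit 76) (nat_lit 1412653034) (nat_lit 130) (nat_lit 5) (nat_lit 140) (nat_lit 5) (nat_lit 131) (nat_lit 5) (nat_lit 428) (nat_lit 418) (nat_lit 354)) (XT.lf (nat_lit 0) (nat_lit 4783565811) (nat_lit 760) (nat_lit 1364939774) (nat_lit 76) (nat_lit 7090740141) (nat_lit 130) (nat_lit 5) (nat_lit 140) (nat_lit 5) (nat_lit 131) (nat_lit 5) (nat_lit 429) (nat_lit 418) (nat_lit 353))) (XT.nd (nat_lit 78) (nat_lit 0) (nat_lit 0) (XT.lf (nat_lit 0) (nat_lit 6032371158) (nat_lit 760) (nat_lit 429242699) (nat_lit 836) (nat_lit 7118836440) (nat_lit 120) (nat_lit 5) (nat_lit 130) (nat_lit 5) (nat_lit 131) (nat_lit 5) (nat_lit 430) (nat_lit 418) (nat_lit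 352)) (XT.lf (nat_lit 0) (nat_lit 8307985467) (nat_lit 836) (nat_lit 203183139) (nat_lit 76) (nat_lit 5423335177) (nat_lit 120) (nat_lit 5) (nat_lit 131) (nat_lit 5) (nat_lit 121) (nat_lit 5) (nat_lit 431) (nat_lit 418) (nat_lit 351))))) (XT.nd (nat_lit 234) (nat_lit 760) (nat_lit 0) (XT.nd (nat_lit 78) (nat_lit 380) (nat_lit 0) (XT.lf (nat_lit 0) (nat_lit 7725250070) (nat_lit 380) (nat_lit 2624189031) (nat_lit 456) (nat_lit 3951691950) (nat_lit 115) (nat_lit 5) (nat_lit 120) (nat_lit 5) (nat_lit 121) (nat_lit 5) (nat_lit 432) (nat_lit 418) (nat_lit 350)) (XT.nd (nat_lit 78) (nat_lit 0) (nat_lit 0) (XT.lf (nat_lit 0) (nat_lit 1333568918) (nat_lit 380) (nat_lit 11215191199) (nat_lit 456) (nat_lit 2134548668) (nat_lit 110) (nat_lit 5) (nat_lit 115) (nat_lit 5) (nat_lit 116) (nat_lit 5) (nat_lit 433) (nat_lit 418) (nat_lit 349)) (XT.lf (nat_lit 0) (nat_lit 9797986868) (nat_lit 380) (nat_lit 5190456662)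 (nat_lit 456) (nat_lit 89640477) (nat_lit 110) (nat_lit 5) (nat_lit 115) (nat_lit 5) (nat_lit 116) (nat_lit 5) (nat_lit 434) (nat_lit 418) (nat_lit 348)))) (XT.nd (nat_lit 156) (nat_lit 304) (nat_lit 0) (XT.nd (nat_lit 78) (nat_lit 0) (nat_lit 0) (XT.lf (nat_lit 0) (nat_lit 2038761403) (nat_lit 456) (nat_lit 12267990075) (nat_lit 76) (nat_lit 1181892891) (nat_lit 104) (nat_lit 5) (nat_lit 110) (nat_lit 5) (nat_lit 105) (nat_lit 5) (nat_lit 435) (nat_lit 418) (nat_lit 347)) (XT.lf (nat_lit 0) (nat_lit 4424669399) (nat_lit 456) (nat_lit 3698172493) (nat_lit 76) (nat_lit 7789119726) (nat_lit 104) (nat_lit 5) (nat_lit 110) (nat_lit 5) (nat_lit 105) (nat_lit 5) (nat_lit 436) (nat_lit 418) (nat_lit 346))) (XT.nd (nat_lit 78) (nat_lit 0) (nat_lit 0) (XT.lf (nat_lit 0) (nat_lit 5451137597) (nat_lit 304) (nat_lit 1543006693) (nat_lit 380) (nat_lit 9359093790) (nat_lit 100) (nat_lit 5) (nat_lit 104)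 (nat_lit 5) (nat_lit 105) (nat_lit 5) (nat_lit 437) (nat_lit 418) (nat_lit 345)) (XT.lf (nat_lit 0) (nat_lit 9819276077) (nat_lit 380) (nat_lit 1736005717) (nat_lit 76) (nat_lit 5254944007) (nat_lit 100) (nat_lit 5) (nat_lit 105) (nat_lit 5) (nat_lit 101) (nat_lit 5) (nat_lit 438) (nat_lit 418) (nat_lit 344))))))))
noncomputable def xc137 : XT := (XT.nd (nat_lit 2184) (nat_lit 1900) (nat_lit 0) (XT.nd (nat_lit 1092) (nat_lit 1444) (nat_lit 0) (XT.nd (nat_lit 546) (nat_lit 1216) (nat_lit 0) (XT.nd (nat_lit 234) (nat_lit 532) (nat_lit 0) (XT.nd (nat_lit 78) (nat_lit 304) (nat_lit 0) (XT.lf (nat_lit 0) (nat_lit 8099414201) (nat_lit 304) (nat_lit 4818714847) (nat_lit 380) (nat_lit 4365316914) (nat_lit 96) (nat_lit 5) (nat_lit 100) (nat_lit 5) (nat_lit 101) (nat_lit 5) (nat_lit 439) (nat_lit 418) (nat_lit 343)) (XT.nd (nat_lit 78) (nat_lit 76) (nat_lit 0) (XT.lf (nat_lit 0) (nat_lit 670361313) (nat_lit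 228) (nat_lit 15558334930) (nat_lit 304) (nat_lit 1548798290) (nat_lit 93) (nat_lit 5) (nat_lit 96) (nat_lit 5) (nat_lit 97) (nat_lit 5) (nat_lit 440) (nat_lit 418) (nat_lit 342)) (XT.lf (nat_lit 0) (nat_lit 1581996246) (nat_lit 304) (nat_lit 7079351921) (nat_lit 76) (nat_lit 9622876610) (nat_lit 92) (nat_lit 5) (nat_lit 96) (nat_lit 5) (nat_lit 93) (nat_lit 5) (nat_lit 441) (nat_lit 418) (nat_lit 341)))) (XT.nd (nat_lit 156) (nat_lit 228) (nat_lit 0) (XT.nd (nat_lit 78) (nat_lit 0) (nat_lit 0) (XT.lf (nat_lit 0) (nat_lit 3514367514) (nat_lit 304) (nat_lit 1340116760) (nat_lit 380) (nat_lit 13958682743) (nat_lit 88) (nat_lit 5) (nat_lit 92) (nat_lit 5) (nat_lit 93) (nat_lit 5) (nat_lit 442) (nat_lit 418) (nat_lit 340)) (XT.lf (nat_lit 0) (nat_lit 8494302779) (nat_lit 380) (nat_lit 4603036551) (nat_lit 76) (nat_lit 6261036657) (nat_lit 88) (nat_lit 5) (nat_lit 93) (nat_lit 5) (nat_lit 89) (nat_lit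 5) (nat_lit 443) (nat_lit 418) (nat_lit 339))) (XT.nd (nat_lit 78) (nat_lit 0) (nat_lit 0) (XT.lf (nat_lit 0) (nat_lit 6801360803) (nat_lit 228) (nat_lit 5626481377) (nat_lit 304) (nat_lit 7497421414) (nat_lit 85) (nat_lit 5) (nat_lit 88) (nat_lit 5) (nat_lit 89) (nat_lit 5) (nat_lit 444) (nat_lit 418) (nat_lit 338)) (XT.lf (nat_lit 0) (nat_lit 16655851491) (nat_lit 304) (nat_lit 1638953637) (nat_lit 76) (nat_lit 2220805271) (nat_lit 85) (nat_lit 5) (nat_lit 89) (nat_lit 5) (nat_lit 86) (nat_lit 5) (nat_lit 445) (nat_lit 418) (nat_lit 337))))) (XT.nd (nat_lit 234) (nat_lit 684) (nat_lit 0) (XT.nd (nat_lit 78) (nat_lit 228) (nat_lit 0) (XT.lf (nat_lit 0) (nat_lit 208230254) (nat_lit 304) (nat_lit 10479058896) (nat_lit 76) (nat_lit 10435863010) (nat_lit 81) (nat_lit 5) (nat_lit 85) (nat_lit 5) (nat_lit 82) (nat_lit 5) (nat_lit 446) (nat_lit 418) (nat_lit 336)) (XT.nd (nat_lit 78) (nat_lit 0)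 (nat_lit 0) (XT.lf (nat_lit 0) (nat_lit 1811417713) (nat_lit 228) (nat_lit 2579833519) (nat_lit 304) (nat_lit 17364592619) (nat_lit 78) (nat_lit 5) (nat_lit 81) (nat_lit 5) (nat_lit 82) (nat_lit 5) (nat_lit 447) (nat_lit 418) (nat_lit 335)) (XT.lf (nat_lit 0) (nat_lit 9041580004) (nat_lit 304) (nat_lit 7448248332) (nat_lit 76) (nat_lit 5917437627) (nat_lit 78) (nat_lit 5) (nat_lit 82) (nat_lit 5) (nat_lit 79) (nat_lit 5) (nat_lit 448) (nat_lit 418) (nat_lit 334)))) (XT.nd (nat_lit 156) (nat_lit 456) (nat_lit 0) (XT.nd (nat_lit 78) (nat_lit 0) (nat_lit 0) (XT.lf (nat_lit 0) (nat_lit 5795323971) (nat_lit 228) (nat_lit 8247730864) (nat_lit 304) (nat_lit 9042276361) (nat_lit 75) (nat_lit 5) (nat_lit 78) (nat_lit 5) (nat_lit 79) (nat_lit 5) (nat_lit 449) (nat_lit 418) (nat_lit 333)) (XT.lf (nat_lit 0) (nat_lit 19415268782) (nat_lit 304) (nat_lit 3860613047) (nat_lit 76) (nat_lit 515387924) (nat_lit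 75) (nat_lit 5) (nat_lit 79) (nat_lit 5) (nat_lit 76) (nat_lit 5) (nat_lit 450) (nat_lit 418) (nat_lit 332))) (XT.nd (nat_lit 78) (nat_lit 228) (nat_lit 0) (XT.lf (nat_lit 0) (nat_lit 796139063) (nat_lit 228) (nat_lit 14112487610) (nat_lit 76) (nat_lit 9609007404) (nat_lit 72) (nat_lit 5) (nat_lit 75) (nat_lit 5) (nat_lit 73) (nat_lit 5) (nat_lit 451) (nat_lit 418) (nat_lit 331)) (XT.lf (nat_lit 0) (nat_lit 153284790) (nat_lit 228) (nat_lit 5982268510) (nat_lit 304) (nat_lit 19138392833) (nat_lit 69) (nat_lit 5) (nat_lit 72) (nat_lit 5) (nat_lit 73) (nat_lit 5) (nat_lit 452) (nat_lit 418) (nat_lit 330)))))) (XT.nd (nat_lit 546) (nat_lit 760) (nat_lit 0) (XT.nd (nat_lit 234) (nat_lit 532) (nat_lit 0) (XT.nd (nat_lit 78) (nat_lit 152) (nat_lit 0) (XT.lf (nat_lit 0) (nat_lit 12024885342) (nat_lit 304) (nat_lit 10510878980) (nat_lit 76) (nat_lit 3518164854) (nat_lit 69) (nat_lit 5) (nat_lit 73)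 (nat_lit 5) (nat_lit 70) (nat_lit 5) (nat_lit 453) (nat_lit 418) (nat_lit 329)) (XT.nd (nat_lit 78) (nat_lit 0) (nat_lit 0) (XT.lf (nat_lit 0) (nat_lit 4867884302) (nat_lit 152) (nat_lit 13502579033) (nat_lit 228) (nat_lit 8494361679) (nat_lit 67) (nat_lit 5) (nat_lit 69) (nat_lit 5) (nat_lit 70) (nat_lit 5) (nat_lit 454) (nat_lit 418) (nat_lit 328)) (XT.lf (nat_lit 0) (nat_lit 21361569150) (nat_lit 152) (nat_lit 3837755730) (nat_lit 228) (nat_lit 2508643018) (nat_lit 67) (nat_lit 5) (nat_lit 69) (nat_lit 5) (nat_lit 70) (nat_lit 5) (nat_lit 455) (nat_lit 418) (nat_lit 327)))) (XT.nd (nat_lit 156) (nat_lit 304) (nat_lit 0) (XT.nd (nat_lit 78) (nat_lit 0) (nat_lit 0) (XT.lf (nat_lit 0) (nat_lit 3907342970) (nat_lit 228) (nat_lit 18344612201) (nat_lit 76) (nat_lit 6325774601) (nat_lit 64) (nat_lit 5) (nat_lit 67) (nat_lit 5) (nat_lit 65) (nat_lit 5) (nat_lit 456) (nat_lit 418) (nat_lit 326))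 (XT.lf (nat_lit 0) (nat_lit 10720521191) (nat_lit 228) (nat_lit 1748047250) (nat_lit 76) (nat_lit 17012322192) (nat_lit 64) (nat_lit 5) (nat_lit 67) (nat_lit 5) (nat_lit 65) (nat_lit 5) (nat_lit 457) (nat_lit 418) (nat_lit 325))) (XT.nd (nat_lit 78) (nat_lit 152) (nat_lit 0) (XT.lf (nat_lit 0) (nat_lit 16178460051) (nat_lit 152) (nat_lit 1937579345) (nat_lit 228) (nat_lit 12301088134) (nat_lit 62) (nat_lit 5) (nat_lit 64) (nat_lit 5) (nat_lit 65) (nat_lit 5) (nat_lit 458) (nat_lit 418) (nat_lit 324)) (XT.lf (nat_lit 0) (nat_lit 3618380346) (nat_lit 152) (nat_lit 22481155942) (nat_lit 228) (nat_lit 5289731792) (nat_lit 60) (nat_lit 5) (nat_lit 62) (nat_lit 5) (nat_lit 63) (nat_lit 5) (nat_lit 459) (nat_lit 418) (nat_lit 323))))) (XT.nd (nat_lit 234) (nat_lit 532) (nat_lit 0) (XT.nd (nat_lit 78) (nat_lit 152) (nat_lit 0) (XT.lf (nat_lit 0) (nat_lit 2272021220) (nat_lit 228) (nat_lit 9621322983)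 (nat_lit 76) (nat_lit 20501747986) (nat_lit 59) (nat_lit 5) (nat_lit 62) (nat_lit 5) (nat_lit 60) (nat_lit 5) (nat_lit 460) (nat_lit 418) (nat_lit 322)) (XT.nd (nat_lit 78) (nat_lit 0) (nat_lit 0) (XT.lf (nat_lit 0) (nat_lit 9640502434) (nat_lit 152) (nat_lit 533911261) (nat_lit 228) (nat_lit 23265443572) (nat_lit 57) (nat_lit 5) (nat_lit 59) (nat_lit 5) (nat_lit 60) (nat_lit 5) (nat_lit 461) (nat_lit 418) (nat_lit 321)) (XT.lf (nat_lit 0) (nat_lit 18805346377) (nat_lit 228) (nat_lit 4526994921) (nat_lit 76) (nat_lit 11187849872) (nat_lit 57) (nat_lit 5) (nat_lit 60) (nat_lit 5) (nat_lit 58) (nat_lit 5) (nat_lit 462) (nat_lit 418) (nat_lit 320)))) (XT.nd (nat_lit 156) (nat_lit 152) (nat_lit 0) (XT.nd (nat_lit 78) (nat_lit 228) (nat_lit 0) (XT.lf (nat_lit 0) (nat_lit 16202452283) (nat_lit 152) (nat_lit 11917494871) (nat_lit 228) (nat_lit 7521990070) (nat_lit 55) (nat_lit 5) (nat_lit 57) (nat_lit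 5) (nat_lit 58) (nat_lit 5) (nat_lit 463) (nat_lit 418) (nat_lit 319)) (XT.lf (nat_lit 0) (nat_lit 1137714226) (nat_lit 228) (nat_lit 35500104904) (nat_lit 76) (nat_lit 176519854) (nat_lit 52) (nat_lit 5) (nat_lit 55) (nat_lit 5) (nat_lit 53) (nat_lit 5) (nat_lit 464) (nat_lit 418) (nat_lit 318))) (XT.nd (nat_lit 78) (nat_lit 152) (nat_lit 0) (XT.lf (nat_lit 0) (nat_lit 10498148200) (nat_lit 228) (nat_lit 14588951527) (nat_lit 76) (nat_lit 12926070226) (nat_lit 52) (nat_lit 5) (nat_lit 55) (nat_lit 5) (nat_lit 53) (nat_lit 5) (nat_lit 465) (nat_lit 418) (nat_lit 317)) (XT.lf (nat_lit 0) (nat_lit 7595128645) (nat_lit 152) (nat_lit 12841056278) (nat_lit 228) (nat_lit 18830279750) (nat_lit 50) (nat_lit 5) (nat_lit 52) (nat_lit 5) (nat_lit 53) (nat_lit 5) (nat_lit 466) (nat_lit 418) (nat_lit 316))))))) (XT.nd (nat_lit 1092) (nat_lit 760) (nat_lit 0) (XT.nd (nat_lit 546) (nat_lit 532) (nat_lit 0)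 (XT.nd (nat_lit 234) (nat_lit 456) (nat_lit 0) (XT.nd (nat_lit 78) (nat_lit 152) (nat_lit 0) (XT.lf (nat_lit 0) (nat_lit 31113597679) (nat_lit 228) (nat_lit 9195289351) (nat_lit 76) (nat_lit 261414585) (nat_lit 50) (nat_lit 5) (nat_lit 53) (nat_lit 5) (nat_lit 51) (nat_lit 4) (nat_lit 467) (nat_lit 418) (nat_lit 315)) (XT.nd (nat_lit 78) (nat_lit 0) (nat_lit 0) (XT.lf (nat_lit 0) (nat_lit 810980552) (nat_lit 152) (nat_lit 27283058236) (nat_lit 76) (nat_lit 13823103229) (nat_lit 48) (nat_lit 5) (nat_lit 50) (nat_lit 5) (nat_lit 49) (nat_lit 5) (nat_lit 468) (nat_lit 418) (nat_lit 314)) (XT.lf (nat_lit 0) (nat_lit 11424064881) (nat_lit 152) (nat_lit 3522045590) (nat_lit 76) (nat_lit 28369972459) (nat_lit 48) (nat_lit 5) (nat_lit 50) (nat_lit 5) (nat_lit 49) (nat_lit 5) (nat_lit 469) (nat_lit 418) (nat_lit 313)))) (XT.nd (nat_lit 156) (nat_lit 228) (nat_lit 0) (XT.nd (nat_lit 78) (nat_lit 76)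 (nat_lit 0) (XT.lf (nat_lit 0) (nat_lit 22120643166) (nat_lit 152) (nat_lit 784471500) (nat_lit 228) (nat_lit 21862991645) (nat_lit 46) (nat_lit 5) (nat_lit 48) (nat_lit 5) (nat_lit 49) (nat_lit 5) (nat_lit 470) (nat_lit 418) (nat_lit 312)) (XT.lf (nat_lit 0) (nat_lit 2730046499) (nat_lit 76) (nat_lit 32545340872) (nat_lit 152) (nat_lit 11001585905) (nat_lit 45) (nat_lit 5) (nat_lit 46) (nat_lit 5) (nat_lit 47) (nat_lit 4) (nat_lit 471) (nat_lit 418) (nat_lit 311))) (XT.nd (nat_lit 78) (nat_lit 152) (nat_lit 0) (XT.lf (nat_lit 0) (nat_lit 784729243) (nat_lit 152) (nat_lit 17719314433) (nat_lit 76) (nat_lit 29337189545) (nat_lit 44) (nat_lit 5) (nat_lit 46) (nat_lit 5) (nat_lit 45) (nat_lit 5) (nat_lit 472) (nat_lit 418) (nat_lit 310)) (XT.lf (nat_lit 0) (nat_lit 9509920094) (nat_lit 152) (nat_lit 3421610705) (nat_lit 228) (nat_lit 36536113677) (nat_lit 42) (nat_lit 5) (nat_lit 44) (nat_lit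 5) (nat_lit 45) (nat_lit 5) (nat_lit 473) (nat_lit 418) (nat_lit 309))))) (XT.nd (nat_lit 234) (nat_lit 380) (nat_lit 0) (XT.nd (nat_lit 78) (nat_lit 152) (nat_lit 0) (XT.lf (nat_lit 0) (nat_lit 26176982269) (nat_lit 228) (nat_lit 12657168370) (nat_lit 76) (nat_lit 12316660933) (nat_lit 42) (nat_lit 5) (nat_lit 45) (nat_lit 5) (nat_lit 43) (nat_lit 4) (nat_lit 474) (nat_lit 418) (nat_lit 308)) (XT.nd (nat_lit 78) (nat_lit 76) (nat_lit 0) (XT.lf (nat_lit 0) (nat_lit 16466166704) (nat_lit 76) (nat_lit 23924546190) (nat_lit 152) (nat_lit 12512124533) (nat_lit 41) (nat_lit 5) (nat_lit 42) (nat_lit 5) (nat_lit 43) (nat_lit 4) (nat_lit 475) (nat_lit 418) (nat_lit 307)) (XT.lf (nat_lit 0) (nat_lit 765060518) (nat_lit 152) (nat_lit 7272306229) (nat_lit 76) (nat_lit 46694115253) (nat_lit 40) (nat_lit 5) (nat_lit 42) (nat_lit 5) (nat_lit 41) (nat_lit 5) (nat_lit 476) (nat_lit 418) (nat_lit 306)))) (XT.nd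 (nat_lit 156) (nat_lit 228) (nat_lit 0) (XT.nd (nat_lit 78) (nat_lit 0) (nat_lit 0) (XT.lf (nat_lit 0) (nat_lit 14796265277) (nat_lit 228) (nat_lit 32869882499) (nat_lit 76) (nat_lit 8949623325) (nat_lit 38) (nat_lit 5) (nat_lit 41) (nat_lit 5) (nat_lit 39) (nat_lit 4) (nat_lit 477) (nat_lit 418) (nat_lit 305)) (XT.lf (nat_lit 0) (nat_lit 29779206304) (nat_lit 228) (nat_lit 2167039844) (nat_lit 76) (nat_lit 26635520311) (nat_lit 38) (nat_lit 5) (nat_lit 41) (nat_lit 5) (nat_lit 39) (nat_lit 4) (nat_lit 478) (nat_lit 418) (nat_lit 304))) (XT.nd (nat_lit 78) (nat_lit 152) (nat_lit 0) (XT.lf (nat_lit 0) (nat_lit 31052814370) (nat_lit 76) (nat_lit 14936860402) (nat_lit 152) (nat_lit 14632468371) (nat_lit 37) (nat_lit 5) (nat_lit 38) (nat_lit 5) (nat_lit 39) (nat_lit 4) (nat_lit 479) (nat_lit 418) (nat_lit 303)) (XT.lf (nat_lit 0) (nat_lit 368298023) (nat_lit 152) (nat_lit 59470772275) (nat_lit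 76) (nat_lit 2918774363) (nat_lit 35) (nat_lit 5) (nat_lit 37) (nat_lit 5) (nat_lit 36) (nat_lit 4) (nat_lit 480) (nat_lit 418) (nat_lit 302)))))) (XT.nd (nat_lit 546) (nat_lit 456) (nat_lit 0) (XT.nd (nat_lit 234) (nat_lit 228) (nat_lit 0) (XT.nd (nat_lit 78) (nat_lit 76) (nat_lit 0) (XT.lf (nat_lit 0) (nat_lit 16374814190) (nat_lit 152) (nat_lit 26667439956) (nat_lit 76) (nat_lit 21908710862) (nat_lit 35) (nat_lit 5) (nat_lit 37) (nat_lit 5) (nat_lit 36) (nat_lit 4) (nat_lit 481) (nat_lit 418) (nat_lit 301)) (XT.nd (nat_lit 78) (nat_lit 0) (nat_lit 0) (XT.lf (nat_lit 0) (nat_lit 8021296539) (nat_lit 76) (nat_lit 25279510284) (nat_lit 152) (nat_lit 33946977489) (nat_lit 34) (nat_lit 5) (nat_lit 35) (nat_lit 5) (nat_lit 36) (nat_lit 4) (nat_lit 482) (nat_lit 418) (nat_lit 300)) (XT.lf (nat_lit 0) (nat_lit 45358994526) (nat_lit 76) (nat_lit 6159759470) (nat_lit 152) (nat_lit 18118408292) (nat_lit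 34) (nat_lit 5) (nat_lit 35) (nat_lit 5) (nat_lit 36) (nat_lit 4) (nat_lit 483) (nat_lit 418) (nat_lit 299)))) (XT.nd (nat_lit 156) (nat_lit 76) (nat_lit 0) (XT.nd (nat_lit 78) (nat_lit 76) (nat_lit 0) (XT.lf (nat_lit 0) (nat_lit 12592359433) (nat_lit 76) (nat_lit 58463342426) (nat_lit 76) (nat_lit 1069902567) (nat_lit 33) (nat_lit 4) (nat_lit 34) (nat_lit 5) (nat_lit 34) (nat_lit 4) (nat_lit 484) (nat_lit 418) (nat_lit 298)) (XT.lf (nat_lit 0) (nat_lit 16805459650) (nat_lit 152) (nat_lit 22950103071) (nat_lit 76) (nat_lit 34944110900) (nat_lit 32) (nat_lit 5) (nat_lit 34) (nat_lit 5) (nat_lit 33) (nat_lit 4) (nat_lit 485) (nat_lit 418) (nat_lit 297))) (XT.nd (nat_lit 78) (nat_lit 0) (nat_lit 0) (XT.lf (nat_lit 0) (nat_lit 15944514776) (nat_lit 76) (nat_lit 19837578664) (nat_lit 152) (nat_lit 41607303276) (nat_lit 31) (nat_lit 5) (nat_lit 32) (nat_lit 5) (nat_lit 33) (nat_lit 4) (nat_lit 486)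 (nat_lit 418) (nat_lit 296)) (XT.lf (nat_lit 0) (nat_lit 56113949830) (nat_lit 152) (nat_lit 22647198490) (nat_lit 0) (nat_lit 1432138455) (nat_lit 31) (nat_lit 5) (nat_lit 33) (nat_lit 4) (nat_lit 31) (nat_lit 4) (nat_lit 487) (nat_lit 418) (nat_lit 295))))) (XT.nd (nat_lit 312) (nat_lit 228) (nat_lit 0) (XT.nd (nat_lit 156) (nat_lit 76) (nat_lit 0) (XT.nd (nat_lit 78) (nat_lit 76) (nat_lit 0) (XT.lf (nat_lit 0) (nat_lit 18342239067) (nat_lit 76) (nat_lit 59726543763) (nat_lit 76) (nat_lit 5038269653) (nat_lit 30) (nat_lit 4) (nat_lit 31) (nat_lit 5) (nat_lit 31) (nat_lit 4) (nat_lit 488) (nat_lit 418) (nat_lit 294)) (XT.lf (nat_lit 0) (nat_lit 14860845058) (nat_lit 152) (nat_lit 24229696725) (nat_lit 76) (nat_lit 47045058508) (nat_lit 29) (nat_lit 5) (nat_lit 31) (nat_lit 5) (nat_lit 30) (nat_lit 4) (nat_lit 489) (nat_lit 418) (nat_lit 293))) (XT.nd (nat_lit 78) (nat_lit 0) (nat_lit 0) (XT.lf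 (nat_lit 0) (nat_lit 18843155380) (nat_lit 76) (nat_lit 17031696506) (nat_lit 152) (nat_lit 53422131401) (nat_lit 28) (nat_lit 5) (nat_lit 29) (nat_lit 5) (nat_lit 30) (nat_lit 4) (nat_lit 490) (nat_lit 418) (nat_lit 292)) (XT.lf (nat_lit 0) (nat_lit 58447414637) (nat_lit 152) (nat_lit 27797045792) (nat_lit 0) (nat_lit 6346582502) (nat_lit 28) (nat_lit 5) (nat_lit 30) (nat_lit 4) (nat_lit 28) (nat_lit 4) (nat_lit 491) (nat_lit 418) (nat_lit 291)))) (XT.nd (nat_lit 156) (nat_lit 76) (nat_lit 0) (XT.nd (nat_lit 78) (nat_lit 76) (nat_lit 0) (XT.lf (nat_lit 0) (nat_lit 17256597535) (nat_lit 76) (nat_lit 65435953434) (nat_lit 76) (nat_lit 13330057577) (nat_lit 27) (nat_lit 4) (nat_lit 28) (nat_lit 5) (nat_lit 28) (nat_lit 4) (nat_lit 492) (nat_lit 418) (nat_lit 290)) (XT.lf (nat_lit 0) (nat_lit 8725159359) (nat_lit 152) (nat_lit 34224141762) (nat_lit 76) (nat_lit 56646107483) (nat_lit 26) (nat_lit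 5) (nat_lit 28) (nat_lit 5) (nat_lit 27) (nat_lit 4) (nat_lit 493) (nat_lit 418) (nat_lit 289))) (XT.nd (nat_lit 78) (nat_lit 0) (nat_lit 0) (XT.lf (nat_lit 0) (nat_lit 12724908144) (nat_lit 76) (nat_lit 18904467241) (nat_lit 152) (nat_lit 71696836452) (nat_lit 25) (nat_lit 5) (nat_lit 26) (nat_lit 5) (nat_lit 27) (nat_lit 4) (nat_lit 494) (nat_lit 418) (nat_lit 288)) (XT.lf (nat_lit 0) (nat_lit 56362490640) (nat_lit 152) (nat_lit 44122185581) (nat_lit 0) (nat_lit 6724694803) (nat_lit 25) (nat_lit 5) (nat_lit 27) (nat_lit 4) (nat_lit 25) (nat_lit 4) (nat_lit 495) (nat_lit 418) (nat_lit 287))))))))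
noncomputable def xc138 : XT := (XT.nd (nat_lit 2184) (nat_lit 456) (nat_lit 0) (XT.nd (nat_lit 1092) (nat_lit 456) (nat_lit 0) (XT.nd (nat_lit 546) (nat_lit 380) (nat_lit 0) (XT.nd (nat_lit 234) (nat_lit 152) (nat_lit 0) (XT.nd (nat_lit 78) (nat_lit 76) (nat_lit 0) (XT.lf (nat_lit 0) (nat_lit 4506965051) (nat_lit 76) (nat_lit 78201342222) (nat_lit 76) (nat_lit 28559578826) (nat_lit 24) (nat_lit 4) (nat_lit 25) (nat_lit 5) (nat_lit 25) (nat_lit 4) (nat_lit 496) (nat_lit 418) (nat_lit 286)) (XT.nd (nat_lit 78) (nat_lit 76) (nat_lit 0) (XT.lf (nat_lit 0) (nat_lit 57091264064) (nat_lit 76) (nat_lit 54023225666) (nat_lit 76) (nat_lit 4377683643) (nat_lit 24) (nat_lit 4) (nat_lit 25) (nat_lit 5) (nat_lit 25) (nat_lit 4) (nat_lit 497) (nat_lit 418) (nat_lit 285)) (XT.lf (nat_lit 0) (nat_lit 20336726520) (nat_lit 152) (nat_lit 7958851349) (nat_lit 76) (nat_lit 91615894628) (nat_lit 23) (nat_lit 5)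 (nat_lit 25) (nat_lit 5) (nat_lit 24) (nat_lit 4) (nat_lit 498) (nat_lit 418) (nat_lit 284)))) (XT.nd (nat_lit 156) (nat_lit 76) (nat_lit 0) (XT.nd (nat_lit 78) (nat_lit 0) (nat_lit 0) (XT.lf (nat_lit 0) (nat_lit 46411499396) (nat_lit 76) (nat_lit 449021305) (nat_lit 152) (nat_lit 77651588661) (nat_lit 22) (nat_lit 5) (nat_lit 23) (nat_lit 5) (nat_lit 24) (nat_lit 4) (nat_lit 499) (nat_lit 418) (nat_lit 283)) (XT.lf (nat_lit 0) (nat_lit 75293171182) (nat_lit 152) (nat_lit 26018571267) (nat_lit 0) (nat_lit 28001902454) (nat_lit 22) (nat_lit 5) (nat_lit 24) (nat_lit 4) (nat_lit 22) (nat_lit 4) (nat_lit 500) (nat_lit 418) (nat_lit 282))) (XT.nd (nat_lit 78) (nat_lit 0) (nat_lit 0) (XT.lf (nat_lit 0) (nat_lit 29600451966) (nat_lit 76) (nat_lit 76012870683) (nat_lit 76) (nat_lit 28718641302) (nat_lit 21) (nat_lit 4) (nat_lit 22) (nat_lit 5) (nat_lit 22) (nat_lit 4) (nat_lit 501) (nat_lit 418) (nat_lit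 281)) (XT.lf (nat_lit 0) (nat_lit 88896692103) (nat_lit 76) (nat_lit 48989851476) (nat_lit 76) (nat_lit 1692802426) (nat_lit 21) (nat_lit 4) (nat_lit 22) (nat_lit 5) (nat_lit 22) (nat_lit 4) (nat_lit 502) (nat_lit 418) (nat_lit 280))))) (XT.nd (nat_lit 234) (nat_lit 228) (nat_lit 0) (XT.nd (nat_lit 78) (nat_lit 0) (nat_lit 0) (XT.lf (nat_lit 0) (nat_lit 5831866467) (nat_lit 76) (nat_lit 20085987639) (nat_lit 152) (nat_lit 119146032788) (nat_lit 19) (nat_lit 5) (nat_lit 20) (nat_lit 5) (nat_lit 21) (nat_lit 4) (nat_lit 503) (nat_lit 418) (nat_lit 279)) (XT.nd (nat_lit 78) (nat_lit 0) (nat_lit 0) (XT.lf (nat_lit 0) (nat_lit 55881343294) (nat_lit 152) (nat_lit 84056923247) (nat_lit 0) (nat_lit 10831541414) (nat_lit 19) (nat_lit 5) (nat_lit 21) (nat_lit 4) (nat_lit 19) (nat_lit 4) (nat_lit 504) (nat_lit 418) (nat_lit 278)) (XT.lf (nat_lit 0) (nat_lit 87668997312) (nat_lit 152) (nat_lit 26458852678)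 (nat_lit 0) (nat_lit 42616875682) (nat_lit 19) (nat_lit 5) (nat_lit 21) (nat_lit 4) (nat_lit 19) (nat_lit 4) (nat_lit 505) (nat_lit 418) (nat_lit 277)))) (XT.nd (nat_lit 156) (nat_lit 152) (nat_lit 0) (XT.nd (nat_lit 78) (nat_lit 0) (nat_lit 0) (XT.lf (nat_lit 0) (nat_lit 35137549110) (nat_lit 76) (nat_lit 86453948996) (nat_lit 76) (nat_lit 41399618081) (nat_lit 18) (nat_lit 4) (nat_lit 19) (nat_lit 5) (nat_lit 19) (nat_lit 4) (nat_lit 506) (nat_lit 418) (nat_lit 276)) (XT.lf (nat_lit 0) (nat_lit 100726269183) (nat_lit 76) (nat_lit 56928870677) (nat_lit 76) (nat_lit 11872435681) (nat_lit 18) (nat_lit 4) (nat_lit 19) (nat_lit 5) (nat_lit 19) (nat_lit 4) (nat_lit 507) (nat_lit 418) (nat_lit 275))) (XT.nd (nat_lit 78) (nat_lit 76) (nat_lit 0) (XT.lf (nat_lit 0) (nat_lit 18515811822) (nat_lit 152) (nat_lit 7101024647) (nat_lit 76) (nat_lit 150759235941) (nat_lit 17) (nat_lit 5) (nat_lit 19) (nat_lit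 5) (nat_lit 18) (nat_lit 4) (nat_lit 508) (nat_lit 418) (nat_lit 274)) (XT.lf (nat_lit 0) (nat_lit 51080512334) (nat_lit 152) (nat_lit 124258052949) (nat_lit 0) (nat_lit 8165895813) (nat_lit 16) (nat_lit 5) (nat_lit 18) (nat_lit 4) (nat_lit 16) (nat_lit 4) (nat_lit 509) (nat_lit 418) (nat_lit 273)))))) (XT.nd (nat_lit 546) (nat_lit 228) (nat_lit 0) (XT.nd (nat_lit 234) (nat_lit 152) (nat_lit 0) (XT.nd (nat_lit 78) (nat_lit 76) (nat_lit 0) (XT.lf (nat_lit 0) (nat_lit 85812795437) (nat_lit 152) (nat_lit 62253058608) (nat_lit 0) (nat_lit 42896447883) (nat_lit 16) (nat_lit 5) (nat_lit 18) (nat_lit 4) (nat_lit 16) (nat_lit 4) (nat_lit 510) (nat_lit 418) (nat_lit 272)) (XT.nd (nat_lit 78) (nat_lit 0) (nat_lit 0) (XT.lf (nat_lit 0) (nat_lit 2940955458) (nat_lit 76) (nat_lit 119383957292) (nat_lit 76) (nat_lit 76465961136) (nat_lit 15) (nat_lit 4) (nat_lit 16) (nat_lit 5) (nat_lit 16) (nat_lit 4) (nat_lit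 511) (nat_lit 418) (nat_lit 271)) (XT.lf (nat_lit 0) (nat_lit 73550683355) (nat_lit 76) (nat_lit 88163587830) (nat_lit 76) (nat_lit 45244021575) (nat_lit 15) (nat_lit 4) (nat_lit 16) (nat_lit 5) (nat_lit 16) (nat_lit 4) (nat_lit 512) (nat_lit 418) (nat_lit 270)))) (XT.nd (nat_lit 156) (nat_lit 0) (nat_lit 0) (XT.nd (nat_lit 78) (nat_lit 152) (nat_lit 0) (XT.lf (nat_lit 0) (nat_lit 147685876221) (nat_lit 76) (nat_lit 55384697115) (nat_lit 76) (nat_lit 12463635530) (nat_lit 15) (nat_lit 4) (nat_lit 16) (nat_lit 5) (nat_lit 16) (nat_lit 4) (nat_lit 513) (nat_lit 418) (nat_lit 269)) (XT.lf (nat_lit 0) (nat_lit 662456424) (nat_lit 76) (nat_lit 20598490958) (nat_lit 152) (nat_lit 203260438945) (nat_lit 13) (nat_lit 5) (nat_lit 14) (nat_lit 5) (nat_lit 15) (nat_lit 4) (nat_lit 514) (nat_lit 418) (nat_lit 268))) (XT.nd (nat_lit 78) (nat_lit 0) (nat_lit 0) (XT.lf (nat_lit 0) (nat_lit 57667007161) (nat_lit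 152) (nat_lit 159422836474) (nat_lit 0) (nat_lit 16787157618) (nat_lit 13) (nat_lit 5) (nat_lit 15) (nat_lit 4) (nat_lit 13) (nat_lit 4) (nat_lit 515) (nat_lit 418) (nat_lit 267)) (XT.lf (nat_lit 0) (nat_lit 96228727217) (nat_lit 152) (nat_lit 92107254448) (nat_lit 0) (nat_lit 55347647461) (nat_lit 13) (nat_lit 5) (nat_lit 15) (nat_lit 4) (nat_lit 13) (nat_lit 4) (nat_lit 516) (nat_lit 418) (nat_lit 266))))) (XT.nd (nat_lit 234) (nat_lit 152) (nat_lit 0) (XT.nd (nat_lit 78) (nat_lit 76) (nat_lit 0) (XT.lf (nat_lit 0) (nat_lit 136716320997) (nat_lit 152) (nat_lit 21430308458) (nat_lit 0) (nat_lit 95834069611) (nat_lit 13) (nat_lit 5) (nat_lit 15) (nat_lit 4) (nat_lit 13) (nat_lit 4) (nat_lit 517) (nat_lit 418) (nat_lit 265)) (XT.nd (nat_lit 78) (nat_lit 0) (nat_lit 0) (XT.lf (nat_lit 0) (nat_lit 54521302095) (nat_lit 76) (nat_lit 125556115762) (nat_lit 76) (nat_lit 84672748536) (nat_lit 12)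 (nat_lit 4) (nat_lit 13) (nat_lit 5) (nat_lit 13) (nat_lit 4) (nat_lit 518) (nat_lit 418) (nat_lit 264)) (XT.lf (nat_lit 0) (nat_lit 135010368022) (nat_lit 76) (nat_lit 90957062988) (nat_lit 76) (nat_lit 50072633058) (nat_lit 12) (nat_lit 4) (nat_lit 13) (nat_lit 5) (nat_lit 13) (nat_lit 4) (nat_lit 519) (nat_lit 418) (nat_lit 263)))) (XT.nd (nat_lit 156) (nat_lit 0) (nat_lit 0) (XT.nd (nat_lit 78) (nat_lit 152) (nat_lit 0) (XT.lf (nat_lit 0) (nat_lit 219519947177) (nat_lit 76) (nat_lit 54630025081) (nat_lit 76) (nat_lit 13744583052) (nat_lit 12) (nat_lit 4) (nat_lit 13) (nat_lit 5) (nat_lit 13) (nat_lit 4) (nat_lit 520) (nat_lit 418) (nat_lit 262)) (XT.lf (nat_lit 0) (nat_lit 7777393361) (nat_lit 76) (nat_lit 15961045318) (nat_lit 152) (nat_lit 276578309091) (nat_lit 10) (nat_lit 5) (nat_lit 11) (nat_lit 5) (nat_lit 12) (nat_lit 4) (nat_lit 521) (nat_lit 418) (nat_lit 261))) (XT.nd (nat_lit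 78) (nat_lit 0) (nat_lit 0) (XT.lf (nat_lit 0) (nat_lit 64193457941) (nat_lit 152) (nat_lit 223824188748) (nat_lit 0) (nat_lit 25253149431) (nat_lit 10) (nat_lit 5) (nat_lit 12) (nat_lit 4) (nat_lit 10) (nat_lit 4) (nat_lit 522) (nat_lit 418) (nat_lit 260)) (XT.lf (nat_lit 0) (nat_lit 106931068964) (nat_lit 152) (nat_lit 151938558130) (nat_lit 0) (nat_lit 67989927797) (nat_lit 10) (nat_lit 5) (nat_lit 12) (nat_lit 4) (nat_lit 10) (nat_lit 4) (nat_lit 523) (nat_lit 418) (nat_lit 259))))))) (XT.nd (nat_lit 1092) (nat_lit 152) (nat_lit 0) (XT.nd (nat_lit 546) (nat_lit 76) (nat_lit 0) (XT.nd (nat_lit 234) (nat_lit 152) (nat_lit 0) (XT.nd (nat_lit 78) (nat_lit 76) (nat_lit 0) (XT.lf (nat_lit 0) (nat_lit 151803831317) (nat_lit 152) (nat_lit 76462109643) (nat_lit 0) (nat_lit 112861897143) (nat_lit 10) (nat_lit 5) (nat_lit 12) (nat_lit 4) (nat_lit 10) (nat_lit 4) (nat_lit 524) (nat_lit 418) (nat_lit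 258)) (XT.nd (nat_lit 78) (nat_lit 0) (nat_lit 0) (XT.lf (nat_lit 0) (nat_lit 2876942673) (nat_lit 76) (nat_lit 196086559373) (nat_lit 76) (nat_lit 157143869956) (nat_lit 9) (nat_lit 4) (nat_lit 10) (nat_lit 5) (nat_lit 10) (nat_lit 4) (nat_lit 525) (nat_lit 418) (nat_lit 257)) (XT.lf (nat_lit 0) (nat_lit 88834293875) (nat_lit 76) (nat_lit 160940166135) (nat_lit 76) (nat_lit 121996757438) (nat_lit 9) (nat_lit 4) (nat_lit 10) (nat_lit 5) (nat_lit 10) (nat_lit 4) (nat_lit 526) (nat_lit 418) (nat_lit 256)))) (XT.nd (nat_lit 156) (nat_lit 152) (nat_lit 0) (XT.nd (nat_lit 78) (nat_lit 0) (nat_lit 0) (XT.lf (nat_lit 0) (nat_lit 179086421665) (nat_lit 76) (nat_lit 124038002182) (nat_lit 76) (nat_lit 85093908457) (nat_lit 9) (nat_lit 4) (nat_lit 10) (nat_lit 5) (nat_lit 10) (nat_lit 4) (nat_lit 527) (nat_lit 418) (nat_lit 255)) (XT.lf (nat_lit 0) (nat_lit 273848212062) (nat_lit 76) (nat_lit 85292205219)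 (nat_lit 76) (nat_lit 46347459085) (nat_lit 9) (nat_lit 4) (nat_lit 10) (nat_lit 5) (nat_lit 10) (nat_lit 4) (nat_lit 528) (nat_lit 418) (nat_lit 254))) (XT.nd (nat_lit 78) (nat_lit 152) (nat_lit 0) (XT.lf (nat_lit 0) (nat_lit 373345288375) (nat_lit 76) (nat_lit 44610523348) (nat_lit 76) (nat_lit 5665155874) (nat_lit 9) (nat_lit 4) (nat_lit 10) (nat_lit 5) (nat_lit 10) (nat_lit 4) (nat_lit 529) (nat_lit 418) (nat_lit 253)) (XT.lf (nat_lit 0) (nat_lit 35718532275) (nat_lit 76) (nat_lit 703170897) (nat_lit 152) (nat_lit 406182270922) (nat_lit 7) (nat_lit 5) (nat_lit 8) (nat_lit 5) (nat_lit 9) (nat_lit 4) (nat_lit 530) (nat_lit 418) (nat_lit 252))))) (XT.nd (nat_lit 234) (nat_lit 76) (nat_lit 0) (XT.nd (nat_lit 78) (nat_lit 0) (nat_lit 0) (XT.lf (nat_lit 0) (nat_lit 81995381937) (nat_lit 152) (nat_lit 335554006817) (nat_lit 0) (nat_lit 44903455459) (nat_lit 7) (nat_lit 5) (nat_lit 9) (nat_lit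 4) (nat_lit 7) (nat_lit 4) (nat_lit 531) (nat_lit 418) (nat_lit 251)) (XT.nd (nat_lit 78) (nat_lit 0) (nat_lit 0) (XT.lf (nat_lit 0) (nat_lit 129857984340) (nat_lit 152) (nat_lit 260670114859) (nat_lit 0) (nat_lit 92765546683) (nat_lit 7) (nat_lit 5) (nat_lit 9) (nat_lit 4) (nat_lit 7) (nat_lit 4) (nat_lit 532) (nat_lit 418) (nat_lit 250)) (XT.lf (nat_lit 0) (nat_lit 180112490489) (nat_lit 152) (nat_lit 182044492494) (nat_lit 0) (nat_lit 143019565995) (nat_lit 7) (nat_lit 5) (nat_lit 9) (nat_lit 4) (nat_lit 7) (nat_lit 4) (nat_lit 533) (nat_lit 418) (nat_lit 249)))) (XT.nd (nat_lit 156) (nat_lit 76) (nat_lit 0) (XT.nd (nat_lit 78) (nat_lit 0) (nat_lit 0) (XT.lf (nat_lit 0) (nat_lit 232878553970) (nat_lit 152) (nat_lit 99489935860) (nat_lit 0) (nat_lit 195785165822) (nat_lit 7) (nat_lit 5) (nat_lit 9) (nat_lit 4) (nat_lit 7) (nat_lit 4) (nat_lit 534) (nat_lit 418) (nat_lit 248)) (XT.lf (nat_lit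 0) (nat_lit 288281808268) (nat_lit 152) (nat_lit 12809886488) (nat_lit 0) (nat_lit 251187978544) (nat_lit 7) (nat_lit 5) (nat_lit 9) (nat_lit 4) (nat_lit 7) (nat_lit 4) (nat_lit 535) (nat_lit 418) (nat_lit 247))) (XT.nd (nat_lit 78) (nat_lit 0) (nat_lit 0) (XT.lf (nat_lit 0) (nat_lit 80787749193) (nat_lit 76) (nat_lit 266927739871) (nat_lit 76) (nat_lit 229833489599) (nat_lit 6) (nat_lit 4) (nat_lit 7) (nat_lit 5) (nat_lit 7) (nat_lit 4) (nat_lit 536) (nat_lit 418) (nat_lit 246)) (XT.lf (nat_lit 0) (nat_lit 179507902665) (nat_lit 76) (nat_lit 230828851223) (nat_lit 76) (nat_lit 193734200429) (nat_lit 6) (nat_lit 4) (nat_lit 7) (nat_lit 5) (nat_lit 7) (nat_lit 4) (nat_lit 537) (nat_lit 418) (nat_lit 245)))))) (XT.nd (nat_lit 53274) (nat_lit 0) (nat_lit 9424) (XT.nd (nat_lit 234) (nat_lit 152) (nat_lit 0) (XT.nd (nat_lit 78) (nat_lit 0) (nat_lit 0) (XT.lf (nat_lit 0) (nat_lit 283162069212) (nat_lit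 76) (nat_lit 192926020703) (nat_lit 76) (nat_lit 155830988459) (nat_lit 6) (nat_lit 4) (nat_lit 7) (nat_lit 5) (nat_lit 7) (nat_lit 4) (nat_lit 538) (nat_lit 418) (nat_lit 244)) (XT.nd (nat_lit 78) (nat_lit 0) (nat_lit 0) (XT.lf (nat_lit 0) (nat_lit 391997044469) (nat_lit 76) (nat_lit 153129003476) (nat_lit 76) (nat_lit 116033607948) (nat_lit 6) (nat_lit 4) (nat_lit 7) (nat_lit 5) (nat_lit 7) (nat_lit 4) (nat_lit 539) (nat_lit 418) (nat_lit 243)) (XT.lf (nat_lit 0) (nat_lit 506271959329) (nat_lit 76) (nat_lit 111343044741) (nat_lit 76) (nat_lit 74247303226) (nat_lit 6) (nat_lit 4) (nat_lit 7) (nat_lit 5) (nat_lit 7) (nat_lit 4) (nat_lit 540) (nat_lit 418) (nat_lit 242)))) (XT.nd (nat_lit 156) (nat_lit 76) (nat_lit 0) (XT.nd (nat_lit 78) (nat_lit 76) (nat_lit 0) (XT.lf (nat_lit 0) (nat_lit 626258896924) (nat_lit 76) (nat_lit 67468654118) (nat_lit 76) (nat_lit 30372583093) (nat_lit 6) (nat_lit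 4) (nat_lit 7) (nat_lit 5) (nat_lit 7) (nat_lit 4) (nat_lit 541) (nat_lit 418) (nat_lit 241)) (XT.lf (nat_lit 0) (nat_lit 15192677539) (nat_lit 152) (nat_lit 5951395889) (nat_lit 76) (nat_lit 736793567553) (nat_lit 5) (nat_lit 5) (nat_lit 7) (nat_lit 5) (nat_lit 6) (nat_lit 4) (nat_lit 542) (nat_lit 418) (nat_lit 240))) (XT.nd (nat_lit 52806) (nat_lit 0) (nat_lit 10032) (XT.lf (nat_lit 0) (nat_lit 63928102310) (nat_lit 152) (nat_lit 700820467021) (nat_lit 0) (nat_lit 28597927338) (nat_lit 4) (nat_lit 5) (nat_lit 6) (nat_lit 4) (nat_lit 4) (nat_lit 4) (nat_lit 543) (nat_lit 418) (nat_lit 239)) (XT.lf (nat_lit 0) (nat_lit 1400385519) (nat_lit 0) (nat_lit 1400385519) (nat_lit 684) (nat_lit 2542739368) (nat_lit 136) (nat_lit 5) (nat_lit 136) (nat_lit 3) (nat_lit 145) (nat_lit 3) (nat_lit 419) (nat_lit 419) (nat_lit 362))))) (XT.nd (nat_lit 312) (nat_lit 608) (nat_lit 0) (XT.nd (nat_lit 156) (nat_lit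 0) (nat_lit 76) (XT.nd (nat_lit 78) (nat_lit 0) (nat_lit 0) (XT.lf (nat_lit 0) (nat_lit 6368892329) (nat_lit 684) (nat_lit 2668787957) (nat_lit 760) (nat_lit 1884902510) (nat_lit 136) (nat_lit 5) (nat_lit 145) (nat_lit 3) (nat_lit 146) (nat_lit 5) (nat_lit 420) (nat_lit 419) (nat_lit 361)) (XT.lf (nat_lit 76) (nat_lit 2832976112) (nat_lit 0) (nat_lit 4393867541) (nat_lit 760) (nat_lit 3940483423) (nat_lit 137) (nat_lit 5) (nat_lit 136) (nat_lit 5) (nat_lit 146) (nat_lit 5) (nat_lit 421) (nat_lit 419) (nat_lit 360))) (XT.nd (nat_lit 78) (nat_lit 0) (nat_lit 0) (XT.lf (nat_lit 0) (nat_lit 8144965624) (nat_lit 684) (nat_lit 2750897918) (nat_lit 760) (nat_lit 527596488) (nat_lit 137) (nat_lit 5) (nat_lit 146) (nat_lit 5) (nat_lit 147) (nat_lit 5) (nat_lit 422) (nat_lit 419) (nat_lit 359)) (XT.lf (nat_lit 76) (nat_lit 3117511814) (nat_lit 0) (nat_lit 6077716483) (nat_lit 760) (nat_lit 2492874002)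 (nat_lit 138) (nat_lit 5) (nat_lit 137) (nat_lit 5) (nat_lit 147) (nat_lit 5) (nat_lit 423) (nat_lit 419) (nat_lit 358)))) (XT.nd (nat_lit 156) (nat_lit 684) (nat_lit 0) (XT.nd (nat_lit 78) (nat_lit 0) (nat_lit 76) (XT.lf (nat_lit 76) (nat_lit 9353236078) (nat_lit 0) (nat_lit 958190685) (nat_lit 760) (nat_lit 1653892496) (nat_lit 138) (nat_lit 5) (nat_lit 137) (nat_lit 5) (nat_lit 147) (nat_lit 5) (nat_lit 424) (nat_lit 419) (nat_lit 357)) (XT.lf (nat_lit 76) (nat_lit 3670516341) (nat_lit 0) (nat_lit 7907778434) (nat_lit 760) (nat_lit 673372368) (nat_lit 139) (nat_lit 5) (nat_lit 138) (nat_lit 5) (nat_lit 148) (nat_lit 5) (nat_lit 425) (nat_lit 419) (nat_lit 356))) (XT.nd (nat_lit 78) (nat_lit 0) (nat_lit 76) (XT.lf (nat_lit 0) (nat_lit 374674602) (nat_lit 760) (nat_lit 2237198003) (nat_lit 836) (nat_lit 9938698585) (nat_lit 128) (nat_lit 5) (nat_lit 138) (nat_lit 5) (nat_lit 139) (nat_lit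 5) (nat_lit 426) (nat_lit 419) (nat_lit 355)) (XT.lf (nat_lit 0) (nat_lit 1541509169) (nat_lit 760) (nat_lit 8373119825) (nat_lit 836) (nat_lit 2944800033) (nat_lit 129) (nat_lit 5) (nat_lit 139) (nat_lit 5) (nat_lit 140) (nat_lit 5) (nat_lit 427) (nat_lit 419) (nat_lit 354))))))))
noncomputable def xc139 : XT := (XT.nd (nat_lit 2184) (nat_lit 2508) (nat_lit 0) (XT.nd (nat_lit 1092) (nat_lit 1976) (nat_lit 0) (XT.nd (nat_lit 546) (nat_lit 1292) (nat_lit 0) (XT.nd (nat_lit 234) (nat_lit 1444) (nat_lit 0) (XT.nd (nat_lit 78) (nat_lit 0) (nat_lit 76) (XT.lf (nat_lit 0) (nat_lit 2819870944) (nat_lit 760) (nat_lit 1624704452) (nat_lit 836) (nat_lit 8736505828) (nat_lit 129) (nat_lit 5) (nat_lit 139) (nat_lit 5) (nat_lit 140) (nat_lit 5) (nat_lit 428) (nat_lit 419) (nat_lit 353)) (XT.nd (nat_lit 78) (nat_lit 0) (nat_lit 0) (XT.lf (nat_lit 0) (nat_lit 4244871627) (nat_lit 760) (nat_lit 7918592690)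 (nat_lit 76) (nat_lit 1351225904) (nat_lit 130) (nat_lit 5) (nat_lit 140) (nat_lit 5) (nat_lit 131) (nat_lit 5) (nat_lit 429) (nat_lit 419) (nat_lit 352)) (XT.lf (nat_lit 0) (nat_lit 5816153639) (nat_lit 760) (nat_lit 725578282) (nat_lit 76) (nat_lit 7319505928) (nat_lit 130) (nat_lit 5) (nat_lit 140) (nat_lit 5) (nat_lit 131) (nat_lit 5) (nat_lit 430) (nat_lit 419) (nat_lit 351)))) (XT.nd (nat_lit 156) (nat_lit 380) (nat_lit 0) (XT.nd (nat_lit 78) (nat_lit 380) (nat_lit 0) (XT.lf (nat_lit 0) (nat_lit 7030185156) (nat_lit 760) (nat_lit 521007086) (nat_lit 836) (nat_lit 6669670269) (nat_lit 120) (nat_lit 5) (nat_lit 130) (nat_lit 5) (nat_lit 131) (nat_lit 5) (nat_lit 431) (nat_lit 419) (nat_lit 350)) (XT.lf (nat_lit 0) (nat_lit 503637590) (nat_lit 380) (nat_lit 8956562798) (nat_lit 456) (nat_lit 5133915976) (nat_lit 115) (nat_lit 5) (nat_lit 120) (nat_lit 5) (nat_lit 121) (nat_lit 5) (nat_lit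 432) (nat_lit 419) (nat_lit 349))) (XT.nd (nat_lit 78) (nat_lit 380) (nat_lit 0) (XT.lf (nat_lit 0) (nat_lit 8801068714) (nat_lit 380) (nat_lit 2770848679) (nat_lit 456) (nat_lit 3408761014) (nat_lit 115) (nat_lit 5) (nat_lit 120) (nat_lit 5) (nat_lit 121) (nat_lit 5) (nat_lit 433) (nat_lit 419) (nat_lit 348)) (XT.lf (nat_lit 0) (nat_lit 2113855430) (nat_lit 380) (nat_lit 11744688988) (nat_lit 456) (nat_lit 1524565940) (nat_lit 110) (nat_lit 5) (nat_lit 115) (nat_lit 5) (nat_lit 116) (nat_lit 5) (nat_lit 434) (nat_lit 419) (nat_lit 347))))) (XT.nd (nat_lit 234) (nat_lit 836) (nat_lit 0) (XT.nd (nat_lit 78) (nat_lit 380) (nat_lit 0) (XT.lf (nat_lit 0) (nat_lit 569624255) (nat_lit 456) (nat_lit 4840935262) (nat_lit 76) (nat_lit 10388241823) (nat_lit 109) (nat_lit 5) (nat_lit 115) (nat_lit 5) (nat_lit 110) (nat_lit 5) (nat_lit 435) (nat_lit 419) (nat_lit 346)) (XT.nd (nat_lit 78) (nat_lit 0) (nat_lit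 0) (XT.lf (nat_lit 0) (nat_lit 2781534738) (nat_lit 456) (nat_lit 12159580396) (nat_lit 76) (nat_lit 1289706709) (nat_lit 104) (nat_lit 5) (nat_lit 110) (nat_lit 5) (nat_lit 105) (nat_lit 5) (nat_lit 436) (nat_lit 419) (nat_lit 345)) (XT.lf (nat_lit 0) (nat_lit 5256222169) (nat_lit 456) (nat_lit 3195643801) (nat_lit 76) (nat_lit 8224974924) (nat_lit 104) (nat_lit 5) (nat_lit 110) (nat_lit 5) (nat_lit 105) (nat_lit 5) (nat_lit 437) (nat_lit 419) (nat_lit 344)))) (XT.nd (nat_lit 156) (nat_lit 532) (nat_lit 0) (XT.nd (nat_lit 78) (nat_lit 0) (nat_lit 0) (XT.lf (nat_lit 0) (nat_lit 6400044095) (nat_lit 304) (nat_lit 1535623599) (nat_lit 380) (nat_lit 9205448300) (nat_lit 100) (nat_lit 5) (nat_lit 104) (nat_lit 5) (nat_lit 105) (nat_lit 5) (nat_lit 438) (nat_lit 419) (nat_lit 343)) (XT.lf (nat_lit 0) (nat_lit 10875131303) (nat_lit 380) (nat_lit 1151554761) (nat_lit 76) (nat_lit 5595622476) (nat_lit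 100) (nat_lit 5) (nat_lit 105) (nat_lit 5) (nat_lit 101) (nat_lit 5) (nat_lit 439) (nat_lit 419) (nat_lit 342))) (XT.nd (nat_lit 78) (nat_lit 228) (nat_lit 0) (XT.lf (nat_lit 0) (nat_lit 9164809520) (nat_lit 304) (nat_lit 4947528889) (nat_lit 380) (nat_lit 4007689485) (nat_lit 96) (nat_lit 5) (nat_lit 100) (nat_lit 5) (nat_lit 101) (nat_lit 5) (nat_lit 440) (nat_lit 419) (nat_lit 341)) (XT.lf (nat_lit 0) (nat_lit 1379075038) (nat_lit 228) (nat_lit 16195458135) (nat_lit 304) (nat_lit 1064949103) (nat_lit 93) (nat_lit 5) (nat_lit 96) (nat_lit 5) (nat_lit 97) (nat_lit 5) (nat_lit 441) (nat_lit 419) (nat_lit 340)))))) (XT.nd (nat_lit 546) (nat_lit 836) (nat_lit 0) (XT.nd (nat_lit 234) (nat_lit 760) (nat_lit 0) (XT.nd (nat_lit 78) (nat_lit 304) (nat_lit 0) (XT.lf (nat_lit 0) (nat_lit 2178547815) (nat_lit 304) (nat_lit 6773015377) (nat_lit 76) (nat_lit 10220848874) (nat_lit 92) (nat_lit 5) (nat_lit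 96) (nat_lit 5) (nat_lit 93) (nat_lit 5) (nat_lit 442) (nat_lit 419) (nat_lit 339)) (XT.nd (nat_lit 78) (nat_lit 0) (nat_lit 0) (XT.lf (nat_lit 0) (nat_lit 4339739962) (nat_lit 304) (nat_lit 1260422643) (nat_lit 380) (nat_lit 14128370903) (nat_lit 88) (nat_lit 5) (nat_lit 92) (nat_lit 5) (nat_lit 93) (nat_lit 5) (nat_lit 443) (nat_lit 419) (nat_lit 338)) (XT.lf (nat_lit 0) (nat_lit 9400203171) (nat_lit 380) (nat_lit 4192564059) (nat_lit 76) (nat_lit 6709331005) (nat_lit 88) (nat_lit 5) (nat_lit 93) (nat_lit 5) (nat_lit 89) (nat_lit 5) (nat_lit 444) (nat_lit 419) (nat_lit 337)))) (XT.nd (nat_lit 156) (nat_lit 532) (nat_lit 0) (XT.nd (nat_lit 78) (nat_lit 0) (nat_lit 0) (XT.lf (nat_lit 0) (nat_lit 7771720513) (nat_lit 228) (nat_lit 5745626065) (nat_lit 304) (nat_lit 7380643829) (nat_lit 85) (nat_lit 5) (nat_lit 88) (nat_lit 5) (nat_lit 89) (nat_lit 5) (nat_lit 445) (nat_lit 419) (nat_lit 336))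 (XT.lf (nat_lit 0) (nat_lit 17936876792) (nat_lit 304) (nat_lit 1100619451) (nat_lit 76) (nat_lit 2481358513) (nat_lit 85) (nat_lit 5) (nat_lit 89) (nat_lit 5) (nat_lit 86) (nat_lit 5) (nat_lit 446) (nat_lit 419) (nat_lit 335))) (XT.nd (nat_lit 78) (nat_lit 228) (nat_lit 0) (XT.lf (nat_lit 0) (nat_lit 662327386) (nat_lit 304) (nat_lit 10377951321) (nat_lit 76) (nat_lit 11116733833) (nat_lit 81) (nat_lit 5) (nat_lit 85) (nat_lit 5) (nat_lit 82) (nat_lit 5) (nat_lit 447) (nat_lit 419) (nat_lit 334)) (XT.lf (nat_lit 0) (nat_lit 2516967498) (nat_lit 228) (nat_lit 2526005573) (nat_lit 304) (nat_lit 17778947440) (nat_lit 78) (nat_lit 5) (nat_lit 81) (nat_lit 5) (nat_lit 82) (nat_lit 5) (nat_lit 448) (nat_lit 419) (nat_lit 333))))) (XT.nd (nat_lit 234) (nat_lit 608) (nat_lit 0) (XT.nd (nat_lit 78) (nat_lit 228) (nat_lit 0) (XT.lf (nat_lit 0) (nat_lit 9907957673) (nat_lit 304) (nat_lit 7217003505)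 (nat_lit 76) (nat_lit 6381850702) (nat_lit 78) (nat_lit 5) (nat_lit 82) (nat_lit 5) (nat_lit 79) (nat_lit 5) (nat_lit 449) (nat_lit 419) (nat_lit 332)) (XT.nd (nat_lit 78) (nat_lit 0) (nat_lit 0) (XT.lf (nat_lit 0) (nat_lit 6679011006) (nat_lit 228) (nat_lit 8470039500) (nat_lit 304) (nat_lit 9070257534) (nat_lit 75) (nat_lit 5) (nat_lit 78) (nat_lit 5) (nat_lit 79) (nat_lit 5) (nat_lit 450) (nat_lit 419) (nat_lit 331)) (XT.lf (nat_lit 0) (nat_lit 20773470867) (nat_lit 304) (nat_lit 3471507601) (nat_lit 76) (nat_lit 716389918) (nat_lit 75) (nat_lit 5) (nat_lit 79) (nat_lit 5) (nat_lit 76) (nat_lit 5) (nat_lit 451) (nat_lit 419) (nat_lit 330)))) (XT.nd (nat_lit 156) (nat_lit 152) (nat_lit 0) (XT.nd (nat_lit 78) (nat_lit 228) (nat_lit 0) (XT.lf (nat_lit 0) (nat_lit 1220158648) (nat_lit 228) (nat_lit 14232577094) (nat_lit 76) (nat_lit 10271485122) (nat_lit 72) (nat_lit 5) (nat_lit 75) (nat_lit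 5) (nat_lit 73) (nat_lit 5) (nat_lit 452) (nat_lit 419) (nat_lit 329)) (XT.lf (nat_lit 0) (nat_lit 737039814) (nat_lit 228) (nat_lit 6080202335) (nat_lit 304) (nat_lit 19701575461) (nat_lit 69) (nat_lit 5) (nat_lit 72) (nat_lit 5) (nat_lit 73) (nat_lit 5) (nat_lit 453) (nat_lit 419) (nat_lit 328))) (XT.nd (nat_lit 78) (nat_lit 152) (nat_lit 0) (XT.lf (nat_lit 0) (nat_lit 12986179286) (nat_lit 304) (nat_lit 10472827084) (nat_lit 76) (nat_lit 3879540332) (nat_lit 69) (nat_lit 5) (nat_lit 73) (nat_lit 5) (nat_lit 70) (nat_lit 5) (nat_lit 454) (nat_lit 419) (nat_lit 327)) (XT.lf (nat_lit 0) (nat_lit 5665784106) (nat_lit 152) (nat_lit 13974764236) (nat_lit 228) (nat_lit 8549867022) (nat_lit 67) (nat_lit 5) (nat_lit 69) (nat_lit 5) (nat_lit 70) (nat_lit 5) (nat_lit 455) (nat_lit 419) (nat_lit 326))))))) (XT.nd (nat_lit 1092) (nat_lit 1064) (nat_lit 0) (XT.nd (nat_lit 546) (nat_lit 684) (nat_lit 0)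 (XT.nd (nat_lit 234) (nat_lit 532) (nat_lit 0) (XT.nd (nat_lit 78) (nat_lit 228) (nat_lit 0) (XT.lf (nat_lit 0) (nat_lit 22957748168) (nat_lit 152) (nat_lit 3836363756) (nat_lit 228) (nat_lit 2282443987) (nat_lit 67) (nat_lit 5) (nat_lit 69) (nat_lit 5) (nat_lit 70) (nat_lit 5) (nat_lit 456) (nat_lit 419) (nat_lit 325)) (XT.nd (nat_lit 78) (nat_lit 0) (nat_lit 0) (XT.lf (nat_lit 0) (nat_lit 4438260016) (nat_lit 228) (nat_lit 18717532034) (nat_lit 76) (nat_lit 6833983822) (nat_lit 64) (nat_lit 5) (nat_lit 67) (nat_lit 5) (nat_lit 65) (nat_lit 5) (nat_lit 457) (nat_lit 419) (nat_lit 324)) (XT.lf (nat_lit 0) (nat_lit 11576118582) (nat_lit 228) (nat_lit 1317058396) (nat_lit 76) (nat_lit 18045719722) (nat_lit 64) (nat_lit 5) (nat_lit 67) (nat_lit 5) (nat_lit 65) (nat_lit 5) (nat_lit 458) (nat_lit 419) (nat_lit 323)))) (XT.nd (nat_lit 156) (nat_lit 228) (nat_lit 0) (XT.nd (nat_lit 78) (nat_lit 152)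 (nat_lit 0) (XT.lf (nat_lit 0) (nat_lit 17497413122) (nat_lit 152) (nat_lit 1836744892) (nat_lit 228) (nat_lit 12588153014) (nat_lit 62) (nat_lit 5) (nat_lit 64) (nat_lit 5) (nat_lit 65) (nat_lit 5) (nat_lit 459) (nat_lit 419) (nat_lit 322)) (XT.lf (nat_lit 0) (nat_lit 4313486158) (nat_lit 152) (nat_lit 23399439135) (nat_lit 228) (nat_lit 5230331251) (nat_lit 60) (nat_lit 5) (nat_lit 62) (nat_lit 5) (nat_lit 63) (nat_lit 5) (nat_lit 460) (nat_lit 419) (nat_lit 321))) (XT.nd (nat_lit 78) (nat_lit 152) (nat_lit 0) (XT.lf (nat_lit 0) (nat_lit 2684213442) (nat_lit 228) (nat_lit 9602765371) (nat_lit 76) (nat_lit 21712889148) (nat_lit 59) (nat_lit 5) (nat_lit 62) (nat_lit 5) (nat_lit 60) (nat_lit 5) (nat_lit 461) (nat_lit 419) (nat_lit 320)) (XT.lf (nat_lit 0) (nat_lit 10614092868) (nat_lit 152) (nat_lit 361088757) (nat_lit 228) (nat_lit 24122019210) (nat_lit 57) (nat_lit 5) (nat_lit 59) (nat_lit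 5) (nat_lit 60) (nat_lit 5) (nat_lit 462) (nat_lit 419) (nat_lit 319))))) (XT.nd (nat_lit 234) (nat_lit 304) (nat_lit 0) (XT.nd (nat_lit 78) (nat_lit 380) (nat_lit 0) (XT.lf (nat_lit 0) (nat_lit 20026720632) (nat_lit 228) (nat_lit 4274202219) (nat_lit 76) (nat_lit 11931177835) (nat_lit 57) (nat_lit 5) (nat_lit 60) (nat_lit 5) (nat_lit 58) (nat_lit 5) (nat_lit 463) (nat_lit 419) (nat_lit 318)) (XT.nd (nat_lit 78) (nat_lit 228) (nat_lit 0) (XT.lf (nat_lit 0) (nat_lit 17483989242) (nat_lit 152) (nat_lit 12317036260) (nat_lit 228) (nat_lit 7609211964) (nat_lit 55) (nat_lit 5) (nat_lit 57) (nat_lit 5) (nat_lit 58) (nat_lit 5) (nat_lit 464) (nat_lit 419) (nat_lit 317)) (XT.lf (nat_lit 0) (nat_lit 1471410713) (nat_lit 228) (nat_lit 36791549816) (nat_lit 76) (nat_lit 378216255) (nat_lit 52) (nat_lit 5) (nat_lit 55) (nat_lit 5) (nat_lit 53) (nat_lit 5) (nat_lit 465) (nat_lit 419) (nat_lit 316)))) (XT.nd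 (nat_lit 156) (nat_lit 152) (nat_lit 0) (XT.nd (nat_lit 78) (nat_lit 152) (nat_lit 0) (XT.lf (nat_lit 0) (nat_lit 11286684919) (nat_lit 228) (nat_lit 14857865453) (nat_lit 76) (nat_lit 13756059840) (nat_lit 52) (nat_lit 5) (nat_lit 55) (nat_lit 5) (nat_lit 53) (nat_lit 5) (nat_lit 466) (nat_lit 419) (nat_lit 315)) (XT.lf (nat_lit 0) (nat_lit 8427990766) (nat_lit 152) (nat_lit 13288153186) (nat_lit 228) (nat_lit 19500701444) (nat_lit 50) (nat_lit 5) (nat_lit 52) (nat_lit 5) (nat_lit 53) (nat_lit 5) (nat_lit 467) (nat_lit 419) (nat_lit 314))) (XT.nd (nat_lit 78) (nat_lit 152) (nat_lit 0) (XT.lf (nat_lit 0) (nat_lit 32918033363) (nat_lit 228) (nat_lit 9214097256) (nat_lit 76) (nat_lit 454214933) (nat_lit 50) (nat_lit 5) (nat_lit 53) (nat_lit 5) (nat_lit 51) (nat_lit 4) (nat_lit 468) (nat_lit 419) (nat_lit 313)) (XT.lf (nat_lit 0) (nat_lit 1099238957) (nat_lit 152) (nat_lit 28205146144) (nat_lit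 76) (nat_lit 14696198295) (nat_lit 48) (nat_lit 5) (nat_lit 50) (nat_lit 5) (nat_lit 49) (nat_lit 5) (nat_lit 469) (nat_lit 419) (nat_lit 312)))))) (XT.nd (nat_lit 546) (nat_lit 532) (nat_lit 0) (XT.nd (nat_lit 234) (nat_lit 304) (nat_lit 0) (XT.nd (nat_lit 78) (nat_lit 228) (nat_lit 0) (XT.lf (nat_lit 0) (nat_lit 12231181818) (nat_lit 152) (nat_lit 3277133580) (nat_lit 76) (nat_lit 29961747181) (nat_lit 48) (nat_lit 5) (nat_lit 50) (nat_lit 5) (nat_lit 49) (nat_lit 5) (nat_lit 470) (nat_lit 419) (nat_lit 311)) (XT.nd (nat_lit 78) (nat_lit 76) (nat_lit 0) (XT.lf (nat_lit 0) (nat_lit 23640899061) (nat_lit 152) (nat_lit 640618240) (nat_lit 228) (nat_lit 22713409541) (nat_lit 46) (nat_lit 5) (nat_lit 48) (nat_lit 5) (nat_lit 49) (nat_lit 5) (nat_lit 471) (nat_lit 419) (nat_lit 310)) (XT.lf (nat_lit 0) (nat_lit 3282677227) (nat_lit 76) (nat_lit 33985838581) (nat_lit 152) (nat_lit 11310812046) (nat_lit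 45) (nat_lit 5) (nat_lit 46) (nat_lit 5) (nat_lit 47) (nat_lit 4) (nat_lit 472) (nat_lit 419) (nat_lit 309)))) (XT.nd (nat_lit 156) (nat_lit 76) (nat_lit 0) (XT.nd (nat_lit 78) (nat_lit 152) (nat_lit 0) (XT.lf (nat_lit 0) (nat_lit 1046007943) (nat_lit 152) (nat_lit 18201601967) (nat_lit 76) (nat_lit 30974559157) (nat_lit 44) (nat_lit 5) (nat_lit 46) (nat_lit 5) (nat_lit 45) (nat_lit 5) (nat_lit 473) (nat_lit 419) (nat_lit 308)) (XT.lf (nat_lit 0) (nat_lit 10382583348) (nat_lit 152) (nat_lit 3413193683) (nat_lit 228) (nat_lit 38134343609) (nat_lit 42) (nat_lit 5) (nat_lit 44) (nat_lit 5) (nat_lit 45) (nat_lit 5) (nat_lit 474) (nat_lit 419) (nat_lit 307))) (XT.nd (nat_lit 78) (nat_lit 76) (nat_lit 0) (XT.lf (nat_lit 0) (nat_lit 27695804860) (nat_lit 228) (nat_lit 12904054551) (nat_lit 76) (nat_lit 13097972565) (nat_lit 42) (nat_lit 5) (nat_lit 45) (nat_lit 5) (nat_lit 43) (nat_lit 4) (nat_lit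 475) (nat_lit 419) (nat_lit 306)) (XT.lf (nat_lit 0) (nat_lit 17669221917) (nat_lit 76) (nat_lit 24946930275) (nat_lit 152) (nat_lit 12921511447) (nat_lit 41) (nat_lit 5) (nat_lit 42) (nat_lit 5) (nat_lit 43) (nat_lit 4) (nat_lit 476) (nat_lit 419) (nat_lit 305))))) (XT.nd (nat_lit 312) (nat_lit 228) (nat_lit 0) (XT.nd (nat_lit 156) (nat_lit 76) (nat_lit 0) (XT.nd (nat_lit 78) (nat_lit 152) (nat_lit 0) (XT.lf (nat_lit 0) (nat_lit 1002645872) (nat_lit 152) (nat_lit 7267648447) (nat_lit 76) (nat_lit 49187776592) (nat_lit 40) (nat_lit 5) (nat_lit 42) (nat_lit 5) (nat_lit 41) (nat_lit 5) (nat_lit 477) (nat_lit 419) (nat_lit 304)) (XT.lf (nat_lit 0) (nat_lit 15734180665) (nat_lit 228) (nat_lit 34143855639) (nat_lit 76) (nat_lit 9558600558) (nat_lit 38) (nat_lit 5) (nat_lit 41) (nat_lit 5) (nat_lit 39) (nat_lit 4) (nat_lit 478) (nat_lit 419) (nat_lit 303))) (XT.nd (nat_lit 78) (nat_lit 76) (nat_lit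 0) (XT.lf (nat_lit 0) (nat_lit 31456835309) (nat_lit 228) (nat_lit 1923467089) (nat_lit 76) (nat_lit 28121102105) (nat_lit 38) (nat_lit 5) (nat_lit 41) (nat_lit 5) (nat_lit 39) (nat_lit 4) (nat_lit 479) (nat_lit 419) (nat_lit 302)) (XT.lf (nat_lit 0) (nat_lit 32951703631) (nat_lit 76) (nat_lit 15522545256) (nat_lit 152) (nat_lit 15169730850) (nat_lit 37) (nat_lit 5) (nat_lit 38) (nat_lit 5) (nat_lit 39) (nat_lit 4) (nat_lit 480) (nat_lit 419) (nat_lit 301)))) (XT.nd (nat_lit 156) (nat_lit 76) (nat_lit 0) (XT.nd (nat_lit 78) (nat_lit 0) (nat_lit 0) (XT.lf (nat_lit 0) (nat_lit 573841008) (nat_lit 152) (nat_lit 62090799659) (nat_lit 76) (nat_lit 3221725271) (nat_lit 35) (nat_lit 5) (nat_lit 37) (nat_lit 5) (nat_lit 36) (nat_lit 4) (nat_lit 481) (nat_lit 419) (nat_lit 300)) (XT.lf (nat_lit 0) (nat_lit 17371772122) (nat_lit 152) (nat_lit 27664134592) (nat_lit 76) (nat_lit 23153681823) (nat_lit 35)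 (nat_lit 5) (nat_lit 37) (nat_lit 5) (nat_lit 36) (nat_lit 4) (nat_lit 482) (nat_lit 419) (nat_lit 299))) (XT.nd (nat_lit 78) (nat_lit 0) (nat_lit 0) (XT.lf (nat_lit 0) (nat_lit 8753608448) (nat_lit 76) (nat_lit 26387141100) (nat_lit 152) (nat_lit 35460665661) (nat_lit 34) (nat_lit 5) (nat_lit 35) (nat_lit 5) (nat_lit 36) (nat_lit 4) (nat_lit 483) (nat_lit 419) (nat_lit 298)) (XT.lf (nat_lit 0) (nat_lit 47942417664) (nat_lit 76) (nat_lit 6318847731) (nat_lit 152) (nat_lit 18849413752) (nat_lit 34) (nat_lit 5) (nat_lit 35) (nat_lit 5) (nat_lit 36) (nat_lit 4) (nat_lit 484) (nat_lit 419) (nat_lit 297))))))))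
noncomputable def xc140 : XT := (XT.nd (nat_lit 2184) (nat_lit 684) (nat_lit 0) (XT.nd (nat_lit 1092) (nat_lit 684) (nat_lit 0) (XT.nd (nat_lit 546) (nat_lit 304) (nat_lit 0) (XT.nd (nat_lit 234) (nat_lit 228) (nat_lit 0) (XT.nd (nat_lit 78) (nat_lit 152) (nat_lit 0) (XT.lf (nat_lit 0) (nat_lit 13538282008) (nat_lit 76) (nat_lit 61235999002) (nat_lit 76) (nat_lit 949301961) (nat_lit 33) (nat_lit 4) (nat_lit 34) (nat_lit 5) (nat_lit 34) (nat_lit 4) (nat_lit 485) (nat_lit 419) (nat_lit 296)) (XT.nd (nat_lit 78) (nat_lit 76) (nat_lit 0) (XT.lf (nat_lit 0) (nat_lit 17806231283) (nat_lit 152) (nat_lit 23791048075) (nat_lit 76) (nat_lit 36829342152) (nat_lit 32) (nat_lit 5) (nat_lit 34) (nat_lit 5) (nat_lit 33) (nat_lit 4) (nat_lit 486) (nat_lit 419) (nat_lit 295)) (XT.lf (nat_lit 0) (nat_lit 17043356145) (nat_lit 76) (nat_lit 20685406890) (nat_lit 152) (nat_lit 43522214929) (nat_lit 31) (nat_lit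 5) (nat_lit 32) (nat_lit 5) (nat_lit 33) (nat_lit 4) (nat_lit 487) (nat_lit 419) (nat_lit 294)))) (XT.nd (nat_lit 156) (nat_lit 152) (nat_lit 0) (XT.nd (nat_lit 78) (nat_lit 76) (nat_lit 0) (XT.lf (nat_lit 0) (nat_lit 59071851092) (nat_lit 152) (nat_lit 23486934430) (nat_lit 0) (nat_lit 1636545554) (nat_lit 31) (nat_lit 5) (nat_lit 33) (nat_lit 4) (nat_lit 31) (nat_lit 4) (nat_lit 488) (nat_lit 419) (nat_lit 293)) (XT.lf (nat_lit 0) (nat_lit 19547255263) (nat_lit 76) (nat_lit 62574417672) (nat_lit 76) (nat_lit 5133250244) (nat_lit 30) (nat_lit 4) (nat_lit 31) (nat_lit 5) (nat_lit 31) (nat_lit 4) (nat_lit 489) (nat_lit 419) (nat_lit 292))) (XT.nd (nat_lit 78) (nat_lit 76) (nat_lit 0) (XT.lf (nat_lit 0) (nat_lit 15748563559) (nat_lit 152) (nat_lit 25162194886) (nat_lit 76) (nat_lit 49524379541) (nat_lit 29) (nat_lit 5) (nat_lit 31) (nat_lit 5) (nat_lit 30) (nat_lit 4) (nat_lit 490) (nat_lit 419)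 (nat_lit 291)) (XT.lf (nat_lit 0) (nat_lit 20059800039) (nat_lit 76) (nat_lit 17750866853) (nat_lit 152) (nat_lit 55944053836) (nat_lit 28) (nat_lit 5) (nat_lit 29) (nat_lit 5) (nat_lit 30) (nat_lit 4) (nat_lit 491) (nat_lit 419) (nat_lit 290))))) (XT.nd (nat_lit 234) (nat_lit 152) (nat_lit 0) (XT.nd (nat_lit 78) (nat_lit 152) (nat_lit 0) (XT.lf (nat_lit 0) (nat_lit 61507061343) (nat_lit 152) (nat_lit 28920677840) (nat_lit 0) (nat_lit 6785984378) (nat_lit 28) (nat_lit 5) (nat_lit 30) (nat_lit 4) (nat_lit 28) (nat_lit 4) (nat_lit 492) (nat_lit 419) (nat_lit 289)) (XT.nd (nat_lit 78) (nat_lit 76) (nat_lit 0) (XT.lf (nat_lit 0) (nat_lit 18381353778) (nat_lit 76) (nat_lit 68580653167) (nat_lit 76) (nat_lit 13854983257) (nat_lit 27) (nat_lit 4) (nat_lit 28) (nat_lit 5) (nat_lit 28) (nat_lit 4) (nat_lit 493) (nat_lit 419) (nat_lit 288)) (XT.lf (nat_lit 0) (nat_lit 9291937179) (nat_lit 152) (nat_lit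 35681572925) (nat_lit 76) (nat_lit 59595136270) (nat_lit 26) (nat_lit 5) (nat_lit 28) (nat_lit 5) (nat_lit 27) (nat_lit 4) (nat_lit 494) (nat_lit 419) (nat_lit 287)))) (XT.nd (nat_lit 156) (nat_lit 76) (nat_lit 0) (XT.nd (nat_lit 78) (nat_lit 0) (nat_lit 0) (XT.lf (nat_lit 0) (nat_lit 13610836315) (nat_lit 76) (nat_lit 19728210707) (nat_lit 152) (nat_lit 75147058913) (nat_lit 25) (nat_lit 5) (nat_lit 26) (nat_lit 5) (nat_lit 27) (nat_lit 4) (nat_lit 495) (nat_lit 419) (nat_lit 286)) (XT.lf (nat_lit 0) (nat_lit 59304519467) (nat_lit 152) (nat_lit 46086197132) (nat_lit 0) (nat_lit 7172921715) (nat_lit 25) (nat_lit 5) (nat_lit 27) (nat_lit 4) (nat_lit 25) (nat_lit 4) (nat_lit 496) (nat_lit 419) (nat_lit 285))) (XT.nd (nat_lit 78) (nat_lit 0) (nat_lit 0) (XT.lf (nat_lit 0) (nat_lit 4970506230) (nat_lit 76) (nat_lit 81994939356) (nat_lit 76) (nat_lit 29859742911) (nat_lit 24) (nat_lit 4) (nat_lit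 25) (nat_lit 5) (nat_lit 25) (nat_lit 4) (nat_lit 497) (nat_lit 419) (nat_lit 284)) (XT.lf (nat_lit 0) (nat_lit 60172677673) (nat_lit 76) (nat_lit 56613463162) (nat_lit 76) (nat_lit 4474839390) (nat_lit 24) (nat_lit 4) (nat_lit 25) (nat_lit 5) (nat_lit 25) (nat_lit 4) (nat_lit 498) (nat_lit 419) (nat_lit 283)))))) (XT.nd (nat_lit 546) (nat_lit 304) (nat_lit 0) (XT.nd (nat_lit 234) (nat_lit 228) (nat_lit 0) (XT.nd (nat_lit 78) (nat_lit 76) (nat_lit 0) (XT.lf (nat_lit 0) (nat_lit 21465784145) (nat_lit 152) (nat_lit 8137030393) (nat_lit 76) (nat_lit 96298615544) (nat_lit 23) (nat_lit 5) (nat_lit 25) (nat_lit 5) (nat_lit 24) (nat_lit 4) (nat_lit 499) (nat_lit 419) (nat_lit 282)) (XT.nd (nat_lit 78) (nat_lit 0) (nat_lit 0) (XT.lf (nat_lit 0) (nat_lit 48948293316) (nat_lit 76) (nat_lit 365506632) (nat_lit 152) (nat_lit 81418397484) (nat_lit 22) (nat_lit 5) (nat_lit 23) (nat_lit 5) (nat_lit 24) (nat_lit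 4) (nat_lit 500) (nat_lit 419) (nat_lit 281)) (XT.lf (nat_lit 0) (nat_lit 79164408440) (nat_lit 152) (nat_lit 27109897995) (nat_lit 0) (nat_lit 29499687266) (nat_lit 22) (nat_lit 5) (nat_lit 24) (nat_lit 4) (nat_lit 22) (nat_lit 4) (nat_lit 501) (nat_lit 419) (nat_lit 280)))) (XT.nd (nat_lit 156) (nat_lit 152) (nat_lit 0) (XT.nd (nat_lit 78) (nat_lit 0) (nat_lit 0) (XT.lf (nat_lit 0) (nat_lit 31286695725) (nat_lit 76) (nat_lit 79712016270) (nat_lit 76) (nat_lit 30044609696) (nat_lit 21) (nat_lit 4) (nat_lit 22) (nat_lit 5) (nat_lit 22) (nat_lit 4) (nat_lit 502) (nat_lit 419) (nat_lit 279)) (XT.lf (nat_lit 0) (nat_lit 93537927814) (nat_lit 76) (nat_lit 51342679338) (nat_lit 76) (nat_lit 1672715241) (nat_lit 21) (nat_lit 4) (nat_lit 22) (nat_lit 5) (nat_lit 22) (nat_lit 4) (nat_lit 503) (nat_lit 419) (nat_lit 278))) (XT.nd (nat_lit 78) (nat_lit 0) (nat_lit 0) (XT.lf (nat_lit 0) (nat_lit 6319994835)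 (nat_lit 76) (nat_lit 20993368418) (nat_lit 152) (nat_lit 124998733451) (nat_lit 19) (nat_lit 5) (nat_lit 20) (nat_lit 5) (nat_lit 21) (nat_lit 4) (nat_lit 504) (nat_lit 419) (nat_lit 277)) (XT.lf (nat_lit 0) (nat_lit 58771724376) (nat_lit 152) (nat_lit 88069287116) (nat_lit 0) (nat_lit 11462467630) (nat_lit 19) (nat_lit 5) (nat_lit 21) (nat_lit 4) (nat_lit 19) (nat_lit 4) (nat_lit 505) (nat_lit 419) (nat_lit 276))))) (XT.nd (nat_lit 234) (nat_lit 228) (nat_lit 0) (XT.nd (nat_lit 78) (nat_lit 76) (nat_lit 0) (XT.lf (nat_lit 0) (nat_lit 92144174718) (nat_lit 152) (nat_lit 27600383604) (nat_lit 0) (nat_lit 44832813890) (nat_lit 19) (nat_lit 5) (nat_lit 21) (nat_lit 4) (nat_lit 19) (nat_lit 4) (nat_lit 506) (nat_lit 419) (nat_lit 275)) (XT.nd (nat_lit 78) (nat_lit 0) (nat_lit 0) (XT.lf (nat_lit 0) (nat_lit 37072912279) (nat_lit 76) (nat_lit 90688306957) (nat_lit 76) (nat_lit 43374942243) (nat_lit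 18) (nat_lit 4) (nat_lit 19) (nat_lit 5) (nat_lit 19) (nat_lit 4) (nat_lit 507) (nat_lit 419) (nat_lit 274)) (XT.lf (nat_lit 0) (nat_lit 105932569035) (nat_lit 76) (nat_lit 59691181365) (nat_lit 76) (nat_lit 12375908187) (nat_lit 18) (nat_lit 4) (nat_lit 19) (nat_lit 5) (nat_lit 19) (nat_lit 4) (nat_lit 508) (nat_lit 419) (nat_lit 273)))) (XT.nd (nat_lit 156) (nat_lit 76) (nat_lit 0) (XT.nd (nat_lit 78) (nat_lit 76) (nat_lit 0) (XT.lf (nat_lit 0) (nat_lit 19524710926) (nat_lit 152) (nat_lit 7291433364) (nat_lit 76) (nat_lit 158374573546) (nat_lit 17) (nat_lit 5) (nat_lit 19) (nat_lit 5) (nat_lit 18) (nat_lit 4) (nat_lit 509) (nat_lit 419) (nat_lit 272)) (XT.lf (nat_lit 0) (nat_lit 53717471803) (nat_lit 152) (nat_lit 130306135781) (nat_lit 0) (nat_lit 8651927236) (nat_lit 16) (nat_lit 5) (nat_lit 18) (nat_lit 4) (nat_lit 16) (nat_lit 4) (nat_lit 510) (nat_lit 419) (nat_lit 271))) (XT.nd (nat_lit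 78) (nat_lit 76) (nat_lit 0) (XT.lf (nat_lit 0) (nat_lit 90182419830) (nat_lit 152) (nat_lit 65208740287) (nat_lit 0) (nat_lit 45115305165) (nat_lit 16) (nat_lit 5) (nat_lit 18) (nat_lit 4) (nat_lit 16) (nat_lit 4) (nat_lit 511) (nat_lit 419) (nat_lit 270)) (XT.lf (nat_lit 0) (nat_lit 3242442688) (nat_lit 76) (nat_lit 125276350381) (nat_lit 76) (nat_lit 80207740385) (nat_lit 15) (nat_lit 4) (nat_lit 16) (nat_lit 5) (nat_lit 16) (nat_lit 4) (nat_lit 512) (nat_lit 419) (nat_lit 269))))))) (XT.nd (nat_lit 1092) (nat_lit 228) (nat_lit 0) (XT.nd (nat_lit 546) (nat_lit 228) (nat_lit 0) (XT.nd (nat_lit 234) (nat_lit 76) (nat_lit 0) (XT.nd (nat_lit 78) (nat_lit 152) (nat_lit 0) (XT.lf (nat_lit 0) (nat_lit 77375302721) (nat_lit 76) (nat_lit 92498619815) (nat_lit 76) (nat_lit 47428585694) (nat_lit 15) (nat_lit 4) (nat_lit 16) (nat_lit 5) (nat_lit 16) (nat_lit 4) (nat_lit 513) (nat_lit 419) (nat_lit 268))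 (XT.nd (nat_lit 78) (nat_lit 152) (nat_lit 0) (XT.lf (nat_lit 0) (nat_lit 155210251173) (nat_lit 76) (nat_lit 58084267775) (nat_lit 76) (nat_lit 13012877344) (nat_lit 15) (nat_lit 4) (nat_lit 16) (nat_lit 5) (nat_lit 16) (nat_lit 4) (nat_lit 514) (nat_lit 419) (nat_lit 267)) (XT.lf (nat_lit 0) (nat_lit 835731417) (nat_lit 76) (nat_lit 21558616666) (nat_lit 152) (nat_lit 213349587926) (nat_lit 13) (nat_lit 5) (nat_lit 14) (nat_lit 5) (nat_lit 15) (nat_lit 4) (nat_lit 515) (nat_lit 419) (nat_lit 266)))) (XT.nd (nat_lit 156) (nat_lit 76) (nat_lit 0) (XT.nd (nat_lit 78) (nat_lit 0) (nat_lit 0) (XT.lf (nat_lit 0) (nat_lit 60618398555) (nat_lit 152) (nat_lit 167258185868) (nat_lit 0) (nat_lit 17690862967) (nat_lit 13) (nat_lit 5) (nat_lit 15) (nat_lit 4) (nat_lit 13) (nat_lit 4) (nat_lit 516) (nat_lit 419) (nat_lit 265)) (XT.lf (nat_lit 0) (nat_lit 101104964564) (nat_lit 152) (nat_lit 96583291046)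 (nat_lit 0) (nat_lit 58176313137) (nat_lit 13) (nat_lit 5) (nat_lit 15) (nat_lit 4) (nat_lit 13) (nat_lit 4) (nat_lit 517) (nat_lit 419) (nat_lit 264))) (XT.nd (nat_lit 78) (nat_lit 76) (nat_lit 0) (XT.lf (nat_lit 0) (nat_lit 143613852272) (nat_lit 152) (nat_lit 22378656144) (nat_lit 0) (nat_lit 100684138142) (nat_lit 13) (nat_lit 5) (nat_lit 15) (nat_lit 4) (nat_lit 13) (nat_lit 4) (nat_lit 518) (nat_lit 419) (nat_lit 263)) (XT.lf (nat_lit 0) (nat_lit 57368548360) (nat_lit 76) (nat_lit 131773408772) (nat_lit 76) (nat_lit 88842682542) (nat_lit 12) (nat_lit 4) (nat_lit 13) (nat_lit 5) (nat_lit 13) (nat_lit 4) (nat_lit 519) (nat_lit 419) (nat_lit 262))))) (XT.nd (nat_lit 234) (nat_lit 76) (nat_lit 0) (XT.nd (nat_lit 78) (nat_lit 152) (nat_lit 0) (XT.lf (nat_lit 0) (nat_lit 141876297052) (nat_lit 76) (nat_lit 95447284920) (nat_lit 76) (nat_lit 52515594787) (nat_lit 12) (nat_lit 4) (nat_lit 13)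 (nat_lit 5) (nat_lit 13) (nat_lit 4) (nat_lit 520) (nat_lit 419) (nat_lit 261)) (XT.nd (nat_lit 78) (nat_lit 152) (nat_lit 0) (XT.lf (nat_lit 0) (nat_lit 230605859420) (nat_lit 76) (nat_lit 57306639461) (nat_lit 76) (nat_lit 14374031324) (nat_lit 12) (nat_lit 4) (nat_lit 13) (nat_lit 5) (nat_lit 13) (nat_lit 4) (nat_lit 521) (nat_lit 419) (nat_lit 260)) (XT.lf (nat_lit 0) (nat_lit 8276225991) (nat_lit 76) (nat_lit 16704119578) (nat_lit 152) (nat_lit 290349489010) (nat_lit 10) (nat_lit 5) (nat_lit 11) (nat_lit 5) (nat_lit 12) (nat_lit 4) (nat_lit 522) (nat_lit 419) (nat_lit 259)))) (XT.nd (nat_lit 156) (nat_lit 76) (nat_lit 0) (XT.nd (nat_lit 78) (nat_lit 0) (nat_lit 0) (XT.lf (nat_lit 0) (nat_lit 67456314949) (nat_lit 152) (nat_lit 234908869442) (nat_lit 0) (nat_lit 26566491061) (nat_lit 10) (nat_lit 5) (nat_lit 12) (nat_lit 4) (nat_lit 10) (nat_lit 4) (nat_lit 523) (nat_lit 419) (nat_lit 258))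 (XT.lf (nat_lit 0) (nat_lit 112328273946) (nat_lit 152) (nat_lit 159434030090) (nat_lit 0) (nat_lit 71437694814) (nat_lit 10) (nat_lit 5) (nat_lit 12) (nat_lit 4) (nat_lit 10) (nat_lit 4) (nat_lit 524) (nat_lit 419) (nat_lit 257))) (XT.nd (nat_lit 78) (nat_lit 76) (nat_lit 0) (XT.lf (nat_lit 0) (nat_lit 159442262438) (nat_lit 152) (nat_lit 80188590415) (nat_lit 0) (nat_lit 118550964027) (nat_lit 10) (nat_lit 5) (nat_lit 12) (nat_lit 4) (nat_lit 10) (nat_lit 4) (nat_lit 525) (nat_lit 419) (nat_lit 256)) (XT.lf (nat_lit 0) (nat_lit 3115856054) (nat_lit 76) (nat_lit 205843247779) (nat_lit 76) (nat_lit 164951264339) (nat_lit 9) (nat_lit 4) (nat_lit 10) (nat_lit 5) (nat_lit 10) (nat_lit 4) (nat_lit 526) (nat_lit 419) (nat_lit 255)))))) (XT.nd (nat_lit 546) (nat_lit 76) (nat_lit 0) (XT.nd (nat_lit 234) (nat_lit 152) (nat_lit 0) (XT.nd (nat_lit 78) (nat_lit 0) (nat_lit 0) (XT.lf (nat_lit 0) (nat_lit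 93366547853) (nat_lit 76) (nat_lit 168941803430) (nat_lit 76) (nat_lit 128049167581) (nat_lit 9) (nat_lit 4) (nat_lit 10) (nat_lit 5) (nat_lit 10) (nat_lit 4) (nat_lit 527) (nat_lit 419) (nat_lit 254)) (XT.nd (nat_lit 78) (nat_lit 0) (nat_lit 0) (XT.lf (nat_lit 0) (nat_lit 188126970638) (nat_lit 76) (nat_lit 130196691803) (nat_lit 76) (nat_lit 89303434614) (nat_lit 9) (nat_lit 4) (nat_lit 10) (nat_lit 5) (nat_lit 10) (nat_lit 4) (nat_lit 528) (nat_lit 419) (nat_lit 253)) (XT.lf (nat_lit 0) (nat_lit 287622744464) (nat_lit 76) (nat_lit 89515662634) (nat_lit 76) (nat_lit 48621813692) (nat_lit 9) (nat_lit 4) (nat_lit 10) (nat_lit 5) (nat_lit 10) (nat_lit 4) (nat_lit 529) (nat_lit 419) (nat_lit 252)))) (XT.nd (nat_lit 156) (nat_lit 0) (nat_lit 0) (XT.nd (nat_lit 78) (nat_lit 152) (nat_lit 0) (XT.lf (nat_lit 0) (nat_lit 392090764031) (nat_lit 76) (nat_lit 46801856329) (nat_lit 76) (nat_lit 5907443812)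 (nat_lit 9) (nat_lit 4) (nat_lit 10) (nat_lit 5) (nat_lit 10) (nat_lit 4) (nat_lit 530) (nat_lit 419) (nat_lit 251)) (XT.lf (nat_lit 0) (nat_lit 37582699640) (nat_lit 76) (nat_lit 699080308) (nat_lit 152) (nat_lit 426450442450) (nat_lit 7) (nat_lit 5) (nat_lit 8) (nat_lit 5) (nat_lit 9) (nat_lit 4) (nat_lit 531) (nat_lit 419) (nat_lit 250))) (XT.nd (nat_lit 78) (nat_lit 0) (nat_lit 0) (XT.lf (nat_lit 0) (nat_lit 86132869518) (nat_lit 152) (nat_lit 352255918242) (nat_lit 0) (nat_lit 47184811962) (nat_lit 7) (nat_lit 5) (nat_lit 9) (nat_lit 4) (nat_lit 7) (nat_lit 4) (nat_lit 532) (nat_lit 419) (nat_lit 249)) (XT.lf (nat_lit 0) (nat_lit 136386805923) (nat_lit 152) (nat_lit 273631440681) (nat_lit 0) (nat_lit 97438284712) (nat_lit 7) (nat_lit 5) (nat_lit 9) (nat_lit 4) (nat_lit 7) (nat_lit 4) (nat_lit 533) (nat_lit 419) (nat_lit 248))))) (XT.nd (nat_lit 234) (nat_lit 76) (nat_lit 0) (XT.nd (nat_lit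 78) (nat_lit 0) (nat_lit 0) (XT.lf (nat_lit 0) (nat_lit 189152326790) (nat_lit 152) (nat_lit 191077974337) (nat_lit 0) (nat_lit 150203364005) (nat_lit 7) (nat_lit 5) (nat_lit 9) (nat_lit 4) (nat_lit 7) (nat_lit 4) (nat_lit 534) (nat_lit 419) (nat_lit 247)) (XT.nd (nat_lit 78) (nat_lit 0) (nat_lit 0) (XT.lf (nat_lit 0) (nat_lit 244555064313) (nat_lit 152) (nat_lit 104398963337) (nat_lit 0) (nat_lit 205605680979) (nat_lit 7) (nat_lit 5) (nat_lit 9) (nat_lit 4) (nat_lit 7) (nat_lit 4) (nat_lit 535) (nat_lit 419) (nat_lit 246)) (XT.lf (nat_lit 0) (nat_lit 302726929771) (nat_lit 152) (nat_lit 13388029084) (nat_lit 0) (nat_lit 263777145915) (nat_lit 7) (nat_lit 5) (nat_lit 9) (nat_lit 4) (nat_lit 7) (nat_lit 4) (nat_lit 536) (nat_lit 419) (nat_lit 245)))) (XT.nd (nat_lit 156) (nat_lit 0) (nat_lit 0) (XT.nd (nat_lit 78) (nat_lit 0) (nat_lit 0) (XT.lf (nat_lit 0) (nat_lit 84888482709) (nat_lit 76)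 (nat_lit 280243292011) (nat_lit 76) (nat_lit 241293126706) (nat_lit 6) (nat_lit 4) (nat_lit 7) (nat_lit 5) (nat_lit 7) (nat_lit 4) (nat_lit 537) (nat_lit 419) (nat_lit 244)) (XT.lf (nat_lit 0) (nat_lit 188541722613) (nat_lit 76) (nat_lit 242340927257) (nat_lit 76) (nat_lit 203390398667) (nat_lit 6) (nat_lit 4) (nat_lit 7) (nat_lit 5) (nat_lit 7) (nat_lit 4) (nat_lit 538) (nat_lit 419) (nat_lit 243))) (XT.nd (nat_lit 78) (nat_lit 0) (nat_lit 0) (XT.lf (nat_lit 0) (nat_lit 297375815353) (nat_lit 76) (nat_lit 202544353617) (nat_lit 76) (nat_lit 163593479041) (nat_lit 6) (nat_lit 4) (nat_lit 7) (nat_lit 5) (nat_lit 7) (nat_lit 4) (nat_lit 539) (nat_lit 419) (nat_lit 242)) (XT.lf (nat_lit 0) (nat_lit 411649889722) (nat_lit 76) (nat_lit 160758817345) (nat_lit 76) (nat_lit 121807613258) (nat_lit 6) (nat_lit 4) (nat_lit 7) (nat_lit 5) (nat_lit 7) (nat_lit 4) (nat_lit 540) (nat_lit 419) (nat_lit 241))))))))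
noncomputable def xc141 : XT := (XT.nd (nat_lit 54990) (nat_lit 0) (nat_lit 3040) (XT.nd (nat_lit 53898) (nat_lit 0) (nat_lit 6308) (XT.nd (nat_lit 53352) (nat_lit 0) (nat_lit 9348) (XT.nd (nat_lit 53040) (nat_lit 0) (nat_lit 9956) (XT.nd (nat_lit 78) (nat_lit 76) (nat_lit 0) (XT.lf (nat_lit 0) (nat_lit 531636026848) (nat_lit 76) (nat_lit 116884829068) (nat_lit 76) (nat_lit 77933311162) (nat_lit 6) (nat_lit 4) (nat_lit 7) (nat_lit 5) (nat_lit 7) (nat_lit 4) (nat_lit 541) (nat_lit 419) (nat_lit 240)) (XT.nd (nat_lit 78) (nat_lit 76) (nat_lit 0) (XT.lf (nat_lit 0) (nat_lit 657619908010) (nat_lit 76) (nat_lit 70817926909) (nat_lit 76) (nat_lit 31866110128) (nat_lit 6) (nat_lit 4) (nat_lit 7) (nat_lit 5) (nat_lit 7) (nat_lit 4) (nat_lit 542) (nat_lit 419) (nat_lit 239)) (XT.lf (nat_lit 0) (nat_lit 15975453030) (nat_lit 152) (nat_lit 6202422711) (nat_lit 76) (nat_lit 773655489773) (nat_lit 5) (nat_lit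 5) (nat_lit 7) (nat_lit 5) (nat_lit 6) (nat_lit 4) (nat_lit 543) (nat_lit 419) (nat_lit 238)))) (XT.nd (nat_lit 156) (nat_lit 0) (nat_lit 0) (XT.nd (nat_lit 78) (nat_lit 0) (nat_lit 0) (XT.lf (nat_lit 0) (nat_lit 1764200099) (nat_lit 0) (nat_lit 1764200099) (nat_lit 684) (nat_lit 2052662118) (nat_lit 136) (nat_lit 5) (nat_lit 136) (nat_lit 3) (nat_lit 145) (nat_lit 3) (nat_lit 420) (nat_lit 420) (nat_lit 360)) (XT.lf (nat_lit 0) (nat_lit 7797820072) (nat_lit 684) (nat_lit 2177454247) (nat_lit 760) (nat_lit 1437448550) (nat_lit 136) (nat_lit 5) (nat_lit 145) (nat_lit 3) (nat_lit 146) (nat_lit 5) (nat_lit 421) (nat_lit 420) (nat_lit 359))) (XT.nd (nat_lit 78) (nat_lit 0) (nat_lit 76) (XT.lf (nat_lit 76) (nat_lit 3589321040) (nat_lit 0) (nat_lit 5066064902) (nat_lit 760) (nat_lit 3016504709) (nat_lit 137) (nat_lit 5) (nat_lit 136) (nat_lit 5) (nat_lit 146) (nat_lit 5) (nat_lit 422) (nat_lit 420)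 (nat_lit 358)) (XT.lf (nat_lit 0) (nat_lit 9561866526) (nat_lit 684) (nat_lit 2245048760) (nat_lit 760) (nat_lit 136813426) (nat_lit 137) (nat_lit 5) (nat_lit 146) (nat_lit 5) (nat_lit 147) (nat_lit 5) (nat_lit 423) (nat_lit 420) (nat_lit 357))))) (XT.nd (nat_lit 234) (nat_lit 0) (nat_lit 0) (XT.nd (nat_lit 78) (nat_lit 684) (nat_lit 0) (XT.lf (nat_lit 76) (nat_lit 3906404135) (nat_lit 0) (nat_lit 6720042666) (nat_lit 760) (nat_lit 1597086150) (nat_lit 138) (nat_lit 5) (nat_lit 137) (nat_lit 5) (nat_lit 147) (nat_lit 5) (nat_lit 424) (nat_lit 420) (nat_lit 356)) (XT.nd (nat_lit 78) (nat_lit 684) (nat_lit 0) (XT.lf (nat_lit 76) (nat_lit 10423770958) (nat_lit 0) (nat_lit 1328424370) (nat_lit 760) (nat_lit 764747547) (nat_lit 138) (nat_lit 5) (nat_lit 137) (nat_lit 5) (nat_lit 147) (nat_lit 5) (nat_lit 425) (nat_lit 420) (nat_lit 355)) (XT.lf (nat_lit 0) (nat_lit 216874500) (nat_lit 760) (nat_lit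 8325031367) (nat_lit 836) (nat_lit 4277485365) (nat_lit 128) (nat_lit 5) (nat_lit 138) (nat_lit 5) (nat_lit 139) (nat_lit 5) (nat_lit 426) (nat_lit 420) (nat_lit 354)))) (XT.nd (nat_lit 156) (nat_lit 0) (nat_lit 76) (XT.nd (nat_lit 78) (nat_lit 0) (nat_lit 76) (XT.lf (nat_lit 0) (nat_lit 1251775723) (nat_lit 760) (nat_lit 1707021632) (nat_lit 836) (nat_lit 10176053622) (nat_lit 128) (nat_lit 5) (nat_lit 138) (nat_lit 5) (nat_lit 139) (nat_lit 5) (nat_lit 427) (nat_lit 420) (nat_lit 353)) (XT.lf (nat_lit 0) (nat_lit 2442884666) (nat_lit 760) (nat_lit 8115357522) (nat_lit 836) (nat_lit 2902628617) (nat_lit 129) (nat_lit 5) (nat_lit 139) (nat_lit 5) (nat_lit 140) (nat_lit 5) (nat_lit 428) (nat_lit 420) (nat_lit 352))) (XT.nd (nat_lit 78) (nat_lit 0) (nat_lit 76) (XT.lf (nat_lit 0) (nat_lit 3745912147) (nat_lit 760) (nat_lit 1061731776) (nat_lit 836) (nat_lit 8992939294) (nat_lit 129) (nat_lit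 5) (nat_lit 139) (nat_lit 5) (nat_lit 140) (nat_lit 5) (nat_lit 429) (nat_lit 420) (nat_lit 351)) (XT.lf (nat_lit 0) (nat_lit 5212743339) (nat_lit 760) (nat_lit 7640609486) (nat_lit 76) (nat_lit 1299005086) (nat_lit 130) (nat_lit 5) (nat_lit 140) (nat_lit 5) (nat_lit 131) (nat_lit 5) (nat_lit 430) (nat_lit 420) (nat_lit 350)))))) (XT.nd (nat_lit 546) (nat_lit 1216) (nat_lit 0) (XT.nd (nat_lit 234) (nat_lit 836) (nat_lit 0) (XT.nd (nat_lit 78) (nat_lit 1140) (nat_lit 0) (XT.lf (nat_lit 0) (nat_lit 6826607160) (nat_lit 760) (nat_lit 120035444) (nat_lit 76) (nat_lit 7571403020) (nat_lit 130) (nat_lit 5) (nat_lit 140) (nat_lit 5) (nat_lit 131) (nat_lit 5) (nat_lit 431) (nat_lit 420) (nat_lit 349)) (XT.nd (nat_lit 78) (nat_lit 380) (nat_lit 0) (XT.lf (nat_lit 0) (nat_lit 8013164202) (nat_lit 760) (nat_lit 610823655) (nat_lit 836) (nat_lit 6272897099) (nat_lit 120) (nat_lit 5) (nat_lit 130) (nat_lit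 5) (nat_lit 131) (nat_lit 5) (nat_lit 432) (nat_lit 420) (nat_lit 348)) (XT.lf (nat_lit 0) (nat_lit 1185539603) (nat_lit 380) (nat_lit 9419105412) (nat_lit 456) (nat_lit 4685358885) (nat_lit 115) (nat_lit 5) (nat_lit 120) (nat_lit 5) (nat_lit 121) (nat_lit 5) (nat_lit 433) (nat_lit 420) (nat_lit 347)))) (XT.nd (nat_lit 156) (nat_lit 456) (nat_lit 0) (XT.nd (nat_lit 78) (nat_lit 380) (nat_lit 0) (XT.lf (nat_lit 0) (nat_lit 9866569896) (nat_lit 380) (nat_lit 2923404897) (nat_lit 456) (nat_lit 2907529645) (nat_lit 115) (nat_lit 5) (nat_lit 120) (nat_lit 5) (nat_lit 121) (nat_lit 5) (nat_lit 434) (nat_lit 420) (nat_lit 346)) (XT.lf (nat_lit 0) (nat_lit 2866811753) (nat_lit 380) (nat_lit 12303568089) (nat_lit 456) (nat_lit 950716993) (nat_lit 110) (nat_lit 5) (nat_lit 115) (nat_lit 5) (nat_lit 116) (nat_lit 5) (nat_lit 435) (nat_lit 420) (nat_lit 345))) (XT.nd (nat_lit 78) (nat_lit 380) (nat_lit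 0) (XT.lf (nat_lit 0) (nat_lit 1197410908) (nat_lit 456) (nat_lit 4446521963) (nat_lit 76) (nat_lit 10914640424) (nat_lit 109) (nat_lit 5) (nat_lit 115) (nat_lit 5) (nat_lit 110) (nat_lit 5) (nat_lit 436) (nat_lit 420) (nat_lit 344)) (XT.lf (nat_lit 0) (nat_lit 3501867951) (nat_lit 456) (nat_lit 12112857209) (nat_lit 76) (nat_lit 1398381771) (nat_lit 104) (nat_lit 5) (nat_lit 110) (nat_lit 5) (nat_lit 105) (nat_lit 5) (nat_lit 437) (nat_lit 420) (nat_lit 343))))) (XT.nd (nat_lit 234) (nat_lit 912) (nat_lit 0) (XT.nd (nat_lit 78) (nat_lit 304) (nat_lit 0) (XT.lf (nat_lit 0) (nat_lit 6072610874) (nat_lit 456) (nat_lit 2731900080) (nat_lit 76) (nat_lit 8678309124) (nat_lit 104) (nat_lit 5) (nat_lit 110) (nat_lit 5) (nat_lit 105) (nat_lit 5) (nat_lit 438) (nat_lit 420) (nat_lit 342)) (XT.nd (nat_lit 78) (nat_lit 0) (nat_lit 0) (XT.lf (nat_lit 0) (nat_lit 7333515341) (nat_lit 304) (nat_lit 1535730467)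 (nat_lit 380) (nat_lit 9101911029) (nat_lit 100) (nat_lit 5) (nat_lit 104) (nat_lit 5) (nat_lit 105) (nat_lit 5) (nat_lit 439) (nat_lit 420) (nat_lit 341)) (XT.lf (nat_lit 0) (nat_lit 11931261040) (nat_lit 380) (nat_lit 600287835) (nat_lit 76) (nat_lit 5946089557) (nat_lit 100) (nat_lit 5) (nat_lit 105) (nat_lit 5) (nat_lit 101) (nat_lit 5) (nat_lit 440) (nat_lit 420) (nat_lit 340)))) (XT.nd (nat_lit 156) (nat_lit 380) (nat_lit 0) (XT.nd (nat_lit 78) (nat_lit 228) (nat_lit 0) (XT.lf (nat_lit 0) (nat_lit 10222074585) (nat_lit 304) (nat_lit 5093207647) (nat_lit 380) (nat_lit 3685721782) (nat_lit 96) (nat_lit 5) (nat_lit 100) (nat_lit 5) (nat_lit 101) (nat_lit 5) (nat_lit 441) (nat_lit 420) (nat_lit 339)) (XT.lf (nat_lit 0) (nat_lit 2060451158) (nat_lit 228) (nat_lit 16877527150) (nat_lit 304) (nat_lit 609090797) (nat_lit 93) (nat_lit 5) (nat_lit 96) (nat_lit 5) (nat_lit 97) (nat_lit 5) (nat_lit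 442) (nat_lit 420) (nat_lit 338))) (XT.nd (nat_lit 78) (nat_lit 304) (nat_lit 0) (XT.lf (nat_lit 0) (nat_lit 2756819202) (nat_lit 304) (nat_lit 6512750827) (nat_lit 76) (nat_lit 10837858150) (nat_lit 92) (nat_lit 5) (nat_lit 96) (nat_lit 5) (nat_lit 93) (nat_lit 5) (nat_lit 443) (nat_lit 420) (nat_lit 337)) (XT.lf (nat_lit 0) (nat_lit 5145982355) (nat_lit 304) (nat_lit 1190382592) (nat_lit 380) (nat_lit 14355654774) (nat_lit 88) (nat_lit 5) (nat_lit 92) (nat_lit 5) (nat_lit 93) (nat_lit 5) (nat_lit 444) (nat_lit 420) (nat_lit 336))))))) (XT.nd (nat_lit 1092) (nat_lit 1444) (nat_lit 0) (XT.nd (nat_lit 546) (nat_lit 836) (nat_lit 0) (XT.nd (nat_lit 234) (nat_lit 760) (nat_lit 0) (XT.nd (nat_lit 78) (nat_lit 228) (nat_lit 0) (XT.lf (nat_lit 0) (nat_lit 10306662538) (nat_lit 380) (nat_lit 3821127119) (nat_lit 76) (nat_lit 7167466503) (nat_lit 88) (nat_lit 5) (nat_lit 93) (nat_lit 5) (nat_lit 89)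 (nat_lit 5) (nat_lit 445) (nat_lit 420) (nat_lit 335)) (XT.nd (nat_lit 78) (nat_lit 0) (nat_lit 0) (XT.lf (nat_lit 0) (nat_lit 8731999662) (nat_lit 228) (nat_lit 5885805889) (nat_lit 304) (nat_lit 7303736198) (nat_lit 85) (nat_lit 5) (nat_lit 88) (nat_lit 5) (nat_lit 89) (nat_lit 5) (nat_lit 446) (nat_lit 420) (nat_lit 334)) (XT.lf (nat_lit 0) (nat_lit 19240280928) (nat_lit 304) (nat_lit 593036485) (nat_lit 76) (nat_lit 2741039118) (nat_lit 85) (nat_lit 5) (nat_lit 89) (nat_lit 5) (nat_lit 86) (nat_lit 5) (nat_lit 447) (nat_lit 420) (nat_lit 333)))) (XT.nd (nat_lit 156) (nat_lit 228) (nat_lit 0) (XT.nd (nat_lit 78) (nat_lit 228) (nat_lit 0) (XT.lf (nat_lit 0) (nat_lit 1097879690) (nat_lit 304) (nat_lit 10329900569) (nat_lit 76) (nat_lit 11816858662) (nat_lit 81) (nat_lit 5) (nat_lit 85) (nat_lit 5) (nat_lit 82) (nat_lit 5) (nat_lit 448) (nat_lit 420) (nat_lit 332)) (XT.lf (nat_lit 0) (nat_lit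 3200619863) (nat_lit 228) (nat_lit 2486483064) (nat_lit 304) (nat_lit 18256216980) (nat_lit 78) (nat_lit 5) (nat_lit 81) (nat_lit 5) (nat_lit 82) (nat_lit 5) (nat_lit 449) (nat_lit 420) (nat_lit 331))) (XT.nd (nat_lit 78) (nat_lit 228) (nat_lit 0) (XT.lf (nat_lit 0) (nat_lit 10779136663) (nat_lit 304) (nat_lit 7030318765) (nat_lit 76) (nat_lit 6853815068) (nat_lit 78) (nat_lit 5) (nat_lit 82) (nat_lit 5) (nat_lit 79) (nat_lit 5) (nat_lit 450) (nat_lit 420) (nat_lit 330)) (XT.lf (nat_lit 0) (nat_lit 7551665263) (nat_lit 228) (nat_lit 8721135211) (nat_lit 304) (nat_lit 9139069598) (nat_lit 75) (nat_lit 5) (nat_lit 78) (nat_lit 5) (nat_lit 79) (nat_lit 5) (nat_lit 451) (nat_lit 420) (nat_lit 329))))) (XT.nd (nat_lit 234) (nat_lit 380) (nat_lit 0) (XT.nd (nat_lit 78) (nat_lit 456) (nat_lit 0) (XT.lf (nat_lit 0) (nat_lit 22163562684) (nat_lit 304) (nat_lit 3117068379) (nat_lit 76) (nat_lit 911150545)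 (nat_lit 75) (nat_lit 5) (nat_lit 79) (nat_lit 5) (nat_lit 76) (nat_lit 5) (nat_lit 452) (nat_lit 420) (nat_lit 328)) (XT.nd (nat_lit 78) (nat_lit 228) (nat_lit 0) (XT.lf (nat_lit 0) (nat_lit 1629658764) (nat_lit 228) (nat_lit 14413108538) (nat_lit 76) (nat_lit 10950163549) (nat_lit 72) (nat_lit 5) (nat_lit 75) (nat_lit 5) (nat_lit 73) (nat_lit 5) (nat_lit 453) (nat_lit 420) (nat_lit 327)) (XT.lf (nat_lit 0) (nat_lit 1296423128) (nat_lit 228) (nat_lit 6201736623) (nat_lit 304) (nat_lit 20329523156) (nat_lit 69) (nat_lit 5) (nat_lit 72) (nat_lit 5) (nat_lit 73) (nat_lit 5) (nat_lit 454) (nat_lit 420) (nat_lit 326)))) (XT.nd (nat_lit 156) (nat_lit 228) (nat_lit 0) (XT.nd (nat_lit 78) (nat_lit 152) (nat_lit 0) (XT.lf (nat_lit 0) (nat_lit 13962063922) (nat_lit 304) (nat_lit 10485270394) (nat_lit 76) (nat_lit 4241741598) (nat_lit 69) (nat_lit 5) (nat_lit 73) (nat_lit 5) (nat_lit 70) (nat_lit 5)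 (nat_lit 455) (nat_lit 420) (nat_lit 325)) (XT.lf (nat_lit 0) (nat_lit 6452026227) (nat_lit 152) (nat_lit 14489426486) (nat_lit 228) (nat_lit 8642473534) (nat_lit 67) (nat_lit 5) (nat_lit 69) (nat_lit 5) (nat_lit 70) (nat_lit 5) (nat_lit 456) (nat_lit 420) (nat_lit 324))) (XT.nd (nat_lit 78) (nat_lit 228) (nat_lit 0) (XT.lf (nat_lit 0) (nat_lit 24584638353) (nat_lit 152) (nat_lit 3852871504) (nat_lit 228) (nat_lit 2077626339) (nat_lit 67) (nat_lit 5) (nat_lit 69) (nat_lit 5) (nat_lit 70) (nat_lit 5) (nat_lit 457) (nat_lit 420) (nat_lit 323)) (XT.lf (nat_lit 0) (nat_lit 4964526666) (nat_lit 228) (nat_lit 19159702715) (nat_lit 76) (nat_lit 7349760555) (nat_lit 64) (nat_lit 5) (nat_lit 67) (nat_lit 5) (nat_lit 65) (nat_lit 5) (nat_lit 458) (nat_lit 420) (nat_lit 322)))))) (XT.nd (nat_lit 546) (nat_lit 760) (nat_lit 0) (XT.nd (nat_lit 234) (nat_lit 380) (nat_lit 0) (XT.nd (nat_lit 78) (nat_lit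 304) (nat_lit 0) (XT.lf (nat_lit 0) (nat_lit 12444785129) (nat_lit 228) (nat_lit 912715201) (nat_lit 76) (nat_lit 19113793844) (nat_lit 64) (nat_lit 5) (nat_lit 67) (nat_lit 5) (nat_lit 65) (nat_lit 5) (nat_lit 459) (nat_lit 420) (nat_lit 321)) (XT.nd (nat_lit 78) (nat_lit 152) (nat_lit 0) (XT.lf (nat_lit 0) (nat_lit 18834896084) (nat_lit 152) (nat_lit 1749250236) (nat_lit 228) (nat_lit 12920064496) (nat_lit 62) (nat_lit 5) (nat_lit 64) (nat_lit 5) (nat_lit 65) (nat_lit 5) (nat_lit 460) (nat_lit 420) (nat_lit 320)) (XT.lf (nat_lit 0) (nat_lit 4995543046) (nat_lit 152) (nat_lit 24382767459) (nat_lit 228) (nat_lit 5198072639) (nat_lit 60) (nat_lit 5) (nat_lit 62) (nat_lit 5) (nat_lit 63) (nat_lit 5) (nat_lit 461) (nat_lit 420) (nat_lit 319)))) (XT.nd (nat_lit 156) (nat_lit 152) (nat_lit 0) (XT.nd (nat_lit 78) (nat_lit 152) (nat_lit 0) (XT.lf (nat_lit 0) (nat_lit 3089255100) (nat_lit 228) (nat_lit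 9629730161) (nat_lit 76) (nat_lit 22967289853) (nat_lit 59) (nat_lit 5) (nat_lit 62) (nat_lit 5) (nat_lit 60) (nat_lit 5) (nat_lit 462) (nat_lit 420) (nat_lit 318)) (XT.lf (nat_lit 0) (nat_lit 11590661741) (nat_lit 152) (nat_lit 198174428) (nat_lit 228) (nat_lit 25049937366) (nat_lit 57) (nat_lit 5) (nat_lit 59) (nat_lit 5) (nat_lit 60) (nat_lit 5) (nat_lit 463) (nat_lit 420) (nat_lit 317))) (XT.nd (nat_lit 78) (nat_lit 152) (nat_lit 0) (XT.lf (nat_lit 0) (nat_lit 21283028941) (nat_lit 228) (nat_lit 4053316004) (nat_lit 76) (nat_lit 12694571619) (nat_lit 57) (nat_lit 5) (nat_lit 60) (nat_lit 5) (nat_lit 58) (nat_lit 5) (nat_lit 464) (nat_lit 420) (nat_lit 316)) (XT.lf (nat_lit 0) (nat_lit 18785775412) (nat_lit 152) (nat_lit 12754807933) (nat_lit 228) (nat_lit 7727652056) (nat_lit 55) (nat_lit 5) (nat_lit 57) (nat_lit 5) (nat_lit 58) (nat_lit 5) (nat_lit 465) (nat_lit 420) (nat_lit 315)))))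 (XT.nd (nat_lit 312) (nat_lit 380) (nat_lit 0) (XT.nd (nat_lit 156) (nat_lit 152) (nat_lit 0) (XT.nd (nat_lit 78) (nat_lit 0) (nat_lit 0) (XT.lf (nat_lit 0) (nat_lit 1796056781) (nat_lit 228) (nat_lit 38192523830) (nat_lit 76) (nat_lit 572066213) (nat_lit 52) (nat_lit 5) (nat_lit 55) (nat_lit 5) (nat_lit 53) (nat_lit 5) (nat_lit 466) (nat_lit 420) (nat_lit 314)) (XT.lf (nat_lit 0) (nat_lit 12090138720) (nat_lit 228) (nat_lit 15183041129) (nat_lit 76) (nat_lit 14610471542) (nat_lit 52) (nat_lit 5) (nat_lit 55) (nat_lit 5) (nat_lit 53) (nat_lit 5) (nat_lit 467) (nat_lit 420) (nat_lit 313))) (XT.nd (nat_lit 78) (nat_lit 0) (nat_lit 0) (XT.lf (nat_lit 0) (nat_lit 9260370520) (nat_lit 152) (nat_lit 13775730092) (nat_lit 228) (nat_lit 20229847815) (nat_lit 50) (nat_lit 5) (nat_lit 52) (nat_lit 5) (nat_lit 53) (nat_lit 5) (nat_lit 468) (nat_lit 420) (nat_lit 312)) (XT.lf (nat_lit 0) (nat_lit 34789563875)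 (nat_lit 228) (nat_lit 9274841517) (nat_lit 76) (nat_lit 639945742) (nat_lit 50) (nat_lit 5) (nat_lit 53) (nat_lit 5) (nat_lit 51) (nat_lit 4) (nat_lit 469) (nat_lit 420) (nat_lit 311)))) (XT.nd (nat_lit 156) (nat_lit 228) (nat_lit 0) (XT.nd (nat_lit 78) (nat_lit 0) (nat_lit 0) (XT.lf (nat_lit 0) (nat_lit 1378880613) (nat_lit 152) (nat_lit 29214437461) (nat_lit 76) (nat_lit 15596033066) (nat_lit 48) (nat_lit 5) (nat_lit 50) (nat_lit 5) (nat_lit 49) (nat_lit 5) (nat_lit 470) (nat_lit 420) (nat_lit 310)) (XT.lf (nat_lit 0) (nat_lit 13056721583) (nat_lit 152) (nat_lit 3059117888) (nat_lit 76) (nat_lit 31617001070) (nat_lit 48) (nat_lit 5) (nat_lit 50) (nat_lit 5) (nat_lit 49) (nat_lit 5) (nat_lit 471) (nat_lit 420) (nat_lit 309))) (XT.nd (nat_lit 78) (nat_lit 76) (nat_lit 0) (XT.lf (nat_lit 0) (nat_lit 25198657154) (nat_lit 152) (nat_lit 506593065) (nat_lit 228) (nat_lit 23628915222) (nat_lit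 46) (nat_lit 5) (nat_lit 48) (nat_lit 5) (nat_lit 49) (nat_lit 5) (nat_lit 472) (nat_lit 420) (nat_lit 308)) (XT.lf (nat_lit 0) (nat_lit 3824251816) (nat_lit 76) (nat_lit 35515725217) (nat_lit 152) (nat_lit 11657891737) (nat_lit 45) (nat_lit 5) (nat_lit 46) (nat_lit 5) (nat_lit 47) (nat_lit 4) (nat_lit 473) (nat_lit 420) (nat_lit 307))))))))
noncomputable def xc142 : XT := (XT.nd (nat_lit 2184) (nat_lit 988) (nat_lit 0) (XT.nd (nat_lit 1092) (nat_lit 760) (nat_lit 0) (XT.nd (nat_lit 546) (nat_lit 456) (nat_lit 0) (XT.nd (nat_lit 234) (nat_lit 304) (nat_lit 0) (XT.nd (nat_lit 78) (nat_lit 152) (nat_lit 0) (XT.lf (nat_lit 0) (nat_lit 1299707195) (nat_lit 152) (nat_lit 18745534049) (nat_lit 76) (nat_lit 32677944832) (nat_lit 44) (nat_lit 5) (nat_lit 46) (nat_lit 5) (nat_lit 45) (nat_lit 5) (nat_lit 474) (nat_lit 420) (nat_lit 306)) (XT.nd (nat_lit 78) (nat_lit 0) (nat_lit 0) (XT.lf (nat_lit 0)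 (nat_lit 11261954918) (nat_lit 152) (nat_lit 3421043791) (nat_lit 228) (nat_lit 39833735845) (nat_lit 42) (nat_lit 5) (nat_lit 44) (nat_lit 5) (nat_lit 45) (nat_lit 5) (nat_lit 475) (nat_lit 420) (nat_lit 305)) (XT.lf (nat_lit 0) (nat_lit 29271047237) (nat_lit 228) (nat_lit 13199169082) (nat_lit 76) (nat_lit 13902965148) (nat_lit 42) (nat_lit 5) (nat_lit 45) (nat_lit 5) (nat_lit 43) (nat_lit 4) (nat_lit 476) (nat_lit 420) (nat_lit 304)))) (XT.nd (nat_lit 156) (nat_lit 152) (nat_lit 0) (XT.nd (nat_lit 78) (nat_lit 76) (nat_lit 0) (XT.lf (nat_lit 0) (nat_lit 18897124626) (nat_lit 76) (nat_lit 26036595859) (nat_lit 152) (nat_lit 13371469729) (nat_lit 41) (nat_lit 5) (nat_lit 42) (nat_lit 5) (nat_lit 43) (nat_lit 4) (nat_lit 477) (nat_lit 420) (nat_lit 303)) (XT.lf (nat_lit 0) (nat_lit 1233578463) (nat_lit 152) (nat_lit 7296996318) (nat_lit 76) (nat_lit 51791342815) (nat_lit 40) (nat_lit 5) (nat_lit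 42) (nat_lit 5) (nat_lit 41) (nat_lit 5) (nat_lit 478) (nat_lit 420) (nat_lit 302))) (XT.nd (nat_lit 78) (nat_lit 0) (nat_lit 0) (XT.lf (nat_lit 0) (nat_lit 16700574165) (nat_lit 228) (nat_lit 35515881994) (nat_lit 76) (nat_lit 10183012279) (nat_lit 38) (nat_lit 5) (nat_lit 41) (nat_lit 5) (nat_lit 39) (nat_lit 4) (nat_lit 479) (nat_lit 420) (nat_lit 301)) (XT.lf (nat_lit 0) (nat_lit 33200805138) (nat_lit 228) (nat_lit 1700434322) (nat_lit 76) (nat_lit 29666663584) (nat_lit 38) (nat_lit 5) (nat_lit 41) (nat_lit 5) (nat_lit 39) (nat_lit 4) (nat_lit 480) (nat_lit 420) (nat_lit 300))))) (XT.nd (nat_lit 234) (nat_lit 228) (nat_lit 0) (XT.nd (nat_lit 78) (nat_lit 152) (nat_lit 0) (XT.lf (nat_lit 0) (nat_lit 34913346448) (nat_lit 76) (nat_lit 16152497312) (nat_lit 152) (nat_lit 15751926291) (nat_lit 37) (nat_lit 5) (nat_lit 38) (nat_lit 5) (nat_lit 39) (nat_lit 4) (nat_lit 481) (nat_lit 420) (nat_lit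 299)) (XT.nd (nat_lit 78) (nat_lit 0) (nat_lit 0) (XT.lf (nat_lit 0) (nat_lit 772263747) (nat_lit 152) (nat_lit 64874694535) (nat_lit 76) (nat_lit 3525226219) (nat_lit 35) (nat_lit 5) (nat_lit 37) (nat_lit 5) (nat_lit 36) (nat_lit 4) (nat_lit 482) (nat_lit 420) (nat_lit 298)) (XT.lf (nat_lit 0) (nat_lit 18402009003) (nat_lit 152) (nat_lit 28741965030) (nat_lit 76) (nat_lit 24446998947) (nat_lit 35) (nat_lit 5) (nat_lit 37) (nat_lit 5) (nat_lit 36) (nat_lit 4) (nat_lit 483) (nat_lit 420) (nat_lit 297)))) (XT.nd (nat_lit 156) (nat_lit 152) (nat_lit 0) (XT.nd (nat_lit 78) (nat_lit 0) (nat_lit 0) (XT.lf (nat_lit 0) (nat_lit 9491739739) (nat_lit 76) (nat_lit 27564688905) (nat_lit 152) (nat_lit 37067113274) (nat_lit 34) (nat_lit 5) (nat_lit 35) (nat_lit 5) (nat_lit 36) (nat_lit 4) (nat_lit 484) (nat_lit 420) (nat_lit 296)) (XT.lf (nat_lit 0) (nat_lit 50625682231) (nat_lit 76) (nat_lit 6499733689)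 (nat_lit 152) (nat_lit 19633231420) (nat_lit 34) (nat_lit 5) (nat_lit 35) (nat_lit 5) (nat_lit 36) (nat_lit 4) (nat_lit 485) (nat_lit 420) (nat_lit 295))) (XT.nd (nat_lit 78) (nat_lit 76) (nat_lit 0) (XT.lf (nat_lit 0) (nat_lit 14502093708) (nat_lit 76) (nat_lit 64161281451) (nat_lit 76) (nat_lit 838857096) (nat_lit 33) (nat_lit 4) (nat_lit 34) (nat_lit 5) (nat_lit 34) (nat_lit 4) (nat_lit 486) (nat_lit 420) (nat_lit 294)) (XT.lf (nat_lit 0) (nat_lit 18842119855) (nat_lit 152) (nat_lit 24702541387) (nat_lit 76) (nat_lit 38796002644) (nat_lit 32) (nat_lit 5) (nat_lit 34) (nat_lit 5) (nat_lit 33) (nat_lit 4) (nat_lit 487) (nat_lit 420) (nat_lit 293)))))) (XT.nd (nat_lit 546) (nat_lit 380) (nat_lit 0) (XT.nd (nat_lit 234) (nat_lit 228) (nat_lit 0) (XT.nd (nat_lit 78) (nat_lit 76) (nat_lit 0) (XT.lf (nat_lit 0) (nat_lit 18169098221) (nat_lit 76) (nat_lit 21589018997) (nat_lit 152) (nat_lit 45548254463)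 (nat_lit 31) (nat_lit 5) (nat_lit 32) (nat_lit 5) (nat_lit 33) (nat_lit 4) (nat_lit 488) (nat_lit 420) (nat_lit 292)) (XT.nd (nat_lit 78) (nat_lit 76) (nat_lit 0) (XT.lf (nat_lit 0) (nat_lit 62163496952) (nat_lit 152) (nat_lit 24395862572) (nat_lit 0) (nat_lit 1838826507) (nat_lit 31) (nat_lit 5) (nat_lit 33) (nat_lit 4) (nat_lit 31) (nat_lit 4) (nat_lit 489) (nat_lit 420) (nat_lit 291)) (XT.lf (nat_lit 0) (nat_lit 20785755662) (nat_lit 76) (nat_lit 65577557350) (nat_lit 76) (nat_lit 5247569996) (nat_lit 30) (nat_lit 4) (nat_lit 31) (nat_lit 5) (nat_lit 31) (nat_lit 4) (nat_lit 490) (nat_lit 420) (nat_lit 290)))) (XT.nd (nat_lit 156) (nat_lit 76) (nat_lit 0) (XT.nd (nat_lit 78) (nat_lit 76) (nat_lit 0) (XT.lf (nat_lit 0) (nat_lit 16667217358) (nat_lit 152) (nat_lit 26167255492) (nat_lit 76) (nat_lit 52115853037) (nat_lit 29) (nat_lit 5) (nat_lit 31) (nat_lit 5) (nat_lit 30) (nat_lit 4) (nat_lit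 491) (nat_lit 420) (nat_lit 289)) (XT.lf (nat_lit 0) (nat_lit 21311757742) (nat_lit 76) (nat_lit 18518306360) (nat_lit 152) (nat_lit 58605942119) (nat_lit 28) (nat_lit 5) (nat_lit 29) (nat_lit 5) (nat_lit 30) (nat_lit 4) (nat_lit 492) (nat_lit 420) (nat_lit 288))) (XT.nd (nat_lit 78) (nat_lit 76) (nat_lit 0) (XT.lf (nat_lit 0) (nat_lit 64706927765) (nat_lit 152) (nat_lit 30125242126) (nat_lit 0) (nat_lit 7236007180) (nat_lit 28) (nat_lit 5) (nat_lit 30) (nat_lit 4) (nat_lit 28) (nat_lit 4) (nat_lit 493) (nat_lit 420) (nat_lit 287)) (XT.lf (nat_lit 0) (nat_lit 19537996402) (nat_lit 76) (nat_lit 71894404249) (nat_lit 76) (nat_lit 14419317727) (nat_lit 27) (nat_lit 4) (nat_lit 28) (nat_lit 5) (nat_lit 28) (nat_lit 4) (nat_lit 494) (nat_lit 420) (nat_lit 286))))) (XT.nd (nat_lit 234) (nat_lit 228) (nat_lit 0) (XT.nd (nat_lit 78) (nat_lit 76) (nat_lit 0) (XT.lf (nat_lit 0) (nat_lit 9874919391) (nat_lit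 152) (nat_lit 37235469327) (nat_lit 76) (nat_lit 62680764661) (nat_lit 26) (nat_lit 5) (nat_lit 28) (nat_lit 5) (nat_lit 27) (nat_lit 4) (nat_lit 495) (nat_lit 420) (nat_lit 285)) (XT.nd (nat_lit 78) (nat_lit 0) (nat_lit 0) (XT.lf (nat_lit 0) (nat_lit 14517847758) (nat_lit 76) (nat_lit 20604435395) (nat_lit 152) (nat_lit 78782308130) (nat_lit 25) (nat_lit 5) (nat_lit 26) (nat_lit 5) (nat_lit 27) (nat_lit 4) (nat_lit 496) (nat_lit 420) (nat_lit 284)) (XT.lf (nat_lit 0) (nat_lit 62382130289) (nat_lit 152) (nat_lit 48170917212) (nat_lit 0) (nat_lit 7633148002) (nat_lit 25) (nat_lit 5) (nat_lit 27) (nat_lit 4) (nat_lit 25) (nat_lit 4) (nat_lit 497) (nat_lit 420) (nat_lit 283)))) (XT.nd (nat_lit 156) (nat_lit 152) (nat_lit 0) (XT.nd (nat_lit 78) (nat_lit 0) (nat_lit 0) (XT.lf (nat_lit 0) (nat_lit 5435079548) (nat_lit 76) (nat_lit 85989044621) (nat_lit 76) (nat_lit 31236798214) (nat_lit 24) (nat_lit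 4) (nat_lit 25) (nat_lit 5) (nat_lit 25) (nat_lit 4) (nat_lit 498) (nat_lit 420) (nat_lit 282)) (XT.lf (nat_lit 0) (nat_lit 63387071563) (nat_lit 76) (nat_lit 59343525175) (nat_lit 76) (nat_lit 4588170082) (nat_lit 24) (nat_lit 4) (nat_lit 25) (nat_lit 5) (nat_lit 25) (nat_lit 4) (nat_lit 499) (nat_lit 420) (nat_lit 281))) (XT.nd (nat_lit 78) (nat_lit 76) (nat_lit 0) (XT.lf (nat_lit 0) (nat_lit 22640861379) (nat_lit 152) (nat_lit 8344549919) (nat_lit 76) (nat_lit 101205996375) (nat_lit 23) (nat_lit 5) (nat_lit 25) (nat_lit 5) (nat_lit 24) (nat_lit 4) (nat_lit 500) (nat_lit 420) (nat_lit 280)) (XT.lf (nat_lit 0) (nat_lit 51591824944) (nat_lit 76) (nat_lit 287667914) (nat_lit 152) (nat_lit 85384310002) (nat_lit 22) (nat_lit 5) (nat_lit 23) (nat_lit 5) (nat_lit 24) (nat_lit 4) (nat_lit 501) (nat_lit 420) (nat_lit 279))))))) (XT.nd (nat_lit 1092) (nat_lit 456) (nat_lit 0) (XT.nd (nat_lit 546) (nat_lit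 228) (nat_lit 0) (XT.nd (nat_lit 234) (nat_lit 228) (nat_lit 0) (XT.nd (nat_lit 78) (nat_lit 76) (nat_lit 0) (XT.lf (nat_lit 0) (nat_lit 83219298883) (nat_lit 152) (nat_lit 28275277852) (nat_lit 0) (nat_lit 31063279057) (nat_lit 22) (nat_lit 5) (nat_lit 24) (nat_lit 4) (nat_lit 22) (nat_lit 4) (nat_lit 502) (nat_lit 420) (nat_lit 278)) (XT.nd (nat_lit 78) (nat_lit 0) (nat_lit 0) (XT.lf (nat_lit 0) (nat_lit 33038079183) (nat_lit 76) (nat_lit 83605555453) (nat_lit 76) (nat_lit 31447099890) (nat_lit 21) (nat_lit 4) (nat_lit 22) (nat_lit 5) (nat_lit 22) (nat_lit 4) (nat_lit 503) (nat_lit 420) (nat_lit 277)) (XT.lf (nat_lit 0) (nat_lit 98392965796) (nat_lit 76) (nat_lit 53822135562) (nat_lit 76) (nat_lit 1661360250) (nat_lit 21) (nat_lit 4) (nat_lit 22) (nat_lit 5) (nat_lit 22) (nat_lit 4) (nat_lit 504) (nat_lit 420) (nat_lit 276)))) (XT.nd (nat_lit 156) (nat_lit 76) (nat_lit 0) (XT.nd (nat_lit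 78) (nat_lit 0) (nat_lit 0) (XT.lf (nat_lit 0) (nat_lit 6814257656) (nat_lit 76) (nat_lit 21955128809) (nat_lit 152) (nat_lit 131153793955) (nat_lit 19) (nat_lit 5) (nat_lit 20) (nat_lit 5) (nat_lit 21) (nat_lit 4) (nat_lit 505) (nat_lit 420) (nat_lit 275)) (XT.lf (nat_lit 0) (nat_lit 61797670157) (nat_lit 152) (nat_lit 92299978417) (nat_lit 0) (nat_lit 12116633320) (nat_lit 19) (nat_lit 5) (nat_lit 21) (nat_lit 4) (nat_lit 19) (nat_lit 4) (nat_lit 506) (nat_lit 420) (nat_lit 274))) (XT.nd (nat_lit 78) (nat_lit 76) (nat_lit 0) (XT.lf (nat_lit 0) (nat_lit 96834583037) (nat_lit 152) (nat_lit 28815857017) (nat_lit 0) (nat_lit 47151637736) (nat_lit 19) (nat_lit 5) (nat_lit 21) (nat_lit 4) (nat_lit 19) (nat_lit 4) (nat_lit 507) (nat_lit 420) (nat_lit 273)) (XT.lf (nat_lit 0) (nat_lit 39088449695) (nat_lit 76) (nat_lit 95142595785) (nat_lit 76) (nat_lit 45457832900) (nat_lit 18) (nat_lit 4) (nat_lit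 19) (nat_lit 5) (nat_lit 19) (nat_lit 4) (nat_lit 508) (nat_lit 420) (nat_lit 272))))) (XT.nd (nat_lit 234) (nat_lit 76) (nat_lit 0) (XT.nd (nat_lit 78) (nat_lit 152) (nat_lit 0) (XT.lf (nat_lit 0) (nat_lit 111383380156) (nat_lit 76) (nat_lit 62599429461) (nat_lit 76) (nat_lit 12912935543) (nat_lit 18) (nat_lit 4) (nat_lit 19) (nat_lit 5) (nat_lit 19) (nat_lit 4) (nat_lit 509) (nat_lit 420) (nat_lit 271)) (XT.nd (nat_lit 78) (nat_lit 76) (nat_lit 0) (XT.lf (nat_lit 0) (nat_lit 20576328343) (nat_lit 152) (nat_lit 7506669417) (nat_lit 76) (nat_lit 166363484361) (nat_lit 17) (nat_lit 5) (nat_lit 19) (nat_lit 5) (nat_lit 18) (nat_lit 4) (nat_lit 510) (nat_lit 420) (nat_lit 270)) (XT.lf (nat_lit 0) (nat_lit 56478568842) (nat_lit 152) (nat_lit 136671946140) (nat_lit 0) (nat_lit 9155033015) (nat_lit 16) (nat_lit 5) (nat_lit 18) (nat_lit 4) (nat_lit 16) (nat_lit 4) (nat_lit 511) (nat_lit 420) (nat_lit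 269)))) (XT.nd (nat_lit 156) (nat_lit 0) (nat_lit 0) (XT.nd (nat_lit 78) (nat_lit 76) (nat_lit 0) (XT.lf (nat_lit 0) (nat_lit 94763182201) (nat_lit 152) (nat_lit 68326799748) (nat_lit 0) (nat_lit 47438222249) (nat_lit 16) (nat_lit 5) (nat_lit 18) (nat_lit 4) (nat_lit 16) (nat_lit 4) (nat_lit 512) (nat_lit 420) (nat_lit 268)) (XT.lf (nat_lit 0) (nat_lit 3544645964) (nat_lit 76) (nat_lit 131470503703) (nat_lit 76) (nat_lit 84144187442) (nat_lit 15) (nat_lit 4) (nat_lit 16) (nat_lit 5) (nat_lit 16) (nat_lit 4) (nat_lit 513) (nat_lit 420) (nat_lit 267))) (XT.nd (nat_lit 78) (nat_lit 0) (nat_lit 0) (XT.lf (nat_lit 0) (nat_lit 81377478467) (nat_lit 76) (nat_lit 97057203952) (nat_lit 76) (nat_lit 49729595967) (nat_lit 15) (nat_lit 4) (nat_lit 16) (nat_lit 5) (nat_lit 16) (nat_lit 4) (nat_lit 514) (nat_lit 420) (nat_lit 266)) (XT.lf (nat_lit 0) (nat_lit 163097821456) (nat_lit 76) (nat_lit 60925293684)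 (nat_lit 76) (nat_lit 13596455486) (nat_lit 15) (nat_lit 4) (nat_lit 16) (nat_lit 5) (nat_lit 16) (nat_lit 4) (nat_lit 515) (nat_lit 420) (nat_lit 265)))))) (XT.nd (nat_lit 546) (nat_lit 228) (nat_lit 0) (XT.nd (nat_lit 234) (nat_lit 76) (nat_lit 0) (XT.nd (nat_lit 78) (nat_lit 0) (nat_lit 0) (XT.lf (nat_lit 0) (nat_lit 1004640139) (nat_lit 76) (nat_lit 22573237893) (nat_lit 152) (nat_lit 223950062364) (nat_lit 13) (nat_lit 5) (nat_lit 14) (nat_lit 5) (nat_lit 15) (nat_lit 4) (nat_lit 516) (nat_lit 420) (nat_lit 264)) (XT.nd (nat_lit 78) (nat_lit 0) (nat_lit 0) (XT.lf (nat_lit 0) (nat_lit 63711033707) (nat_lit 152) (nat_lit 175497927424) (nat_lit 0) (nat_lit 18633771166) (nat_lit 13) (nat_lit 5) (nat_lit 15) (nat_lit 4) (nat_lit 13) (nat_lit 4) (nat_lit 517) (nat_lit 420) (nat_lit 263)) (XT.lf (nat_lit 0) (nat_lit 106218989196) (nat_lit 152) (nat_lit 101295152992) (nat_lit 0) (nat_lit 61140714557)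 (nat_lit 13) (nat_lit 5) (nat_lit 15) (nat_lit 4) (nat_lit 13) (nat_lit 4) (nat_lit 518) (nat_lit 420) (nat_lit 262)))) (XT.nd (nat_lit 156) (nat_lit 0) (nat_lit 0) (XT.nd (nat_lit 78) (nat_lit 76) (nat_lit 0) (XT.lf (nat_lit 0) (nat_lit 150850522414) (nat_lit 152) (nat_lit 23385872183) (nat_lit 0) (nat_lit 105771283870) (nat_lit 13) (nat_lit 5) (nat_lit 15) (nat_lit 4) (nat_lit 13) (nat_lit 4) (nat_lit 519) (nat_lit 420) (nat_lit 261)) (XT.lf (nat_lit 0) (nat_lit 60346890663) (nat_lit 76) (nat_lit 138307192336) (nat_lit 76) (nat_lit 93227035789) (nat_lit 12) (nat_lit 4) (nat_lit 13) (nat_lit 5) (nat_lit 13) (nat_lit 4) (nat_lit 520) (nat_lit 420) (nat_lit 260))) (XT.nd (nat_lit 78) (nat_lit 0) (nat_lit 0) (XT.lf (nat_lit 0) (nat_lit 149074792748) (nat_lit 76) (nat_lit 100167375953) (nat_lit 76) (nat_lit 55086345116) (nat_lit 12) (nat_lit 4) (nat_lit 13) (nat_lit 5) (nat_lit 13) (nat_lit 4)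 (nat_lit 521) (nat_lit 420) (nat_lit 259)) (XT.lf (nat_lit 0) (nat_lit 242235848432) (nat_lit 76) (nat_lit 60122187421) (nat_lit 76) (nat_lit 15040323928) (nat_lit 12) (nat_lit 4) (nat_lit 13) (nat_lit 5) (nat_lit 13) (nat_lit 4) (nat_lit 522) (nat_lit 420) (nat_lit 258))))) (XT.nd (nat_lit 312) (nat_lit 76) (nat_lit 0) (XT.nd (nat_lit 156) (nat_lit 0) (nat_lit 0) (XT.nd (nat_lit 78) (nat_lit 0) (nat_lit 0) (XT.lf (nat_lit 0) (nat_lit 8789776938) (nat_lit 76) (nat_lit 17489458884) (nat_lit 152) (nat_lit 304814595628) (nat_lit 10) (nat_lit 5) (nat_lit 11) (nat_lit 5) (nat_lit 12) (nat_lit 4) (nat_lit 523) (nat_lit 420) (nat_lit 257)) (XT.lf (nat_lit 0) (nat_lit 70877370252) (nat_lit 152) (nat_lit 246557688203) (nat_lit 0) (nat_lit 27940787640) (nat_lit 10) (nat_lit 5) (nat_lit 12) (nat_lit 4) (nat_lit 10) (nat_lit 4) (nat_lit 524) (nat_lit 420) (nat_lit 256))) (XT.nd (nat_lit 78) (nat_lit 0)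 (nat_lit 0) (XT.lf (nat_lit 0) (nat_lit 117990630078) (nat_lit 152) (nat_lit 167313708060) (nat_lit 0) (nat_lit 75053362437) (nat_lit 10) (nat_lit 5) (nat_lit 12) (nat_lit 4) (nat_lit 10) (nat_lit 4) (nat_lit 525) (nat_lit 420) (nat_lit 255)) (XT.lf (nat_lit 0) (nat_lit 167458130260) (nat_lit 152) (nat_lit 84110378474) (nat_lit 0) (nat_lit 124520210211) (nat_lit 10) (nat_lit 5) (nat_lit 12) (nat_lit 4) (nat_lit 10) (nat_lit 4) (nat_lit 526) (nat_lit 420) (nat_lit 254)))) (XT.nd (nat_lit 156) (nat_lit 0) (nat_lit 0) (XT.nd (nat_lit 78) (nat_lit 0) (nat_lit 0) (XT.lf (nat_lit 0) (nat_lit 3357876746) (nat_lit 76) (nat_lit 216092199680) (nat_lit 76) (nat_lit 173153658290) (nat_lit 9) (nat_lit 4) (nat_lit 10) (nat_lit 5) (nat_lit 10) (nat_lit 4) (nat_lit 527) (nat_lit 420) (nat_lit 253)) (XT.lf (nat_lit 0) (nat_lit 98116997044) (nat_lit 76) (nat_lit 177347740755) (nat_lit 76) (nat_lit 134408607612)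 (nat_lit 9) (nat_lit 4) (nat_lit 10) (nat_lit 5) (nat_lit 10) (nat_lit 4) (nat_lit 528) (nat_lit 420) (nat_lit 252))) (XT.nd (nat_lit 78) (nat_lit 0) (nat_lit 0) (XT.lf (nat_lit 0) (nat_lit 197611530407) (nat_lit 76) (nat_lit 136667333207) (nat_lit 76) (nat_lit 93727636489) (nat_lit 9) (nat_lit 4) (nat_lit 10) (nat_lit 5) (nat_lit 10) (nat_lit 4) (nat_lit 529) (nat_lit 420) (nat_lit 251)) (XT.lf (nat_lit 0) (nat_lit 302078368580) (nat_lit 76) (nat_lit 93954118922) (nat_lit 76) (nat_lit 51013885466) (nat_lit 9) (nat_lit 4) (nat_lit 10) (nat_lit 5) (nat_lit 10) (nat_lit 4) (nat_lit 530) (nat_lit 420) (nat_lit 250))))))))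
noncomputable def xc143 : XT := (XT.nd (nat_lit 55146) (nat_lit 0) (nat_lit 3876) (XT.nd (nat_lit 54054) (nat_lit 0) (nat_lit 7904) (XT.nd (nat_lit 546) (nat_lit 76) (nat_lit 0) (XT.nd (nat_lit 234) (nat_lit 0) (nat_lit 0) (XT.nd (nat_lit 78) (nat_lit 152) (nat_lit 0) (XT.lf (nat_lit 0) (nat_lit 411766242130) (nat_lit 76) (nat_lit 49106399770) (nat_lit 76) (nat_lit 6165655136) (nat_lit 9) (nat_lit 4) (nat_lit 10) (nat_lit 5) (nat_lit 10) (nat_lit 4) (nat_lit 531) (nat_lit 420) (nat_lit 249)) (XT.nd (nat_lit 78) (nat_lit 0) (nat_lit 0) (XT.lf (nat_lit 0) (nat_lit 39532801291) (nat_lit 76) (nat_lit 698434202) (nat_lit 152) (nat_lit 447735828956) (nat_lit 7) (nat_lit 5) (nat_lit 8) (nat_lit 5) (nat_lit 9) (nat_lit 4) (nat_lit 532) (nat_lit 420) (nat_lit 248)) (XT.lf (nat_lit 0) (nat_lit 90473724770) (nat_lit 152) (nat_lit 369799971373) (nat_lit 0) (nat_lit 49576872269) (nat_lit 7) (nat_lit 5)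 (nat_lit 9) (nat_lit 4) (nat_lit 7) (nat_lit 4) (nat_lit 533) (nat_lit 420) (nat_lit 247)))) (XT.nd (nat_lit 156) (nat_lit 0) (nat_lit 0) (XT.nd (nat_lit 78) (nat_lit 0) (nat_lit 0) (XT.lf (nat_lit 0) (nat_lit 143238728863) (nat_lit 152) (nat_lit 287247543400) (nat_lit 0) (nat_lit 102341455814) (nat_lit 7) (nat_lit 5) (nat_lit 9) (nat_lit 4) (nat_lit 7) (nat_lit 4) (nat_lit 534) (nat_lit 420) (nat_lit 246)) (XT.lf (nat_lit 0) (nat_lit 198640974219) (nat_lit 152) (nat_lit 200569521325) (nat_lit 0) (nat_lit 157743300649) (nat_lit 7) (nat_lit 5) (nat_lit 9) (nat_lit 4) (nat_lit 7) (nat_lit 4) (nat_lit 535) (nat_lit 420) (nat_lit 245))) (XT.nd (nat_lit 78) (nat_lit 0) (nat_lit 0) (XT.lf (nat_lit 0) (nat_lit 256812370947) (nat_lit 152) (nat_lit 109559528905) (nat_lit 0) (nat_lit 215914315927) (nat_lit 7) (nat_lit 5) (nat_lit 9) (nat_lit 4) (nat_lit 7) (nat_lit 4) (nat_lit 536) (nat_lit 420) (nat_lit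 244)) (XT.lf (nat_lit 0) (nat_lit 317891422373) (nat_lit 152) (nat_lit 14000875681) (nat_lit 0) (nat_lit 276993004067) (nat_lit 7) (nat_lit 5) (nat_lit 9) (nat_lit 4) (nat_lit 7) (nat_lit 4) (nat_lit 537) (nat_lit 420) (nat_lit 243))))) (XT.nd (nat_lit 234) (nat_lit 0) (nat_lit 0) (XT.nd (nat_lit 78) (nat_lit 0) (nat_lit 0) (XT.lf (nat_lit 0) (nat_lit 89188549525) (nat_lit 76) (nat_lit 294227488491) (nat_lit 76) (nat_lit 253328724200) (nat_lit 6) (nat_lit 4) (nat_lit 7) (nat_lit 5) (nat_lit 7) (nat_lit 4) (nat_lit 538) (nat_lit 420) (nat_lit 242)) (XT.nd (nat_lit 78) (nat_lit 0) (nat_lit 0) (XT.lf (nat_lit 0) (nat_lit 198021801773) (nat_lit 76) (nat_lit 254431337314) (nat_lit 76) (nat_lit 213532243513) (nat_lit 6) (nat_lit 4) (nat_lit 7) (nat_lit 5) (nat_lit 7) (nat_lit 4) (nat_lit 539) (nat_lit 420) (nat_lit 241)) (XT.lf (nat_lit 0) (nat_lit 312295075673) (nat_lit 76) (nat_lit 212646203388)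 (nat_lit 76) (nat_lit 171746795767) (nat_lit 6) (nat_lit 4) (nat_lit 7) (nat_lit 5) (nat_lit 7) (nat_lit 4) (nat_lit 540) (nat_lit 420) (nat_lit 240)))) (XT.nd (nat_lit 53118) (nat_lit 0) (nat_lit 9880) (XT.nd (nat_lit 78) (nat_lit 0) (nat_lit 0) (XT.lf (nat_lit 0) (nat_lit 432280450448) (nat_lit 76) (nat_lit 168772598297) (nat_lit 76) (nat_lit 127872891801) (nat_lit 6) (nat_lit 4) (nat_lit 7) (nat_lit 5) (nat_lit 7) (nat_lit 4) (nat_lit 541) (nat_lit 420) (nat_lit 239)) (XT.lf (nat_lit 0) (nat_lit 558263605562) (nat_lit 76) (nat_lit 122706061079) (nat_lit 76) (nat_lit 81806069939) (nat_lit 6) (nat_lit 4) (nat_lit 7) (nat_lit 5) (nat_lit 7) (nat_lit 4) (nat_lit 542) (nat_lit 420) (nat_lit 238))) (XT.nd (nat_lit 78) (nat_lit 0) (nat_lit 0) (XT.lf (nat_lit 0) (nat_lit 2118891106) (nat_lit 0) (nat_lit 2118891106) (nat_lit 684) (nat_lit 1595463733) (nat_lit 136) (nat_lit 5) (nat_lit 136) (nat_lit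 3) (nat_lit 145) (nat_lit 3) (nat_lit 421) (nat_lit 421) (nat_lit 358)) (XT.lf (nat_lit 0) (nat_lit 9194952007) (nat_lit 684) (nat_lit 1719639332) (nat_lit 760) (nat_lit 1017983938) (nat_lit 136) (nat_lit 5) (nat_lit 145) (nat_lit 3) (nat_lit 146) (nat_lit 5) (nat_lit 422) (nat_lit 421) (nat_lit 357)))))) (XT.nd (nat_lit 546) (nat_lit 1292) (nat_lit 0) (XT.nd (nat_lit 234) (nat_lit 684) (nat_lit 0) (XT.nd (nat_lit 78) (nat_lit 0) (nat_lit 0) (XT.lf (nat_lit 76) (nat_lit 4326334596) (nat_lit 0) (nat_lit 5729802599) (nat_lit 760) (nat_lit 2150547283) (nat_lit 137) (nat_lit 5) (nat_lit 136) (nat_lit 5) (nat_lit 146) (nat_lit 5) (nat_lit 423) (nat_lit 421) (nat_lit 356)) (XT.nd (nat_lit 78) (nat_lit 0) (nat_lit 76) (XT.lf (nat_lit 76) (nat_lit 10717044424) (nat_lit 0) (nat_lit 242486003) (nat_lit 760) (nat_lit 1535023708) (nat_lit 137) (nat_lit 5) (nat_lit 136) (nat_lit 5) (nat_lit 146) (nat_lit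 5) (nat_lit 424) (nat_lit 421) (nat_lit 355)) (XT.lf (nat_lit 76) (nat_lit 4675889177) (nat_lit 0) (nat_lit 7363020181) (nat_lit 760) (nat_lit 751378959) (nat_lit 138) (nat_lit 5) (nat_lit 137) (nat_lit 5) (nat_lit 147) (nat_lit 5) (nat_lit 425) (nat_lit 421) (nat_lit 354)))) (XT.nd (nat_lit 156) (nat_lit 0) (nat_lit 76) (XT.nd (nat_lit 78) (nat_lit 0) (nat_lit 76) (XT.lf (nat_lit 0) (nat_lit 75989654) (nat_lit 760) (nat_lit 1609926519) (nat_lit 836) (nat_lit 11414506582) (nat_lit 127) (nat_lit 5) (nat_lit 137) (nat_lit 5) (nat_lit 138) (nat_lit 5) (nat_lit 426) (nat_lit 421) (nat_lit 353)) (XT.lf (nat_lit 0) (nat_lit 1045210978) (nat_lit 760) (nat_lit 8129819820) (nat_lit 836) (nat_lit 4244140688) (nat_lit 128) (nat_lit 5) (nat_lit 138) (nat_lit 5) (nat_lit 139) (nat_lit 5) (nat_lit 427) (nat_lit 421) (nat_lit 352))) (XT.nd (nat_lit 78) (nat_lit 0) (nat_lit 76) (XT.lf (nat_lit 0) (nat_lit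 2092929036) (nat_lit 760) (nat_lit 1210026890) (nat_lit 836) (nat_lit 10449409687) (nat_lit 128) (nat_lit 5) (nat_lit 138) (nat_lit 5) (nat_lit 139) (nat_lit 5) (nat_lit 428) (nat_lit 421) (nat_lit 351)) (XT.lf (nat_lit 0) (nat_lit 3312693333) (nat_lit 760) (nat_lit 7907594066) (nat_lit 836) (nat_lit 2875958310) (nat_lit 129) (nat_lit 5) (nat_lit 139) (nat_lit 5) (nat_lit 140) (nat_lit 5) (nat_lit 429) (nat_lit 421) (nat_lit 350))))) (XT.nd (nat_lit 234) (nat_lit 760) (nat_lit 0) (XT.nd (nat_lit 78) (nat_lit 684) (nat_lit 0) (XT.lf (nat_lit 0) (nat_lit 4645269120) (nat_lit 760) (nat_lit 530502810) (nat_lit 836) (nat_lit 9278965555) (nat_lit 129) (nat_lit 5) (nat_lit 139) (nat_lit 5) (nat_lit 140) (nat_lit 5) (nat_lit 430) (nat_lit 421) (nat_lit 349)) (XT.nd (nat_lit 78) (nat_lit 760) (nat_lit 0) (XT.lf (nat_lit 0) (nat_lit 6158757496) (nat_lit 760) (nat_lit 7411381149) (nat_lit 76) (nat_lit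 1255309432) (nat_lit 130) (nat_lit 5) (nat_lit 140) (nat_lit 5) (nat_lit 131) (nat_lit 5) (nat_lit 431) (nat_lit 421) (nat_lit 348)) (XT.lf (nat_lit 0) (nat_lit 471195221) (nat_lit 760) (nat_lit 7356838964) (nat_lit 836) (nat_lit 7382662334) (nat_lit 120) (nat_lit 5) (nat_lit 130) (nat_lit 5) (nat_lit 131) (nat_lit 5) (nat_lit 432) (nat_lit 421) (nat_lit 347)))) (XT.nd (nat_lit 156) (nat_lit 380) (nat_lit 0) (XT.nd (nat_lit 78) (nat_lit 380) (nat_lit 0) (XT.lf (nat_lit 0) (nat_lit 8986584125) (nat_lit 760) (nat_lit 699202675) (nat_lit 836) (nat_lit 5924177616) (nat_lit 120) (nat_lit 5) (nat_lit 130) (nat_lit 5) (nat_lit 131) (nat_lit 5) (nat_lit 433) (nat_lit 421) (nat_lit 346)) (XT.lf (nat_lit 0) (nat_lit 1840481104) (nat_lit 380) (nat_lit 9903407143) (nat_lit 456) (nat_lit 4279941669) (nat_lit 115) (nat_lit 5) (nat_lit 120) (nat_lit 5) (nat_lit 121) (nat_lit 5) (nat_lit 434) (nat_lit 421)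 (nat_lit 345))) (XT.nd (nat_lit 78) (nat_lit 380) (nat_lit 0) (XT.lf (nat_lit 0) (nat_lit 10927197934) (nat_lit 380) (nat_lit 3082286057) (nat_lit 456) (nat_lit 2443682165) (nat_lit 115) (nat_lit 5) (nat_lit 120) (nat_lit 5) (nat_lit 121) (nat_lit 5) (nat_lit 435) (nat_lit 421) (nat_lit 344)) (XT.lf (nat_lit 0) (nat_lit 3597239462) (nat_lit 380) (nat_lit 12893027357) (nat_lit 456) (nat_lit 408613618) (nat_lit 110) (nat_lit 5) (nat_lit 115) (nat_lit 5) (nat_lit 116) (nat_lit 5) (nat_lit 436) (nat_lit 421) (nat_lit 343))))))) (XT.nd (nat_lit 1092) (nat_lit 1596) (nat_lit 0) (XT.nd (nat_lit 546) (nat_lit 1140) (nat_lit 0) (XT.nd (nat_lit 234) (nat_lit 836) (nat_lit 0) (XT.nd (nat_lit 78) (nat_lit 380) (nat_lit 0) (XT.lf (nat_lit 0) (nat_lit 1800869155) (nat_lit 456) (nat_lit 4091560024) (nat_lit 76) (nat_lit 11466709415) (nat_lit 109) (nat_lit 5) (nat_lit 115) (nat_lit 5) (nat_lit 110) (nat_lit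 5) (nat_lit 437) (nat_lit 421) (nat_lit 342)) (XT.nd (nat_lit 78) (nat_lit 0) (nat_lit 0) (XT.lf (nat_lit 0) (nat_lit 4204178107) (nat_lit 456) (nat_lit 12124665869) (nat_lit 76) (nat_lit 1508382243) (nat_lit 104) (nat_lit 5) (nat_lit 110) (nat_lit 5) (nat_lit 105) (nat_lit 5) (nat_lit 438) (nat_lit 421) (nat_lit 341)) (XT.lf (nat_lit 0) (nat_lit 6878352616) (nat_lit 456) (nat_lit 2302938702) (nat_lit 76) (nat_lit 9150397327) (nat_lit 104) (nat_lit 5) (nat_lit 110) (nat_lit 5) (nat_lit 105) (nat_lit 5) (nat_lit 439) (nat_lit 421) (nat_lit 340)))) (XT.nd (nat_lit 156) (nat_lit 532) (nat_lit 0) (XT.nd (nat_lit 78) (nat_lit 0) (nat_lit 0) (XT.lf (nat_lit 0) (nat_lit 8256625613) (nat_lit 304) (nat_lit 1542971129) (nat_lit 380) (nat_lit 9045614575) (nat_lit 100) (nat_lit 5) (nat_lit 104) (nat_lit 5) (nat_lit 105) (nat_lit 5) (nat_lit 440) (nat_lit 421) (nat_lit 339)) (XT.lf (nat_lit 0) (nat_lit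 12992561662) (nat_lit 380) (nat_lit 78062168) (nat_lit 76) (nat_lit 6307508282) (nat_lit 100) (nat_lit 5) (nat_lit 105) (nat_lit 5) (nat_lit 101) (nat_lit 5) (nat_lit 441) (nat_lit 421) (nat_lit 338))) (XT.nd (nat_lit 78) (nat_lit 228) (nat_lit 0) (XT.lf (nat_lit 0) (nat_lit 11276511275) (nat_lit 304) (nat_lit 5255625229) (nat_lit 380) (nat_lit 3396219048) (nat_lit 96) (nat_lit 5) (nat_lit 100) (nat_lit 5) (nat_lit 101) (nat_lit 5) (nat_lit 442) (nat_lit 421) (nat_lit 337)) (XT.lf (nat_lit 0) (nat_lit 2718958856) (nat_lit 228) (nat_lit 17605572312) (nat_lit 304) (nat_lit 177771405) (nat_lit 93) (nat_lit 5) (nat_lit 96) (nat_lit 5) (nat_lit 97) (nat_lit 5) (nat_lit 443) (nat_lit 421) (nat_lit 336))))) (XT.nd (nat_lit 234) (nat_lit 760) (nat_lit 0) (XT.nd (nat_lit 78) (nat_lit 304) (nat_lit 0) (XT.lf (nat_lit 0) (nat_lit 3320369003) (nat_lit 304) (nat_lit 6295154519) (nat_lit 76) (nat_lit 11475866099)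 (nat_lit 92) (nat_lit 5) (nat_lit 96) (nat_lit 5) (nat_lit 93) (nat_lit 5) (nat_lit 444) (nat_lit 421) (nat_lit 335)) (XT.nd (nat_lit 78) (nat_lit 0) (nat_lit 0) (XT.lf (nat_lit 0) (nat_lit 5937753486) (nat_lit 304) (nat_lit 1129211305) (nat_lit 380) (nat_lit 14638848240) (nat_lit 88) (nat_lit 5) (nat_lit 92) (nat_lit 5) (nat_lit 93) (nat_lit 5) (nat_lit 445) (nat_lit 421) (nat_lit 334)) (XT.lf (nat_lit 0) (nat_lit 11217867963) (nat_lit 380) (nat_lit 3485140262) (nat_lit 76) (nat_lit 7637104179) (nat_lit 88) (nat_lit 5) (nat_lit 93) (nat_lit 5) (nat_lit 89) (nat_lit 5) (nat_lit 446) (nat_lit 421) (nat_lit 333)))) (XT.nd (nat_lit 156) (nat_lit 532) (nat_lit 0) (XT.nd (nat_lit 78) (nat_lit 0) (nat_lit 0) (XT.lf (nat_lit 0) (nat_lit 9687142161) (nat_lit 228) (nat_lit 6046670806) (nat_lit 304) (nat_lit 7264442443) (nat_lit 85) (nat_lit 5) (nat_lit 88) (nat_lit 5) (nat_lit 89) (nat_lit 5) (nat_lit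 447) (nat_lit 421) (nat_lit 332)) (XT.lf (nat_lit 0) (nat_lit 20571057147) (nat_lit 304) (nat_lit 112380881) (nat_lit 76) (nat_lit 3001095772) (nat_lit 85) (nat_lit 5) (nat_lit 89) (nat_lit 5) (nat_lit 86) (nat_lit 5) (nat_lit 448) (nat_lit 421) (nat_lit 331))) (XT.nd (nat_lit 78) (nat_lit 228) (nat_lit 0) (XT.lf (nat_lit 0) (nat_lit 1517794931) (nat_lit 304) (nat_lit 10332156761) (nat_lit 76) (nat_lit 12538575190) (nat_lit 81) (nat_lit 5) (nat_lit 85) (nat_lit 5) (nat_lit 82) (nat_lit 5) (nat_lit 449) (nat_lit 421) (nat_lit 330)) (XT.lf (nat_lit 0) (nat_lit 3866595518) (nat_lit 228) (nat_lit 2460401061) (nat_lit 304) (nat_lit 18795623899) (nat_lit 78) (nat_lit 5) (nat_lit 81) (nat_lit 5) (nat_lit 82) (nat_lit 5) (nat_lit 450) (nat_lit 421) (nat_lit 329)))))) (XT.nd (nat_lit 546) (nat_lit 760) (nat_lit 0) (XT.nd (nat_lit 234) (nat_lit 608) (nat_lit 0) (XT.nd (nat_lit 78) (nat_lit 228) (nat_lit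 0) (XT.lf (nat_lit 0) (nat_lit 11658938037) (nat_lit 304) (nat_lit 6885204394) (nat_lit 76) (nat_lit 7335165078) (nat_lit 78) (nat_lit 5) (nat_lit 82) (nat_lit 5) (nat_lit 79) (nat_lit 5) (nat_lit 451) (nat_lit 421) (nat_lit 328)) (XT.nd (nat_lit 78) (nat_lit 0) (nat_lit 0) (XT.lf (nat_lit 0) (nat_lit 8417868669) (nat_lit 228) (nat_lit 9000814407) (nat_lit 304) (nat_lit 9247088101) (nat_lit 75) (nat_lit 5) (nat_lit 78) (nat_lit 5) (nat_lit 79) (nat_lit 5) (nat_lit 452) (nat_lit 421) (nat_lit 327)) (XT.lf (nat_lit 0) (nat_lit 23590487551) (nat_lit 304) (nat_lit 2793996988) (nat_lit 76) (nat_lit 1100872363) (nat_lit 75) (nat_lit 5) (nat_lit 79) (nat_lit 5) (nat_lit 76) (nat_lit 5) (nat_lit 453) (nat_lit 421) (nat_lit 326)))) (XT.nd (nat_lit 156) (nat_lit 152) (nat_lit 0) (XT.nd (nat_lit 78) (nat_lit 228) (nat_lit 0) (XT.lf (nat_lit 0) (nat_lit 2027234385) (nat_lit 228) (nat_lit 14652042957) (nat_lit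 76) (nat_lit 11647426077) (nat_lit 72) (nat_lit 5) (nat_lit 75) (nat_lit 5) (nat_lit 73) (nat_lit 5) (nat_lit 454) (nat_lit 421) (nat_lit 325)) (XT.lf (nat_lit 0) (nat_lit 1835195599) (nat_lit 228) (nat_lit 6346312499) (nat_lit 304) (nat_lit 21022070898) (nat_lit 69) (nat_lit 5) (nat_lit 72) (nat_lit 5) (nat_lit 73) (nat_lit 5) (nat_lit 455) (nat_lit 421) (nat_lit 324))) (XT.nd (nat_lit 78) (nat_lit 152) (nat_lit 0) (XT.lf (nat_lit 0) (nat_lit 14956380878) (nat_lit 304) (nat_lit 10545862217) (nat_lit 76) (nat_lit 4606413032) (nat_lit 69) (nat_lit 5) (nat_lit 73) (nat_lit 5) (nat_lit 70) (nat_lit 5) (nat_lit 456) (nat_lit 421) (nat_lit 323)) (XT.lf (nat_lit 0) (nat_lit 7230820658) (nat_lit 152) (nat_lit 15046935487) (nat_lit 228) (nat_lit 8770844975) (nat_lit 67) (nat_lit 5) (nat_lit 69) (nat_lit 5) (nat_lit 70) (nat_lit 5) (nat_lit 457) (nat_lit 421) (nat_lit 322))))) (XT.nd (nat_lit 312) (nat_lit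 380) (nat_lit 0) (XT.nd (nat_lit 156) (nat_lit 152) (nat_lit 0) (XT.nd (nat_lit 78) (nat_lit 228) (nat_lit 0) (XT.lf (nat_lit 0) (nat_lit 26248339909) (nat_lit 152) (nat_lit 3886503342) (nat_lit 228) (nat_lit 1892219813) (nat_lit 67) (nat_lit 5) (nat_lit 69) (nat_lit 5) (nat_lit 70) (nat_lit 5) (nat_lit 458) (nat_lit 421) (nat_lit 321)) (XT.lf (nat_lit 0) (nat_lit 5488810731) (nat_lit 228) (nat_lit 19669882027) (nat_lit 76) (nat_lit 7875142046) (nat_lit 64) (nat_lit 5) (nat_lit 67) (nat_lit 5) (nat_lit 65) (nat_lit 5) (nat_lit 459) (nat_lit 421) (nat_lit 320))) (XT.nd (nat_lit 78) (nat_lit 152) (nat_lit 0) (XT.lf (nat_lit 0) (nat_lit 13329936510) (nat_lit 228) (nat_lit 531869225) (nat_lit 76) (nat_lit 20219858262) (nat_lit 64) (nat_lit 5) (nat_lit 67) (nat_lit 5) (nat_lit 65) (nat_lit 5) (nat_lit 460) (nat_lit 421) (nat_lit 319)) (XT.lf (nat_lit 0) (nat_lit 20196243887) (nat_lit 152) (nat_lit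 1674053427) (nat_lit 228) (nat_lit 13296229925) (nat_lit 62) (nat_lit 5) (nat_lit 64) (nat_lit 5) (nat_lit 65) (nat_lit 5) (nat_lit 461) (nat_lit 421) (nat_lit 318)))) (XT.nd (nat_lit 156) (nat_lit 152) (nat_lit 0) (XT.nd (nat_lit 78) (nat_lit 76) (nat_lit 0) (XT.lf (nat_lit 0) (nat_lit 5668342947) (nat_lit 152) (nat_lit 25432614556) (nat_lit 228) (nat_lit 5191513528) (nat_lit 60) (nat_lit 5) (nat_lit 62) (nat_lit 5) (nat_lit 63) (nat_lit 5) (nat_lit 462) (nat_lit 421) (nat_lit 317)) (XT.lf (nat_lit 0) (nat_lit 3489369542) (nat_lit 228) (nat_lit 9700174964) (nat_lit 76) (nat_lit 24268721236) (nat_lit 59) (nat_lit 5) (nat_lit 62) (nat_lit 5) (nat_lit 60) (nat_lit 5) (nat_lit 463) (nat_lit 421) (nat_lit 316))) (XT.nd (nat_lit 78) (nat_lit 0) (nat_lit 0) (XT.lf (nat_lit 0) (nat_lit 12574606828) (nat_lit 152) (nat_lit 43939142) (nat_lit 228) (nat_lit 26050114231) (nat_lit 57) (nat_lit 5) (nat_lit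 59) (nat_lit 5) (nat_lit 60) (nat_lit 5) (nat_lit 464) (nat_lit 421) (nat_lit 315)) (XT.lf (nat_lit 0) (nat_lit 22578447760) (nat_lit 228) (nat_lit 3861790125) (nat_lit 76) (nat_lit 13480624365) (nat_lit 57) (nat_lit 5) (nat_lit 60) (nat_lit 5) (nat_lit 58) (nat_lit 5) (nat_lit 465) (nat_lit 421) (nat_lit 314))))))))
noncomputable def xc144 : XT := (XT.nd (nat_lit 2184) (nat_lit 1216) (nat_lit 0) (XT.nd (nat_lit 1092) (nat_lit 912) (nat_lit 0) (XT.nd (nat_lit 546) (nat_lit 608) (nat_lit 0) (XT.nd (nat_lit 234) (nat_lit 304) (nat_lit 0) (XT.nd (nat_lit 78) (nat_lit 228) (nat_lit 0) (XT.lf (nat_lit 0) (nat_lit 20112897930) (nat_lit 152) (nat_lit 13231024393) (nat_lit 228) (nat_lit 7876374335) (nat_lit 55) (nat_lit 5) (nat_lit 57) (nat_lit 5) (nat_lit 58) (nat_lit 5) (nat_lit 466) (nat_lit 421) (nat_lit 313)) (XT.nd (nat_lit 78) (nat_lit 0) (nat_lit 0) (XT.lf (nat_lit 0) (nat_lit 2113592529) (nat_lit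 228) (nat_lit 39704323739) (nat_lit 76) (nat_lit 759344486) (nat_lit 52) (nat_lit 5) (nat_lit 55) (nat_lit 5) (nat_lit 53) (nat_lit 5) (nat_lit 467) (nat_lit 421) (nat_lit 312)) (XT.lf (nat_lit 0) (nat_lit 12911534141) (nat_lit 228) (nat_lit 15563311012) (nat_lit 76) (nat_lit 15492114131) (nat_lit 52) (nat_lit 5) (nat_lit 55) (nat_lit 5) (nat_lit 53) (nat_lit 5) (nat_lit 468) (nat_lit 421) (nat_lit 311)))) (XT.nd (nat_lit 156) (nat_lit 152) (nat_lit 0) (XT.nd (nat_lit 78) (nat_lit 0) (nat_lit 0) (XT.lf (nat_lit 0) (nat_lit 10096160217) (nat_lit 152) (nat_lit 14304125890) (nat_lit 228) (nat_lit 21018311905) (nat_lit 50) (nat_lit 5) (nat_lit 52) (nat_lit 5) (nat_lit 53) (nat_lit 5) (nat_lit 469) (nat_lit 421) (nat_lit 310)) (XT.lf (nat_lit 0) (nat_lit 36733694081) (nat_lit 228) (nat_lit 9375807538) (nat_lit 76) (nat_lit 819807031) (nat_lit 50) (nat_lit 5) (nat_lit 53) (nat_lit 5) (nat_lit 51)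 (nat_lit 4) (nat_lit 470) (nat_lit 421) (nat_lit 309))) (XT.nd (nat_lit 78) (nat_lit 0) (nat_lit 0) (XT.lf (nat_lit 0) (nat_lit 1651615762) (nat_lit 152) (nat_lit 30311471361) (nat_lit 76) (nat_lit 16525517129) (nat_lit 48) (nat_lit 5) (nat_lit 50) (nat_lit 5) (nat_lit 49) (nat_lit 5) (nat_lit 471) (nat_lit 421) (nat_lit 308)) (XT.lf (nat_lit 0) (nat_lit 13903644441) (nat_lit 152) (nat_lit 2865704284) (nat_lit 76) (nat_lit 33340405799) (nat_lit 48) (nat_lit 5) (nat_lit 50) (nat_lit 5) (nat_lit 49) (nat_lit 5) (nat_lit 472) (nat_lit 421) (nat_lit 307))))) (XT.nd (nat_lit 234) (nat_lit 304) (nat_lit 0) (XT.nd (nat_lit 78) (nat_lit 152) (nat_lit 0) (XT.lf (nat_lit 0) (nat_lit 26799372904) (nat_lit 152) (nat_lit 381304953) (nat_lit 228) (nat_lit 24610665024) (nat_lit 46) (nat_lit 5) (nat_lit 48) (nat_lit 5) (nat_lit 49) (nat_lit 5) (nat_lit 473) (nat_lit 421) (nat_lit 306)) (XT.nd (nat_lit 78)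 (nat_lit 76) (nat_lit 0) (XT.lf (nat_lit 0) (nat_lit 4357814273) (nat_lit 76) (nat_lit 37137855884) (nat_lit 152) (nat_lit 12042635837) (nat_lit 45) (nat_lit 5) (nat_lit 46) (nat_lit 5) (nat_lit 47) (nat_lit 4) (nat_lit 474) (nat_lit 421) (nat_lit 305)) (XT.lf (nat_lit 0) (nat_lit 1547367254) (nat_lit 152) (nat_lit 19350703708) (nat_lit 76) (nat_lit 34452121183) (nat_lit 44) (nat_lit 5) (nat_lit 46) (nat_lit 5) (nat_lit 45) (nat_lit 5) (nat_lit 475) (nat_lit 421) (nat_lit 304)))) (XT.nd (nat_lit 156) (nat_lit 152) (nat_lit 0) (XT.nd (nat_lit 78) (nat_lit 0) (nat_lit 0) (XT.lf (nat_lit 0) (nat_lit 12151803143) (nat_lit 152) (nat_lit 3444422896) (nat_lit 228) (nat_lit 41637372801) (nat_lit 42) (nat_lit 5) (nat_lit 44) (nat_lit 5) (nat_lit 45) (nat_lit 5) (nat_lit 476) (nat_lit 421) (nat_lit 303)) (XT.lf (nat_lit 0) (nat_lit 30907345298) (nat_lit 228) (nat_lit 13541587221) (nat_lit 76) (nat_lit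 14734253047) (nat_lit 42) (nat_lit 5) (nat_lit 45) (nat_lit 5) (nat_lit 43) (nat_lit 4) (nat_lit 477) (nat_lit 421) (nat_lit 302))) (XT.nd (nat_lit 78) (nat_lit 76) (nat_lit 0) (XT.lf (nat_lit 0) (nat_lit 20154399554) (nat_lit 76) (nat_lit 27195404401) (nat_lit 152) (nat_lit 13862159052) (nat_lit 41) (nat_lit 5) (nat_lit 42) (nat_lit 5) (nat_lit 43) (nat_lit 4) (nat_lit 478) (nat_lit 421) (nat_lit 301)) (XT.lf (nat_lit 0) (nat_lit 1459248586) (nat_lit 152) (nat_lit 7358866948) (nat_lit 76) (nat_lit 54511683102) (nat_lit 40) (nat_lit 5) (nat_lit 42) (nat_lit 5) (nat_lit 41) (nat_lit 5) (nat_lit 479) (nat_lit 421) (nat_lit 300)))))) (XT.nd (nat_lit 546) (nat_lit 456) (nat_lit 0) (XT.nd (nat_lit 234) (nat_lit 228) (nat_lit 0) (XT.nd (nat_lit 78) (nat_lit 76) (nat_lit 0) (XT.lf (nat_lit 0) (nat_lit 17698581981) (nat_lit 228) (nat_lit 36987670264) (nat_lit 76) (nat_lit 10825026107) (nat_lit 38)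 (nat_lit 5) (nat_lit 41) (nat_lit 5) (nat_lit 39) (nat_lit 4) (nat_lit 480) (nat_lit 421) (nat_lit 299)) (XT.nd (nat_lit 78) (nat_lit 76) (nat_lit 0) (XT.lf (nat_lit 0) (nat_lit 35016063593) (nat_lit 228) (nat_lit 1495926677) (nat_lit 76) (nat_lit 31276533157) (nat_lit 38) (nat_lit 5) (nat_lit 41) (nat_lit 5) (nat_lit 39) (nat_lit 4) (nat_lit 481) (nat_lit 421) (nat_lit 298)) (XT.lf (nat_lit 0) (nat_lit 36943873303) (nat_lit 76) (nat_lit 16827536956) (nat_lit 152) (nat_lit 16379621379) (nat_lit 37) (nat_lit 5) (nat_lit 38) (nat_lit 5) (nat_lit 39) (nat_lit 4) (nat_lit 482) (nat_lit 421) (nat_lit 297)))) (XT.nd (nat_lit 156) (nat_lit 76) (nat_lit 0) (XT.nd (nat_lit 78) (nat_lit 0) (nat_lit 0) (XT.lf (nat_lit 0) (nat_lit 964827672) (nat_lit 152) (nat_lit 67827594698) (nat_lit 76) (nat_lit 3830661846) (nat_lit 35) (nat_lit 5) (nat_lit 37) (nat_lit 5) (nat_lit 36) (nat_lit 4) (nat_lit 483) (nat_lit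 421) (nat_lit 296)) (XT.lf (nat_lit 0) (nat_lit 19468729204) (nat_lit 152) (nat_lit 29902077983) (nat_lit 76) (nat_lit 25792372054) (nat_lit 35) (nat_lit 5) (nat_lit 37) (nat_lit 5) (nat_lit 36) (nat_lit 4) (nat_lit 484) (nat_lit 421) (nat_lit 295))) (XT.nd (nat_lit 78) (nat_lit 0) (nat_lit 0) (XT.lf (nat_lit 0) (nat_lit 10238844520) (nat_lit 76) (nat_lit 28814298180) (nat_lit 152) (nat_lit 38769370823) (nat_lit 34) (nat_lit 5) (nat_lit 35) (nat_lit 5) (nat_lit 36) (nat_lit 4) (nat_lit 485) (nat_lit 421) (nat_lit 294)) (XT.lf (nat_lit 0) (nat_lit 53416507098) (nat_lit 76) (nat_lit 6702220212) (nat_lit 152) (nat_lit 20470990025) (nat_lit 34) (nat_lit 5) (nat_lit 35) (nat_lit 5) (nat_lit 36) (nat_lit 4) (nat_lit 486) (nat_lit 421) (nat_lit 293))))) (XT.nd (nat_lit 234) (nat_lit 228) (nat_lit 0) (XT.nd (nat_lit 78) (nat_lit 152) (nat_lit 0) (XT.lf (nat_lit 0) (nat_lit 15487422974) (nat_lit 76)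 (nat_lit 67245520126) (nat_lit 76) (nat_lit 737570960) (nat_lit 33) (nat_lit 4) (nat_lit 34) (nat_lit 5) (nat_lit 34) (nat_lit 4) (nat_lit 487) (nat_lit 421) (nat_lit 292)) (XT.nd (nat_lit 78) (nat_lit 76) (nat_lit 0) (XT.lf (nat_lit 0) (nat_lit 19916268485) (nat_lit 152) (nat_lit 25685460663) (nat_lit 76) (nat_lit 40849356867) (nat_lit 32) (nat_lit 5) (nat_lit 34) (nat_lit 5) (nat_lit 33) (nat_lit 4) (nat_lit 488) (nat_lit 421) (nat_lit 291)) (XT.lf (nat_lit 0) (nat_lit 19325693058) (nat_lit 76) (nat_lit 22549959073) (nat_lit 152) (nat_lit 47689548173) (nat_lit 31) (nat_lit 5) (nat_lit 32) (nat_lit 5) (nat_lit 33) (nat_lit 4) (nat_lit 489) (nat_lit 421) (nat_lit 290)))) (XT.nd (nat_lit 156) (nat_lit 152) (nat_lit 0) (XT.nd (nat_lit 78) (nat_lit 76) (nat_lit 0) (XT.lf (nat_lit 0) (nat_lit 65396890218) (nat_lit 152) (nat_lit 25374913224) (nat_lit 0) (nat_lit 2040022866) (nat_lit 31) (nat_lit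 5) (nat_lit 33) (nat_lit 4) (nat_lit 31) (nat_lit 4) (nat_lit 490) (nat_lit 421) (nat_lit 289)) (XT.lf (nat_lit 0) (nat_lit 22061902978) (nat_lit 76) (nat_lit 68742529362) (nat_lit 76) (nat_lit 5380839417) (nat_lit 30) (nat_lit 4) (nat_lit 31) (nat_lit 5) (nat_lit 31) (nat_lit 4) (nat_lit 491) (nat_lit 421) (nat_lit 288))) (XT.nd (nat_lit 78) (nat_lit 76) (nat_lit 0) (XT.lf (nat_lit 0) (nat_lit 17619603732) (nat_lit 152) (nat_lit 27246095238) (nat_lit 76) (nat_lit 54826184935) (nat_lit 29) (nat_lit 5) (nat_lit 31) (nat_lit 5) (nat_lit 30) (nat_lit 4) (nat_lit 492) (nat_lit 421) (nat_lit 287)) (XT.lf (nat_lit 0) (nat_lit 22603166673) (nat_lit 76) (nat_lit 19335283959) (nat_lit 152) (nat_lit 61413505067) (nat_lit 28) (nat_lit 5) (nat_lit 29) (nat_lit 5) (nat_lit 30) (nat_lit 4) (nat_lit 493) (nat_lit 421) (nat_lit 286))))))) (XT.nd (nat_lit 1092) (nat_lit 532) (nat_lit 0) (XT.nd (nat_lit 546)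 (nat_lit 380) (nat_lit 0) (XT.nd (nat_lit 234) (nat_lit 152) (nat_lit 0) (XT.nd (nat_lit 78) (nat_lit 152) (nat_lit 0) (XT.lf (nat_lit 0) (nat_lit 68055211437) (nat_lit 152) (nat_lit 31412484181) (nat_lit 0) (nat_lit 7698237093) (nat_lit 28) (nat_lit 5) (nat_lit 30) (nat_lit 4) (nat_lit 28) (nat_lit 4) (nat_lit 494) (nat_lit 421) (nat_lit 285)) (XT.nd (nat_lit 78) (nat_lit 76) (nat_lit 0) (XT.lf (nat_lit 0) (nat_lit 20730383692) (nat_lit 76) (nat_lit 75384560673) (nat_lit 76) (nat_lit 15023807701) (nat_lit 27) (nat_lit 4) (nat_lit 28) (nat_lit 5) (nat_lit 28) (nat_lit 4) (nat_lit 495) (nat_lit 421) (nat_lit 284)) (XT.lf (nat_lit 0) (nat_lit 10476044366) (nat_lit 152) (nat_lit 38888460713) (nat_lit 76) (nat_lit 65910831535) (nat_lit 26) (nat_lit 5) (nat_lit 28) (nat_lit 5) (nat_lit 27) (nat_lit 4) (nat_lit 496) (nat_lit 421) (nat_lit 283)))) (XT.nd (nat_lit 156) (nat_lit 76) (nat_lit 0) (XT.nd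 (nat_lit 78) (nat_lit 0) (nat_lit 0) (XT.lf (nat_lit 0) (nat_lit 15449154774) (nat_lit 76) (nat_lit 21534715354) (nat_lit 152) (nat_lit 82610671855) (nat_lit 25) (nat_lit 5) (nat_lit 26) (nat_lit 5) (nat_lit 27) (nat_lit 4) (nat_lit 497) (nat_lit 421) (nat_lit 282)) (XT.lf (nat_lit 0) (nat_lit 65603173174) (nat_lit 152) (nat_lit 50380288672) (nat_lit 0) (nat_lit 8106941639) (nat_lit 25) (nat_lit 5) (nat_lit 27) (nat_lit 4) (nat_lit 25) (nat_lit 4) (nat_lit 498) (nat_lit 421) (nat_lit 281))) (XT.nd (nat_lit 78) (nat_lit 0) (nat_lit 0) (XT.lf (nat_lit 0) (nat_lit 5902795435) (nat_lit 76) (nat_lit 90192676714) (nat_lit 76) (nat_lit 32693484526) (nat_lit 24) (nat_lit 4) (nat_lit 25) (nat_lit 5) (nat_lit 25) (nat_lit 4) (nat_lit 499) (nat_lit 421) (nat_lit 280)) (XT.lf (nat_lit 0) (nat_lit 66743055532) (nat_lit 76) (nat_lit 62219444160) (nat_lit 76) (nat_lit 4717432301) (nat_lit 24) (nat_lit 4)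 (nat_lit 25) (nat_lit 5) (nat_lit 25) (nat_lit 4) (nat_lit 500) (nat_lit 421) (nat_lit 279))))) (XT.nd (nat_lit 234) (nat_lit 228) (nat_lit 0) (XT.nd (nat_lit 78) (nat_lit 76) (nat_lit 0) (XT.lf (nat_lit 0) (nat_lit 23865229189) (nat_lit 152) (nat_lit 8580977420) (nat_lit 76) (nat_lit 106350151118) (nat_lit 23) (nat_lit 5) (nat_lit 25) (nat_lit 5) (nat_lit 24) (nat_lit 4) (nat_lit 501) (nat_lit 421) (nat_lit 278)) (XT.nd (nat_lit 78) (nat_lit 0) (nat_lit 0) (XT.lf (nat_lit 0) (nat_lit 54349300057) (nat_lit 76) (nat_lit 214873034) (nat_lit 152) (nat_lit 89558280735) (nat_lit 22) (nat_lit 5) (nat_lit 23) (nat_lit 5) (nat_lit 24) (nat_lit 4) (nat_lit 502) (nat_lit 421) (nat_lit 277)) (XT.lf (nat_lit 0) (nat_lit 87467946387) (nat_lit 152) (nat_lit 29516601796) (nat_lit 0) (nat_lit 32696812559) (nat_lit 22) (nat_lit 5) (nat_lit 24) (nat_lit 4) (nat_lit 22) (nat_lit 4) (nat_lit 503) (nat_lit 421)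 (nat_lit 276)))) (XT.nd (nat_lit 156) (nat_lit 152) (nat_lit 0) (XT.nd (nat_lit 78) (nat_lit 0) (nat_lit 0) (XT.lf (nat_lit 0) (nat_lit 34859641801) (nat_lit 76) (nat_lit 87702330613) (nat_lit 76) (nat_lit 32928987500) (nat_lit 21) (nat_lit 4) (nat_lit 22) (nat_lit 5) (nat_lit 22) (nat_lit 4) (nat_lit 504) (nat_lit 421) (nat_lit 275)) (XT.lf (nat_lit 0) (nat_lit 103474193761) (nat_lit 76) (nat_lit 56433716043) (nat_lit 76) (nat_lit 1658268849) (nat_lit 21) (nat_lit 4) (nat_lit 22) (nat_lit 5) (nat_lit 22) (nat_lit 4) (nat_lit 505) (nat_lit 421) (nat_lit 274))) (XT.nd (nat_lit 78) (nat_lit 0) (nat_lit 0) (XT.lf (nat_lit 0) (nat_lit 7316660406) (nat_lit 76) (nat_lit 22973150074) (nat_lit 152) (nat_lit 137625428171) (nat_lit 19) (nat_lit 5) (nat_lit 20) (nat_lit 5) (nat_lit 21) (nat_lit 4) (nat_lit 506) (nat_lit 421) (nat_lit 273)) (XT.lf (nat_lit 0) (nat_lit 64966791362) (nat_lit 152) (nat_lit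 96758267084) (nat_lit 0) (nat_lit 12795972749) (nat_lit 19) (nat_lit 5) (nat_lit 21) (nat_lit 4) (nat_lit 19) (nat_lit 4) (nat_lit 507) (nat_lit 421) (nat_lit 272)))))) (XT.nd (nat_lit 546) (nat_lit 228) (nat_lit 0) (XT.nd (nat_lit 234) (nat_lit 228) (nat_lit 0) (XT.nd (nat_lit 78) (nat_lit 76) (nat_lit 0) (XT.lf (nat_lit 0) (nat_lit 101751776663) (nat_lit 152) (nat_lit 30107402007) (nat_lit 0) (nat_lit 49579227016) (nat_lit 19) (nat_lit 5) (nat_lit 21) (nat_lit 4) (nat_lit 19) (nat_lit 4) (nat_lit 508) (nat_lit 421) (nat_lit 271)) (XT.nd (nat_lit 78) (nat_lit 0) (nat_lit 0) (XT.lf (nat_lit 0) (nat_lit 41189712818) (nat_lit 76) (nat_lit 99827048458) (nat_lit 76) (nat_lit 47652850209) (nat_lit 18) (nat_lit 4) (nat_lit 19) (nat_lit 5) (nat_lit 19) (nat_lit 4) (nat_lit 509) (nat_lit 421) (nat_lit 270)) (XT.lf (nat_lit 0) (nat_lit 117092397390) (nat_lit 76) (nat_lit 65660184633) (nat_lit 76) (nat_lit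 13484416286) (nat_lit 18) (nat_lit 4) (nat_lit 19) (nat_lit 5) (nat_lit 19) (nat_lit 4) (nat_lit 510) (nat_lit 421) (nat_lit 269)))) (XT.nd (nat_lit 156) (nat_lit 76) (nat_lit 0) (XT.nd (nat_lit 78) (nat_lit 76) (nat_lit 0) (XT.lf (nat_lit 0) (nat_lit 21673518339) (nat_lit 152) (nat_lit 7746551082) (nat_lit 76) (nat_lit 174745315848) (nat_lit 17) (nat_lit 5) (nat_lit 19) (nat_lit 5) (nat_lit 18) (nat_lit 4) (nat_lit 511) (nat_lit 421) (nat_lit 268)) (XT.lf (nat_lit 0) (nat_lit 59370727169) (nat_lit 152) (nat_lit 143369945778) (nat_lit 0) (nat_lit 9676738785) (nat_lit 16) (nat_lit 5) (nat_lit 18) (nat_lit 4) (nat_lit 16) (nat_lit 4) (nat_lit 512) (nat_lit 421) (nat_lit 267))) (XT.nd (nat_lit 78) (nat_lit 76) (nat_lit 0) (XT.lf (nat_lit 0) (nat_lit 99566322154) (nat_lit 152) (nat_lit 71613999098) (nat_lit 0) (nat_lit 49871042047) (nat_lit 16) (nat_lit 5) (nat_lit 18) (nat_lit 4) (nat_lit 16)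 (nat_lit 4) (nat_lit 513) (nat_lit 421) (nat_lit 266)) (XT.lf (nat_lit 0) (nat_lit 3848935986) (nat_lit 76) (nat_lit 137980841409) (nat_lit 76) (nat_lit 88284331089) (nat_lit 15) (nat_lit 4) (nat_lit 16) (nat_lit 5) (nat_lit 16) (nat_lit 4) (nat_lit 514) (nat_lit 421) (nat_lit 265))))) (XT.nd (nat_lit 234) (nat_lit 76) (nat_lit 0) (XT.nd (nat_lit 78) (nat_lit 152) (nat_lit 0) (XT.lf (nat_lit 0) (nat_lit 85567359746) (nat_lit 76) (nat_lit 101849885598) (nat_lit 76) (nat_lit 52152203647) (nat_lit 15) (nat_lit 4) (nat_lit 16) (nat_lit 5) (nat_lit 16) (nat_lit 4) (nat_lit 515) (nat_lit 421) (nat_lit 264)) (XT.nd (nat_lit 78) (nat_lit 152) (nat_lit 0) (XT.lf (nat_lit 0) (nat_lit 171367957630) (nat_lit 76) (nat_lit 63914245461) (nat_lit 76) (nat_lit 14215447671) (nat_lit 15) (nat_lit 4) (nat_lit 16) (nat_lit 5) (nat_lit 16) (nat_lit 4) (nat_lit 516) (nat_lit 421) (nat_lit 263)) (XT.lf (nat_lit 0)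 (nat_lit 1170175684) (nat_lit 76) (nat_lit 23644476109) (nat_lit 152) (nat_lit 235086790009) (nat_lit 13) (nat_lit 5) (nat_lit 14) (nat_lit 5) (nat_lit 15) (nat_lit 4) (nat_lit 517) (nat_lit 421) (nat_lit 262)))) (XT.nd (nat_lit 156) (nat_lit 76) (nat_lit 0) (XT.nd (nat_lit 78) (nat_lit 0) (nat_lit 0) (XT.lf (nat_lit 0) (nat_lit 66952562920) (nat_lit 152) (nat_lit 184161107027) (nat_lit 0) (nat_lit 19618398546) (nat_lit 13) (nat_lit 5) (nat_lit 15) (nat_lit 4) (nat_lit 13) (nat_lit 4) (nat_lit 518) (nat_lit 421) (nat_lit 261)) (XT.lf (nat_lit 0) (nat_lit 111583250588) (nat_lit 152) (nat_lit 106253513719) (nat_lit 0) (nat_lit 64248168209) (nat_lit 13) (nat_lit 5) (nat_lit 15) (nat_lit 4) (nat_lit 13) (nat_lit 4) (nat_lit 519) (nat_lit 421) (nat_lit 260))) (XT.nd (nat_lit 78) (nat_lit 76) (nat_lit 0) (XT.lf (nat_lit 0) (nat_lit 158443821803) (nat_lit 152) (nat_lit 24453835391) (nat_lit 0) (nat_lit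 111107865135) (nat_lit 13) (nat_lit 5) (nat_lit 15) (nat_lit 4) (nat_lit 13) (nat_lit 4) (nat_lit 520) (nat_lit 421) (nat_lit 259)) (XT.lf (nat_lit 0) (nat_lit 63463931237) (nat_lit 76) (nat_lit 145172767941) (nat_lit 76) (nat_lit 97835978617) (nat_lit 12) (nat_lit 4) (nat_lit 13) (nat_lit 5) (nat_lit 13) (nat_lit 4) (nat_lit 521) (nat_lit 421) (nat_lit 258))))))))
noncomputable def xc145 : XT := (XT.nd (nat_lit 55224) (nat_lit 0) (nat_lit 4788) (XT.nd (nat_lit 1092) (nat_lit 76) (nat_lit 0) (XT.nd (nat_lit 546) (nat_lit 152) (nat_lit 0) (XT.nd (nat_lit 234) (nat_lit 76) (nat_lit 0) (XT.nd (nat_lit 78) (nat_lit 152) (nat_lit 0) (XT.lf (nat_lit 0) (nat_lit 156623480995) (nat_lit 76) (nat_lit 105128331405) (nat_lit 76) (nat_lit 57790749075) (nat_lit 12) (nat_lit 4) (nat_lit 13) (nat_lit 5) (nat_lit 13) (nat_lit 4) (nat_lit 522) (nat_lit 421) (nat_lit 257)) (XT.nd (nat_lit 78) (nat_lit 152) (nat_lit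 0) (XT.lf (nat_lit 0) (nat_lit 254438068101) (nat_lit 76) (nat_lit 63083141225) (nat_lit 76) (nat_lit 15744803651) (nat_lit 12) (nat_lit 4) (nat_lit 13) (nat_lit 5) (nat_lit 13) (nat_lit 4) (nat_lit 523) (nat_lit 421) (nat_lit 256)) (XT.lf (nat_lit 0) (nat_lit 9319732585) (nat_lit 76) (nat_lit 18318701287) (nat_lit 152) (nat_lit 320007826242) (nat_lit 10) (nat_lit 5) (nat_lit 11) (nat_lit 5) (nat_lit 12) (nat_lit 4) (nat_lit 524) (nat_lit 421) (nat_lit 255)))) (XT.nd (nat_lit 156) (nat_lit 76) (nat_lit 0) (XT.nd (nat_lit 78) (nat_lit 0) (nat_lit 0) (XT.lf (nat_lit 0) (nat_lit 74464993464) (nat_lit 152) (nat_lit 258797931152) (nat_lit 0) (nat_lit 29379525005) (nat_lit 10) (nat_lit 5) (nat_lit 12) (nat_lit 4) (nat_lit 10) (nat_lit 4) (nat_lit 525) (nat_lit 421) (nat_lit 254)) (XT.lf (nat_lit 0) (nat_lit 123931832724) (nat_lit 152) (nat_lit 175595925405) (nat_lit 0) (nat_lit 78845742924) (nat_lit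 10) (nat_lit 5) (nat_lit 12) (nat_lit 4) (nat_lit 10) (nat_lit 4) (nat_lit 526) (nat_lit 421) (nat_lit 253))) (XT.nd (nat_lit 78) (nat_lit 76) (nat_lit 0) (XT.lf (nat_lit 0) (nat_lit 175870723575) (nat_lit 152) (nat_lit 88236404009) (nat_lit 0) (nat_lit 130784042021) (nat_lit 10) (nat_lit 5) (nat_lit 12) (nat_lit 4) (nat_lit 10) (nat_lit 4) (nat_lit 527) (nat_lit 421) (nat_lit 252)) (XT.lf (nat_lit 0) (nat_lit 3603981821) (nat_lit 76) (nat_lit 226857616478) (nat_lit 76) (nat_lit 181770371349) (nat_lit 9) (nat_lit 4) (nat_lit 10) (nat_lit 5) (nat_lit 10) (nat_lit 4) (nat_lit 528) (nat_lit 421) (nat_lit 251))))) (XT.nd (nat_lit 234) (nat_lit 152) (nat_lit 0) (XT.nd (nat_lit 78) (nat_lit 0) (nat_lit 0) (XT.lf (nat_lit 0) (nat_lit 103097333789) (nat_lit 76) (nat_lit 186177800949) (nat_lit 76) (nat_lit 141090019083) (nat_lit 9) (nat_lit 4) (nat_lit 10) (nat_lit 5) (nat_lit 10) (nat_lit 4) (nat_lit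 529) (nat_lit 421) (nat_lit 250)) (XT.nd (nat_lit 78) (nat_lit 0) (nat_lit 0) (XT.lf (nat_lit 0) (nat_lit 207563046825) (nat_lit 76) (nat_lit 143465150492) (nat_lit 76) (nat_lit 98376857447) (nat_lit 9) (nat_lit 4) (nat_lit 10) (nat_lit 5) (nat_lit 10) (nat_lit 4) (nat_lit 530) (nat_lit 421) (nat_lit 249)) (XT.lf (nat_lit 0) (nat_lit 317249848816) (nat_lit 76) (nat_lit 98617968320) (nat_lit 76) (nat_lit 53529188438) (nat_lit 9) (nat_lit 4) (nat_lit 10) (nat_lit 5) (nat_lit 10) (nat_lit 4) (nat_lit 531) (nat_lit 421) (nat_lit 248)))) (XT.nd (nat_lit 156) (nat_lit 0) (nat_lit 0) (XT.nd (nat_lit 78) (nat_lit 152) (nat_lit 0) (XT.lf (nat_lit 0) (nat_lit 432418898815) (nat_lit 76) (nat_lit 51529475427) (nat_lit 76) (nat_lit 6440231892) (nat_lit 9) (nat_lit 4) (nat_lit 10) (nat_lit 5) (nat_lit 10) (nat_lit 4) (nat_lit 532) (nat_lit 421) (nat_lit 247)) (XT.lf (nat_lit 0) (nat_lit 41573810216) (nat_lit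 76) (nat_lit 701065553) (nat_lit 152) (nat_lit 470088937305) (nat_lit 7) (nat_lit 5) (nat_lit 8) (nat_lit 5) (nat_lit 9) (nat_lit 4) (nat_lit 533) (nat_lit 421) (nat_lit 246))) (XT.nd (nat_lit 78) (nat_lit 0) (nat_lit 0) (XT.lf (nat_lit 0) (nat_lit 95028442098) (nat_lit 152) (nat_lit 388227618213) (nat_lit 0) (nat_lit 52085484327) (nat_lit 7) (nat_lit 5) (nat_lit 9) (nat_lit 4) (nat_lit 7) (nat_lit 4) (nat_lit 534) (nat_lit 421) (nat_lit 245)) (XT.lf (nat_lit 0) (nat_lit 150430218724) (nat_lit 152) (nat_lit 301550537971) (nat_lit 0) (nat_lit 107486879504) (nat_lit 7) (nat_lit 5) (nat_lit 9) (nat_lit 4) (nat_lit 7) (nat_lit 4) (nat_lit 535) (nat_lit 421) (nat_lit 244)))))) (XT.nd (nat_lit 53586) (nat_lit 0) (nat_lit 9196) (XT.nd (nat_lit 234) (nat_lit 76) (nat_lit 0) (XT.nd (nat_lit 78) (nat_lit 0) (nat_lit 0) (XT.lf (nat_lit 0) (nat_lit 208601169043) (nat_lit 152) (nat_lit 210541442535) (nat_lit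 0) (nat_lit 165657466538) (nat_lit 7) (nat_lit 5) (nat_lit 9) (nat_lit 4) (nat_lit 7) (nat_lit 4) (nat_lit 536) (nat_lit 421) (nat_lit 243)) (XT.nd (nat_lit 78) (nat_lit 0) (nat_lit 0) (XT.lf (nat_lit 0) (nat_lit 269679795317) (nat_lit 152) (nat_lit 114983643582) (nat_lit 0) (nat_lit 226735746825) (nat_lit 7) (nat_lit 5) (nat_lit 9) (nat_lit 4) (nat_lit 7) (nat_lit 4) (nat_lit 537) (nat_lit 421) (nat_lit 242)) (XT.lf (nat_lit 0) (nat_lit 333811522845) (nat_lit 152) (nat_lit 14649622544) (nat_lit 0) (nat_lit 290867144843) (nat_lit 7) (nat_lit 5) (nat_lit 9) (nat_lit 4) (nat_lit 7) (nat_lit 4) (nat_lit 538) (nat_lit 421) (nat_lit 241)))) (XT.nd (nat_lit 156) (nat_lit 0) (nat_lit 0) (XT.nd (nat_lit 78) (nat_lit 0) (nat_lit 0) (XT.lf (nat_lit 0) (nat_lit 93698446554) (nat_lit 76) (nat_lit 308913495005) (nat_lit 76) (nat_lit 265968803184) (nat_lit 6) (nat_lit 4) (nat_lit 7) (nat_lit 5) (nat_lit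 7) (nat_lit 4) (nat_lit 539) (nat_lit 421) (nat_lit 240)) (XT.lf (nat_lit 0) (nat_lit 207970958102) (nat_lit 76) (nat_lit 267128744265) (nat_lit 76) (nat_lit 224183753568) (nat_lit 6) (nat_lit 4) (nat_lit 7) (nat_lit 5) (nat_lit 7) (nat_lit 4) (nat_lit 540) (nat_lit 421) (nat_lit 239))) (XT.nd (nat_lit 78) (nat_lit 0) (nat_lit 0) (XT.lf (nat_lit 0) (nat_lit 327955606828) (nat_lit 76) (nat_lit 223255504114) (nat_lit 76) (nat_lit 180310228774) (nat_lit 6) (nat_lit 4) (nat_lit 7) (nat_lit 5) (nat_lit 7) (nat_lit 4) (nat_lit 541) (nat_lit 421) (nat_lit 238)) (XT.lf (nat_lit 0) (nat_lit 453938070467) (nat_lit 76) (nat_lit 177189314457) (nat_lit 76) (nat_lit 134243768028) (nat_lit 6) (nat_lit 4) (nat_lit 7) (nat_lit 5) (nat_lit 7) (nat_lit 4) (nat_lit 542) (nat_lit 421) (nat_lit 237))))) (XT.nd (nat_lit 234) (nat_lit 684) (nat_lit 0) (XT.nd (nat_lit 78) (nat_lit 0) (nat_lit 0) (XT.lf (nat_lit 0)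 (nat_lit 2466541786) (nat_lit 0) (nat_lit 2466541786) (nat_lit 684) (nat_lit 1167453254) (nat_lit 136) (nat_lit 5) (nat_lit 136) (nat_lit 3) (nat_lit 145) (nat_lit 3) (nat_lit 422) (nat_lit 422) (nat_lit 356)) (XT.nd (nat_lit 78) (nat_lit 0) (nat_lit 0) (XT.lf (nat_lit 0) (nat_lit 10568296823) (nat_lit 684) (nat_lit 1291618917) (nat_lit 760) (nat_lit 623225956) (nat_lit 136) (nat_lit 5) (nat_lit 145) (nat_lit 3) (nat_lit 146) (nat_lit 5) (nat_lit 423) (nat_lit 422) (nat_lit 355)) (XT.lf (nat_lit 76) (nat_lit 5048363347) (nat_lit 0) (nat_lit 6388568876) (nat_lit 760) (nat_lit 1335822799) (nat_lit 137) (nat_lit 5) (nat_lit 136) (nat_lit 5) (nat_lit 146) (nat_lit 5) (nat_lit 424) (nat_lit 422) (nat_lit 354)))) (XT.nd (nat_lit 156) (nat_lit 0) (nat_lit 0) (XT.nd (nat_lit 78) (nat_lit 684) (nat_lit 0) (XT.lf (nat_lit 76) (nat_lit 11734527142) (nat_lit 0) (nat_lit 609159015) (nat_lit 760) (nat_lit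 733439800) (nat_lit 137) (nat_lit 5) (nat_lit 136) (nat_lit 5) (nat_lit 146) (nat_lit 5) (nat_lit 425) (nat_lit 422) (nat_lit 353)) (XT.lf (nat_lit 0) (nat_lit 48945303) (nat_lit 760) (nat_lit 7959832696) (nat_lit 836) (nat_lit 5380693851) (nat_lit 127) (nat_lit 5) (nat_lit 137) (nat_lit 5) (nat_lit 138) (nat_lit 5) (nat_lit 426) (nat_lit 422) (nat_lit 352))) (XT.nd (nat_lit 78) (nat_lit 0) (nat_lit 76) (XT.lf (nat_lit 0) (nat_lit 853733852) (nat_lit 760) (nat_lit 1168547879) (nat_lit 836) (nat_lit 11694165240) (nat_lit 127) (nat_lit 5) (nat_lit 137) (nat_lit 5) (nat_lit 138) (nat_lit 5) (nat_lit 427) (nat_lit 422) (nat_lit 351)) (XT.lf (nat_lit 0) (nat_lit 1838961552) (nat_lit 760) (nat_lit 7981695740) (nat_lit 836) (nat_lit 4232112851) (nat_lit 128) (nat_lit 5) (nat_lit 138) (nat_lit 5) (nat_lit 139) (nat_lit 5) (nat_lit 428) (nat_lit 422) (nat_lit 350))))))) (XT.nd (nat_lit 1092) (nat_lit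 2052) (nat_lit 0) (XT.nd (nat_lit 546) (nat_lit 1444) (nat_lit 0) (XT.nd (nat_lit 234) (nat_lit 988) (nat_lit 0) (XT.nd (nat_lit 78) (nat_lit 0) (nat_lit 76) (XT.lf (nat_lit 0) (nat_lit 2903756464) (nat_lit 760) (nat_lit 742323405) (nat_lit 836) (nat_lit 10758323151) (nat_lit 128) (nat_lit 5) (nat_lit 138) (nat_lit 5) (nat_lit 139) (nat_lit 5) (nat_lit 429) (nat_lit 422) (nat_lit 349)) (XT.nd (nat_lit 78) (nat_lit 0) (nat_lit 0) (XT.lf (nat_lit 0) (nat_lit 4156481682) (nat_lit 760) (nat_lit 7746482765) (nat_lit 836) (nat_lit 2863926983) (nat_lit 129) (nat_lit 5) (nat_lit 139) (nat_lit 5) (nat_lit 140) (nat_lit 5) (nat_lit 430) (nat_lit 422) (nat_lit 348)) (XT.lf (nat_lit 0) (nat_lit 5523393225) (nat_lit 760) (nat_lit 27036518) (nat_lit 836) (nat_lit 9594505031) (nat_lit 129) (nat_lit 5) (nat_lit 139) (nat_lit 5) (nat_lit 140) (nat_lit 5) (nat_lit 431) (nat_lit 422) (nat_lit 347)))) (XT.nd (nat_lit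 156) (nat_lit 380) (nat_lit 0) (XT.nd (nat_lit 78) (nat_lit 760) (nat_lit 0) (XT.lf (nat_lit 0) (nat_lit 7088352504) (nat_lit 760) (nat_lit 7227520446) (nat_lit 76) (nat_lit 1219529862) (nat_lit 130) (nat_lit 5) (nat_lit 140) (nat_lit 5) (nat_lit 131) (nat_lit 5) (nat_lit 432) (nat_lit 422) (nat_lit 346)) (XT.lf (nat_lit 0) (nat_lit 1040242327) (nat_lit 760) (nat_lit 7779764567) (nat_lit 836) (nat_lit 7120972271) (nat_lit 120) (nat_lit 5) (nat_lit 130) (nat_lit 5) (nat_lit 131) (nat_lit 5) (nat_lit 433) (nat_lit 422) (nat_lit 345))) (XT.nd (nat_lit 78) (nat_lit 380) (nat_lit 0) (XT.lf (nat_lit 0) (nat_lit 9955425088) (nat_lit 760) (nat_lit 786623431) (nat_lit 836) (nat_lit 5619602516) (nat_lit 120) (nat_lit 5) (nat_lit 130) (nat_lit 5) (nat_lit 131) (nat_lit 5) (nat_lit 434) (nat_lit 422) (nat_lit 344)) (XT.lf (nat_lit 0) (nat_lit 2472790438) (nat_lit 380) (nat_lit 10410683134) (nat_lit 456)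 (nat_lit 3913725454) (nat_lit 115) (nat_lit 5) (nat_lit 120) (nat_lit 5) (nat_lit 121) (nat_lit 5) (nat_lit 435) (nat_lit 422) (nat_lit 343))))) (XT.nd (nat_lit 234) (nat_lit 988) (nat_lit 0) (XT.nd (nat_lit 78) (nat_lit 456) (nat_lit 0) (XT.lf (nat_lit 0) (nat_lit 11988115239) (nat_lit 380) (nat_lit 3247929535) (nat_lit 456) (nat_lit 2013282180) (nat_lit 115) (nat_lit 5) (nat_lit 120) (nat_lit 5) (nat_lit 121) (nat_lit 5) (nat_lit 436) (nat_lit 422) (nat_lit 342)) (XT.nd (nat_lit 78) (nat_lit 0) (nat_lit 0) (XT.lf (nat_lit 0) (nat_lit 102390369) (nat_lit 456) (nat_lit 13410226310) (nat_lit 76) (nat_lit 4205482360) (nat_lit 109) (nat_lit 5) (nat_lit 115) (nat_lit 5) (nat_lit 110) (nat_lit 5) (nat_lit 437) (nat_lit 422) (nat_lit 341)) (XT.lf (nat_lit 0) (nat_lit 2383962682) (nat_lit 456) (nat_lit 3772520757) (nat_lit 76) (nat_lit 12045792704) (nat_lit 109) (nat_lit 5) (nat_lit 115) (nat_lit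 5) (nat_lit 110) (nat_lit 5) (nat_lit 438) (nat_lit 422) (nat_lit 340)))) (XT.nd (nat_lit 156) (nat_lit 608) (nat_lit 0) (XT.nd (nat_lit 78) (nat_lit 0) (nat_lit 0) (XT.lf (nat_lit 0) (nat_lit 4892588153) (nat_lit 456) (nat_lit 12192274037) (nat_lit 76) (nat_lit 1620156353) (nat_lit 104) (nat_lit 5) (nat_lit 110) (nat_lit 5) (nat_lit 105) (nat_lit 5) (nat_lit 439) (nat_lit 422) (nat_lit 339)) (XT.lf (nat_lit 0) (nat_lit 7677699905) (nat_lit 456) (nat_lit 1905109327) (nat_lit 76) (nat_lit 9642541000) (nat_lit 104) (nat_lit 5) (nat_lit 110) (nat_lit 5) (nat_lit 105) (nat_lit 5) (nat_lit 440) (nat_lit 422) (nat_lit 338))) (XT.nd (nat_lit 78) (nat_lit 304) (nat_lit 0) (XT.lf (nat_lit 0) (nat_lit 9174159392) (nat_lit 304) (nat_lit 1557039539) (nat_lit 380) (nat_lit 9034047679) (nat_lit 100) (nat_lit 5) (nat_lit 104) (nat_lit 5) (nat_lit 105) (nat_lit 5) (nat_lit 441) (nat_lit 422) (nat_lit 337))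 (XT.lf (nat_lit 0) (nat_lit 432784542) (nat_lit 304) (nat_lit 13637692859) (nat_lit 380) (nat_lit 6255009645) (nat_lit 96) (nat_lit 5) (nat_lit 100) (nat_lit 5) (nat_lit 101) (nat_lit 5) (nat_lit 442) (nat_lit 422) (nat_lit 336)))))) (XT.nd (nat_lit 546) (nat_lit 988) (nat_lit 0) (XT.nd (nat_lit 234) (nat_lit 760) (nat_lit 0) (XT.nd (nat_lit 78) (nat_lit 304) (nat_lit 0) (XT.lf (nat_lit 0) (nat_lit 12333155850) (nat_lit 304) (nat_lit 5434739552) (nat_lit 380) (nat_lit 3136289572) (nat_lit 96) (nat_lit 5) (nat_lit 100) (nat_lit 5) (nat_lit 101) (nat_lit 5) (nat_lit 443) (nat_lit 422) (nat_lit 335)) (XT.nd (nat_lit 78) (nat_lit 0) (nat_lit 0) (XT.lf (nat_lit 0) (nat_lit 224751300) (nat_lit 304) (nat_lit 18152231047) (nat_lit 76) (nat_lit 3130190623) (nat_lit 92) (nat_lit 5) (nat_lit 96) (nat_lit 5) (nat_lit 93) (nat_lit 5) (nat_lit 444) (nat_lit 422) (nat_lit 334)) (XT.lf (nat_lit 0) (nat_lit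 3872517921) (nat_lit 304) (nat_lit 6117183129) (nat_lit 76) (nat_lit 12136838579) (nat_lit 92) (nat_lit 5) (nat_lit 96) (nat_lit 5) (nat_lit 93) (nat_lit 5) (nat_lit 445) (nat_lit 422) (nat_lit 333)))) (XT.nd (nat_lit 156) (nat_lit 456) (nat_lit 0) (XT.nd (nat_lit 78) (nat_lit 0) (nat_lit 0) (XT.lf (nat_lit 0) (nat_lit 6719423032) (nat_lit 304) (nat_lit 1076202105) (nat_lit 380) (nat_lit 14976605370) (nat_lit 88) (nat_lit 5) (nat_lit 92) (nat_lit 5) (nat_lit 93) (nat_lit 5) (nat_lit 446) (nat_lit 422) (nat_lit 332)) (XT.lf (nat_lit 0) (nat_lit 12137829205) (nat_lit 380) (nat_lit 3181353545) (nat_lit 76) (nat_lit 8119879435) (nat_lit 88) (nat_lit 5) (nat_lit 93) (nat_lit 5) (nat_lit 89) (nat_lit 5) (nat_lit 447) (nat_lit 422) (nat_lit 331))) (XT.nd (nat_lit 78) (nat_lit 228) (nat_lit 0) (XT.lf (nat_lit 0) (nat_lit 10641832617) (nat_lit 228) (nat_lit 6227983595) (nat_lit 304) (nat_lit 7260788769)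 (nat_lit 85) (nat_lit 5) (nat_lit 88) (nat_lit 5) (nat_lit 89) (nat_lit 5) (nat_lit 448) (nat_lit 422) (nat_lit 330)) (XT.lf (nat_lit 0) (nat_lit 356266713) (nat_lit 228) (nat_lit 21583383775) (nat_lit 304) (nat_lit 2912015055) (nat_lit 82) (nat_lit 5) (nat_lit 85) (nat_lit 5) (nat_lit 86) (nat_lit 5) (nat_lit 449) (nat_lit 422) (nat_lit 329))))) (XT.nd (nat_lit 312) (nat_lit 456) (nat_lit 0) (XT.nd (nat_lit 156) (nat_lit 228) (nat_lit 0) (XT.nd (nat_lit 78) (nat_lit 228) (nat_lit 0) (XT.lf (nat_lit 0) (nat_lit 1924769718) (nat_lit 304) (nat_lit 10382334815) (nat_lit 76) (nat_lit 13284210158) (nat_lit 81) (nat_lit 5) (nat_lit 85) (nat_lit 5) (nat_lit 82) (nat_lit 5) (nat_lit 450) (nat_lit 422) (nat_lit 328)) (XT.lf (nat_lit 0) (nat_lit 4518832017) (nat_lit 228) (nat_lit 2446998297) (nat_lit 304) (nat_lit 19396716723) (nat_lit 78) (nat_lit 5) (nat_lit 81) (nat_lit 5) (nat_lit 82) (nat_lit 5)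 (nat_lit 451) (nat_lit 422) (nat_lit 327))) (XT.nd (nat_lit 78) (nat_lit 228) (nat_lit 0) (XT.lf (nat_lit 0) (nat_lit 12551040984) (nat_lit 304) (nat_lit 6779006284) (nat_lit 76) (nat_lit 7827691366) (nat_lit 78) (nat_lit 5) (nat_lit 82) (nat_lit 5) (nat_lit 79) (nat_lit 5) (nat_lit 452) (nat_lit 422) (nat_lit 326)) (XT.lf (nat_lit 0) (nat_lit 9281954975) (nat_lit 228) (nat_lit 9309016066) (nat_lit 304) (nat_lit 9392948195) (nat_lit 75) (nat_lit 5) (nat_lit 78) (nat_lit 5) (nat_lit 79) (nat_lit 5) (nat_lit 453) (nat_lit 422) (nat_lit 325)))) (XT.nd (nat_lit 156) (nat_lit 228) (nat_lit 0) (XT.nd (nat_lit 78) (nat_lit 228) (nat_lit 0) (XT.lf (nat_lit 0) (nat_lit 25059124612) (nat_lit 304) (nat_lit 2499297918) (nat_lit 76) (nat_lit 1286677243) (nat_lit 75) (nat_lit 5) (nat_lit 79) (nat_lit 5) (nat_lit 76) (nat_lit 5) (nat_lit 454) (nat_lit 422) (nat_lit 324)) (XT.lf (nat_lit 0) (nat_lit 2415301486)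 (nat_lit 228) (nat_lit 14947709951) (nat_lit 76) (nat_lit 12365628991) (nat_lit 72) (nat_lit 5) (nat_lit 75) (nat_lit 5) (nat_lit 73) (nat_lit 5) (nat_lit 455) (nat_lit 422) (nat_lit 323))) (XT.nd (nat_lit 78) (nat_lit 0) (nat_lit 0) (XT.lf (nat_lit 0) (nat_lit 2356843192) (nat_lit 228) (nat_lit 6513504808) (nat_lit 304) (nat_lit 21779361822) (nat_lit 69) (nat_lit 5) (nat_lit 72) (nat_lit 5) (nat_lit 73) (nat_lit 5) (nat_lit 456) (nat_lit 422) (nat_lit 322)) (XT.lf (nat_lit 0) (nat_lit 15972874535) (nat_lit 304) (nat_lit 10652591431) (nat_lit 76) (nat_lit 4975132190) (nat_lit 69) (nat_lit 5) (nat_lit 73) (nat_lit 5) (nat_lit 70) (nat_lit 5) (nat_lit 457) (nat_lit 422) (nat_lit 321))))))))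
noncomputable def xc146 : XT := (XT.nd (nat_lit 2184) (nat_lit 1444) (nat_lit 0) (XT.nd (nat_lit 1092) (nat_lit 1140) (nat_lit 0) (XT.nd (nat_lit 546) (nat_lit 684) (nat_lit 0) (XT.nd (nat_lit 234) (nat_lit 380) (nat_lit 0) (XT.nd (nat_lit 78) (nat_lit 228) (nat_lit 0) (XT.lf (nat_lit 0) (nat_lit 8006142299) (nat_lit 152) (nat_lit 15647842512) (nat_lit 228) (nat_lit 8933874992) (nat_lit 67) (nat_lit 5) (nat_lit 69) (nat_lit 5) (nat_lit 70) (nat_lit 5) (nat_lit 458) (nat_lit 422) (nat_lit 320)) (XT.nd (nat_lit 78) (nat_lit 228) (nat_lit 0) (XT.lf (nat_lit 0) (nat_lit 27954833674) (nat_lit 152) (nat_lit 3936600176) (nat_lit 228) (nat_lit 1724438202) (nat_lit 67) (nat_lit 5) (nat_lit 69) (nat_lit 5) (nat_lit 70) (nat_lit 5) (nat_lit 459) (nat_lit 422) (nat_lit 319)) (XT.lf (nat_lit 0) (nat_lit 6013643767) (nat_lit 228) (nat_lit 20247203046) (nat_lit 76) (nat_lit 8412113173) (nat_lit 64) (nat_lit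 5) (nat_lit 67) (nat_lit 5) (nat_lit 65) (nat_lit 5) (nat_lit 460) (nat_lit 422) (nat_lit 318)))) (XT.nd (nat_lit 156) (nat_lit 228) (nat_lit 0) (XT.nd (nat_lit 78) (nat_lit 152) (nat_lit 0) (XT.lf (nat_lit 0) (nat_lit 14234902384) (nat_lit 228) (nat_lit 171631179) (nat_lit 76) (nat_lit 21367245485) (nat_lit 64) (nat_lit 5) (nat_lit 67) (nat_lit 5) (nat_lit 65) (nat_lit 5) (nat_lit 461) (nat_lit 422) (nat_lit 317)) (XT.lf (nat_lit 0) (nat_lit 21586648371) (nat_lit 152) (nat_lit 1610219300) (nat_lit 228) (nat_lit 13716290587) (nat_lit 62) (nat_lit 5) (nat_lit 64) (nat_lit 5) (nat_lit 65) (nat_lit 5) (nat_lit 462) (nat_lit 422) (nat_lit 316))) (XT.nd (nat_lit 78) (nat_lit 76) (nat_lit 0) (XT.lf (nat_lit 0) (nat_lit 6335454197) (nat_lit 152) (nat_lit 26550693106) (nat_lit 228) (nat_lit 5209399641) (nat_lit 60) (nat_lit 5) (nat_lit 62) (nat_lit 5) (nat_lit 63) (nat_lit 5) (nat_lit 463) (nat_lit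 422) (nat_lit 315)) (XT.lf (nat_lit 0) (nat_lit 3886651341) (nat_lit 228) (nat_lit 9812356770) (nat_lit 76) (nat_lit 25620993480) (nat_lit 59) (nat_lit 5) (nat_lit 62) (nat_lit 5) (nat_lit 60) (nat_lit 5) (nat_lit 464) (nat_lit 422) (nat_lit 314))))) (XT.nd (nat_lit 234) (nat_lit 380) (nat_lit 0) (XT.nd (nat_lit 78) (nat_lit 152) (nat_lit 0) (XT.lf (nat_lit 0) (nat_lit 13469007595) (nat_lit 228) (nat_lit 27022615082) (nat_lit 76) (nat_lit 99458796) (nat_lit 57) (nat_lit 5) (nat_lit 60) (nat_lit 5) (nat_lit 58) (nat_lit 5) (nat_lit 465) (nat_lit 422) (nat_lit 313)) (XT.nd (nat_lit 78) (nat_lit 152) (nat_lit 0) (XT.lf (nat_lit 0) (nat_lit 23917136472) (nat_lit 228) (nat_lit 3697336159) (nat_lit 76) (nat_lit 14291911062) (nat_lit 57) (nat_lit 5) (nat_lit 60) (nat_lit 5) (nat_lit 58) (nat_lit 5) (nat_lit 466) (nat_lit 422) (nat_lit 312)) (XT.lf (nat_lit 0) (nat_lit 21470319469) (nat_lit 152) (nat_lit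 13746068640) (nat_lit 228) (nat_lit 8054628132) (nat_lit 55) (nat_lit 5) (nat_lit 57) (nat_lit 5) (nat_lit 58) (nat_lit 5) (nat_lit 467) (nat_lit 422) (nat_lit 311)))) (XT.nd (nat_lit 156) (nat_lit 152) (nat_lit 0) (XT.nd (nat_lit 78) (nat_lit 0) (nat_lit 0) (XT.lf (nat_lit 0) (nat_lit 2425832618) (nat_lit 228) (nat_lit 41328699761) (nat_lit 76) (nat_lit 941234578) (nat_lit 52) (nat_lit 5) (nat_lit 55) (nat_lit 5) (nat_lit 53) (nat_lit 5) (nat_lit 468) (nat_lit 422) (nat_lit 310)) (XT.lf (nat_lit 0) (nat_lit 13753835098) (nat_lit 228) (nat_lit 15997819262) (nat_lit 76) (nat_lit 16403789235) (nat_lit 52) (nat_lit 5) (nat_lit 55) (nat_lit 5) (nat_lit 53) (nat_lit 5) (nat_lit 469) (nat_lit 422) (nat_lit 309))) (XT.nd (nat_lit 78) (nat_lit 0) (nat_lit 0) (XT.lf (nat_lit 0) (nat_lit 10939082669) (nat_lit 152) (nat_lit 14873853086) (nat_lit 228) (nat_lit 21866934258) (nat_lit 50) (nat_lit 5) (nat_lit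 52) (nat_lit 5) (nat_lit 53) (nat_lit 5) (nat_lit 470) (nat_lit 422) (nat_lit 308)) (XT.lf (nat_lit 0) (nat_lit 38756004194) (nat_lit 228) (nat_lit 9515549338) (nat_lit 76) (nat_lit 994914391) (nat_lit 50) (nat_lit 5) (nat_lit 53) (nat_lit 5) (nat_lit 51) (nat_lit 4) (nat_lit 471) (nat_lit 422) (nat_lit 307)))))) (XT.nd (nat_lit 546) (nat_lit 532) (nat_lit 0) (XT.nd (nat_lit 234) (nat_lit 304) (nat_lit 0) (XT.nd (nat_lit 78) (nat_lit 152) (nat_lit 0) (XT.lf (nat_lit 0) (nat_lit 1919041102) (nat_lit 152) (nat_lit 31497169217) (nat_lit 76) (nat_lit 17487559343) (nat_lit 48) (nat_lit 5) (nat_lit 50) (nat_lit 5) (nat_lit 49) (nat_lit 5) (nat_lit 472) (nat_lit 422) (nat_lit 306)) (XT.nd (nat_lit 78) (nat_lit 152) (nat_lit 0) (XT.lf (nat_lit 0) (nat_lit 14774869094) (nat_lit 152) (nat_lit 2694822154) (nat_lit 76) (nat_lit 35136727382) (nat_lit 48) (nat_lit 5) (nat_lit 50) (nat_lit 5) (nat_lit 49)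 (nat_lit 5) (nat_lit 473) (nat_lit 422) (nat_lit 305)) (XT.lf (nat_lit 0) (nat_lit 28448441680) (nat_lit 152) (nat_lit 263755448) (nat_lit 228) (nat_lit 25660068153) (nat_lit 46) (nat_lit 5) (nat_lit 48) (nat_lit 5) (nat_lit 49) (nat_lit 5) (nat_lit 474) (nat_lit 422) (nat_lit 304)))) (XT.nd (nat_lit 156) (nat_lit 152) (nat_lit 0) (XT.nd (nat_lit 78) (nat_lit 76) (nat_lit 0) (XT.lf (nat_lit 0) (nat_lit 4886226408) (nat_lit 76) (nat_lit 38855378525) (nat_lit 152) (nat_lit 12465039297) (nat_lit 45) (nat_lit 5) (nat_lit 46) (nat_lit 5) (nat_lit 47) (nat_lit 4) (nat_lit 475) (nat_lit 422) (nat_lit 303)) (XT.lf (nat_lit 0) (nat_lit 1790426953) (nat_lit 152) (nat_lit 20017008015) (nat_lit 76) (nat_lit 36301964529) (nat_lit 44) (nat_lit 5) (nat_lit 46) (nat_lit 5) (nat_lit 45) (nat_lit 5) (nat_lit 476) (nat_lit 422) (nat_lit 302))) (XT.nd (nat_lit 78) (nat_lit 0) (nat_lit 0) (XT.lf (nat_lit 0) (nat_lit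 13055765616) (nat_lit 152) (nat_lit 3482700199) (nat_lit 228) (nat_lit 43548674696) (nat_lit 42) (nat_lit 5) (nat_lit 44) (nat_lit 5) (nat_lit 45) (nat_lit 5) (nat_lit 477) (nat_lit 422) (nat_lit 301)) (XT.lf (nat_lit 0) (nat_lit 32609398005) (nat_lit 228) (nat_lit 13930648156) (nat_lit 76) (nat_lit 15594448368) (nat_lit 42) (nat_lit 5) (nat_lit 45) (nat_lit 5) (nat_lit 43) (nat_lit 4) (nat_lit 478) (nat_lit 422) (nat_lit 300))))) (XT.nd (nat_lit 234) (nat_lit 228) (nat_lit 0) (XT.nd (nat_lit 78) (nat_lit 228) (nat_lit 0) (XT.lf (nat_lit 0) (nat_lit 21445492500) (nat_lit 76) (nat_lit 28425450130) (nat_lit 152) (nat_lit 14393920824) (nat_lit 41) (nat_lit 5) (nat_lit 42) (nat_lit 5) (nat_lit 43) (nat_lit 4) (nat_lit 479) (nat_lit 422) (nat_lit 299)) (XT.nd (nat_lit 78) (nat_lit 152) (nat_lit 0) (XT.lf (nat_lit 0) (nat_lit 1680955867) (nat_lit 152) (nat_lit 7451999243) (nat_lit 76) (nat_lit 57355882355)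 (nat_lit 40) (nat_lit 5) (nat_lit 42) (nat_lit 5) (nat_lit 41) (nat_lit 5) (nat_lit 480) (nat_lit 422) (nat_lit 298)) (XT.lf (nat_lit 0) (nat_lit 18731337936) (nat_lit 228) (nat_lit 38561311529) (nat_lit 76) (nat_lit 11486788263) (nat_lit 38) (nat_lit 5) (nat_lit 41) (nat_lit 5) (nat_lit 39) (nat_lit 4) (nat_lit 481) (nat_lit 422) (nat_lit 297)))) (XT.nd (nat_lit 156) (nat_lit 152) (nat_lit 0) (XT.nd (nat_lit 78) (nat_lit 76) (nat_lit 0) (XT.lf (nat_lit 0) (nat_lit 36907654254) (nat_lit 228) (nat_lit 1308111346) (nat_lit 76) (nat_lit 32955132054) (nat_lit 38) (nat_lit 5) (nat_lit 41) (nat_lit 5) (nat_lit 39) (nat_lit 4) (nat_lit 482) (nat_lit 422) (nat_lit 296)) (XT.lf (nat_lit 0) (nat_lit 39049442962) (nat_lit 76) (nat_lit 17548655099) (nat_lit 152) (nat_lit 17053567323) (nat_lit 37) (nat_lit 5) (nat_lit 38) (nat_lit 5) (nat_lit 39) (nat_lit 4) (nat_lit 483) (nat_lit 422) (nat_lit 295))) (XT.nd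 (nat_lit 78) (nat_lit 0) (nat_lit 0) (XT.lf (nat_lit 0) (nat_lit 1152706913) (nat_lit 152) (nat_lit 70955178910) (nat_lit 76) (nat_lit 4139359852) (nat_lit 35) (nat_lit 5) (nat_lit 37) (nat_lit 5) (nat_lit 36) (nat_lit 4) (nat_lit 484) (nat_lit 422) (nat_lit 294)) (XT.lf (nat_lit 0) (nat_lit 20575154099) (nat_lit 152) (nat_lit 31145948051) (nat_lit 76) (nat_lit 27193576288) (nat_lit 35) (nat_lit 5) (nat_lit 37) (nat_lit 5) (nat_lit 36) (nat_lit 4) (nat_lit 485) (nat_lit 422) (nat_lit 293))))))) (XT.nd (nat_lit 1092) (nat_lit 684) (nat_lit 0) (XT.nd (nat_lit 546) (nat_lit 380) (nat_lit 0) (XT.nd (nat_lit 234) (nat_lit 228) (nat_lit 0) (XT.nd (nat_lit 78) (nat_lit 76) (nat_lit 0) (XT.lf (nat_lit 0) (nat_lit 10997968418) (nat_lit 76) (nat_lit 30138346269) (nat_lit 152) (nat_lit 40570788920) (nat_lit 34) (nat_lit 5) (nat_lit 35) (nat_lit 5) (nat_lit 36) (nat_lit 4) (nat_lit 486) (nat_lit 422) (nat_lit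 292)) (XT.nd (nat_lit 78) (nat_lit 76) (nat_lit 0) (XT.lf (nat_lit 0) (nat_lit 56322743570) (nat_lit 76) (nat_lit 6926219965) (nat_lit 152) (nat_lit 21364015294) (nat_lit 34) (nat_lit 5) (nat_lit 35) (nat_lit 5) (nat_lit 36) (nat_lit 4) (nat_lit 487) (nat_lit 422) (nat_lit 291)) (XT.lf (nat_lit 0) (nat_lit 16497825488) (nat_lit 76) (nat_lit 70495482846) (nat_lit 76) (nat_lit 644536590) (nat_lit 33) (nat_lit 4) (nat_lit 34) (nat_lit 5) (nat_lit 34) (nat_lit 4) (nat_lit 488) (nat_lit 422) (nat_lit 290)))) (XT.nd (nat_lit 156) (nat_lit 76) (nat_lit 0) (XT.nd (nat_lit 78) (nat_lit 76) (nat_lit 0) (XT.lf (nat_lit 0) (nat_lit 21031848473) (nat_lit 152) (nat_lit 26740973793) (nat_lit 76) (nat_lit 42994821617) (nat_lit 32) (nat_lit 5) (nat_lit 34) (nat_lit 5) (nat_lit 33) (nat_lit 4) (nat_lit 489) (nat_lit 422) (nat_lit 289)) (XT.lf (nat_lit 0) (nat_lit 20517047938) (nat_lit 76) (nat_lit 23569964171)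 (nat_lit 152) (nat_lit 49950561624) (nat_lit 31) (nat_lit 5) (nat_lit 32) (nat_lit 5) (nat_lit 33) (nat_lit 4) (nat_lit 490) (nat_lit 422) (nat_lit 288))) (XT.nd (nat_lit 78) (nat_lit 76) (nat_lit 0) (XT.lf (nat_lit 0) (nat_lit 68780311526) (nat_lit 152) (nat_lit 26425298363) (nat_lit 0) (nat_lit 2241121545) (nat_lit 31) (nat_lit 5) (nat_lit 33) (nat_lit 4) (nat_lit 31) (nat_lit 4) (nat_lit 491) (nat_lit 422) (nat_lit 287)) (XT.lf (nat_lit 0) (nat_lit 23379836705) (nat_lit 76) (nat_lit 72076339862) (nat_lit 76) (nat_lit 5532775648) (nat_lit 30) (nat_lit 4) (nat_lit 31) (nat_lit 5) (nat_lit 31) (nat_lit 4) (nat_lit 492) (nat_lit 422) (nat_lit 286))))) (XT.nd (nat_lit 234) (nat_lit 228) (nat_lit 0) (XT.nd (nat_lit 78) (nat_lit 76) (nat_lit 0) (XT.lf (nat_lit 0) (nat_lit 18608543562) (nat_lit 152) (nat_lit 28400215848) (nat_lit 76) (nat_lit 57662314360) (nat_lit 29) (nat_lit 5) (nat_lit 31) (nat_lit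 5) (nat_lit 30) (nat_lit 4) (nat_lit 493) (nat_lit 422) (nat_lit 285)) (XT.nd (nat_lit 78) (nat_lit 0) (nat_lit 0) (XT.lf (nat_lit 0) (nat_lit 23938151350) (nat_lit 76) (nat_lit 20203238434) (nat_lit 152) (nat_lit 64372856822) (nat_lit 28) (nat_lit 5) (nat_lit 29) (nat_lit 5) (nat_lit 30) (nat_lit 4) (nat_lit 494) (nat_lit 422) (nat_lit 284)) (XT.lf (nat_lit 0) (nat_lit 71560409454) (nat_lit 152) (nat_lit 32784450748) (nat_lit 0) (nat_lit 8174241514) (nat_lit 28) (nat_lit 5) (nat_lit 30) (nat_lit 4) (nat_lit 28) (nat_lit 4) (nat_lit 495) (nat_lit 422) (nat_lit 283)))) (XT.nd (nat_lit 156) (nat_lit 76) (nat_lit 0) (XT.nd (nat_lit 78) (nat_lit 76) (nat_lit 0) (XT.lf (nat_lit 0) (nat_lit 21962356364) (nat_lit 76) (nat_lit 79058946268) (nat_lit 76) (nat_lit 15669351001) (nat_lit 27) (nat_lit 4) (nat_lit 28) (nat_lit 5) (nat_lit 28) (nat_lit 4) (nat_lit 496) (nat_lit 422) (nat_lit 282)) (XT.lf (nat_lit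 0) (nat_lit 11097242507) (nat_lit 152) (nat_lit 40643512246) (nat_lit 76) (nat_lit 69293473920) (nat_lit 26) (nat_lit 5) (nat_lit 28) (nat_lit 5) (nat_lit 27) (nat_lit 4) (nat_lit 497) (nat_lit 422) (nat_lit 281))) (XT.nd (nat_lit 78) (nat_lit 0) (nat_lit 0) (XT.lf (nat_lit 0) (nat_lit 16407929636) (nat_lit 76) (nat_lit 22520800953) (nat_lit 152) (nat_lit 86640750408) (nat_lit 25) (nat_lit 5) (nat_lit 26) (nat_lit 5) (nat_lit 27) (nat_lit 4) (nat_lit 498) (nat_lit 422) (nat_lit 280)) (XT.lf (nat_lit 0) (nat_lit 68975791125) (nat_lit 152) (nat_lit 52718646053) (nat_lit 0) (nat_lit 8595859004) (nat_lit 25) (nat_lit 5) (nat_lit 27) (nat_lit 4) (nat_lit 25) (nat_lit 4) (nat_lit 499) (nat_lit 422) (nat_lit 279)))))) (XT.nd (nat_lit 546) (nat_lit 380) (nat_lit 0) (XT.nd (nat_lit 234) (nat_lit 152) (nat_lit 0) (XT.nd (nat_lit 78) (nat_lit 76) (nat_lit 0) (XT.lf (nat_lit 0) (nat_lit 6375678436) (nat_lit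 76) (nat_lit 94615398860) (nat_lit 76) (nat_lit 34232781339) (nat_lit 24) (nat_lit 4) (nat_lit 25) (nat_lit 5) (nat_lit 25) (nat_lit 4) (nat_lit 500) (nat_lit 422) (nat_lit 278)) (XT.nd (nat_lit 78) (nat_lit 76) (nat_lit 0) (XT.lf (nat_lit 0) (nat_lit 70249487574) (nat_lit 76) (nat_lit 65247643329) (nat_lit 76) (nat_lit 4862468285) (nat_lit 24) (nat_lit 4) (nat_lit 25) (nat_lit 5) (nat_lit 25) (nat_lit 4) (nat_lit 501) (nat_lit 422) (nat_lit 277)) (XT.lf (nat_lit 0) (nat_lit 25142231910) (nat_lit 152) (nat_lit 8846035366) (nat_lit 76) (nat_lit 111743717562) (nat_lit 23) (nat_lit 5) (nat_lit 25) (nat_lit 5) (nat_lit 24) (nat_lit 4) (nat_lit 502) (nat_lit 422) (nat_lit 276)))) (XT.nd (nat_lit 156) (nat_lit 76) (nat_lit 0) (XT.nd (nat_lit 78) (nat_lit 0) (nat_lit 0) (XT.lf (nat_lit 0) (nat_lit 57228110970) (nat_lit 76) (nat_lit 146543420) (nat_lit 152) (nat_lit 93949804960) (nat_lit 22) (nat_lit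 5) (nat_lit 23) (nat_lit 5) (nat_lit 24) (nat_lit 4) (nat_lit 503) (nat_lit 422) (nat_lit 275)) (XT.lf (nat_lit 0) (nat_lit 91920874372) (nat_lit 152) (nat_lit 30836023769) (nat_lit 0) (nat_lit 34404550737) (nat_lit 22) (nat_lit 5) (nat_lit 24) (nat_lit 4) (nat_lit 22) (nat_lit 4) (nat_lit 504) (nat_lit 422) (nat_lit 274))) (XT.nd (nat_lit 78) (nat_lit 0) (nat_lit 0) (XT.lf (nat_lit 0) (nat_lit 36756509296) (nat_lit 76) (nat_lit 92011707813) (nat_lit 76) (nat_lit 34493380291) (nat_lit 21) (nat_lit 4) (nat_lit 22) (nat_lit 5) (nat_lit 22) (nat_lit 4) (nat_lit 505) (nat_lit 422) (nat_lit 273)) (XT.lf (nat_lit 0) (nat_lit 108794460978) (nat_lit 76) (nat_lit 59183269149) (nat_lit 76) (nat_lit 1663033163) (nat_lit 21) (nat_lit 4) (nat_lit 22) (nat_lit 5) (nat_lit 22) (nat_lit 4) (nat_lit 506) (nat_lit 422) (nat_lit 272))))) (XT.nd (nat_lit 312) (nat_lit 152) (nat_lit 0) (XT.nd (nat_lit 156) (nat_lit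 76) (nat_lit 0) (XT.nd (nat_lit 78) (nat_lit 0) (nat_lit 0) (XT.lf (nat_lit 0) (nat_lit 7829150903) (nat_lit 76) (nat_lit 24049485424) (nat_lit 152) (nat_lit 144428644721) (nat_lit 19) (nat_lit 5) (nat_lit 20) (nat_lit 5) (nat_lit 21) (nat_lit 4) (nat_lit 507) (nat_lit 422) (nat_lit 271)) (XT.lf (nat_lit 0) (nat_lit 68287001858) (nat_lit 152) (nat_lit 101454039618) (nat_lit 0) (nat_lit 13502445094) (nat_lit 19) (nat_lit 5) (nat_lit 21) (nat_lit 4) (nat_lit 19) (nat_lit 4) (nat_lit 508) (nat_lit 422) (nat_lit 270))) (XT.nd (nat_lit 78) (nat_lit 76) (nat_lit 0) (XT.lf (nat_lit 0) (nat_lit 106907813998) (nat_lit 152) (nat_lit 31477399898) (nat_lit 0) (nat_lit 52121687136) (nat_lit 19) (nat_lit 5) (nat_lit 21) (nat_lit 4) (nat_lit 19) (nat_lit 4) (nat_lit 509) (nat_lit 422) (nat_lit 269)) (XT.lf (nat_lit 0) (nat_lit 43382387246) (nat_lit 76) (nat_lit 104752480594) (nat_lit 76) (nat_lit 49964858401)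 (nat_lit 18) (nat_lit 4) (nat_lit 19) (nat_lit 5) (nat_lit 19) (nat_lit 4) (nat_lit 510) (nat_lit 422) (nat_lit 268)))) (XT.nd (nat_lit 156) (nat_lit 76) (nat_lit 0) (XT.nd (nat_lit 78) (nat_lit 76) (nat_lit 0) (XT.lf (nat_lit 0) (nat_lit 123073863723) (nat_lit 76) (nat_lit 68880412640) (nat_lit 76) (nat_lit 14091366321) (nat_lit 18) (nat_lit 4) (nat_lit 19) (nat_lit 5) (nat_lit 19) (nat_lit 4) (nat_lit 511) (nat_lit 422) (nat_lit 267)) (XT.lf (nat_lit 0) (nat_lit 22819211107) (nat_lit 152) (nat_lit 8011019856) (nat_lit 76) (nat_lit 183540320659) (nat_lit 17) (nat_lit 5) (nat_lit 19) (nat_lit 5) (nat_lit 18) (nat_lit 4) (nat_lit 512) (nat_lit 422) (nat_lit 266))) (XT.nd (nat_lit 78) (nat_lit 0) (nat_lit 0) (XT.lf (nat_lit 0) (nat_lit 62401150044) (nat_lit 152) (nat_lit 150415451983) (nat_lit 0) (nat_lit 10218583996) (nat_lit 16) (nat_lit 5) (nat_lit 18) (nat_lit 4) (nat_lit 16) (nat_lit 4)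 (nat_lit 513) (nat_lit 422) (nat_lit 265)) (XT.lf (nat_lit 0) (nat_lit 104603577802) (nat_lit 152) (nat_lit 75077564688) (nat_lit 0) (nat_lit 52419840122) (nat_lit 16) (nat_lit 5) (nat_lit 18) (nat_lit 4) (nat_lit 16) (nat_lit 4) (nat_lit 514) (nat_lit 422) (nat_lit 264))))))))
noncomputable def xc147 : XT := (XT.nd (nat_lit 55302) (nat_lit 0) (nat_lit 5700) (XT.nd (nat_lit 1092) (nat_lit 304) (nat_lit 0) (XT.nd (nat_lit 546) (nat_lit 228) (nat_lit 0) (XT.nd (nat_lit 234) (nat_lit 152) (nat_lit 0) (XT.nd (nat_lit 78) (nat_lit 0) (nat_lit 0) (XT.lf (nat_lit 0) (nat_lit 4156627886) (nat_lit 76) (nat_lit 144822570573) (nat_lit 76) (nat_lit 92637717054) (nat_lit 15) (nat_lit 4) (nat_lit 16) (nat_lit 5) (nat_lit 16) (nat_lit 4) (nat_lit 515) (nat_lit 422) (nat_lit 263)) (XT.nd (nat_lit 78) (nat_lit 0) (nat_lit 0) (XT.lf (nat_lit 0) (nat_lit 89955484973) (nat_lit 76) (nat_lit 106887796157) (nat_lit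 76) (nat_lit 54701879934) (nat_lit 15) (nat_lit 4) (nat_lit 16) (nat_lit 5) (nat_lit 16) (nat_lit 4) (nat_lit 516) (nat_lit 422) (nat_lit 262)) (XT.lf (nat_lit 0) (nat_lit 180040886215) (nat_lit 76) (nat_lit 67057973238) (nat_lit 76) (nat_lit 14871044916) (nat_lit 15) (nat_lit 4) (nat_lit 16) (nat_lit 5) (nat_lit 16) (nat_lit 4) (nat_lit 517) (nat_lit 422) (nat_lit 261)))) (XT.nd (nat_lit 156) (nat_lit 0) (nat_lit 0) (XT.nd (nat_lit 78) (nat_lit 0) (nat_lit 0) (XT.lf (nat_lit 0) (nat_lit 1333268177) (nat_lit 76) (nat_lit 24774614946) (nat_lit 152) (nat_lit 246786004365) (nat_lit 13) (nat_lit 5) (nat_lit 14) (nat_lit 5) (nat_lit 15) (nat_lit 4) (nat_lit 518) (nat_lit 422) (nat_lit 260)) (XT.lf (nat_lit 0) (nat_lit 70350964335) (nat_lit 152) (nat_lit 193267831977) (nat_lit 0) (nat_lit 20647335544) (nat_lit 13) (nat_lit 5) (nat_lit 15) (nat_lit 4) (nat_lit 13) (nat_lit 4) (nat_lit 519) (nat_lit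 422) (nat_lit 259))) (XT.nd (nat_lit 78) (nat_lit 0) (nat_lit 0) (XT.lf (nat_lit 0) (nat_lit 117210768611) (nat_lit 152) (nat_lit 111469684261) (nat_lit 0) (nat_lit 67506307164) (nat_lit 13) (nat_lit 5) (nat_lit 15) (nat_lit 4) (nat_lit 13) (nat_lit 4) (nat_lit 520) (nat_lit 422) (nat_lit 258)) (XT.lf (nat_lit 0) (nat_lit 166412065744) (nat_lit 152) (nat_lit 25584617499) (nat_lit 0) (nat_lit 116706811291) (nat_lit 13) (nat_lit 5) (nat_lit 15) (nat_lit 4) (nat_lit 13) (nat_lit 4) (nat_lit 521) (nat_lit 422) (nat_lit 257))))) (XT.nd (nat_lit 234) (nat_lit 152) (nat_lit 0) (XT.nd (nat_lit 78) (nat_lit 0) (nat_lit 0) (XT.lf (nat_lit 0) (nat_lit 66727555046) (nat_lit 76) (nat_lit 152386250771) (nat_lit 76) (nat_lit 102680241074) (nat_lit 12) (nat_lit 4) (nat_lit 13) (nat_lit 5) (nat_lit 13) (nat_lit 4) (nat_lit 522) (nat_lit 422) (nat_lit 256)) (XT.nd (nat_lit 78) (nat_lit 0) (nat_lit 0) (XT.lf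 (nat_lit 0) (nat_lit 164540776233) (nat_lit 76) (nat_lit 110341742673) (nat_lit 76) (nat_lit 60635013697) (nat_lit 12) (nat_lit 4) (nat_lit 13) (nat_lit 5) (nat_lit 13) (nat_lit 4) (nat_lit 523) (nat_lit 422) (nat_lit 255)) (XT.lf (nat_lit 0) (nat_lit 267241991686) (nat_lit 76) (nat_lit 66196340856) (nat_lit 76) (nat_lit 16488926851) (nat_lit 12) (nat_lit 4) (nat_lit 13) (nat_lit 5) (nat_lit 13) (nat_lit 4) (nat_lit 524) (nat_lit 422) (nat_lit 254)))) (XT.nd (nat_lit 156) (nat_lit 0) (nat_lit 0) (XT.nd (nat_lit 78) (nat_lit 0) (nat_lit 0) (XT.lf (nat_lit 0) (nat_lit 9867775269) (nat_lit 76) (nat_lit 19193610916) (nat_lit 152) (nat_lit 335965134408) (nat_lit 10) (nat_lit 5) (nat_lit 11) (nat_lit 5) (nat_lit 12) (nat_lit 4) (nat_lit 525) (nat_lit 422) (nat_lit 253)) (XT.lf (nat_lit 0) (nat_lit 78227929940) (nat_lit 152) (nat_lit 271658334321) (nat_lit 0) (nat_lit 30886322555) (nat_lit 10) (nat_lit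 5) (nat_lit 12) (nat_lit 4) (nat_lit 10) (nat_lit 4) (nat_lit 526) (nat_lit 422) (nat_lit 252))) (XT.nd (nat_lit 78) (nat_lit 0) (nat_lit 0) (XT.lf (nat_lit 0) (nat_lit 130166221314) (nat_lit 152) (nat_lit 184300013686) (nat_lit 0) (nat_lit 82824050355) (nat_lit 10) (nat_lit 5) (nat_lit 12) (nat_lit 4) (nat_lit 10) (nat_lit 4) (nat_lit 527) (nat_lit 422) (nat_lit 251)) (XT.lf (nat_lit 0) (nat_lit 184700256853) (nat_lit 152) (nat_lit 92576121363) (nat_lit 0) (nat_lit 137357549156) (nat_lit 10) (nat_lit 5) (nat_lit 12) (nat_lit 4) (nat_lit 10) (nat_lit 4) (nat_lit 528) (nat_lit 422) (nat_lit 250)))))) (XT.nd (nat_lit 546) (nat_lit 76) (nat_lit 0) (XT.nd (nat_lit 234) (nat_lit 152) (nat_lit 0) (XT.nd (nat_lit 78) (nat_lit 0) (nat_lit 0) (XT.lf (nat_lit 0) (nat_lit 3855120810) (nat_lit 76) (nat_lit 238164947926) (nat_lit 76) (nat_lit 190821729050) (nat_lit 9) (nat_lit 4) (nat_lit 10) (nat_lit 5)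 (nat_lit 10) (nat_lit 4) (nat_lit 529) (nat_lit 422) (nat_lit 249)) (XT.nd (nat_lit 78) (nat_lit 0) (nat_lit 0) (XT.lf (nat_lit 0) (nat_lit 108319762286) (nat_lit 76) (nat_lit 195452834448) (nat_lit 76) (nat_lit 148109128736) (nat_lit 9) (nat_lit 4) (nat_lit 10) (nat_lit 5) (nat_lit 10) (nat_lit 4) (nat_lit 530) (nat_lit 422) (nat_lit 248)) (XT.lf (nat_lit 0) (nat_lit 218005543745) (nat_lit 76) (nat_lit 150606163685) (nat_lit 76) (nat_lit 103261994318) (nat_lit 9) (nat_lit 4) (nat_lit 10) (nat_lit 5) (nat_lit 10) (nat_lit 4) (nat_lit 531) (nat_lit 422) (nat_lit 247)))) (XT.nd (nat_lit 156) (nat_lit 152) (nat_lit 0) (XT.nd (nat_lit 78) (nat_lit 0) (nat_lit 0) (XT.lf (nat_lit 0) (nat_lit 333173621808) (nat_lit 76) (nat_lit 103518157849) (nat_lit 76) (nat_lit 56173546907) (nat_lit 9) (nat_lit 4) (nat_lit 10) (nat_lit 5) (nat_lit 10) (nat_lit 4) (nat_lit 532) (nat_lit 422) (nat_lit 246)) (XT.lf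 (nat_lit 0) (nat_lit 454098206186) (nat_lit 76) (nat_lit 54076702640) (nat_lit 76) (nat_lit 6731671149) (nat_lit 9) (nat_lit 4) (nat_lit 10) (nat_lit 5) (nat_lit 10) (nat_lit 4) (nat_lit 533) (nat_lit 422) (nat_lit 245))) (XT.nd (nat_lit 78) (nat_lit 0) (nat_lit 0) (XT.lf (nat_lit 0) (nat_lit 43710885181) (nat_lit 76) (nat_lit 706830522) (nat_lit 152) (nat_lit 493562832607) (nat_lit 7) (nat_lit 5) (nat_lit 8) (nat_lit 5) (nat_lit 9) (nat_lit 4) (nat_lit 534) (nat_lit 422) (nat_lit 244)) (XT.lf (nat_lit 0) (nat_lit 99808010316) (nat_lit 152) (nat_lit 407582444267) (nat_lit 0) (nat_lit 54716759400) (nat_lit 7) (nat_lit 5) (nat_lit 9) (nat_lit 4) (nat_lit 7) (nat_lit 4) (nat_lit 535) (nat_lit 422) (nat_lit 243))))) (XT.nd (nat_lit 234) (nat_lit 76) (nat_lit 0) (XT.nd (nat_lit 78) (nat_lit 0) (nat_lit 0) (XT.lf (nat_lit 0) (nat_lit 157978535483) (nat_lit 152) (nat_lit 316574203102) (nat_lit 0)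 (nat_lit 112886938581) (nat_lit 7) (nat_lit 5) (nat_lit 9) (nat_lit 4) (nat_lit 7) (nat_lit 4) (nat_lit 536) (nat_lit 422) (nat_lit 242)) (XT.nd (nat_lit 78) (nat_lit 0) (nat_lit 0) (XT.lf (nat_lit 0) (nat_lit 219056756849) (nat_lit 152) (nat_lit 221017217740) (nat_lit 0) (nat_lit 173964830437) (nat_lit 7) (nat_lit 5) (nat_lit 9) (nat_lit 4) (nat_lit 7) (nat_lit 4) (nat_lit 537) (nat_lit 422) (nat_lit 241)) (XT.lf (nat_lit 0) (nat_lit 283188098753) (nat_lit 152) (nat_lit 120683971550) (nat_lit 0) (nat_lit 238095858521) (nat_lit 7) (nat_lit 5) (nat_lit 9) (nat_lit 4) (nat_lit 7) (nat_lit 4) (nat_lit 538) (nat_lit 422) (nat_lit 240)))) (XT.nd (nat_lit 156) (nat_lit 0) (nat_lit 0) (XT.nd (nat_lit 78) (nat_lit 76) (nat_lit 0) (XT.lf (nat_lit 0) (nat_lit 350525254864) (nat_lit 152) (nat_lit 15335575851) (nat_lit 0) (nat_lit 305432715757) (nat_lit 7) (nat_lit 5) (nat_lit 9) (nat_lit 4) (nat_lit 7)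 (nat_lit 4) (nat_lit 539) (nat_lit 422) (nat_lit 239)) (XT.lf (nat_lit 0) (nat_lit 98429146253) (nat_lit 76) (nat_lit 324336160313) (nat_lit 76) (nat_lit 279243336562) (nat_lit 6) (nat_lit 4) (nat_lit 7) (nat_lit 5) (nat_lit 7) (nat_lit 4) (nat_lit 540) (nat_lit 422) (nat_lit 238))) (XT.nd (nat_lit 78) (nat_lit 0) (nat_lit 0) (XT.lf (nat_lit 0) (nat_lit 218413103504) (nat_lit 76) (nat_lit 280463267724) (nat_lit 76) (nat_lit 235370172884) (nat_lit 6) (nat_lit 4) (nat_lit 7) (nat_lit 5) (nat_lit 7) (nat_lit 4) (nat_lit 541) (nat_lit 422) (nat_lit 237)) (XT.lf (nat_lit 0) (nat_lit 344394908595) (nat_lit 76) (nat_lit 234397409078) (nat_lit 76) (nat_lit 189304056058) (nat_lit 6) (nat_lit 4) (nat_lit 7) (nat_lit 5) (nat_lit 7) (nat_lit 4) (nat_lit 542) (nat_lit 422) (nat_lit 236))))))) (XT.nd (nat_lit 1092) (nat_lit 2584) (nat_lit 0) (XT.nd (nat_lit 546) (nat_lit 836) (nat_lit 0) (XT.nd (nat_lit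 234) (nat_lit 760) (nat_lit 0) (XT.nd (nat_lit 78) (nat_lit 0) (nat_lit 0) (XT.lf (nat_lit 0) (nat_lit 2809103455) (nat_lit 0) (nat_lit 2809103455) (nat_lit 684) (nat_lit 765251164) (nat_lit 136) (nat_lit 5) (nat_lit 136) (nat_lit 3) (nat_lit 145) (nat_lit 3) (nat_lit 423) (nat_lit 423) (nat_lit 354)) (XT.nd (nat_lit 78) (nat_lit 0) (nat_lit 0) (XT.lf (nat_lit 0) (nat_lit 11925371271) (nat_lit 684) (nat_lit 889984550) (nat_lit 760) (nat_lit 250163056) (nat_lit 136) (nat_lit 5) (nat_lit 145) (nat_lit 3) (nat_lit 146) (nat_lit 5) (nat_lit 424) (nat_lit 423) (nat_lit 353)) (XT.lf (nat_lit 76) (nat_lit 5759477226) (nat_lit 0) (nat_lit 7045662760) (nat_lit 760) (nat_lit 566104326) (nat_lit 137) (nat_lit 5) (nat_lit 136) (nat_lit 5) (nat_lit 146) (nat_lit 5) (nat_lit 425) (nat_lit 423) (nat_lit 352)))) (XT.nd (nat_lit 156) (nat_lit 0) (nat_lit 76) (XT.nd (nat_lit 78) (nat_lit 0) (nat_lit 76) (XT.lf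 (nat_lit 0) (nat_lit 25713815) (nat_lit 760) (nat_lit 935053807) (nat_lit 836) (nat_lit 12731957266) (nat_lit 126) (nat_lit 5) (nat_lit 136) (nat_lit 5) (nat_lit 137) (nat_lit 5) (nat_lit 426) (nat_lit 423) (nat_lit 351)) (XT.lf (nat_lit 0) (nat_lit 788482772) (nat_lit 760) (nat_lit 7860800553) (nat_lit 836) (nat_lit 5372522191) (nat_lit 127) (nat_lit 5) (nat_lit 137) (nat_lit 5) (nat_lit 138) (nat_lit 5) (nat_lit 427) (nat_lit 423) (nat_lit 350))) (XT.nd (nat_lit 78) (nat_lit 0) (nat_lit 76) (XT.lf (nat_lit 0) (nat_lit 1598411215) (nat_lit 760) (nat_lit 753619295) (nat_lit 836) (nat_lit 12014867452) (nat_lit 127) (nat_lit 5) (nat_lit 137) (nat_lit 5) (nat_lit 138) (nat_lit 5) (nat_lit 428) (nat_lit 423) (nat_lit 349)) (XT.lf (nat_lit 0) (nat_lit 2603462941) (nat_lit 760) (nat_lit 7877728309) (nat_lit 836) (nat_lit 4240330855) (nat_lit 128) (nat_lit 5) (nat_lit 138) (nat_lit 5) (nat_lit 139)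 (nat_lit 5) (nat_lit 429) (nat_lit 423) (nat_lit 348))))) (XT.nd (nat_lit 234) (nat_lit 988) (nat_lit 0) (XT.nd (nat_lit 78) (nat_lit 0) (nat_lit 76) (XT.lf (nat_lit 0) (nat_lit 3689471250) (nat_lit 760) (nat_lit 300342225) (nat_lit 836) (nat_lit 11102536796) (nat_lit 128) (nat_lit 5) (nat_lit 138) (nat_lit 5) (nat_lit 139) (nat_lit 5) (nat_lit 430) (nat_lit 423) (nat_lit 347)) (XT.nd (nat_lit 78) (nat_lit 0) (nat_lit 0) (XT.lf (nat_lit 0) (nat_lit 4979411146) (nat_lit 760) (nat_lit 7629053158) (nat_lit 836) (nat_lit 2865781617) (nat_lit 129) (nat_lit 5) (nat_lit 139) (nat_lit 5) (nat_lit 140) (nat_lit 5) (nat_lit 431) (nat_lit 423) (nat_lit 346)) (XT.lf (nat_lit 76) (nat_lit 467285565) (nat_lit 0) (nat_lit 5925387606) (nat_lit 836) (nat_lit 9479629197) (nat_lit 130) (nat_lit 5) (nat_lit 129) (nat_lit 5) (nat_lit 140) (nat_lit 5) (nat_lit 432) (nat_lit 423) (nat_lit 345)))) (XT.nd (nat_lit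 156) (nat_lit 380) (nat_lit 0) (XT.nd (nat_lit 78) (nat_lit 760) (nat_lit 0) (XT.lf (nat_lit 0) (nat_lit 8006631475) (nat_lit 760) (nat_lit 7086012332) (nat_lit 76) (nat_lit 1191123097) (nat_lit 130) (nat_lit 5) (nat_lit 140) (nat_lit 5) (nat_lit 131) (nat_lit 5) (nat_lit 433) (nat_lit 423) (nat_lit 344)) (XT.lf (nat_lit 0) (nat_lit 1587027546) (nat_lit 760) (nat_lit 8218715293) (nat_lit 836) (nat_lit 6904845666) (nat_lit 120) (nat_lit 5) (nat_lit 130) (nat_lit 5) (nat_lit 131) (nat_lit 5) (nat_lit 434) (nat_lit 423) (nat_lit 343))) (XT.nd (nat_lit 78) (nat_lit 380) (nat_lit 0) (XT.lf (nat_lit 0) (nat_lit 10924408821) (nat_lit 760) (nat_lit 873537934) (nat_lit 836) (nat_lit 5355653861) (nat_lit 120) (nat_lit 5) (nat_lit 130) (nat_lit 5) (nat_lit 131) (nat_lit 5) (nat_lit 435) (nat_lit 423) (nat_lit 342)) (XT.lf (nat_lit 0) (nat_lit 3086484635) (nat_lit 380) (nat_lit 10942197457) (nat_lit 456)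 (nat_lit 3583141162) (nat_lit 115) (nat_lit 5) (nat_lit 120) (nat_lit 5) (nat_lit 121) (nat_lit 5) (nat_lit 436) (nat_lit 423) (nat_lit 341)))))) (XT.nd (nat_lit 546) (nat_lit 1140) (nat_lit 0) (XT.nd (nat_lit 234) (nat_lit 988) (nat_lit 0) (XT.nd (nat_lit 78) (nat_lit 456) (nat_lit 0) (XT.lf (nat_lit 0) (nat_lit 13054239739) (nat_lit 380) (nat_lit 3420783313) (nat_lit 456) (nat_lit 1612736227) (nat_lit 115) (nat_lit 5) (nat_lit 120) (nat_lit 5) (nat_lit 121) (nat_lit 5) (nat_lit 437) (nat_lit 423) (nat_lit 340)) (XT.nd (nat_lit 78) (nat_lit 0) (nat_lit 0) (XT.lf (nat_lit 0) (nat_lit 577081382) (nat_lit 456) (nat_lit 13582054513) (nat_lit 76) (nat_lit 4421230591) (nat_lit 109) (nat_lit 5) (nat_lit 115) (nat_lit 5) (nat_lit 110) (nat_lit 5) (nat_lit 438) (nat_lit 423) (nat_lit 339)) (XT.lf (nat_lit 0) (nat_lit 2950371763) (nat_lit 456) (nat_lit 3486210498) (nat_lit 76) (nat_lit 12653295780)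 (nat_lit 109) (nat_lit 5) (nat_lit 115) (nat_lit 5) (nat_lit 110) (nat_lit 5) (nat_lit 439) (nat_lit 423) (nat_lit 338)))) (XT.nd (nat_lit 156) (nat_lit 608) (nat_lit 0) (XT.nd (nat_lit 78) (nat_lit 0) (nat_lit 0) (XT.lf (nat_lit 0) (nat_lit 5570960093) (nat_lit 456) (nat_lit 12313338872) (nat_lit 76) (nat_lit 1734139224) (nat_lit 104) (nat_lit 5) (nat_lit 110) (nat_lit 5) (nat_lit 105) (nat_lit 5) (nat_lit 440) (nat_lit 423) (nat_lit 337)) (XT.lf (nat_lit 0) (nat_lit 8474673026) (nat_lit 456) (nat_lit 1535080159) (nat_lit 76) (nat_lit 10156072864) (nat_lit 104) (nat_lit 5) (nat_lit 110) (nat_lit 5) (nat_lit 105) (nat_lit 5) (nat_lit 441) (nat_lit 423) (nat_lit 336))) (XT.nd (nat_lit 78) (nat_lit 304) (nat_lit 0) (XT.lf (nat_lit 0) (nat_lit 10090647406) (nat_lit 304) (nat_lit 1577675964) (nat_lit 380) (nat_lit 9065026595) (nat_lit 100) (nat_lit 5) (nat_lit 104) (nat_lit 5) (nat_lit 105) (nat_lit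 5) (nat_lit 442) (nat_lit 423) (nat_lit 335)) (XT.lf (nat_lit 0) (nat_lit 923775209) (nat_lit 304) (nat_lit 14239894703) (nat_lit 380) (nat_lit 6158483528) (nat_lit 96) (nat_lit 5) (nat_lit 100) (nat_lit 5) (nat_lit 101) (nat_lit 5) (nat_lit 443) (nat_lit 423) (nat_lit 334))))) (XT.nd (nat_lit 312) (nat_lit 532) (nat_lit 0) (XT.nd (nat_lit 156) (nat_lit 304) (nat_lit 0) (XT.nd (nat_lit 78) (nat_lit 304) (nat_lit 0) (XT.lf (nat_lit 0) (nat_lit 13396815014) (nat_lit 304) (nat_lit 5630588149) (nat_lit 380) (nat_lit 2903316814) (nat_lit 96) (nat_lit 5) (nat_lit 100) (nat_lit 5) (nat_lit 101) (nat_lit 5) (nat_lit 444) (nat_lit 423) (nat_lit 333)) (XT.lf (nat_lit 0) (nat_lit 603732168) (nat_lit 304) (nat_lit 18590576775) (nat_lit 76) (nat_lit 3369727941) (nat_lit 92) (nat_lit 5) (nat_lit 96) (nat_lit 5) (nat_lit 93) (nat_lit 5) (nat_lit 445) (nat_lit 423) (nat_lit 332))) (XT.nd (nat_lit 78) (nat_lit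 304) (nat_lit 0) (XT.lf (nat_lit 0) (nat_lit 4416375534) (nat_lit 304) (nat_lit 5976122453) (nat_lit 76) (nat_lit 12822754590) (nat_lit 92) (nat_lit 5) (nat_lit 96) (nat_lit 5) (nat_lit 93) (nat_lit 5) (nat_lit 446) (nat_lit 423) (nat_lit 331)) (XT.lf (nat_lit 0) (nat_lit 7495105632) (nat_lit 304) (nat_lit 1030719906) (nat_lit 380) (nat_lit 15367897968) (nat_lit 88) (nat_lit 5) (nat_lit 92) (nat_lit 5) (nat_lit 93) (nat_lit 5) (nat_lit 447) (nat_lit 423) (nat_lit 330)))) (XT.nd (nat_lit 156) (nat_lit 304) (nat_lit 0) (XT.nd (nat_lit 78) (nat_lit 228) (nat_lit 0) (XT.lf (nat_lit 0) (nat_lit 13070405784) (nat_lit 380) (nat_lit 2906821466) (nat_lit 76) (nat_lit 8617410864) (nat_lit 88) (nat_lit 5) (nat_lit 93) (nat_lit 5) (nat_lit 89) (nat_lit 5) (nat_lit 448) (nat_lit 423) (nat_lit 329)) (XT.lf (nat_lit 0) (nat_lit 11600530460) (nat_lit 228) (nat_lit 6429613386) (nat_lit 304) (nat_lit 7291061046)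 (nat_lit 85) (nat_lit 5) (nat_lit 88) (nat_lit 5) (nat_lit 89) (nat_lit 5) (nat_lit 449) (nat_lit 423) (nat_lit 328))) (XT.nd (nat_lit 78) (nat_lit 76) (nat_lit 0) (XT.lf (nat_lit 0) (nat_lit 807792747) (nat_lit 228) (nat_lit 22538993288) (nat_lit 304) (nat_lit 2731870849) (nat_lit 82) (nat_lit 5) (nat_lit 85) (nat_lit 5) (nat_lit 86) (nat_lit 5) (nat_lit 450) (nat_lit 423) (nat_lit 327)) (XT.lf (nat_lit 0) (nat_lit 2321312094) (nat_lit 304) (nat_lit 10478385992) (nat_lit 76) (nat_lit 14056090696) (nat_lit 81) (nat_lit 5) (nat_lit 85) (nat_lit 5) (nat_lit 82) (nat_lit 5) (nat_lit 451) (nat_lit 423) (nat_lit 326))))))))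
noncomputable def xc148 : XT := (XT.nd (nat_lit 2184) (nat_lit 1596) (nat_lit 0) (XT.nd (nat_lit 1092) (nat_lit 1292) (nat_lit 0) (XT.nd (nat_lit 546) (nat_lit 760) (nat_lit 0) (XT.nd (nat_lit 234) (nat_lit 456) (nat_lit 0) (XT.nd (nat_lit 78) (nat_lit 228) (nat_lit 0) (XT.lf (nat_lit 0) (nat_lit 5161015544) (nat_lit 228) (nat_lit 2445608694) (nat_lit 304) (nat_lit 20059352222) (nat_lit 78) (nat_lit 5) (nat_lit 81) (nat_lit 5) (nat_lit 82) (nat_lit 5) (nat_lit 452) (nat_lit 423) (nat_lit 325)) (XT.nd (nat_lit 78) (nat_lit 228) (nat_lit 0) (XT.lf (nat_lit 0) (nat_lit 13459006681) (nat_lit 304) (nat_lit 6709377615) (nat_lit 76) (nat_lit 8333151248) (nat_lit 78) (nat_lit 5) (nat_lit 82) (nat_lit 5) (nat_lit 79) (nat_lit 5) (nat_lit 453) (nat_lit 423) (nat_lit 324)) (XT.lf (nat_lit 0) (nat_lit 10148041724) (nat_lit 228) (nat_lit 9645814660) (nat_lit 304) (nat_lit 9575525936) (nat_lit 75) (nat_lit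 5) (nat_lit 78) (nat_lit 5) (nat_lit 79) (nat_lit 5) (nat_lit 454) (nat_lit 423) (nat_lit 323)))) (XT.nd (nat_lit 156) (nat_lit 228) (nat_lit 0) (XT.nd (nat_lit 78) (nat_lit 228) (nat_lit 0) (XT.lf (nat_lit 0) (nat_lit 26574314569) (nat_lit 304) (nat_lit 2230250188) (nat_lit 76) (nat_lit 1469615424) (nat_lit 75) (nat_lit 5) (nat_lit 79) (nat_lit 5) (nat_lit 76) (nat_lit 5) (nat_lit 455) (nat_lit 423) (nat_lit 322)) (XT.lf (nat_lit 0) (nat_lit 2796116793) (nat_lit 228) (nat_lit 15298782383) (nat_lit 76) (nat_lit 13107113714) (nat_lit 72) (nat_lit 5) (nat_lit 75) (nat_lit 5) (nat_lit 73) (nat_lit 5) (nat_lit 456) (nat_lit 423) (nat_lit 321))) (XT.nd (nat_lit 78) (nat_lit 0) (nat_lit 0) (XT.lf (nat_lit 0) (nat_lit 2864606271) (nat_lit 228) (nat_lit 6703013776) (nat_lit 304) (nat_lit 22601833204) (nat_lit 69) (nat_lit 5) (nat_lit 72) (nat_lit 5) (nat_lit 73) (nat_lit 5) (nat_lit 457) (nat_lit 423)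 (nat_lit 320)) (XT.lf (nat_lit 0) (nat_lit 17015214056) (nat_lit 304) (nat_lit 10803757151) (nat_lit 76) (nat_lit 5349420325) (nat_lit 69) (nat_lit 5) (nat_lit 73) (nat_lit 5) (nat_lit 70) (nat_lit 5) (nat_lit 458) (nat_lit 423) (nat_lit 319))))) (XT.nd (nat_lit 234) (nat_lit 380) (nat_lit 0) (XT.nd (nat_lit 78) (nat_lit 228) (nat_lit 0) (XT.lf (nat_lit 0) (nat_lit 8781760624) (nat_lit 152) (nat_lit 16292874320) (nat_lit 228) (nat_lit 9130671026) (nat_lit 67) (nat_lit 5) (nat_lit 69) (nat_lit 5) (nat_lit 70) (nat_lit 5) (nat_lit 459) (nat_lit 423) (nat_lit 318)) (XT.nd (nat_lit 78) (nat_lit 228) (nat_lit 0) (XT.lf (nat_lit 0) (nat_lit 29710014605) (nat_lit 152) (nat_lit 4002610835) (nat_lit 228) (nat_lit 1572662288) (nat_lit 67) (nat_lit 5) (nat_lit 69) (nat_lit 5) (nat_lit 70) (nat_lit 5) (nat_lit 460) (nat_lit 423) (nat_lit 317)) (XT.lf (nat_lit 0) (nat_lit 6541439334) (nat_lit 228) (nat_lit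 20891152239) (nat_lit 76) (nat_lit 8962618174) (nat_lit 64) (nat_lit 5) (nat_lit 67) (nat_lit 5) (nat_lit 65) (nat_lit 5) (nat_lit 461) (nat_lit 423) (nat_lit 316)))) (XT.nd (nat_lit 156) (nat_lit 228) (nat_lit 0) (XT.nd (nat_lit 78) (nat_lit 0) (nat_lit 0) (XT.lf (nat_lit 0) (nat_lit 176297461) (nat_lit 152) (nat_lit 14989400994) (nat_lit 228) (nat_lit 22385776454) (nat_lit 62) (nat_lit 5) (nat_lit 64) (nat_lit 5) (nat_lit 65) (nat_lit 5) (nat_lit 462) (nat_lit 423) (nat_lit 315)) (XT.lf (nat_lit 0) (nat_lit 23011189216) (nat_lit 152) (nat_lit 1556910040) (nat_lit 228) (nat_lit 14180108894) (nat_lit 62) (nat_lit 5) (nat_lit 64) (nat_lit 5) (nat_lit 65) (nat_lit 5) (nat_lit 463) (nat_lit 423) (nat_lit 314))) (XT.nd (nat_lit 78) (nat_lit 76) (nat_lit 0) (XT.lf (nat_lit 0) (nat_lit 7000248769) (nat_lit 152) (nat_lit 27738951409) (nat_lit 228) (nat_lit 5250650065) (nat_lit 60) (nat_lit 5) (nat_lit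 62) (nat_lit 5) (nat_lit 63) (nat_lit 5) (nat_lit 464) (nat_lit 423) (nat_lit 313)) (XT.lf (nat_lit 0) (nat_lit 4283082159) (nat_lit 228) (nat_lit 9964809581) (nat_lit 76) (nat_lit 27027971664) (nat_lit 59) (nat_lit 5) (nat_lit 62) (nat_lit 5) (nat_lit 60) (nat_lit 5) (nat_lit 465) (nat_lit 423) (nat_lit 312)))))) (XT.nd (nat_lit 546) (nat_lit 608) (nat_lit 0) (XT.nd (nat_lit 234) (nat_lit 380) (nat_lit 0) (XT.nd (nat_lit 78) (nat_lit 152) (nat_lit 0) (XT.lf (nat_lit 0) (nat_lit 14342235426) (nat_lit 228) (nat_lit 28033228243) (nat_lit 76) (nat_lit 235151239) (nat_lit 57) (nat_lit 5) (nat_lit 60) (nat_lit 5) (nat_lit 58) (nat_lit 5) (nat_lit 466) (nat_lit 423) (nat_lit 311)) (XT.nd (nat_lit 78) (nat_lit 152) (nat_lit 0) (XT.lf (nat_lit 0) (nat_lit 25303257534) (nat_lit 228) (nat_lit 3557900498) (nat_lit 76) (nat_lit 15131001381) (nat_lit 57) (nat_lit 5) (nat_lit 60) (nat_lit 5) (nat_lit 58)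 (nat_lit 5) (nat_lit 467) (nat_lit 423) (nat_lit 310)) (XT.lf (nat_lit 0) (nat_lit 22862907228) (nat_lit 152) (nat_lit 14300485930) (nat_lit 228) (nat_lit 8261835802) (nat_lit 55) (nat_lit 5) (nat_lit 57) (nat_lit 5) (nat_lit 58) (nat_lit 5) (nat_lit 468) (nat_lit 423) (nat_lit 309)))) (XT.nd (nat_lit 156) (nat_lit 152) (nat_lit 0) (XT.nd (nat_lit 78) (nat_lit 0) (nat_lit 0) (XT.lf (nat_lit 0) (nat_lit 2734480677) (nat_lit 228) (nat_lit 43067842082) (nat_lit 76) (nat_lit 1118838591) (nat_lit 52) (nat_lit 5) (nat_lit 55) (nat_lit 5) (nat_lit 53) (nat_lit 5) (nat_lit 469) (nat_lit 423) (nat_lit 308)) (XT.lf (nat_lit 0) (nat_lit 14619961546) (nat_lit 228) (nat_lit 16486002923) (nat_lit 76) (nat_lit 17348304682) (nat_lit 52) (nat_lit 5) (nat_lit 55) (nat_lit 5) (nat_lit 53) (nat_lit 5) (nat_lit 470) (nat_lit 423) (nat_lit 307))) (XT.nd (nat_lit 78) (nat_lit 0) (nat_lit 0) (XT.lf (nat_lit 0) (nat_lit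 11792716567) (nat_lit 152) (nat_lit 15485591909) (nat_lit 228) (nat_lit 22776795036) (nat_lit 50) (nat_lit 5) (nat_lit 52) (nat_lit 5) (nat_lit 53) (nat_lit 5) (nat_lit 471) (nat_lit 423) (nat_lit 306)) (XT.lf (nat_lit 0) (nat_lit 40862172120) (nat_lit 228) (nat_lit 9692870046) (nat_lit 76) (nat_lit 1166308191) (nat_lit 50) (nat_lit 5) (nat_lit 53) (nat_lit 5) (nat_lit 51) (nat_lit 4) (nat_lit 472) (nat_lit 423) (nat_lit 305))))) (XT.nd (nat_lit 234) (nat_lit 304) (nat_lit 0) (XT.nd (nat_lit 78) (nat_lit 152) (nat_lit 0) (XT.lf (nat_lit 0) (nat_lit 2182652614) (nat_lit 152) (nat_lit 32772820682) (nat_lit 76) (nat_lit 18485081399) (nat_lit 48) (nat_lit 5) (nat_lit 50) (nat_lit 5) (nat_lit 49) (nat_lit 5) (nat_lit 473) (nat_lit 423) (nat_lit 304)) (XT.nd (nat_lit 78) (nat_lit 152) (nat_lit 0) (XT.lf (nat_lit 0) (nat_lit 15673288222) (nat_lit 152) (nat_lit 2544604218) (nat_lit 76) (nat_lit 37010843836)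 (nat_lit 48) (nat_lit 5) (nat_lit 50) (nat_lit 5) (nat_lit 49) (nat_lit 5) (nat_lit 474) (nat_lit 423) (nat_lit 303)) (XT.lf (nat_lit 0) (nat_lit 30151226693) (nat_lit 152) (nat_lit 153029612) (nat_lit 228) (nat_lit 26778781201) (nat_lit 46) (nat_lit 5) (nat_lit 48) (nat_lit 5) (nat_lit 49) (nat_lit 5) (nat_lit 475) (nat_lit 423) (nat_lit 302)))) (XT.nd (nat_lit 156) (nat_lit 152) (nat_lit 0) (XT.nd (nat_lit 78) (nat_lit 76) (nat_lit 0) (XT.lf (nat_lit 0) (nat_lit 5412189811) (nat_lit 76) (nat_lit 40671734613) (nat_lit 152) (nat_lit 12925272366) (nat_lit 45) (nat_lit 5) (nat_lit 46) (nat_lit 5) (nat_lit 47) (nat_lit 4) (nat_lit 476) (nat_lit 423) (nat_lit 301)) (XT.lf (nat_lit 0) (nat_lit 2030235227) (nat_lit 152) (nat_lit 20744633128) (nat_lit 76) (nat_lit 38232470726) (nat_lit 44) (nat_lit 5) (nat_lit 46) (nat_lit 5) (nat_lit 45) (nat_lit 5) (nat_lit 477) (nat_lit 423) (nat_lit 300))) (XT.nd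 (nat_lit 78) (nat_lit 0) (nat_lit 0) (XT.lf (nat_lit 0) (nat_lit 13977372325) (nat_lit 152) (nat_lit 3535344197) (nat_lit 228) (nat_lit 45571399365) (nat_lit 42) (nat_lit 5) (nat_lit 44) (nat_lit 5) (nat_lit 45) (nat_lit 5) (nat_lit 478) (nat_lit 423) (nat_lit 299)) (XT.lf (nat_lit 0) (nat_lit 34381986220) (nat_lit 228) (nat_lit 14365939362) (nat_lit 76) (nat_lit 16486173206) (nat_lit 42) (nat_lit 5) (nat_lit 45) (nat_lit 5) (nat_lit 43) (nat_lit 4) (nat_lit 479) (nat_lit 423) (nat_lit 298))))))) (XT.nd (nat_lit 1092) (nat_lit 684) (nat_lit 0) (XT.nd (nat_lit 546) (nat_lit 380) (nat_lit 0) (XT.nd (nat_lit 234) (nat_lit 228) (nat_lit 0) (XT.nd (nat_lit 78) (nat_lit 228) (nat_lit 0) (XT.lf (nat_lit 0) (nat_lit 22774794760) (nat_lit 76) (nat_lit 29729058699) (nat_lit 152) (nat_lit 14967271124) (nat_lit 41) (nat_lit 5) (nat_lit 42) (nat_lit 5) (nat_lit 43) (nat_lit 4) (nat_lit 480) (nat_lit 423)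 (nat_lit 297)) (XT.nd (nat_lit 78) (nat_lit 152) (nat_lit 0) (XT.lf (nat_lit 0) (nat_lit 1899919626) (nat_lit 152) (nat_lit 7575337480) (nat_lit 76) (nat_lit 60331263864) (nat_lit 40) (nat_lit 5) (nat_lit 42) (nat_lit 5) (nat_lit 41) (nat_lit 5) (nat_lit 481) (nat_lit 423) (nat_lit 296)) (XT.lf (nat_lit 0) (nat_lit 19801988148) (nat_lit 228) (nat_lit 40239270757) (nat_lit 76) (nat_lit 12170434571) (nat_lit 38) (nat_lit 5) (nat_lit 41) (nat_lit 5) (nat_lit 39) (nat_lit 4) (nat_lit 482) (nat_lit 423) (nat_lit 295)))) (XT.nd (nat_lit 156) (nat_lit 152) (nat_lit 0) (XT.nd (nat_lit 78) (nat_lit 76) (nat_lit 0) (XT.lf (nat_lit 0) (nat_lit 38880735363) (nat_lit 228) (nat_lit 1135320391) (nat_lit 76) (nat_lit 34706990462) (nat_lit 38) (nat_lit 5) (nat_lit 41) (nat_lit 5) (nat_lit 39) (nat_lit 4) (nat_lit 483) (nat_lit 423) (nat_lit 294)) (XT.lf (nat_lit 0) (nat_lit 41236269752) (nat_lit 76) (nat_lit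 18317009664) (nat_lit 152) (nat_lit 17774694555) (nat_lit 37) (nat_lit 5) (nat_lit 38) (nat_lit 5) (nat_lit 39) (nat_lit 4) (nat_lit 484) (nat_lit 423) (nat_lit 293))) (XT.nd (nat_lit 78) (nat_lit 0) (nat_lit 0) (XT.lf (nat_lit 0) (nat_lit 1336997912) (nat_lit 152) (nat_lit 74263667540) (nat_lit 76) (nat_lit 4452599875) (nat_lit 35) (nat_lit 5) (nat_lit 37) (nat_lit 5) (nat_lit 36) (nat_lit 4) (nat_lit 485) (nat_lit 423) (nat_lit 292)) (XT.lf (nat_lit 0) (nat_lit 21724536236) (nat_lit 152) (nat_lit 32475368962) (nat_lit 76) (nat_lit 28654466560) (nat_lit 35) (nat_lit 5) (nat_lit 37) (nat_lit 5) (nat_lit 36) (nat_lit 4) (nat_lit 486) (nat_lit 423) (nat_lit 291))))) (XT.nd (nat_lit 234) (nat_lit 228) (nat_lit 0) (XT.nd (nat_lit 78) (nat_lit 76) (nat_lit 0) (XT.lf (nat_lit 0) (nat_lit 11772067903) (nat_lit 76) (nat_lit 31539443336) (nat_lit 152) (nat_lit 42475019574) (nat_lit 34) (nat_lit 5) (nat_lit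 35) (nat_lit 5) (nat_lit 36) (nat_lit 4) (nat_lit 487) (nat_lit 423) (nat_lit 290)) (XT.nd (nat_lit 78) (nat_lit 76) (nat_lit 0) (XT.lf (nat_lit 0) (nat_lit 59352405571) (nat_lit 76) (nat_lit 7171749776) (nat_lit 152) (nat_lit 22313826732) (nat_lit 34) (nat_lit 5) (nat_lit 35) (nat_lit 5) (nat_lit 36) (nat_lit 4) (nat_lit 488) (nat_lit 423) (nat_lit 289)) (XT.lf (nat_lit 0) (nat_lit 17536804169) (nat_lit 76) (nat_lit 73918385528) (nat_lit 76) (nat_lit 558928574) (nat_lit 33) (nat_lit 4) (nat_lit 34) (nat_lit 5) (nat_lit 34) (nat_lit 4) (nat_lit 489) (nat_lit 423) (nat_lit 288)))) (XT.nd (nat_lit 156) (nat_lit 76) (nat_lit 0) (XT.nd (nat_lit 78) (nat_lit 76) (nat_lit 0) (XT.lf (nat_lit 0) (nat_lit 22192072701) (nat_lit 152) (nat_lit 27870530506) (nat_lit 76) (nat_lit 45237983930) (nat_lit 32) (nat_lit 5) (nat_lit 34) (nat_lit 5) (nat_lit 33) (nat_lit 4) (nat_lit 490) (nat_lit 423) (nat_lit 287))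 (XT.lf (nat_lit 0) (nat_lit 21747045666) (nat_lit 76) (nat_lit 24650963190) (nat_lit 152) (nat_lit 52336104256) (nat_lit 31) (nat_lit 5) (nat_lit 32) (nat_lit 5) (nat_lit 33) (nat_lit 4) (nat_lit 491) (nat_lit 423) (nat_lit 286))) (XT.nd (nat_lit 78) (nat_lit 76) (nat_lit 0) (XT.lf (nat_lit 0) (nat_lit 72322344605) (nat_lit 152) (nat_lit 27548503850) (nat_lit 0) (nat_lit 2443062009) (nat_lit 31) (nat_lit 5) (nat_lit 33) (nat_lit 4) (nat_lit 31) (nat_lit 4) (nat_lit 492) (nat_lit 423) (nat_lit 285)) (XT.lf (nat_lit 0) (nat_lit 24743693464) (nat_lit 76) (nat_lit 75586446226) (nat_lit 76) (nat_lit 5703196072) (nat_lit 30) (nat_lit 4) (nat_lit 31) (nat_lit 5) (nat_lit 31) (nat_lit 4) (nat_lit 493) (nat_lit 423) (nat_lit 284)))))) (XT.nd (nat_lit 546) (nat_lit 304) (nat_lit 0) (XT.nd (nat_lit 234) (nat_lit 228) (nat_lit 0) (XT.nd (nat_lit 78) (nat_lit 76) (nat_lit 0) (XT.lf (nat_lit 0) (nat_lit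 19636893319) (nat_lit 152) (nat_lit 29631397477) (nat_lit 76) (nat_lit 60631434775) (nat_lit 29) (nat_lit 5) (nat_lit 31) (nat_lit 5) (nat_lit 30) (nat_lit 4) (nat_lit 494) (nat_lit 423) (nat_lit 283)) (XT.nd (nat_lit 78) (nat_lit 0) (nat_lit 0) (XT.lf (nat_lit 0) (nat_lit 25320842450) (nat_lit 76) (nat_lit 21123777025) (nat_lit 152) (nat_lit 67490525968) (nat_lit 28) (nat_lit 5) (nat_lit 29) (nat_lit 5) (nat_lit 30) (nat_lit 4) (nat_lit 495) (nat_lit 423) (nat_lit 282)) (XT.lf (nat_lit 0) (nat_lit 75231343710) (nat_lit 152) (nat_lit 34243484947) (nat_lit 0) (nat_lit 8665577232) (nat_lit 28) (nat_lit 5) (nat_lit 30) (nat_lit 4) (nat_lit 28) (nat_lit 4) (nat_lit 496) (nat_lit 423) (nat_lit 281)))) (XT.nd (nat_lit 156) (nat_lit 76) (nat_lit 0) (XT.nd (nat_lit 78) (nat_lit 76) (nat_lit 0) (XT.lf (nat_lit 0) (nat_lit 23237756257) (nat_lit 76) (nat_lit 82925868693) (nat_lit 76) (nat_lit 16356993530)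 (nat_lit 27) (nat_lit 4) (nat_lit 28) (nat_lit 5) (nat_lit 28) (nat_lit 4) (nat_lit 497) (nat_lit 423) (nat_lit 280)) (XT.lf (nat_lit 0) (nat_lit 11740445606) (nat_lit 152) (nat_lit 42503922324) (nat_lit 76) (nat_lit 72837150617) (nat_lit 26) (nat_lit 5) (nat_lit 28) (nat_lit 5) (nat_lit 27) (nat_lit 4) (nat_lit 498) (nat_lit 423) (nat_lit 279))) (XT.nd (nat_lit 78) (nat_lit 0) (nat_lit 0) (XT.lf (nat_lit 0) (nat_lit 17397321241) (nat_lit 76) (nat_lit 23564618626) (nat_lit 152) (nat_lit 90881672247) (nat_lit 25) (nat_lit 5) (nat_lit 26) (nat_lit 5) (nat_lit 27) (nat_lit 4) (nat_lit 499) (nat_lit 423) (nat_lit 278)) (XT.lf (nat_lit 0) (nat_lit 72508443986) (nat_lit 152) (nat_lit 55190717083) (nat_lit 0) (nat_lit 9101452665) (nat_lit 25) (nat_lit 5) (nat_lit 27) (nat_lit 4) (nat_lit 25) (nat_lit 4) (nat_lit 500) (nat_lit 423) (nat_lit 277))))) (XT.nd (nat_lit 234) (nat_lit 152) (nat_lit 0) (XT.nd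 (nat_lit 78) (nat_lit 76) (nat_lit 0) (XT.lf (nat_lit 0) (nat_lit 6855680707) (nat_lit 76) (nat_lit 99267337338) (nat_lit 76) (nat_lit 35857910280) (nat_lit 24) (nat_lit 4) (nat_lit 25) (nat_lit 5) (nat_lit 25) (nat_lit 4) (nat_lit 501) (nat_lit 423) (nat_lit 276)) (XT.nd (nat_lit 78) (nat_lit 76) (nat_lit 0) (XT.lf (nat_lit 0) (nat_lit 73915503237) (nat_lit 76) (nat_lit 68434947910) (nat_lit 76) (nat_lit 5023201103) (nat_lit 24) (nat_lit 4) (nat_lit 25) (nat_lit 5) (nat_lit 25) (nat_lit 4) (nat_lit 502) (nat_lit 423) (nat_lit 275)) (XT.lf (nat_lit 0) (nat_lit 26475299298) (nat_lit 152) (nat_lit 9139592531) (nat_lit 76) (nat_lit 117399891094) (nat_lit 23) (nat_lit 5) (nat_lit 25) (nat_lit 5) (nat_lit 24) (nat_lit 4) (nat_lit 503) (nat_lit 423) (nat_lit 274)))) (XT.nd (nat_lit 156) (nat_lit 76) (nat_lit 0) (XT.nd (nat_lit 78) (nat_lit 0) (nat_lit 0) (XT.lf (nat_lit 0) (nat_lit 60235862015) (nat_lit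 76) (nat_lit 82148808) (nat_lit 152) (nat_lit 98568937102) (nat_lit 22) (nat_lit 5) (nat_lit 23) (nat_lit 5) (nat_lit 24) (nat_lit 4) (nat_lit 504) (nat_lit 423) (nat_lit 273)) (XT.lf (nat_lit 0) (nat_lit 96589054749) (nat_lit 152) (nat_lit 32235958185) (nat_lit 0) (nat_lit 36190898501) (nat_lit 22) (nat_lit 5) (nat_lit 24) (nat_lit 4) (nat_lit 22) (nat_lit 4) (nat_lit 505) (nat_lit 423) (nat_lit 272))) (XT.nd (nat_lit 78) (nat_lit 0) (nat_lit 0) (XT.lf (nat_lit 0) (nat_lit 38733913360) (nat_lit 76) (nat_lit 96543595397) (nat_lit 76) (nat_lit 36143621565) (nat_lit 21) (nat_lit 4) (nat_lit 22) (nat_lit 5) (nat_lit 22) (nat_lit 4) (nat_lit 506) (nat_lit 423) (nat_lit 271)) (XT.lf (nat_lit 0) (nat_lit 114367116026) (nat_lit 76) (nat_lit 62077006124) (nat_lit 76) (nat_lit 1675301259) (nat_lit 21) (nat_lit 4) (nat_lit 22) (nat_lit 5) (nat_lit 22) (nat_lit 4) (nat_lit 507) (nat_lit 423) (nat_lit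 270))))))))
noncomputable def xc149 : XT := (XT.nd (nat_lit 2184) (nat_lit 76) (nat_lit 0) (XT.nd (nat_lit 1092) (nat_lit 456) (nat_lit 0) (XT.nd (nat_lit 546) (nat_lit 228) (nat_lit 0) (XT.nd (nat_lit 234) (nat_lit 228) (nat_lit 0) (XT.nd (nat_lit 78) (nat_lit 0) (nat_lit 0) (XT.lf (nat_lit 0) (nat_lit 8353631103) (nat_lit 76) (nat_lit 25186361370) (nat_lit 152) (nat_lit 151579278899) (nat_lit 19) (nat_lit 5) (nat_lit 20) (nat_lit 5) (nat_lit 21) (nat_lit 4) (nat_lit 508) (nat_lit 423) (nat_lit 269)) (XT.nd (nat_lit 78) (nat_lit 0) (nat_lit 0) (XT.lf (nat_lit 0) (nat_lit 71766541001) (nat_lit 152) (nat_lit 106397815685) (nat_lit 0) (nat_lit 14238042367) (nat_lit 19) (nat_lit 5) (nat_lit 21) (nat_lit 4) (nat_lit 19) (nat_lit 4) (nat_lit 509) (nat_lit 423) (nat_lit 268)) (XT.lf (nat_lit 0) (nat_lit 112315289508) (nat_lit 152) (nat_lit 32928483308) (nat_lit 0) (nat_lit 54785366749) (nat_lit 19)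 (nat_lit 5) (nat_lit 21) (nat_lit 4) (nat_lit 19) (nat_lit 4) (nat_lit 510) (nat_lit 423) (nat_lit 267)))) (XT.nd (nat_lit 156) (nat_lit 152) (nat_lit 0) (XT.nd (nat_lit 78) (nat_lit 0) (nat_lit 0) (XT.lf (nat_lit 0) (nat_lit 45672312764) (nat_lit 76) (nat_lit 109930312981) (nat_lit 76) (nat_lit 52399033912) (nat_lit 18) (nat_lit 4) (nat_lit 19) (nat_lit 5) (nat_lit 19) (nat_lit 4) (nat_lit 511) (nat_lit 423) (nat_lit 266)) (XT.lf (nat_lit 0) (nat_lit 129342610391) (nat_lit 76) (nat_lit 72267488850) (nat_lit 76) (nat_lit 14734918058) (nat_lit 18) (nat_lit 4) (nat_lit 19) (nat_lit 5) (nat_lit 19) (nat_lit 4) (nat_lit 512) (nat_lit 423) (nat_lit 265))) (XT.nd (nat_lit 78) (nat_lit 76) (nat_lit 0) (XT.lf (nat_lit 0) (nat_lit 24016422775) (nat_lit 152) (nat_lit 8300134314) (nat_lit 76) (nat_lit 192769707684) (nat_lit 17) (nat_lit 5) (nat_lit 19) (nat_lit 5) (nat_lit 18) (nat_lit 4) (nat_lit 513)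 (nat_lit 423) (nat_lit 264)) (XT.lf (nat_lit 0) (nat_lit 65577340442) (nat_lit 152) (nat_lit 157824668044) (nat_lit 0) (nat_lit 10782128408) (nat_lit 16) (nat_lit 5) (nat_lit 18) (nat_lit 4) (nat_lit 16) (nat_lit 4) (nat_lit 514) (nat_lit 423) (nat_lit 263))))) (XT.nd (nat_lit 234) (nat_lit 152) (nat_lit 0) (XT.nd (nat_lit 78) (nat_lit 76) (nat_lit 0) (XT.lf (nat_lit 0) (nat_lit 109887216592) (nat_lit 152) (nat_lit 78725198601) (nat_lit 0) (nat_lit 55090941854) (nat_lit 16) (nat_lit 5) (nat_lit 18) (nat_lit 4) (nat_lit 16) (nat_lit 4) (nat_lit 515) (nat_lit 423) (nat_lit 262)) (XT.nd (nat_lit 78) (nat_lit 0) (nat_lit 0) (XT.lf (nat_lit 0) (nat_lit 4468989984) (nat_lit 76) (nat_lit 152011714605) (nat_lit 76) (nat_lit 97214427768) (nat_lit 15) (nat_lit 4) (nat_lit 16) (nat_lit 5) (nat_lit 16) (nat_lit 4) (nat_lit 516) (nat_lit 423) (nat_lit 261)) (XT.lf (nat_lit 0) (nat_lit 94552812273) (nat_lit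 76) (nat_lit 112182676921) (nat_lit 76) (nat_lit 57384426180) (nat_lit 15) (nat_lit 4) (nat_lit 16) (nat_lit 5) (nat_lit 16) (nat_lit 4) (nat_lit 517) (nat_lit 423) (nat_lit 260)))) (XT.nd (nat_lit 156) (nat_lit 0) (nat_lit 0) (XT.nd (nat_lit 78) (nat_lit 152) (nat_lit 0) (XT.lf (nat_lit 0) (nat_lit 189137742956) (nat_lit 76) (nat_lit 70363720430) (nat_lit 76) (nat_lit 15564551685) (nat_lit 15) (nat_lit 4) (nat_lit 16) (nat_lit 5) (nat_lit 16) (nat_lit 4) (nat_lit 518) (nat_lit 423) (nat_lit 259)) (XT.lf (nat_lit 0) (nat_lit 1494792092) (nat_lit 76) (nat_lit 25966103090) (nat_lit 152) (nat_lit 259075304451) (nat_lit 13) (nat_lit 5) (nat_lit 14) (nat_lit 5) (nat_lit 15) (nat_lit 4) (nat_lit 519) (nat_lit 423) (nat_lit 258))) (XT.nd (nat_lit 78) (nat_lit 0) (nat_lit 0) (XT.lf (nat_lit 0) (nat_lit 73914565402) (nat_lit 152) (nat_lit 202839313914) (nat_lit 0) (nat_lit 21723255221) (nat_lit 13)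 (nat_lit 5) (nat_lit 15) (nat_lit 4) (nat_lit 13) (nat_lit 4) (nat_lit 520) (nat_lit 423) (nat_lit 257)) (XT.lf (nat_lit 0) (nat_lit 123115166899) (nat_lit 152) (nat_lit 116955635463) (nat_lit 0) (nat_lit 70923101474) (nat_lit 13) (nat_lit 5) (nat_lit 15) (nat_lit 4) (nat_lit 13) (nat_lit 4) (nat_lit 521) (nat_lit 423) (nat_lit 256)))))) (XT.nd (nat_lit 546) (nat_lit 228) (nat_lit 0) (XT.nd (nat_lit 234) (nat_lit 152) (nat_lit 0) (XT.nd (nat_lit 78) (nat_lit 76) (nat_lit 0) (XT.lf (nat_lit 0) (nat_lit 174774440324) (nat_lit 152) (nat_lit 26780483601) (nat_lit 0) (nat_lit 122581655619) (nat_lit 13) (nat_lit 5) (nat_lit 15) (nat_lit 4) (nat_lit 13) (nat_lit 4) (nat_lit 522) (nat_lit 423) (nat_lit 255)) (XT.nd (nat_lit 78) (nat_lit 0) (nat_lit 0) (XT.lf (nat_lit 0) (nat_lit 70145952978) (nat_lit 76) (nat_lit 159964605879) (nat_lit 76) (nat_lit 107771136145) (nat_lit 12) (nat_lit 4) (nat_lit 13)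 (nat_lit 5) (nat_lit 13) (nat_lit 4) (nat_lit 523) (nat_lit 423) (nat_lit 254)) (XT.lf (nat_lit 0) (nat_lit 172845929502) (nat_lit 76) (nat_lit 115819822730) (nat_lit 76) (nat_lit 63625700589) (nat_lit 12) (nat_lit 4) (nat_lit 13) (nat_lit 5) (nat_lit 13) (nat_lit 4) (nat_lit 524) (nat_lit 423) (nat_lit 253)))) (XT.nd (nat_lit 156) (nat_lit 0) (nat_lit 0) (XT.nd (nat_lit 78) (nat_lit 152) (nat_lit 0) (XT.lf (nat_lit 0) (nat_lit 280678485991) (nat_lit 76) (nat_lit 69469008302) (nat_lit 76) (nat_lit 17274264819) (nat_lit 12) (nat_lit 4) (nat_lit 13) (nat_lit 5) (nat_lit 13) (nat_lit 4) (nat_lit 525) (nat_lit 423) (nat_lit 252)) (XT.lf (nat_lit 0) (nat_lit 10435591293) (nat_lit 76) (nat_lit 20116080184) (nat_lit 152) (nat_lit 352724313446) (nat_lit 10) (nat_lit 5) (nat_lit 11) (nat_lit 5) (nat_lit 12) (nat_lit 4) (nat_lit 526) (nat_lit 423) (nat_lit 251))) (XT.nd (nat_lit 78) (nat_lit 0) (nat_lit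 0) (XT.lf (nat_lit 0) (nat_lit 82175323536) (nat_lit 152) (nat_lit 285169148190) (nat_lit 0) (nat_lit 32464943716) (nat_lit 10) (nat_lit 5) (nat_lit 12) (nat_lit 4) (nat_lit 10) (nat_lit 4) (nat_lit 527) (nat_lit 423) (nat_lit 250)) (XT.lf (nat_lit 0) (nat_lit 136708815332) (nat_lit 152) (nat_lit 193446344992) (nat_lit 0) (nat_lit 86997924334) (nat_lit 10) (nat_lit 5) (nat_lit 12) (nat_lit 4) (nat_lit 10) (nat_lit 4) (nat_lit 528) (nat_lit 423) (nat_lit 249))))) (XT.nd (nat_lit 234) (nat_lit 152) (nat_lit 0) (XT.nd (nat_lit 78) (nat_lit 76) (nat_lit 0) (XT.lf (nat_lit 0) (nat_lit 193967920126) (nat_lit 152) (nat_lit 97139528023) (nat_lit 0) (nat_lit 144256542290) (nat_lit 10) (nat_lit 5) (nat_lit 12) (nat_lit 4) (nat_lit 10) (nat_lit 4) (nat_lit 529) (nat_lit 423) (nat_lit 248)) (XT.nd (nat_lit 78) (nat_lit 0) (nat_lit 0) (XT.lf (nat_lit 0) (nat_lit 4112221429) (nat_lit 76) (nat_lit 250040950991)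 (nat_lit 76) (nat_lit 200329109501) (nat_lit 9) (nat_lit 4) (nat_lit 10) (nat_lit 5) (nat_lit 10) (nat_lit 4) (nat_lit 530) (nat_lit 423) (nat_lit 247)) (XT.lf (nat_lit 0) (nat_lit 113797030952) (nat_lit 76) (nat_lit 205194767284) (nat_lit 76) (nat_lit 155482484219) (nat_lit 9) (nat_lit 4) (nat_lit 10) (nat_lit 5) (nat_lit 10) (nat_lit 4) (nat_lit 531) (nat_lit 423) (nat_lit 246)))) (XT.nd (nat_lit 156) (nat_lit 152) (nat_lit 0) (XT.nd (nat_lit 78) (nat_lit 0) (nat_lit 0) (XT.lf (nat_lit 0) (nat_lit 228964183362) (nat_lit 76) (nat_lit 158107225310) (nat_lit 76) (nat_lit 108394521697) (nat_lit 9) (nat_lit 4) (nat_lit 10) (nat_lit 5) (nat_lit 10) (nat_lit 4) (nat_lit 532) (nat_lit 423) (nat_lit 245)) (XT.lf (nat_lit 0) (nat_lit 349887886165) (nat_lit 76) (nat_lit 108666211876) (nat_lit 76) (nat_lit 58953107741) (nat_lit 9) (nat_lit 4) (nat_lit 10) (nat_lit 5) (nat_lit 10) (nat_lit 4) (nat_lit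 533) (nat_lit 423) (nat_lit 244))) (XT.nd (nat_lit 78) (nat_lit 152) (nat_lit 0) (XT.lf (nat_lit 0) (nat_lit 476856052939) (nat_lit 76) (nat_lit 56754010281) (nat_lit 76) (nat_lit 7040524696) (nat_lit 9) (nat_lit 4) (nat_lit 10) (nat_lit 5) (nat_lit 10) (nat_lit 4) (nat_lit 534) (nat_lit 423) (nat_lit 243)) (XT.lf (nat_lit 0) (nat_lit 45949385861) (nat_lit 76) (nat_lit 715606690) (nat_lit 152) (nat_lit 518213263068) (nat_lit 7) (nat_lit 5) (nat_lit 8) (nat_lit 5) (nat_lit 9) (nat_lit 4) (nat_lit 535) (nat_lit 423) (nat_lit 242))))))) (XT.nd (nat_lit 54288) (nat_lit 0) (nat_lit 6840) (XT.nd (nat_lit 53742) (nat_lit 0) (nat_lit 9120) (XT.nd (nat_lit 234) (nat_lit 76) (nat_lit 0) (XT.nd (nat_lit 78) (nat_lit 0) (nat_lit 0) (XT.lf (nat_lit 0) (nat_lit 104823940186) (nat_lit 152) (nat_lit 427910269558) (nat_lit 0) (nat_lit 57477087942) (nat_lit 7) (nat_lit 5) (nat_lit 9) (nat_lit 4) (nat_lit 7)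 (nat_lit 4) (nat_lit 536) (nat_lit 423) (nat_lit 241)) (XT.nd (nat_lit 78) (nat_lit 0) (nat_lit 0) (XT.lf (nat_lit 0) (nat_lit 165901775927) (nat_lit 152) (nat_lit 332354059046) (nat_lit 0) (nat_lit 118554609865) (nat_lit 7) (nat_lit 5) (nat_lit 9) (nat_lit 4) (nat_lit 7) (nat_lit 4) (nat_lit 537) (nat_lit 423) (nat_lit 240)) (XT.lf (nat_lit 0) (nat_lit 230032750569) (nat_lit 152) (nat_lit 232021550807) (nat_lit 0) (nat_lit 182685285630) (nat_lit 7) (nat_lit 5) (nat_lit 9) (nat_lit 4) (nat_lit 7) (nat_lit 4) (nat_lit 538) (nat_lit 423) (nat_lit 239)))) (XT.nd (nat_lit 156) (nat_lit 76) (nat_lit 0) (XT.nd (nat_lit 78) (nat_lit 0) (nat_lit 0) (XT.lf (nat_lit 0) (nat_lit 297369556907) (nat_lit 152) (nat_lit 126673857918) (nat_lit 0) (nat_lit 250021807325) (nat_lit 7) (nat_lit 5) (nat_lit 9) (nat_lit 4) (nat_lit 7) (nat_lit 4) (nat_lit 539) (nat_lit 423) (nat_lit 238)) (XT.lf (nat_lit 0) (nat_lit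 368072520671) (nat_lit 152) (nat_lit 16060152539) (nat_lit 0) (nat_lit 320724500000) (nat_lit 7) (nat_lit 5) (nat_lit 9) (nat_lit 4) (nat_lit 7) (nat_lit 4) (nat_lit 540) (nat_lit 423) (nat_lit 237))) (XT.nd (nat_lit 78) (nat_lit 0) (nat_lit 0) (XT.lf (nat_lit 0) (nat_lit 103392124991) (nat_lit 76) (nat_lit 340532098086) (nat_lit 76) (nat_lit 293183819235) (nat_lit 6) (nat_lit 4) (nat_lit 7) (nat_lit 5) (nat_lit 7) (nat_lit 4) (nat_lit 541) (nat_lit 423) (nat_lit 236)) (XT.lf (nat_lit 0) (nat_lit 229373302894) (nat_lit 76) (nat_lit 294466554688) (nat_lit 76) (nat_lit 247118029952) (nat_lit 6) (nat_lit 4) (nat_lit 7) (nat_lit 5) (nat_lit 7) (nat_lit 4) (nat_lit 542) (nat_lit 423) (nat_lit 235))))) (XT.nd (nat_lit 234) (nat_lit 0) (nat_lit 0) (XT.nd (nat_lit 78) (nat_lit 760) (nat_lit 0) (XT.lf (nat_lit 0) (nat_lit 3148410854) (nat_lit 0) (nat_lit 3148410854) (nat_lit 684) (nat_lit 385758845)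 (nat_lit 136) (nat_lit 5) (nat_lit 136) (nat_lit 3) (nat_lit 145) (nat_lit 3) (nat_lit 424) (nat_lit 424) (nat_lit 352)) (XT.nd (nat_lit 78) (nat_lit 760) (nat_lit 0) (XT.lf (nat_lit 0) (nat_lit 13167525654) (nat_lit 0) (nat_lit 107409840) (nat_lit 684) (nat_lit 405879873) (nat_lit 136) (nat_lit 5) (nat_lit 136) (nat_lit 3) (nat_lit 145) (nat_lit 3) (nat_lit 425) (nat_lit 424) (nat_lit 351)) (XT.lf (nat_lit 0) (nat_lit 159069769) (nat_lit 760) (nat_lit 7542454713) (nat_lit 836) (nat_lit 6301737926) (nat_lit 126) (nat_lit 5) (nat_lit 136) (nat_lit 5) (nat_lit 137) (nat_lit 5) (nat_lit 426) (nat_lit 424) (nat_lit 350)))) (XT.nd (nat_lit 156) (nat_lit 0) (nat_lit 76) (XT.nd (nat_lit 78) (nat_lit 0) (nat_lit 76) (XT.lf (nat_lit 0) (nat_lit 726479978) (nat_lit 760) (nat_lit 562168088) (nat_lit 836) (nat_lit 13053467219) (nat_lit 126) (nat_lit 5) (nat_lit 136) (nat_lit 5) (nat_lit 137) (nat_lit 5)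 (nat_lit 427) (nat_lit 424) (nat_lit 349)) (XT.lf (nat_lit 0) (nat_lit 1496469454) (nat_lit 760) (nat_lit 7803025364) (nat_lit 836) (nat_lit 5389713966) (nat_lit 127) (nat_lit 5) (nat_lit 137) (nat_lit 5) (nat_lit 138) (nat_lit 5) (nat_lit 428) (nat_lit 424) (nat_lit 348))) (XT.nd (nat_lit 78) (nat_lit 0) (nat_lit 76) (XT.lf (nat_lit 0) (nat_lit 2315058008) (nat_lit 760) (nat_lit 361952434) (nat_lit 836) (nat_lit 12376149554) (nat_lit 127) (nat_lit 5) (nat_lit 137) (nat_lit 5) (nat_lit 138) (nat_lit 5) (nat_lit 429) (nat_lit 424) (nat_lit 347)) (XT.lf (nat_lit 0) (nat_lit 3343661767) (nat_lit 760) (nat_lit 7815331533) (nat_lit 836) (nat_lit 4267868813) (nat_lit 128) (nat_lit 5) (nat_lit 138) (nat_lit 5) (nat_lit 139) (nat_lit 5) (nat_lit 430) (nat_lit 424) (nat_lit 346)))))) (XT.nd (nat_lit 546) (nat_lit 1444) (nat_lit 0) (XT.nd (nat_lit 234) (nat_lit 988) (nat_lit 0) (XT.nd (nat_lit 78) (nat_lit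 0) (nat_lit 76) (XT.lf (nat_lit 76) (nat_lit 123137244) (nat_lit 0) (nat_lit 4333706923) (nat_lit 836) (nat_lit 11360755019) (nat_lit 129) (nat_lit 5) (nat_lit 128) (nat_lit 5) (nat_lit 139) (nat_lit 5) (nat_lit 431) (nat_lit 424) (nat_lit 345)) (XT.nd (nat_lit 78) (nat_lit 0) (nat_lit 0) (XT.lf (nat_lit 0) (nat_lit 5786300416) (nat_lit 760) (nat_lit 7552679289) (nat_lit 836) (nat_lit 2880869595) (nat_lit 129) (nat_lit 5) (nat_lit 139) (nat_lit 5) (nat_lit 140) (nat_lit 5) (nat_lit 432) (nat_lit 424) (nat_lit 344)) (XT.lf (nat_lit 76) (nat_lit 941092071) (nat_lit 0) (nat_lit 6309598579) (nat_lit 836) (nat_lit 9388104806) (nat_lit 130) (nat_lit 5) (nat_lit 129) (nat_lit 5) (nat_lit 140) (nat_lit 5) (nat_lit 433) (nat_lit 424) (nat_lit 343)))) (XT.nd (nat_lit 156) (nat_lit 380) (nat_lit 0) (XT.nd (nat_lit 78) (nat_lit 760) (nat_lit 0) (XT.lf (nat_lit 0) (nat_lit 8918401911) (nat_lit 760) (nat_lit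 6984182213) (nat_lit 76) (nat_lit 1169606002) (nat_lit 130) (nat_lit 5) (nat_lit 140) (nat_lit 5) (nat_lit 131) (nat_lit 5) (nat_lit 434) (nat_lit 424) (nat_lit 342)) (XT.lf (nat_lit 0) (nat_lit 2115152712) (nat_lit 760) (nat_lit 8674968516) (nat_lit 836) (nat_lit 6731108158) (nat_lit 120) (nat_lit 5) (nat_lit 130) (nat_lit 5) (nat_lit 131) (nat_lit 5) (nat_lit 435) (nat_lit 424) (nat_lit 341))) (XT.nd (nat_lit 78) (nat_lit 380) (nat_lit 0) (XT.lf (nat_lit 0) (nat_lit 11898032870) (nat_lit 760) (nat_lit 960374315) (nat_lit 836) (nat_lit 5129170087) (nat_lit 120) (nat_lit 5) (nat_lit 130) (nat_lit 5) (nat_lit 131) (nat_lit 5) (nat_lit 436) (nat_lit 424) (nat_lit 340)) (XT.lf (nat_lit 0) (nat_lit 3685302904) (nat_lit 380) (nat_lit 11499266664) (nat_lit 456) (nat_lit 3284955304) (nat_lit 115) (nat_lit 5) (nat_lit 120) (nat_lit 5) (nat_lit 121) (nat_lit 5) (nat_lit 437) (nat_lit 424) (nat_lit 339)))))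 (XT.nd (nat_lit 312) (nat_lit 608) (nat_lit 0) (XT.nd (nat_lit 156) (nat_lit 380) (nat_lit 0) (XT.nd (nat_lit 78) (nat_lit 456) (nat_lit 0) (XT.lf (nat_lit 0) (nat_lit 14130279380) (nat_lit 380) (nat_lit 3601307559) (nat_lit 456) (nat_lit 1238760737) (nat_lit 115) (nat_lit 5) (nat_lit 120) (nat_lit 5) (nat_lit 121) (nat_lit 5) (nat_lit 438) (nat_lit 424) (nat_lit 338)) (XT.lf (nat_lit 0) (nat_lit 1031850639) (nat_lit 456) (nat_lit 13808836956) (nat_lit 76) (nat_lit 4647257303) (nat_lit 109) (nat_lit 5) (nat_lit 115) (nat_lit 5) (nat_lit 110) (nat_lit 5) (nat_lit 439) (nat_lit 424) (nat_lit 337))) (XT.nd (nat_lit 78) (nat_lit 380) (nat_lit 0) (XT.lf (nat_lit 0) (nat_lit 3503523863) (nat_lit 456) (nat_lit 3229739801) (nat_lit 76) (nat_lit 13290689314) (nat_lit 109) (nat_lit 5) (nat_lit 115) (nat_lit 5) (nat_lit 110) (nat_lit 5) (nat_lit 440) (nat_lit 424) (nat_lit 336)) (XT.lf (nat_lit 0) (nat_lit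 6242925360) (nat_lit 456) (nat_lit 12485877592) (nat_lit 76) (nat_lit 1850755532) (nat_lit 104) (nat_lit 5) (nat_lit 110) (nat_lit 5) (nat_lit 105) (nat_lit 5) (nat_lit 441) (nat_lit 424) (nat_lit 335)))) (XT.nd (nat_lit 156) (nat_lit 304) (nat_lit 0) (XT.nd (nat_lit 78) (nat_lit 304) (nat_lit 0) (XT.lf (nat_lit 0) (nat_lit 9273089785) (nat_lit 456) (nat_lit 1189807287) (nat_lit 76) (nat_lit 10692361598) (nat_lit 104) (nat_lit 5) (nat_lit 110) (nat_lit 5) (nat_lit 105) (nat_lit 5) (nat_lit 442) (nat_lit 424) (nat_lit 334)) (XT.lf (nat_lit 0) (nat_lit 11010399771) (nat_lit 304) (nat_lit 1604663569) (nat_lit 380) (nat_lit 9136669336) (nat_lit 100) (nat_lit 5) (nat_lit 104) (nat_lit 5) (nat_lit 105) (nat_lit 5) (nat_lit 443) (nat_lit 424) (nat_lit 333))) (XT.nd (nat_lit 78) (nat_lit 0) (nat_lit 0) (XT.lf (nat_lit 0) (nat_lit 1395679562) (nat_lit 304) (nat_lit 14879614790) (nat_lit 380) (nat_lit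 6095181765) (nat_lit 96) (nat_lit 5) (nat_lit 100) (nat_lit 5) (nat_lit 101) (nat_lit 5) (nat_lit 444) (nat_lit 424) (nat_lit 332)) (XT.lf (nat_lit 0) (nat_lit 14472099185) (nat_lit 304) (nat_lit 5843284559) (nat_lit 380) (nat_lit 2694934140) (nat_lit 96) (nat_lit 5) (nat_lit 100) (nat_lit 5) (nat_lit 101) (nat_lit 5) (nat_lit 445) (nat_lit 424) (nat_lit 331))))))))
noncomputable def xc150 : XT := (XT.nd (nat_lit 2184) (nat_lit 1976) (nat_lit 0) (XT.nd (nat_lit 1092) (nat_lit 1444) (nat_lit 0) (XT.nd (nat_lit 546) (nat_lit 912) (nat_lit 0) (XT.nd (nat_lit 234) (nat_lit 532) (nat_lit 0) (XT.nd (nat_lit 78) (nat_lit 304) (nat_lit 0) (XT.lf (nat_lit 0) (nat_lit 967472792) (nat_lit 304) (nat_lit 19094467678) (nat_lit 76) (nat_lit 3613522987) (nat_lit 92) (nat_lit 5) (nat_lit 96) (nat_lit 5) (nat_lit 93) (nat_lit 5) (nat_lit 446) (nat_lit 424) (nat_lit 330)) (XT.nd (nat_lit 78) (nat_lit 304) (nat_lit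 0) (XT.lf (nat_lit 0) (nat_lit 4954864803) (nat_lit 304) (nat_lit 5869559113) (nat_lit 76) (nat_lit 13535614843) (nat_lit 92) (nat_lit 5) (nat_lit 96) (nat_lit 5) (nat_lit 93) (nat_lit 5) (nat_lit 447) (nat_lit 424) (nat_lit 329)) (XT.lf (nat_lit 0) (nat_lit 8268692159) (nat_lit 304) (nat_lit 992194855) (nat_lit 380) (nat_lit 15811995660) (nat_lit 88) (nat_lit 5) (nat_lit 92) (nat_lit 5) (nat_lit 93) (nat_lit 5) (nat_lit 448) (nat_lit 424) (nat_lit 328)))) (XT.nd (nat_lit 156) (nat_lit 304) (nat_lit 0) (XT.nd (nat_lit 78) (nat_lit 228) (nat_lit 0) (XT.lf (nat_lit 0) (nat_lit 14019332077) (nat_lit 380) (nat_lit 2658874779) (nat_lit 76) (nat_lit 9131308580) (nat_lit 88) (nat_lit 5) (nat_lit 93) (nat_lit 5) (nat_lit 89) (nat_lit 5) (nat_lit 449) (nat_lit 424) (nat_lit 327)) (XT.lf (nat_lit 0) (nat_lit 12567501392) (nat_lit 228) (nat_lit 6651529984) (nat_lit 304) (nat_lit 7353784473) (nat_lit 85)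 (nat_lit 5) (nat_lit 88) (nat_lit 5) (nat_lit 89) (nat_lit 5) (nat_lit 450) (nat_lit 424) (nat_lit 326))) (XT.nd (nat_lit 78) (nat_lit 76) (nat_lit 0) (XT.lf (nat_lit 0) (nat_lit 1241572588) (nat_lit 228) (nat_lit 23553870685) (nat_lit 304) (nat_lit 2573004112) (nat_lit 82) (nat_lit 5) (nat_lit 85) (nat_lit 5) (nat_lit 86) (nat_lit 5) (nat_lit 451) (nat_lit 424) (nat_lit 325)) (XT.lf (nat_lit 0) (nat_lit 2709762181) (nat_lit 304) (nat_lit 10618572353) (nat_lit 76) (nat_lit 14856555122) (nat_lit 81) (nat_lit 5) (nat_lit 85) (nat_lit 5) (nat_lit 82) (nat_lit 5) (nat_lit 452) (nat_lit 424) (nat_lit 324))))) (XT.nd (nat_lit 234) (nat_lit 456) (nat_lit 0) (XT.nd (nat_lit 78) (nat_lit 228) (nat_lit 0) (XT.lf (nat_lit 0) (nat_lit 5796610018) (nat_lit 228) (nat_lit 2455653740) (nat_lit 304) (nat_lit 20783680072) (nat_lit 78) (nat_lit 5) (nat_lit 81) (nat_lit 5) (nat_lit 82) (nat_lit 5) (nat_lit 453)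 (nat_lit 424) (nat_lit 323)) (XT.nd (nat_lit 78) (nat_lit 228) (nat_lit 0) (XT.lf (nat_lit 0) (nat_lit 14386300459) (nat_lit 304) (nat_lit 6674253313) (nat_lit 76) (nat_lit 8853278483) (nat_lit 78) (nat_lit 5) (nat_lit 82) (nat_lit 5) (nat_lit 79) (nat_lit 5) (nat_lit 454) (nat_lit 424) (nat_lit 322)) (XT.lf (nat_lit 0) (nat_lit 11020059684) (nat_lit 228) (nat_lit 10011414047) (nat_lit 304) (nat_lit 9793921580) (nat_lit 75) (nat_lit 5) (nat_lit 78) (nat_lit 5) (nat_lit 79) (nat_lit 5) (nat_lit 455) (nat_lit 424) (nat_lit 321)))) (XT.nd (nat_lit 156) (nat_lit 228) (nat_lit 0) (XT.nd (nat_lit 78) (nat_lit 228) (nat_lit 0) (XT.lf (nat_lit 0) (nat_lit 28140884018) (nat_lit 304) (nat_lit 1984381631) (nat_lit 76) (nat_lit 1650673809) (nat_lit 75) (nat_lit 5) (nat_lit 79) (nat_lit 5) (nat_lit 76) (nat_lit 5) (nat_lit 456) (nat_lit 424) (nat_lit 320)) (XT.lf (nat_lit 0) (nat_lit 3171795859) (nat_lit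 228) (nat_lit 15704253869) (nat_lit 76) (nat_lit 13874218402) (nat_lit 72) (nat_lit 5) (nat_lit 75) (nat_lit 5) (nat_lit 73) (nat_lit 5) (nat_lit 457) (nat_lit 424) (nat_lit 319))) (XT.nd (nat_lit 78) (nat_lit 0) (nat_lit 0) (XT.lf (nat_lit 0) (nat_lit 3361506352) (nat_lit 228) (nat_lit 6914657642) (nat_lit 304) (nat_lit 23490204493) (nat_lit 69) (nat_lit 5) (nat_lit 72) (nat_lit 5) (nat_lit 73) (nat_lit 5) (nat_lit 458) (nat_lit 424) (nat_lit 318)) (XT.lf (nat_lit 0) (nat_lit 18087014027) (nat_lit 304) (nat_lit 10997946050) (nat_lit 76) (nat_lit 5730752135) (nat_lit 69) (nat_lit 5) (nat_lit 73) (nat_lit 5) (nat_lit 70) (nat_lit 5) (nat_lit 459) (nat_lit 424) (nat_lit 317)))))) (XT.nd (nat_lit 546) (nat_lit 684) (nat_lit 0) (XT.nd (nat_lit 234) (nat_lit 380) (nat_lit 0) (XT.nd (nat_lit 78) (nat_lit 228) (nat_lit 0) (XT.lf (nat_lit 0) (nat_lit 9561266985) (nat_lit 152) (nat_lit 16982928180)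 (nat_lit 228) (nat_lit 9360539983) (nat_lit 67) (nat_lit 5) (nat_lit 69) (nat_lit 5) (nat_lit 70) (nat_lit 5) (nat_lit 460) (nat_lit 424) (nat_lit 316)) (XT.nd (nat_lit 78) (nat_lit 228) (nat_lit 0) (XT.lf (nat_lit 0) (nat_lit 31519723269) (nat_lit 152) (nat_lit 4084084371) (nat_lit 228) (nat_lit 1435424359) (nat_lit 67) (nat_lit 5) (nat_lit 69) (nat_lit 5) (nat_lit 70) (nat_lit 5) (nat_lit 461) (nat_lit 424) (nat_lit 315)) (XT.lf (nat_lit 0) (nat_lit 7074509831) (nat_lit 228) (nat_lit 21601550251) (nat_lit 76) (nat_lit 9528571616) (nat_lit 64) (nat_lit 5) (nat_lit 67) (nat_lit 5) (nat_lit 65) (nat_lit 5) (nat_lit 462) (nat_lit 424) (nat_lit 314)))) (XT.nd (nat_lit 156) (nat_lit 228) (nat_lit 0) (XT.nd (nat_lit 78) (nat_lit 0) (nat_lit 0) (XT.lf (nat_lit 0) (nat_lit 513882264) (nat_lit 152) (nat_lit 15611423210) (nat_lit 228) (nat_lit 23293640304) (nat_lit 62) (nat_lit 5) (nat_lit 64) (nat_lit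 5) (nat_lit 65) (nat_lit 5) (nat_lit 463) (nat_lit 424) (nat_lit 313)) (XT.lf (nat_lit 0) (nat_lit 24474862895) (nat_lit 152) (nat_lit 1513376653) (nat_lit 228) (nat_lit 14687757222) (nat_lit 62) (nat_lit 5) (nat_lit 64) (nat_lit 5) (nat_lit 65) (nat_lit 5) (nat_lit 464) (nat_lit 424) (nat_lit 312))) (XT.nd (nat_lit 78) (nat_lit 76) (nat_lit 0) (XT.lf (nat_lit 0) (nat_lit 7665927296) (nat_lit 152) (nat_lit 28999571223) (nat_lit 228) (nat_lit 5314343966) (nat_lit 60) (nat_lit 5) (nat_lit 62) (nat_lit 5) (nat_lit 63) (nat_lit 5) (nat_lit 465) (nat_lit 424) (nat_lit 311)) (XT.lf (nat_lit 0) (nat_lit 4680545338) (nat_lit 228) (nat_lit 10156324412) (nat_lit 76) (nat_lit 28493591118) (nat_lit 59) (nat_lit 5) (nat_lit 62) (nat_lit 5) (nat_lit 60) (nat_lit 5) (nat_lit 466) (nat_lit 424) (nat_lit 310))))) (XT.nd (nat_lit 234) (nat_lit 380) (nat_lit 0) (XT.nd (nat_lit 78) (nat_lit 152) (nat_lit 0) (XT.lf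 (nat_lit 0) (nat_lit 15240551234) (nat_lit 228) (nat_lit 29126030161) (nat_lit 76) (nat_lit 365475244) (nat_lit 57) (nat_lit 5) (nat_lit 60) (nat_lit 5) (nat_lit 58) (nat_lit 5) (nat_lit 467) (nat_lit 424) (nat_lit 309)) (XT.nd (nat_lit 78) (nat_lit 152) (nat_lit 0) (XT.lf (nat_lit 0) (nat_lit 26740995685) (nat_lit 228) (nat_lit 3441643623) (nat_lit 76) (nat_lit 16000471872) (nat_lit 57) (nat_lit 5) (nat_lit 60) (nat_lit 5) (nat_lit 58) (nat_lit 5) (nat_lit 468) (nat_lit 424) (nat_lit 308)) (XT.lf (nat_lit 0) (nat_lit 24295460103) (nat_lit 152) (nat_lit 14894978578) (nat_lit 228) (nat_lit 8497581799) (nat_lit 55) (nat_lit 5) (nat_lit 57) (nat_lit 5) (nat_lit 58) (nat_lit 5) (nat_lit 469) (nat_lit 424) (nat_lit 307)))) (XT.nd (nat_lit 156) (nat_lit 152) (nat_lit 0) (XT.nd (nat_lit 78) (nat_lit 0) (nat_lit 0) (XT.lf (nat_lit 0) (nat_lit 3041142514) (nat_lit 228) (nat_lit 44924370089) (nat_lit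 76) (nat_lit 1293186220) (nat_lit 52) (nat_lit 5) (nat_lit 55) (nat_lit 5) (nat_lit 53) (nat_lit 5) (nat_lit 470) (nat_lit 424) (nat_lit 306)) (XT.lf (nat_lit 0) (nat_lit 15512805151) (nat_lit 228) (nat_lit 17027575357) (nat_lit 76) (nat_lit 18328487249) (nat_lit 52) (nat_lit 5) (nat_lit 55) (nat_lit 5) (nat_lit 53) (nat_lit 5) (nat_lit 471) (nat_lit 424) (nat_lit 305))) (XT.nd (nat_lit 78) (nat_lit 0) (nat_lit 0) (XT.lf (nat_lit 0) (nat_lit 12660519983) (nat_lit 152) (nat_lit 16140185490) (nat_lit 228) (nat_lit 23749207636) (nat_lit 50) (nat_lit 5) (nat_lit 52) (nat_lit 5) (nat_lit 53) (nat_lit 5) (nat_lit 472) (nat_lit 424) (nat_lit 304)) (XT.lf (nat_lit 0) (nat_lit 43057995209) (nat_lit 228) (nat_lit 9906804470) (nat_lit 76) (nat_lit 1334961995) (nat_lit 50) (nat_lit 5) (nat_lit 53) (nat_lit 5) (nat_lit 51) (nat_lit 4) (nat_lit 473) (nat_lit 424) (nat_lit 303))))))) (XT.nd (nat_lit 1092)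 (nat_lit 836) (nat_lit 0) (XT.nd (nat_lit 546) (nat_lit 532) (nat_lit 0) (XT.nd (nat_lit 234) (nat_lit 304) (nat_lit 0) (XT.nd (nat_lit 78) (nat_lit 152) (nat_lit 0) (XT.lf (nat_lit 0) (nat_lit 2443857315) (nat_lit 152) (nat_lit 34140072151) (nat_lit 76) (nat_lit 19521030787) (nat_lit 48) (nat_lit 5) (nat_lit 50) (nat_lit 5) (nat_lit 49) (nat_lit 5) (nat_lit 474) (nat_lit 424) (nat_lit 302)) (XT.nd (nat_lit 78) (nat_lit 152) (nat_lit 0) (XT.lf (nat_lit 0) (nat_lit 16601783176) (nat_lit 152) (nat_lit 2413368177) (nat_lit 76) (nat_lit 38967762522) (nat_lit 48) (nat_lit 5) (nat_lit 50) (nat_lit 5) (nat_lit 49) (nat_lit 5) (nat_lit 475) (nat_lit 424) (nat_lit 301)) (XT.lf (nat_lit 0) (nat_lit 31913085470) (nat_lit 152) (nat_lit 48287797) (nat_lit 228) (nat_lit 27968704062) (nat_lit 46) (nat_lit 5) (nat_lit 48) (nat_lit 5) (nat_lit 49) (nat_lit 5) (nat_lit 476) (nat_lit 424) (nat_lit 300)))) (XT.nd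 (nat_lit 156) (nat_lit 152) (nat_lit 0) (XT.nd (nat_lit 78) (nat_lit 76) (nat_lit 0) (XT.lf (nat_lit 0) (nat_lit 5938266043) (nat_lit 76) (nat_lit 42590661174) (nat_lit 152) (nat_lit 13423673041) (nat_lit 45) (nat_lit 5) (nat_lit 46) (nat_lit 5) (nat_lit 47) (nat_lit 4) (nat_lit 477) (nat_lit 424) (nat_lit 299)) (XT.lf (nat_lit 0) (nat_lit 2268061661) (nat_lit 152) (nat_lit 21534041395) (nat_lit 76) (nat_lit 40248772694) (nat_lit 44) (nat_lit 5) (nat_lit 46) (nat_lit 5) (nat_lit 45) (nat_lit 5) (nat_lit 478) (nat_lit 424) (nat_lit 298))) (XT.nd (nat_lit 78) (nat_lit 0) (nat_lit 0) (XT.lf (nat_lit 0) (nat_lit 14920067179) (nat_lit 152) (nat_lit 3601915478) (nat_lit 228) (nat_lit 47709643650) (nat_lit 42) (nat_lit 5) (nat_lit 44) (nat_lit 5) (nat_lit 45) (nat_lit 5) (nat_lit 479) (nat_lit 424) (nat_lit 297)) (XT.lf (nat_lit 0) (nat_lit 36229991032) (nat_lit 228) (nat_lit 14847282858) (nat_lit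 76) (nat_lit 17412071363) (nat_lit 42) (nat_lit 5) (nat_lit 45) (nat_lit 5) (nat_lit 43) (nat_lit 4) (nat_lit 480) (nat_lit 424) (nat_lit 296))))) (XT.nd (nat_lit 234) (nat_lit 228) (nat_lit 0) (XT.nd (nat_lit 78) (nat_lit 228) (nat_lit 0) (XT.lf (nat_lit 0) (nat_lit 24146666139) (nat_lit 76) (nat_lit 31108786974) (nat_lit 152) (nat_lit 15582894778) (nat_lit 41) (nat_lit 5) (nat_lit 42) (nat_lit 5) (nat_lit 43) (nat_lit 4) (nat_lit 481) (nat_lit 424) (nat_lit 295)) (XT.nd (nat_lit 78) (nat_lit 152) (nat_lit 0) (XT.lf (nat_lit 0) (nat_lit 2117288366) (nat_lit 152) (nat_lit 7728016620) (nat_lit 76) (nat_lit 63445411992) (nat_lit 40) (nat_lit 5) (nat_lit 42) (nat_lit 5) (nat_lit 41) (nat_lit 5) (nat_lit 482) (nat_lit 424) (nat_lit 294)) (XT.lf (nat_lit 0) (nat_lit 20913705075) (nat_lit 228) (nat_lit 42024380465) (nat_lit 76) (nat_lit 12878100875) (nat_lit 38) (nat_lit 5) (nat_lit 41) (nat_lit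 5) (nat_lit 39) (nat_lit 4) (nat_lit 483) (nat_lit 424) (nat_lit 293)))) (XT.nd (nat_lit 156) (nat_lit 152) (nat_lit 0) (XT.nd (nat_lit 78) (nat_lit 76) (nat_lit 0) (XT.lf (nat_lit 0) (nat_lit 40940598340) (nat_lit 228) (nat_lit 976035144) (nat_lit 76) (nat_lit 36536763390) (nat_lit 38) (nat_lit 5) (nat_lit 41) (nat_lit 5) (nat_lit 39) (nat_lit 4) (nat_lit 484) (nat_lit 424) (nat_lit 292)) (XT.lf (nat_lit 0) (nat_lit 43510649809) (nat_lit 76) (nat_lit 19133923013) (nat_lit 152) (nat_lit 18544108526) (nat_lit 37) (nat_lit 5) (nat_lit 38) (nat_lit 5) (nat_lit 39) (nat_lit 4) (nat_lit 485) (nat_lit 424) (nat_lit 291))) (XT.nd (nat_lit 78) (nat_lit 0) (nat_lit 0) (XT.lf (nat_lit 0) (nat_lit 1518728218) (nat_lit 152) (nat_lit 77759825688) (nat_lit 76) (nat_lit 4771621733) (nat_lit 35) (nat_lit 5) (nat_lit 37) (nat_lit 5) (nat_lit 36) (nat_lit 4) (nat_lit 486) (nat_lit 424) (nat_lit 290)) (XT.lf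 (nat_lit 0) (nat_lit 22920172963) (nat_lit 152) (nat_lit 33892446716) (nat_lit 76) (nat_lit 30178991663) (nat_lit 35) (nat_lit 5) (nat_lit 37) (nat_lit 5) (nat_lit 36) (nat_lit 4) (nat_lit 487) (nat_lit 424) (nat_lit 289)))))) (XT.nd (nat_lit 546) (nat_lit 456) (nat_lit 0) (XT.nd (nat_lit 234) (nat_lit 228) (nat_lit 0) (XT.nd (nat_lit 78) (nat_lit 76) (nat_lit 0) (XT.lf (nat_lit 0) (nat_lit 12564028272) (nat_lit 76) (nat_lit 33020433421) (nat_lit 152) (nat_lit 44486018814) (nat_lit 34) (nat_lit 5) (nat_lit 35) (nat_lit 5) (nat_lit 36) (nat_lit 4) (nat_lit 488) (nat_lit 424) (nat_lit 288)) (XT.nd (nat_lit 78) (nat_lit 76) (nat_lit 0) (XT.lf (nat_lit 0) (nat_lit 62513699158) (nat_lit 76) (nat_lit 7438925758) (nat_lit 152) (nat_lit 23322135460) (nat_lit 34) (nat_lit 5) (nat_lit 35) (nat_lit 5) (nat_lit 36) (nat_lit 4) (nat_lit 489) (nat_lit 424) (nat_lit 287)) (XT.lf (nat_lit 0) (nat_lit 18607827966)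 (nat_lit 76) (nat_lit 77521904386) (nat_lit 76) (nat_lit 479995325) (nat_lit 33) (nat_lit 4) (nat_lit 34) (nat_lit 5) (nat_lit 34) (nat_lit 4) (nat_lit 490) (nat_lit 424) (nat_lit 286)))) (XT.nd (nat_lit 156) (nat_lit 76) (nat_lit 0) (XT.nd (nat_lit 78) (nat_lit 76) (nat_lit 0) (XT.lf (nat_lit 0) (nat_lit 23400208585) (nat_lit 152) (nat_lit 29075855693) (nat_lit 76) (nat_lit 47584618937) (nat_lit 32) (nat_lit 5) (nat_lit 34) (nat_lit 5) (nat_lit 33) (nat_lit 4) (nat_lit 491) (nat_lit 424) (nat_lit 285)) (XT.lf (nat_lit 0) (nat_lit 23019563782) (nat_lit 76) (nat_lit 25795076711) (nat_lit 152) (nat_lit 54851335366) (nat_lit 31) (nat_lit 5) (nat_lit 32) (nat_lit 5) (nat_lit 33) (nat_lit 4) (nat_lit 492) (nat_lit 424) (nat_lit 284))) (XT.nd (nat_lit 78) (nat_lit 76) (nat_lit 0) (XT.lf (nat_lit 0) (nat_lit 76031901746) (nat_lit 152) (nat_lit 28746283300) (nat_lit 0) (nat_lit 2646742898) (nat_lit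 31) (nat_lit 5) (nat_lit 33) (nat_lit 4) (nat_lit 31) (nat_lit 4) (nat_lit 493) (nat_lit 424) (nat_lit 283)) (XT.lf (nat_lit 0) (nat_lit 26157626368) (nat_lit 76) (nat_lit 79280770234) (nat_lit 76) (nat_lit 5892012693) (nat_lit 30) (nat_lit 4) (nat_lit 31) (nat_lit 5) (nat_lit 31) (nat_lit 4) (nat_lit 494) (nat_lit 424) (nat_lit 282))))) (XT.nd (nat_lit 312) (nat_lit 228) (nat_lit 0) (XT.nd (nat_lit 156) (nat_lit 76) (nat_lit 0) (XT.nd (nat_lit 78) (nat_lit 76) (nat_lit 0) (XT.lf (nat_lit 0) (nat_lit 20707556650) (nat_lit 152) (nat_lit 30941693733) (nat_lit 76) (nat_lit 63741015309) (nat_lit 29) (nat_lit 5) (nat_lit 31) (nat_lit 5) (nat_lit 30) (nat_lit 4) (nat_lit 495) (nat_lit 424) (nat_lit 281)) (XT.lf (nat_lit 0) (nat_lit 26755395712) (nat_lit 76) (nat_lit 22098674873) (nat_lit 152) (nat_lit 70773466148) (nat_lit 28) (nat_lit 5) (nat_lit 29) (nat_lit 5) (nat_lit 30) (nat_lit 4) (nat_lit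 496) (nat_lit 424) (nat_lit 280))) (XT.nd (nat_lit 78) (nat_lit 76) (nat_lit 0) (XT.lf (nat_lit 0) (nat_lit 79077186435) (nat_lit 152) (nat_lit 35792223060) (nat_lit 0) (nat_lit 9173798174) (nat_lit 28) (nat_lit 5) (nat_lit 30) (nat_lit 4) (nat_lit 28) (nat_lit 4) (nat_lit 497) (nat_lit 424) (nat_lit 279)) (XT.lf (nat_lit 0) (nat_lit 24560444137) (nat_lit 76) (nat_lit 86994135019) (nat_lit 76) (nat_lit 17087927088) (nat_lit 27) (nat_lit 4) (nat_lit 28) (nat_lit 5) (nat_lit 28) (nat_lit 4) (nat_lit 498) (nat_lit 424) (nat_lit 278)))) (XT.nd (nat_lit 156) (nat_lit 76) (nat_lit 0) (XT.nd (nat_lit 78) (nat_lit 76) (nat_lit 0) (XT.lf (nat_lit 0) (nat_lit 12407595753) (nat_lit 152) (nat_lit 44473322037) (nat_lit 76) (nat_lit 76550666198) (nat_lit 26) (nat_lit 5) (nat_lit 28) (nat_lit 5) (nat_lit 27) (nat_lit 4) (nat_lit 499) (nat_lit 424) (nat_lit 277)) (XT.lf (nat_lit 0) (nat_lit 18420470861) (nat_lit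 76) (nat_lit 24668271439) (nat_lit 152) (nat_lit 95343111249) (nat_lit 25) (nat_lit 5) (nat_lit 26) (nat_lit 5) (nat_lit 27) (nat_lit 4) (nat_lit 500) (nat_lit 424) (nat_lit 276))) (XT.nd (nat_lit 78) (nat_lit 76) (nat_lit 0) (XT.lf (nat_lit 0) (nat_lit 76209932674) (nat_lit 152) (nat_lit 57801625933) (nat_lit 0) (nat_lit 9625278777) (nat_lit 25) (nat_lit 5) (nat_lit 27) (nat_lit 4) (nat_lit 25) (nat_lit 4) (nat_lit 501) (nat_lit 424) (nat_lit 275)) (XT.lf (nat_lit 0) (nat_lit 7344694537) (nat_lit 76) (nat_lit 104159201743) (nat_lit 76) (nat_lit 37572338560) (nat_lit 24) (nat_lit 4) (nat_lit 25) (nat_lit 5) (nat_lit 25) (nat_lit 4) (nat_lit 502) (nat_lit 424) (nat_lit 274))))))))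
noncomputable def xc151 : XT := (XT.nd (nat_lit 2184) (nat_lit 304) (nat_lit 0) (XT.nd (nat_lit 1092) (nat_lit 456) (nat_lit 0) (XT.nd (nat_lit 546) (nat_lit 228) (nat_lit 0) (XT.nd (nat_lit 234) (nat_lit 228) (nat_lit 0) (XT.nd (nat_lit 78) (nat_lit 152) (nat_lit 0) (XT.lf (nat_lit 0) (nat_lit 77750544870) (nat_lit 76) (nat_lit 71788597723) (nat_lit 76) (nat_lit 5199630459) (nat_lit 24) (nat_lit 4) (nat_lit 25) (nat_lit 5) (nat_lit 25) (nat_lit 4) (nat_lit 503) (nat_lit 424) (nat_lit 273)) (XT.nd (nat_lit 78) (nat_lit 76) (nat_lit 0) (XT.lf (nat_lit 0) (nat_lit 27867958406) (nat_lit 152) (nat_lit 9461656418) (nat_lit 76) (nat_lit 123332459485) (nat_lit 23) (nat_lit 5) (nat_lit 25) (nat_lit 5) (nat_lit 24) (nat_lit 4) (nat_lit 504) (nat_lit 424) (nat_lit 272)) (XT.lf (nat_lit 0) (nat_lit 63380394796) (nat_lit 76) (nat_lit 21202477) (nat_lit 152) (nat_lit 103426310845) (nat_lit 22) (nat_lit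 5) (nat_lit 23) (nat_lit 5) (nat_lit 24) (nat_lit 4) (nat_lit 505) (nat_lit 424) (nat_lit 271)))) (XT.nd (nat_lit 156) (nat_lit 152) (nat_lit 0) (XT.nd (nat_lit 78) (nat_lit 76) (nat_lit 0) (XT.lf (nat_lit 0) (nat_lit 101483937563) (nat_lit 152) (nat_lit 33719078750) (nat_lit 0) (nat_lit 38060416421) (nat_lit 22) (nat_lit 5) (nat_lit 24) (nat_lit 4) (nat_lit 22) (nat_lit 4) (nat_lit 506) (nat_lit 424) (nat_lit 270)) (XT.lf (nat_lit 0) (nat_lit 40797210931) (nat_lit 76) (nat_lit 101308464232) (nat_lit 76) (nat_lit 37883294488) (nat_lit 21) (nat_lit 4) (nat_lit 22) (nat_lit 5) (nat_lit 22) (nat_lit 4) (nat_lit 507) (nat_lit 424) (nat_lit 269))) (XT.nd (nat_lit 78) (nat_lit 152) (nat_lit 0) (XT.lf (nat_lit 0) (nat_lit 120206045068) (nat_lit 76) (nat_lit 65121512683) (nat_lit 76) (nat_lit 1694772841) (nat_lit 21) (nat_lit 4) (nat_lit 22) (nat_lit 5) (nat_lit 22) (nat_lit 4) (nat_lit 508) (nat_lit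 424) (nat_lit 268)) (XT.lf (nat_lit 0) (nat_lit 8891968126) (nat_lit 76) (nat_lit 26386179824) (nat_lit 152) (nat_lit 159094026919) (nat_lit 19) (nat_lit 5) (nat_lit 20) (nat_lit 5) (nat_lit 21) (nat_lit 4) (nat_lit 509) (nat_lit 424) (nat_lit 267))))) (XT.nd (nat_lit 234) (nat_lit 152) (nat_lit 0) (XT.nd (nat_lit 78) (nat_lit 76) (nat_lit 0) (XT.lf (nat_lit 0) (nat_lit 75413996442) (nat_lit 152) (nat_lit 111600766864) (nat_lit 0) (nat_lit 15004797110) (nat_lit 19) (nat_lit 5) (nat_lit 21) (nat_lit 4) (nat_lit 19) (nat_lit 4) (nat_lit 510) (nat_lit 424) (nat_lit 266)) (XT.nd (nat_lit 78) (nat_lit 76) (nat_lit 0) (XT.lf (nat_lit 0) (nat_lit 117987366736) (nat_lit 152) (nat_lit 34463536422) (nat_lit 0) (nat_lit 57576875681) (nat_lit 19) (nat_lit 5) (nat_lit 21) (nat_lit 4) (nat_lit 19) (nat_lit 4) (nat_lit 511) (nat_lit 424) (nat_lit 265)) (XT.lf (nat_lit 0) (nat_lit 48065503147) (nat_lit 76)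 (nat_lit 115372595847) (nat_lit 76) (nat_lit 54960874579) (nat_lit 18) (nat_lit 4) (nat_lit 19) (nat_lit 5) (nat_lit 19) (nat_lit 4) (nat_lit 512) (nat_lit 424) (nat_lit 264)))) (XT.nd (nat_lit 156) (nat_lit 76) (nat_lit 0) (XT.nd (nat_lit 78) (nat_lit 76) (nat_lit 0) (XT.lf (nat_lit 0) (nat_lit 135914097811) (nat_lit 76) (nat_lit 75829213023) (nat_lit 76) (nat_lit 15416320124) (nat_lit 18) (nat_lit 4) (nat_lit 19) (nat_lit 5) (nat_lit 19) (nat_lit 4) (nat_lit 513) (nat_lit 424) (nat_lit 263)) (XT.lf (nat_lit 0) (nat_lit 25268265332) (nat_lit 152) (nat_lit 8614064807) (nat_lit 76) (nat_lit 202455695102) (nat_lit 17) (nat_lit 5) (nat_lit 19) (nat_lit 5) (nat_lit 18) (nat_lit 4) (nat_lit 514) (nat_lit 424) (nat_lit 262))) (XT.nd (nat_lit 78) (nat_lit 0) (nat_lit 0) (XT.lf (nat_lit 0) (nat_lit 68907121655) (nat_lit 152) (nat_lit 165614716378) (nat_lit 0) (nat_lit 11368958377) (nat_lit 16) (nat_lit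 5) (nat_lit 18) (nat_lit 4) (nat_lit 16) (nat_lit 4) (nat_lit 515) (nat_lit 424) (nat_lit 261)) (XT.lf (nat_lit 0) (nat_lit 115430067128) (nat_lit 152) (nat_lit 82565091799) (nat_lit 0) (nat_lit 57890939946) (nat_lit 16) (nat_lit 5) (nat_lit 18) (nat_lit 4) (nat_lit 16) (nat_lit 4) (nat_lit 516) (nat_lit 424) (nat_lit 260)))))) (XT.nd (nat_lit 546) (nat_lit 228) (nat_lit 0) (XT.nd (nat_lit 234) (nat_lit 152) (nat_lit 0) (XT.nd (nat_lit 78) (nat_lit 0) (nat_lit 0) (XT.lf (nat_lit 0) (nat_lit 4787251914) (nat_lit 76) (nat_lit 159565148865) (nat_lit 76) (nat_lit 102025103680) (nat_lit 15) (nat_lit 4) (nat_lit 16) (nat_lit 5) (nat_lit 16) (nat_lit 4) (nat_lit 517) (nat_lit 424) (nat_lit 259)) (XT.nd (nat_lit 78) (nat_lit 0) (nat_lit 0) (XT.lf (nat_lit 0) (nat_lit 99370750439) (nat_lit 76) (nat_lit 117746904605) (nat_lit 76) (nat_lit 60205985130) (nat_lit 15) (nat_lit 4) (nat_lit 16) (nat_lit 5)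 (nat_lit 16) (nat_lit 4) (nat_lit 518) (nat_lit 424) (nat_lit 258)) (XT.lf (nat_lit 0) (nat_lit 198680627772) (nat_lit 76) (nat_lit 73839138678) (nat_lit 76) (nat_lit 16297386547) (nat_lit 15) (nat_lit 4) (nat_lit 16) (nat_lit 5) (nat_lit 16) (nat_lit 4) (nat_lit 519) (nat_lit 424) (nat_lit 257)))) (XT.nd (nat_lit 156) (nat_lit 0) (nat_lit 0) (XT.nd (nat_lit 78) (nat_lit 0) (nat_lit 0) (XT.lf (nat_lit 0) (nat_lit 1655572973) (nat_lit 76) (nat_lit 27221557812) (nat_lit 152) (nat_lit 271983718081) (nat_lit 13) (nat_lit 5) (nat_lit 14) (nat_lit 5) (nat_lit 15) (nat_lit 4) (nat_lit 520) (nat_lit 424) (nat_lit 256)) (XT.lf (nat_lit 0) (nat_lit 77652064966) (nat_lit 152) (nat_lit 212897914837) (nat_lit 0) (nat_lit 22848921745) (nat_lit 13) (nat_lit 5) (nat_lit 15) (nat_lit 4) (nat_lit 13) (nat_lit 4) (nat_lit 521) (nat_lit 424) (nat_lit 255))) (XT.nd (nat_lit 78) (nat_lit 0) (nat_lit 0) (XT.lf (nat_lit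 0) (nat_lit 129310707428) (nat_lit 152) (nat_lit 122724022214) (nat_lit 0) (nat_lit 74506879180) (nat_lit 13) (nat_lit 5) (nat_lit 15) (nat_lit 4) (nat_lit 13) (nat_lit 4) (nat_lit 522) (nat_lit 424) (nat_lit 254)) (XT.lf (nat_lit 0) (nat_lit 183551050135) (nat_lit 152) (nat_lit 28043893475) (nat_lit 0) (nat_lit 128746569478) (nat_lit 13) (nat_lit 5) (nat_lit 15) (nat_lit 4) (nat_lit 13) (nat_lit 4) (nat_lit 523) (nat_lit 424) (nat_lit 253))))) (XT.nd (nat_lit 234) (nat_lit 152) (nat_lit 0) (XT.nd (nat_lit 78) (nat_lit 0) (nat_lit 0) (XT.lf (nat_lit 0) (nat_lit 73727645347) (nat_lit 76) (nat_lit 167925686576) (nat_lit 76) (nat_lit 113120584578) (nat_lit 12) (nat_lit 4) (nat_lit 13) (nat_lit 5) (nat_lit 13) (nat_lit 4) (nat_lit 524) (nat_lit 424) (nat_lit 252)) (XT.nd (nat_lit 78) (nat_lit 0) (nat_lit 0) (XT.lf (nat_lit 0) (nat_lit 181559078091) (nat_lit 76) (nat_lit 121575433299) (nat_lit 76)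 (nat_lit 66769739548) (nat_lit 12) (nat_lit 4) (nat_lit 13) (nat_lit 5) (nat_lit 13) (nat_lit 4) (nat_lit 525) (nat_lit 424) (nat_lit 251)) (XT.lf (nat_lit 0) (nat_lit 294779888495) (nat_lit 76) (nat_lit 72908762938) (nat_lit 76) (nat_lit 18102505612) (nat_lit 12) (nat_lit 4) (nat_lit 13) (nat_lit 5) (nat_lit 13) (nat_lit 4) (nat_lit 526) (nat_lit 424) (nat_lit 250)))) (XT.nd (nat_lit 156) (nat_lit 0) (nat_lit 0) (XT.nd (nat_lit 78) (nat_lit 0) (nat_lit 0) (XT.lf (nat_lit 0) (nat_lit 11024878577) (nat_lit 76) (nat_lit 21088132466) (nat_lit 152) (nat_lit 370325084508) (nat_lit 10) (nat_lit 5) (nat_lit 11) (nat_lit 5) (nat_lit 12) (nat_lit 4) (nat_lit 527) (nat_lit 424) (nat_lit 249)) (XT.lf (nat_lit 0) (nat_lit 86316740143) (nat_lit 152) (nat_lit 299362206192) (nat_lit 0) (nat_lit 34119306579) (nat_lit 10) (nat_lit 5) (nat_lit 12) (nat_lit 4) (nat_lit 10) (nat_lit 4) (nat_lit 528) (nat_lit 424)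 (nat_lit 248))) (XT.nd (nat_lit 78) (nat_lit 0) (nat_lit 0) (XT.lf (nat_lit 0) (nat_lit 143575351746) (nat_lit 152) (nat_lit 203056377092) (nat_lit 0) (nat_lit 91377454528) (nat_lit 10) (nat_lit 5) (nat_lit 12) (nat_lit 4) (nat_lit 10) (nat_lit 4) (nat_lit 529) (nat_lit 424) (nat_lit 247)) (XT.lf (nat_lit 0) (nat_lit 203695931035) (nat_lit 152) (nat_lit 101937185234) (nat_lit 0) (nat_lit 151497592241) (nat_lit 10) (nat_lit 5) (nat_lit 12) (nat_lit 4) (nat_lit 10) (nat_lit 4) (nat_lit 530) (nat_lit 424) (nat_lit 246))))))) (XT.nd (nat_lit 54366) (nat_lit 0) (nat_lit 7828) (XT.nd (nat_lit 546) (nat_lit 76) (nat_lit 0) (XT.nd (nat_lit 234) (nat_lit 152) (nat_lit 0) (XT.nd (nat_lit 78) (nat_lit 0) (nat_lit 0) (XT.lf (nat_lit 0) (nat_lit 4376194930) (nat_lit 76) (nat_lit 262513751981) (nat_lit 76) (nat_lit 210314992640) (nat_lit 9) (nat_lit 4) (nat_lit 10) (nat_lit 5) (nat_lit 10) (nat_lit 4) (nat_lit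 531) (nat_lit 424) (nat_lit 245)) (XT.nd (nat_lit 78) (nat_lit 0) (nat_lit 0) (XT.lf (nat_lit 0) (nat_lit 119542465765) (nat_lit 76) (nat_lit 215426651782) (nat_lit 76) (nat_lit 163227491919) (nat_lit 9) (nat_lit 4) (nat_lit 10) (nat_lit 5) (nat_lit 10) (nat_lit 4) (nat_lit 532) (nat_lit 424) (nat_lit 244)) (XT.lf (nat_lit 0) (nat_lit 240465328974) (nat_lit 76) (nat_lit 165986059085) (nat_lit 76) (nat_lit 113786517772) (nat_lit 9) (nat_lit 4) (nat_lit 10) (nat_lit 5) (nat_lit 10) (nat_lit 4) (nat_lit 533) (nat_lit 424) (nat_lit 243)))) (XT.nd (nat_lit 156) (nat_lit 152) (nat_lit 0) (XT.nd (nat_lit 78) (nat_lit 0) (nat_lit 0) (XT.lf (nat_lit 0) (nat_lit 367432696134) (nat_lit 76) (nat_lit 114074258192) (nat_lit 76) (nat_lit 61874353594) (nat_lit 9) (nat_lit 4) (nat_lit 10) (nat_lit 5) (nat_lit 10) (nat_lit 4) (nat_lit 534) (nat_lit 424) (nat_lit 242)) (XT.lf (nat_lit 0) (nat_lit 500746870501)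 (nat_lit 76) (nat_lit 59567649578) (nat_lit 76) (nat_lit 7367398994) (nat_lit 9) (nat_lit 4) (nat_lit 10) (nat_lit 5) (nat_lit 10) (nat_lit 4) (nat_lit 535) (nat_lit 424) (nat_lit 241))) (XT.nd (nat_lit 78) (nat_lit 0) (nat_lit 0) (XT.lf (nat_lit 0) (nat_lit 48294888189) (nat_lit 76) (nat_lit 727291461) (nat_lit 152) (nat_lit 544098791374) (nat_lit 7) (nat_lit 5) (nat_lit 8) (nat_lit 5) (nat_lit 9) (nat_lit 4) (nat_lit 536) (nat_lit 424) (nat_lit 240)) (XT.lf (nat_lit 0) (nat_lit 110088293072) (nat_lit 152) (nat_lit 449259255216) (nat_lit 0) (nat_lit 60373156011) (nat_lit 7) (nat_lit 5) (nat_lit 9) (nat_lit 4) (nat_lit 7) (nat_lit 4) (nat_lit 537) (nat_lit 424) (nat_lit 239))))) (XT.nd (nat_lit 234) (nat_lit 76) (nat_lit 0) (XT.nd (nat_lit 78) (nat_lit 0) (nat_lit 0) (XT.lf (nat_lit 0) (nat_lit 174218917940) (nat_lit 152) (nat_lit 348927449788) (nat_lit 0) (nat_lit 124503496235) (nat_lit 7)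 (nat_lit 5) (nat_lit 9) (nat_lit 4) (nat_lit 7) (nat_lit 4) (nat_lit 538) (nat_lit 424) (nat_lit 238)) (XT.nd (nat_lit 78) (nat_lit 0) (nat_lit 0) (XT.lf (nat_lit 0) (nat_lit 241555391160) (nat_lit 152) (nat_lit 243580426243) (nat_lit 0) (nat_lit 191839698367) (nat_lit 7) (nat_lit 5) (nat_lit 9) (nat_lit 4) (nat_lit 7) (nat_lit 4) (nat_lit 539) (nat_lit 424) (nat_lit 237)) (XT.lf (nat_lit 0) (nat_lit 312258037669) (nat_lit 152) (nat_lit 132967358334) (nat_lit 0) (nat_lit 262542086696) (nat_lit 7) (nat_lit 5) (nat_lit 9) (nat_lit 4) (nat_lit 7) (nat_lit 4) (nat_lit 540) (nat_lit 424) (nat_lit 236)))) (XT.nd (nat_lit 53430) (nat_lit 0) (nat_lit 9044) (XT.nd (nat_lit 78) (nat_lit 76) (nat_lit 0) (XT.lf (nat_lit 0) (nat_lit 386495197101) (nat_lit 152) (nat_lit 16824881613) (nat_lit 0) (nat_lit 336779000242) (nat_lit 7) (nat_lit 5) (nat_lit 9) (nat_lit 4) (nat_lit 7) (nat_lit 4) (nat_lit 541) (nat_lit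 424) (nat_lit 235)) (XT.lf (nat_lit 0) (nat_lit 108599392397) (nat_lit 76) (nat_lit 357539773065) (nat_lit 76) (nat_lit 307823342029) (nat_lit 6) (nat_lit 4) (nat_lit 7) (nat_lit 5) (nat_lit 7) (nat_lit 4) (nat_lit 542) (nat_lit 424) (nat_lit 234))) (XT.nd (nat_lit 78) (nat_lit 836) (nat_lit 0) (XT.lf (nat_lit 0) (nat_lit 3486196228) (nat_lit 0) (nat_lit 3486196228) (nat_lit 684) (nat_lit 26130798) (nat_lit 136) (nat_lit 5) (nat_lit 136) (nat_lit 3) (nat_lit 145) (nat_lit 3) (nat_lit 425) (nat_lit 425) (nat_lit 350)) (XT.lf (nat_lit 0) (nat_lit 286110759) (nat_lit 836) (nat_lit 165376208) (nat_lit 836) (nat_lit 13878497812) (nat_lit 125) (nat_lit 3) (nat_lit 136) (nat_lit 3) (nat_lit 136) (nat_lit 5) (nat_lit 426) (nat_lit 425) (nat_lit 349)))))) (XT.nd (nat_lit 546) (nat_lit 1292) (nat_lit 0) (XT.nd (nat_lit 234) (nat_lit 0) (nat_lit 76) (XT.nd (nat_lit 78) (nat_lit 0) (nat_lit 0) (XT.lf (nat_lit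 0) (nat_lit 833195135) (nat_lit 760) (nat_lit 7519921821) (nat_lit 836) (nat_lit 6316741098) (nat_lit 126) (nat_lit 5) (nat_lit 136) (nat_lit 5) (nat_lit 137) (nat_lit 5) (nat_lit 427) (nat_lit 425) (nat_lit 348)) (XT.nd (nat_lit 78) (nat_lit 0) (nat_lit 76) (XT.lf (nat_lit 0) (nat_lit 1397253384) (nat_lit 760) (nat_lit 209652085) (nat_lit 836) (nat_lit 13420346557) (nat_lit 126) (nat_lit 5) (nat_lit 136) (nat_lit 5) (nat_lit 137) (nat_lit 5) (nat_lit 428) (nat_lit 425) (nat_lit 347)) (XT.lf (nat_lit 0) (nat_lit 2177698863) (nat_lit 760) (nat_lit 7784273941) (nat_lit 836) (nat_lit 5431141312) (nat_lit 127) (nat_lit 5) (nat_lit 137) (nat_lit 5) (nat_lit 138) (nat_lit 5) (nat_lit 429) (nat_lit 425) (nat_lit 346)))) (XT.nd (nat_lit 156) (nat_lit 0) (nat_lit 76) (XT.nd (nat_lit 78) (nat_lit 0) (nat_lit 76) (XT.lf (nat_lit 76) (nat_lit 9691259) (nat_lit 0) (nat_lit 2998800419) (nat_lit 836) (nat_lit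 12768218649) (nat_lit 128) (nat_lit 5) (nat_lit 127) (nat_lit 5) (nat_lit 138) (nat_lit 5) (nat_lit 430) (nat_lit 425) (nat_lit 345)) (XT.lf (nat_lit 0) (nat_lit 4064156129) (nat_lit 760) (nat_lit 7792235805) (nat_lit 836) (nat_lit 4313934740) (nat_lit 128) (nat_lit 5) (nat_lit 138) (nat_lit 5) (nat_lit 139) (nat_lit 5) (nat_lit 431) (nat_lit 425) (nat_lit 344))) (XT.nd (nat_lit 78) (nat_lit 0) (nat_lit 76) (XT.lf (nat_lit 76) (nat_lit 536481213) (nat_lit 0) (nat_lit 4676525612) (nat_lit 836) (nat_lit 11368603459) (nat_lit 129) (nat_lit 5) (nat_lit 128) (nat_lit 5) (nat_lit 139) (nat_lit 5) (nat_lit 432) (nat_lit 425) (nat_lit 343)) (XT.lf (nat_lit 0) (nat_lit 6581664155) (nat_lit 760) (nat_lit 7515051098) (nat_lit 836) (nat_lit 2908630895) (nat_lit 129) (nat_lit 5) (nat_lit 139) (nat_lit 5) (nat_lit 140) (nat_lit 5) (nat_lit 433) (nat_lit 425) (nat_lit 342))))) (XT.nd (nat_lit 312) (nat_lit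 836) (nat_lit 0) (XT.nd (nat_lit 156) (nat_lit 684) (nat_lit 0) (XT.nd (nat_lit 78) (nat_lit 0) (nat_lit 76) (XT.lf (nat_lit 76) (nat_lit 1396711053) (nat_lit 0) (nat_lit 6704844125) (nat_lit 836) (nat_lit 9344579570) (nat_lit 130) (nat_lit 5) (nat_lit 129) (nat_lit 5) (nat_lit 140) (nat_lit 5) (nat_lit 434) (nat_lit 425) (nat_lit 341)) (XT.lf (nat_lit 0) (nat_lit 9828212131) (nat_lit 760) (nat_lit 6919667300) (nat_lit 76) (nat_lit 1154550475) (nat_lit 130) (nat_lit 5) (nat_lit 140) (nat_lit 5) (nat_lit 131) (nat_lit 5) (nat_lit 435) (nat_lit 425) (nat_lit 340))) (XT.nd (nat_lit 78) (nat_lit 0) (nat_lit 0) (XT.lf (nat_lit 0) (nat_lit 2627961403) (nat_lit 760) (nat_lit 9149821213) (nat_lit 836) (nat_lit 6596933597) (nat_lit 120) (nat_lit 5) (nat_lit 130) (nat_lit 5) (nat_lit 131) (nat_lit 5) (nat_lit 436) (nat_lit 425) (nat_lit 339)) (XT.lf (nat_lit 0) (nat_lit 12880602185) (nat_lit 760) (nat_lit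 1047539955) (nat_lit 836) (nat_lit 4937314335) (nat_lit 120) (nat_lit 5) (nat_lit 130) (nat_lit 5) (nat_lit 131) (nat_lit 5) (nat_lit 437) (nat_lit 425) (nat_lit 338)))) (XT.nd (nat_lit 156) (nat_lit 456) (nat_lit 0) (XT.nd (nat_lit 78) (nat_lit 0) (nat_lit 0) (XT.lf (nat_lit 0) (nat_lit 4272737243) (nat_lit 380) (nat_lit 12083263408) (nat_lit 456) (nat_lit 3016238973) (nat_lit 115) (nat_lit 5) (nat_lit 120) (nat_lit 5) (nat_lit 121) (nat_lit 5) (nat_lit 438) (nat_lit 425) (nat_lit 337)) (XT.lf (nat_lit 0) (nat_lit 15220764010) (nat_lit 380) (nat_lit 3789976185) (nat_lit 456) (nat_lit 888352016) (nat_lit 115) (nat_lit 5) (nat_lit 120) (nat_lit 5) (nat_lit 121) (nat_lit 5) (nat_lit 439) (nat_lit 425) (nat_lit 336))) (XT.nd (nat_lit 78) (nat_lit 0) (nat_lit 0) (XT.lf (nat_lit 0) (nat_lit 1469760802) (nat_lit 456) (nat_lit 14089010973) (nat_lit 76) (nat_lit 4884123734) (nat_lit 109) (nat_lit 5)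 (nat_lit 115) (nat_lit 5) (nat_lit 110) (nat_lit 5) (nat_lit 440) (nat_lit 425) (nat_lit 335)) (XT.lf (nat_lit 0) (nat_lit 4046621609) (nat_lit 456) (nat_lit 3000495524) (nat_lit 76) (nat_lit 13959512890) (nat_lit 109) (nat_lit 5) (nat_lit 115) (nat_lit 5) (nat_lit 110) (nat_lit 5) (nat_lit 441) (nat_lit 425) (nat_lit 334))))))))
noncomputable def xc152 : XT := (XT.nd (nat_lit 2184) (nat_lit 2204) (nat_lit 0) (XT.nd (nat_lit 1092) (nat_lit 1596) (nat_lit 0) (XT.nd (nat_lit 546) (nat_lit 1064) (nat_lit 0) (XT.nd (nat_lit 234) (nat_lit 608) (nat_lit 0) (XT.nd (nat_lit 78) (nat_lit 304) (nat_lit 0) (XT.lf (nat_lit 0) (nat_lit 6911912683) (nat_lit 456) (nat_lit 12708241109) (nat_lit 76) (nat_lit 1970421967) (nat_lit 104) (nat_lit 5) (nat_lit 110) (nat_lit 5) (nat_lit 105) (nat_lit 5) (nat_lit 442) (nat_lit 425) (nat_lit 333)) (XT.nd (nat_lit 78) (nat_lit 304) (nat_lit 0) (XT.lf (nat_lit 0) (nat_lit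 10076592897) (nat_lit 456) (nat_lit 866506831) (nat_lit 76) (nat_lit 11252816496) (nat_lit 104) (nat_lit 5) (nat_lit 110) (nat_lit 5) (nat_lit 105) (nat_lit 5) (nat_lit 443) (nat_lit 425) (nat_lit 332)) (XT.lf (nat_lit 0) (nat_lit 11937536535) (nat_lit 304) (nat_lit 1637825371) (nat_lit 380) (nat_lit 9247372564) (nat_lit 100) (nat_lit 5) (nat_lit 104) (nat_lit 5) (nat_lit 105) (nat_lit 5) (nat_lit 444) (nat_lit 425) (nat_lit 331)))) (XT.nd (nat_lit 156) (nat_lit 304) (nat_lit 0) (XT.nd (nat_lit 78) (nat_lit 0) (nat_lit 0) (XT.lf (nat_lit 0) (nat_lit 1851600131) (nat_lit 304) (nat_lit 15558040294) (nat_lit 380) (nat_lit 6063227982) (nat_lit 96) (nat_lit 5) (nat_lit 100) (nat_lit 5) (nat_lit 101) (nat_lit 5) (nat_lit 445) (nat_lit 425) (nat_lit 330)) (XT.lf (nat_lit 0) (nat_lit 15563453279) (nat_lit 304) (nat_lit 6073015229) (nat_lit 380) (nat_lit 2509001923) (nat_lit 96) (nat_lit 5) (nat_lit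 100) (nat_lit 5) (nat_lit 101) (nat_lit 5) (nat_lit 446) (nat_lit 425) (nat_lit 329))) (XT.nd (nat_lit 78) (nat_lit 0) (nat_lit 0) (XT.lf (nat_lit 0) (nat_lit 1318389757) (nat_lit 304) (nat_lit 19663124907) (nat_lit 76) (nat_lit 3862506302) (nat_lit 92) (nat_lit 5) (nat_lit 96) (nat_lit 5) (nat_lit 93) (nat_lit 5) (nat_lit 447) (nat_lit 425) (nat_lit 328)) (XT.lf (nat_lit 0) (nat_lit 5490744543) (nat_lit 304) (nat_lit 5795355017) (nat_lit 76) (nat_lit 14277450029) (nat_lit 92) (nat_lit 5) (nat_lit 96) (nat_lit 5) (nat_lit 93) (nat_lit 5) (nat_lit 448) (nat_lit 425) (nat_lit 327))))) (XT.nd (nat_lit 234) (nat_lit 532) (nat_lit 0) (XT.nd (nat_lit 78) (nat_lit 228) (nat_lit 0) (XT.lf (nat_lit 0) (nat_lit 9043878463) (nat_lit 304) (nat_lit 960116573) (nat_lit 380) (nat_lit 16308448316) (nat_lit 88) (nat_lit 5) (nat_lit 92) (nat_lit 5) (nat_lit 93) (nat_lit 5) (nat_lit 449) (nat_lit 425) (nat_lit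 326)) (XT.nd (nat_lit 78) (nat_lit 228) (nat_lit 0) (XT.lf (nat_lit 0) (nat_lit 14988240635) (nat_lit 380) (nat_lit 2435094926) (nat_lit 76) (nat_lit 9663182101) (nat_lit 88) (nat_lit 5) (nat_lit 93) (nat_lit 5) (nat_lit 89) (nat_lit 5) (nat_lit 450) (nat_lit 425) (nat_lit 325)) (XT.lf (nat_lit 0) (nat_lit 13546846447) (nat_lit 228) (nat_lit 6893798935) (nat_lit 304) (nat_lit 7447705329) (nat_lit 85) (nat_lit 5) (nat_lit 88) (nat_lit 5) (nat_lit 89) (nat_lit 5) (nat_lit 451) (nat_lit 425) (nat_lit 324)))) (XT.nd (nat_lit 156) (nat_lit 228) (nat_lit 0) (XT.nd (nat_lit 78) (nat_lit 76) (nat_lit 0) (XT.lf (nat_lit 0) (nat_lit 1660467727) (nat_lit 228) (nat_lit 24629911369) (nat_lit 304) (nat_lit 2433663134) (nat_lit 82) (nat_lit 5) (nat_lit 85) (nat_lit 5) (nat_lit 86) (nat_lit 5) (nat_lit 452) (nat_lit 425) (nat_lit 323)) (XT.lf (nat_lit 0) (nat_lit 3092311044) (nat_lit 304) (nat_lit 10801443885)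 (nat_lit 76) (nat_lit 15687963278) (nat_lit 81) (nat_lit 5) (nat_lit 85) (nat_lit 5) (nat_lit 82) (nat_lit 5) (nat_lit 453) (nat_lit 425) (nat_lit 322))) (XT.nd (nat_lit 78) (nat_lit 0) (nat_lit 0) (XT.lf (nat_lit 0) (nat_lit 6428883781) (nat_lit 228) (nat_lit 2476635620) (nat_lit 304) (nat_lit 21570129598) (nat_lit 78) (nat_lit 5) (nat_lit 81) (nat_lit 5) (nat_lit 82) (nat_lit 5) (nat_lit 454) (nat_lit 425) (nat_lit 321)) (XT.lf (nat_lit 0) (nat_lit 15336312483) (nat_lit 304) (nat_lit 6671827037) (nat_lit 76) (nat_lit 9389792450) (nat_lit 78) (nat_lit 5) (nat_lit 82) (nat_lit 5) (nat_lit 79) (nat_lit 5) (nat_lit 455) (nat_lit 425) (nat_lit 320)))))) (XT.nd (nat_lit 546) (nat_lit 760) (nat_lit 0) (XT.nd (nat_lit 234) (nat_lit 380) (nat_lit 0) (XT.nd (nat_lit 78) (nat_lit 228) (nat_lit 0) (XT.lf (nat_lit 0) (nat_lit 11901780014) (nat_lit 228) (nat_lit 10406142259) (nat_lit 304) (nat_lit 10047444732)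 (nat_lit 75) (nat_lit 5) (nat_lit 78) (nat_lit 5) (nat_lit 79) (nat_lit 5) (nat_lit 456) (nat_lit 425) (nat_lit 319)) (XT.nd (nat_lit 78) (nat_lit 228) (nat_lit 0) (XT.lf (nat_lit 0) (nat_lit 29763668554) (nat_lit 304) (nat_lit 1759445550) (nat_lit 76) (nat_lit 1830783567) (nat_lit 75) (nat_lit 5) (nat_lit 79) (nat_lit 5) (nat_lit 76) (nat_lit 5) (nat_lit 457) (nat_lit 425) (nat_lit 318)) (XT.lf (nat_lit 0) (nat_lit 3544329622) (nat_lit 228) (nat_lit 16163418823) (nat_lit 76) (nat_lit 14669288961) (nat_lit 72) (nat_lit 5) (nat_lit 75) (nat_lit 5) (nat_lit 73) (nat_lit 5) (nat_lit 458) (nat_lit 425) (nat_lit 317)))) (XT.nd (nat_lit 156) (nat_lit 152) (nat_lit 0) (XT.nd (nat_lit 78) (nat_lit 0) (nat_lit 0) (XT.lf (nat_lit 0) (nat_lit 3850370575) (nat_lit 228) (nat_lit 7148366195) (nat_lit 304) (nat_lit 24445467215) (nat_lit 69) (nat_lit 5) (nat_lit 72) (nat_lit 5) (nat_lit 73) (nat_lit 5) (nat_lit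 459) (nat_lit 425) (nat_lit 316)) (XT.lf (nat_lit 0) (nat_lit 19191853861) (nat_lit 304) (nat_lit 11234012098) (nat_lit 76) (nat_lit 6120564838) (nat_lit 69) (nat_lit 5) (nat_lit 73) (nat_lit 5) (nat_lit 70) (nat_lit 5) (nat_lit 460) (nat_lit 425) (nat_lit 315))) (XT.nd (nat_lit 78) (nat_lit 0) (nat_lit 0) (XT.lf (nat_lit 0) (nat_lit 10348099795) (nat_lit 152) (nat_lit 17719067916) (nat_lit 228) (nat_lit 9622975513) (nat_lit 67) (nat_lit 5) (nat_lit 69) (nat_lit 5) (nat_lit 70) (nat_lit 5) (nat_lit 461) (nat_lit 425) (nat_lit 314)) (XT.lf (nat_lit 0) (nat_lit 33389775585) (nat_lit 152) (nat_lit 4180663187) (nat_lit 228) (nat_lit 1311394178) (nat_lit 67) (nat_lit 5) (nat_lit 69) (nat_lit 5) (nat_lit 70) (nat_lit 5) (nat_lit 462) (nat_lit 425) (nat_lit 313))))) (XT.nd (nat_lit 234) (nat_lit 380) (nat_lit 0) (XT.nd (nat_lit 78) (nat_lit 152) (nat_lit 0) (XT.lf (nat_lit 0) (nat_lit 7615082061)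 (nat_lit 228) (nat_lit 22378535155) (nat_lit 76) (nat_lit 10111868707) (nat_lit 64) (nat_lit 5) (nat_lit 67) (nat_lit 5) (nat_lit 65) (nat_lit 5) (nat_lit 463) (nat_lit 425) (nat_lit 312)) (XT.nd (nat_lit 78) (nat_lit 0) (nat_lit 0) (XT.lf (nat_lit 0) (nat_lit 837780395) (nat_lit 152) (nat_lit 16276395429) (nat_lit 228) (nat_lit 24266553636) (nat_lit 62) (nat_lit 5) (nat_lit 64) (nat_lit 5) (nat_lit 65) (nat_lit 5) (nat_lit 464) (nat_lit 425) (nat_lit 311)) (XT.lf (nat_lit 0) (nat_lit 25982609866) (nat_lit 152) (nat_lit 1478951255) (nat_lit 228) (nat_lit 15239508242) (nat_lit 62) (nat_lit 5) (nat_lit 64) (nat_lit 5) (nat_lit 65) (nat_lit 5) (nat_lit 465) (nat_lit 425) (nat_lit 310)))) (XT.nd (nat_lit 156) (nat_lit 152) (nat_lit 0) (XT.nd (nat_lit 78) (nat_lit 76) (nat_lit 0) (XT.lf (nat_lit 0) (nat_lit 8335542108) (nat_lit 152) (nat_lit 30334966785) (nat_lit 228) (nat_lit 5399708691) (nat_lit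 60) (nat_lit 5) (nat_lit 62) (nat_lit 5) (nat_lit 63) (nat_lit 5) (nat_lit 466) (nat_lit 425) (nat_lit 309)) (XT.lf (nat_lit 0) (nat_lit 5080839336) (nat_lit 228) (nat_lit 10385931427) (nat_lit 76) (nat_lit 30021872370) (nat_lit 59) (nat_lit 5) (nat_lit 62) (nat_lit 5) (nat_lit 60) (nat_lit 5) (nat_lit 467) (nat_lit 425) (nat_lit 308))) (XT.nd (nat_lit 78) (nat_lit 0) (nat_lit 0) (XT.lf (nat_lit 0) (nat_lit 16166936200) (nat_lit 228) (nat_lit 30302187002) (nat_lit 76) (nat_lit 491292266) (nat_lit 57) (nat_lit 5) (nat_lit 60) (nat_lit 5) (nat_lit 58) (nat_lit 5) (nat_lit 468) (nat_lit 425) (nat_lit 307)) (XT.lf (nat_lit 0) (nat_lit 28234576329) (nat_lit 228) (nat_lit 3346921360) (nat_lit 76) (nat_lit 16902917617) (nat_lit 57) (nat_lit 5) (nat_lit 60) (nat_lit 5) (nat_lit 58) (nat_lit 5) (nat_lit 469) (nat_lit 425) (nat_lit 306))))))) (XT.nd (nat_lit 1092) (nat_lit 912) (nat_lit 0) (XT.nd (nat_lit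 546) (nat_lit 608) (nat_lit 0) (XT.nd (nat_lit 234) (nat_lit 304) (nat_lit 0) (XT.nd (nat_lit 78) (nat_lit 228) (nat_lit 0) (XT.lf (nat_lit 0) (nat_lit 25772734255) (nat_lit 152) (nat_lit 15530401748) (nat_lit 228) (nat_lit 8761603027) (nat_lit 55) (nat_lit 5) (nat_lit 57) (nat_lit 5) (nat_lit 58) (nat_lit 5) (nat_lit 470) (nat_lit 425) (nat_lit 305)) (XT.nd (nat_lit 78) (nat_lit 0) (nat_lit 0) (XT.lf (nat_lit 0) (nat_lit 3347338237) (nat_lit 228) (nat_lit 46901324106) (nat_lit 76) (nat_lit 1465242991) (nat_lit 52) (nat_lit 5) (nat_lit 55) (nat_lit 5) (nat_lit 53) (nat_lit 5) (nat_lit 471) (nat_lit 425) (nat_lit 304)) (XT.lf (nat_lit 0) (nat_lit 16435244072) (nat_lit 228) (nat_lit 17622511756) (nat_lit 76) (nat_lit 19347194907) (nat_lit 52) (nat_lit 5) (nat_lit 55) (nat_lit 5) (nat_lit 53) (nat_lit 5) (nat_lit 472) (nat_lit 425) (nat_lit 303)))) (XT.nd (nat_lit 156) (nat_lit 152) (nat_lit 0)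 (XT.nd (nat_lit 78) (nat_lit 0) (nat_lit 0) (XT.lf (nat_lit 0) (nat_lit 13545852184) (nat_lit 152) (nat_lit 16838636022) (nat_lit 228) (nat_lit 24785713685) (nat_lit 50) (nat_lit 5) (nat_lit 52) (nat_lit 5) (nat_lit 53) (nat_lit 5) (nat_lit 473) (nat_lit 425) (nat_lit 302)) (XT.lf (nat_lit 0) (nat_lit 45349411507) (nat_lit 228) (nat_lit 10156603580) (nat_lit 76) (nat_lit 1501790272) (nat_lit 50) (nat_lit 5) (nat_lit 53) (nat_lit 5) (nat_lit 51) (nat_lit 4) (nat_lit 474) (nat_lit 425) (nat_lit 301))) (XT.nd (nat_lit 78) (nat_lit 0) (nat_lit 0) (XT.lf (nat_lit 0) (nat_lit 2703984031) (nat_lit 152) (nat_lit 35600917423) (nat_lit 76) (nat_lit 20598393273) (nat_lit 48) (nat_lit 5) (nat_lit 50) (nat_lit 5) (nat_lit 49) (nat_lit 5) (nat_lit 475) (nat_lit 425) (nat_lit 300)) (XT.lf (nat_lit 0) (nat_lit 17563237907) (nat_lit 152) (nat_lit 2299600076) (nat_lit 76) (nat_lit 41012637263) (nat_lit 48) (nat_lit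 5) (nat_lit 50) (nat_lit 5) (nat_lit 49) (nat_lit 5) (nat_lit 476) (nat_lit 425) (nat_lit 299))))) (XT.nd (nat_lit 234) (nat_lit 304) (nat_lit 0) (XT.nd (nat_lit 78) (nat_lit 152) (nat_lit 0) (XT.lf (nat_lit 0) (nat_lit 33688953203) (nat_lit 228) (nat_lit 29181535363) (nat_lit 76) (nat_lit 49601786) (nat_lit 46) (nat_lit 5) (nat_lit 49) (nat_lit 5) (nat_lit 47) (nat_lit 4) (nat_lit 477) (nat_lit 425) (nat_lit 298)) (XT.nd (nat_lit 78) (nat_lit 76) (nat_lit 0) (XT.lf (nat_lit 0) (nat_lit 6466895210) (nat_lit 76) (nat_lit 44616194078) (nat_lit 152) (nat_lit 13960740644) (nat_lit 45) (nat_lit 5) (nat_lit 46) (nat_lit 5) (nat_lit 47) (nat_lit 4) (nat_lit 478) (nat_lit 425) (nat_lit 297)) (XT.lf (nat_lit 0) (nat_lit 2505106170) (nat_lit 152) (nat_lit 22385960345) (nat_lit 76) (nat_lit 42356157751) (nat_lit 44) (nat_lit 5) (nat_lit 46) (nat_lit 5) (nat_lit 45) (nat_lit 5) (nat_lit 479) (nat_lit 425)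 (nat_lit 296)))) (XT.nd (nat_lit 156) (nat_lit 152) (nat_lit 0) (XT.nd (nat_lit 78) (nat_lit 0) (nat_lit 0) (XT.lf (nat_lit 0) (nat_lit 15887228123) (nat_lit 152) (nat_lit 3682060295) (nat_lit 228) (nat_lit 49967846301) (nat_lit 42) (nat_lit 5) (nat_lit 44) (nat_lit 5) (nat_lit 45) (nat_lit 5) (nat_lit 480) (nat_lit 425) (nat_lit 295)) (XT.lf (nat_lit 0) (nat_lit 38158411673) (nat_lit 228) (nat_lit 15374723217) (nat_lit 76) (nat_lit 18374819600) (nat_lit 42) (nat_lit 5) (nat_lit 45) (nat_lit 5) (nat_lit 43) (nat_lit 4) (nat_lit 481) (nat_lit 425) (nat_lit 294))) (XT.nd (nat_lit 78) (nat_lit 76) (nat_lit 0) (XT.lf (nat_lit 0) (nat_lit 25565456718) (nat_lit 76) (nat_lit 32567423910) (nat_lit 152) (nat_lit 16241640513) (nat_lit 41) (nat_lit 5) (nat_lit 42) (nat_lit 5) (nat_lit 43) (nat_lit 4) (nat_lit 482) (nat_lit 425) (nat_lit 293)) (XT.lf (nat_lit 0) (nat_lit 2334148483) (nat_lit 152) (nat_lit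 7909349213) (nat_lit 76) (nat_lit 66706195004) (nat_lit 40) (nat_lit 5) (nat_lit 42) (nat_lit 5) (nat_lit 41) (nat_lit 5) (nat_lit 483) (nat_lit 425) (nat_lit 292)))))) (XT.nd (nat_lit 546) (nat_lit 456) (nat_lit 0) (XT.nd (nat_lit 234) (nat_lit 228) (nat_lit 0) (XT.nd (nat_lit 78) (nat_lit 76) (nat_lit 0) (XT.lf (nat_lit 0) (nat_lit 22069701005) (nat_lit 228) (nat_lit 43919836376) (nat_lit 76) (nat_lit 13611932972) (nat_lit 38) (nat_lit 5) (nat_lit 41) (nat_lit 5) (nat_lit 39) (nat_lit 4) (nat_lit 484) (nat_lit 425) (nat_lit 291)) (XT.nd (nat_lit 78) (nat_lit 76) (nat_lit 0) (XT.lf (nat_lit 0) (nat_lit 43092686043) (nat_lit 228) (nat_lit 828872033) (nat_lit 76) (nat_lit 38449246372) (nat_lit 38) (nat_lit 5) (nat_lit 41) (nat_lit 5) (nat_lit 39) (nat_lit 4) (nat_lit 485) (nat_lit 425) (nat_lit 290)) (XT.lf (nat_lit 0) (nat_lit 45878986444) (nat_lit 76) (nat_lit 20000880267) (nat_lit 152) (nat_lit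 19363086509) (nat_lit 37) (nat_lit 5) (nat_lit 38) (nat_lit 5) (nat_lit 39) (nat_lit 4) (nat_lit 486) (nat_lit 425) (nat_lit 289)))) (XT.nd (nat_lit 156) (nat_lit 76) (nat_lit 0) (XT.nd (nat_lit 78) (nat_lit 0) (nat_lit 0) (XT.lf (nat_lit 0) (nat_lit 1698864548) (nat_lit 152) (nat_lit 81450968692) (nat_lit 76) (nat_lit 5097633082) (nat_lit 35) (nat_lit 5) (nat_lit 37) (nat_lit 5) (nat_lit 36) (nat_lit 4) (nat_lit 487) (nat_lit 425) (nat_lit 288)) (XT.lf (nat_lit 0) (nat_lit 24165419629) (nat_lit 152) (nat_lit 35399594499) (nat_lit 76) (nat_lit 31771208163) (nat_lit 35) (nat_lit 5) (nat_lit 37) (nat_lit 5) (nat_lit 36) (nat_lit 4) (nat_lit 488) (nat_lit 425) (nat_lit 287))) (XT.nd (nat_lit 78) (nat_lit 0) (nat_lit 0) (XT.lf (nat_lit 0) (nat_lit 13376680455) (nat_lit 76) (nat_lit 34584396514) (nat_lit 152) (nat_lit 46608050603) (nat_lit 34) (nat_lit 5) (nat_lit 35) (nat_lit 5) (nat_lit 36) (nat_lit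 4) (nat_lit 489) (nat_lit 425) (nat_lit 286)) (XT.lf (nat_lit 0) (nat_lit 65815051516) (nat_lit 76) (nat_lit 7727959115) (nat_lit 152) (nat_lit 24390843041) (nat_lit 34) (nat_lit 5) (nat_lit 35) (nat_lit 5) (nat_lit 36) (nat_lit 4) (nat_lit 490) (nat_lit 425) (nat_lit 285))))) (XT.nd (nat_lit 234) (nat_lit 228) (nat_lit 0) (XT.nd (nat_lit 78) (nat_lit 152) (nat_lit 0) (XT.lf (nat_lit 0) (nat_lit 19714349603) (nat_lit 76) (nat_lit 81314189702) (nat_lit 76) (nat_lit 407052072) (nat_lit 33) (nat_lit 4) (nat_lit 34) (nat_lit 5) (nat_lit 34) (nat_lit 4) (nat_lit 491) (nat_lit 425) (nat_lit 284)) (XT.nd (nat_lit 78) (nat_lit 76) (nat_lit 0) (XT.lf (nat_lit 0) (nat_lit 24659590669) (nat_lit 152) (nat_lit 30358944316) (nat_lit 76) (nat_lit 50040707762) (nat_lit 32) (nat_lit 5) (nat_lit 34) (nat_lit 5) (nat_lit 33) (nat_lit 4) (nat_lit 492) (nat_lit 425) (nat_lit 283)) (XT.lf (nat_lit 0) (nat_lit 24338492841)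 (nat_lit 76) (nat_lit 27004617723) (nat_lit 152) (nat_lit 57501771428) (nat_lit 31) (nat_lit 5) (nat_lit 32) (nat_lit 5) (nat_lit 33) (nat_lit 4) (nat_lit 493) (nat_lit 425) (nat_lit 282)))) (XT.nd (nat_lit 156) (nat_lit 152) (nat_lit 0) (XT.nd (nat_lit 78) (nat_lit 76) (nat_lit 0) (XT.lf (nat_lit 0) (nat_lit 79918249588) (nat_lit 152) (nat_lit 30020653482) (nat_lit 0) (nat_lit 2853028151) (nat_lit 31) (nat_lit 5) (nat_lit 33) (nat_lit 4) (nat_lit 31) (nat_lit 4) (nat_lit 494) (nat_lit 425) (nat_lit 281)) (XT.lf (nat_lit 0) (nat_lit 27625823542) (nat_lit 76) (nat_lit 83167712779) (nat_lit 76) (nat_lit 6099227221) (nat_lit 30) (nat_lit 4) (nat_lit 31) (nat_lit 5) (nat_lit 31) (nat_lit 4) (nat_lit 495) (nat_lit 425) (nat_lit 280))) (XT.nd (nat_lit 78) (nat_lit 76) (nat_lit 0) (XT.lf (nat_lit 0) (nat_lit 21823495631) (nat_lit 152) (nat_lit 32333428200) (nat_lit 76) (nat_lit 66998822351) (nat_lit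 29) (nat_lit 5) (nat_lit 31) (nat_lit 5) (nat_lit 30) (nat_lit 4) (nat_lit 496) (nat_lit 425) (nat_lit 279)) (XT.lf (nat_lit 0) (nat_lit 28246010069) (nat_lit 76) (nat_lit 23129875280) (nat_lit 152) (nat_lit 74229068147) (nat_lit 28) (nat_lit 5) (nat_lit 29) (nat_lit 5) (nat_lit 30) (nat_lit 4) (nat_lit 497) (nat_lit 425) (nat_lit 278))))))))
noncomputable def xc153 : XT := (XT.nd (nat_lit 2184) (nat_lit 380) (nat_lit 0) (XT.nd (nat_lit 1092) (nat_lit 532) (nat_lit 0) (XT.nd (nat_lit 546) (nat_lit 380) (nat_lit 0) (XT.nd (nat_lit 234) (nat_lit 152) (nat_lit 0) (XT.nd (nat_lit 78) (nat_lit 152) (nat_lit 0) (XT.lf (nat_lit 0) (nat_lit 83107486156) (nat_lit 152) (nat_lit 37433592822) (nat_lit 0) (nat_lit 9700462758) (nat_lit 28) (nat_lit 5) (nat_lit 30) (nat_lit 4) (nat_lit 28) (nat_lit 4) (nat_lit 498) (nat_lit 425) (nat_lit 277)) (XT.nd (nat_lit 78) (nat_lit 76) (nat_lit 0) (XT.lf (nat_lit 0)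 (nat_lit 25934316746) (nat_lit 76) (nat_lit 91273068882) (nat_lit 76) (nat_lit 17863487960) (nat_lit 27) (nat_lit 4) (nat_lit 28) (nat_lit 5) (nat_lit 28) (nat_lit 4) (nat_lit 499) (nat_lit 425) (nat_lit 276)) (XT.lf (nat_lit 0) (nat_lit 13100653878) (nat_lit 152) (nat_lit 46555676208) (nat_lit 76) (nat_lit 80443195472) (nat_lit 26) (nat_lit 5) (nat_lit 28) (nat_lit 5) (nat_lit 27) (nat_lit 4) (nat_lit 500) (nat_lit 425) (nat_lit 275)))) (XT.nd (nat_lit 156) (nat_lit 76) (nat_lit 0) (XT.nd (nat_lit 78) (nat_lit 0) (nat_lit 0) (XT.lf (nat_lit 0) (nat_lit 19480527110) (nat_lit 76) (nat_lit 25834040459) (nat_lit 152) (nat_lit 100035305714) (nat_lit 25) (nat_lit 5) (nat_lit 26) (nat_lit 5) (nat_lit 27) (nat_lit 4) (nat_lit 501) (nat_lit 425) (nat_lit 274)) (XT.lf (nat_lit 0) (nat_lit 80089423856) (nat_lit 152) (nat_lit 60556898155) (nat_lit 0) (nat_lit 10168904147) (nat_lit 25) (nat_lit 5) (nat_lit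 27) (nat_lit 4) (nat_lit 25) (nat_lit 4) (nat_lit 502) (nat_lit 425) (nat_lit 273))) (XT.nd (nat_lit 78) (nat_lit 0) (nat_lit 0) (XT.lf (nat_lit 0) (nat_lit 7844563998) (nat_lit 76) (nat_lit 109302306989) (nat_lit 76) (nat_lit 39379783394) (nat_lit 24) (nat_lit 4) (nat_lit 25) (nat_lit 5) (nat_lit 25) (nat_lit 4) (nat_lit 503) (nat_lit 425) (nat_lit 272)) (XT.lf (nat_lit 0) (nat_lit 81764390908) (nat_lit 76) (nat_lit 75316261093) (nat_lit 76) (nat_lit 5391829035) (nat_lit 24) (nat_lit 4) (nat_lit 25) (nat_lit 5) (nat_lit 25) (nat_lit 4) (nat_lit 504) (nat_lit 425) (nat_lit 271))))) (XT.nd (nat_lit 234) (nat_lit 228) (nat_lit 0) (XT.nd (nat_lit 78) (nat_lit 76) (nat_lit 0) (XT.lf (nat_lit 0) (nat_lit 29323845344) (nat_lit 152) (nat_lit 9812366686) (nat_lit 76) (nat_lit 129555838773) (nat_lit 23) (nat_lit 5) (nat_lit 25) (nat_lit 5) (nat_lit 24) (nat_lit 4) (nat_lit 505) (nat_lit 425) (nat_lit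 270)) (XT.nd (nat_lit 78) (nat_lit 0) (nat_lit 0) (XT.lf (nat_lit 0) (nat_lit 66633643913) (nat_lit 152) (nat_lit 108496991555) (nat_lit 0) (nat_lit 35567079) (nat_lit 22) (nat_lit 5) (nat_lit 24) (nat_lit 4) (nat_lit 22) (nat_lit 4) (nat_lit 506) (nat_lit 425) (nat_lit 269)) (XT.lf (nat_lit 0) (nat_lit 106617481448) (nat_lit 152) (nat_lit 35288318543) (nat_lit 0) (nat_lit 40017834516) (nat_lit 22) (nat_lit 5) (nat_lit 24) (nat_lit 4) (nat_lit 22) (nat_lit 4) (nat_lit 507) (nat_lit 425) (nat_lit 268)))) (XT.nd (nat_lit 156) (nat_lit 152) (nat_lit 0) (XT.nd (nat_lit 78) (nat_lit 0) (nat_lit 0) (XT.lf (nat_lit 0) (nat_lit 42951903136) (nat_lit 76) (nat_lit 106317369589) (nat_lit 76) (nat_lit 39716227326) (nat_lit 21) (nat_lit 4) (nat_lit 22) (nat_lit 5) (nat_lit 22) (nat_lit 4) (nat_lit 508) (nat_lit 425) (nat_lit 267)) (XT.lf (nat_lit 0) (nat_lit 126325710806) (nat_lit 76) (nat_lit 68323761788)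 (nat_lit 76) (nat_lit 1721195400) (nat_lit 21) (nat_lit 4) (nat_lit 22) (nat_lit 5) (nat_lit 22) (nat_lit 4) (nat_lit 509) (nat_lit 425) (nat_lit 266))) (XT.nd (nat_lit 78) (nat_lit 0) (nat_lit 0) (XT.lf (nat_lit 0) (nat_lit 9446004600) (nat_lit 76) (nat_lit 27651520910) (nat_lit 152) (nat_lit 166990482527) (nat_lit 19) (nat_lit 5) (nat_lit 20) (nat_lit 5) (nat_lit 21) (nat_lit 4) (nat_lit 510) (nat_lit 425) (nat_lit 265)) (XT.lf (nat_lit 0) (nat_lit 79238327456) (nat_lit 152) (nat_lit 117074737539) (nat_lit 0) (nat_lit 15804789913) (nat_lit 19) (nat_lit 5) (nat_lit 21) (nat_lit 4) (nat_lit 19) (nat_lit 4) (nat_lit 511) (nat_lit 425) (nat_lit 264)))))) (XT.nd (nat_lit 546) (nat_lit 228) (nat_lit 0) (XT.nd (nat_lit 234) (nat_lit 228) (nat_lit 0) (XT.nd (nat_lit 78) (nat_lit 76) (nat_lit 0) (XT.lf (nat_lit 0) (nat_lit 123937812399) (nat_lit 152) (nat_lit 36085696416) (nat_lit 0) (nat_lit 60503103224)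 (nat_lit 19) (nat_lit 5) (nat_lit 21) (nat_lit 4) (nat_lit 19) (nat_lit 4) (nat_lit 512) (nat_lit 425) (nat_lit 263)) (XT.nd (nat_lit 78) (nat_lit 0) (nat_lit 0) (XT.lf (nat_lit 0) (nat_lit 50568165827) (nat_lit 76) (nat_lit 121092034907) (nat_lit 76) (nat_lit 57656209893) (nat_lit 18) (nat_lit 4) (nat_lit 19) (nat_lit 5) (nat_lit 19) (nat_lit 4) (nat_lit 513) (nat_lit 425) (nat_lit 262)) (XT.lf (nat_lit 0) (nat_lit 142804457485) (nat_lit 76) (nat_lit 79573825357) (nat_lit 76) (nat_lit 16136937639) (nat_lit 18) (nat_lit 4) (nat_lit 19) (nat_lit 5) (nat_lit 19) (nat_lit 4) (nat_lit 514) (nat_lit 425) (nat_lit 261)))) (XT.nd (nat_lit 156) (nat_lit 76) (nat_lit 0) (XT.nd (nat_lit 78) (nat_lit 76) (nat_lit 0) (XT.lf (nat_lit 0) (nat_lit 26577956528) (nat_lit 152) (nat_lit 8953088934) (nat_lit 76) (nat_lit 212621565602) (nat_lit 17) (nat_lit 5) (nat_lit 19) (nat_lit 5) (nat_lit 18) (nat_lit 4) (nat_lit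 515) (nat_lit 425) (nat_lit 260)) (XT.lf (nat_lit 0) (nat_lit 72398658410) (nat_lit 152) (nat_lit 173803674357) (nat_lit 0) (nat_lit 11980692961) (nat_lit 16) (nat_lit 5) (nat_lit 18) (nat_lit 4) (nat_lit 16) (nat_lit 4) (nat_lit 516) (nat_lit 425) (nat_lit 259))) (XT.nd (nat_lit 78) (nat_lit 76) (nat_lit 0) (XT.lf (nat_lit 0) (nat_lit 121245552076) (nat_lit 152) (nat_lit 86605938922) (nat_lit 0) (nat_lit 60826712339) (nat_lit 16) (nat_lit 5) (nat_lit 18) (nat_lit 4) (nat_lit 16) (nat_lit 4) (nat_lit 517) (nat_lit 425) (nat_lit 258)) (XT.lf (nat_lit 0) (nat_lit 5112612178) (nat_lit 76) (nat_lit 167500638535) (nat_lit 76) (nat_lit 107080966141) (nat_lit 15) (nat_lit 4) (nat_lit 16) (nat_lit 5) (nat_lit 16) (nat_lit 4) (nat_lit 518) (nat_lit 425) (nat_lit 257))))) (XT.nd (nat_lit 234) (nat_lit 76) (nat_lit 0) (XT.nd (nat_lit 78) (nat_lit 152) (nat_lit 0) (XT.lf (nat_lit 0) (nat_lit 104421190502)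 (nat_lit 76) (nat_lit 123593518623) (nat_lit 76) (nat_lit 63173053223) (nat_lit 15) (nat_lit 4) (nat_lit 16) (nat_lit 5) (nat_lit 16) (nat_lit 4) (nat_lit 519) (nat_lit 425) (nat_lit 256)) (XT.nd (nat_lit 78) (nat_lit 152) (nat_lit 0) (XT.lf (nat_lit 0) (nat_lit 208692661582) (nat_lit 76) (nat_lit 77492303981) (nat_lit 76) (nat_lit 17071083337) (nat_lit 15) (nat_lit 4) (nat_lit 16) (nat_lit 5) (nat_lit 16) (nat_lit 4) (nat_lit 520) (nat_lit 425) (nat_lit 255)) (XT.lf (nat_lit 0) (nat_lit 1816393595) (nat_lit 76) (nat_lit 28543769097) (nat_lit 152) (nat_lit 285541768753) (nat_lit 13) (nat_lit 5) (nat_lit 14) (nat_lit 5) (nat_lit 15) (nat_lit 4) (nat_lit 521) (nat_lit 425) (nat_lit 254)))) (XT.nd (nat_lit 156) (nat_lit 76) (nat_lit 0) (XT.nd (nat_lit 78) (nat_lit 0) (nat_lit 0) (XT.lf (nat_lit 0) (nat_lit 81572556008) (nat_lit 152) (nat_lit 223467196273) (nat_lit 0) (nat_lit 24027198911) (nat_lit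 13) (nat_lit 5) (nat_lit 15) (nat_lit 4) (nat_lit 13) (nat_lit 4) (nat_lit 522) (nat_lit 425) (nat_lit 253)) (XT.lf (nat_lit 0) (nat_lit 135812326413) (nat_lit 152) (nat_lit 128788209700) (nat_lit 0) (nat_lit 78266347975) (nat_lit 13) (nat_lit 5) (nat_lit 15) (nat_lit 4) (nat_lit 13) (nat_lit 4) (nat_lit 523) (nat_lit 425) (nat_lit 252))) (XT.nd (nat_lit 78) (nat_lit 76) (nat_lit 0) (XT.lf (nat_lit 0) (nat_lit 192762967988) (nat_lit 152) (nat_lit 29377503744) (nat_lit 0) (nat_lit 135216397796) (nat_lit 13) (nat_lit 5) (nat_lit 15) (nat_lit 4) (nat_lit 13) (nat_lit 4) (nat_lit 524) (nat_lit 425) (nat_lit 251)) (XT.lf (nat_lit 0) (nat_lit 77481505819) (nat_lit 76) (nat_lit 176288275125) (nat_lit 76) (nat_lit 118741141359) (nat_lit 12) (nat_lit 4) (nat_lit 13) (nat_lit 5) (nat_lit 13) (nat_lit 4) (nat_lit 525) (nat_lit 425) (nat_lit 250))))))) (XT.nd (nat_lit 1092) (nat_lit 0) (nat_lit 0) (XT.nd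 (nat_lit 546) (nat_lit 152) (nat_lit 0) (XT.nd (nat_lit 234) (nat_lit 76) (nat_lit 0) (XT.nd (nat_lit 78) (nat_lit 152) (nat_lit 0) (XT.lf (nat_lit 0) (nat_lit 190701296953) (nat_lit 76) (nat_lit 127622113745) (nat_lit 76) (nat_lit 70074443241) (nat_lit 12) (nat_lit 4) (nat_lit 13) (nat_lit 5) (nat_lit 13) (nat_lit 4) (nat_lit 526) (nat_lit 425) (nat_lit 249)) (XT.nd (nat_lit 78) (nat_lit 152) (nat_lit 0) (XT.lf (nat_lit 0) (nat_lit 309580087640) (nat_lit 76) (nat_lit 76523638020) (nat_lit 76) (nat_lit 18975456336) (nat_lit 12) (nat_lit 4) (nat_lit 13) (nat_lit 5) (nat_lit 13) (nat_lit 4) (nat_lit 527) (nat_lit 425) (nat_lit 248)) (XT.lf (nat_lit 0) (nat_lit 11637353998) (nat_lit 76) (nat_lit 22111925278) (nat_lit 152) (nat_lit 388809189427) (nat_lit 10) (nat_lit 5) (nat_lit 11) (nat_lit 5) (nat_lit 12) (nat_lit 4) (nat_lit 528) (nat_lit 425) (nat_lit 247)))) (XT.nd (nat_lit 156) (nat_lit 76)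 (nat_lit 0) (XT.nd (nat_lit 78) (nat_lit 0) (nat_lit 0) (XT.lf (nat_lit 0) (nat_lit 90662192053) (nat_lit 152) (nat_lit 314270997311) (nat_lit 0) (nat_lit 35853494744) (nat_lit 10) (nat_lit 5) (nat_lit 12) (nat_lit 4) (nat_lit 10) (nat_lit 4) (nat_lit 529) (nat_lit 425) (nat_lit 246)) (XT.lf (nat_lit 0) (nat_lit 150782324003) (nat_lit 152) (nat_lit 213152701479) (nat_lit 0) (nat_lit 95973206146) (nat_lit 10) (nat_lit 5) (nat_lit 12) (nat_lit 4) (nat_lit 10) (nat_lit 4) (nat_lit 530) (nat_lit 425) (nat_lit 245))) (XT.nd (nat_lit 78) (nat_lit 76) (nat_lit 0) (XT.lf (nat_lit 0) (nat_lit 213907589176) (nat_lit 152) (nat_lit 106980240241) (nat_lit 0) (nat_lit 159098070798) (nat_lit 10) (nat_lit 5) (nat_lit 12) (nat_lit 4) (nat_lit 10) (nat_lit 4) (nat_lit 531) (nat_lit 425) (nat_lit 244)) (XT.lf (nat_lit 0) (nat_lit 4647941120) (nat_lit 76) (nat_lit 275612912089) (nat_lit 76) (nat_lit 220803012261)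 (nat_lit 9) (nat_lit 4) (nat_lit 10) (nat_lit 5) (nat_lit 10) (nat_lit 4) (nat_lit 532) (nat_lit 425) (nat_lit 243))))) (XT.nd (nat_lit 234) (nat_lit 152) (nat_lit 0) (XT.nd (nat_lit 78) (nat_lit 0) (nat_lit 0) (XT.lf (nat_lit 0) (nat_lit 125570004714) (nat_lit 76) (nat_lit 226172720094) (nat_lit 76) (nat_lit 171362456980) (nat_lit 9) (nat_lit 4) (nat_lit 10) (nat_lit 5) (nat_lit 10) (nat_lit 4) (nat_lit 533) (nat_lit 425) (nat_lit 242)) (XT.nd (nat_lit 78) (nat_lit 0) (nat_lit 0) (XT.lf (nat_lit 0) (nat_lit 252536610338) (nat_lit 76) (nat_lit 174261300822) (nat_lit 76) (nat_lit 119450691723) (nat_lit 9) (nat_lit 4) (nat_lit 10) (nat_lit 5) (nat_lit 10) (nat_lit 4) (nat_lit 534) (nat_lit 425) (nat_lit 241)) (XT.lf (nat_lit 0) (nat_lit 385850059431) (nat_lit 76) (nat_lit 119755055657) (nat_lit 76) (nat_lit 64944117047) (nat_lit 9) (nat_lit 4) (nat_lit 10) (nat_lit 5) (nat_lit 10) (nat_lit 4)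 (nat_lit 535) (nat_lit 425) (nat_lit 240)))) (XT.nd (nat_lit 156) (nat_lit 0) (nat_lit 0) (XT.nd (nat_lit 78) (nat_lit 152) (nat_lit 0) (XT.lf (nat_lit 0) (nat_lit 525827764970) (nat_lit 76) (nat_lit 62524207824) (nat_lit 76) (nat_lit 7712955395) (nat_lit 9) (nat_lit 4) (nat_lit 10) (nat_lit 5) (nat_lit 10) (nat_lit 4) (nat_lit 536) (nat_lit 425) (nat_lit 239)) (XT.lf (nat_lit 0) (nat_lit 50753199976) (nat_lit 76) (nat_lit 741800648) (nat_lit 152) (nat_lit 571280932896) (nat_lit 7) (nat_lit 5) (nat_lit 8) (nat_lit 5) (nat_lit 9) (nat_lit 4) (nat_lit 537) (nat_lit 425) (nat_lit 238))) (XT.nd (nat_lit 78) (nat_lit 0) (nat_lit 0) (XT.lf (nat_lit 0) (nat_lit 115613710788) (nat_lit 152) (nat_lit 471680015873) (nat_lit 0) (nat_lit 63411962266) (nat_lit 7) (nat_lit 5) (nat_lit 9) (nat_lit 4) (nat_lit 7) (nat_lit 4) (nat_lit 538) (nat_lit 425) (nat_lit 237)) (XT.lf (nat_lit 0) (nat_lit 182949866754)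 (nat_lit 152) (nat_lit 366333629797) (nat_lit 0) (nat_lit 130747860051) (nat_lit 7) (nat_lit 5) (nat_lit 9) (nat_lit 4) (nat_lit 7) (nat_lit 4) (nat_lit 539) (nat_lit 425) (nat_lit 236)))))) (XT.nd (nat_lit 53898) (nat_lit 0) (nat_lit 8588) (XT.nd (nat_lit 53586) (nat_lit 0) (nat_lit 8968) (XT.nd (nat_lit 78) (nat_lit 0) (nat_lit 0) (XT.lf (nat_lit 0) (nat_lit 253652211115) (nat_lit 152) (nat_lit 255721169002) (nat_lit 0) (nat_lit 201449958527) (nat_lit 7) (nat_lit 5) (nat_lit 9) (nat_lit 4) (nat_lit 7) (nat_lit 4) (nat_lit 540) (nat_lit 425) (nat_lit 235)) (XT.nd (nat_lit 78) (nat_lit 0) (nat_lit 0) (XT.lf (nat_lit 0) (nat_lit 327889082788) (nat_lit 152) (nat_lit 139579270486) (nat_lit 0) (nat_lit 275686596023) (nat_lit 7) (nat_lit 5) (nat_lit 9) (nat_lit 4) (nat_lit 7) (nat_lit 4) (nat_lit 541) (nat_lit 425) (nat_lit 234)) (XT.lf (nat_lit 0) (nat_lit 405837236228) (nat_lit 152) (nat_lit 17631405918)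 (nat_lit 0) (nat_lit 353634526438) (nat_lit 7) (nat_lit 5) (nat_lit 9) (nat_lit 4) (nat_lit 7) (nat_lit 4) (nat_lit 542) (nat_lit 425) (nat_lit 233)))) (XT.nd (nat_lit 156) (nat_lit 0) (nat_lit 76) (XT.nd (nat_lit 78) (nat_lit 0) (nat_lit 0) (XT.lf (nat_lit 0) (nat_lit 306128638) (nat_lit 836) (nat_lit 3512789184) (nat_lit 836) (nat_lit 3512789184) (nat_lit 125) (nat_lit 3) (nat_lit 136) (nat_lit 3) (nat_lit 136) (nat_lit 5) (nat_lit 426) (nat_lit 426) (nat_lit 348)) (XT.lf (nat_lit 76) (nat_lit 164428817) (nat_lit 0) (nat_lit 772245742) (nat_lit 836) (nat_lit 14077749993) (nat_lit 126) (nat_lit 5) (nat_lit 125) (nat_lit 3) (nat_lit 136) (nat_lit 5) (nat_lit 427) (nat_lit 426) (nat_lit 347))) (XT.nd (nat_lit 78) (nat_lit 0) (nat_lit 0) (XT.lf (nat_lit 0) (nat_lit 1479092422) (nat_lit 760) (nat_lit 7533418476) (nat_lit 836) (nat_lit 6360393369) (nat_lit 126) (nat_lit 5) (nat_lit 136) (nat_lit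 5) (nat_lit 137) (nat_lit 5) (nat_lit 428) (nat_lit 426) (nat_lit 346)) (XT.lf (nat_lit 76) (nat_lit 129239334) (nat_lit 0) (nat_lit 1915358822) (nat_lit 836) (nat_lit 13704918736) (nat_lit 127) (nat_lit 5) (nat_lit 126) (nat_lit 5) (nat_lit 137) (nat_lit 5) (nat_lit 429) (nat_lit 426) (nat_lit 345))))) (XT.nd (nat_lit 312) (nat_lit 532) (nat_lit 0) (XT.nd (nat_lit 156) (nat_lit 0) (nat_lit 76) (XT.nd (nat_lit 78) (nat_lit 0) (nat_lit 0) (XT.lf (nat_lit 0) (nat_lit 2836611865) (nat_lit 760) (nat_lit 7802600843) (nat_lit 836) (nat_lit 5495842729) (nat_lit 127) (nat_lit 5) (nat_lit 137) (nat_lit 5) (nat_lit 138) (nat_lit 5) (nat_lit 430) (nat_lit 426) (nat_lit 344)) (XT.lf (nat_lit 76) (nat_lit 375080572) (nat_lit 0) (nat_lit 3313369122) (nat_lit 836) (nat_lit 12850416638) (nat_lit 128) (nat_lit 5) (nat_lit 127) (nat_lit 5) (nat_lit 138) (nat_lit 5) (nat_lit 431) (nat_lit 426) (nat_lit 343)))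 (XT.nd (nat_lit 78) (nat_lit 0) (nat_lit 0) (XT.lf (nat_lit 0) (nat_lit 4769233571) (nat_lit 760) (nat_lit 7806462285) (nat_lit 836) (nat_lit 4377860490) (nat_lit 128) (nat_lit 5) (nat_lit 138) (nat_lit 5) (nat_lit 139) (nat_lit 5) (nat_lit 432) (nat_lit 426) (nat_lit 342)) (XT.lf (nat_lit 76) (nat_lit 932635982) (nat_lit 0) (nat_lit 5024758553) (nat_lit 836) (nat_lit 11428925413) (nat_lit 129) (nat_lit 5) (nat_lit 128) (nat_lit 5) (nat_lit 139) (nat_lit 5) (nat_lit 433) (nat_lit 426) (nat_lit 341)))) (XT.nd (nat_lit 156) (nat_lit 684) (nat_lit 0) (XT.nd (nat_lit 78) (nat_lit 0) (nat_lit 0) (XT.lf (nat_lit 0) (nat_lit 7369748468) (nat_lit 760) (nat_lit 7514148637) (nat_lit 836) (nat_lit 2948591076) (nat_lit 129) (nat_lit 5) (nat_lit 139) (nat_lit 5) (nat_lit 140) (nat_lit 5) (nat_lit 434) (nat_lit 426) (nat_lit 340)) (XT.lf (nat_lit 76) (nat_lit 1837126541) (nat_lit 0) (nat_lit 7112436097)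 (nat_lit 836) (nat_lit 9346565486) (nat_lit 130) (nat_lit 5) (nat_lit 129) (nat_lit 5) (nat_lit 140) (nat_lit 5) (nat_lit 435) (nat_lit 426) (nat_lit 339))) (XT.nd (nat_lit 78) (nat_lit 760) (nat_lit 0) (XT.lf (nat_lit 0) (nat_lit 10740384755) (nat_lit 760) (nat_lit 6890390779) (nat_lit 76) (nat_lit 1145578836) (nat_lit 130) (nat_lit 5) (nat_lit 140) (nat_lit 5) (nat_lit 131) (nat_lit 5) (nat_lit 436) (nat_lit 426) (nat_lit 338)) (XT.lf (nat_lit 0) (nat_lit 3128566779) (nat_lit 760) (nat_lit 9644595058) (nat_lit 836) (nat_lit 6499814318) (nat_lit 120) (nat_lit 5) (nat_lit 130) (nat_lit 5) (nat_lit 131) (nat_lit 5) (nat_lit 437) (nat_lit 426) (nat_lit 337))))))))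
noncomputable def xc154 : XT := (XT.nd (nat_lit 2184) (nat_lit 2356) (nat_lit 0) (XT.nd (nat_lit 1092) (nat_lit 1976) (nat_lit 0) (XT.nd (nat_lit 546) (nat_lit 1216) (nat_lit 0) (XT.nd (nat_lit 234) (nat_lit 836) (nat_lit 0) (XT.nd (nat_lit 78) (nat_lit 380) (nat_lit 0) (XT.lf (nat_lit 0) (nat_lit 13876258301) (nat_lit 760) (nat_lit 1135424368) (nat_lit 836) (nat_lit 4777545806) (nat_lit 120) (nat_lit 5) (nat_lit 130) (nat_lit 5) (nat_lit 131) (nat_lit 5) (nat_lit 438) (nat_lit 426) (nat_lit 336)) (XT.nd (nat_lit 78) (nat_lit 0) (nat_lit 0) (XT.lf (nat_lit 0) (nat_lit 4852060449) (nat_lit 380) (nat_lit 12695620147) (nat_lit 456) (nat_lit 2774339724) (nat_lit 115) (nat_lit 5) (nat_lit 120) (nat_lit 5) (nat_lit 121) (nat_lit 5) (nat_lit 439) (nat_lit 426) (nat_lit 335)) (XT.lf (nat_lit 0) (nat_lit 16330074919) (nat_lit 380) (nat_lit 3987278393) (nat_lit 456) (nat_lit 558758952) (nat_lit 115)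 (nat_lit 5) (nat_lit 120) (nat_lit 5) (nat_lit 121) (nat_lit 5) (nat_lit 440) (nat_lit 426) (nat_lit 334)))) (XT.nd (nat_lit 156) (nat_lit 380) (nat_lit 0) (XT.nd (nat_lit 78) (nat_lit 0) (nat_lit 0) (XT.lf (nat_lit 0) (nat_lit 1893650321) (nat_lit 456) (nat_lit 14421336506) (nat_lit 76) (nat_lit 5132414788) (nat_lit 109) (nat_lit 5) (nat_lit 115) (nat_lit 5) (nat_lit 110) (nat_lit 5) (nat_lit 441) (nat_lit 426) (nat_lit 333)) (XT.lf (nat_lit 0) (nat_lit 4582668384) (nat_lit 456) (nat_lit 2796115523) (nat_lit 76) (nat_lit 14661378885) (nat_lit 109) (nat_lit 5) (nat_lit 115) (nat_lit 5) (nat_lit 110) (nat_lit 5) (nat_lit 442) (nat_lit 426) (nat_lit 332))) (XT.nd (nat_lit 78) (nat_lit 0) (nat_lit 0) (XT.lf (nat_lit 0) (nat_lit 7581173672) (nat_lit 456) (nat_lit 12979090479) (nat_lit 76) (nat_lit 2093549558) (nat_lit 104) (nat_lit 5) (nat_lit 110) (nat_lit 5) (nat_lit 105) (nat_lit 5) (nat_lit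 443) (nat_lit 426) (nat_lit 331)) (XT.lf (nat_lit 0) (nat_lit 10888675261) (nat_lit 456) (nat_lit 562629614) (nat_lit 76) (nat_lit 11838892076) (nat_lit 104) (nat_lit 5) (nat_lit 110) (nat_lit 5) (nat_lit 105) (nat_lit 5) (nat_lit 444) (nat_lit 426) (nat_lit 330))))) (XT.nd (nat_lit 234) (nat_lit 608) (nat_lit 0) (XT.nd (nat_lit 78) (nat_lit 304) (nat_lit 0) (XT.lf (nat_lit 0) (nat_lit 12876015879) (nat_lit 304) (nat_lit 1677021514) (nat_lit 380) (nat_lit 9395790862) (nat_lit 100) (nat_lit 5) (nat_lit 104) (nat_lit 5) (nat_lit 105) (nat_lit 5) (nat_lit 445) (nat_lit 426) (nat_lit 329)) (XT.nd (nat_lit 78) (nat_lit 0) (nat_lit 0) (XT.lf (nat_lit 0) (nat_lit 2294417408) (nat_lit 304) (nat_lit 16276481777) (nat_lit 380) (nat_lit 6060980882) (nat_lit 96) (nat_lit 5) (nat_lit 100) (nat_lit 5) (nat_lit 101) (nat_lit 5) (nat_lit 446) (nat_lit 426) (nat_lit 328)) (XT.lf (nat_lit 0) (nat_lit 16675185248)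 (nat_lit 304) (nat_lit 6320036913) (nat_lit 380) (nat_lit 2343586782) (nat_lit 96) (nat_lit 5) (nat_lit 100) (nat_lit 5) (nat_lit 101) (nat_lit 5) (nat_lit 447) (nat_lit 426) (nat_lit 327)))) (XT.nd (nat_lit 156) (nat_lit 304) (nat_lit 0) (XT.nd (nat_lit 78) (nat_lit 0) (nat_lit 0) (XT.lf (nat_lit 0) (nat_lit 1658724960) (nat_lit 304) (nat_lit 20296107770) (nat_lit 76) (nat_lit 4117588229) (nat_lit 92) (nat_lit 5) (nat_lit 96) (nat_lit 5) (nat_lit 93) (nat_lit 5) (nat_lit 448) (nat_lit 426) (nat_lit 326)) (XT.lf (nat_lit 0) (nat_lit 6026630070) (nat_lit 304) (nat_lit 5751624308) (nat_lit 76) (nat_lit 15050328828) (nat_lit 92) (nat_lit 5) (nat_lit 96) (nat_lit 5) (nat_lit 93) (nat_lit 5) (nat_lit 449) (nat_lit 426) (nat_lit 325))) (XT.nd (nat_lit 78) (nat_lit 0) (nat_lit 0) (XT.lf (nat_lit 0) (nat_lit 9824191839) (nat_lit 304) (nat_lit 934028956) (nat_lit 380) (nat_lit 16857070617) (nat_lit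 88) (nat_lit 5) (nat_lit 92) (nat_lit 5) (nat_lit 93) (nat_lit 5) (nat_lit 450) (nat_lit 426) (nat_lit 324)) (XT.lf (nat_lit 0) (nat_lit 15980683917) (nat_lit 380) (nat_lit 2233290859) (nat_lit 76) (nat_lit 10214647867) (nat_lit 88) (nat_lit 5) (nat_lit 93) (nat_lit 5) (nat_lit 89) (nat_lit 5) (nat_lit 451) (nat_lit 426) (nat_lit 323)))))) (XT.nd (nat_lit 546) (nat_lit 988) (nat_lit 0) (XT.nd (nat_lit 234) (nat_lit 456) (nat_lit 0) (XT.nd (nat_lit 78) (nat_lit 304) (nat_lit 0) (XT.lf (nat_lit 0) (nat_lit 14542528893) (nat_lit 228) (nat_lit 7156577274) (nat_lit 304) (nat_lit 7571774615) (nat_lit 85) (nat_lit 5) (nat_lit 88) (nat_lit 5) (nat_lit 89) (nat_lit 5) (nat_lit 452) (nat_lit 426) (nat_lit 322)) (XT.nd (nat_lit 78) (nat_lit 76) (nat_lit 0) (XT.lf (nat_lit 0) (nat_lit 2067134207) (nat_lit 228) (nat_lit 25769204805) (nat_lit 304) (nat_lit 2312270387) (nat_lit 82) (nat_lit 5) (nat_lit 85)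 (nat_lit 5) (nat_lit 86) (nat_lit 5) (nat_lit 453) (nat_lit 426) (nat_lit 321)) (XT.lf (nat_lit 0) (nat_lit 3471017984) (nat_lit 304) (nat_lit 11025818042) (nat_lit 76) (nat_lit 16552706476) (nat_lit 81) (nat_lit 5) (nat_lit 85) (nat_lit 5) (nat_lit 82) (nat_lit 5) (nat_lit 454) (nat_lit 426) (nat_lit 320)))) (XT.nd (nat_lit 156) (nat_lit 228) (nat_lit 0) (XT.nd (nat_lit 78) (nat_lit 0) (nat_lit 0) (XT.lf (nat_lit 0) (nat_lit 7060934104) (nat_lit 228) (nat_lit 2508131068) (nat_lit 304) (nat_lit 22419398457) (nat_lit 78) (nat_lit 5) (nat_lit 81) (nat_lit 5) (nat_lit 82) (nat_lit 5) (nat_lit 455) (nat_lit 426) (nat_lit 319)) (XT.lf (nat_lit 0) (nat_lit 16312377088) (nat_lit 304) (nat_lit 6700530461) (nat_lit 76) (nat_lit 9944406828) (nat_lit 78) (nat_lit 5) (nat_lit 82) (nat_lit 5) (nat_lit 79) (nat_lit 5) (nat_lit 456) (nat_lit 426) (nat_lit 318))) (XT.nd (nat_lit 78) (nat_lit 0) (nat_lit 0)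 (XT.lf (nat_lit 0) (nat_lit 12796839396) (nat_lit 228) (nat_lit 10830447112) (nat_lit 304) (nat_lit 10335601161) (nat_lit 75) (nat_lit 5) (nat_lit 78) (nat_lit 5) (nat_lit 79) (nat_lit 5) (nat_lit 457) (nat_lit 426) (nat_lit 317)) (XT.lf (nat_lit 0) (nat_lit 31447534826) (nat_lit 304) (nat_lit 1553399540) (nat_lit 76) (nat_lit 2010827114) (nat_lit 75) (nat_lit 5) (nat_lit 79) (nat_lit 5) (nat_lit 76) (nat_lit 5) (nat_lit 458) (nat_lit 426) (nat_lit 316))))) (XT.nd (nat_lit 234) (nat_lit 532) (nat_lit 0) (XT.nd (nat_lit 78) (nat_lit 228) (nat_lit 0) (XT.lf (nat_lit 0) (nat_lit 3915599591) (nat_lit 228) (nat_lit 16675854853) (nat_lit 76) (nat_lit 15494689589) (nat_lit 72) (nat_lit 5) (nat_lit 75) (nat_lit 5) (nat_lit 73) (nat_lit 5) (nat_lit 459) (nat_lit 426) (nat_lit 315)) (XT.nd (nat_lit 78) (nat_lit 0) (nat_lit 0) (XT.lf (nat_lit 0) (nat_lit 4333854097) (nat_lit 228) (nat_lit 7404175135)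 (nat_lit 304) (nat_lit 25468876629) (nat_lit 69) (nat_lit 5) (nat_lit 72) (nat_lit 5) (nat_lit 73) (nat_lit 5) (nat_lit 460) (nat_lit 426) (nat_lit 314)) (XT.lf (nat_lit 0) (nat_lit 20333296108) (nat_lit 304) (nat_lit 11511058503) (nat_lit 76) (nat_lit 6520266637) (nat_lit 69) (nat_lit 5) (nat_lit 73) (nat_lit 5) (nat_lit 70) (nat_lit 5) (nat_lit 461) (nat_lit 426) (nat_lit 313)))) (XT.nd (nat_lit 156) (nat_lit 380) (nat_lit 0) (XT.nd (nat_lit 78) (nat_lit 0) (nat_lit 0) (XT.lf (nat_lit 0) (nat_lit 11145567787) (nat_lit 152) (nat_lit 18502520928) (nat_lit 228) (nat_lit 9917646765) (nat_lit 67) (nat_lit 5) (nat_lit 69) (nat_lit 5) (nat_lit 70) (nat_lit 5) (nat_lit 462) (nat_lit 426) (nat_lit 312)) (XT.lf (nat_lit 0) (nat_lit 35325991034) (nat_lit 152) (nat_lit 4292076933) (nat_lit 228) (nat_lit 1199366246) (nat_lit 67) (nat_lit 5) (nat_lit 69) (nat_lit 5) (nat_lit 70) (nat_lit 5) (nat_lit 463)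 (nat_lit 426) (nat_lit 311))) (XT.nd (nat_lit 78) (nat_lit 152) (nat_lit 0) (XT.lf (nat_lit 0) (nat_lit 8165311664) (nat_lit 228) (nat_lit 23222547983) (nat_lit 76) (nat_lit 10714395032) (nat_lit 64) (nat_lit 5) (nat_lit 67) (nat_lit 5) (nat_lit 65) (nat_lit 5) (nat_lit 464) (nat_lit 426) (nat_lit 310)) (XT.lf (nat_lit 0) (nat_lit 1150149249) (nat_lit 152) (nat_lit 16985363552) (nat_lit 228) (nat_lit 25305941469) (nat_lit 62) (nat_lit 5) (nat_lit 64) (nat_lit 5) (nat_lit 65) (nat_lit 5) (nat_lit 465) (nat_lit 426) (nat_lit 309))))))) (XT.nd (nat_lit 1092) (nat_lit 1064) (nat_lit 0) (XT.nd (nat_lit 546) (nat_lit 532) (nat_lit 0) (XT.nd (nat_lit 234) (nat_lit 532) (nat_lit 0) (XT.nd (nat_lit 78) (nat_lit 228) (nat_lit 0) (XT.lf (nat_lit 0) (nat_lit 27539340201) (nat_lit 152) (nat_lit 1453040105) (nat_lit 228) (nat_lit 15835826655) (nat_lit 62) (nat_lit 5) (nat_lit 64) (nat_lit 5) (nat_lit 65)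 (nat_lit 5) (nat_lit 466) (nat_lit 426) (nat_lit 308)) (XT.nd (nat_lit 78) (nat_lit 76) (nat_lit 0) (XT.lf (nat_lit 0) (nat_lit 9012018485) (nat_lit 152) (nat_lit 31747784966) (nat_lit 228) (nat_lit 5506109116) (nat_lit 60) (nat_lit 5) (nat_lit 62) (nat_lit 5) (nat_lit 63) (nat_lit 5) (nat_lit 467) (nat_lit 426) (nat_lit 307)) (XT.lf (nat_lit 0) (nat_lit 5485690129) (nat_lit 228) (nat_lit 10652884049) (nat_lit 76) (nat_lit 31616935781) (nat_lit 59) (nat_lit 5) (nat_lit 62) (nat_lit 5) (nat_lit 60) (nat_lit 5) (nat_lit 468) (nat_lit 426) (nat_lit 306)))) (XT.nd (nat_lit 156) (nat_lit 380) (nat_lit 0) (XT.nd (nat_lit 78) (nat_lit 0) (nat_lit 0) (XT.lf (nat_lit 0) (nat_lit 17124360019) (nat_lit 228) (nat_lit 31563196882) (nat_lit 76) (nat_lit 613401785) (nat_lit 57) (nat_lit 5) (nat_lit 60) (nat_lit 5) (nat_lit 58) (nat_lit 5) (nat_lit 469) (nat_lit 426) (nat_lit 305)) (XT.lf (nat_lit 0) (nat_lit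 29788283251) (nat_lit 228) (nat_lit 3272267932) (nat_lit 76) (nat_lit 17840963409) (nat_lit 57) (nat_lit 5) (nat_lit 60) (nat_lit 5) (nat_lit 58) (nat_lit 5) (nat_lit 470) (nat_lit 426) (nat_lit 304))) (XT.nd (nat_lit 78) (nat_lit 228) (nat_lit 0) (XT.lf (nat_lit 0) (nat_lit 27299467246) (nat_lit 152) (nat_lit 16207760150) (nat_lit 228) (nat_lit 9053780356) (nat_lit 55) (nat_lit 5) (nat_lit 57) (nat_lit 5) (nat_lit 58) (nat_lit 5) (nat_lit 471) (nat_lit 426) (nat_lit 303)) (XT.lf (nat_lit 0) (nat_lit 3654513400) (nat_lit 228) (nat_lit 49002159484) (nat_lit 76) (nat_lit 1635917803) (nat_lit 52) (nat_lit 5) (nat_lit 55) (nat_lit 5) (nat_lit 53) (nat_lit 5) (nat_lit 472) (nat_lit 426) (nat_lit 302))))) (XT.nd (nat_lit 234) (nat_lit 380) (nat_lit 0) (XT.nd (nat_lit 78) (nat_lit 152) (nat_lit 0) (XT.lf (nat_lit 0) (nat_lit 17390156992) (nat_lit 228) (nat_lit 18271036556) (nat_lit 76) (nat_lit 20407328616)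 (nat_lit 52) (nat_lit 5) (nat_lit 55) (nat_lit 5) (nat_lit 53) (nat_lit 5) (nat_lit 473) (nat_lit 426) (nat_lit 301)) (XT.nd (nat_lit 78) (nat_lit 0) (nat_lit 0) (XT.lf (nat_lit 0) (nat_lit 14451993955) (nat_lit 152) (nat_lit 17582101842) (nat_lit 228) (nat_lit 25888079340) (nat_lit 50) (nat_lit 5) (nat_lit 52) (nat_lit 5) (nat_lit 53) (nat_lit 5) (nat_lit 474) (nat_lit 426) (nat_lit 300)) (XT.lf (nat_lit 0) (nat_lit 47742520666) (nat_lit 228) (nat_lit 10441720730) (nat_lit 76) (nat_lit 1667655456) (nat_lit 50) (nat_lit 5) (nat_lit 53) (nat_lit 5) (nat_lit 51) (nat_lit 4) (nat_lit 475) (nat_lit 426) (nat_lit 299)))) (XT.nd (nat_lit 156) (nat_lit 228) (nat_lit 0) (XT.nd (nat_lit 78) (nat_lit 0) (nat_lit 0) (XT.lf (nat_lit 0) (nat_lit 2964293301) (nat_lit 152) (nat_lit 37157690428) (nat_lit 76) (nat_lit 21720204951) (nat_lit 48) (nat_lit 5) (nat_lit 50) (nat_lit 5) (nat_lit 49) (nat_lit 5) (nat_lit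 476) (nat_lit 426) (nat_lit 298)) (XT.lf (nat_lit 0) (nat_lit 18560552249) (nat_lit 152) (nat_lit 2201939254) (nat_lit 76) (nat_lit 43150785331) (nat_lit 48) (nat_lit 5) (nat_lit 50) (nat_lit 5) (nat_lit 49) (nat_lit 5) (nat_lit 477) (nat_lit 426) (nat_lit 297))) (XT.nd (nat_lit 78) (nat_lit 76) (nat_lit 0) (XT.lf (nat_lit 0) (nat_lit 35491589412) (nat_lit 228) (nat_lit 30426993549) (nat_lit 76) (nat_lit 141588620) (nat_lit 46) (nat_lit 5) (nat_lit 49) (nat_lit 5) (nat_lit 47) (nat_lit 4) (nat_lit 478) (nat_lit 426) (nat_lit 296)) (XT.lf (nat_lit 0) (nat_lit 7000413091) (nat_lit 76) (nat_lit 46752672577) (nat_lit 152) (nat_lit 14537130467) (nat_lit 45) (nat_lit 5) (nat_lit 46) (nat_lit 5) (nat_lit 47) (nat_lit 4) (nat_lit 479) (nat_lit 426) (nat_lit 295)))))) (XT.nd (nat_lit 546) (nat_lit 532) (nat_lit 0) (XT.nd (nat_lit 234) (nat_lit 304) (nat_lit 0) (XT.nd (nat_lit 78) (nat_lit 152) (nat_lit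 0) (XT.lf (nat_lit 0) (nat_lit 2742507897) (nat_lit 152) (nat_lit 23301373447) (nat_lit 76) (nat_lit 44560084843) (nat_lit 44) (nat_lit 5) (nat_lit 46) (nat_lit 5) (nat_lit 45) (nat_lit 5) (nat_lit 480) (nat_lit 426) (nat_lit 294)) (XT.nd (nat_lit 78) (nat_lit 0) (nat_lit 0) (XT.lf (nat_lit 0) (nat_lit 16882185979) (nat_lit 152) (nat_lit 3775504846) (nat_lit 228) (nat_lit 52350792329) (nat_lit 42) (nat_lit 5) (nat_lit 44) (nat_lit 5) (nat_lit 45) (nat_lit 5) (nat_lit 481) (nat_lit 426) (nat_lit 293)) (XT.lf (nat_lit 0) (nat_lit 40172383131) (nat_lit 228) (nat_lit 15948517170) (nat_lit 76) (nat_lit 19377138510) (nat_lit 42) (nat_lit 5) (nat_lit 45) (nat_lit 5) (nat_lit 43) (nat_lit 4) (nat_lit 482) (nat_lit 426) (nat_lit 292)))) (XT.nd (nat_lit 156) (nat_lit 152) (nat_lit 0) (XT.nd (nat_lit 78) (nat_lit 76) (nat_lit 0) (XT.lf (nat_lit 0) (nat_lit 27035527532) (nat_lit 76) (nat_lit 34107992464)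 (nat_lit 152) (nat_lit 16944517093) (nat_lit 41) (nat_lit 5) (nat_lit 42) (nat_lit 5) (nat_lit 43) (nat_lit 4) (nat_lit 483) (nat_lit 426) (nat_lit 291)) (XT.lf (nat_lit 0) (nat_lit 2551532278) (nat_lit 152) (nat_lit 8118813736) (nat_lit 76) (nat_lit 70121788122) (nat_lit 40) (nat_lit 5) (nat_lit 42) (nat_lit 5) (nat_lit 41) (nat_lit 5) (nat_lit 484) (nat_lit 426) (nat_lit 290))) (XT.nd (nat_lit 78) (nat_lit 0) (nat_lit 0) (XT.lf (nat_lit 0) (nat_lit 23273241089) (nat_lit 228) (nat_lit 45929194988) (nat_lit 76) (nat_lit 14374096108) (nat_lit 38) (nat_lit 5) (nat_lit 41) (nat_lit 5) (nat_lit 39) (nat_lit 4) (nat_lit 485) (nat_lit 426) (nat_lit 289)) (XT.lf (nat_lit 0) (nat_lit 45342610855) (nat_lit 228) (nat_lit 692569722) (nat_lit 76) (nat_lit 40449391060) (nat_lit 38) (nat_lit 5) (nat_lit 41) (nat_lit 5) (nat_lit 39) (nat_lit 4) (nat_lit 486) (nat_lit 426) (nat_lit 288))))) (XT.nd (nat_lit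 312) (nat_lit 228) (nat_lit 0) (XT.nd (nat_lit 156) (nat_lit 76) (nat_lit 0) (XT.nd (nat_lit 78) (nat_lit 152) (nat_lit 0) (XT.lf (nat_lit 0) (nat_lit 48347814809) (nat_lit 76) (nat_lit 20919528455) (nat_lit 152) (nat_lit 20233075352) (nat_lit 37) (nat_lit 5) (nat_lit 38) (nat_lit 5) (nat_lit 39) (nat_lit 4) (nat_lit 487) (nat_lit 426) (nat_lit 287)) (XT.lf (nat_lit 0) (nat_lit 1878320174) (nat_lit 152) (nat_lit 85344969933) (nat_lit 76) (nat_lit 5431816561) (nat_lit 35) (nat_lit 5) (nat_lit 37) (nat_lit 5) (nat_lit 36) (nat_lit 4) (nat_lit 488) (nat_lit 426) (nat_lit 286))) (XT.nd (nat_lit 78) (nat_lit 76) (nat_lit 0) (XT.lf (nat_lit 0) (nat_lit 25463702419) (nat_lit 152) (nat_lit 36999529278) (nat_lit 76) (nat_lit 33435294119) (nat_lit 35) (nat_lit 5) (nat_lit 37) (nat_lit 5) (nat_lit 36) (nat_lit 4) (nat_lit 489) (nat_lit 426) (nat_lit 285)) (XT.lf (nat_lit 0) (nat_lit 14212816763) (nat_lit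 76) (nat_lit 36234651643) (nat_lit 152) (nat_lit 48845691998) (nat_lit 34) (nat_lit 5) (nat_lit 35) (nat_lit 5) (nat_lit 36) (nat_lit 4) (nat_lit 490) (nat_lit 426) (nat_lit 284)))) (XT.nd (nat_lit 156) (nat_lit 152) (nat_lit 0) (XT.nd (nat_lit 78) (nat_lit 76) (nat_lit 0) (XT.lf (nat_lit 0) (nat_lit 69265139602) (nat_lit 76) (nat_lit 8039152597) (nat_lit 152) (nat_lit 25522041255) (nat_lit 34) (nat_lit 5) (nat_lit 35) (nat_lit 5) (nat_lit 36) (nat_lit 4) (nat_lit 491) (nat_lit 426) (nat_lit 283)) (XT.lf (nat_lit 0) (nat_lit 20859822402) (nat_lit 76) (nat_lit 85303881134) (nat_lit 76) (nat_lit 339474499) (nat_lit 33) (nat_lit 4) (nat_lit 34) (nat_lit 5) (nat_lit 34) (nat_lit 4) (nat_lit 492) (nat_lit 426) (nat_lit 282))) (XT.nd (nat_lit 78) (nat_lit 76) (nat_lit 0) (XT.lf (nat_lit 0) (nat_lit 25973632928) (nat_lit 152) (nat_lit 31722057825) (nat_lit 76) (nat_lit 52612455511) (nat_lit 32) (nat_lit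 5) (nat_lit 34) (nat_lit 5) (nat_lit 33) (nat_lit 4) (nat_lit 493) (nat_lit 426) (nat_lit 281)) (XT.lf (nat_lit 0) (nat_lit 25707753872) (nat_lit 76) (nat_lit 28282093213) (nat_lit 152) (nat_lit 60293294733) (nat_lit 31) (nat_lit 5) (nat_lit 32) (nat_lit 5) (nat_lit 33) (nat_lit 4) (nat_lit 494) (nat_lit 426) (nat_lit 280))))))))
noncomputable def xc155 : XT := (XT.nd (nat_lit 2184) (nat_lit 456) (nat_lit 0) (XT.nd (nat_lit 1092) (nat_lit 684) (nat_lit 0) (XT.nd (nat_lit 546) (nat_lit 304) (nat_lit 0) (XT.nd (nat_lit 234) (nat_lit 228) (nat_lit 0) (XT.nd (nat_lit 78) (nat_lit 152) (nat_lit 0) (XT.lf (nat_lit 0) (nat_lit 83991035314) (nat_lit 152) (nat_lit 31373891159) (nat_lit 0) (nat_lit 3062752671) (nat_lit 31) (nat_lit 5) (nat_lit 33) (nat_lit 4) (nat_lit 31) (nat_lit 4) (nat_lit 495) (nat_lit 426) (nat_lit 279)) (XT.nd (nat_lit 78) (nat_lit 76) (nat_lit 0) (XT.lf (nat_lit 0) (nat_lit 29152525925)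 (nat_lit 76) (nat_lit 87256170104) (nat_lit 76) (nat_lit 6324926808) (nat_lit 30) (nat_lit 4) (nat_lit 31) (nat_lit 5) (nat_lit 31) (nat_lit 4) (nat_lit 496) (nat_lit 426) (nat_lit 278)) (XT.lf (nat_lit 0) (nat_lit 22987741748) (nat_lit 152) (nat_lit 33809192380) (nat_lit 76) (nat_lit 70412941498) (nat_lit 29) (nat_lit 5) (nat_lit 31) (nat_lit 5) (nat_lit 30) (nat_lit 4) (nat_lit 497) (nat_lit 426) (nat_lit 277)))) (XT.nd (nat_lit 156) (nat_lit 152) (nat_lit 0) (XT.nd (nat_lit 78) (nat_lit 0) (nat_lit 0) (XT.lf (nat_lit 0) (nat_lit 29796945104) (nat_lit 76) (nat_lit 24219490734) (nat_lit 152) (nat_lit 77865173428) (nat_lit 28) (nat_lit 5) (nat_lit 29) (nat_lit 5) (nat_lit 30) (nat_lit 4) (nat_lit 498) (nat_lit 426) (nat_lit 276)) (XT.lf (nat_lit 0) (nat_lit 87332194159) (nat_lit 152) (nat_lit 39170813150) (nat_lit 0) (nat_lit 10247140930) (nat_lit 28) (nat_lit 5) (nat_lit 30) (nat_lit 4) (nat_lit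 28) (nat_lit 4) (nat_lit 499) (nat_lit 426) (nat_lit 275))) (XT.nd (nat_lit 78) (nat_lit 76) (nat_lit 0) (XT.lf (nat_lit 0) (nat_lit 27363323196) (nat_lit 76) (nat_lit 95772529231) (nat_lit 76) (nat_lit 18685156252) (nat_lit 27) (nat_lit 4) (nat_lit 28) (nat_lit 5) (nat_lit 28) (nat_lit 4) (nat_lit 500) (nat_lit 426) (nat_lit 274)) (XT.lf (nat_lit 0) (nat_lit 13821607966) (nat_lit 152) (nat_lit 48755285932) (nat_lit 76) (nat_lit 84524308501) (nat_lit 26) (nat_lit 5) (nat_lit 28) (nat_lit 5) (nat_lit 27) (nat_lit 4) (nat_lit 501) (nat_lit 426) (nat_lit 273))))) (XT.nd (nat_lit 234) (nat_lit 152) (nat_lit 0) (XT.nd (nat_lit 78) (nat_lit 76) (nat_lit 0) (XT.lf (nat_lit 0) (nat_lit 20580660228) (nat_lit 76) (nat_lit 27064386880) (nat_lit 152) (nat_lit 104969079075) (nat_lit 25) (nat_lit 5) (nat_lit 26) (nat_lit 5) (nat_lit 27) (nat_lit 4) (nat_lit 502) (nat_lit 426) (nat_lit 272)) (XT.nd (nat_lit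 78) (nat_lit 76) (nat_lit 0) (XT.lf (nat_lit 0) (nat_lit 84156475137) (nat_lit 152) (nat_lit 63462467259) (nat_lit 0) (nat_lit 10733913012) (nat_lit 25) (nat_lit 5) (nat_lit 27) (nat_lit 4) (nat_lit 25) (nat_lit 4) (nat_lit 503) (nat_lit 426) (nat_lit 271)) (XT.lf (nat_lit 0) (nat_lit 8357095811) (nat_lit 76) (nat_lit 114708597086) (nat_lit 76) (nat_lit 41284217376) (nat_lit 24) (nat_lit 4) (nat_lit 25) (nat_lit 5) (nat_lit 25) (nat_lit 4) (nat_lit 504) (nat_lit 426) (nat_lit 270)))) (XT.nd (nat_lit 156) (nat_lit 76) (nat_lit 0) (XT.nd (nat_lit 78) (nat_lit 76) (nat_lit 0) (XT.lf (nat_lit 0) (nat_lit 85967185324) (nat_lit 76) (nat_lit 79026050098) (nat_lit 76) (nat_lit 5599939355) (nat_lit 24) (nat_lit 4) (nat_lit 25) (nat_lit 5) (nat_lit 25) (nat_lit 4) (nat_lit 505) (nat_lit 426) (nat_lit 269)) (XT.lf (nat_lit 0) (nat_lit 30846716994) (nat_lit 152) (nat_lit 10191989507) (nat_lit 76) (nat_lit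 136085110361) (nat_lit 23) (nat_lit 5) (nat_lit 25) (nat_lit 5) (nat_lit 24) (nat_lit 4) (nat_lit 506) (nat_lit 426) (nat_lit 268))) (XT.nd (nat_lit 78) (nat_lit 0) (nat_lit 0) (XT.lf (nat_lit 0) (nat_lit 70021847068) (nat_lit 152) (nat_lit 113810684805) (nat_lit 0) (nat_lit 89152360) (nat_lit 22) (nat_lit 5) (nat_lit 24) (nat_lit 4) (nat_lit 22) (nat_lit 4) (nat_lit 507) (nat_lit 426) (nat_lit 267)) (XT.lf (nat_lit 0) (nat_lit 112002185006) (nat_lit 152) (nat_lit 36946871300) (nat_lit 0) (nat_lit 42068066174) (nat_lit 22) (nat_lit 5) (nat_lit 24) (nat_lit 4) (nat_lit 22) (nat_lit 4) (nat_lit 508) (nat_lit 426) (nat_lit 266)))))) (XT.nd (nat_lit 546) (nat_lit 380) (nat_lit 0) (XT.nd (nat_lit 234) (nat_lit 76) (nat_lit 0) (XT.nd (nat_lit 78) (nat_lit 152) (nat_lit 0) (XT.lf (nat_lit 0) (nat_lit 45203653993) (nat_lit 76) (nat_lit 111581974708) (nat_lit 76) (nat_lit 41646499566) (nat_lit 21) (nat_lit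 4) (nat_lit 22) (nat_lit 5) (nat_lit 22) (nat_lit 4) (nat_lit 509) (nat_lit 426) (nat_lit 265)) (XT.nd (nat_lit 78) (nat_lit 152) (nat_lit 0) (XT.lf (nat_lit 0) (nat_lit 132741192251) (nat_lit 76) (nat_lit 71691127630) (nat_lit 76) (nat_lit 1754360764) (nat_lit 21) (nat_lit 4) (nat_lit 22) (nat_lit 5) (nat_lit 22) (nat_lit 4) (nat_lit 510) (nat_lit 426) (nat_lit 264)) (XT.lf (nat_lit 0) (nat_lit 10017568382) (nat_lit 76) (nat_lit 28985146476) (nat_lit 152) (nat_lit 175287176053) (nat_lit 19) (nat_lit 5) (nat_lit 20) (nat_lit 5) (nat_lit 21) (nat_lit 4) (nat_lit 511) (nat_lit 426) (nat_lit 263)))) (XT.nd (nat_lit 156) (nat_lit 76) (nat_lit 0) (XT.nd (nat_lit 78) (nat_lit 0) (nat_lit 0) (XT.lf (nat_lit 0) (nat_lit 83248888902) (nat_lit 152) (nat_lit 122832267914) (nat_lit 0) (nat_lit 16640156798) (nat_lit 19) (nat_lit 5) (nat_lit 21) (nat_lit 4) (nat_lit 19) (nat_lit 4) (nat_lit 512) (nat_lit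 426) (nat_lit 262)) (XT.lf (nat_lit 0) (nat_lit 130181031660) (nat_lit 152) (nat_lit 37798355996) (nat_lit 0) (nat_lit 63571236852) (nat_lit 19) (nat_lit 5) (nat_lit 21) (nat_lit 4) (nat_lit 19) (nat_lit 4) (nat_lit 513) (nat_lit 426) (nat_lit 261))) (XT.nd (nat_lit 78) (nat_lit 0) (nat_lit 0) (XT.lf (nat_lit 0) (nat_lit 53186721532) (nat_lit 76) (nat_lit 127102019207) (nat_lit 76) (nat_lit 60491212300) (nat_lit 18) (nat_lit 4) (nat_lit 19) (nat_lit 5) (nat_lit 19) (nat_lit 4) (nat_lit 514) (nat_lit 426) (nat_lit 260)) (XT.lf (nat_lit 0) (nat_lit 150030535039) (nat_lit 76) (nat_lit 83510023821) (nat_lit 76) (nat_lit 16898253010) (nat_lit 18) (nat_lit 4) (nat_lit 19) (nat_lit 5) (nat_lit 19) (nat_lit 4) (nat_lit 515) (nat_lit 426) (nat_lit 259))))) (XT.nd (nat_lit 234) (nat_lit 228) (nat_lit 0) (XT.nd (nat_lit 78) (nat_lit 76) (nat_lit 0) (XT.lf (nat_lit 0) (nat_lit 27948829800) (nat_lit 152)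 (nat_lit 9317587722) (nat_lit 76) (nat_lit 223291723923) (nat_lit 17) (nat_lit 5) (nat_lit 19) (nat_lit 5) (nat_lit 18) (nat_lit 4) (nat_lit 516) (nat_lit 426) (nat_lit 258)) (XT.nd (nat_lit 78) (nat_lit 0) (nat_lit 0) (XT.lf (nat_lit 0) (nat_lit 76060478561) (nat_lit 152) (nat_lit 182410612868) (nat_lit 0) (nat_lit 12618989891) (nat_lit 16) (nat_lit 5) (nat_lit 18) (nat_lit 4) (nat_lit 16) (nat_lit 4) (nat_lit 517) (nat_lit 426) (nat_lit 257)) (XT.lf (nat_lit 0) (nat_lit 127347722281) (nat_lit 152) (nat_lit 90856954719) (nat_lit 0) (nat_lit 63905440605) (nat_lit 16) (nat_lit 5) (nat_lit 18) (nat_lit 4) (nat_lit 16) (nat_lit 4) (nat_lit 518) (nat_lit 426) (nat_lit 256)))) (XT.nd (nat_lit 156) (nat_lit 152) (nat_lit 0) (XT.nd (nat_lit 78) (nat_lit 0) (nat_lit 0) (XT.lf (nat_lit 0) (nat_lit 5446245208) (nat_lit 76) (nat_lit 175836878831) (nat_lit 76) (nat_lit 112393841911) (nat_lit 15) (nat_lit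 4) (nat_lit 16) (nat_lit 5) (nat_lit 16) (nat_lit 4) (nat_lit 519) (nat_lit 426) (nat_lit 255)) (XT.lf (nat_lit 0) (nat_lit 109716538047) (nat_lit 76) (nat_lit 129736250143) (nat_lit 76) (nat_lit 66292493943) (nat_lit 15) (nat_lit 4) (nat_lit 16) (nat_lit 5) (nat_lit 16) (nat_lit 4) (nat_lit 520) (nat_lit 426) (nat_lit 254))) (XT.nd (nat_lit 78) (nat_lit 152) (nat_lit 0) (XT.lf (nat_lit 0) (nat_lit 219198045156) (nat_lit 76) (nat_lit 81331734027) (nat_lit 76) (nat_lit 17887292798) (nat_lit 15) (nat_lit 4) (nat_lit 16) (nat_lit 5) (nat_lit 16) (nat_lit 4) (nat_lit 521) (nat_lit 426) (nat_lit 253)) (XT.lf (nat_lit 0) (nat_lit 1977999645) (nat_lit 76) (nat_lit 29935704394) (nat_lit 152) (nat_lit 299781546322) (nat_lit 13) (nat_lit 5) (nat_lit 14) (nat_lit 5) (nat_lit 15) (nat_lit 4) (nat_lit 522) (nat_lit 426) (nat_lit 252))))))) (XT.nd (nat_lit 1092) (nat_lit 152) (nat_lit 0) (XT.nd (nat_lit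 546) (nat_lit 76) (nat_lit 0) (XT.nd (nat_lit 234) (nat_lit 228) (nat_lit 0) (XT.nd (nat_lit 78) (nat_lit 0) (nat_lit 0) (XT.lf (nat_lit 0) (nat_lit 85685549155) (nat_lit 152) (nat_lit 234571971682) (nat_lit 0) (nat_lit 25261058700) (nat_lit 13) (nat_lit 5) (nat_lit 15) (nat_lit 4) (nat_lit 13) (nat_lit 4) (nat_lit 523) (nat_lit 426) (nat_lit 251)) (XT.nd (nat_lit 78) (nat_lit 0) (nat_lit 0) (XT.lf (nat_lit 0) (nat_lit 142635671635) (nat_lit 152) (nat_lit 135162301705) (nat_lit 0) (nat_lit 82210617606) (nat_lit 13) (nat_lit 5) (nat_lit 15) (nat_lit 4) (nat_lit 13) (nat_lit 4) (nat_lit 524) (nat_lit 426) (nat_lit 250)) (XT.lf (nat_lit 0) (nat_lit 202432286769) (nat_lit 152) (nat_lit 30784170855) (nat_lit 0) (nat_lit 142006696002) (nat_lit 13) (nat_lit 5) (nat_lit 15) (nat_lit 4) (nat_lit 13) (nat_lit 4) (nat_lit 525) (nat_lit 426) (nat_lit 249)))) (XT.nd (nat_lit 156) (nat_lit 152) (nat_lit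 0) (XT.nd (nat_lit 78) (nat_lit 0) (nat_lit 0) (XT.lf (nat_lit 0) (nat_lit 81416785831) (nat_lit 76) (nat_lit 185072125817) (nat_lit 76) (nat_lit 124646023871) (nat_lit 12) (nat_lit 4) (nat_lit 13) (nat_lit 5) (nat_lit 13) (nat_lit 4) (nat_lit 526) (nat_lit 426) (nat_lit 248)) (XT.lf (nat_lit 0) (nat_lit 200294652011) (nat_lit 76) (nat_lit 133974111751) (nat_lit 76) (nat_lit 73547522968) (nat_lit 12) (nat_lit 4) (nat_lit 13) (nat_lit 5) (nat_lit 13) (nat_lit 4) (nat_lit 527) (nat_lit 426) (nat_lit 247))) (XT.nd (nat_lit 78) (nat_lit 152) (nat_lit 0) (XT.lf (nat_lit 0) (nat_lit 325114606508) (nat_lit 76) (nat_lit 80322098319) (nat_lit 76) (nat_lit 19895045882) (nat_lit 12) (nat_lit 4) (nat_lit 13) (nat_lit 5) (nat_lit 13) (nat_lit 4) (nat_lit 528) (nat_lit 426) (nat_lit 246)) (XT.lf (nat_lit 0) (nat_lit 12274760466) (nat_lit 76) (nat_lit 23189753913) (nat_lit 152) (nat_lit 408220488529) (nat_lit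 10) (nat_lit 5) (nat_lit 11) (nat_lit 5) (nat_lit 12) (nat_lit 4) (nat_lit 529) (nat_lit 426) (nat_lit 245))))) (XT.nd (nat_lit 234) (nat_lit 76) (nat_lit 0) (XT.nd (nat_lit 78) (nat_lit 0) (nat_lit 0) (XT.lf (nat_lit 0) (nat_lit 95222163245) (nat_lit 152) (nat_lit 329930742922) (nat_lit 0) (nat_lit 37671768426) (nat_lit 10) (nat_lit 5) (nat_lit 12) (nat_lit 4) (nat_lit 10) (nat_lit 4) (nat_lit 530) (nat_lit 426) (nat_lit 244)) (XT.nd (nat_lit 78) (nat_lit 0) (nat_lit 0) (XT.lf (nat_lit 0) (nat_lit 158347022670) (nat_lit 152) (nat_lit 223759094406) (nat_lit 0) (nat_lit 100796246401) (nat_lit 10) (nat_lit 5) (nat_lit 12) (nat_lit 4) (nat_lit 10) (nat_lit 4) (nat_lit 531) (nat_lit 426) (nat_lit 243)) (XT.lf (nat_lit 0) (nat_lit 224627332889) (nat_lit 152) (nat_lit 112280450208) (nat_lit 0) (nat_lit 167076193335) (nat_lit 10) (nat_lit 5) (nat_lit 12) (nat_lit 4) (nat_lit 10) (nat_lit 4) (nat_lit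 532) (nat_lit 426) (nat_lit 242)))) (XT.nd (nat_lit 156) (nat_lit 0) (nat_lit 0) (XT.nd (nat_lit 78) (nat_lit 0) (nat_lit 0) (XT.lf (nat_lit 0) (nat_lit 4928353091) (nat_lit 76) (nat_lit 289369496477) (nat_lit 76) (nat_lit 231818010937) (nat_lit 9) (nat_lit 4) (nat_lit 10) (nat_lit 5) (nat_lit 10) (nat_lit 4) (nat_lit 533) (nat_lit 426) (nat_lit 241)) (XT.lf (nat_lit 0) (nat_lit 131894233441) (nat_lit 76) (nat_lit 237458440654) (nat_lit 76) (nat_lit 179906625604) (nat_lit 9) (nat_lit 4) (nat_lit 10) (nat_lit 5) (nat_lit 10) (nat_lit 4) (nat_lit 534) (nat_lit 426) (nat_lit 240))) (XT.nd (nat_lit 78) (nat_lit 0) (nat_lit 0) (XT.lf (nat_lit 0) (nat_lit 265206991798) (nat_lit 76) (nat_lit 182952541631) (nat_lit 76) (nat_lit 125400412761) (nat_lit 9) (nat_lit 4) (nat_lit 10) (nat_lit 5) (nat_lit 10) (nat_lit 4) (nat_lit 535) (nat_lit 426) (nat_lit 239)) (XT.lf (nat_lit 0) (nat_lit 405184039492)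 (nat_lit 76) (nat_lit 125722023457) (nat_lit 76) (nat_lit 68169595711) (nat_lit 9) (nat_lit 4) (nat_lit 10) (nat_lit 5) (nat_lit 10) (nat_lit 4) (nat_lit 536) (nat_lit 426) (nat_lit 238)))))) (XT.nd (nat_lit 53976) (nat_lit 0) (nat_lit 8968) (XT.nd (nat_lit 234) (nat_lit 0) (nat_lit 0) (XT.nd (nat_lit 78) (nat_lit 152) (nat_lit 0) (XT.lf (nat_lit 0) (nat_lit 552158655208) (nat_lit 76) (nat_lit 65630622993) (nat_lit 76) (nat_lit 8077910604) (nat_lit 9) (nat_lit 4) (nat_lit 10) (nat_lit 5) (nat_lit 10) (nat_lit 4) (nat_lit 537) (nat_lit 426) (nat_lit 237)) (XT.nd (nat_lit 78) (nat_lit 0) (nat_lit 0) (XT.lf (nat_lit 0) (nat_lit 53330376872) (nat_lit 76) (nat_lit 759067201) (nat_lit 152) (nat_lit 599824301040) (nat_lit 7) (nat_lit 5) (nat_lit 8) (nat_lit 5) (nat_lit 9) (nat_lit 4) (nat_lit 538) (nat_lit 426) (nat_lit 236)) (XT.lf (nat_lit 0) (nat_lit 121413446725) (nat_lit 152) (nat_lit 495225738113)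 (nat_lit 0) (nat_lit 66600835622) (nat_lit 7) (nat_lit 5) (nat_lit 9) (nat_lit 4) (nat_lit 7) (nat_lit 4) (nat_lit 539) (nat_lit 426) (nat_lit 235)))) (XT.nd (nat_lit 156) (nat_lit 0) (nat_lit 0) (XT.nd (nat_lit 78) (nat_lit 0) (nat_lit 0) (XT.lf (nat_lit 0) (nat_lit 192115503327) (nat_lit 152) (nat_lit 384613855522) (nat_lit 0) (nat_lit 137302658047) (nat_lit 7) (nat_lit 5) (nat_lit 9) (nat_lit 4) (nat_lit 7) (nat_lit 4) (nat_lit 540) (nat_lit 426) (nat_lit 234)) (XT.lf (nat_lit 0) (nat_lit 266352100943) (nat_lit 152) (nat_lit 268472507676) (nat_lit 0) (nat_lit 211539032637) (nat_lit 7) (nat_lit 5) (nat_lit 9) (nat_lit 4) (nat_lit 7) (nat_lit 4) (nat_lit 541) (nat_lit 426) (nat_lit 233))) (XT.nd (nat_lit 53508) (nat_lit 0) (nat_lit 8968) (XT.lf (nat_lit 0) (nat_lit 344299993377) (nat_lit 152) (nat_lit 146525167557) (nat_lit 0) (nat_lit 289486712666) (nat_lit 7) (nat_lit 5) (nat_lit 9) (nat_lit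 4) (nat_lit 7) (nat_lit 4) (nat_lit 542) (nat_lit 426) (nat_lit 232)) (XT.lf (nat_lit 0) (nat_lit 623192721) (nat_lit 836) (nat_lit 3529947173) (nat_lit 836) (nat_lit 3529947173) (nat_lit 125) (nat_lit 3) (nat_lit 136) (nat_lit 3) (nat_lit 136) (nat_lit 5) (nat_lit 427) (nat_lit 427) (nat_lit 346))))) (XT.nd (nat_lit 312) (nat_lit 0) (nat_lit 152) (XT.nd (nat_lit 156) (nat_lit 0) (nat_lit 76) (XT.nd (nat_lit 78) (nat_lit 0) (nat_lit 76) (XT.lf (nat_lit 76) (nat_lit 484500892) (nat_lit 0) (nat_lit 1078652736) (nat_lit 836) (nat_lit 14172786255) (nat_lit 126) (nat_lit 5) (nat_lit 125) (nat_lit 3) (nat_lit 136) (nat_lit 5) (nat_lit 428) (nat_lit 427) (nat_lit 345)) (XT.lf (nat_lit 0) (nat_lit 2101108296) (nat_lit 760) (nat_lit 7581291726) (nat_lit 836) (nat_lit 6431533415) (nat_lit 126) (nat_lit 5) (nat_lit 136) (nat_lit 5) (nat_lit 137) (nat_lit 5) (nat_lit 429) (nat_lit 427) (nat_lit 344)))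 (XT.nd (nat_lit 78) (nat_lit 0) (nat_lit 76) (XT.lf (nat_lit 76) (nat_lit 459195786) (nat_lit 0) (nat_lit 2214646031) (nat_lit 836) (nat_lit 13836597392) (nat_lit 127) (nat_lit 5) (nat_lit 126) (nat_lit 5) (nat_lit 137) (nat_lit 5) (nat_lit 430) (nat_lit 427) (nat_lit 343)) (XT.lf (nat_lit 0) (nat_lit 3477334122) (nat_lit 760) (nat_lit 7856325629) (nat_lit 836) (nat_lit 5583010694) (nat_lit 127) (nat_lit 5) (nat_lit 137) (nat_lit 5) (nat_lit 138) (nat_lit 5) (nat_lit 431) (nat_lit 427) (nat_lit 342)))) (XT.nd (nat_lit 156) (nat_lit 0) (nat_lit 76) (XT.nd (nat_lit 78) (nat_lit 0) (nat_lit 76) (XT.lf (nat_lit 76) (nat_lit 724813966) (nat_lit 0) (nat_lit 3628360647) (nat_lit 836) (nat_lit 12988435933) (nat_lit 128) (nat_lit 5) (nat_lit 127) (nat_lit 5) (nat_lit 138) (nat_lit 5) (nat_lit 432) (nat_lit 427) (nat_lit 341)) (XT.lf (nat_lit 0) (nat_lit 5462905804) (nat_lit 760) (nat_lit 7856299857)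 (nat_lit 836) (nat_lit 4459092755) (nat_lit 128) (nat_lit 5) (nat_lit 138) (nat_lit 5) (nat_lit 139) (nat_lit 5) (nat_lit 433) (nat_lit 427) (nat_lit 340))) (XT.nd (nat_lit 78) (nat_lit 0) (nat_lit 76) (XT.lf (nat_lit 76) (nat_lit 1314261622) (nat_lit 0) (nat_lit 5379766694) (nat_lit 836) (nat_lit 11539502551) (nat_lit 129) (nat_lit 5) (nat_lit 128) (nat_lit 5) (nat_lit 139) (nat_lit 5) (nat_lit 434) (nat_lit 427) (nat_lit 339)) (XT.lf (nat_lit 0) (nat_lit 8154563424) (nat_lit 760) (nat_lit 7548218866) (nat_lit 836) (nat_lit 3000354993) (nat_lit 129) (nat_lit 5) (nat_lit 139) (nat_lit 5) (nat_lit 140) (nat_lit 5) (nat_lit 435) (nat_lit 427) (nat_lit 338))))))))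
noncomputable def xc156 : XT := (XT.nd (nat_lit 2184) (nat_lit 2508) (nat_lit 0) (XT.nd (nat_lit 1092) (nat_lit 1900) (nat_lit 0) (XT.nd (nat_lit 546) (nat_lit 1292) (nat_lit 0) (XT.nd (nat_lit 234) (nat_lit 836) (nat_lit 0) (XT.nd (nat_lit 78) (nat_lit 684) (nat_lit 0) (XT.lf (nat_lit 76) (nat_lit 2265109794) (nat_lit 0) (nat_lit 7533681272) (nat_lit 836) (nat_lit 9391904588) (nat_lit 130) (nat_lit 5) (nat_lit 129) (nat_lit 5) (nat_lit 140) (nat_lit 5) (nat_lit 436) (nat_lit 427) (nat_lit 337)) (XT.nd (nat_lit 78) (nat_lit 760) (nat_lit 0) (XT.lf (nat_lit 0) (nat_lit 11659047546) (nat_lit 760) (nat_lit 6894538540) (nat_lit 76) (nat_lit 1142359670) (nat_lit 130) (nat_lit 5) (nat_lit 140) (nat_lit 5) (nat_lit 131) (nat_lit 5) (nat_lit 437) (nat_lit 427) (nat_lit 336)) (XT.lf (nat_lit 0) (nat_lit 3619877029) (nat_lit 760) (nat_lit 10160641397) (nat_lit 836) (nat_lit 6437534324) (nat_lit 120)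 (nat_lit 5) (nat_lit 130) (nat_lit 5) (nat_lit 131) (nat_lit 5) (nat_lit 438) (nat_lit 427) (nat_lit 335)))) (XT.nd (nat_lit 156) (nat_lit 456) (nat_lit 0) (XT.nd (nat_lit 78) (nat_lit 380) (nat_lit 0) (XT.lf (nat_lit 0) (nat_lit 14889006369) (nat_lit 760) (nat_lit 1224401858) (nat_lit 836) (nat_lit 4647593848) (nat_lit 120) (nat_lit 5) (nat_lit 130) (nat_lit 5) (nat_lit 131) (nat_lit 5) (nat_lit 439) (nat_lit 427) (nat_lit 334)) (XT.lf (nat_lit 0) (nat_lit 5426351765) (nat_lit 380) (nat_lit 13337832964) (nat_lit 456) (nat_lit 2556856076) (nat_lit 115) (nat_lit 5) (nat_lit 120) (nat_lit 5) (nat_lit 121) (nat_lit 5) (nat_lit 440) (nat_lit 427) (nat_lit 333))) (XT.nd (nat_lit 78) (nat_lit 456) (nat_lit 0) (XT.lf (nat_lit 0) (nat_lit 17462472278) (nat_lit 380) (nat_lit 4193720226) (nat_lit 456) (nat_lit 247458201) (nat_lit 115) (nat_lit 5) (nat_lit 120) (nat_lit 5) (nat_lit 121) (nat_lit 5) (nat_lit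 441) (nat_lit 427) (nat_lit 332)) (XT.lf (nat_lit 0) (nat_lit 2306157308) (nat_lit 456) (nat_lit 14804874971) (nat_lit 76) (nat_lit 5392740623) (nat_lit 109) (nat_lit 5) (nat_lit 115) (nat_lit 5) (nat_lit 110) (nat_lit 5) (nat_lit 442) (nat_lit 427) (nat_lit 331))))) (XT.nd (nat_lit 234) (nat_lit 912) (nat_lit 0) (XT.nd (nat_lit 78) (nat_lit 380) (nat_lit 0) (XT.lf (nat_lit 0) (nat_lit 5114491776) (nat_lit 456) (nat_lit 2614465719) (nat_lit 76) (nat_lit 15397976491) (nat_lit 109) (nat_lit 5) (nat_lit 115) (nat_lit 5) (nat_lit 110) (nat_lit 5) (nat_lit 443) (nat_lit 427) (nat_lit 330)) (XT.nd (nat_lit 78) (nat_lit 0) (nat_lit 0) (XT.lf (nat_lit 0) (nat_lit 8253806374) (nat_lit 456) (nat_lit 13297375899) (nat_lit 76) (nat_lit 2220545851) (nat_lit 104) (nat_lit 5) (nat_lit 110) (nat_lit 5) (nat_lit 105) (nat_lit 5) (nat_lit 444) (nat_lit 427) (nat_lit 329)) (XT.lf (nat_lit 0) (nat_lit 11712703328)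 (nat_lit 456) (nat_lit 275838139) (nat_lit 76) (nat_lit 12452092694) (nat_lit 104) (nat_lit 5) (nat_lit 110) (nat_lit 5) (nat_lit 105) (nat_lit 5) (nat_lit 445) (nat_lit 427) (nat_lit 328)))) (XT.nd (nat_lit 156) (nat_lit 304) (nat_lit 0) (XT.nd (nat_lit 78) (nat_lit 304) (nat_lit 0) (XT.lf (nat_lit 0) (nat_lit 13829660226) (nat_lit 304) (nat_lit 1722146852) (nat_lit 380) (nat_lit 9580818201) (nat_lit 100) (nat_lit 5) (nat_lit 104) (nat_lit 5) (nat_lit 105) (nat_lit 5) (nat_lit 446) (nat_lit 427) (nat_lit 327)) (XT.lf (nat_lit 0) (nat_lit 2726813808) (nat_lit 304) (nat_lit 17036373411) (nat_lit 380) (nat_lit 6087015414) (nat_lit 96) (nat_lit 5) (nat_lit 100) (nat_lit 5) (nat_lit 101) (nat_lit 5) (nat_lit 447) (nat_lit 427) (nat_lit 326))) (XT.nd (nat_lit 78) (nat_lit 304) (nat_lit 0) (XT.lf (nat_lit 0) (nat_lit 17811492634) (nat_lit 304) (nat_lit 6584674516) (nat_lit 380) (nat_lit 2196942776)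 (nat_lit 96) (nat_lit 5) (nat_lit 100) (nat_lit 5) (nat_lit 101) (nat_lit 5) (nat_lit 448) (nat_lit 427) (nat_lit 325)) (XT.lf (nat_lit 0) (nat_lit 1990564350) (nat_lit 304) (nat_lit 20993295577) (nat_lit 76) (nat_lit 4379664115) (nat_lit 92) (nat_lit 5) (nat_lit 96) (nat_lit 5) (nat_lit 93) (nat_lit 5) (nat_lit 449) (nat_lit 427) (nat_lit 324)))))) (XT.nd (nat_lit 546) (nat_lit 836) (nat_lit 0) (XT.nd (nat_lit 234) (nat_lit 760) (nat_lit 0) (XT.nd (nat_lit 78) (nat_lit 304) (nat_lit 0) (XT.lf (nat_lit 0) (nat_lit 6565012185) (nat_lit 304) (nat_lit 5736712589) (nat_lit 76) (nat_lit 15856365720) (nat_lit 92) (nat_lit 5) (nat_lit 96) (nat_lit 5) (nat_lit 93) (nat_lit 5) (nat_lit 450) (nat_lit 427) (nat_lit 323)) (XT.nd (nat_lit 78) (nat_lit 0) (nat_lit 0) (XT.lf (nat_lit 0) (nat_lit 10613015447) (nat_lit 304) (nat_lit 913525464) (nat_lit 380) (nat_lit 17457928579) (nat_lit 88) (nat_lit 5) (nat_lit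 92) (nat_lit 5) (nat_lit 93) (nat_lit 5) (nat_lit 451) (nat_lit 427) (nat_lit 322)) (XT.lf (nat_lit 0) (nat_lit 17000154621) (nat_lit 380) (nat_lit 2051478020) (nat_lit 76) (nat_lit 10787336414) (nat_lit 88) (nat_lit 5) (nat_lit 93) (nat_lit 5) (nat_lit 89) (nat_lit 5) (nat_lit 452) (nat_lit 427) (nat_lit 321)))) (XT.nd (nat_lit 156) (nat_lit 304) (nat_lit 0) (XT.nd (nat_lit 78) (nat_lit 228) (nat_lit 0) (XT.lf (nat_lit 0) (nat_lit 15558399213) (nat_lit 228) (nat_lit 7440109895) (nat_lit 304) (nat_lit 7725133433) (nat_lit 85) (nat_lit 5) (nat_lit 88) (nat_lit 5) (nat_lit 89) (nat_lit 5) (nat_lit 453) (nat_lit 427) (nat_lit 320)) (XT.lf (nat_lit 0) (nat_lit 2464044744) (nat_lit 228) (nat_lit 26974034994) (nat_lit 304) (nat_lit 2207406897) (nat_lit 82) (nat_lit 5) (nat_lit 85) (nat_lit 5) (nat_lit 86) (nat_lit 5) (nat_lit 454) (nat_lit 427) (nat_lit 319))) (XT.nd (nat_lit 78) (nat_lit 228) (nat_lit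 0) (XT.lf (nat_lit 0) (nat_lit 3847826377) (nat_lit 304) (nat_lit 11290761517) (nat_lit 76) (nat_lit 17453217115) (nat_lit 81) (nat_lit 5) (nat_lit 85) (nat_lit 5) (nat_lit 82) (nat_lit 5) (nat_lit 455) (nat_lit 427) (nat_lit 318)) (XT.lf (nat_lit 0) (nat_lit 7695709728) (nat_lit 228) (nat_lit 2549785846) (nat_lit 304) (nat_lit 23332443100) (nat_lit 78) (nat_lit 5) (nat_lit 81) (nat_lit 5) (nat_lit 82) (nat_lit 5) (nat_lit 456) (nat_lit 427) (nat_lit 317))))) (XT.nd (nat_lit 234) (nat_lit 608) (nat_lit 0) (XT.nd (nat_lit 78) (nat_lit 228) (nat_lit 0) (XT.lf (nat_lit 0) (nat_lit 17317790936) (nat_lit 304) (nat_lit 6759014645) (nat_lit 76) (nat_lit 10518837832) (nat_lit 78) (nat_lit 5) (nat_lit 82) (nat_lit 5) (nat_lit 79) (nat_lit 5) (nat_lit 457) (nat_lit 427) (nat_lit 316)) (XT.nd (nat_lit 78) (nat_lit 0) (nat_lit 0) (XT.lf (nat_lit 0) (nat_lit 13708763344) (nat_lit 228) (nat_lit 11284892589)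 (nat_lit 304) (nat_lit 10658081167) (nat_lit 75) (nat_lit 5) (nat_lit 78) (nat_lit 5) (nat_lit 79) (nat_lit 5) (nat_lit 458) (nat_lit 427) (nat_lit 315)) (XT.lf (nat_lit 0) (nat_lit 33197401675) (nat_lit 304) (nat_lit 1364386263) (nat_lit 76) (nat_lit 2191644542) (nat_lit 75) (nat_lit 5) (nat_lit 79) (nat_lit 5) (nat_lit 76) (nat_lit 5) (nat_lit 459) (nat_lit 427) (nat_lit 314)))) (XT.nd (nat_lit 156) (nat_lit 152) (nat_lit 0) (XT.nd (nat_lit 78) (nat_lit 228) (nat_lit 0) (XT.lf (nat_lit 0) (nat_lit 4287391804) (nat_lit 228) (nat_lit 17241407314) (nat_lit 76) (nat_lit 16352812894) (nat_lit 72) (nat_lit 5) (nat_lit 75) (nat_lit 5) (nat_lit 73) (nat_lit 5) (nat_lit 460) (nat_lit 427) (nat_lit 313)) (XT.lf (nat_lit 0) (nat_lit 4814460628) (nat_lit 228) (nat_lit 7682221199) (nat_lit 304) (nat_lit 26561944998) (nat_lit 69) (nat_lit 5) (nat_lit 72) (nat_lit 5) (nat_lit 73) (nat_lit 5) (nat_lit 461)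 (nat_lit 427) (nat_lit 312))) (XT.nd (nat_lit 78) (nat_lit 152) (nat_lit 0) (XT.lf (nat_lit 0) (nat_lit 21514903819) (nat_lit 304) (nat_lit 11828421678) (nat_lit 76) (nat_lit 6931244646) (nat_lit 69) (nat_lit 5) (nat_lit 73) (nat_lit 5) (nat_lit 70) (nat_lit 5) (nat_lit 462) (nat_lit 427) (nat_lit 311)) (XT.lf (nat_lit 0) (nat_lit 11956871576) (nat_lit 152) (nat_lit 19334676105) (nat_lit 228) (nat_lit 10244388493) (nat_lit 67) (nat_lit 5) (nat_lit 69) (nat_lit 5) (nat_lit 70) (nat_lit 5) (nat_lit 463) (nat_lit 427) (nat_lit 310))))))) (XT.nd (nat_lit 1092) (nat_lit 1064) (nat_lit 0) (XT.nd (nat_lit 546) (nat_lit 684) (nat_lit 0) (XT.nd (nat_lit 234) (nat_lit 380) (nat_lit 0) (XT.nd (nat_lit 78) (nat_lit 380) (nat_lit 0) (XT.lf (nat_lit 0) (nat_lit 37334219537) (nat_lit 152) (nat_lit 4418137095) (nat_lit 228) (nat_lit 1098248263) (nat_lit 67) (nat_lit 5) (nat_lit 69) (nat_lit 5) (nat_lit 70)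 (nat_lit 5) (nat_lit 464) (nat_lit 427) (nat_lit 309)) (XT.nd (nat_lit 78) (nat_lit 152) (nat_lit 0) (XT.lf (nat_lit 0) (nat_lit 8727296522) (nat_lit 228) (nat_lit 24134320344) (nat_lit 76) (nat_lit 11338035772) (nat_lit 64) (nat_lit 5) (nat_lit 67) (nat_lit 5) (nat_lit 65) (nat_lit 5) (nat_lit 465) (nat_lit 427) (nat_lit 308)) (XT.lf (nat_lit 0) (nat_lit 1452989894) (nat_lit 152) (nat_lit 17739528194) (nat_lit 228) (nat_lit 26413469972) (nat_lit 62) (nat_lit 5) (nat_lit 64) (nat_lit 5) (nat_lit 65) (nat_lit 5) (nat_lit 466) (nat_lit 427) (nat_lit 307)))) (XT.nd (nat_lit 156) (nat_lit 228) (nat_lit 0) (XT.nd (nat_lit 78) (nat_lit 152) (nat_lit 0) (XT.lf (nat_lit 0) (nat_lit 29149957862) (nat_lit 152) (nat_lit 1435117314) (nat_lit 228) (nat_lit 16477362207) (nat_lit 62) (nat_lit 5) (nat_lit 64) (nat_lit 5) (nat_lit 65) (nat_lit 5) (nat_lit 467) (nat_lit 427) (nat_lit 306)) (XT.lf (nat_lit 0)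 (nat_lit 9698174305) (nat_lit 152) (nat_lit 33240906497) (nat_lit 228) (nat_lit 5633038146) (nat_lit 60) (nat_lit 5) (nat_lit 62) (nat_lit 5) (nat_lit 63) (nat_lit 5) (nat_lit 468) (nat_lit 427) (nat_lit 305))) (XT.nd (nat_lit 78) (nat_lit 152) (nat_lit 0) (XT.lf (nat_lit 0) (nat_lit 5896762687) (nat_lit 228) (nat_lit 10956644850) (nat_lit 76) (nat_lit 33283015943) (nat_lit 59) (nat_lit 5) (nat_lit 62) (nat_lit 5) (nat_lit 60) (nat_lit 5) (nat_lit 469) (nat_lit 427) (nat_lit 304)) (XT.lf (nat_lit 0) (nat_lit 18115795263) (nat_lit 228) (nat_lit 32910881015) (nat_lit 76) (nat_lit 732547980) (nat_lit 57) (nat_lit 5) (nat_lit 60) (nat_lit 5) (nat_lit 58) (nat_lit 5) (nat_lit 470) (nat_lit 427) (nat_lit 303))))) (XT.nd (nat_lit 234) (nat_lit 304) (nat_lit 0) (XT.nd (nat_lit 78) (nat_lit 380) (nat_lit 0) (XT.lf (nat_lit 0) (nat_lit 31406475739) (nat_lit 228) (nat_lit 3216380652) (nat_lit 76) (nat_lit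 18817274537) (nat_lit 57) (nat_lit 5) (nat_lit 60) (nat_lit 5) (nat_lit 58) (nat_lit 5) (nat_lit 471) (nat_lit 427) (nat_lit 302)) (XT.nd (nat_lit 78) (nat_lit 228) (nat_lit 0) (XT.lf (nat_lit 0) (nat_lit 28880400952) (nat_lit 152) (nat_lit 16928205586) (nat_lit 228) (nat_lit 9374131212) (nat_lit 55) (nat_lit 5) (nat_lit 57) (nat_lit 5) (nat_lit 58) (nat_lit 5) (nat_lit 472) (nat_lit 427) (nat_lit 301)) (XT.lf (nat_lit 0) (nat_lit 3964049276) (nat_lit 228) (nat_lit 51230742898) (nat_lit 76) (nat_lit 1806069849) (nat_lit 52) (nat_lit 5) (nat_lit 55) (nat_lit 5) (nat_lit 53) (nat_lit 5) (nat_lit 473) (nat_lit 427) (nat_lit 300)))) (XT.nd (nat_lit 156) (nat_lit 152) (nat_lit 0) (XT.nd (nat_lit 78) (nat_lit 152) (nat_lit 0) (XT.lf (nat_lit 0) (nat_lit 18380436465) (nat_lit 228) (nat_lit 18973612612) (nat_lit 76) (nat_lit 21511843767) (nat_lit 52) (nat_lit 5) (nat_lit 55) (nat_lit 5) (nat_lit 53)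 (nat_lit 5) (nat_lit 474) (nat_lit 427) (nat_lit 299)) (XT.lf (nat_lit 0) (nat_lit 15382166590) (nat_lit 152) (nat_lit 18371895388) (nat_lit 228) (nat_lit 27058292804) (nat_lit 50) (nat_lit 5) (nat_lit 52) (nat_lit 5) (nat_lit 53) (nat_lit 5) (nat_lit 475) (nat_lit 427) (nat_lit 298))) (XT.nd (nat_lit 78) (nat_lit 152) (nat_lit 0) (XT.lf (nat_lit 0) (nat_lit 50243604597) (nat_lit 228) (nat_lit 10761799485) (nat_lit 76) (nat_lit 1833374438) (nat_lit 50) (nat_lit 5) (nat_lit 53) (nat_lit 5) (nat_lit 51) (nat_lit 4) (nat_lit 476) (nat_lit 427) (nat_lit 297)) (XT.lf (nat_lit 0) (nat_lit 3225986486) (nat_lit 152) (nat_lit 38813059877) (nat_lit 76) (nat_lit 22889563965) (nat_lit 48) (nat_lit 5) (nat_lit 50) (nat_lit 5) (nat_lit 49) (nat_lit 5) (nat_lit 477) (nat_lit 427) (nat_lit 296)))))) (XT.nd (nat_lit 546) (nat_lit 532) (nat_lit 0) (XT.nd (nat_lit 234) (nat_lit 304) (nat_lit 0) (XT.nd (nat_lit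 78) (nat_lit 228) (nat_lit 0) (XT.lf (nat_lit 0) (nat_lit 19596654642) (nat_lit 152) (nat_lit 2119164720) (nat_lit 76) (nat_lit 45387704375) (nat_lit 48) (nat_lit 5) (nat_lit 50) (nat_lit 5) (nat_lit 49) (nat_lit 5) (nat_lit 478) (nat_lit 427) (nat_lit 295)) (XT.nd (nat_lit 78) (nat_lit 76) (nat_lit 0) (XT.lf (nat_lit 0) (nat_lit 37373369381) (nat_lit 228) (nat_lit 31754584876) (nat_lit 76) (nat_lit 229853308) (nat_lit 46) (nat_lit 5) (nat_lit 49) (nat_lit 5) (nat_lit 47) (nat_lit 4) (nat_lit 479) (nat_lit 427) (nat_lit 294)) (XT.lf (nat_lit 0) (nat_lit 7541066962) (nat_lit 76) (nat_lit 49004745021) (nat_lit 152) (nat_lit 15153649385) (nat_lit 45) (nat_lit 5) (nat_lit 46) (nat_lit 5) (nat_lit 47) (nat_lit 4) (nat_lit 480) (nat_lit 427) (nat_lit 293)))) (XT.nd (nat_lit 156) (nat_lit 76) (nat_lit 0) (XT.nd (nat_lit 78) (nat_lit 152) (nat_lit 0) (XT.lf (nat_lit 0) (nat_lit 2981353399) (nat_lit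 152) (nat_lit 24281512490) (nat_lit 76) (nat_lit 46866201742) (nat_lit 44) (nat_lit 5) (nat_lit 46) (nat_lit 5) (nat_lit 45) (nat_lit 5) (nat_lit 481) (nat_lit 427) (nat_lit 292)) (XT.lf (nat_lit 0) (nat_lit 17908242171) (nat_lit 152) (nat_lit 3882050189) (nat_lit 228) (nat_lit 54863618760) (nat_lit 42) (nat_lit 5) (nat_lit 44) (nat_lit 5) (nat_lit 45) (nat_lit 5) (nat_lit 482) (nat_lit 427) (nat_lit 291))) (XT.nd (nat_lit 78) (nat_lit 76) (nat_lit 0) (XT.lf (nat_lit 0) (nat_lit 42277193557) (nat_lit 228) (nat_lit 16569124699) (nat_lit 76) (nat_lit 20421803082) (nat_lit 42) (nat_lit 5) (nat_lit 45) (nat_lit 5) (nat_lit 43) (nat_lit 4) (nat_lit 483) (nat_lit 427) (nat_lit 290)) (XT.lf (nat_lit 0) (nat_lit 28561270329) (nat_lit 76) (nat_lit 35733752503) (nat_lit 152) (nat_lit 17692690390) (nat_lit 41) (nat_lit 5) (nat_lit 42) (nat_lit 5) (nat_lit 43) (nat_lit 4) (nat_lit 484) (nat_lit 427) (nat_lit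 289))))) (XT.nd (nat_lit 312) (nat_lit 228) (nat_lit 0) (XT.nd (nat_lit 156) (nat_lit 76) (nat_lit 0) (XT.nd (nat_lit 78) (nat_lit 152) (nat_lit 0) (XT.lf (nat_lit 0) (nat_lit 2770425328) (nat_lit 152) (nat_lit 8356044276) (nat_lit 76) (nat_lit 73700696909) (nat_lit 40) (nat_lit 5) (nat_lit 42) (nat_lit 5) (nat_lit 41) (nat_lit 5) (nat_lit 485) (nat_lit 427) (nat_lit 288)) (XT.lf (nat_lit 0) (nat_lit 24527656009) (nat_lit 228) (nat_lit 48056372916) (nat_lit 76) (nat_lit 15166784122) (nat_lit 38) (nat_lit 5) (nat_lit 41) (nat_lit 5) (nat_lit 39) (nat_lit 4) (nat_lit 486) (nat_lit 427) (nat_lit 287))) (XT.nd (nat_lit 78) (nat_lit 76) (nat_lit 0) (XT.lf (nat_lit 0) (nat_lit 47696172698) (nat_lit 228) (nat_lit 565977426) (nat_lit 76) (nat_lit 42542320811) (nat_lit 38) (nat_lit 5) (nat_lit 41) (nat_lit 5) (nat_lit 39) (nat_lit 4) (nat_lit 487) (nat_lit 427) (nat_lit 286)) (XT.lf (nat_lit 0) (nat_lit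 50923825996) (nat_lit 76) (nat_lit 21891676466) (nat_lit 152) (nat_lit 21155690134) (nat_lit 37) (nat_lit 5) (nat_lit 38) (nat_lit 5) (nat_lit 39) (nat_lit 4) (nat_lit 488) (nat_lit 427) (nat_lit 285)))) (XT.nd (nat_lit 156) (nat_lit 76) (nat_lit 0) (XT.nd (nat_lit 78) (nat_lit 0) (nat_lit 0) (XT.lf (nat_lit 0) (nat_lit 2057961714) (nat_lit 152) (nat_lit 89450270862) (nat_lit 76) (nat_lit 5775336482) (nat_lit 35) (nat_lit 5) (nat_lit 37) (nat_lit 5) (nat_lit 36) (nat_lit 4) (nat_lit 489) (nat_lit 427) (nat_lit 284)) (XT.lf (nat_lit 0) (nat_lit 26818530903) (nat_lit 152) (nat_lit 38695269963) (nat_lit 76) (nat_lit 35175562723) (nat_lit 35) (nat_lit 5) (nat_lit 37) (nat_lit 5) (nat_lit 36) (nat_lit 4) (nat_lit 490) (nat_lit 427) (nat_lit 283))) (XT.nd (nat_lit 78) (nat_lit 0) (nat_lit 0) (XT.lf (nat_lit 0) (nat_lit 15075205706) (nat_lit 76) (nat_lit 37974760917) (nat_lit 152) (nat_lit 51203839514)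 (nat_lit 34) (nat_lit 5) (nat_lit 35) (nat_lit 5) (nat_lit 36) (nat_lit 4) (nat_lit 491) (nat_lit 427) (nat_lit 282)) (XT.lf (nat_lit 0) (nat_lit 72872918586) (nat_lit 76) (nat_lit 8372897553) (nat_lit 152) (nat_lit 26718012762) (nat_lit 34) (nat_lit 5) (nat_lit 35) (nat_lit 5) (nat_lit 36) (nat_lit 4) (nat_lit 492) (nat_lit 427) (nat_lit 281))))))))
noncomputable def xc157 : XT := (XT.nd (nat_lit 2184) (nat_lit 608) (nat_lit 0) (XT.nd (nat_lit 1092) (nat_lit 684) (nat_lit 0) (XT.nd (nat_lit 546) (nat_lit 304) (nat_lit 0) (XT.nd (nat_lit 234) (nat_lit 228) (nat_lit 0) (XT.nd (nat_lit 78) (nat_lit 152) (nat_lit 0) (XT.lf (nat_lit 0) (nat_lit 22047716306) (nat_lit 76) (nat_lit 89500124576) (nat_lit 76) (nat_lit 276692963) (nat_lit 33) (nat_lit 4) (nat_lit 34) (nat_lit 5) (nat_lit 34) (nat_lit 4) (nat_lit 493) (nat_lit 427) (nat_lit 280)) (XT.nd (nat_lit 78) (nat_lit 76) (nat_lit 0) (XT.lf (nat_lit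 0) (nat_lit 27345840855) (nat_lit 152) (nat_lit 33167721979) (nat_lit 76) (nat_lit 55306309453) (nat_lit 32) (nat_lit 5) (nat_lit 34) (nat_lit 5) (nat_lit 33) (nat_lit 4) (nat_lit 494) (nat_lit 427) (nat_lit 279)) (XT.lf (nat_lit 0) (nat_lit 27131315161) (nat_lit 76) (nat_lit 29630206585) (nat_lit 152) (nat_lit 63232163310) (nat_lit 31) (nat_lit 5) (nat_lit 32) (nat_lit 5) (nat_lit 33) (nat_lit 4) (nat_lit 495) (nat_lit 427) (nat_lit 278)))) (XT.nd (nat_lit 156) (nat_lit 152) (nat_lit 0) (XT.nd (nat_lit 78) (nat_lit 76) (nat_lit 0) (XT.lf (nat_lit 0) (nat_lit 88260313380) (nat_lit 152) (nat_lit 32808531298) (nat_lit 0) (nat_lit 3276727596) (nat_lit 31) (nat_lit 5) (nat_lit 33) (nat_lit 4) (nat_lit 31) (nat_lit 4) (nat_lit 496) (nat_lit 427) (nat_lit 277)) (XT.lf (nat_lit 0) (nat_lit 30742044472) (nat_lit 76) (nat_lit 91555551567) (nat_lit 76) (nat_lit 6569280382) (nat_lit 30) (nat_lit 4) (nat_lit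 31) (nat_lit 5) (nat_lit 31) (nat_lit 4) (nat_lit 497) (nat_lit 427) (nat_lit 276))) (XT.nd (nat_lit 78) (nat_lit 76) (nat_lit 0) (XT.lf (nat_lit 0) (nat_lit 24203406692) (nat_lit 152) (nat_lit 35371844989) (nat_lit 76) (nat_lit 73991799937) (nat_lit 29) (nat_lit 5) (nat_lit 31) (nat_lit 5) (nat_lit 30) (nat_lit 4) (nat_lit 498) (nat_lit 427) (nat_lit 275)) (XT.lf (nat_lit 0) (nat_lit 31412537967) (nat_lit 76) (nat_lit 25369804673) (nat_lit 152) (nat_lit 81690089128) (nat_lit 28) (nat_lit 5) (nat_lit 29) (nat_lit 5) (nat_lit 30) (nat_lit 4) (nat_lit 499) (nat_lit 427) (nat_lit 274))))) (XT.nd (nat_lit 234) (nat_lit 152) (nat_lit 0) (XT.nd (nat_lit 78) (nat_lit 152) (nat_lit 0) (XT.lf (nat_lit 0) (nat_lit 91761691572) (nat_lit 152) (nat_lit 41007395248) (nat_lit 0) (nat_lit 10815420910) (nat_lit 28) (nat_lit 5) (nat_lit 30) (nat_lit 4) (nat_lit 28) (nat_lit 4) (nat_lit 500) (nat_lit 427) (nat_lit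 273)) (XT.nd (nat_lit 78) (nat_lit 76) (nat_lit 0) (XT.lf (nat_lit 0) (nat_lit 28851480843) (nat_lit 76) (nat_lit 100502930662) (nat_lit 76) (nat_lit 19554555919) (nat_lit 27) (nat_lit 4) (nat_lit 28) (nat_lit 5) (nat_lit 28) (nat_lit 4) (nat_lit 501) (nat_lit 427) (nat_lit 272)) (XT.lf (nat_lit 0) (nat_lit 14572481012) (nat_lit 152) (nat_lit 51076792554) (nat_lit 76) (nat_lit 88803996267) (nat_lit 26) (nat_lit 5) (nat_lit 28) (nat_lit 5) (nat_lit 27) (nat_lit 4) (nat_lit 502) (nat_lit 427) (nat_lit 271)))) (XT.nd (nat_lit 156) (nat_lit 76) (nat_lit 0) (XT.nd (nat_lit 78) (nat_lit 0) (nat_lit 0) (XT.lf (nat_lit 0) (nat_lit 21724075790) (nat_lit 76) (nat_lit 28361954884) (nat_lit 152) (nat_lit 110155862348) (nat_lit 25) (nat_lit 5) (nat_lit 26) (nat_lit 5) (nat_lit 27) (nat_lit 4) (nat_lit 503) (nat_lit 427) (nat_lit 270)) (XT.lf (nat_lit 0) (nat_lit 88421060879) (nat_lit 152) (nat_lit 66524682863)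 (nat_lit 0) (nat_lit 11321913567) (nat_lit 25) (nat_lit 5) (nat_lit 27) (nat_lit 4) (nat_lit 25) (nat_lit 4) (nat_lit 504) (nat_lit 427) (nat_lit 269))) (XT.nd (nat_lit 78) (nat_lit 0) (nat_lit 0) (XT.lf (nat_lit 0) (nat_lit 8884069526) (nat_lit 76) (nat_lit 120390670702) (nat_lit 76) (nat_lit 43289874786) (nat_lit 24) (nat_lit 4) (nat_lit 25) (nat_lit 5) (nat_lit 25) (nat_lit 4) (nat_lit 505) (nat_lit 427) (nat_lit 268)) (XT.lf (nat_lit 0) (nat_lit 90369467375) (nat_lit 76) (nat_lit 82926537138) (nat_lit 76) (nat_lit 5824171125) (nat_lit 24) (nat_lit 4) (nat_lit 25) (nat_lit 5) (nat_lit 25) (nat_lit 4) (nat_lit 506) (nat_lit 427) (nat_lit 267)))))) (XT.nd (nat_lit 546) (nat_lit 304) (nat_lit 0) (XT.nd (nat_lit 234) (nat_lit 228) (nat_lit 0) (XT.nd (nat_lit 78) (nat_lit 76) (nat_lit 0) (XT.lf (nat_lit 0) (nat_lit 32440462714) (nat_lit 152) (nat_lit 10600912780) (nat_lit 76) (nat_lit 142936059438)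 (nat_lit 23) (nat_lit 5) (nat_lit 25) (nat_lit 5) (nat_lit 24) (nat_lit 4) (nat_lit 507) (nat_lit 427) (nat_lit 266)) (XT.nd (nat_lit 78) (nat_lit 0) (nat_lit 0) (XT.lf (nat_lit 0) (nat_lit 73574205598) (nat_lit 152) (nat_lit 119400396978) (nat_lit 0) (nat_lit 140600389) (nat_lit 22) (nat_lit 5) (nat_lit 24) (nat_lit 4) (nat_lit 22) (nat_lit 4) (nat_lit 508) (nat_lit 427) (nat_lit 265)) (XT.lf (nat_lit 0) (nat_lit 117651119186) (nat_lit 152) (nat_lit 38698193849) (nat_lit 0) (nat_lit 44216222254) (nat_lit 22) (nat_lit 5) (nat_lit 24) (nat_lit 4) (nat_lit 22) (nat_lit 4) (nat_lit 509) (nat_lit 427) (nat_lit 264)))) (XT.nd (nat_lit 156) (nat_lit 152) (nat_lit 0) (XT.nd (nat_lit 78) (nat_lit 0) (nat_lit 0) (XT.lf (nat_lit 0) (nat_lit 47558308982) (nat_lit 76) (nat_lit 117114576064) (nat_lit 76) (nat_lit 43678448919) (nat_lit 21) (nat_lit 4) (nat_lit 22) (nat_lit 5) (nat_lit 22) (nat_lit 4) (nat_lit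 510) (nat_lit 427) (nat_lit 263)) (XT.lf (nat_lit 0) (nat_lit 139468225472) (nat_lit 76) (nat_lit 75231400793) (nat_lit 76) (nat_lit 1794102017) (nat_lit 21) (nat_lit 4) (nat_lit 22) (nat_lit 5) (nat_lit 22) (nat_lit 4) (nat_lit 511) (nat_lit 427) (nat_lit 262))) (XT.nd (nat_lit 78) (nat_lit 0) (nat_lit 0) (XT.lf (nat_lit 0) (nat_lit 10608481770) (nat_lit 76) (nat_lit 30390004271) (nat_lit 152) (nat_lit 184003615943) (nat_lit 19) (nat_lit 5) (nat_lit 20) (nat_lit 5) (nat_lit 21) (nat_lit 4) (nat_lit 512) (nat_lit 427) (nat_lit 261)) (XT.lf (nat_lit 0) (nat_lit 87455455862) (nat_lit 152) (nat_lit 128886619177) (nat_lit 0) (nat_lit 17513096511) (nat_lit 19) (nat_lit 5) (nat_lit 21) (nat_lit 4) (nat_lit 19) (nat_lit 4) (nat_lit 513) (nat_lit 427) (nat_lit 260))))) (XT.nd (nat_lit 234) (nat_lit 228) (nat_lit 0) (XT.nd (nat_lit 78) (nat_lit 76) (nat_lit 0) (XT.lf (nat_lit 0) (nat_lit 136732104686)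 (nat_lit 152) (nat_lit 39605167003) (nat_lit 0) (nat_lit 66788781431) (nat_lit 19) (nat_lit 5) (nat_lit 21) (nat_lit 4) (nat_lit 19) (nat_lit 4) (nat_lit 514) (nat_lit 427) (nat_lit 259)) (XT.nd (nat_lit 78) (nat_lit 0) (nat_lit 0) (XT.lf (nat_lit 0) (nat_lit 55927823970) (nat_lit 76) (nat_lit 133416650830) (nat_lit 76) (nat_lit 63472409571) (nat_lit 18) (nat_lit 4) (nat_lit 19) (nat_lit 5) (nat_lit 19) (nat_lit 4) (nat_lit 515) (nat_lit 427) (nat_lit 258)) (XT.lf (nat_lit 0) (nat_lit 157609934516) (nat_lit 76) (nat_lit 87646982785) (nat_lit 76) (nat_lit 17701867237) (nat_lit 18) (nat_lit 4) (nat_lit 19) (nat_lit 5) (nat_lit 19) (nat_lit 4) (nat_lit 516) (nat_lit 427) (nat_lit 257)))) (XT.nd (nat_lit 156) (nat_lit 76) (nat_lit 0) (XT.nd (nat_lit 78) (nat_lit 76) (nat_lit 0) (XT.lf (nat_lit 0) (nat_lit 29384344258) (nat_lit 152) (nat_lit 9708042475) (nat_lit 76) (nat_lit 234491756868) (nat_lit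 17) (nat_lit 5) (nat_lit 19) (nat_lit 5) (nat_lit 18) (nat_lit 4) (nat_lit 517) (nat_lit 427) (nat_lit 256)) (XT.lf (nat_lit 0) (nat_lit 79901495442) (nat_lit 152) (nat_lit 191455637656) (nat_lit 0) (nat_lit 13285551432) (nat_lit 16) (nat_lit 5) (nat_lit 18) (nat_lit 4) (nat_lit 16) (nat_lit 4) (nat_lit 518) (nat_lit 427) (nat_lit 255))) (XT.nd (nat_lit 78) (nat_lit 76) (nat_lit 0) (XT.lf (nat_lit 0) (nat_lit 133751292160) (nat_lit 152) (nat_lit 95327892116) (nat_lit 0) (nat_lit 67134628870) (nat_lit 16) (nat_lit 5) (nat_lit 18) (nat_lit 4) (nat_lit 16) (nat_lit 4) (nat_lit 519) (nat_lit 427) (nat_lit 254)) (XT.lf (nat_lit 0) (nat_lit 5789307963) (nat_lit 76) (nat_lit 184593537619) (nat_lit 76) (nat_lit 117976189301) (nat_lit 15) (nat_lit 4) (nat_lit 16) (nat_lit 5) (nat_lit 16) (nat_lit 4) (nat_lit 520) (nat_lit 427) (nat_lit 253))))))) (XT.nd (nat_lit 1092) (nat_lit 152) (nat_lit 0) (XT.nd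 (nat_lit 546) (nat_lit 228) (nat_lit 0) (XT.nd (nat_lit 234) (nat_lit 76) (nat_lit 0) (XT.nd (nat_lit 78) (nat_lit 152) (nat_lit 0) (XT.lf (nat_lit 0) (nat_lit 115269746374) (nat_lit 76) (nat_lit 136189552981) (nat_lit 76) (nat_lit 69571552254) (nat_lit 15) (nat_lit 4) (nat_lit 16) (nat_lit 5) (nat_lit 16) (nat_lit 4) (nat_lit 521) (nat_lit 427) (nat_lit 252)) (XT.nd (nat_lit 78) (nat_lit 152) (nat_lit 0) (XT.lf (nat_lit 0) (nat_lit 230222120198) (nat_lit 76) (nat_lit 85366406757) (nat_lit 76) (nat_lit 18747784690) (nat_lit 15) (nat_lit 4) (nat_lit 16) (nat_lit 5) (nat_lit 16) (nat_lit 4) (nat_lit 522) (nat_lit 427) (nat_lit 251)) (XT.lf (nat_lit 0) (nat_lit 2141104952) (nat_lit 76) (nat_lit 31400513961) (nat_lit 152) (nat_lit 314736781581) (nat_lit 13) (nat_lit 5) (nat_lit 14) (nat_lit 5) (nat_lit 15) (nat_lit 4) (nat_lit 523) (nat_lit 427) (nat_lit 250)))) (XT.nd (nat_lit 156) (nat_lit 76)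 (nat_lit 0) (XT.nd (nat_lit 78) (nat_lit 0) (nat_lit 0) (XT.lf (nat_lit 0) (nat_lit 90000996995) (nat_lit 152) (nat_lit 246238362189) (nat_lit 0) (nat_lit 26553589952) (nat_lit 13) (nat_lit 5) (nat_lit 15) (nat_lit 4) (nat_lit 13) (nat_lit 4) (nat_lit 524) (nat_lit 427) (nat_lit 249)) (XT.lf (nat_lit 0) (nat_lit 149797141295) (nat_lit 152) (nat_lit 141861171003) (nat_lit 0) (nat_lit 86349223073) (nat_lit 13) (nat_lit 5) (nat_lit 15) (nat_lit 4) (nat_lit 13) (nat_lit 4) (nat_lit 525) (nat_lit 427) (nat_lit 248))) (XT.nd (nat_lit 78) (nat_lit 76) (nat_lit 0) (XT.lf (nat_lit 0) (nat_lit 212582173563) (nat_lit 152) (nat_lit 32266954838) (nat_lit 0) (nat_lit 149133768504) (nat_lit 13) (nat_lit 5) (nat_lit 15) (nat_lit 4) (nat_lit 13) (nat_lit 4) (nat_lit 526) (nat_lit 427) (nat_lit 247)) (XT.lf (nat_lit 0) (nat_lit 85543139608) (nat_lit 76) (nat_lit 194298010506) (nat_lit 76) (nat_lit 130849141793)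 (nat_lit 12) (nat_lit 4) (nat_lit 13) (nat_lit 5) (nat_lit 13) (nat_lit 4) (nat_lit 527) (nat_lit 427) (nat_lit 246))))) (XT.nd (nat_lit 234) (nat_lit 76) (nat_lit 0) (XT.nd (nat_lit 78) (nat_lit 152) (nat_lit 0) (XT.lf (nat_lit 0) (nat_lit 210362255550) (nat_lit 76) (nat_lit 140646415814) (nat_lit 76) (nat_lit 77197105525) (nat_lit 12) (nat_lit 4) (nat_lit 13) (nat_lit 5) (nat_lit 13) (nat_lit 4) (nat_lit 528) (nat_lit 427) (nat_lit 245)) (XT.nd (nat_lit 78) (nat_lit 152) (nat_lit 0) (XT.lf (nat_lit 0) (nat_lit 341420690109) (nat_lit 76) (nat_lit 84313058926) (nat_lit 76) (nat_lit 20863328089) (nat_lit 12) (nat_lit 4) (nat_lit 13) (nat_lit 5) (nat_lit 13) (nat_lit 4) (nat_lit 529) (nat_lit 427) (nat_lit 244)) (XT.lf (nat_lit 0) (nat_lit 12938873789) (nat_lit 76) (nat_lit 24324055551) (nat_lit 152) (nat_lit 428605063642) (nat_lit 10) (nat_lit 5) (nat_lit 11) (nat_lit 5) (nat_lit 12) (nat_lit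 4) (nat_lit 530) (nat_lit 427) (nat_lit 243)))) (XT.nd (nat_lit 156) (nat_lit 76) (nat_lit 0) (XT.nd (nat_lit 78) (nat_lit 0) (nat_lit 0) (XT.lf (nat_lit 0) (nat_lit 100007635661) (nat_lit 152) (nat_lit 346378478023) (nat_lit 0) (nat_lit 39578575844) (nat_lit 10) (nat_lit 5) (nat_lit 12) (nat_lit 4) (nat_lit 10) (nat_lit 4) (nat_lit 531) (nat_lit 427) (nat_lit 242)) (XT.lf (nat_lit 0) (nat_lit 166287577854) (nat_lit 152) (nat_lit 234900570988) (nat_lit 0) (nat_lit 105858172051) (nat_lit 10) (nat_lit 5) (nat_lit 12) (nat_lit 4) (nat_lit 10) (nat_lit 4) (nat_lit 532) (nat_lit 427) (nat_lit 241))) (XT.nd (nat_lit 78) (nat_lit 76) (nat_lit 0) (XT.lf (nat_lit 0) (nat_lit 235880798630) (nat_lit 152) (nat_lit 117850207825) (nat_lit 0) (nat_lit 175451063316) (nat_lit 10) (nat_lit 5) (nat_lit 12) (nat_lit 4) (nat_lit 10) (nat_lit 4) (nat_lit 533) (nat_lit 427) (nat_lit 240)) (XT.lf (nat_lit 0) (nat_lit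 5218321689) (nat_lit 76) (nat_lit 303816147068) (nat_lit 76) (nat_lit 243386097935) (nat_lit 9) (nat_lit 4) (nat_lit 10) (nat_lit 5) (nat_lit 10) (nat_lit 4) (nat_lit 534) (nat_lit 427) (nat_lit 239)))))) (XT.nd (nat_lit 546) (nat_lit 0) (nat_lit 0) (XT.nd (nat_lit 234) (nat_lit 152) (nat_lit 0) (XT.nd (nat_lit 78) (nat_lit 0) (nat_lit 0) (XT.lf (nat_lit 0) (nat_lit 138530422202) (nat_lit 76) (nat_lit 249310577704) (nat_lit 76) (nat_lit 188880229695) (nat_lit 9) (nat_lit 4) (nat_lit 10) (nat_lit 5) (nat_lit 10) (nat_lit 4) (nat_lit 535) (nat_lit 427) (nat_lit 238)) (XT.nd (nat_lit 78) (nat_lit 0) (nat_lit 0) (XT.lf (nat_lit 0) (nat_lit 278506843377) (nat_lit 76) (nat_lit 192080373490) (nat_lit 76) (nat_lit 131649740838) (nat_lit 9) (nat_lit 4) (nat_lit 10) (nat_lit 5) (nat_lit 10) (nat_lit 4) (nat_lit 536) (nat_lit 427) (nat_lit 237)) (XT.lf (nat_lit 0) (nat_lit 425480862409) (nat_lit 76) (nat_lit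 131989272037) (nat_lit 76) (nat_lit 71558368295) (nat_lit 9) (nat_lit 4) (nat_lit 10) (nat_lit 5) (nat_lit 10) (nat_lit 4) (nat_lit 537) (nat_lit 427) (nat_lit 236)))) (XT.nd (nat_lit 156) (nat_lit 0) (nat_lit 0) (XT.nd (nat_lit 78) (nat_lit 152) (nat_lit 0) (XT.lf (nat_lit 0) (nat_lit 579802417437) (nat_lit 76) (nat_lit 68894199292) (nat_lit 76) (nat_lit 8463037371) (nat_lit 9) (nat_lit 4) (nat_lit 10) (nat_lit 5) (nat_lit 10) (nat_lit 4) (nat_lit 538) (nat_lit 427) (nat_lit 235)) (XT.lf (nat_lit 0) (nat_lit 56032738706) (nat_lit 76) (nat_lit 779040080) (nat_lit 152) (nat_lit 629796760082) (nat_lit 7) (nat_lit 5) (nat_lit 8) (nat_lit 5) (nat_lit 9) (nat_lit 4) (nat_lit 539) (nat_lit 427) (nat_lit 234))) (XT.nd (nat_lit 78) (nat_lit 0) (nat_lit 0) (XT.lf (nat_lit 0) (nat_lit 127501398333) (nat_lit 152) (nat_lit 519952305243) (nat_lit 0) (nat_lit 69947453586) (nat_lit 7) (nat_lit 5) (nat_lit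 9) (nat_lit 4) (nat_lit 7) (nat_lit 4) (nat_lit 540) (nat_lit 427) (nat_lit 233)) (XT.lf (nat_lit 0) (nat_lit 201737734942) (nat_lit 152) (nat_lit 403811481845) (nat_lit 0) (nat_lit 144183577791) (nat_lit 7) (nat_lit 5) (nat_lit 9) (nat_lit 4) (nat_lit 7) (nat_lit 4) (nat_lit 541) (nat_lit 427) (nat_lit 232))))) (XT.nd (nat_lit 53820) (nat_lit 0) (nat_lit 9044) (XT.nd (nat_lit 53664) (nat_lit 0) (nat_lit 8968) (XT.nd (nat_lit 53586) (nat_lit 0) (nat_lit 8968) (XT.lf (nat_lit 0) (nat_lit 279685378799) (nat_lit 152) (nat_lit 281864641200) (nat_lit 0) (nat_lit 222131019356) (nat_lit 7) (nat_lit 5) (nat_lit 9) (nat_lit 4) (nat_lit 7) (nat_lit 4) (nat_lit 542) (nat_lit 427) (nat_lit 231)) (XT.lf (nat_lit 0) (nat_lit 928055442) (nat_lit 836) (nat_lit 3562697167) (nat_lit 836) (nat_lit 3562697167) (nat_lit 125) (nat_lit 3) (nat_lit 136) (nat_lit 3) (nat_lit 136) (nat_lit 5) (nat_lit 428) (nat_lit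 428) (nat_lit 344))) (XT.nd (nat_lit 78) (nat_lit 0) (nat_lit 76) (XT.lf (nat_lit 76) (nat_lit 791583655) (nat_lit 0) (nat_lit 1375483066) (nat_lit 836) (nat_lit 14329179546) (nat_lit 126) (nat_lit 5) (nat_lit 125) (nat_lit 3) (nat_lit 136) (nat_lit 5) (nat_lit 429) (nat_lit 428) (nat_lit 343)) (XT.lf (nat_lit 0) (nat_lit 2703271423) (nat_lit 760) (nat_lit 7662127130) (nat_lit 836) (nat_lit 6529182991) (nat_lit 126) (nat_lit 5) (nat_lit 136) (nat_lit 5) (nat_lit 137) (nat_lit 5) (nat_lit 430) (nat_lit 428) (nat_lit 342)))) (XT.nd (nat_lit 156) (nat_lit 0) (nat_lit 76) (XT.nd (nat_lit 78) (nat_lit 0) (nat_lit 76) (XT.lf (nat_lit 76) (nat_lit 775574610) (nat_lit 0) (nat_lit 2509976307) (nat_lit 836) (nat_lit 14026325420) (nat_lit 127) (nat_lit 5) (nat_lit 126) (nat_lit 5) (nat_lit 137) (nat_lit 5) (nat_lit 431) (nat_lit 428) (nat_lit 341)) (XT.lf (nat_lit 0) (nat_lit 4103710273) (nat_lit 760)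 (nat_lit 7944012426) (nat_lit 836) (nat_lit 5691980575) (nat_lit 127) (nat_lit 5) (nat_lit 137) (nat_lit 5) (nat_lit 138) (nat_lit 5) (nat_lit 432) (nat_lit 428) (nat_lit 340))) (XT.nd (nat_lit 78) (nat_lit 0) (nat_lit 76) (XT.lf (nat_lit 76) (nat_lit 1061262705) (nat_lit 0) (nat_lit 3945219104) (nat_lit 836) (nat_lit 13180259965) (nat_lit 128) (nat_lit 5) (nat_lit 127) (nat_lit 5) (nat_lit 138) (nat_lit 5) (nat_lit 433) (nat_lit 428) (nat_lit 339)) (XT.lf (nat_lit 0) (nat_lit 6148940485) (nat_lit 760) (nat_lit 7940284426) (nat_lit 836) (nat_lit 4557185026) (nat_lit 128) (nat_lit 5) (nat_lit 138) (nat_lit 5) (nat_lit 139) (nat_lit 5) (nat_lit 434) (nat_lit 428) (nat_lit 338))))))))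
noncomputable def xc158 : XT := (XT.nd (nat_lit 2184) (nat_lit 2584) (nat_lit 0) (XT.nd (nat_lit 1092) (nat_lit 2052) (nat_lit 0) (XT.nd (nat_lit 546) (nat_lit 1444) (nat_lit 0) (XT.nd (nat_lit 234) (nat_lit 988) (nat_lit 0) (XT.nd (nat_lit 78) (nat_lit 0) (nat_lit 76) (XT.lf (nat_lit 76) (nat_lit 1683823991) (nat_lit 0) (nat_lit 5742877671) (nat_lit 836) (nat_lit 11698455789) (nat_lit 129) (nat_lit 5) (nat_lit 128) (nat_lit 5) (nat_lit 139) (nat_lit 5) (nat_lit 435) (nat_lit 428) (nat_lit 337)) (XT.nd (nat_lit 78) (nat_lit 0) (nat_lit 0) (XT.lf (nat_lit 0) (nat_lit 8939912941) (nat_lit 760) (nat_lit 7615754795) (nat_lit 836) (nat_lit 3063601190) (nat_lit 129) (nat_lit 5) (nat_lit 139) (nat_lit 5) (nat_lit 140) (nat_lit 5) (nat_lit 436) (nat_lit 428) (nat_lit 336)) (XT.lf (nat_lit 76) (nat_lit 2683242314) (nat_lit 0) (nat_lit 7969887666) (nat_lit 836) (nat_lit 9478743198) (nat_lit 130) (nat_lit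 5) (nat_lit 129) (nat_lit 5) (nat_lit 140) (nat_lit 5) (nat_lit 437) (nat_lit 428) (nat_lit 335)))) (XT.nd (nat_lit 156) (nat_lit 380) (nat_lit 0) (XT.nd (nat_lit 78) (nat_lit 760) (nat_lit 0) (XT.lf (nat_lit 0) (nat_lit 12588161877) (nat_lit 760) (nat_lit 6930538231) (nat_lit 76) (nat_lit 1144604087) (nat_lit 130) (nat_lit 5) (nat_lit 140) (nat_lit 5) (nat_lit 131) (nat_lit 5) (nat_lit 438) (nat_lit 428) (nat_lit 334)) (XT.lf (nat_lit 0) (nat_lit 4104618646) (nat_lit 760) (nat_lit 10699346106) (nat_lit 836) (nat_lit 6408145089) (nat_lit 120) (nat_lit 5) (nat_lit 130) (nat_lit 5) (nat_lit 131) (nat_lit 5) (nat_lit 439) (nat_lit 428) (nat_lit 333))) (XT.nd (nat_lit 78) (nat_lit 380) (nat_lit 0) (XT.lf (nat_lit 0) (nat_lit 15922740273) (nat_lit 760) (nat_lit 1314833989) (nat_lit 836) (nat_lit 4545434540) (nat_lit 120) (nat_lit 5) (nat_lit 130) (nat_lit 5) (nat_lit 131) (nat_lit 5) (nat_lit 440)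 (nat_lit 428) (nat_lit 332)) (XT.lf (nat_lit 0) (nat_lit 5998520413) (nat_lit 380) (nat_lit 14011465482) (nat_lit 456) (nat_lit 2361614405) (nat_lit 115) (nat_lit 5) (nat_lit 120) (nat_lit 5) (nat_lit 121) (nat_lit 5) (nat_lit 441) (nat_lit 428) (nat_lit 331))))) (XT.nd (nat_lit 234) (nat_lit 988) (nat_lit 0) (XT.nd (nat_lit 78) (nat_lit 380) (nat_lit 0) (XT.lf (nat_lit 0) (nat_lit 46336301) (nat_lit 456) (nat_lit 4362705085) (nat_lit 76) (nat_lit 18574999682) (nat_lit 114) (nat_lit 5) (nat_lit 120) (nat_lit 5) (nat_lit 115) (nat_lit 5) (nat_lit 442) (nat_lit 428) (nat_lit 330)) (XT.nd (nat_lit 78) (nat_lit 0) (nat_lit 0) (XT.lf (nat_lit 0) (nat_lit 2709741337) (nat_lit 456) (nat_lit 15238970548) (nat_lit 76) (nat_lit 5665738284) (nat_lit 109) (nat_lit 5) (nat_lit 115) (nat_lit 5) (nat_lit 110) (nat_lit 5) (nat_lit 443) (nat_lit 428) (nat_lit 329)) (XT.lf (nat_lit 0) (nat_lit 5644765092) (nat_lit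 456) (nat_lit 2453619317) (nat_lit 76) (nat_lit 16171075916) (nat_lit 109) (nat_lit 5) (nat_lit 115) (nat_lit 5) (nat_lit 110) (nat_lit 5) (nat_lit 444) (nat_lit 428) (nat_lit 328)))) (XT.nd (nat_lit 156) (nat_lit 608) (nat_lit 0) (XT.nd (nat_lit 78) (nat_lit 0) (nat_lit 0) (XT.lf (nat_lit 0) (nat_lit 8932776982) (nat_lit 456) (nat_lit 13662318070) (nat_lit 76) (nat_lit 2351816966) (nat_lit 104) (nat_lit 5) (nat_lit 110) (nat_lit 5) (nat_lit 105) (nat_lit 5) (nat_lit 445) (nat_lit 428) (nat_lit 327)) (XT.lf (nat_lit 0) (nat_lit 12551938770) (nat_lit 456) (nat_lit 3985642) (nat_lit 76) (nat_lit 13093977159) (nat_lit 104) (nat_lit 5) (nat_lit 110) (nat_lit 5) (nat_lit 105) (nat_lit 5) (nat_lit 446) (nat_lit 428) (nat_lit 326))) (XT.nd (nat_lit 78) (nat_lit 304) (nat_lit 0) (XT.lf (nat_lit 0) (nat_lit 14802180473) (nat_lit 304) (nat_lit 1773128809) (nat_lit 380) (nat_lit 9801571398) (nat_lit 100)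 (nat_lit 5) (nat_lit 104) (nat_lit 5) (nat_lit 105) (nat_lit 5) (nat_lit 447) (nat_lit 428) (nat_lit 325)) (XT.lf (nat_lit 0) (nat_lit 3151295567) (nat_lit 304) (nat_lit 17839273755) (nat_lit 380) (nat_lit 6140105856) (nat_lit 96) (nat_lit 5) (nat_lit 100) (nat_lit 5) (nat_lit 101) (nat_lit 5) (nat_lit 448) (nat_lit 428) (nat_lit 324)))))) (XT.nd (nat_lit 546) (nat_lit 988) (nat_lit 0) (XT.nd (nat_lit 234) (nat_lit 760) (nat_lit 0) (XT.nd (nat_lit 78) (nat_lit 304) (nat_lit 0) (XT.lf (nat_lit 0) (nat_lit 18976487332) (nat_lit 304) (nat_lit 6867319360) (nat_lit 380) (nat_lit 2067494364) (nat_lit 96) (nat_lit 5) (nat_lit 100) (nat_lit 5) (nat_lit 101) (nat_lit 5) (nat_lit 449) (nat_lit 428) (nat_lit 323)) (XT.nd (nat_lit 78) (nat_lit 0) (nat_lit 0) (XT.lf (nat_lit 0) (nat_lit 2315855055) (nat_lit 304) (nat_lit 21754871847) (nat_lit 76) (nat_lit 4649619179) (nat_lit 92) (nat_lit 5) (nat_lit 96)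 (nat_lit 5) (nat_lit 93) (nat_lit 5) (nat_lit 450) (nat_lit 428) (nat_lit 322)) (XT.lf (nat_lit 0) (nat_lit 7108274687) (nat_lit 304) (nat_lit 5749178210) (nat_lit 76) (nat_lit 16697728633) (nat_lit 92) (nat_lit 5) (nat_lit 96) (nat_lit 5) (nat_lit 93) (nat_lit 5) (nat_lit 451) (nat_lit 428) (nat_lit 321)))) (XT.nd (nat_lit 156) (nat_lit 456) (nat_lit 0) (XT.nd (nat_lit 78) (nat_lit 0) (nat_lit 0) (XT.lf (nat_lit 0) (nat_lit 11413610905) (nat_lit 304) (nat_lit 898244876) (nat_lit 380) (nat_lit 18111327894) (nat_lit 88) (nat_lit 5) (nat_lit 92) (nat_lit 5) (nat_lit 93) (nat_lit 5) (nat_lit 452) (nat_lit 428) (nat_lit 320)) (XT.lf (nat_lit 0) (nat_lit 18050104763) (nat_lit 380) (nat_lit 1887859284) (nat_lit 76) (nat_lit 11382899293) (nat_lit 88) (nat_lit 5) (nat_lit 93) (nat_lit 5) (nat_lit 89) (nat_lit 5) (nat_lit 453) (nat_lit 428) (nat_lit 319))) (XT.nd (nat_lit 78) (nat_lit 228) (nat_lit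 0) (XT.lf (nat_lit 0) (nat_lit 16598218381) (nat_lit 228) (nat_lit 7744726507) (nat_lit 304) (nat_lit 7907099933) (nat_lit 85) (nat_lit 5) (nat_lit 88) (nat_lit 5) (nat_lit 89) (nat_lit 5) (nat_lit 454) (nat_lit 428) (nat_lit 318)) (XT.lf (nat_lit 0) (nat_lit 2853508955) (nat_lit 228) (nat_lit 28246881822) (nat_lit 304) (nat_lit 2117798094) (nat_lit 82) (nat_lit 5) (nat_lit 85) (nat_lit 5) (nat_lit 86) (nat_lit 5) (nat_lit 455) (nat_lit 428) (nat_lit 317))))) (XT.nd (nat_lit 234) (nat_lit 684) (nat_lit 0) (XT.nd (nat_lit 78) (nat_lit 228) (nat_lit 0) (XT.lf (nat_lit 0) (nat_lit 4224578235) (nat_lit 304) (nat_lit 11595574037) (nat_lit 76) (nat_lit 18391978029) (nat_lit 81) (nat_lit 5) (nat_lit 85) (nat_lit 5) (nat_lit 82) (nat_lit 5) (nat_lit 456) (nat_lit 428) (nat_lit 316)) (XT.nd (nat_lit 78) (nat_lit 0) (nat_lit 0) (XT.lf (nat_lit 0) (nat_lit 8336031650) (nat_lit 228) (nat_lit 2601309809)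 (nat_lit 304) (nat_lit 24310470897) (nat_lit 78) (nat_lit 5) (nat_lit 81) (nat_lit 5) (nat_lit 82) (nat_lit 5) (nat_lit 457) (nat_lit 428) (nat_lit 315)) (XT.lf (nat_lit 0) (nat_lit 18355830138) (nat_lit 304) (nat_lit 6846133324) (nat_lit 76) (nat_lit 11114812071) (nat_lit 78) (nat_lit 5) (nat_lit 82) (nat_lit 5) (nat_lit 79) (nat_lit 5) (nat_lit 458) (nat_lit 428) (nat_lit 314)))) (XT.nd (nat_lit 156) (nat_lit 456) (nat_lit 0) (XT.nd (nat_lit 78) (nat_lit 0) (nat_lit 0) (XT.lf (nat_lit 0) (nat_lit 14640987886) (nat_lit 228) (nat_lit 11770155922) (nat_lit 304) (nat_lit 11014749351) (nat_lit 75) (nat_lit 5) (nat_lit 78) (nat_lit 5) (nat_lit 79) (nat_lit 5) (nat_lit 459) (nat_lit 428) (nat_lit 313)) (XT.lf (nat_lit 0) (nat_lit 35018260519) (nat_lit 304) (nat_lit 1190716003) (nat_lit 76) (nat_lit 2374039532) (nat_lit 75) (nat_lit 5) (nat_lit 79) (nat_lit 5) (nat_lit 76) (nat_lit 5) (nat_lit 460)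 (nat_lit 428) (nat_lit 312))) (XT.nd (nat_lit 78) (nat_lit 228) (nat_lit 0) (XT.lf (nat_lit 0) (nat_lit 4661409679) (nat_lit 228) (nat_lit 17860175836) (nat_lit 76) (nat_lit 17246089662) (nat_lit 72) (nat_lit 5) (nat_lit 75) (nat_lit 5) (nat_lit 73) (nat_lit 5) (nat_lit 461) (nat_lit 428) (nat_lit 311)) (XT.lf (nat_lit 0) (nat_lit 5294561279) (nat_lit 228) (nat_lit 7982737979) (nat_lit 304) (nat_lit 27726436386) (nat_lit 69) (nat_lit 5) (nat_lit 72) (nat_lit 5) (nat_lit 73) (nat_lit 5) (nat_lit 462) (nat_lit 428) (nat_lit 310))))))) (XT.nd (nat_lit 1092) (nat_lit 1140) (nat_lit 0) (XT.nd (nat_lit 546) (nat_lit 760) (nat_lit 0) (XT.nd (nat_lit 234) (nat_lit 532) (nat_lit 0) (XT.nd (nat_lit 78) (nat_lit 152) (nat_lit 0) (XT.lf (nat_lit 0) (nat_lit 22740257088) (nat_lit 304) (nat_lit 12185657048) (nat_lit 76) (nat_lit 7354872346) (nat_lit 69) (nat_lit 5) (nat_lit 73) (nat_lit 5) (nat_lit 70) (nat_lit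 5) (nat_lit 463) (nat_lit 428) (nat_lit 309)) (XT.nd (nat_lit 78) (nat_lit 0) (nat_lit 0) (XT.lf (nat_lit 0) (nat_lit 12785123680) (nat_lit 152) (nat_lit 20217082591) (nat_lit 228) (nat_lit 10603192398) (nat_lit 67) (nat_lit 5) (nat_lit 69) (nat_lit 5) (nat_lit 70) (nat_lit 5) (nat_lit 464) (nat_lit 428) (nat_lit 308)) (XT.lf (nat_lit 0) (nat_lit 39420367205) (nat_lit 152) (nat_lit 4558732217) (nat_lit 228) (nat_lit 1007050657) (nat_lit 67) (nat_lit 5) (nat_lit 69) (nat_lit 5) (nat_lit 70) (nat_lit 5) (nat_lit 465) (nat_lit 428) (nat_lit 307)))) (XT.nd (nat_lit 156) (nat_lit 152) (nat_lit 0) (XT.nd (nat_lit 78) (nat_lit 152) (nat_lit 0) (XT.lf (nat_lit 0) (nat_lit 9303089261) (nat_lit 228) (nat_lit 25114863990) (nat_lit 76) (nat_lit 11984684488) (nat_lit 64) (nat_lit 5) (nat_lit 67) (nat_lit 5) (nat_lit 65) (nat_lit 5) (nat_lit 466) (nat_lit 428) (nat_lit 306)) (XT.lf (nat_lit 0) (nat_lit 1748163818)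 (nat_lit 152) (nat_lit 18540242894) (nat_lit 228) (nat_lit 27591042727) (nat_lit 62) (nat_lit 5) (nat_lit 64) (nat_lit 5) (nat_lit 65) (nat_lit 5) (nat_lit 467) (nat_lit 428) (nat_lit 305))) (XT.nd (nat_lit 78) (nat_lit 152) (nat_lit 0) (XT.lf (nat_lit 0) (nat_lit 30819383783) (nat_lit 152) (nat_lit 1424719170) (nat_lit 228) (nat_lit 17164943894) (nat_lit 62) (nat_lit 5) (nat_lit 64) (nat_lit 5) (nat_lit 65) (nat_lit 5) (nat_lit 468) (nat_lit 428) (nat_lit 304)) (XT.lf (nat_lit 0) (nat_lit 10396738253) (nat_lit 152) (nat_lit 34817448223) (nat_lit 228) (nat_lit 5780108261) (nat_lit 60) (nat_lit 5) (nat_lit 62) (nat_lit 5) (nat_lit 63) (nat_lit 5) (nat_lit 469) (nat_lit 428) (nat_lit 303))))) (XT.nd (nat_lit 234) (nat_lit 532) (nat_lit 0) (XT.nd (nat_lit 78) (nat_lit 152) (nat_lit 0) (XT.lf (nat_lit 0) (nat_lit 6315671616) (nat_lit 228) (nat_lit 11296873100) (nat_lit 76) (nat_lit 35024475921)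 (nat_lit 59) (nat_lit 5) (nat_lit 62) (nat_lit 5) (nat_lit 60) (nat_lit 5) (nat_lit 470) (nat_lit 428) (nat_lit 302)) (XT.nd (nat_lit 78) (nat_lit 0) (nat_lit 0) (XT.lf (nat_lit 0) (nat_lit 19144231051) (nat_lit 228) (nat_lit 34347376803) (nat_lit 76) (nat_lit 849425815) (nat_lit 57) (nat_lit 5) (nat_lit 60) (nat_lit 5) (nat_lit 58) (nat_lit 5) (nat_lit 471) (nat_lit 428) (nat_lit 301)) (XT.lf (nat_lit 0) (nat_lit 33093605264) (nat_lit 228) (nat_lit 3178106100) (nat_lit 76) (nat_lit 19834567250) (nat_lit 57) (nat_lit 5) (nat_lit 60) (nat_lit 5) (nat_lit 58) (nat_lit 5) (nat_lit 472) (nat_lit 428) (nat_lit 300)))) (XT.nd (nat_lit 156) (nat_lit 152) (nat_lit 0) (XT.nd (nat_lit 78) (nat_lit 228) (nat_lit 0) (XT.lf (nat_lit 0) (nat_lit 30520303397) (nat_lit 152) (nat_lit 17693035301) (nat_lit 228) (nat_lit 9722803160) (nat_lit 55) (nat_lit 5) (nat_lit 57) (nat_lit 5) (nat_lit 58) (nat_lit 5) (nat_lit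 473) (nat_lit 428) (nat_lit 299)) (XT.lf (nat_lit 0) (nat_lit 4277272334) (nat_lit 228) (nat_lit 53591350736) (nat_lit 76) (nat_lit 1976514980) (nat_lit 52) (nat_lit 5) (nat_lit 55) (nat_lit 5) (nat_lit 53) (nat_lit 5) (nat_lit 474) (nat_lit 428) (nat_lit 298))) (XT.nd (nat_lit 78) (nat_lit 152) (nat_lit 0) (XT.lf (nat_lit 0) (nat_lit 19409001712) (nat_lit 228) (nat_lit 19730931999) (nat_lit 76) (nat_lit 22663761325) (nat_lit 52) (nat_lit 5) (nat_lit 55) (nat_lit 5) (nat_lit 53) (nat_lit 5) (nat_lit 475) (nat_lit 428) (nat_lit 297)) (XT.lf (nat_lit 0) (nat_lit 16339549691) (nat_lit 152) (nat_lit 19209481951) (nat_lit 228) (nat_lit 28298562997) (nat_lit 50) (nat_lit 5) (nat_lit 52) (nat_lit 5) (nat_lit 53) (nat_lit 5) (nat_lit 476) (nat_lit 428) (nat_lit 296)))))) (XT.nd (nat_lit 546) (nat_lit 532) (nat_lit 0) (XT.nd (nat_lit 234) (nat_lit 456) (nat_lit 0) (XT.nd (nat_lit 78) (nat_lit 152) (nat_lit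 0) (XT.lf (nat_lit 0) (nat_lit 52859148000) (nat_lit 228) (nat_lit 11116662899) (nat_lit 76) (nat_lit 1999724529) (nat_lit 50) (nat_lit 5) (nat_lit 53) (nat_lit 5) (nat_lit 51) (nat_lit 4) (nat_lit 477) (nat_lit 428) (nat_lit 295)) (XT.nd (nat_lit 78) (nat_lit 0) (nat_lit 0) (XT.lf (nat_lit 0) (nat_lit 3490214174) (nat_lit 152) (nat_lit 40570025731) (nat_lit 76) (nat_lit 24109641952) (nat_lit 48) (nat_lit 5) (nat_lit 50) (nat_lit 5) (nat_lit 49) (nat_lit 5) (nat_lit 478) (nat_lit 428) (nat_lit 294)) (XT.lf (nat_lit 0) (nat_lit 20674514387) (nat_lit 152) (nat_lit 2050182822) (nat_lit 76) (nat_lit 47729089392) (nat_lit 48) (nat_lit 5) (nat_lit 50) (nat_lit 5) (nat_lit 49) (nat_lit 5) (nat_lit 479) (nat_lit 428) (nat_lit 293)))) (XT.nd (nat_lit 156) (nat_lit 228) (nat_lit 0) (XT.nd (nat_lit 78) (nat_lit 76) (nat_lit 0) (XT.lf (nat_lit 0) (nat_lit 39339271863) (nat_lit 228) (nat_lit 33166569585)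 (nat_lit 76) (nat_lit 314983394) (nat_lit 46) (nat_lit 5) (nat_lit 49) (nat_lit 5) (nat_lit 47) (nat_lit 4) (nat_lit 480) (nat_lit 428) (nat_lit 292)) (XT.lf (nat_lit 0) (nat_lit 8091030256) (nat_lit 76) (nat_lit 51377375756) (nat_lit 152) (nat_lit 15811252393) (nat_lit 45) (nat_lit 5) (nat_lit 46) (nat_lit 5) (nat_lit 47) (nat_lit 4) (nat_lit 481) (nat_lit 428) (nat_lit 291))) (XT.nd (nat_lit 78) (nat_lit 152) (nat_lit 0) (XT.lf (nat_lit 0) (nat_lit 3222684205) (nat_lit 152) (nat_lit 25327851490) (nat_lit 76) (nat_lit 49280362312) (nat_lit 44) (nat_lit 5) (nat_lit 46) (nat_lit 5) (nat_lit 45) (nat_lit 5) (nat_lit 482) (nat_lit 428) (nat_lit 290)) (XT.lf (nat_lit 0) (nat_lit 18968685475) (nat_lit 152) (nat_lit 4001567756) (nat_lit 228) (nat_lit 57511821752) (nat_lit 42) (nat_lit 5) (nat_lit 44) (nat_lit 5) (nat_lit 45) (nat_lit 5) (nat_lit 483) (nat_lit 428) (nat_lit 289))))) (XT.nd (nat_lit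 312) (nat_lit 228) (nat_lit 0) (XT.nd (nat_lit 156) (nat_lit 228) (nat_lit 0) (XT.nd (nat_lit 78) (nat_lit 76) (nat_lit 0) (XT.lf (nat_lit 0) (nat_lit 44478301552) (nat_lit 228) (nat_lit 17237201498) (nat_lit 76) (nat_lit 21511653007) (nat_lit 42) (nat_lit 5) (nat_lit 45) (nat_lit 5) (nat_lit 43) (nat_lit 4) (nat_lit 484) (nat_lit 428) (nat_lit 288)) (XT.lf (nat_lit 0) (nat_lit 30147126517) (nat_lit 76) (nat_lit 37448204677) (nat_lit 152) (nat_lit 18487481319) (nat_lit 41) (nat_lit 5) (nat_lit 42) (nat_lit 5) (nat_lit 43) (nat_lit 4) (nat_lit 485) (nat_lit 428) (nat_lit 287))) (XT.nd (nat_lit 78) (nat_lit 152) (nat_lit 0) (XT.lf (nat_lit 0) (nat_lit 2991773294) (nat_lit 152) (nat_lit 8620821412) (nat_lit 76) (nat_lit 77451781080) (nat_lit 40) (nat_lit 5) (nat_lit 42) (nat_lit 5) (nat_lit 41) (nat_lit 5) (nat_lit 486) (nat_lit 428) (nat_lit 286)) (XT.lf (nat_lit 0) (nat_lit 25836354334) (nat_lit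 228) (nat_lit 50305647960) (nat_lit 76) (nat_lit 15992228280) (nat_lit 38) (nat_lit 5) (nat_lit 41) (nat_lit 5) (nat_lit 39) (nat_lit 4) (nat_lit 487) (nat_lit 428) (nat_lit 285)))) (XT.nd (nat_lit 156) (nat_lit 152) (nat_lit 0) (XT.nd (nat_lit 78) (nat_lit 76) (nat_lit 0) (XT.lf (nat_lit 0) (nat_lit 50159377071) (nat_lit 228) (nat_lit 448044296) (nat_lit 76) (nat_lit 44733346329) (nat_lit 38) (nat_lit 5) (nat_lit 41) (nat_lit 5) (nat_lit 39) (nat_lit 4) (nat_lit 488) (nat_lit 428) (nat_lit 284)) (XT.lf (nat_lit 0) (nat_lit 53613890717) (nat_lit 76) (nat_lit 22919295742) (nat_lit 152) (nat_lit 22132713656) (nat_lit 37) (nat_lit 5) (nat_lit 38) (nat_lit 5) (nat_lit 39) (nat_lit 4) (nat_lit 489) (nat_lit 428) (nat_lit 283))) (XT.nd (nat_lit 78) (nat_lit 0) (nat_lit 0) (XT.lf (nat_lit 0) (nat_lit 2238615384) (nat_lit 152) (nat_lit 93775893188) (nat_lit 76) (nat_lit 6129345114) (nat_lit 35) (nat_lit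 5) (nat_lit 37) (nat_lit 5) (nat_lit 36) (nat_lit 4) (nat_lit 490) (nat_lit 428) (nat_lit 282)) (XT.lf (nat_lit 0) (nat_lit 28233510385) (nat_lit 152) (nat_lit 40490137063) (nat_lit 76) (nat_lit 36996475914) (nat_lit 35) (nat_lit 5) (nat_lit 37) (nat_lit 5) (nat_lit 36) (nat_lit 4) (nat_lit 491) (nat_lit 428) (nat_lit 281))))))))
noncomputable def xc159 : XT := (XT.nd (nat_lit 2184) (nat_lit 684) (nat_lit 0) (XT.nd (nat_lit 1092) (nat_lit 684) (nat_lit 0) (XT.nd (nat_lit 546) (nat_lit 380) (nat_lit 0) (XT.nd (nat_lit 234) (nat_lit 228) (nat_lit 0) (XT.nd (nat_lit 78) (nat_lit 76) (nat_lit 0) (XT.lf (nat_lit 0) (nat_lit 15966605996) (nat_lit 76) (nat_lit 39808534512) (nat_lit 152) (nat_lit 53687716675) (nat_lit 34) (nat_lit 5) (nat_lit 35) (nat_lit 5) (nat_lit 36) (nat_lit 4) (nat_lit 492) (nat_lit 428) (nat_lit 280)) (XT.nd (nat_lit 78) (nat_lit 76) (nat_lit 0) (XT.lf (nat_lit 0) (nat_lit 76647650234)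 (nat_lit 76) (nat_lit 8729671525) (nat_lit 152) (nat_lit 27981232624) (nat_lit 34) (nat_lit 5) (nat_lit 35) (nat_lit 5) (nat_lit 36) (nat_lit 4) (nat_lit 493) (nat_lit 428) (nat_lit 279)) (XT.lf (nat_lit 0) (nat_lit 23281533217) (nat_lit 76) (nat_lit 93912590565) (nat_lit 76) (nat_lit 218187237) (nat_lit 33) (nat_lit 4) (nat_lit 34) (nat_lit 5) (nat_lit 34) (nat_lit 4) (nat_lit 494) (nat_lit 428) (nat_lit 278)))) (XT.nd (nat_lit 156) (nat_lit 76) (nat_lit 0) (XT.nd (nat_lit 78) (nat_lit 76) (nat_lit 0) (XT.lf (nat_lit 0) (nat_lit 28779823403) (nat_lit 152) (nat_lit 34698726004) (nat_lit 76) (nat_lit 58128977458) (nat_lit 32) (nat_lit 5) (nat_lit 34) (nat_lit 5) (nat_lit 33) (nat_lit 4) (nat_lit 495) (nat_lit 428) (nat_lit 277)) (XT.lf (nat_lit 0) (nat_lit 28613208444) (nat_lit 76) (nat_lit 31051860870) (nat_lit 152) (nat_lit 66325022124) (nat_lit 31) (nat_lit 5) (nat_lit 32) (nat_lit 5) (nat_lit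 33) (nat_lit 4) (nat_lit 496) (nat_lit 428) (nat_lit 276))) (XT.nd (nat_lit 78) (nat_lit 76) (nat_lit 0) (XT.lf (nat_lit 0) (nat_lit 92736572860) (nat_lit 152) (nat_lit 34327366553) (nat_lit 0) (nat_lit 3495745192) (nat_lit 31) (nat_lit 5) (nat_lit 33) (nat_lit 4) (nat_lit 31) (nat_lit 4) (nat_lit 497) (nat_lit 428) (nat_lit 275)) (XT.lf (nat_lit 0) (nat_lit 32398776855) (nat_lit 76) (nat_lit 96075798948) (nat_lit 76) (nat_lit 6832535543) (nat_lit 30) (nat_lit 4) (nat_lit 31) (nat_lit 5) (nat_lit 31) (nat_lit 4) (nat_lit 498) (nat_lit 428) (nat_lit 274))))) (XT.nd (nat_lit 234) (nat_lit 228) (nat_lit 0) (XT.nd (nat_lit 78) (nat_lit 76) (nat_lit 0) (XT.lf (nat_lit 0) (nat_lit 25473692995) (nat_lit 152) (nat_lit 37024512512) (nat_lit 76) (nat_lit 77744189357) (nat_lit 29) (nat_lit 5) (nat_lit 31) (nat_lit 5) (nat_lit 30) (nat_lit 4) (nat_lit 499) (nat_lit 428) (nat_lit 273)) (XT.nd (nat_lit 78)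 (nat_lit 0) (nat_lit 0) (XT.lf (nat_lit 0) (nat_lit 33097219837) (nat_lit 76) (nat_lit 26583273955) (nat_lit 152) (nat_lit 85712604495) (nat_lit 28) (nat_lit 5) (nat_lit 29) (nat_lit 5) (nat_lit 30) (nat_lit 4) (nat_lit 500) (nat_lit 428) (nat_lit 272)) (XT.lf (nat_lit 0) (nat_lit 96406817153) (nat_lit 152) (nat_lit 42947145002) (nat_lit 0) (nat_lit 11406915705) (nat_lit 28) (nat_lit 5) (nat_lit 30) (nat_lit 4) (nat_lit 28) (nat_lit 4) (nat_lit 501) (nat_lit 428) (nat_lit 271)))) (XT.nd (nat_lit 156) (nat_lit 76) (nat_lit 0) (XT.nd (nat_lit 78) (nat_lit 76) (nat_lit 0) (XT.lf (nat_lit 0) (nat_lit 30402890700) (nat_lit 76) (nat_lit 105475265377) (nat_lit 76) (nat_lit 20473455465) (nat_lit 27) (nat_lit 4) (nat_lit 28) (nat_lit 5) (nat_lit 28) (nat_lit 4) (nat_lit 502) (nat_lit 428) (nat_lit 270)) (XT.lf (nat_lit 0) (nat_lit 15355338757) (nat_lit 152) (nat_lit 53525183043) (nat_lit 76) (nat_lit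 93292697069) (nat_lit 26) (nat_lit 5) (nat_lit 28) (nat_lit 5) (nat_lit 27) (nat_lit 4) (nat_lit 503) (nat_lit 428) (nat_lit 269))) (XT.nd (nat_lit 78) (nat_lit 0) (nat_lit 0) (XT.lf (nat_lit 0) (nat_lit 22914027925) (nat_lit 76) (nat_lit 29729575222) (nat_lit 152) (nat_lit 115607718341) (nat_lit 25) (nat_lit 5) (nat_lit 26) (nat_lit 5) (nat_lit 27) (nat_lit 4) (nat_lit 504) (nat_lit 428) (nat_lit 268)) (XT.lf (nat_lit 0) (nat_lit 92893598717) (nat_lit 152) (nat_lit 69750320399) (nat_lit 0) (nat_lit 11934544306) (nat_lit 25) (nat_lit 5) (nat_lit 27) (nat_lit 4) (nat_lit 25) (nat_lit 4) (nat_lit 505) (nat_lit 428) (nat_lit 267)))))) (XT.nd (nat_lit 546) (nat_lit 380) (nat_lit 0) (XT.nd (nat_lit 234) (nat_lit 152) (nat_lit 0) (XT.nd (nat_lit 78) (nat_lit 76) (nat_lit 0) (XT.lf (nat_lit 0) (nat_lit 9427247083) (nat_lit 76) (nat_lit 126361808556) (nat_lit 76) (nat_lit 45401258813) (nat_lit 24)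 (nat_lit 4) (nat_lit 25) (nat_lit 5) (nat_lit 25) (nat_lit 4) (nat_lit 506) (nat_lit 428) (nat_lit 266)) (XT.nd (nat_lit 78) (nat_lit 76) (nat_lit 0) (XT.lf (nat_lit 0) (nat_lit 94982201773) (nat_lit 76) (nat_lit 87026772870) (nat_lit 76) (nat_lit 6064799002) (nat_lit 24) (nat_lit 4) (nat_lit 25) (nat_lit 5) (nat_lit 25) (nat_lit 4) (nat_lit 507) (nat_lit 428) (nat_lit 265)) (XT.lf (nat_lit 0) (nat_lit 34109116117) (nat_lit 152) (nat_lit 11039642136) (nat_lit 76) (nat_lit 150125214845) (nat_lit 23) (nat_lit 5) (nat_lit 25) (nat_lit 5) (nat_lit 24) (nat_lit 4) (nat_lit 508) (nat_lit 428) (nat_lit 264)))) (XT.nd (nat_lit 156) (nat_lit 76) (nat_lit 0) (XT.nd (nat_lit 78) (nat_lit 0) (nat_lit 0) (XT.lf (nat_lit 0) (nat_lit 77299415811) (nat_lit 152) (nat_lit 125278968241) (nat_lit 0) (nat_lit 190252097) (nat_lit 22) (nat_lit 5) (nat_lit 24) (nat_lit 4) (nat_lit 22) (nat_lit 4) (nat_lit 509) (nat_lit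 428) (nat_lit 263)) (XT.lf (nat_lit 0) (nat_lit 123577960797) (nat_lit 152) (nat_lit 40546009650) (nat_lit 0) (nat_lit 46467625451) (nat_lit 22) (nat_lit 5) (nat_lit 24) (nat_lit 4) (nat_lit 22) (nat_lit 4) (nat_lit 510) (nat_lit 428) (nat_lit 262))) (XT.nd (nat_lit 78) (nat_lit 0) (nat_lit 0) (XT.lf (nat_lit 0) (nat_lit 50021913583) (nat_lit 76) (nat_lit 122928130374) (nat_lit 76) (nat_lit 45816679189) (nat_lit 21) (nat_lit 4) (nat_lit 22) (nat_lit 5) (nat_lit 22) (nat_lit 4) (nat_lit 511) (nat_lit 428) (nat_lit 261)) (XT.lf (nat_lit 0) (nat_lit 146523245462) (nat_lit 76) (nat_lit 78952804648) (nat_lit 76) (nat_lit 1840290759) (nat_lit 21) (nat_lit 4) (nat_lit 22) (nat_lit 5) (nat_lit 22) (nat_lit 4) (nat_lit 512) (nat_lit 428) (nat_lit 260))))) (XT.nd (nat_lit 234) (nat_lit 228) (nat_lit 0) (XT.nd (nat_lit 78) (nat_lit 0) (nat_lit 0) (XT.lf (nat_lit 0) (nat_lit 11220570229) (nat_lit 76) (nat_lit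 31869232803) (nat_lit 152) (nat_lit 193160332874) (nat_lit 19) (nat_lit 5) (nat_lit 20) (nat_lit 5) (nat_lit 21) (nat_lit 4) (nat_lit 513) (nat_lit 428) (nat_lit 259)) (XT.nd (nat_lit 78) (nat_lit 0) (nat_lit 0) (XT.lf (nat_lit 0) (nat_lit 91868249077) (nat_lit 152) (nat_lit 135251800808) (nat_lit 0) (nat_lit 18425877752) (nat_lit 19) (nat_lit 5) (nat_lit 21) (nat_lit 4) (nat_lit 19) (nat_lit 4) (nat_lit 514) (nat_lit 428) (nat_lit 258)) (XT.lf (nat_lit 0) (nat_lit 143606824608) (nat_lit 152) (nat_lit 41510045041) (nat_lit 0) (nat_lit 70163578993) (nat_lit 19) (nat_lit 5) (nat_lit 21) (nat_lit 4) (nat_lit 19) (nat_lit 4) (nat_lit 515) (nat_lit 428) (nat_lit 257)))) (XT.nd (nat_lit 156) (nat_lit 152) (nat_lit 0) (XT.nd (nat_lit 78) (nat_lit 0) (nat_lit 0) (XT.lf (nat_lit 0) (nat_lit 58798379669) (nat_lit 76) (nat_lit 140050776490) (nat_lit 76) (nat_lit 66606698218) (nat_lit 18) (nat_lit 4) (nat_lit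 19) (nat_lit 5) (nat_lit 19) (nat_lit 4) (nat_lit 516) (nat_lit 428) (nat_lit 256)) (XT.lf (nat_lit 0) (nat_lit 165561064100) (nat_lit 76) (nat_lit 91994372989) (nat_lit 76) (nat_lit 18549501712) (nat_lit 18) (nat_lit 4) (nat_lit 19) (nat_lit 5) (nat_lit 19) (nat_lit 4) (nat_lit 517) (nat_lit 428) (nat_lit 255))) (XT.nd (nat_lit 78) (nat_lit 76) (nat_lit 0) (XT.lf (nat_lit 0) (nat_lit 30888094774) (nat_lit 152) (nat_lit 10125032233) (nat_lit 76) (nat_lit 246248495957) (nat_lit 17) (nat_lit 5) (nat_lit 19) (nat_lit 5) (nat_lit 18) (nat_lit 4) (nat_lit 518) (nat_lit 428) (nat_lit 254)) (XT.lf (nat_lit 0) (nat_lit 83931030943) (nat_lit 152) (nat_lit 200959933501) (nat_lit 0) (nat_lit 13982130180) (nat_lit 16) (nat_lit 5) (nat_lit 18) (nat_lit 4) (nat_lit 16) (nat_lit 4) (nat_lit 519) (nat_lit 428) (nat_lit 253))))))) (XT.nd (nat_lit 1092) (nat_lit 228) (nat_lit 0) (XT.nd (nat_lit 546) (nat_lit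 228) (nat_lit 0) (XT.nd (nat_lit 234) (nat_lit 152) (nat_lit 0) (XT.nd (nat_lit 78) (nat_lit 76) (nat_lit 0) (XT.lf (nat_lit 0) (nat_lit 140471676509) (nat_lit 152) (nat_lit 100029061924) (nat_lit 0) (nat_lit 70522123338) (nat_lit 16) (nat_lit 5) (nat_lit 18) (nat_lit 4) (nat_lit 16) (nat_lit 4) (nat_lit 520) (nat_lit 428) (nat_lit 252)) (XT.nd (nat_lit 78) (nat_lit 0) (nat_lit 0) (XT.lf (nat_lit 0) (nat_lit 6142946146) (nat_lit 76) (nat_lit 193791300529) (nat_lit 76) (nat_lit 123841126018) (nat_lit 15) (nat_lit 4) (nat_lit 16) (nat_lit 5) (nat_lit 16) (nat_lit 4) (nat_lit 521) (nat_lit 428) (nat_lit 251)) (XT.lf (nat_lit 0) (nat_lit 121094350630) (nat_lit 76) (nat_lit 142968636372) (nat_lit 76) (nat_lit 73017870107) (nat_lit 15) (nat_lit 4) (nat_lit 16) (nat_lit 5) (nat_lit 16) (nat_lit 4) (nat_lit 522) (nat_lit 428) (nat_lit 250)))) (XT.nd (nat_lit 156) (nat_lit 0) (nat_lit 0) (XT.nd (nat_lit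 78) (nat_lit 152) (nat_lit 0) (XT.lf (nat_lit 0) (nat_lit 241791432816) (nat_lit 76) (nat_lit 89605780183) (nat_lit 76) (nat_lit 19654450343) (nat_lit 15) (nat_lit 4) (nat_lit 16) (nat_lit 5) (nat_lit 16) (nat_lit 4) (nat_lit 523) (nat_lit 428) (nat_lit 249)) (XT.lf (nat_lit 0) (nat_lit 2306396322) (nat_lit 76) (nat_lit 32941536799) (nat_lit 152) (nat_lit 330442924917) (nat_lit 13) (nat_lit 5) (nat_lit 14) (nat_lit 5) (nat_lit 15) (nat_lit 4) (nat_lit 524) (nat_lit 428) (nat_lit 248))) (XT.nd (nat_lit 78) (nat_lit 0) (nat_lit 0) (XT.lf (nat_lit 0) (nat_lit 94529319300) (nat_lit 152) (nat_lit 258493855739) (nat_lit 0) (nat_lit 27908007151) (nat_lit 13) (nat_lit 5) (nat_lit 15) (nat_lit 4) (nat_lit 13) (nat_lit 4) (nat_lit 525) (nat_lit 428) (nat_lit 247)) (XT.lf (nat_lit 0) (nat_lit 157313924508) (nat_lit 152) (nat_lit 148900491877) (nat_lit 0) (nat_lit 90692148705) (nat_lit 13) (nat_lit 5)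 (nat_lit 15) (nat_lit 4) (nat_lit 13) (nat_lit 4) (nat_lit 526) (nat_lit 428) (nat_lit 246))))) (XT.nd (nat_lit 234) (nat_lit 152) (nat_lit 0) (XT.nd (nat_lit 78) (nat_lit 76) (nat_lit 0) (XT.lf (nat_lit 0) (nat_lit 223236926192) (nat_lit 152) (nat_lit 33829123841) (nat_lit 0) (nat_lit 156614708814) (nat_lit 13) (nat_lit 5) (nat_lit 15) (nat_lit 4) (nat_lit 13) (nat_lit 4) (nat_lit 527) (nat_lit 428) (nat_lit 245)) (XT.nd (nat_lit 78) (nat_lit 0) (nat_lit 0) (XT.lf (nat_lit 0) (nat_lit 89870649864) (nat_lit 76) (nat_lit 203987766722) (nat_lit 76) (nat_lit 137365128796) (nat_lit 12) (nat_lit 4) (nat_lit 13) (nat_lit 5) (nat_lit 13) (nat_lit 4) (nat_lit 528) (nat_lit 428) (nat_lit 244)) (XT.lf (nat_lit 0) (nat_lit 220928323828) (nat_lit 76) (nat_lit 147654789643) (nat_lit 76) (nat_lit 81031751195) (nat_lit 12) (nat_lit 4) (nat_lit 13) (nat_lit 5) (nat_lit 13) (nat_lit 4) (nat_lit 529) (nat_lit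 428) (nat_lit 243)))) (XT.nd (nat_lit 156) (nat_lit 0) (nat_lit 0) (XT.nd (nat_lit 78) (nat_lit 152) (nat_lit 0) (XT.lf (nat_lit 0) (nat_lit 358537396519) (nat_lit 76) (nat_lit 88505905243) (nat_lit 76) (nat_lit 21882485345) (nat_lit 12) (nat_lit 4) (nat_lit 13) (nat_lit 5) (nat_lit 13) (nat_lit 4) (nat_lit 530) (nat_lit 428) (nat_lit 242)) (XT.lf (nat_lit 0) (nat_lit 13631509360) (nat_lit 76) (nat_lit 25517413831) (nat_lit 152) (nat_lit 450011326516) (nat_lit 10) (nat_lit 5) (nat_lit 11) (nat_lit 5) (nat_lit 12) (nat_lit 4) (nat_lit 531) (nat_lit 428) (nat_lit 241))) (XT.nd (nat_lit 78) (nat_lit 0) (nat_lit 0) (XT.lf (nat_lit 0) (nat_lit 105030116541) (nat_lit 152) (nat_lit 363653137031) (nat_lit 0) (nat_lit 41578564951) (nat_lit 10) (nat_lit 5) (nat_lit 12) (nat_lit 4) (nat_lit 10) (nat_lit 4) (nat_lit 532) (nat_lit 428) (nat_lit 240)) (XT.lf (nat_lit 0) (nat_lit 174623003506) (nat_lit 152)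 (nat_lit 246603442497) (nat_lit 0) (nat_lit 111171138097) (nat_lit 10) (nat_lit 5) (nat_lit 12) (nat_lit 4) (nat_lit 10) (nat_lit 4) (nat_lit 533) (nat_lit 428) (nat_lit 239)))))) (XT.nd (nat_lit 546) (nat_lit 0) (nat_lit 0) (XT.nd (nat_lit 234) (nat_lit 152) (nat_lit 0) (XT.nd (nat_lit 78) (nat_lit 76) (nat_lit 0) (XT.lf (nat_lit 0) (nat_lit 247694883093) (nat_lit 152) (nat_lit 123702568653) (nat_lit 0) (nat_lit 184242718808) (nat_lit 10) (nat_lit 5) (nat_lit 12) (nat_lit 4) (nat_lit 10) (nat_lit 4) (nat_lit 534) (nat_lit 428) (nat_lit 238)) (XT.nd (nat_lit 78) (nat_lit 0) (nat_lit 0) (XT.lf (nat_lit 0) (nat_lit 5518739763) (nat_lit 76) (nat_lit 318987159199) (nat_lit 76) (nat_lit 255534710271) (nat_lit 9) (nat_lit 4) (nat_lit 10) (nat_lit 5) (nat_lit 10) (nat_lit 4) (nat_lit 535) (nat_lit 428) (nat_lit 237)) (XT.lf (nat_lit 0) (nat_lit 145494564254) (nat_lit 76) (nat_lit 261757253996) (nat_lit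 76) (nat_lit 198304533979) (nat_lit 9) (nat_lit 4) (nat_lit 10) (nat_lit 5) (nat_lit 10) (nat_lit 4) (nat_lit 536) (nat_lit 428) (nat_lit 236)))) (XT.nd (nat_lit 156) (nat_lit 152) (nat_lit 0) (XT.nd (nat_lit 78) (nat_lit 0) (nat_lit 0) (XT.lf (nat_lit 0) (nat_lit 292468015015) (nat_lit 76) (nat_lit 201666437314) (nat_lit 76) (nat_lit 138213459117) (nat_lit 9) (nat_lit 4) (nat_lit 10) (nat_lit 5) (nat_lit 10) (nat_lit 4) (nat_lit 537) (nat_lit 428) (nat_lit 235)) (XT.lf (nat_lit 0) (nat_lit 446789028833) (nat_lit 76) (nat_lit 138571635781) (nat_lit 76) (nat_lit 75118411698) (nat_lit 9) (nat_lit 4) (nat_lit 10) (nat_lit 5) (nat_lit 10) (nat_lit 4) (nat_lit 538) (nat_lit 428) (nat_lit 234))) (XT.nd (nat_lit 78) (nat_lit 152) (nat_lit 0) (XT.lf (nat_lit 0) (nat_lit 608825036693) (nat_lit 76) (nat_lit 72322623679) (nat_lit 76) (nat_lit 8869165419) (nat_lit 9) (nat_lit 4) (nat_lit 10) (nat_lit 5)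 (nat_lit 10) (nat_lit 4) (nat_lit 539) (nat_lit 428) (nat_lit 233)) (XT.lf (nat_lit 0) (nat_lit 58866886289) (nat_lit 76) (nat_lit 801683259) (nat_lit 152) (nat_lit 661269585832) (nat_lit 7) (nat_lit 5) (nat_lit 8) (nat_lit 5) (nat_lit 9) (nat_lit 4) (nat_lit 540) (nat_lit 428) (nat_lit 232))))) (XT.nd (nat_lit 53898) (nat_lit 0) (nat_lit 9044) (XT.nd (nat_lit 53742) (nat_lit 0) (nat_lit 8968) (XT.nd (nat_lit 78) (nat_lit 0) (nat_lit 0) (XT.lf (nat_lit 0) (nat_lit 133892141058) (nat_lit 152) (nat_lit 545918428645) (nat_lit 0) (nat_lit 73459861353) (nat_lit 7) (nat_lit 5) (nat_lit 9) (nat_lit 4) (nat_lit 7) (nat_lit 4) (nat_lit 541) (nat_lit 428) (nat_lit 231)) (XT.lf (nat_lit 0) (nat_lit 211839548174) (nat_lit 152) (nat_lit 423972063690) (nat_lit 0) (nat_lit 151407075811) (nat_lit 7) (nat_lit 5) (nat_lit 9) (nat_lit 4) (nat_lit 7) (nat_lit 4) (nat_lit 542) (nat_lit 428) (nat_lit 230))) (XT.nd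 (nat_lit 78) (nat_lit 0) (nat_lit 0) (XT.lf (nat_lit 0) (nat_lit 1222714981) (nat_lit 836) (nat_lit 3610448928) (nat_lit 836) (nat_lit 3610448928) (nat_lit 125) (nat_lit 3) (nat_lit 136) (nat_lit 3) (nat_lit 136) (nat_lit 5) (nat_lit 429) (nat_lit 429) (nat_lit 342)) (XT.lf (nat_lit 76) (nat_lit 1087723126) (nat_lit 0) (nat_lit 1664572587) (nat_lit 836) (nat_lit 14544735103) (nat_lit 126) (nat_lit 5) (nat_lit 125) (nat_lit 3) (nat_lit 136) (nat_lit 5) (nat_lit 430) (nat_lit 429) (nat_lit 341)))) (XT.nd (nat_lit 156) (nat_lit 0) (nat_lit 76) (XT.nd (nat_lit 78) (nat_lit 0) (nat_lit 0) (XT.lf (nat_lit 0) (nat_lit 3289326342) (nat_lit 760) (nat_lit 7774730826) (nat_lit 836) (nat_lit 6652533664) (nat_lit 126) (nat_lit 5) (nat_lit 136) (nat_lit 5) (nat_lit 137) (nat_lit 5) (nat_lit 431) (nat_lit 429) (nat_lit 340)) (XT.lf (nat_lit 76) (nat_lit 1080493055) (nat_lit 0) (nat_lit 2802910927) (nat_lit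 836) (nat_lit 14272220520) (nat_lit 127) (nat_lit 5) (nat_lit 126) (nat_lit 5) (nat_lit 137) (nat_lit 5) (nat_lit 432) (nat_lit 429) (nat_lit 339))) (XT.nd (nat_lit 78) (nat_lit 0) (nat_lit 0) (XT.lf (nat_lit 0) (nat_lit 4719335194) (nat_lit 760) (nat_lit 8064451611) (nat_lit 836) (nat_lit 5822220734) (nat_lit 127) (nat_lit 5) (nat_lit 137) (nat_lit 5) (nat_lit 138) (nat_lit 5) (nat_lit 433) (nat_lit 429) (nat_lit 338)) (XT.lf (nat_lit 76) (nat_lit 1386623383) (nat_lit 0) (nat_lit 4265328517) (nat_lit 836) (nat_lit 13424218300) (nat_lit 128) (nat_lit 5) (nat_lit 127) (nat_lit 5) (nat_lit 138) (nat_lit 5) (nat_lit 434) (nat_lit 429) (nat_lit 337))))))))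
noncomputable def xc160 : XT := (XT.nd (nat_lit 2184) (nat_lit 2660) (nat_lit 0) (XT.nd (nat_lit 1092) (nat_lit 2128) (nat_lit 0) (XT.nd (nat_lit 546) (nat_lit 1520) (nat_lit 0) (XT.nd (nat_lit 234) (nat_lit 608) (nat_lit 0) (XT.nd (nat_lit 78) (nat_lit 0) (nat_lit 0) (XT.lf (nat_lit 0) (nat_lit 6830890359) (nat_lit 760) (nat_lit 8057180348) (nat_lit 836) (nat_lit 4671790430) (nat_lit 128) (nat_lit 5) (nat_lit 138) (nat_lit 5) (nat_lit 139) (nat_lit 5) (nat_lit 435) (nat_lit 429) (nat_lit 336)) (XT.nd (nat_lit 78) (nat_lit 0) (nat_lit 76) (XT.lf (nat_lit 76) (nat_lit 2043615452) (nat_lit 0) (nat_lit 6115393566) (nat_lit 836) (nat_lit 11904220402) (nat_lit 129) (nat_lit 5) (nat_lit 128) (nat_lit 5) (nat_lit 139) (nat_lit 5) (nat_lit 436) (nat_lit 429) (nat_lit 335)) (XT.lf (nat_lit 0) (nat_lit 9729422280) (nat_lit 760) (nat_lit 7715476762) (nat_lit 836) (nat_lit 3138076893) (nat_lit 129) (nat_lit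 5) (nat_lit 139) (nat_lit 5) (nat_lit 140) (nat_lit 5) (nat_lit 437) (nat_lit 429) (nat_lit 334)))) (XT.nd (nat_lit 156) (nat_lit 684) (nat_lit 0) (XT.nd (nat_lit 78) (nat_lit 0) (nat_lit 76) (XT.lf (nat_lit 76) (nat_lit 3093936883) (nat_lit 0) (nat_lit 8422370559) (nat_lit 836) (nat_lit 9605508822) (nat_lit 130) (nat_lit 5) (nat_lit 129) (nat_lit 5) (nat_lit 140) (nat_lit 5) (nat_lit 438) (nat_lit 429) (nat_lit 333)) (XT.lf (nat_lit 0) (nat_lit 13531549066) (nat_lit 760) (nat_lit 6997040438) (nat_lit 76) (nat_lit 1152062349) (nat_lit 130) (nat_lit 5) (nat_lit 140) (nat_lit 5) (nat_lit 131) (nat_lit 5) (nat_lit 439) (nat_lit 429) (nat_lit 332))) (XT.nd (nat_lit 78) (nat_lit 0) (nat_lit 0) (XT.lf (nat_lit 0) (nat_lit 4585357755) (nat_lit 760) (nat_lit 11262134400) (nat_lit 836) (nat_lit 6409943772) (nat_lit 120) (nat_lit 5) (nat_lit 130) (nat_lit 5) (nat_lit 131) (nat_lit 5) (nat_lit 440) (nat_lit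 429) (nat_lit 331)) (XT.lf (nat_lit 0) (nat_lit 16981266027) (nat_lit 760) (nat_lit 1407071867) (nat_lit 836) (nat_lit 4469269532) (nat_lit 120) (nat_lit 5) (nat_lit 130) (nat_lit 5) (nat_lit 131) (nat_lit 5) (nat_lit 441) (nat_lit 429) (nat_lit 330))))) (XT.nd (nat_lit 234) (nat_lit 684) (nat_lit 0) (XT.nd (nat_lit 78) (nat_lit 456) (nat_lit 0) (XT.lf (nat_lit 0) (nat_lit 6571327214) (nat_lit 380) (nat_lit 14718152923) (nat_lit 456) (nat_lit 2186647983) (nat_lit 115) (nat_lit 5) (nat_lit 120) (nat_lit 5) (nat_lit 121) (nat_lit 5) (nat_lit 442) (nat_lit 429) (nat_lit 329)) (XT.nd (nat_lit 78) (nat_lit 380) (nat_lit 0) (XT.lf (nat_lit 0) (nat_lit 318812929) (nat_lit 456) (nat_lit 4311928255) (nat_lit 76) (nat_lit 19488901023) (nat_lit 114) (nat_lit 5) (nat_lit 120) (nat_lit 5) (nat_lit 115) (nat_lit 5) (nat_lit 443) (nat_lit 429) (nat_lit 328)) (XT.lf (nat_lit 0) (nat_lit 3106703383) (nat_lit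 456) (nat_lit 15723233659) (nat_lit 76) (nat_lit 5952073389) (nat_lit 109) (nat_lit 5) (nat_lit 115) (nat_lit 5) (nat_lit 110) (nat_lit 5) (nat_lit 444) (nat_lit 429) (nat_lit 327)))) (XT.nd (nat_lit 156) (nat_lit 304) (nat_lit 0) (XT.nd (nat_lit 78) (nat_lit 380) (nat_lit 0) (XT.lf (nat_lit 0) (nat_lit 6176027136) (nat_lit 456) (nat_lit 2311837981) (nat_lit 76) (nat_lit 16982532750) (nat_lit 109) (nat_lit 5) (nat_lit 115) (nat_lit 5) (nat_lit 110) (nat_lit 5) (nat_lit 445) (nat_lit 429) (nat_lit 326)) (XT.lf (nat_lit 0) (nat_lit 9620939903) (nat_lit 456) (nat_lit 14073391684) (nat_lit 76) (nat_lit 2487769558) (nat_lit 104) (nat_lit 5) (nat_lit 110) (nat_lit 5) (nat_lit 105) (nat_lit 5) (nat_lit 446) (nat_lit 429) (nat_lit 325))) (XT.nd (nat_lit 78) (nat_lit 0) (nat_lit 0) (XT.lf (nat_lit 0) (nat_lit 263331213) (nat_lit 304) (nat_lit 13150338758) (nat_lit 380) (nat_lit 13506943517) (nat_lit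 100) (nat_lit 5) (nat_lit 104) (nat_lit 5) (nat_lit 105) (nat_lit 5) (nat_lit 447) (nat_lit 429) (nat_lit 324)) (XT.lf (nat_lit 0) (nat_lit 15797198555) (nat_lit 304) (nat_lit 1829925489) (nat_lit 380) (nat_lit 10057375398) (nat_lit 100) (nat_lit 5) (nat_lit 104) (nat_lit 5) (nat_lit 105) (nat_lit 5) (nat_lit 448) (nat_lit 429) (nat_lit 323)))))) (XT.nd (nat_lit 546) (nat_lit 988) (nat_lit 0) (XT.nd (nat_lit 234) (nat_lit 532) (nat_lit 0) (XT.nd (nat_lit 78) (nat_lit 304) (nat_lit 0) (XT.lf (nat_lit 0) (nat_lit 3570212790) (nat_lit 304) (nat_lit 18686867079) (nat_lit 380) (nat_lit 6219210625) (nat_lit 96) (nat_lit 5) (nat_lit 100) (nat_lit 5) (nat_lit 101) (nat_lit 5) (nat_lit 449) (nat_lit 429) (nat_lit 322)) (XT.nd (nat_lit 78) (nat_lit 304) (nat_lit 0) (XT.lf (nat_lit 0) (nat_lit 20174218788) (nat_lit 304) (nat_lit 7168427838) (nat_lit 380) (nat_lit 1953820963) (nat_lit 96) (nat_lit 5) (nat_lit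 100) (nat_lit 5) (nat_lit 101) (nat_lit 5) (nat_lit 450) (nat_lit 429) (nat_lit 321)) (XT.lf (nat_lit 0) (nat_lit 2636421039) (nat_lit 304) (nat_lit 22581310670) (nat_lit 76) (nat_lit 4928333116) (nat_lit 92) (nat_lit 5) (nat_lit 96) (nat_lit 5) (nat_lit 93) (nat_lit 5) (nat_lit 451) (nat_lit 429) (nat_lit 320)))) (XT.nd (nat_lit 156) (nat_lit 228) (nat_lit 0) (XT.nd (nat_lit 78) (nat_lit 304) (nat_lit 0) (XT.lf (nat_lit 0) (nat_lit 7658710546) (nat_lit 304) (nat_lit 5787775435) (nat_lit 76) (nat_lit 17576646473) (nat_lit 92) (nat_lit 5) (nat_lit 96) (nat_lit 5) (nat_lit 93) (nat_lit 5) (nat_lit 452) (nat_lit 429) (nat_lit 319)) (XT.lf (nat_lit 0) (nat_lit 12229139238) (nat_lit 304) (nat_lit 887867450) (nat_lit 380) (nat_lit 18817803935) (nat_lit 88) (nat_lit 5) (nat_lit 92) (nat_lit 5) (nat_lit 93) (nat_lit 5) (nat_lit 453) (nat_lit 429) (nat_lit 318))) (XT.nd (nat_lit 78) (nat_lit 228) (nat_lit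 0) (XT.lf (nat_lit 0) (nat_lit 19133963662) (nat_lit 380) (nat_lit 1740807680) (nat_lit 76) (nat_lit 12003015739) (nat_lit 88) (nat_lit 5) (nat_lit 93) (nat_lit 5) (nat_lit 89) (nat_lit 5) (nat_lit 454) (nat_lit 429) (nat_lit 317)) (XT.lf (nat_lit 0) (nat_lit 17665679601) (nat_lit 228) (nat_lit 8070839130) (nat_lit 304) (nat_lit 8117157723) (nat_lit 85) (nat_lit 5) (nat_lit 88) (nat_lit 5) (nat_lit 89) (nat_lit 5) (nat_lit 455) (nat_lit 429) (nat_lit 316))))) (XT.nd (nat_lit 234) (nat_lit 456) (nat_lit 0) (XT.nd (nat_lit 78) (nat_lit 304) (nat_lit 0) (XT.lf (nat_lit 0) (nat_lit 3237691862) (nat_lit 228) (nat_lit 29590423262) (nat_lit 304) (nat_lit 2042301017) (nat_lit 82) (nat_lit 5) (nat_lit 85) (nat_lit 5) (nat_lit 86) (nat_lit 5) (nat_lit 456) (nat_lit 429) (nat_lit 315)) (XT.nd (nat_lit 78) (nat_lit 228) (nat_lit 0) (XT.lf (nat_lit 0) (nat_lit 4603027590) (nat_lit 304) (nat_lit 11939774002)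 (nat_lit 76) (nat_lit 19371531632) (nat_lit 81) (nat_lit 5) (nat_lit 85) (nat_lit 5) (nat_lit 82) (nat_lit 5) (nat_lit 457) (nat_lit 429) (nat_lit 314)) (XT.lf (nat_lit 0) (nat_lit 8984612311) (nat_lit 228) (nat_lit 2662472506) (nat_lit 304) (nat_lit 25354933799) (nat_lit 78) (nat_lit 5) (nat_lit 81) (nat_lit 5) (nat_lit 82) (nat_lit 5) (nat_lit 458) (nat_lit 429) (nat_lit 313)))) (XT.nd (nat_lit 156) (nat_lit 228) (nat_lit 0) (XT.nd (nat_lit 78) (nat_lit 228) (nat_lit 0) (XT.lf (nat_lit 0) (nat_lit 19429766456) (nat_lit 304) (nat_lit 6960927923) (nat_lit 76) (nat_lit 11734074078) (nat_lit 78) (nat_lit 5) (nat_lit 82) (nat_lit 5) (nat_lit 79) (nat_lit 5) (nat_lit 459) (nat_lit 429) (nat_lit 312)) (XT.lf (nat_lit 0) (nat_lit 15596879798) (nat_lit 228) (nat_lit 12287025354) (nat_lit 304) (nat_lit 11405635685) (nat_lit 75) (nat_lit 5) (nat_lit 78) (nat_lit 5) (nat_lit 79) (nat_lit 5) (nat_lit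 460) (nat_lit 429) (nat_lit 311))) (XT.nd (nat_lit 78) (nat_lit 228) (nat_lit 0) (XT.lf (nat_lit 0) (nat_lit 36915195096) (nat_lit 304) (nat_lit 1030850830) (nat_lit 76) (nat_lit 2558784832) (nat_lit 75) (nat_lit 5) (nat_lit 79) (nat_lit 5) (nat_lit 76) (nat_lit 5) (nat_lit 461) (nat_lit 429) (nat_lit 310)) (XT.lf (nat_lit 0) (nat_lit 5039285863) (nat_lit 228) (nat_lit 18532502684) (nat_lit 76) (nat_lit 18176998338) (nat_lit 72) (nat_lit 5) (nat_lit 75) (nat_lit 5) (nat_lit 73) (nat_lit 5) (nat_lit 462) (nat_lit 429) (nat_lit 309))))))) (XT.nd (nat_lit 1092) (nat_lit 1140) (nat_lit 0) (XT.nd (nat_lit 546) (nat_lit 760) (nat_lit 0) (XT.nd (nat_lit 234) (nat_lit 380) (nat_lit 0) (XT.nd (nat_lit 78) (nat_lit 152) (nat_lit 0) (XT.lf (nat_lit 0) (nat_lit 5776411901) (nat_lit 228) (nat_lit 8306052403) (nat_lit 304) (nat_lit 28964362866) (nat_lit 69) (nat_lit 5) (nat_lit 72) (nat_lit 5) (nat_lit 73)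 (nat_lit 5) (nat_lit 463) (nat_lit 429) (nat_lit 308)) (XT.nd (nat_lit 78) (nat_lit 152) (nat_lit 0) (XT.lf (nat_lit 0) (nat_lit 24012968879) (nat_lit 304) (nat_lit 12582526554) (nat_lit 76) (nat_lit 7792516613) (nat_lit 69) (nat_lit 5) (nat_lit 73) (nat_lit 5) (nat_lit 70) (nat_lit 5) (nat_lit 464) (nat_lit 429) (nat_lit 307)) (XT.lf (nat_lit 0) (nat_lit 13633367189) (nat_lit 152) (nat_lit 21151449357) (nat_lit 228) (nat_lit 10994199619) (nat_lit 67) (nat_lit 5) (nat_lit 69) (nat_lit 5) (nat_lit 70) (nat_lit 5) (nat_lit 465) (nat_lit 429) (nat_lit 306)))) (XT.nd (nat_lit 156) (nat_lit 152) (nat_lit 0) (XT.nd (nat_lit 78) (nat_lit 228) (nat_lit 0) (XT.lf (nat_lit 0) (nat_lit 41590421112) (nat_lit 152) (nat_lit 4713823719) (nat_lit 228) (nat_lit 924877096) (nat_lit 67) (nat_lit 5) (nat_lit 69) (nat_lit 5) (nat_lit 70) (nat_lit 5) (nat_lit 466) (nat_lit 429) (nat_lit 305)) (XT.lf (nat_lit 0)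 (nat_lit 9894708952) (nat_lit 228) (nat_lit 26165462182) (nat_lit 76) (nat_lit 12656251527) (nat_lit 64) (nat_lit 5) (nat_lit 67) (nat_lit 5) (nat_lit 65) (nat_lit 5) (nat_lit 467) (nat_lit 429) (nat_lit 304))) (XT.nd (nat_lit 78) (nat_lit 0) (nat_lit 0) (XT.lf (nat_lit 0) (nat_lit 2037408226) (nat_lit 152) (nat_lit 19389013124) (nat_lit 228) (nat_lit 28840798270) (nat_lit 62) (nat_lit 5) (nat_lit 64) (nat_lit 5) (nat_lit 65) (nat_lit 5) (nat_lit 468) (nat_lit 429) (nat_lit 303)) (XT.lf (nat_lit 0) (nat_lit 32552577941) (nat_lit 152) (nat_lit 1421439020) (nat_lit 228) (nat_lit 17899575286) (nat_lit 62) (nat_lit 5) (nat_lit 64) (nat_lit 5) (nat_lit 65) (nat_lit 5) (nat_lit 469) (nat_lit 429) (nat_lit 302))))) (XT.nd (nat_lit 234) (nat_lit 380) (nat_lit 0) (XT.nd (nat_lit 78) (nat_lit 228) (nat_lit 0) (XT.lf (nat_lit 0) (nat_lit 11110366761) (nat_lit 152) (nat_lit 36480766350) (nat_lit 228) (nat_lit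 5947044021) (nat_lit 60) (nat_lit 5) (nat_lit 62) (nat_lit 5) (nat_lit 63) (nat_lit 5) (nat_lit 470) (nat_lit 429) (nat_lit 301)) (XT.nd (nat_lit 78) (nat_lit 152) (nat_lit 0) (XT.lf (nat_lit 0) (nat_lit 6743991066) (nat_lit 228) (nat_lit 11673413815) (nat_lit 76) (nat_lit 36845821424) (nat_lit 59) (nat_lit 5) (nat_lit 62) (nat_lit 5) (nat_lit 60) (nat_lit 5) (nat_lit 471) (nat_lit 429) (nat_lit 300)) (XT.lf (nat_lit 0) (nat_lit 20212686164) (nat_lit 228) (nat_lit 35875132706) (nat_lit 76) (nat_lit 964686616) (nat_lit 57) (nat_lit 5) (nat_lit 60) (nat_lit 5) (nat_lit 58) (nat_lit 5) (nat_lit 472) (nat_lit 429) (nat_lit 299)))) (XT.nd (nat_lit 156) (nat_lit 228) (nat_lit 0) (XT.nd (nat_lit 78) (nat_lit 152) (nat_lit 0) (XT.lf (nat_lit 0) (nat_lit 34854231775) (nat_lit 228) (nat_lit 3156427655) (nat_lit 76) (nat_lit 20895618956) (nat_lit 57) (nat_lit 5) (nat_lit 60) (nat_lit 5) (nat_lit 58) (nat_lit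 5) (nat_lit 473) (nat_lit 429) (nat_lit 298)) (XT.lf (nat_lit 0) (nat_lit 32223989675) (nat_lit 152) (nat_lit 18503691090) (nat_lit 228) (nat_lit 10100068385) (nat_lit 55) (nat_lit 5) (nat_lit 57) (nat_lit 5) (nat_lit 58) (nat_lit 5) (nat_lit 474) (nat_lit 429) (nat_lit 297))) (XT.nd (nat_lit 78) (nat_lit 0) (nat_lit 0) (XT.lf (nat_lit 0) (nat_lit 4595463020) (nat_lit 228) (nat_lit 56088669469) (nat_lit 76) (nat_lit 2148031557) (nat_lit 52) (nat_lit 5) (nat_lit 55) (nat_lit 5) (nat_lit 53) (nat_lit 5) (nat_lit 475) (nat_lit 429) (nat_lit 296)) (XT.lf (nat_lit 0) (nat_lit 20478810911) (nat_lit 228) (nat_lit 20543908310) (nat_lit 76) (nat_lit 23866178751) (nat_lit 52) (nat_lit 5) (nat_lit 55) (nat_lit 5) (nat_lit 53) (nat_lit 5) (nat_lit 476) (nat_lit 429) (nat_lit 295)))))) (XT.nd (nat_lit 546) (nat_lit 532) (nat_lit 0) (XT.nd (nat_lit 234) (nat_lit 304) (nat_lit 0) (XT.nd (nat_lit 78) (nat_lit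 152) (nat_lit 0) (XT.lf (nat_lit 0) (nat_lit 17327297945) (nat_lit 152) (nat_lit 20096479218) (nat_lit 228) (nat_lit 29611319313) (nat_lit 50) (nat_lit 5) (nat_lit 52) (nat_lit 5) (nat_lit 53) (nat_lit 5) (nat_lit 477) (nat_lit 429) (nat_lit 294)) (XT.nd (nat_lit 78) (nat_lit 152) (nat_lit 0) (XT.lf (nat_lit 0) (nat_lit 55595858845) (nat_lit 228) (nat_lit 11506304153) (nat_lit 76) (nat_lit 2167448958) (nat_lit 50) (nat_lit 5) (nat_lit 53) (nat_lit 5) (nat_lit 51) (nat_lit 4) (nat_lit 478) (nat_lit 429) (nat_lit 293)) (XT.lf (nat_lit 0) (nat_lit 3758083942) (nat_lit 152) (nat_lit 42431917367) (nat_lit 76) (nat_lit 25383695286) (nat_lit 48) (nat_lit 5) (nat_lit 50) (nat_lit 5) (nat_lit 49) (nat_lit 5) (nat_lit 479) (nat_lit 429) (nat_lit 292)))) (XT.nd (nat_lit 156) (nat_lit 152) (nat_lit 0) (XT.nd (nat_lit 78) (nat_lit 152) (nat_lit 0) (XT.lf (nat_lit 0) (nat_lit 21797153496) (nat_lit 152) (nat_lit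 1994016106) (nat_lit 76) (nat_lit 50180849801) (nat_lit 48) (nat_lit 5) (nat_lit 50) (nat_lit 5) (nat_lit 49) (nat_lit 5) (nat_lit 480) (nat_lit 429) (nat_lit 291)) (XT.lf (nat_lit 0) (nat_lit 41394429571) (nat_lit 228) (nat_lit 34665492589) (nat_lit 76) (nat_lit 397523875) (nat_lit 46) (nat_lit 5) (nat_lit 49) (nat_lit 5) (nat_lit 47) (nat_lit 4) (nat_lit 481) (nat_lit 429) (nat_lit 290))) (XT.nd (nat_lit 78) (nat_lit 76) (nat_lit 0) (XT.lf (nat_lit 0) (nat_lit 8652416187) (nat_lit 76) (nat_lit 53875853146) (nat_lit 152) (nat_lit 16511039992) (nat_lit 45) (nat_lit 5) (nat_lit 46) (nat_lit 5) (nat_lit 47) (nat_lit 4) (nat_lit 482) (nat_lit 429) (nat_lit 289)) (XT.lf (nat_lit 0) (nat_lit 3467503800) (nat_lit 152) (nat_lit 26442102001) (nat_lit 76) (nat_lit 51808643903) (nat_lit 44) (nat_lit 5) (nat_lit 46) (nat_lit 5) (nat_lit 45) (nat_lit 5) (nat_lit 483) (nat_lit 429) (nat_lit 288))))) (XT.nd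 (nat_lit 234) (nat_lit 304) (nat_lit 0) (XT.nd (nat_lit 78) (nat_lit 76) (nat_lit 0) (XT.lf (nat_lit 0) (nat_lit 20066807908) (nat_lit 152) (nat_lit 4133995402) (nat_lit 228) (nat_lit 60301265043) (nat_lit 42) (nat_lit 5) (nat_lit 44) (nat_lit 5) (nat_lit 45) (nat_lit 5) (nat_lit 484) (nat_lit 429) (nat_lit 287)) (XT.nd (nat_lit 78) (nat_lit 76) (nat_lit 0) (XT.lf (nat_lit 0) (nat_lit 46781353425) (nat_lit 228) (nat_lit 17953592696) (nat_lit 76) (nat_lit 22649602795) (nat_lit 42) (nat_lit 5) (nat_lit 45) (nat_lit 5) (nat_lit 43) (nat_lit 4) (nat_lit 485) (nat_lit 429) (nat_lit 286)) (XT.lf (nat_lit 0) (nat_lit 31797605448) (nat_lit 76) (nat_lit 39255095228) (nat_lit 152) (nat_lit 19330364600) (nat_lit 41) (nat_lit 5) (nat_lit 42) (nat_lit 5) (nat_lit 43) (nat_lit 4) (nat_lit 486) (nat_lit 429) (nat_lit 285)))) (XT.nd (nat_lit 156) (nat_lit 76) (nat_lit 0) (XT.nd (nat_lit 78) (nat_lit 152) (nat_lit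 0) (XT.lf (nat_lit 0) (nat_lit 3216488217) (nat_lit 152) (nat_lit 8913064227) (nat_lit 76) (nat_lit 81384278819) (nat_lit 40) (nat_lit 5) (nat_lit 42) (nat_lit 5) (nat_lit 41) (nat_lit 5) (nat_lit 487) (nat_lit 429) (nat_lit 284)) (XT.lf (nat_lit 0) (nat_lit 27202834658) (nat_lit 228) (nat_lit 52681661785) (nat_lit 76) (nat_lit 16852705863) (nat_lit 38) (nat_lit 5) (nat_lit 41) (nat_lit 5) (nat_lit 39) (nat_lit 4) (nat_lit 488) (nat_lit 429) (nat_lit 283))) (XT.nd (nat_lit 78) (nat_lit 76) (nat_lit 0) (XT.lf (nat_lit 0) (nat_lit 52738453169) (nat_lit 228) (nat_lit 337809774) (nat_lit 76) (nat_lit 47027981426) (nat_lit 38) (nat_lit 5) (nat_lit 41) (nat_lit 5) (nat_lit 39) (nat_lit 4) (nat_lit 489) (nat_lit 429) (nat_lit 282)) (XT.lf (nat_lit 0) (nat_lit 56425082687) (nat_lit 76) (nat_lit 24004521712) (nat_lit 152) (nat_lit 23166096745) (nat_lit 37) (nat_lit 5) (nat_lit 38) (nat_lit 5) (nat_lit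 39) (nat_lit 4) (nat_lit 490) (nat_lit 429) (nat_lit 281))))))))
noncomputable def xc161 : XT := (XT.nd (nat_lit 2184) (nat_lit 836) (nat_lit 0) (XT.nd (nat_lit 1092) (nat_lit 608) (nat_lit 0) (XT.nd (nat_lit 546) (nat_lit 380) (nat_lit 0) (XT.nd (nat_lit 234) (nat_lit 228) (nat_lit 0) (XT.nd (nat_lit 78) (nat_lit 76) (nat_lit 0) (XT.lf (nat_lit 0) (nat_lit 2421072760) (nat_lit 152) (nat_lit 98331453182) (nat_lit 76) (nat_lit 6494988613) (nat_lit 35) (nat_lit 5) (nat_lit 37) (nat_lit 5) (nat_lit 36) (nat_lit 4) (nat_lit 491) (nat_lit 429) (nat_lit 280)) (XT.nd (nat_lit 78) (nat_lit 76) (nat_lit 0) (XT.lf (nat_lit 0) (nat_lit 29712354101) (nat_lit 152) (nat_lit 42387753760) (nat_lit 76) (nat_lit 38902658037) (nat_lit 35) (nat_lit 5) (nat_lit 37) (nat_lit 5) (nat_lit 36) (nat_lit 4) (nat_lit 492) (nat_lit 429) (nat_lit 279)) (XT.lf (nat_lit 0) (nat_lit 16889779837) (nat_lit 76) (nat_lit 41740036565)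 (nat_lit 152) (nat_lit 56302882722) (nat_lit 34) (nat_lit 5) (nat_lit 35) (nat_lit 5) (nat_lit 36) (nat_lit 4) (nat_lit 493) (nat_lit 429) (nat_lit 278)))) (XT.nd (nat_lit 156) (nat_lit 152) (nat_lit 0) (XT.nd (nat_lit 78) (nat_lit 76) (nat_lit 0) (XT.lf (nat_lit 0) (nat_lit 80598931357) (nat_lit 76) (nat_lit 9110036366) (nat_lit 152) (nat_lit 29314370648) (nat_lit 34) (nat_lit 5) (nat_lit 35) (nat_lit 5) (nat_lit 36) (nat_lit 4) (nat_lit 494) (nat_lit 429) (nat_lit 277)) (XT.lf (nat_lit 0) (nat_lit 24564821757) (nat_lit 76) (nat_lit 98551494252) (nat_lit 76) (nat_lit 163481748) (nat_lit 33) (nat_lit 4) (nat_lit 34) (nat_lit 5) (nat_lit 34) (nat_lit 4) (nat_lit 495) (nat_lit 429) (nat_lit 276))) (XT.nd (nat_lit 78) (nat_lit 76) (nat_lit 0) (XT.lf (nat_lit 0) (nat_lit 30279304826) (nat_lit 152) (nat_lit 36318123009) (nat_lit 76) (nat_lit 61087446768) (nat_lit 32) (nat_lit 5) (nat_lit 34) (nat_lit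 5) (nat_lit 33) (nat_lit 4) (nat_lit 496) (nat_lit 429) (nat_lit 275)) (XT.lf (nat_lit 0) (nat_lit 30157544625) (nat_lit 76) (nat_lit 32550162717) (nat_lit 152) (nat_lit 69578915542) (nat_lit 31) (nat_lit 5) (nat_lit 32) (nat_lit 5) (nat_lit 33) (nat_lit 4) (nat_lit 497) (nat_lit 429) (nat_lit 274))))) (XT.nd (nat_lit 234) (nat_lit 228) (nat_lit 0) (XT.nd (nat_lit 78) (nat_lit 152) (nat_lit 0) (XT.lf (nat_lit 0) (nat_lit 97430765503) (nat_lit 152) (nat_lit 35933447979) (nat_lit 0) (nat_lit 3720583441) (nat_lit 31) (nat_lit 5) (nat_lit 33) (nat_lit 4) (nat_lit 31) (nat_lit 4) (nat_lit 498) (nat_lit 429) (nat_lit 273)) (XT.nd (nat_lit 78) (nat_lit 76) (nat_lit 0) (XT.lf (nat_lit 0) (nat_lit 34127223779) (nat_lit 76) (nat_lit 100827407310) (nat_lit 76) (nat_lit 7115015964) (nat_lit 30) (nat_lit 4) (nat_lit 31) (nat_lit 5) (nat_lit 31) (nat_lit 4) (nat_lit 499) (nat_lit 429) (nat_lit 272)) (XT.lf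 (nat_lit 0) (nat_lit 26801904601) (nat_lit 152) (nat_lit 38770590994) (nat_lit 76) (nat_lit 81679289458) (nat_lit 29) (nat_lit 5) (nat_lit 31) (nat_lit 5) (nat_lit 30) (nat_lit 4) (nat_lit 500) (nat_lit 429) (nat_lit 271)))) (XT.nd (nat_lit 156) (nat_lit 152) (nat_lit 0) (XT.nd (nat_lit 78) (nat_lit 0) (nat_lit 0) (XT.lf (nat_lit 0) (nat_lit 34855532051) (nat_lit 76) (nat_lit 27862532029) (nat_lit 152) (nat_lit 89942008788) (nat_lit 28) (nat_lit 5) (nat_lit 29) (nat_lit 5) (nat_lit 30) (nat_lit 4) (nat_lit 501) (nat_lit 429) (nat_lit 270)) (XT.lf (nat_lit 0) (nat_lit 101278895882) (nat_lit 152) (nat_lit 44994166643) (nat_lit 0) (nat_lit 12023269426) (nat_lit 28) (nat_lit 5) (nat_lit 30) (nat_lit 4) (nat_lit 28) (nat_lit 4) (nat_lit 502) (nat_lit 429) (nat_lit 269))) (XT.nd (nat_lit 78) (nat_lit 76) (nat_lit 0) (XT.lf (nat_lit 0) (nat_lit 32021752528) (nat_lit 76) (nat_lit 110701126769) (nat_lit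 76) (nat_lit 21443769281) (nat_lit 27) (nat_lit 4) (nat_lit 28) (nat_lit 5) (nat_lit 28) (nat_lit 4) (nat_lit 503) (nat_lit 429) (nat_lit 268)) (XT.lf (nat_lit 0) (nat_lit 16172297254) (nat_lit 152) (nat_lit 56105796719) (nat_lit 76) (nat_lit 98001323750) (nat_lit 26) (nat_lit 5) (nat_lit 28) (nat_lit 5) (nat_lit 27) (nat_lit 4) (nat_lit 504) (nat_lit 429) (nat_lit 267)))))) (XT.nd (nat_lit 546) (nat_lit 304) (nat_lit 0) (XT.nd (nat_lit 234) (nat_lit 152) (nat_lit 0) (XT.nd (nat_lit 78) (nat_lit 76) (nat_lit 0) (XT.lf (nat_lit 0) (nat_lit 24153832130) (nat_lit 76) (nat_lit 31170269488) (nat_lit 152) (nat_lit 121337367637) (nat_lit 25) (nat_lit 5) (nat_lit 26) (nat_lit 5) (nat_lit 27) (nat_lit 4) (nat_lit 505) (nat_lit 429) (nat_lit 266)) (XT.nd (nat_lit 78) (nat_lit 76) (nat_lit 0) (XT.lf (nat_lit 0) (nat_lit 97584976879) (nat_lit 152) (nat_lit 73146592332) (nat_lit 0) (nat_lit 12573480193)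 (nat_lit 25) (nat_lit 5) (nat_lit 27) (nat_lit 4) (nat_lit 25) (nat_lit 4) (nat_lit 506) (nat_lit 429) (nat_lit 265)) (XT.lf (nat_lit 0) (nat_lit 9988381846) (nat_lit 76) (nat_lit 132636002674) (nat_lit 76) (nat_lit 47623149679) (nat_lit 24) (nat_lit 4) (nat_lit 25) (nat_lit 5) (nat_lit 25) (nat_lit 4) (nat_lit 507) (nat_lit 429) (nat_lit 264)))) (XT.nd (nat_lit 156) (nat_lit 76) (nat_lit 0) (XT.nd (nat_lit 78) (nat_lit 76) (nat_lit 0) (XT.lf (nat_lit 0) (nat_lit 99816809394) (nat_lit 76) (nat_lit 91336305504) (nat_lit 76) (nat_lit 6322160786) (nat_lit 24) (nat_lit 4) (nat_lit 25) (nat_lit 5) (nat_lit 25) (nat_lit 4) (nat_lit 508) (nat_lit 429) (nat_lit 263)) (XT.lf (nat_lit 0) (nat_lit 35856866950) (nat_lit 152) (nat_lit 11508797682) (nat_lit 76) (nat_lit 157669890495) (nat_lit 23) (nat_lit 5) (nat_lit 25) (nat_lit 5) (nat_lit 24) (nat_lit 4) (nat_lit 509) (nat_lit 429) (nat_lit 262))) (XT.nd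 (nat_lit 78) (nat_lit 0) (nat_lit 0) (XT.lf (nat_lit 0) (nat_lit 81206563412) (nat_lit 152) (nat_lit 131459970089) (nat_lit 0) (nat_lit 238423829) (nat_lit 22) (nat_lit 5) (nat_lit 24) (nat_lit 4) (nat_lit 22) (nat_lit 4) (nat_lit 510) (nat_lit 429) (nat_lit 261)) (XT.lf (nat_lit 0) (nat_lit 129797027227) (nat_lit 152) (nat_lit 42494313405) (nat_lit 0) (nat_lit 48827824940) (nat_lit 22) (nat_lit 5) (nat_lit 24) (nat_lit 4) (nat_lit 22) (nat_lit 4) (nat_lit 511) (nat_lit 429) (nat_lit 260))))) (XT.nd (nat_lit 234) (nat_lit 76) (nat_lit 0) (XT.nd (nat_lit 78) (nat_lit 152) (nat_lit 0) (XT.lf (nat_lit 0) (nat_lit 52600731848) (nat_lit 76) (nat_lit 129036283384) (nat_lit 76) (nat_lit 48066068997) (nat_lit 21) (nat_lit 4) (nat_lit 22) (nat_lit 5) (nat_lit 22) (nat_lit 4) (nat_lit 512) (nat_lit 429) (nat_lit 259)) (XT.nd (nat_lit 78) (nat_lit 152) (nat_lit 0) (XT.lf (nat_lit 0) (nat_lit 153923429246)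 (nat_lit 76) (nat_lit 82864012967) (nat_lit 76) (nat_lit 1892834677) (nat_lit 21) (nat_lit 4) (nat_lit 22) (nat_lit 5) (nat_lit 22) (nat_lit 4) (nat_lit 513) (nat_lit 429) (nat_lit 258)) (XT.lf (nat_lit 0) (nat_lit 11855670732) (nat_lit 76) (nat_lit 33426166841) (nat_lit 152) (nat_lit 202778926510) (nat_lit 19) (nat_lit 5) (nat_lit 20) (nat_lit 5) (nat_lit 21) (nat_lit 4) (nat_lit 514) (nat_lit 429) (nat_lit 257)))) (XT.nd (nat_lit 156) (nat_lit 76) (nat_lit 0) (XT.nd (nat_lit 78) (nat_lit 0) (nat_lit 0) (XT.lf (nat_lit 0) (nat_lit 96497961234) (nat_lit 152) (nat_lit 141942600076) (nat_lit 0) (nat_lit 19380846393) (nat_lit 19) (nat_lit 5) (nat_lit 21) (nat_lit 4) (nat_lit 19) (nat_lit 4) (nat_lit 515) (nat_lit 429) (nat_lit 256)) (XT.lf (nat_lit 0) (nat_lit 150821736983) (nat_lit 152) (nat_lit 43517175128) (nat_lit 0) (nat_lit 73703829136) (nat_lit 19) (nat_lit 5) (nat_lit 21) (nat_lit 4) (nat_lit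 19) (nat_lit 4) (nat_lit 516) (nat_lit 429) (nat_lit 255))) (XT.nd (nat_lit 78) (nat_lit 0) (nat_lit 0) (XT.lf (nat_lit 0) (nat_lit 61805568041) (nat_lit 76) (nat_lit 147020021090) (nat_lit 76) (nat_lit 69901357999) (nat_lit 18) (nat_lit 4) (nat_lit 19) (nat_lit 5) (nat_lit 19) (nat_lit 4) (nat_lit 517) (nat_lit 429) (nat_lit 254)) (XT.lf (nat_lit 0) (nat_lit 173903183388) (nat_lit 76) (nat_lit 96562382854) (nat_lit 76) (nat_lit 19443000483) (nat_lit 18) (nat_lit 4) (nat_lit 19) (nat_lit 5) (nat_lit 19) (nat_lit 4) (nat_lit 518) (nat_lit 429) (nat_lit 253))))))) (XT.nd (nat_lit 1092) (nat_lit 228) (nat_lit 0) (XT.nd (nat_lit 546) (nat_lit 228) (nat_lit 0) (XT.nd (nat_lit 234) (nat_lit 228) (nat_lit 0) (XT.nd (nat_lit 78) (nat_lit 76) (nat_lit 0) (XT.lf (nat_lit 0) (nat_lit 32463822237) (nat_lit 152) (nat_lit 10569231812) (nat_lit 76) (nat_lit 258590082883) (nat_lit 17) (nat_lit 5) (nat_lit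 19) (nat_lit 5) (nat_lit 18) (nat_lit 4) (nat_lit 519) (nat_lit 429) (nat_lit 252)) (XT.nd (nat_lit 78) (nat_lit 0) (nat_lit 0) (XT.lf (nat_lit 0) (nat_lit 88158839387) (nat_lit 152) (nat_lit 210945811322) (nat_lit 0) (nat_lit 14710534808) (nat_lit 16) (nat_lit 5) (nat_lit 18) (nat_lit 4) (nat_lit 16) (nat_lit 4) (nat_lit 520) (nat_lit 429) (nat_lit 251)) (XT.lf (nat_lit 0) (nat_lit 147525028808) (nat_lit 152) (nat_lit 104971354207) (nat_lit 0) (nat_lit 74076132476) (nat_lit 16) (nat_lit 5) (nat_lit 18) (nat_lit 4) (nat_lit 16) (nat_lit 4) (nat_lit 521) (nat_lit 429) (nat_lit 250)))) (XT.nd (nat_lit 156) (nat_lit 152) (nat_lit 0) (XT.nd (nat_lit 78) (nat_lit 0) (nat_lit 0) (XT.lf (nat_lit 0) (nat_lit 6508300061) (nat_lit 76) (nat_lit 203451918643) (nat_lit 76) (nat_lit 130002458737) (nat_lit 15) (nat_lit 4) (nat_lit 16) (nat_lit 5) (nat_lit 16) (nat_lit 4) (nat_lit 522) (nat_lit 429) (nat_lit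 249)) (XT.lf (nat_lit 0) (nat_lit 127204503026) (nat_lit 76) (nat_lit 150089499702) (nat_lit 76) (nat_lit 76639503058) (nat_lit 15) (nat_lit 4) (nat_lit 16) (nat_lit 5) (nat_lit 16) (nat_lit 4) (nat_lit 523) (nat_lit 429) (nat_lit 248))) (XT.nd (nat_lit 78) (nat_lit 152) (nat_lit 0) (XT.lf (nat_lit 0) (nat_lit 253933799565) (nat_lit 76) (nat_lit 94059813489) (nat_lit 76) (nat_lit 20609305666) (nat_lit 15) (nat_lit 4) (nat_lit 16) (nat_lit 5) (nat_lit 16) (nat_lit 4) (nat_lit 524) (nat_lit 429) (nat_lit 247)) (XT.lf (nat_lit 0) (nat_lit 2474538017) (nat_lit 76) (nat_lit 34562307190) (nat_lit 152) (nat_lit 346937229218) (nat_lit 13) (nat_lit 5) (nat_lit 14) (nat_lit 5) (nat_lit 15) (nat_lit 4) (nat_lit 525) (nat_lit 429) (nat_lit 246))))) (XT.nd (nat_lit 234) (nat_lit 228) (nat_lit 0) (XT.nd (nat_lit 78) (nat_lit 0) (nat_lit 0) (XT.lf (nat_lit 0) (nat_lit 99281429216) (nat_lit 152) (nat_lit 271367369788)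 (nat_lit 0) (nat_lit 29327659393) (nat_lit 13) (nat_lit 5) (nat_lit 15) (nat_lit 4) (nat_lit 13) (nat_lit 4) (nat_lit 526) (nat_lit 429) (nat_lit 245)) (XT.nd (nat_lit 78) (nat_lit 0) (nat_lit 0) (XT.lf (nat_lit 0) (nat_lit 165204043544) (nat_lit 152) (nat_lit 156296774815) (nat_lit 0) (nat_lit 95249853173) (nat_lit 13) (nat_lit 5) (nat_lit 15) (nat_lit 4) (nat_lit 13) (nat_lit 4) (nat_lit 527) (nat_lit 429) (nat_lit 244)) (XT.lf (nat_lit 0) (nat_lit 234422032321) (nat_lit 152) (nat_lit 35474159409) (nat_lit 0) (nat_lit 164467441428) (nat_lit 13) (nat_lit 5) (nat_lit 15) (nat_lit 4) (nat_lit 13) (nat_lit 4) (nat_lit 528) (nat_lit 429) (nat_lit 243)))) (XT.nd (nat_lit 156) (nat_lit 152) (nat_lit 0) (XT.nd (nat_lit 78) (nat_lit 0) (nat_lit 0) (XT.lf (nat_lit 0) (nat_lit 94409854262) (nat_lit 76) (nat_lit 214164348429) (nat_lit 76) (nat_lit 144209376086) (nat_lit 12) (nat_lit 4) (nat_lit 13) (nat_lit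 5) (nat_lit 13) (nat_lit 4) (nat_lit 529) (nat_lit 429) (nat_lit 242)) (XT.lf (nat_lit 0) (nat_lit 232018237072) (nat_lit 76) (nat_lit 155015808526) (nat_lit 76) (nat_lit 85060472898) (nat_lit 12) (nat_lit 4) (nat_lit 13) (nat_lit 5) (nat_lit 13) (nat_lit 4) (nat_lit 530) (nat_lit 429) (nat_lit 241))) (XT.nd (nat_lit 78) (nat_lit 152) (nat_lit 0) (XT.lf (nat_lit 0) (nat_lit 376505692109) (nat_lit 76) (nat_lit 92910514219) (nat_lit 76) (nat_lit 22954832606) (nat_lit 12) (nat_lit 4) (nat_lit 13) (nat_lit 5) (nat_lit 13) (nat_lit 4) (nat_lit 531) (nat_lit 429) (nat_lit 240)) (XT.lf (nat_lit 0) (nat_lit 14354528711) (nat_lit 76) (nat_lit 26772563890) (nat_lit 152) (nat_lit 472490132926) (nat_lit 10) (nat_lit 5) (nat_lit 11) (nat_lit 5) (nat_lit 12) (nat_lit 4) (nat_lit 532) (nat_lit 429) (nat_lit 239)))))) (XT.nd (nat_lit 546) (nat_lit 152) (nat_lit 0) (XT.nd (nat_lit 234) (nat_lit 76) (nat_lit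 0) (XT.nd (nat_lit 78) (nat_lit 0) (nat_lit 0) (XT.lf (nat_lit 0) (nat_lit 110301666900) (nat_lit 152) (nat_lit 381795644320) (nat_lit 0) (nat_lit 43676595525) (nat_lit 10) (nat_lit 5) (nat_lit 12) (nat_lit 4) (nat_lit 10) (nat_lit 4) (nat_lit 533) (nat_lit 429) (nat_lit 238)) (XT.nd (nat_lit 78) (nat_lit 0) (nat_lit 0) (XT.lf (nat_lit 0) (nat_lit 183373243711) (nat_lit 152) (nat_lit 258895376942) (nat_lit 0) (nat_lit 116747887693) (nat_lit 10) (nat_lit 5) (nat_lit 12) (nat_lit 4) (nat_lit 10) (nat_lit 4) (nat_lit 534) (nat_lit 429) (nat_lit 237)) (XT.lf (nat_lit 0) (nat_lit 260097808229) (nat_lit 152) (nat_lit 129851280249) (nat_lit 0) (nat_lit 193472181122) (nat_lit 10) (nat_lit 5) (nat_lit 12) (nat_lit 4) (nat_lit 10) (nat_lit 4) (nat_lit 535) (nat_lit 429) (nat_lit 236)))) (XT.nd (nat_lit 156) (nat_lit 0) (nat_lit 0) (XT.nd (nat_lit 78) (nat_lit 0) (nat_lit 0) (XT.lf (nat_lit 0) (nat_lit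 5830506220) (nat_lit 76) (nat_lit 334918562309) (nat_lit 76) (nat_lit 268292677022) (nat_lit 9) (nat_lit 4) (nat_lit 10) (nat_lit 5) (nat_lit 10) (nat_lit 4) (nat_lit 536) (nat_lit 429) (nat_lit 235)) (XT.lf (nat_lit 0) (nat_lit 152803415771) (nat_lit 76) (nat_lit 274828016838) (nat_lit 76) (nat_lit 208201885665) (nat_lit 9) (nat_lit 4) (nat_lit 10) (nat_lit 5) (nat_lit 10) (nat_lit 4) (nat_lit 537) (nat_lit 429) (nat_lit 234))) (XT.nd (nat_lit 78) (nat_lit 0) (nat_lit 0) (XT.lf (nat_lit 0) (nat_lit 307123914151) (nat_lit 76) (nat_lit 211733473601) (nat_lit 76) (nat_lit 145107108252) (nat_lit 9) (nat_lit 4) (nat_lit 10) (nat_lit 5) (nat_lit 10) (nat_lit 4) (nat_lit 538) (nat_lit 429) (nat_lit 233)) (XT.lf (nat_lit 0) (nat_lit 469159431117) (nat_lit 76) (nat_lit 145484707495) (nat_lit 76) (nat_lit 78858119120) (nat_lit 9) (nat_lit 4) (nat_lit 10) (nat_lit 5) (nat_lit 10) (nat_lit 4) (nat_lit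 539) (nat_lit 429) (nat_lit 232))))) (XT.nd (nat_lit 53976) (nat_lit 0) (nat_lit 8968) (XT.nd (nat_lit 156) (nat_lit 0) (nat_lit 0) (XT.nd (nat_lit 78) (nat_lit 152) (nat_lit 0) (XT.lf (nat_lit 0) (nat_lit 639295765521) (nat_lit 76) (nat_lit 75923983363) (nat_lit 76) (nat_lit 9297182582) (nat_lit 9) (nat_lit 4) (nat_lit 10) (nat_lit 5) (nat_lit 10) (nat_lit 4) (nat_lit 540) (nat_lit 429) (nat_lit 231)) (XT.lf (nat_lit 0) (nat_lit 61839718721) (nat_lit 76) (nat_lit 826974836) (nat_lit 152) (nat_lit 694317634508) (nat_lit 7) (nat_lit 5) (nat_lit 8) (nat_lit 5) (nat_lit 9) (nat_lit 4) (nat_lit 541) (nat_lit 429) (nat_lit 230))) (XT.nd (nat_lit 53742) (nat_lit 0) (nat_lit 8968) (XT.lf (nat_lit 0) (nat_lit 140600963811) (nat_lit 152) (nat_lit 573185786032) (nat_lit 0) (nat_lit 77146491688) (nat_lit 7) (nat_lit 5) (nat_lit 9) (nat_lit 4) (nat_lit 7) (nat_lit 4) (nat_lit 542) (nat_lit 429) (nat_lit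 229)) (XT.lf (nat_lit 0) (nat_lit 1509026935) (nat_lit 836) (nat_lit 3672710061) (nat_lit 836) (nat_lit 3672710061) (nat_lit 125) (nat_lit 3) (nat_lit 136) (nat_lit 3) (nat_lit 136) (nat_lit 5) (nat_lit 430) (nat_lit 430) (nat_lit 340)))) (XT.nd (nat_lit 156) (nat_lit 0) (nat_lit 76) (XT.nd (nat_lit 78) (nat_lit 0) (nat_lit 76) (XT.lf (nat_lit 76) (nat_lit 1374817027) (nat_lit 0) (nat_lit 1947633750) (nat_lit 836) (nat_lit 14817637690) (nat_lit 126) (nat_lit 5) (nat_lit 125) (nat_lit 3) (nat_lit 136) (nat_lit 5) (nat_lit 431) (nat_lit 430) (nat_lit 339)) (XT.lf (nat_lit 0) (nat_lit 3862764404) (nat_lit 760) (nat_lit 7918113480) (nat_lit 836) (nat_lit 6800934972) (nat_lit 126) (nat_lit 5) (nat_lit 136) (nat_lit 5) (nat_lit 137) (nat_lit 5) (nat_lit 432) (nat_lit 430) (nat_lit 338))) (XT.nd (nat_lit 78) (nat_lit 0) (nat_lit 76) (XT.lf (nat_lit 76) (nat_lit 1375914273) (nat_lit 0) (nat_lit 3094925684)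 (nat_lit 836) (nat_lit 14572751119) (nat_lit 127) (nat_lit 5) (nat_lit 126) (nat_lit 5) (nat_lit 137) (nat_lit 5) (nat_lit 433) (nat_lit 430) (nat_lit 337)) (XT.lf (nat_lit 0) (nat_lit 5327582594) (nat_lit 760) (nat_lit 8216643410) (nat_lit 836) (nat_lit 5973323725) (nat_lit 127) (nat_lit 5) (nat_lit 137) (nat_lit 5) (nat_lit 138) (nat_lit 5) (nat_lit 434) (nat_lit 430) (nat_lit 336))))))))
noncomputable def xc162 : XT := (XT.nd (nat_lit 2184) (nat_lit 2888) (nat_lit 0) (XT.nd (nat_lit 1092) (nat_lit 1900) (nat_lit 0) (XT.nd (nat_lit 546) (nat_lit 1520) (nat_lit 0) (XT.nd (nat_lit 234) (nat_lit 532) (nat_lit 0) (XT.nd (nat_lit 78) (nat_lit 0) (nat_lit 76) (XT.lf (nat_lit 76) (nat_lit 1702936450) (nat_lit 0) (nat_lit 4590022116) (nat_lit 836) (nat_lit 13718962401) (nat_lit 128) (nat_lit 5) (nat_lit 127) (nat_lit 5) (nat_lit 138) (nat_lit 5) (nat_lit 435) (nat_lit 430) (nat_lit 335)) (XT.nd (nat_lit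 78) (nat_lit 0) (nat_lit 0) (XT.lf (nat_lit 0) (nat_lit 7512120001) (nat_lit 760) (nat_lit 8205963812) (nat_lit 836) (nat_lit 4802655373) (nat_lit 128) (nat_lit 5) (nat_lit 138) (nat_lit 5) (nat_lit 139) (nat_lit 5) (nat_lit 436) (nat_lit 430) (nat_lit 334)) (XT.lf (nat_lit 76) (nat_lit 2395773786) (nat_lit 0) (nat_lit 6498598175) (nat_lit 836) (nat_lit 12155523780) (nat_lit 129) (nat_lit 5) (nat_lit 128) (nat_lit 5) (nat_lit 139) (nat_lit 5) (nat_lit 437) (nat_lit 430) (nat_lit 333)))) (XT.nd (nat_lit 156) (nat_lit 684) (nat_lit 0) (XT.nd (nat_lit 78) (nat_lit 0) (nat_lit 0) (XT.lf (nat_lit 0) (nat_lit 10526563409) (nat_lit 760) (nat_lit 7846315659) (nat_lit 836) (nat_lit 3223593567) (nat_lit 129) (nat_lit 5) (nat_lit 139) (nat_lit 5) (nat_lit 140) (nat_lit 5) (nat_lit 438) (nat_lit 430) (nat_lit 332)) (XT.lf (nat_lit 76) (nat_lit 3499456814) (nat_lit 0) (nat_lit 8892458256) (nat_lit 836)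 (nat_lit 9770889445) (nat_lit 130) (nat_lit 5) (nat_lit 129) (nat_lit 5) (nat_lit 140) (nat_lit 5) (nat_lit 439) (nat_lit 430) (nat_lit 331))) (XT.nd (nat_lit 78) (nat_lit 760) (nat_lit 0) (XT.lf (nat_lit 0) (nat_lit 14492914815) (nat_lit 760) (nat_lit 7092901798) (nat_lit 76) (nat_lit 1164520848) (nat_lit 130) (nat_lit 5) (nat_lit 140) (nat_lit 5) (nat_lit 131) (nat_lit 5) (nat_lit 440) (nat_lit 430) (nat_lit 330)) (XT.lf (nat_lit 0) (nat_lit 5064519680) (nat_lit 760) (nat_lit 11850475576) (nat_lit 836) (nat_lit 6441453594) (nat_lit 120) (nat_lit 5) (nat_lit 130) (nat_lit 5) (nat_lit 131) (nat_lit 5) (nat_lit 441) (nat_lit 430) (nat_lit 329))))) (XT.nd (nat_lit 234) (nat_lit 1064) (nat_lit 0) (XT.nd (nat_lit 78) (nat_lit 456) (nat_lit 0) (XT.lf (nat_lit 0) (nat_lit 18068323650) (nat_lit 760) (nat_lit 1501458277) (nat_lit 836) (nat_lit 4417506945) (nat_lit 120) (nat_lit 5) (nat_lit 130) (nat_lit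 5) (nat_lit 131) (nat_lit 5) (nat_lit 442) (nat_lit 430) (nat_lit 328)) (XT.nd (nat_lit 78) (nat_lit 76) (nat_lit 0) (XT.lf (nat_lit 0) (nat_lit 7147404486) (nat_lit 380) (nat_lit 15459606300) (nat_lit 456) (nat_lit 2030177985) (nat_lit 115) (nat_lit 5) (nat_lit 120) (nat_lit 5) (nat_lit 121) (nat_lit 5) (nat_lit 443) (nat_lit 430) (nat_lit 327)) (XT.lf (nat_lit 0) (nat_lit 579796490) (nat_lit 456) (nat_lit 4283613481) (nat_lit 76) (nat_lit 20449877917) (nat_lit 114) (nat_lit 5) (nat_lit 120) (nat_lit 5) (nat_lit 115) (nat_lit 5) (nat_lit 444) (nat_lit 430) (nat_lit 326)))) (XT.nd (nat_lit 156) (nat_lit 684) (nat_lit 0) (XT.nd (nat_lit 78) (nat_lit 0) (nat_lit 0) (XT.lf (nat_lit 0) (nat_lit 3499204065) (nat_lit 456) (nat_lit 16257526483) (nat_lit 76) (nat_lit 6252441858) (nat_lit 109) (nat_lit 5) (nat_lit 115) (nat_lit 5) (nat_lit 110) (nat_lit 5) (nat_lit 445) (nat_lit 430) (nat_lit 325))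 (XT.lf (nat_lit 0) (nat_lit 6710700410) (nat_lit 456) (nat_lit 2187554777) (nat_lit 76) (nat_lit 17834292530) (nat_lit 109) (nat_lit 5) (nat_lit 115) (nat_lit 5) (nat_lit 110) (nat_lit 5) (nat_lit 446) (nat_lit 430) (nat_lit 324))) (XT.nd (nat_lit 78) (nat_lit 304) (nat_lit 0) (XT.lf (nat_lit 0) (nat_lit 10321056351) (nat_lit 456) (nat_lit 14530310892) (nat_lit 76) (nat_lit 2628812679) (nat_lit 104) (nat_lit 5) (nat_lit 110) (nat_lit 5) (nat_lit 105) (nat_lit 5) (nat_lit 447) (nat_lit 430) (nat_lit 323)) (XT.lf (nat_lit 0) (nat_lit 519268305) (nat_lit 304) (nat_lit 13777513067) (nat_lit 380) (nat_lit 13959172055) (nat_lit 100) (nat_lit 5) (nat_lit 104) (nat_lit 5) (nat_lit 105) (nat_lit 5) (nat_lit 448) (nat_lit 430) (nat_lit 322)))))) (XT.nd (nat_lit 546) (nat_lit 988) (nat_lit 0) (XT.nd (nat_lit 234) (nat_lit 608) (nat_lit 0) (XT.nd (nat_lit 78) (nat_lit 304) (nat_lit 0) (XT.lf (nat_lit 0)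 (nat_lit 16818268512) (nat_lit 304) (nat_lit 1892524022) (nat_lit 380) (nat_lit 10347750226) (nat_lit 100) (nat_lit 5) (nat_lit 104) (nat_lit 5) (nat_lit 105) (nat_lit 5) (nat_lit 449) (nat_lit 430) (nat_lit 321)) (XT.nd (nat_lit 78) (nat_lit 0) (nat_lit 0) (XT.lf (nat_lit 0) (nat_lit 3985777800) (nat_lit 304) (nat_lit 19580965205) (nat_lit 380) (nat_lit 6323458662) (nat_lit 96) (nat_lit 5) (nat_lit 100) (nat_lit 5) (nat_lit 101) (nat_lit 5) (nat_lit 450) (nat_lit 430) (nat_lit 320)) (XT.lf (nat_lit 0) (nat_lit 21408695795) (nat_lit 304) (nat_lit 7488520441) (nat_lit 380) (nat_lit 1854642970) (nat_lit 96) (nat_lit 5) (nat_lit 100) (nat_lit 5) (nat_lit 101) (nat_lit 5) (nat_lit 451) (nat_lit 430) (nat_lit 319)))) (XT.nd (nat_lit 156) (nat_lit 304) (nat_lit 0) (XT.nd (nat_lit 78) (nat_lit 0) (nat_lit 0) (XT.lf (nat_lit 0) (nat_lit 2953977448) (nat_lit 304) (nat_lit 23473365074) (nat_lit 76) (nat_lit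 5216684446) (nat_lit 92) (nat_lit 5) (nat_lit 96) (nat_lit 5) (nat_lit 93) (nat_lit 5) (nat_lit 452) (nat_lit 430) (nat_lit 318)) (XT.lf (nat_lit 0) (nat_lit 8218536890) (nat_lit 304) (nat_lit 5851439321) (nat_lit 76) (nat_lit 18495416581) (nat_lit 92) (nat_lit 5) (nat_lit 96) (nat_lit 5) (nat_lit 93) (nat_lit 5) (nat_lit 453) (nat_lit 430) (nat_lit 317))) (XT.nd (nat_lit 78) (nat_lit 0) (nat_lit 0) (XT.lf (nat_lit 0) (nat_lit 13062680361) (nat_lit 304) (nat_lit 882111461) (nat_lit 380) (nat_lit 19578113313) (nat_lit 88) (nat_lit 5) (nat_lit 92) (nat_lit 5) (nat_lit 93) (nat_lit 5) (nat_lit 454) (nat_lit 430) (nat_lit 316)) (XT.lf (nat_lit 0) (nat_lit 20255154962) (nat_lit 380) (nat_lit 1608850723) (nat_lit 76) (nat_lit 12649399163) (nat_lit 88) (nat_lit 5) (nat_lit 93) (nat_lit 5) (nat_lit 89) (nat_lit 5) (nat_lit 455) (nat_lit 430) (nat_lit 315))))) (XT.nd (nat_lit 234) (nat_lit 456) (nat_lit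 0) (XT.nd (nat_lit 78) (nat_lit 304) (nat_lit 0) (XT.lf (nat_lit 0) (nat_lit 18764428707) (nat_lit 228) (nat_lit 8418940086) (nat_lit 304) (nat_lit 8354945580) (nat_lit 85) (nat_lit 5) (nat_lit 88) (nat_lit 5) (nat_lit 89) (nat_lit 5) (nat_lit 456) (nat_lit 430) (nat_lit 314)) (XT.nd (nat_lit 78) (nat_lit 76) (nat_lit 0) (XT.lf (nat_lit 0) (nat_lit 3618630840) (nat_lit 228) (nat_lit 31007538393) (nat_lit 304) (nat_lit 1979892729) (nat_lit 82) (nat_lit 5) (nat_lit 85) (nat_lit 5) (nat_lit 86) (nat_lit 5) (nat_lit 457) (nat_lit 430) (nat_lit 313)) (XT.lf (nat_lit 0) (nat_lit 4984852841) (nat_lit 304) (nat_lit 12323085844) (nat_lit 76) (nat_lit 20394488895) (nat_lit 81) (nat_lit 5) (nat_lit 85) (nat_lit 5) (nat_lit 82) (nat_lit 5) (nat_lit 458) (nat_lit 430) (nat_lit 312)))) (XT.nd (nat_lit 156) (nat_lit 228) (nat_lit 0) (XT.nd (nat_lit 78) (nat_lit 0) (nat_lit 0) (XT.lf (nat_lit 0) (nat_lit 9644073384)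 (nat_lit 228) (nat_lit 2733099267) (nat_lit 304) (nat_lit 26467523444) (nat_lit 78) (nat_lit 5) (nat_lit 81) (nat_lit 5) (nat_lit 82) (nat_lit 5) (nat_lit 459) (nat_lit 430) (nat_lit 311)) (XT.lf (nat_lit 0) (nat_lit 20542882725) (nat_lit 304) (nat_lit 7102614168) (nat_lit 76) (nat_lit 12378393567) (nat_lit 78) (nat_lit 5) (nat_lit 82) (nat_lit 5) (nat_lit 79) (nat_lit 5) (nat_lit 460) (nat_lit 430) (nat_lit 310))) (XT.nd (nat_lit 78) (nat_lit 0) (nat_lit 0) (XT.lf (nat_lit 0) (nat_lit 16579755549) (nat_lit 228) (nat_lit 12836398514) (nat_lit 304) (nat_lit 11830927779) (nat_lit 75) (nat_lit 5) (nat_lit 78) (nat_lit 5) (nat_lit 79) (nat_lit 5) (nat_lit 461) (nat_lit 430) (nat_lit 309)) (XT.lf (nat_lit 0) (nat_lit 38893400702) (nat_lit 304) (nat_lit 883390221) (nat_lit 76) (nat_lit 2746627314) (nat_lit 75) (nat_lit 5) (nat_lit 79) (nat_lit 5) (nat_lit 76) (nat_lit 5) (nat_lit 462) (nat_lit 430)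 (nat_lit 308))))))) (XT.nd (nat_lit 1092) (nat_lit 1140) (nat_lit 0) (XT.nd (nat_lit 546) (nat_lit 760) (nat_lit 0) (XT.nd (nat_lit 234) (nat_lit 532) (nat_lit 0) (XT.nd (nat_lit 78) (nat_lit 228) (nat_lit 0) (XT.lf (nat_lit 0) (nat_lit 5422593194) (nat_lit 228) (nat_lit 19258962789) (nat_lit 76) (nat_lit 19148074280) (nat_lit 72) (nat_lit 5) (nat_lit 75) (nat_lit 5) (nat_lit 73) (nat_lit 5) (nat_lit 463) (nat_lit 430) (nat_lit 307)) (XT.nd (nat_lit 78) (nat_lit 0) (nat_lit 0) (XT.lf (nat_lit 0) (nat_lit 6262169057) (nat_lit 228) (nat_lit 8652581802) (nat_lit 304) (nat_lit 30277982062) (nat_lit 69) (nat_lit 5) (nat_lit 72) (nat_lit 5) (nat_lit 73) (nat_lit 5) (nat_lit 464) (nat_lit 430) (nat_lit 306)) (XT.lf (nat_lit 0) (nat_lit 25336700259) (nat_lit 304) (nat_lit 13018987714) (nat_lit 76) (nat_lit 8245544394) (nat_lit 69) (nat_lit 5) (nat_lit 73) (nat_lit 5) (nat_lit 70) (nat_lit 5) (nat_lit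 465) (nat_lit 430) (nat_lit 305)))) (XT.nd (nat_lit 156) (nat_lit 380) (nat_lit 0) (XT.nd (nat_lit 78) (nat_lit 0) (nat_lit 0) (XT.lf (nat_lit 0) (nat_lit 14504593213) (nat_lit 152) (nat_lit 22139645530) (nat_lit 228) (nat_lit 11417694272) (nat_lit 67) (nat_lit 5) (nat_lit 69) (nat_lit 5) (nat_lit 70) (nat_lit 5) (nat_lit 466) (nat_lit 430) (nat_lit 304)) (XT.lf (nat_lit 0) (nat_lit 43850473277) (nat_lit 152) (nat_lit 4883442244) (nat_lit 228) (nat_lit 850915877) (nat_lit 67) (nat_lit 5) (nat_lit 69) (nat_lit 5) (nat_lit 70) (nat_lit 5) (nat_lit 467) (nat_lit 430) (nat_lit 303))) (XT.nd (nat_lit 78) (nat_lit 152) (nat_lit 0) (XT.lf (nat_lit 0) (nat_lit 10504152088) (nat_lit 228) (nat_lit 27287662722) (nat_lit 76) (nat_lit 13354672098) (nat_lit 64) (nat_lit 5) (nat_lit 67) (nat_lit 5) (nat_lit 65) (nat_lit 5) (nat_lit 468) (nat_lit 430) (nat_lit 302)) (XT.lf (nat_lit 0) (nat_lit 2322350036)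 (nat_lit 152) (nat_lit 20287496058) (nat_lit 228) (nat_lit 30165108847) (nat_lit 62) (nat_lit 5) (nat_lit 64) (nat_lit 5) (nat_lit 65) (nat_lit 5) (nat_lit 469) (nat_lit 430) (nat_lit 301))))) (XT.nd (nat_lit 234) (nat_lit 532) (nat_lit 0) (XT.nd (nat_lit 78) (nat_lit 228) (nat_lit 0) (XT.lf (nat_lit 0) (nat_lit 34354560551) (nat_lit 152) (nat_lit 1424922664) (nat_lit 228) (nat_lit 18682430873) (nat_lit 62) (nat_lit 5) (nat_lit 64) (nat_lit 5) (nat_lit 65) (nat_lit 5) (nat_lit 470) (nat_lit 430) (nat_lit 300)) (XT.nd (nat_lit 78) (nat_lit 76) (nat_lit 0) (XT.lf (nat_lit 0) (nat_lit 11841659789) (nat_lit 152) (nat_lit 38234460646) (nat_lit 228) (nat_lit 6133675448) (nat_lit 60) (nat_lit 5) (nat_lit 62) (nat_lit 5) (nat_lit 63) (nat_lit 5) (nat_lit 471) (nat_lit 430) (nat_lit 299)) (XT.lf (nat_lit 0) (nat_lit 7183263969) (nat_lit 228) (nat_lit 12086288187) (nat_lit 76) (nat_lit 38751714949) (nat_lit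 59) (nat_lit 5) (nat_lit 62) (nat_lit 5) (nat_lit 60) (nat_lit 5) (nat_lit 472) (nat_lit 430) (nat_lit 298)))) (XT.nd (nat_lit 156) (nat_lit 380) (nat_lit 0) (XT.nd (nat_lit 78) (nat_lit 0) (nat_lit 0) (XT.lf (nat_lit 0) (nat_lit 21324221660) (nat_lit 228) (nat_lit 37496904817) (nat_lit 76) (nat_lit 1078943179) (nat_lit 57) (nat_lit 5) (nat_lit 60) (nat_lit 5) (nat_lit 58) (nat_lit 5) (nat_lit 473) (nat_lit 430) (nat_lit 297)) (XT.lf (nat_lit 0) (nat_lit 36693039734) (nat_lit 228) (nat_lit 3150454254) (nat_lit 76) (nat_lit 22003278220) (nat_lit 57) (nat_lit 5) (nat_lit 60) (nat_lit 5) (nat_lit 58) (nat_lit 5) (nat_lit 474) (nat_lit 430) (nat_lit 296))) (XT.nd (nat_lit 78) (nat_lit 228) (nat_lit 0) (XT.lf (nat_lit 0) (nat_lit 33996342092) (nat_lit 152) (nat_lit 19361759112) (nat_lit 228) (nat_lit 10506319031) (nat_lit 55) (nat_lit 5) (nat_lit 57) (nat_lit 5) (nat_lit 58) (nat_lit 5) (nat_lit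 475) (nat_lit 430) (nat_lit 295)) (XT.lf (nat_lit 0) (nat_lit 4919863899) (nat_lit 228) (nat_lit 58727797906) (nat_lit 76) (nat_lit 2321365859) (nat_lit 52) (nat_lit 5) (nat_lit 55) (nat_lit 5) (nat_lit 53) (nat_lit 5) (nat_lit 476) (nat_lit 430) (nat_lit 294)))))) (XT.nd (nat_lit 546) (nat_lit 608) (nat_lit 0) (XT.nd (nat_lit 234) (nat_lit 380) (nat_lit 0) (XT.nd (nat_lit 78) (nat_lit 152) (nat_lit 0) (XT.lf (nat_lit 0) (nat_lit 21592873102) (nat_lit 228) (nat_lit 21413670356) (nat_lit 76) (nat_lit 25122280760) (nat_lit 52) (nat_lit 5) (nat_lit 55) (nat_lit 5) (nat_lit 53) (nat_lit 5) (nat_lit 477) (nat_lit 430) (nat_lit 293)) (XT.nd (nat_lit 78) (nat_lit 0) (nat_lit 0) (XT.lf (nat_lit 0) (nat_lit 18348556963) (nat_lit 152) (nat_lit 21034657528) (nat_lit 228) (nat_lit 30999212413) (nat_lit 50) (nat_lit 5) (nat_lit 52) (nat_lit 5) (nat_lit 53) (nat_lit 5) (nat_lit 478) (nat_lit 430) (nat_lit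 292)) (XT.lf (nat_lit 0) (nat_lit 58460688926) (nat_lit 228) (nat_lit 11930878417) (nat_lit 76) (nat_lit 2337261953) (nat_lit 50) (nat_lit 5) (nat_lit 53) (nat_lit 5) (nat_lit 51) (nat_lit 4) (nat_lit 479) (nat_lit 430) (nat_lit 291)))) (XT.nd (nat_lit 156) (nat_lit 228) (nat_lit 0) (XT.nd (nat_lit 78) (nat_lit 0) (nat_lit 0) (XT.lf (nat_lit 0) (nat_lit 4030667558) (nat_lit 152) (nat_lit 44402393371) (nat_lit 76) (nat_lit 26715076183) (nat_lit 48) (nat_lit 5) (nat_lit 50) (nat_lit 5) (nat_lit 49) (nat_lit 5) (nat_lit 480) (nat_lit 430) (nat_lit 290)) (XT.lf (nat_lit 0) (nat_lit 22967658236) (nat_lit 152) (nat_lit 1949793230) (nat_lit 76) (nat_lit 52749126704) (nat_lit 48) (nat_lit 5) (nat_lit 50) (nat_lit 5) (nat_lit 49) (nat_lit 5) (nat_lit 481) (nat_lit 430) (nat_lit 289))) (XT.nd (nat_lit 78) (nat_lit 76) (nat_lit 0) (XT.lf (nat_lit 0) (nat_lit 43544145712) (nat_lit 228) (nat_lit 36254181754)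 (nat_lit 76) (nat_lit 477981757) (nat_lit 46) (nat_lit 5) (nat_lit 49) (nat_lit 5) (nat_lit 47) (nat_lit 4) (nat_lit 482) (nat_lit 430) (nat_lit 288)) (XT.lf (nat_lit 0) (nat_lit 9227290438) (nat_lit 76) (nat_lit 56505798730) (nat_lit 152) (nat_lit 17254256372) (nat_lit 45) (nat_lit 5) (nat_lit 46) (nat_lit 5) (nat_lit 47) (nat_lit 4) (nat_lit 483) (nat_lit 430) (nat_lit 287))))) (XT.nd (nat_lit 312) (nat_lit 304) (nat_lit 0) (XT.nd (nat_lit 156) (nat_lit 76) (nat_lit 0) (XT.nd (nat_lit 78) (nat_lit 152) (nat_lit 0) (XT.lf (nat_lit 0) (nat_lit 3716784100) (nat_lit 152) (nat_lit 27626209765) (nat_lit 76) (nat_lit 54457364966) (nat_lit 44) (nat_lit 5) (nat_lit 46) (nat_lit 5) (nat_lit 45) (nat_lit 5) (nat_lit 484) (nat_lit 430) (nat_lit 286)) (XT.lf (nat_lit 0) (nat_lit 21205919876) (nat_lit 152) (nat_lit 4279333955) (nat_lit 228) (nat_lit 63238189704) (nat_lit 42) (nat_lit 5) (nat_lit 44) (nat_lit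 5) (nat_lit 45) (nat_lit 5) (nat_lit 485) (nat_lit 430) (nat_lit 285))) (XT.nd (nat_lit 78) (nat_lit 76) (nat_lit 0) (XT.lf (nat_lit 0) (nat_lit 49192200502) (nat_lit 228) (nat_lit 18719327771) (nat_lit 76) (nat_lit 23838651768) (nat_lit 42) (nat_lit 5) (nat_lit 45) (nat_lit 5) (nat_lit 43) (nat_lit 4) (nat_lit 486) (nat_lit 430) (nat_lit 284)) (XT.lf (nat_lit 0) (nat_lit 33517302142) (nat_lit 76) (nat_lit 41158421706) (nat_lit 152) (nat_lit 20222968286) (nat_lit 41) (nat_lit 5) (nat_lit 42) (nat_lit 5) (nat_lit 43) (nat_lit 4) (nat_lit 487) (nat_lit 430) (nat_lit 283)))) (XT.nd (nat_lit 156) (nat_lit 76) (nat_lit 0) (XT.nd (nat_lit 78) (nat_lit 152) (nat_lit 0) (XT.lf (nat_lit 0) (nat_lit 3445454358) (nat_lit 152) (nat_lit 9232823329) (nat_lit 76) (nat_lit 85507831703) (nat_lit 40) (nat_lit 5) (nat_lit 42) (nat_lit 5) (nat_lit 41) (nat_lit 5) (nat_lit 488) (nat_lit 430) (nat_lit 282)) (XT.lf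 (nat_lit 0) (nat_lit 28630697577) (nat_lit 228) (nat_lit 55189424173) (nat_lit 76) (nat_lit 17750548565) (nat_lit 38) (nat_lit 5) (nat_lit 41) (nat_lit 5) (nat_lit 39) (nat_lit 4) (nat_lit 489) (nat_lit 430) (nat_lit 281))) (XT.nd (nat_lit 78) (nat_lit 76) (nat_lit 0) (XT.lf (nat_lit 0) (nat_lit 55439872195) (nat_lit 228) (nat_lit 234394833) (nat_lit 76) (nat_lit 49431958983) (nat_lit 38) (nat_lit 5) (nat_lit 41) (nat_lit 5) (nat_lit 39) (nat_lit 4) (nat_lit 490) (nat_lit 430) (nat_lit 280)) (XT.lf (nat_lit 0) (nat_lit 59364701841) (nat_lit 76) (nat_lit 25149655899) (nat_lit 152) (nat_lit 24257959320) (nat_lit 37) (nat_lit 5) (nat_lit 38) (nat_lit 5) (nat_lit 39) (nat_lit 4) (nat_lit 491) (nat_lit 430) (nat_lit 279))))))))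
noncomputable def xc163 : XT := (XT.nd (nat_lit 2184) (nat_lit 684) (nat_lit 0) (XT.nd (nat_lit 1092) (nat_lit 608) (nat_lit 0) (XT.nd (nat_lit 546) (nat_lit 380) (nat_lit 0) (XT.nd (nat_lit 234) (nat_lit 228) (nat_lit 0) (XT.nd (nat_lit 78) (nat_lit 76) (nat_lit 0) (XT.lf (nat_lit 0) (nat_lit 2606096109) (nat_lit 152) (nat_lit 103127178073) (nat_lit 76) (nat_lit 6873412640) (nat_lit 35) (nat_lit 5) (nat_lit 37) (nat_lit 5) (nat_lit 36) (nat_lit 4) (nat_lit 492) (nat_lit 430) (nat_lit 278)) (XT.nd (nat_lit 78) (nat_lit 76) (nat_lit 0) (XT.lf (nat_lit 0) (nat_lit 31258895341) (nat_lit 152) (nat_lit 44392048335) (nat_lit 76) (nat_lit 40898909602) (nat_lit 35) (nat_lit 5) (nat_lit 37) (nat_lit 5) (nat_lit 36) (nat_lit 4) (nat_lit 493) (nat_lit 430) (nat_lit 277)) (XT.lf (nat_lit 0) (nat_lit 17847505602) (nat_lit 76) (nat_lit 43773591978) (nat_lit 152) (nat_lit 59055242470) (nat_lit 34) (nat_lit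 5) (nat_lit 35) (nat_lit 5) (nat_lit 36) (nat_lit 4) (nat_lit 494) (nat_lit 430) (nat_lit 276)))) (XT.nd (nat_lit 156) (nat_lit 152) (nat_lit 0) (XT.nd (nat_lit 78) (nat_lit 76) (nat_lit 0) (XT.lf (nat_lit 0) (nat_lit 84736722469) (nat_lit 76) (nat_lit 9514636836) (nat_lit 152) (nat_lit 30720294526) (nat_lit 34) (nat_lit 5) (nat_lit 35) (nat_lit 5) (nat_lit 36) (nat_lit 4) (nat_lit 495) (nat_lit 430) (nat_lit 275)) (XT.lf (nat_lit 0) (nat_lit 25901191533) (nat_lit 76) (nat_lit 103427616954) (nat_lit 76) (nat_lit 112141231) (nat_lit 33) (nat_lit 4) (nat_lit 34) (nat_lit 5) (nat_lit 34) (nat_lit 4) (nat_lit 496) (nat_lit 430) (nat_lit 274))) (XT.nd (nat_lit 78) (nat_lit 76) (nat_lit 0) (XT.lf (nat_lit 0) (nat_lit 31848136511) (nat_lit 152) (nat_lit 38029231612) (nat_lit 76) (nat_lit 64189003177) (nat_lit 32) (nat_lit 5) (nat_lit 34) (nat_lit 5) (nat_lit 33) (nat_lit 4) (nat_lit 497) (nat_lit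 430) (nat_lit 273)) (XT.lf (nat_lit 0) (nat_lit 31768529121) (nat_lit 76) (nat_lit 34128427137) (nat_lit 152) (nat_lit 73001301057) (nat_lit 31) (nat_lit 5) (nat_lit 32) (nat_lit 5) (nat_lit 33) (nat_lit 4) (nat_lit 498) (nat_lit 430) (nat_lit 272))))) (XT.nd (nat_lit 234) (nat_lit 228) (nat_lit 0) (XT.nd (nat_lit 78) (nat_lit 152) (nat_lit 0) (XT.lf (nat_lit 0) (nat_lit 102354334617) (nat_lit 152) (nat_lit 37630086906) (nat_lit 0) (nat_lit 3952010337) (nat_lit 31) (nat_lit 5) (nat_lit 33) (nat_lit 4) (nat_lit 31) (nat_lit 4) (nat_lit 499) (nat_lit 430) (nat_lit 271)) (XT.nd (nat_lit 78) (nat_lit 76) (nat_lit 0) (XT.lf (nat_lit 0) (nat_lit 35932004997) (nat_lit 76) (nat_lit 105821447440) (nat_lit 76) (nat_lit 7417119273) (nat_lit 30) (nat_lit 4) (nat_lit 31) (nat_lit 5) (nat_lit 31) (nat_lit 4) (nat_lit 500) (nat_lit 430) (nat_lit 270)) (XT.lf (nat_lit 0) (nat_lit 28191457388) (nat_lit 152)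 (nat_lit 40613748985) (nat_lit 76) (nat_lit 85806692147) (nat_lit 29) (nat_lit 5) (nat_lit 31) (nat_lit 5) (nat_lit 30) (nat_lit 4) (nat_lit 501) (nat_lit 430) (nat_lit 269)))) (XT.nd (nat_lit 156) (nat_lit 152) (nat_lit 0) (XT.nd (nat_lit 78) (nat_lit 0) (nat_lit 0) (XT.lf (nat_lit 0) (nat_lit 36692141962) (nat_lit 76) (nat_lit 29210392758) (nat_lit 152) (nat_lit 94388110650) (nat_lit 28) (nat_lit 5) (nat_lit 29) (nat_lit 5) (nat_lit 30) (nat_lit 4) (nat_lit 502) (nat_lit 430) (nat_lit 268)) (XT.lf (nat_lit 0) (nat_lit 106389768450) (nat_lit 152) (nat_lit 47152867620) (nat_lit 0) (nat_lit 12666163452) (nat_lit 28) (nat_lit 5) (nat_lit 30) (nat_lit 4) (nat_lit 28) (nat_lit 4) (nat_lit 503) (nat_lit 430) (nat_lit 267))) (XT.nd (nat_lit 78) (nat_lit 76) (nat_lit 0) (XT.lf (nat_lit 0) (nat_lit 33712379648) (nat_lit 76) (nat_lit 116192734694) (nat_lit 76) (nat_lit 22467559598) (nat_lit 27) (nat_lit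 4) (nat_lit 28) (nat_lit 5) (nat_lit 28) (nat_lit 4) (nat_lit 504) (nat_lit 430) (nat_lit 266)) (XT.lf (nat_lit 0) (nat_lit 17025530311) (nat_lit 152) (nat_lit 58824333288) (nat_lit 76) (nat_lit 102941291821) (nat_lit 26) (nat_lit 5) (nat_lit 28) (nat_lit 5) (nat_lit 27) (nat_lit 4) (nat_lit 505) (nat_lit 430) (nat_lit 265)))))) (XT.nd (nat_lit 546) (nat_lit 304) (nat_lit 0) (XT.nd (nat_lit 234) (nat_lit 152) (nat_lit 0) (XT.nd (nat_lit 78) (nat_lit 76) (nat_lit 0) (XT.lf (nat_lit 0) (nat_lit 25446877757) (nat_lit 76) (nat_lit 32687255076) (nat_lit 152) (nat_lit 127358216407) (nat_lit 25) (nat_lit 5) (nat_lit 26) (nat_lit 5) (nat_lit 27) (nat_lit 4) (nat_lit 506) (nat_lit 430) (nat_lit 264)) (XT.nd (nat_lit 78) (nat_lit 76) (nat_lit 0) (XT.lf (nat_lit 0) (nat_lit 102506582390) (nat_lit 152) (nat_lit 76721160871) (nat_lit 0) (nat_lit 13240438712) (nat_lit 25) (nat_lit 5) (nat_lit 27) (nat_lit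 4) (nat_lit 25) (nat_lit 4) (nat_lit 507) (nat_lit 430) (nat_lit 263)) (XT.lf (nat_lit 0) (nat_lit 10569227160) (nat_lit 76) (nat_lit 139227987561) (nat_lit 76) (nat_lit 49960613671) (nat_lit 24) (nat_lit 4) (nat_lit 25) (nat_lit 5) (nat_lit 25) (nat_lit 4) (nat_lit 508) (nat_lit 430) (nat_lit 262)))) (XT.nd (nat_lit 156) (nat_lit 76) (nat_lit 0) (XT.nd (nat_lit 78) (nat_lit 76) (nat_lit 0) (XT.lf (nat_lit 0) (nat_lit 104885198646) (nat_lit 76) (nat_lit 95865201497) (nat_lit 76) (nat_lit 6596655975) (nat_lit 24) (nat_lit 4) (nat_lit 25) (nat_lit 5) (nat_lit 25) (nat_lit 4) (nat_lit 509) (nat_lit 430) (nat_lit 261)) (XT.lf (nat_lit 0) (nat_lit 37688073135) (nat_lit 152) (nat_lit 12009111433) (nat_lit 76) (nat_lit 165588228472) (nat_lit 23) (nat_lit 5) (nat_lit 25) (nat_lit 5) (nat_lit 24) (nat_lit 4) (nat_lit 510) (nat_lit 430) (nat_lit 260))) (XT.nd (nat_lit 78) (nat_lit 0) (nat_lit 0) (XT.lf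 (nat_lit 0) (nat_lit 85305147193) (nat_lit 152) (nat_lit 137957733615) (nat_lit 0) (nat_lit 285409988) (nat_lit 22) (nat_lit 5) (nat_lit 24) (nat_lit 4) (nat_lit 22) (nat_lit 4) (nat_lit 511) (nat_lit 430) (nat_lit 259)) (XT.lf (nat_lit 0) (nat_lit 136323312503) (nat_lit 152) (nat_lit 44547376715) (nat_lit 0) (nat_lit 51302611394) (nat_lit 22) (nat_lit 5) (nat_lit 24) (nat_lit 4) (nat_lit 22) (nat_lit 4) (nat_lit 512) (nat_lit 430) (nat_lit 258))))) (XT.nd (nat_lit 234) (nat_lit 76) (nat_lit 0) (XT.nd (nat_lit 78) (nat_lit 152) (nat_lit 0) (XT.lf (nat_lit 0) (nat_lit 55301265118) (nat_lit 76) (nat_lit 135453400493) (nat_lit 76) (nat_lit 50431781380) (nat_lit 21) (nat_lit 4) (nat_lit 22) (nat_lit 5) (nat_lit 22) (nat_lit 4) (nat_lit 513) (nat_lit 430) (nat_lit 257)) (XT.nd (nat_lit 78) (nat_lit 152) (nat_lit 0) (XT.lf (nat_lit 0) (nat_lit 161686740401) (nat_lit 76) (nat_lit 86974168797) (nat_lit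 76) (nat_lit 1951675395) (nat_lit 21) (nat_lit 4) (nat_lit 22) (nat_lit 5) (nat_lit 22) (nat_lit 4) (nat_lit 514) (nat_lit 430) (nat_lit 256)) (XT.lf (nat_lit 0) (nat_lit 12515639748) (nat_lit 76) (nat_lit 35064343571) (nat_lit 152) (nat_lit 212882115005) (nat_lit 19) (nat_lit 5) (nat_lit 20) (nat_lit 5) (nat_lit 21) (nat_lit 4) (nat_lit 515) (nat_lit 430) (nat_lit 255)))) (XT.nd (nat_lit 156) (nat_lit 76) (nat_lit 0) (XT.nd (nat_lit 78) (nat_lit 0) (nat_lit 0) (XT.lf (nat_lit 0) (nat_lit 101355784195) (nat_lit 152) (nat_lit 148974613732) (nat_lit 0) (nat_lit 20380432706) (nat_lit 19) (nat_lit 5) (nat_lit 21) (nat_lit 4) (nat_lit 19) (nat_lit 4) (nat_lit 516) (nat_lit 430) (nat_lit 254)) (XT.lf (nat_lit 0) (nat_lit 158394180880) (nat_lit 152) (nat_lit 45631018316) (nat_lit 0) (nat_lit 77418110111) (nat_lit 19) (nat_lit 5) (nat_lit 21) (nat_lit 4) (nat_lit 19) (nat_lit 4) (nat_lit 517) (nat_lit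 430) (nat_lit 253))) (XT.nd (nat_lit 78) (nat_lit 0) (nat_lit 0) (XT.lf (nat_lit 0) (nat_lit 64956861761) (nat_lit 76) (nat_lit 154340823302) (nat_lit 76) (nat_lit 73364067504) (nat_lit 18) (nat_lit 4) (nat_lit 19) (nat_lit 5) (nat_lit 19) (nat_lit 4) (nat_lit 518) (nat_lit 430) (nat_lit 252)) (XT.lf (nat_lit 0) (nat_lit 182656452384) (nat_lit 76) (nat_lit 101361741194) (nat_lit 76) (nat_lit 20384332988) (nat_lit 18) (nat_lit 4) (nat_lit 19) (nat_lit 5) (nat_lit 19) (nat_lit 4) (nat_lit 519) (nat_lit 430) (nat_lit 251))))))) (XT.nd (nat_lit 1092) (nat_lit 76) (nat_lit 0) (XT.nd (nat_lit 546) (nat_lit 228) (nat_lit 0) (XT.nd (nat_lit 234) (nat_lit 228) (nat_lit 0) (XT.nd (nat_lit 78) (nat_lit 76) (nat_lit 0) (XT.lf (nat_lit 0) (nat_lit 34115423983) (nat_lit 152) (nat_lit 11041410380) (nat_lit 76) (nat_lit 271546037937) (nat_lit 17) (nat_lit 5) (nat_lit 19) (nat_lit 5) (nat_lit 18) (nat_lit 4)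 (nat_lit 520) (nat_lit 430) (nat_lit 250)) (XT.nd (nat_lit 78) (nat_lit 0) (nat_lit 0) (XT.lf (nat_lit 0) (nat_lit 92595132283) (nat_lit 152) (nat_lit 221436758255) (nat_lit 0) (nat_lit 15472635806) (nat_lit 16) (nat_lit 5) (nat_lit 18) (nat_lit 4) (nat_lit 16) (nat_lit 4) (nat_lit 521) (nat_lit 430) (nat_lit 249)) (XT.lf (nat_lit 0) (nat_lit 154928281130) (nat_lit 152) (nat_lit 110166261315) (nat_lit 0) (nat_lit 77805247916) (nat_lit 16) (nat_lit 5) (nat_lit 18) (nat_lit 4) (nat_lit 16) (nat_lit 4) (nat_lit 522) (nat_lit 430) (nat_lit 248)))) (XT.nd (nat_lit 156) (nat_lit 152) (nat_lit 0) (XT.nd (nat_lit 78) (nat_lit 0) (nat_lit 0) (XT.lf (nat_lit 0) (nat_lit 6886510172) (nat_lit 76) (nat_lit 213598258873) (nat_lit 76) (nat_lit 136474714480) (nat_lit 15) (nat_lit 4) (nat_lit 16) (nat_lit 5) (nat_lit 16) (nat_lit 4) (nat_lit 523) (nat_lit 430) (nat_lit 247)) (XT.lf (nat_lit 0) (nat_lit 133615009233)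 (nat_lit 76) (nat_lit 157568969256) (nat_lit 76) (nat_lit 80444938026) (nat_lit 15) (nat_lit 4) (nat_lit 16) (nat_lit 5) (nat_lit 16) (nat_lit 4) (nat_lit 524) (nat_lit 430) (nat_lit 246))) (XT.nd (nat_lit 78) (nat_lit 152) (nat_lit 0) (XT.lf (nat_lit 0) (nat_lit 266678376263) (nat_lit 76) (nat_lit 98738989467) (nat_lit 76) (nat_lit 21614494583) (nat_lit 15) (nat_lit 4) (nat_lit 16) (nat_lit 5) (nat_lit 16) (nat_lit 4) (nat_lit 525) (nat_lit 430) (nat_lit 245)) (XT.lf (nat_lit 0) (nat_lit 2646175920) (nat_lit 76) (nat_lit 36266561825) (nat_lit 152) (nat_lit 364258837215) (nat_lit 13) (nat_lit 5) (nat_lit 14) (nat_lit 5) (nat_lit 15) (nat_lit 4) (nat_lit 526) (nat_lit 430) (nat_lit 244))))) (XT.nd (nat_lit 234) (nat_lit 228) (nat_lit 0) (XT.nd (nat_lit 78) (nat_lit 0) (nat_lit 0) (XT.lf (nat_lit 0) (nat_lit 104268760496) (nat_lit 152) (nat_lit 284889317652) (nat_lit 0) (nat_lit 30816039536)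 (nat_lit 13) (nat_lit 5) (nat_lit 15) (nat_lit 4) (nat_lit 13) (nat_lit 4) (nat_lit 527) (nat_lit 430) (nat_lit 243)) (XT.nd (nat_lit 78) (nat_lit 0) (nat_lit 0) (XT.lf (nat_lit 0) (nat_lit 173486397930) (nat_lit 152) (nat_lit 164067403437) (nat_lit 0) (nat_lit 100033295521) (nat_lit 13) (nat_lit 5) (nat_lit 15) (nat_lit 4) (nat_lit 13) (nat_lit 4) (nat_lit 528) (nat_lit 430) (nat_lit 242)) (XT.lf (nat_lit 0) (nat_lit 246164231279) (nat_lit 152) (nat_lit 37205762504) (nat_lit 0) (nat_lit 172710765584) (nat_lit 13) (nat_lit 5) (nat_lit 15) (nat_lit 4) (nat_lit 13) (nat_lit 4) (nat_lit 529) (nat_lit 430) (nat_lit 241)))) (XT.nd (nat_lit 156) (nat_lit 152) (nat_lit 0) (XT.nd (nat_lit 78) (nat_lit 0) (nat_lit 0) (XT.lf (nat_lit 0) (nat_lit 99171772739) (nat_lit 76) (nat_lit 224851879565) (nat_lit 76) (nat_lit 151398067884) (nat_lit 12) (nat_lit 4) (nat_lit 13) (nat_lit 5) (nat_lit 13) (nat_lit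 4) (nat_lit 530) (nat_lit 430) (nat_lit 240)) (XT.lf (nat_lit 0) (nat_lit 243658602034) (nat_lit 76) (nat_lit 162746897728) (nat_lit 76) (nat_lit 89292756537) (nat_lit 12) (nat_lit 4) (nat_lit 13) (nat_lit 5) (nat_lit 13) (nat_lit 4) (nat_lit 531) (nat_lit 430) (nat_lit 239))) (XT.nd (nat_lit 78) (nat_lit 152) (nat_lit 0) (XT.lf (nat_lit 0) (nat_lit 395368551104) (nat_lit 76) (nat_lit 97537276859) (nat_lit 76) (nat_lit 24082821849) (nat_lit 12) (nat_lit 4) (nat_lit 13) (nat_lit 5) (nat_lit 13) (nat_lit 4) (nat_lit 532) (nat_lit 430) (nat_lit 238)) (XT.lf (nat_lit 0) (nat_lit 15109845971) (nat_lit 76) (nat_lit 28092397861) (nat_lit 152) (nat_lit 496094902687) (nat_lit 10) (nat_lit 5) (nat_lit 11) (nat_lit 5) (nat_lit 12) (nat_lit 4) (nat_lit 533) (nat_lit 430) (nat_lit 237)))))) (XT.nd (nat_lit 546) (nat_lit 0) (nat_lit 0) (XT.nd (nat_lit 234) (nat_lit 76) (nat_lit 0) (XT.nd (nat_lit 78) (nat_lit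 0) (nat_lit 0) (XT.lf (nat_lit 0) (nat_lit 115834931226) (nat_lit 152) (nat_lit 400849009698) (nat_lit 0) (nat_lit 45877751675) (nat_lit 10) (nat_lit 5) (nat_lit 12) (nat_lit 4) (nat_lit 10) (nat_lit 4) (nat_lit 534) (nat_lit 430) (nat_lit 236)) (XT.nd (nat_lit 78) (nat_lit 0) (nat_lit 0) (XT.lf (nat_lit 0) (nat_lit 192559221117) (nat_lit 152) (nat_lit 271805463087) (nat_lit 0) (nat_lit 122601783386) (nat_lit 10) (nat_lit 5) (nat_lit 12) (nat_lit 4) (nat_lit 10) (nat_lit 4) (nat_lit 535) (nat_lit 430) (nat_lit 235)) (XT.lf (nat_lit 0) (nat_lit 273119189327) (nat_lit 152) (nat_lit 136310813116) (nat_lit 0) (nat_lit 203161505709) (nat_lit 10) (nat_lit 5) (nat_lit 12) (nat_lit 4) (nat_lit 10) (nat_lit 4) (nat_lit 536) (nat_lit 430) (nat_lit 234)))) (XT.nd (nat_lit 156) (nat_lit 0) (nat_lit 0) (XT.nd (nat_lit 78) (nat_lit 0) (nat_lit 0) (XT.lf (nat_lit 0) (nat_lit 6154529916) (nat_lit 76) (nat_lit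 351648204846) (nat_lit 76) (nat_lit 281690287052) (nat_lit 9) (nat_lit 4) (nat_lit 10) (nat_lit 5) (nat_lit 10) (nat_lit 4) (nat_lit 537) (nat_lit 430) (nat_lit 233)) (XT.lf (nat_lit 0) (nat_lit 160474537402) (nat_lit 76) (nat_lit 288553907606) (nat_lit 76) (nat_lit 218595766786) (nat_lit 9) (nat_lit 4) (nat_lit 10) (nat_lit 5) (nat_lit 10) (nat_lit 4) (nat_lit 538) (nat_lit 430) (nat_lit 232))) (XT.nd (nat_lit 78) (nat_lit 0) (nat_lit 0) (XT.lf (nat_lit 0) (nat_lit 322509586851) (nat_lit 76) (nat_lit 222305375782) (nat_lit 76) (nat_lit 152347022557) (nat_lit 9) (nat_lit 4) (nat_lit 10) (nat_lit 5) (nat_lit 10) (nat_lit 4) (nat_lit 539) (nat_lit 430) (nat_lit 231)) (XT.lf (nat_lit 0) (nat_lit 492645476000) (nat_lit 76) (nat_lit 152744874775) (nat_lit 76) (nat_lit 82786319259) (nat_lit 9) (nat_lit 4) (nat_lit 10) (nat_lit 5) (nat_lit 10) (nat_lit 4) (nat_lit 540) (nat_lit 430) (nat_lit 230)))))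 (XT.nd (nat_lit 54132) (nat_lit 0) (nat_lit 8892) (XT.nd (nat_lit 53976) (nat_lit 0) (nat_lit 8816) (XT.nd (nat_lit 53898) (nat_lit 0) (nat_lit 8816) (XT.lf (nat_lit 0) (nat_lit 671287290298) (nat_lit 76) (nat_lit 79706784345) (nat_lit 76) (nat_lit 9748036171) (nat_lit 9) (nat_lit 4) (nat_lit 10) (nat_lit 5) (nat_lit 10) (nat_lit 4) (nat_lit 541) (nat_lit 430) (nat_lit 229)) (XT.lf (nat_lit 0) (nat_lit 1788719738) (nat_lit 836) (nat_lit 3749079067) (nat_lit 836) (nat_lit 3749079067) (nat_lit 125) (nat_lit 3) (nat_lit 136) (nat_lit 3) (nat_lit 136) (nat_lit 5) (nat_lit 431) (nat_lit 431) (nat_lit 338))) (XT.nd (nat_lit 78) (nat_lit 0) (nat_lit 76) (XT.lf (nat_lit 76) (nat_lit 1654630663) (nat_lit 0) (nat_lit 2226269435) (nat_lit 836) (nat_lit 15146425090) (nat_lit 126) (nat_lit 5) (nat_lit 125) (nat_lit 3) (nat_lit 136) (nat_lit 5) (nat_lit 432) (nat_lit 431) (nat_lit 337)) (XT.lf (nat_lit 0)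 (nat_lit 4426852053) (nat_lit 760) (nat_lit 8091475947) (nat_lit 836) (nat_lit 6973883875) (nat_lit 126) (nat_lit 5) (nat_lit 136) (nat_lit 5) (nat_lit 137) (nat_lit 5) (nat_lit 433) (nat_lit 431) (nat_lit 336)))) (XT.nd (nat_lit 156) (nat_lit 0) (nat_lit 76) (XT.nd (nat_lit 78) (nat_lit 0) (nat_lit 76) (XT.lf (nat_lit 76) (nat_lit 1663663788) (nat_lit 0) (nat_lit 3387421820) (nat_lit 836) (nat_lit 14926712550) (nat_lit 127) (nat_lit 5) (nat_lit 126) (nat_lit 5) (nat_lit 137) (nat_lit 5) (nat_lit 434) (nat_lit 431) (nat_lit 335)) (XT.lf (nat_lit 0) (nat_lit 5931631239) (nat_lit 760) (nat_lit 8399783261) (nat_lit 836) (nat_lit 6144998487) (nat_lit 127) (nat_lit 5) (nat_lit 137) (nat_lit 5) (nat_lit 138) (nat_lit 5) (nat_lit 435) (nat_lit 431) (nat_lit 334))) (XT.nd (nat_lit 78) (nat_lit 0) (nat_lit 76) (XT.lf (nat_lit 76) (nat_lit 2012103135) (nat_lit 0) (nat_lit 4920590952) (nat_lit 836) (nat_lit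 14063444024) (nat_lit 128) (nat_lit 5) (nat_lit 127) (nat_lit 5) (nat_lit 138) (nat_lit 5) (nat_lit 436) (nat_lit 431) (nat_lit 333)) (XT.lf (nat_lit 0) (nat_lit 8195830422) (nat_lit 760) (nat_lit 8385807985) (nat_lit 836) (nat_lit 4949613921) (nat_lit 128) (nat_lit 5) (nat_lit 138) (nat_lit 5) (nat_lit 139) (nat_lit 5) (nat_lit 437) (nat_lit 431) (nat_lit 332))))))))
noncomputable def xc164 : XT := (XT.nd (nat_lit 2184) (nat_lit 2584) (nat_lit 0) (XT.nd (nat_lit 1092) (nat_lit 2052) (nat_lit 0) (XT.nd (nat_lit 546) (nat_lit 1444) (nat_lit 0) (XT.nd (nat_lit 234) (nat_lit 988) (nat_lit 0) (XT.nd (nat_lit 78) (nat_lit 0) (nat_lit 76) (XT.lf (nat_lit 76) (nat_lit 2742299492) (nat_lit 0) (nat_lit 6893763849) (nat_lit 836) (nat_lit 12451365599) (nat_lit 129) (nat_lit 5) (nat_lit 128) (nat_lit 5) (nat_lit 139) (nat_lit 5) (nat_lit 438) (nat_lit 431) (nat_lit 331)) (XT.nd (nat_lit 78) (nat_lit 0)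 (nat_lit 0) (XT.lf (nat_lit 0) (nat_lit 11334678441) (nat_lit 760) (nat_lit 8007397936) (nat_lit 836) (nat_lit 3320022977) (nat_lit 129) (nat_lit 5) (nat_lit 139) (nat_lit 5) (nat_lit 140) (nat_lit 5) (nat_lit 439) (nat_lit 431) (nat_lit 330)) (XT.lf (nat_lit 76) (nat_lit 3901933589) (nat_lit 0) (nat_lit 9381497649) (nat_lit 836) (nat_lit 9973815035) (nat_lit 130) (nat_lit 5) (nat_lit 129) (nat_lit 5) (nat_lit 140) (nat_lit 5) (nat_lit 440) (nat_lit 431) (nat_lit 329)))) (XT.nd (nat_lit 156) (nat_lit 380) (nat_lit 0) (XT.nd (nat_lit 78) (nat_lit 760) (nat_lit 0) (XT.lf (nat_lit 0) (nat_lit 15475871935) (nat_lit 760) (nat_lit 7217169871) (nat_lit 76) (nat_lit 1181799390) (nat_lit 130) (nat_lit 5) (nat_lit 140) (nat_lit 5) (nat_lit 131) (nat_lit 5) (nat_lit 441) (nat_lit 431) (nat_lit 328)) (XT.lf (nat_lit 0) (nat_lit 5544406923) (nat_lit 760) (nat_lit 12465887751) (nat_lit 836) (nat_lit 6501406213)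 (nat_lit 120) (nat_lit 5) (nat_lit 130) (nat_lit 5) (nat_lit 131) (nat_lit 5) (nat_lit 442) (nat_lit 431) (nat_lit 327))) (XT.nd (nat_lit 78) (nat_lit 380) (nat_lit 0) (XT.lf (nat_lit 0) (nat_lit 19187607698) (nat_lit 760) (nat_lit 1598329663) (nat_lit 836) (nat_lit 4388744139) (nat_lit 120) (nat_lit 5) (nat_lit 130) (nat_lit 5) (nat_lit 131) (nat_lit 5) (nat_lit 443) (nat_lit 431) (nat_lit 326)) (XT.lf (nat_lit 0) (nat_lit 7729274403) (nat_lit 380) (nat_lit 16237616755) (nat_lit 456) (nat_lit 1890596275) (nat_lit 115) (nat_lit 5) (nat_lit 120) (nat_lit 5) (nat_lit 121) (nat_lit 5) (nat_lit 444) (nat_lit 431) (nat_lit 325))))) (XT.nd (nat_lit 234) (nat_lit 988) (nat_lit 0) (XT.nd (nat_lit 78) (nat_lit 380) (nat_lit 0) (XT.lf (nat_lit 0) (nat_lit 831047461) (nat_lit 456) (nat_lit 4276559518) (nat_lit 76) (nat_lit 21460155797) (nat_lit 114) (nat_lit 5) (nat_lit 120) (nat_lit 5) (nat_lit 115)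 (nat_lit 5) (nat_lit 445) (nat_lit 431) (nat_lit 324)) (XT.nd (nat_lit 78) (nat_lit 0) (nat_lit 0) (XT.lf (nat_lit 0) (nat_lit 3889280381) (nat_lit 456) (nat_lit 16841950328) (nat_lit 76) (nat_lit 6567571705) (nat_lit 109) (nat_lit 5) (nat_lit 115) (nat_lit 5) (nat_lit 110) (nat_lit 5) (nat_lit 446) (nat_lit 431) (nat_lit 323)) (XT.lf (nat_lit 0) (nat_lit 7251107918) (nat_lit 456) (nat_lit 2079358726) (nat_lit 76) (nat_lit 18728395494) (nat_lit 109) (nat_lit 5) (nat_lit 115) (nat_lit 5) (nat_lit 110) (nat_lit 5) (nat_lit 447) (nat_lit 431) (nat_lit 322)))) (XT.nd (nat_lit 156) (nat_lit 304) (nat_lit 0) (XT.nd (nat_lit 78) (nat_lit 304) (nat_lit 0) (XT.lf (nat_lit 0) (nat_lit 11035811620) (nat_lit 456) (nat_lit 15033016572) (nat_lit 76) (nat_lit 2775359565) (nat_lit 104) (nat_lit 5) (nat_lit 110) (nat_lit 5) (nat_lit 105) (nat_lit 5) (nat_lit 448) (nat_lit 431) (nat_lit 321)) (XT.lf (nat_lit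 0) (nat_lit 765431749) (nat_lit 304) (nat_lit 14438867062) (nat_lit 380) (nat_lit 14454755476) (nat_lit 100) (nat_lit 5) (nat_lit 104) (nat_lit 5) (nat_lit 105) (nat_lit 5) (nat_lit 449) (nat_lit 431) (nat_lit 320))) (XT.nd (nat_lit 78) (nat_lit 304) (nat_lit 0) (XT.lf (nat_lit 0) (nat_lit 17868896251) (nat_lit 304) (nat_lit 1960939119) (nat_lit 380) (nat_lit 10672399469) (nat_lit 100) (nat_lit 5) (nat_lit 104) (nat_lit 5) (nat_lit 105) (nat_lit 5) (nat_lit 450) (nat_lit 431) (nat_lit 319)) (XT.lf (nat_lit 0) (nat_lit 4400081993) (nat_lit 304) (nat_lit 20523509857) (nat_lit 380) (nat_lit 6452137270) (nat_lit 96) (nat_lit 5) (nat_lit 100) (nat_lit 5) (nat_lit 101) (nat_lit 5) (nat_lit 451) (nat_lit 431) (nat_lit 318)))))) (XT.nd (nat_lit 546) (nat_lit 988) (nat_lit 0) (XT.nd (nat_lit 234) (nat_lit 760) (nat_lit 0) (XT.nd (nat_lit 78) (nat_lit 304) (nat_lit 0) (XT.lf (nat_lit 0) (nat_lit 22683907063)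 (nat_lit 304) (nat_lit 7828181122) (nat_lit 380) (nat_lit 1768809094) (nat_lit 96) (nat_lit 5) (nat_lit 100) (nat_lit 5) (nat_lit 101) (nat_lit 5) (nat_lit 452) (nat_lit 431) (nat_lit 317)) (XT.nd (nat_lit 78) (nat_lit 0) (nat_lit 0) (XT.lf (nat_lit 0) (nat_lit 3270143765) (nat_lit 304) (nat_lit 24432057247) (nat_lit 76) (nat_lit 5515554654) (nat_lit 92) (nat_lit 5) (nat_lit 96) (nat_lit 5) (nat_lit 93) (nat_lit 5) (nat_lit 453) (nat_lit 431) (nat_lit 316)) (XT.lf (nat_lit 0) (nat_lit 8789908920) (nat_lit 304) (nat_lit 5939272163) (nat_lit 76) (nat_lit 19456412158) (nat_lit 92) (nat_lit 5) (nat_lit 96) (nat_lit 5) (nat_lit 93) (nat_lit 5) (nat_lit 454) (nat_lit 431) (nat_lit 315)))) (XT.nd (nat_lit 156) (nat_lit 456) (nat_lit 0) (XT.nd (nat_lit 78) (nat_lit 0) (nat_lit 0) (XT.lf (nat_lit 0) (nat_lit 13917251260) (nat_lit 304) (nat_lit 880730086) (nat_lit 380) (nat_lit 20393226852) (nat_lit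 88) (nat_lit 5) (nat_lit 92) (nat_lit 5) (nat_lit 93) (nat_lit 5) (nat_lit 455) (nat_lit 431) (nat_lit 314)) (XT.lf (nat_lit 0) (nat_lit 21417112816) (nat_lit 380) (nat_lit 1490656215) (nat_lit 76) (nat_lit 13323803485) (nat_lit 88) (nat_lit 5) (nat_lit 93) (nat_lit 5) (nat_lit 89) (nat_lit 5) (nat_lit 456) (nat_lit 431) (nat_lit 313))) (XT.nd (nat_lit 78) (nat_lit 228) (nat_lit 0) (XT.lf (nat_lit 0) (nat_lit 19898083363) (nat_lit 228) (nat_lit 8789600468) (nat_lit 304) (nat_lit 8620248388) (nat_lit 85) (nat_lit 5) (nat_lit 88) (nat_lit 5) (nat_lit 89) (nat_lit 5) (nat_lit 457) (nat_lit 431) (nat_lit 312)) (XT.lf (nat_lit 0) (nat_lit 3998251166) (nat_lit 228) (nat_lit 32501311202) (nat_lit 304) (nat_lit 1929659846) (nat_lit 82) (nat_lit 5) (nat_lit 85) (nat_lit 5) (nat_lit 86) (nat_lit 5) (nat_lit 458) (nat_lit 431) (nat_lit 311))))) (XT.nd (nat_lit 234) (nat_lit 684) (nat_lit 0) (XT.nd (nat_lit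 78) (nat_lit 228) (nat_lit 0) (XT.lf (nat_lit 0) (nat_lit 5371668155) (nat_lit 304) (nat_lit 12745428927) (nat_lit 76) (nat_lit 21463538222) (nat_lit 81) (nat_lit 5) (nat_lit 85) (nat_lit 5) (nat_lit 82) (nat_lit 5) (nat_lit 459) (nat_lit 431) (nat_lit 310)) (XT.nd (nat_lit 78) (nat_lit 0) (nat_lit 0) (XT.lf (nat_lit 0) (nat_lit 10316962276) (nat_lit 228) (nat_lit 2813067732) (nat_lit 304) (nat_lit 27650167602) (nat_lit 78) (nat_lit 5) (nat_lit 81) (nat_lit 5) (nat_lit 82) (nat_lit 5) (nat_lit 460) (nat_lit 431) (nat_lit 309)) (XT.lf (nat_lit 0) (nat_lit 21698487584) (nat_lit 304) (nat_lit 7270570137) (nat_lit 76) (nat_lit 13049572461) (nat_lit 78) (nat_lit 5) (nat_lit 82) (nat_lit 5) (nat_lit 79) (nat_lit 5) (nat_lit 461) (nat_lit 431) (nat_lit 308)))) (XT.nd (nat_lit 156) (nat_lit 456) (nat_lit 0) (XT.nd (nat_lit 78) (nat_lit 0) (nat_lit 0) (XT.lf (nat_lit 0) (nat_lit 17592899119) (nat_lit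 228) (nat_lit 13419281380) (nat_lit 304) (nat_lit 12290964245) (nat_lit 75) (nat_lit 5) (nat_lit 78) (nat_lit 5) (nat_lit 79) (nat_lit 5) (nat_lit 462) (nat_lit 431) (nat_lit 307)) (XT.lf (nat_lit 0) (nat_lit 40958203029) (nat_lit 304) (nat_lit 747058008) (nat_lit 76) (nat_lit 2938292685) (nat_lit 75) (nat_lit 5) (nat_lit 79) (nat_lit 5) (nat_lit 76) (nat_lit 5) (nat_lit 463) (nat_lit 431) (nat_lit 306))) (XT.nd (nat_lit 78) (nat_lit 228) (nat_lit 0) (XT.lf (nat_lit 0) (nat_lit 5812854862) (nat_lit 228) (nat_lit 20040355347) (nat_lit 76) (nat_lit 20161918834) (nat_lit 72) (nat_lit 5) (nat_lit 75) (nat_lit 5) (nat_lit 73) (nat_lit 5) (nat_lit 464) (nat_lit 431) (nat_lit 305)) (XT.lf (nat_lit 0) (nat_lit 6753904775) (nat_lit 228) (nat_lit 9022831554) (nat_lit 304) (nat_lit 31669795952) (nat_lit 69) (nat_lit 5) (nat_lit 72) (nat_lit 5) (nat_lit 73) (nat_lit 5) (nat_lit 465) (nat_lit 431) (nat_lit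 304))))))) (XT.nd (nat_lit 1092) (nat_lit 1140) (nat_lit 0) (XT.nd (nat_lit 546) (nat_lit 760) (nat_lit 0) (XT.nd (nat_lit 234) (nat_lit 532) (nat_lit 0) (XT.nd (nat_lit 78) (nat_lit 152) (nat_lit 0) (XT.lf (nat_lit 0) (nat_lit 26715175123) (nat_lit 304) (nat_lit 13495184114) (nat_lit 76) (nat_lit 8715329052) (nat_lit 69) (nat_lit 5) (nat_lit 73) (nat_lit 5) (nat_lit 70) (nat_lit 5) (nat_lit 466) (nat_lit 431) (nat_lit 303)) (XT.nd (nat_lit 78) (nat_lit 0) (nat_lit 0) (XT.lf (nat_lit 0) (nat_lit 15401757263) (nat_lit 152) (nat_lit 23183701463) (nat_lit 228) (nat_lit 11874097963) (nat_lit 67) (nat_lit 5) (nat_lit 69) (nat_lit 5) (nat_lit 70) (nat_lit 5) (nat_lit 467) (nat_lit 431) (nat_lit 302)) (XT.lf (nat_lit 0) (nat_lit 46206743978) (nat_lit 152) (nat_lit 5067684505) (nat_lit 228) (nat_lit 784432125) (nat_lit 67) (nat_lit 5) (nat_lit 69) (nat_lit 5) (nat_lit 70) (nat_lit 5) (nat_lit 468)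 (nat_lit 431) (nat_lit 301)))) (XT.nd (nat_lit 156) (nat_lit 152) (nat_lit 0) (XT.nd (nat_lit 78) (nat_lit 152) (nat_lit 0) (XT.lf (nat_lit 0) (nat_lit 11133402949) (nat_lit 228) (nat_lit 28483272553) (nat_lit 76) (nat_lit 14081914089) (nat_lit 64) (nat_lit 5) (nat_lit 67) (nat_lit 5) (nat_lit 65) (nat_lit 5) (nat_lit 469) (nat_lit 431) (nat_lit 300)) (XT.lf (nat_lit 0) (nat_lit 2604518693) (nat_lit 152) (nat_lit 21237501044) (nat_lit 228) (nat_lit 31566580311) (nat_lit 62) (nat_lit 5) (nat_lit 64) (nat_lit 5) (nat_lit 65) (nat_lit 5) (nat_lit 470) (nat_lit 431) (nat_lit 299))) (XT.nd (nat_lit 78) (nat_lit 152) (nat_lit 0) (XT.lf (nat_lit 0) (nat_lit 36230432536) (nat_lit 152) (nat_lit 1434864210) (nat_lit 228) (nat_lit 19514853389) (nat_lit 62) (nat_lit 5) (nat_lit 64) (nat_lit 5) (nat_lit 65) (nat_lit 5) (nat_lit 471) (nat_lit 431) (nat_lit 298)) (XT.lf (nat_lit 0) (nat_lit 12593175603) (nat_lit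 152) (nat_lit 40082379577) (nat_lit 228) (nat_lit 6339932215) (nat_lit 60) (nat_lit 5) (nat_lit 62) (nat_lit 5) (nat_lit 63) (nat_lit 5) (nat_lit 472) (nat_lit 431) (nat_lit 297))))) (XT.nd (nat_lit 234) (nat_lit 532) (nat_lit 0) (XT.nd (nat_lit 78) (nat_lit 152) (nat_lit 0) (XT.lf (nat_lit 0) (nat_lit 7635010705) (nat_lit 228) (nat_lit 12535685301) (nat_lit 76) (nat_lit 40746989998) (nat_lit 59) (nat_lit 5) (nat_lit 62) (nat_lit 5) (nat_lit 60) (nat_lit 5) (nat_lit 473) (nat_lit 431) (nat_lit 296)) (XT.nd (nat_lit 78) (nat_lit 0) (nat_lit 0) (XT.lf (nat_lit 0) (nat_lit 22481953096) (nat_lit 228) (nat_lit 39215755025) (nat_lit 76) (nat_lit 1192774449) (nat_lit 57) (nat_lit 5) (nat_lit 60) (nat_lit 5) (nat_lit 58) (nat_lit 5) (nat_lit 474) (nat_lit 431) (nat_lit 295)) (XT.lf (nat_lit 0) (nat_lit 38614853961) (nat_lit 228) (nat_lit 3159410268) (nat_lit 76) (nat_lit 23160474618) (nat_lit 57) (nat_lit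 5) (nat_lit 60) (nat_lit 5) (nat_lit 58) (nat_lit 5) (nat_lit 475) (nat_lit 431) (nat_lit 294)))) (XT.nd (nat_lit 156) (nat_lit 152) (nat_lit 0) (XT.nd (nat_lit 78) (nat_lit 228) (nat_lit 0) (XT.lf (nat_lit 0) (nat_lit 35842329658) (nat_lit 152) (nat_lit 20268970395) (nat_lit 228) (nat_lit 10942063306) (nat_lit 55) (nat_lit 5) (nat_lit 57) (nat_lit 5) (nat_lit 58) (nat_lit 5) (nat_lit 476) (nat_lit 431) (nat_lit 293)) (XT.lf (nat_lit 0) (nat_lit 5251687232) (nat_lit 228) (nat_lit 61514251259) (nat_lit 76) (nat_lit 2497237076) (nat_lit 52) (nat_lit 5) (nat_lit 55) (nat_lit 5) (nat_lit 53) (nat_lit 5) (nat_lit 477) (nat_lit 431) (nat_lit 292))) (XT.nd (nat_lit 78) (nat_lit 152) (nat_lit 0) (XT.lf (nat_lit 0) (nat_lit 22754259747) (nat_lit 228) (nat_lit 22341557168) (nat_lit 76) (nat_lit 26435349964) (nat_lit 52) (nat_lit 5) (nat_lit 55) (nat_lit 5) (nat_lit 53) (nat_lit 5) (nat_lit 478) (nat_lit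 431) (nat_lit 291)) (XT.lf (nat_lit 0) (nat_lit 19406478345) (nat_lit 152) (nat_lit 22025940834) (nat_lit 228) (nat_lit 32465116013) (nat_lit 50) (nat_lit 5) (nat_lit 52) (nat_lit 5) (nat_lit 53) (nat_lit 5) (nat_lit 479) (nat_lit 431) (nat_lit 290)))))) (XT.nd (nat_lit 546) (nat_lit 532) (nat_lit 0) (XT.nd (nat_lit 234) (nat_lit 456) (nat_lit 0) (XT.nd (nat_lit 78) (nat_lit 152) (nat_lit 0) (XT.lf (nat_lit 0) (nat_lit 61460854563) (nat_lit 228) (nat_lit 12390695858) (nat_lit 76) (nat_lit 2509853438) (nat_lit 50) (nat_lit 5) (nat_lit 53) (nat_lit 5) (nat_lit 51) (nat_lit 4) (nat_lit 480) (nat_lit 431) (nat_lit 289)) (XT.nd (nat_lit 78) (nat_lit 0) (nat_lit 0) (XT.lf (nat_lit 0) (nat_lit 4309007665) (nat_lit 152) (nat_lit 46485442867) (nat_lit 76) (nat_lit 28107243718) (nat_lit 48) (nat_lit 5) (nat_lit 50) (nat_lit 5) (nat_lit 49) (nat_lit 5) (nat_lit 481) (nat_lit 431) (nat_lit 288)) (XT.lf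 (nat_lit 0) (nat_lit 24189190414) (nat_lit 152) (nat_lit 1916739871) (nat_lit 76) (nat_lit 55440310397) (nat_lit 48) (nat_lit 5) (nat_lit 50) (nat_lit 5) (nat_lit 49) (nat_lit 5) (nat_lit 482) (nat_lit 431) (nat_lit 287)))) (XT.nd (nat_lit 156) (nat_lit 228) (nat_lit 0) (XT.nd (nat_lit 78) (nat_lit 76) (nat_lit 0) (XT.lf (nat_lit 0) (nat_lit 45793910515) (nat_lit 228) (nat_lit 37935747564) (nat_lit 76) (nat_lit 556830222) (nat_lit 46) (nat_lit 5) (nat_lit 49) (nat_lit 5) (nat_lit 47) (nat_lit 4) (nat_lit 483) (nat_lit 431) (nat_lit 286)) (XT.lf (nat_lit 0) (nat_lit 9817683024) (nat_lit 76) (nat_lit 59273177489) (nat_lit 152) (nat_lit 18042288356) (nat_lit 45) (nat_lit 5) (nat_lit 46) (nat_lit 5) (nat_lit 47) (nat_lit 4) (nat_lit 484) (nat_lit 431) (nat_lit 285))) (XT.nd (nat_lit 78) (nat_lit 152) (nat_lit 0) (XT.lf (nat_lit 0) (nat_lit 3971471478) (nat_lit 152) (nat_lit 28882352601) (nat_lit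 76) (nat_lit 57233102935) (nat_lit 44) (nat_lit 5) (nat_lit 46) (nat_lit 5) (nat_lit 45) (nat_lit 5) (nat_lit 485) (nat_lit 431) (nat_lit 284)) (XT.lf (nat_lit 0) (nat_lit 22389364689) (nat_lit 152) (nat_lit 4437644220) (nat_lit 228) (nat_lit 66329225184) (nat_lit 42) (nat_lit 5) (nat_lit 44) (nat_lit 5) (nat_lit 45) (nat_lit 5) (nat_lit 486) (nat_lit 431) (nat_lit 283))))) (XT.nd (nat_lit 234) (nat_lit 380) (nat_lit 0) (XT.nd (nat_lit 78) (nat_lit 152) (nat_lit 0) (XT.lf (nat_lit 0) (nat_lit 51716916565) (nat_lit 228) (nat_lit 19535616555) (nat_lit 76) (nat_lit 25081893956) (nat_lit 42) (nat_lit 5) (nat_lit 45) (nat_lit 5) (nat_lit 43) (nat_lit 4) (nat_lit 487) (nat_lit 431) (nat_lit 282)) (XT.nd (nat_lit 78) (nat_lit 76) (nat_lit 0) (XT.lf (nat_lit 0) (nat_lit 35310914570) (nat_lit 76) (nat_lit 43162439585) (nat_lit 152) (nat_lit 21167074029) (nat_lit 41) (nat_lit 5) (nat_lit 42) (nat_lit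 5) (nat_lit 43) (nat_lit 4) (nat_lit 488) (nat_lit 431) (nat_lit 281)) (XT.lf (nat_lit 0) (nat_lit 3679533635) (nat_lit 152) (nat_lit 9580274827) (nat_lit 76) (nat_lit 89832510312) (nat_lit 40) (nat_lit 5) (nat_lit 42) (nat_lit 5) (nat_lit 41) (nat_lit 5) (nat_lit 489) (nat_lit 431) (nat_lit 280)))) (XT.nd (nat_lit 156) (nat_lit 228) (nat_lit 0) (XT.nd (nat_lit 78) (nat_lit 0) (nat_lit 0) (XT.lf (nat_lit 0) (nat_lit 30123657568) (nat_lit 228) (nat_lit 57834318782) (nat_lit 76) (nat_lit 18688150741) (nat_lit 38) (nat_lit 5) (nat_lit 41) (nat_lit 5) (nat_lit 39) (nat_lit 4) (nat_lit 490) (nat_lit 431) (nat_lit 279)) (XT.lf (nat_lit 0) (nat_lit 58270365911) (nat_lit 228) (nat_lit 136994004) (nat_lit 76) (nat_lit 51951247168) (nat_lit 38) (nat_lit 5) (nat_lit 41) (nat_lit 5) (nat_lit 39) (nat_lit 4) (nat_lit 491) (nat_lit 431) (nat_lit 278))) (XT.nd (nat_lit 78) (nat_lit 152) (nat_lit 0) (XT.lf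 (nat_lit 0) (nat_lit 62440297495) (nat_lit 76) (nat_lit 26357168718) (nat_lit 152) (nat_lit 25410592196) (nat_lit 37) (nat_lit 5) (nat_lit 38) (nat_lit 5) (nat_lit 39) (nat_lit 4) (nat_lit 492) (nat_lit 431) (nat_lit 277)) (XT.lf (nat_lit 0) (nat_lit 2794423329) (nat_lit 152) (nat_lit 108173924489) (nat_lit 76) (nat_lit 7265767714) (nat_lit 35) (nat_lit 5) (nat_lit 37) (nat_lit 5) (nat_lit 36) (nat_lit 4) (nat_lit 493) (nat_lit 431) (nat_lit 276))))))))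
noncomputable def xc165 : XT := (XT.nd (nat_lit 2184) (nat_lit 608) (nat_lit 0) (XT.nd (nat_lit 1092) (nat_lit 608) (nat_lit 0) (XT.nd (nat_lit 546) (nat_lit 456) (nat_lit 0) (XT.nd (nat_lit 234) (nat_lit 228) (nat_lit 0) (XT.nd (nat_lit 78) (nat_lit 76) (nat_lit 0) (XT.lf (nat_lit 0) (nat_lit 32877099550) (nat_lit 152) (nat_lit 46507257906) (nat_lit 76) (nat_lit 42990221217) (nat_lit 35) (nat_lit 5) (nat_lit 37) (nat_lit 5) (nat_lit 36) (nat_lit 4) (nat_lit 494) (nat_lit 431) (nat_lit 275)) (XT.nd (nat_lit 78) (nat_lit 0) (nat_lit 0) (XT.lf (nat_lit 0) (nat_lit 18842589972) (nat_lit 76) (nat_lit 45913794104) (nat_lit 152) (nat_lit 61951057304) (nat_lit 34) (nat_lit 5) (nat_lit 35) (nat_lit 5) (nat_lit 36) (nat_lit 4) (nat_lit 495) (nat_lit 431) (nat_lit 274)) (XT.lf (nat_lit 0) (nat_lit 89071376774) (nat_lit 76) (nat_lit 9944199655) (nat_lit 152) (nat_lit 32202073738) (nat_lit 34) (nat_lit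 5) (nat_lit 35) (nat_lit 5) (nat_lit 36) (nat_lit 4) (nat_lit 496) (nat_lit 431) (nat_lit 273)))) (XT.nd (nat_lit 156) (nat_lit 76) (nat_lit 0) (XT.nd (nat_lit 78) (nat_lit 76) (nat_lit 0) (XT.lf (nat_lit 0) (nat_lit 27294327017) (nat_lit 76) (nat_lit 108552329312) (nat_lit 76) (nat_lit 63766792) (nat_lit 33) (nat_lit 4) (nat_lit 34) (nat_lit 5) (nat_lit 34) (nat_lit 4) (nat_lit 497) (nat_lit 431) (nat_lit 272)) (XT.lf (nat_lit 0) (nat_lit 33490308817) (nat_lit 152) (nat_lit 39835638727) (nat_lit 76) (nat_lit 67441250678) (nat_lit 32) (nat_lit 5) (nat_lit 34) (nat_lit 5) (nat_lit 33) (nat_lit 4) (nat_lit 498) (nat_lit 431) (nat_lit 271))) (XT.nd (nat_lit 78) (nat_lit 0) (nat_lit 0) (XT.lf (nat_lit 0) (nat_lit 33450476905) (nat_lit 76) (nat_lit 35790182992) (nat_lit 152) (nat_lit 76600064285) (nat_lit 31) (nat_lit 5) (nat_lit 32) (nat_lit 5) (nat_lit 33) (nat_lit 4) (nat_lit 499) (nat_lit 431)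 (nat_lit 270)) (XT.lf (nat_lit 0) (nat_lit 107519244853) (nat_lit 152) (nat_lit 39420857944) (nat_lit 0) (nat_lit 4190787927) (nat_lit 31) (nat_lit 5) (nat_lit 33) (nat_lit 4) (nat_lit 31) (nat_lit 4) (nat_lit 500) (nat_lit 431) (nat_lit 269))))) (XT.nd (nat_lit 234) (nat_lit 228) (nat_lit 0) (XT.nd (nat_lit 78) (nat_lit 152) (nat_lit 0) (XT.lf (nat_lit 0) (nat_lit 37817875113) (nat_lit 76) (nat_lit 111069589893) (nat_lit 76) (nat_lit 7739315383) (nat_lit 30) (nat_lit 4) (nat_lit 31) (nat_lit 5) (nat_lit 31) (nat_lit 4) (nat_lit 501) (nat_lit 431) (nat_lit 268)) (XT.nd (nat_lit 78) (nat_lit 76) (nat_lit 0) (XT.lf (nat_lit 0) (nat_lit 29645889719) (nat_lit 152) (nat_lit 42557931619) (nat_lit 76) (nat_lit 90136426497) (nat_lit 29) (nat_lit 5) (nat_lit 31) (nat_lit 5) (nat_lit 30) (nat_lit 4) (nat_lit 502) (nat_lit 431) (nat_lit 267)) (XT.lf (nat_lit 0) (nat_lit 38611858637) (nat_lit 76) (nat_lit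 30629854915) (nat_lit 152) (nat_lit 99061258969) (nat_lit 28) (nat_lit 5) (nat_lit 29) (nat_lit 5) (nat_lit 30) (nat_lit 4) (nat_lit 503) (nat_lit 431) (nat_lit 266)))) (XT.nd (nat_lit 156) (nat_lit 152) (nat_lit 0) (XT.nd (nat_lit 78) (nat_lit 76) (nat_lit 0) (XT.lf (nat_lit 0) (nat_lit 111751821747) (nat_lit 152) (nat_lit 49427964647) (nat_lit 0) (nat_lit 13337322467) (nat_lit 28) (nat_lit 5) (nat_lit 30) (nat_lit 4) (nat_lit 28) (nat_lit 4) (nat_lit 504) (nat_lit 431) (nat_lit 265)) (XT.lf (nat_lit 0) (nat_lit 35479213592) (nat_lit 76) (nat_lit 121962962436) (nat_lit 76) (nat_lit 23547039031) (nat_lit 27) (nat_lit 4) (nat_lit 28) (nat_lit 5) (nat_lit 28) (nat_lit 4) (nat_lit 505) (nat_lit 431) (nat_lit 264))) (XT.nd (nat_lit 78) (nat_lit 76) (nat_lit 0) (XT.lf (nat_lit 0) (nat_lit 17917276845) (nat_lit 152) (nat_lit 61686862182) (nat_lit 76) (nat_lit 108124548597) (nat_lit 26) (nat_lit 5)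 (nat_lit 28) (nat_lit 5) (nat_lit 27) (nat_lit 4) (nat_lit 506) (nat_lit 431) (nat_lit 263)) (XT.lf (nat_lit 0) (nat_lit 26796640258) (nat_lit 76) (nat_lit 34283950812) (nat_lit 152) (nat_lit 133684386084) (nat_lit 25) (nat_lit 5) (nat_lit 26) (nat_lit 5) (nat_lit 27) (nat_lit 4) (nat_lit 507) (nat_lit 431) (nat_lit 262)))))) (XT.nd (nat_lit 546) (nat_lit 304) (nat_lit 0) (XT.nd (nat_lit 234) (nat_lit 228) (nat_lit 0) (XT.nd (nat_lit 78) (nat_lit 76) (nat_lit 0) (XT.lf (nat_lit 0) (nat_lit 107670330256) (nat_lit 152) (nat_lit 80482152178) (nat_lit 0) (nat_lit 13937185827) (nat_lit 25) (nat_lit 5) (nat_lit 27) (nat_lit 4) (nat_lit 25) (nat_lit 4) (nat_lit 508) (nat_lit 431) (nat_lit 261)) (XT.nd (nat_lit 78) (nat_lit 0) (nat_lit 0) (XT.lf (nat_lit 0) (nat_lit 11171544501) (nat_lit 76) (nat_lit 146153273337) (nat_lit 76) (nat_lit 52419013069) (nat_lit 24) (nat_lit 4) (nat_lit 25) (nat_lit 5)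 (nat_lit 25) (nat_lit 4) (nat_lit 509) (nat_lit 431) (nat_lit 260)) (XT.lf (nat_lit 0) (nat_lit 110199797610) (nat_lit 76) (nat_lit 100624067665) (nat_lit 76) (nat_lit 6888744693) (nat_lit 24) (nat_lit 4) (nat_lit 25) (nat_lit 5) (nat_lit 25) (nat_lit 4) (nat_lit 510) (nat_lit 431) (nat_lit 259)))) (XT.nd (nat_lit 156) (nat_lit 76) (nat_lit 0) (XT.nd (nat_lit 78) (nat_lit 76) (nat_lit 0) (XT.lf (nat_lit 0) (nat_lit 39607273015) (nat_lit 152) (nat_lit 12541425389) (nat_lit 76) (nat_lit 173899243935) (nat_lit 23) (nat_lit 5) (nat_lit 25) (nat_lit 5) (nat_lit 24) (nat_lit 4) (nat_lit 511) (nat_lit 431) (nat_lit 258)) (XT.lf (nat_lit 0) (nat_lit 89605103519) (nat_lit 152) (nat_lit 144787379953) (nat_lit 0) (nat_lit 331485447) (nat_lit 22) (nat_lit 5) (nat_lit 24) (nat_lit 4) (nat_lit 22) (nat_lit 4) (nat_lit 512) (nat_lit 431) (nat_lit 257))) (XT.nd (nat_lit 78) (nat_lit 76) (nat_lit 0) (XT.lf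 (nat_lit 0) (nat_lit 143172524763) (nat_lit 152) (nat_lit 46709754748) (nat_lit 0) (nat_lit 53898032402) (nat_lit 22) (nat_lit 5) (nat_lit 24) (nat_lit 4) (nat_lit 22) (nat_lit 4) (nat_lit 513) (nat_lit 431) (nat_lit 256)) (XT.lf (nat_lit 0) (nat_lit 58130270938) (nat_lit 76) (nat_lit 142194599261) (nat_lit 76) (nat_lit 52919274244) (nat_lit 21) (nat_lit 4) (nat_lit 22) (nat_lit 5) (nat_lit 22) (nat_lit 4) (nat_lit 514) (nat_lit 431) (nat_lit 255))))) (XT.nd (nat_lit 234) (nat_lit 152) (nat_lit 0) (XT.nd (nat_lit 78) (nat_lit 152) (nat_lit 0) (XT.lf (nat_lit 0) (nat_lit 169831975101) (nat_lit 76) (nat_lit 91292904611) (nat_lit 76) (nat_lit 2016786588) (nat_lit 21) (nat_lit 4) (nat_lit 22) (nat_lit 5) (nat_lit 22) (nat_lit 4) (nat_lit 515) (nat_lit 431) (nat_lit 254)) (XT.nd (nat_lit 78) (nat_lit 0) (nat_lit 0) (XT.lf (nat_lit 0) (nat_lit 13202360946) (nat_lit 76) (nat_lit 36787509401) (nat_lit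 152) (nat_lit 223493787350) (nat_lit 19) (nat_lit 5) (nat_lit 20) (nat_lit 5) (nat_lit 21) (nat_lit 4) (nat_lit 516) (nat_lit 431) (nat_lit 253)) (XT.lf (nat_lit 0) (nat_lit 106453437260) (nat_lit 152) (nat_lit 156364281972) (nat_lit 0) (nat_lit 21427158644) (nat_lit 19) (nat_lit 5) (nat_lit 21) (nat_lit 4) (nat_lit 19) (nat_lit 4) (nat_lit 517) (nat_lit 431) (nat_lit 252)))) (XT.nd (nat_lit 156) (nat_lit 76) (nat_lit 0) (XT.nd (nat_lit 78) (nat_lit 76) (nat_lit 0) (XT.lf (nat_lit 0) (nat_lit 166342331691) (nat_lit 152) (nat_lit 47856319282) (nat_lit 0) (nat_lit 81315400666) (nat_lit 19) (nat_lit 5) (nat_lit 21) (nat_lit 4) (nat_lit 19) (nat_lit 4) (nat_lit 518) (nat_lit 431) (nat_lit 251)) (XT.lf (nat_lit 0) (nat_lit 68260047541) (nat_lit 76) (nat_lit 162030473226) (nat_lit 76) (nat_lit 77002920861) (nat_lit 18) (nat_lit 4) (nat_lit 19) (nat_lit 5) (nat_lit 19) (nat_lit 4) (nat_lit 519) (nat_lit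 431) (nat_lit 250))) (XT.nd (nat_lit 78) (nat_lit 76) (nat_lit 0) (XT.lf (nat_lit 0) (nat_lit 191841982329) (nat_lit 76) (nat_lit 106403741358) (nat_lit 76) (nat_lit 21375597239) (nat_lit 18) (nat_lit 4) (nat_lit 19) (nat_lit 5) (nat_lit 19) (nat_lit 4) (nat_lit 520) (nat_lit 431) (nat_lit 249)) (XT.lf (nat_lit 0) (nat_lit 35846964465) (nat_lit 152) (nat_lit 11542430538) (nat_lit 76) (nat_lit 285147331589) (nat_lit 17) (nat_lit 5) (nat_lit 19) (nat_lit 5) (nat_lit 18) (nat_lit 4) (nat_lit 521) (nat_lit 431) (nat_lit 248))))))) (XT.nd (nat_lit 1092) (nat_lit 76) (nat_lit 0) (XT.nd (nat_lit 546) (nat_lit 228) (nat_lit 0) (XT.nd (nat_lit 234) (nat_lit 152) (nat_lit 0) (XT.nd (nat_lit 78) (nat_lit 76) (nat_lit 0) (XT.lf (nat_lit 0) (nat_lit 97250604023) (nat_lit 152) (nat_lit 232457490833) (nat_lit 0) (nat_lit 16270371232) (nat_lit 16) (nat_lit 5) (nat_lit 18) (nat_lit 4) (nat_lit 16) (nat_lit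 4) (nat_lit 522) (nat_lit 431) (nat_lit 247)) (XT.nd (nat_lit 78) (nat_lit 76) (nat_lit 0) (XT.lf (nat_lit 0) (nat_lit 162699185783) (nat_lit 152) (nat_lit 115625902632) (nat_lit 0) (nat_lit 81718466155) (nat_lit 16) (nat_lit 5) (nat_lit 18) (nat_lit 4) (nat_lit 16) (nat_lit 4) (nat_lit 523) (nat_lit 431) (nat_lit 246)) (XT.lf (nat_lit 0) (nat_lit 7278722401) (nat_lit 76) (nat_lit 224254357120) (nat_lit 76) (nat_lit 143273173837) (nat_lit 15) (nat_lit 4) (nat_lit 16) (nat_lit 5) (nat_lit 16) (nat_lit 4) (nat_lit 524) (nat_lit 431) (nat_lit 245)))) (XT.nd (nat_lit 156) (nat_lit 152) (nat_lit 0) (XT.nd (nat_lit 78) (nat_lit 0) (nat_lit 0) (XT.lf (nat_lit 0) (nat_lit 140341366094) (nat_lit 76) (nat_lit 165424737056) (nat_lit 76) (nat_lit 84443112198) (nat_lit 15) (nat_lit 4) (nat_lit 16) (nat_lit 5) (nat_lit 16) (nat_lit 4) (nat_lit 525) (nat_lit 431) (nat_lit 244)) (XT.lf (nat_lit 0) (nat_lit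 280055729743) (nat_lit 76) (nat_lit 103654338308) (nat_lit 76) (nat_lit 22672292903) (nat_lit 15) (nat_lit 4) (nat_lit 16) (nat_lit 5) (nat_lit 16) (nat_lit 4) (nat_lit 526) (nat_lit 431) (nat_lit 243))) (XT.nd (nat_lit 78) (nat_lit 0) (nat_lit 0) (XT.lf (nat_lit 0) (nat_lit 2821941407) (nat_lit 76) (nat_lit 38058247536) (nat_lit 152) (nat_lit 382448873439) (nat_lit 13) (nat_lit 5) (nat_lit 14) (nat_lit 5) (nat_lit 15) (nat_lit 4) (nat_lit 527) (nat_lit 431) (nat_lit 242)) (XT.lf (nat_lit 0) (nat_lit 109503295862) (nat_lit 152) (nat_lit 299091678660) (nat_lit 0) (nat_lit 32376793598) (nat_lit 13) (nat_lit 5) (nat_lit 15) (nat_lit 4) (nat_lit 13) (nat_lit 4) (nat_lit 528) (nat_lit 431) (nat_lit 241))))) (XT.nd (nat_lit 234) (nat_lit 152) (nat_lit 0) (XT.nd (nat_lit 78) (nat_lit 76) (nat_lit 0) (XT.lf (nat_lit 0) (nat_lit 182180810532) (nat_lit 152) (nat_lit 172230673728) (nat_lit 0) (nat_lit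 105053962282) (nat_lit 13) (nat_lit 5) (nat_lit 15) (nat_lit 4) (nat_lit 13) (nat_lit 4) (nat_lit 529) (nat_lit 431) (nat_lit 240)) (XT.nd (nat_lit 78) (nat_lit 76) (nat_lit 0) (XT.lf (nat_lit 0) (nat_lit 258491578753) (nat_lit 152) (nat_lit 39027860267) (nat_lit 0) (nat_lit 181364400993) (nat_lit 13) (nat_lit 5) (nat_lit 15) (nat_lit 4) (nat_lit 13) (nat_lit 4) (nat_lit 530) (nat_lit 431) (nat_lit 239)) (XT.lf (nat_lit 0) (nat_lit 104167935766) (nat_lit 76) (nat_lit 236075710472) (nat_lit 76) (nat_lit 158948218892) (nat_lit 12) (nat_lit 4) (nat_lit 13) (nat_lit 5) (nat_lit 13) (nat_lit 4) (nat_lit 531) (nat_lit 431) (nat_lit 238)))) (XT.nd (nat_lit 156) (nat_lit 152) (nat_lit 0) (XT.nd (nat_lit 78) (nat_lit 0) (nat_lit 0) (XT.lf (nat_lit 0) (nat_lit 255877317268) (nat_lit 76) (nat_lit 170866373023) (nat_lit 76) (nat_lit 93738582567) (nat_lit 12) (nat_lit 4) (nat_lit 13) (nat_lit 5) (nat_lit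 13) (nat_lit 4) (nat_lit 532) (nat_lit 431) (nat_lit 237)) (XT.lf (nat_lit 0) (nat_lit 415171059738) (nat_lit 76) (nat_lit 102397122044) (nat_lit 76) (nat_lit 25269046945) (nat_lit 12) (nat_lit 4) (nat_lit 13) (nat_lit 5) (nat_lit 13) (nat_lit 4) (nat_lit 533) (nat_lit 431) (nat_lit 236))) (XT.nd (nat_lit 78) (nat_lit 0) (nat_lit 0) (XT.lf (nat_lit 0) (nat_lit 15899434256) (nat_lit 76) (nat_lit 29479970838) (nat_lit 152) (nat_lit 520881745885) (nat_lit 10) (nat_lit 5) (nat_lit 11) (nat_lit 5) (nat_lit 12) (nat_lit 4) (nat_lit 534) (nat_lit 431) (nat_lit 235)) (XT.lf (nat_lit 0) (nat_lit 121643168473) (nat_lit 152) (nat_lit 420858429038) (nat_lit 0) (nat_lit 48187354790) (nat_lit 10) (nat_lit 5) (nat_lit 12) (nat_lit 4) (nat_lit 10) (nat_lit 4) (nat_lit 535) (nat_lit 431) (nat_lit 234)))))) (XT.nd (nat_lit 54444) (nat_lit 0) (nat_lit 8816) (XT.nd (nat_lit 234) (nat_lit 0) (nat_lit 0) (XT.nd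 (nat_lit 78) (nat_lit 76) (nat_lit 0) (XT.lf (nat_lit 0) (nat_lit 202202887588) (nat_lit 152) (nat_lit 285364278008) (nat_lit 0) (nat_lit 128746839727) (nat_lit 10) (nat_lit 5) (nat_lit 12) (nat_lit 4) (nat_lit 10) (nat_lit 4) (nat_lit 536) (nat_lit 431) (nat_lit 233)) (XT.nd (nat_lit 78) (nat_lit 76) (nat_lit 0) (XT.lf (nat_lit 0) (nat_lit 286790106331) (nat_lit 152) (nat_lit 143096393550) (nat_lit 0) (nat_lit 213333835445) (nat_lit 10) (nat_lit 5) (nat_lit 12) (nat_lit 4) (nat_lit 10) (nat_lit 4) (nat_lit 537) (nat_lit 431) (nat_lit 232)) (XT.lf (nat_lit 0) (nat_lit 6491733405) (nat_lit 76) (nat_lit 369215843589) (nat_lit 76) (nat_lit 295759360297) (nat_lit 9) (nat_lit 4) (nat_lit 10) (nat_lit 5) (nat_lit 10) (nat_lit 4) (nat_lit 538) (nat_lit 431) (nat_lit 231)))) (XT.nd (nat_lit 156) (nat_lit 0) (nat_lit 0) (XT.nd (nat_lit 78) (nat_lit 0) (nat_lit 0) (XT.lf (nat_lit 0) (nat_lit 168526337599)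 (nat_lit 76) (nat_lit 302967534891) (nat_lit 76) (nat_lit 229510849308) (nat_lit 9) (nat_lit 4) (nat_lit 10) (nat_lit 5) (nat_lit 10) (nat_lit 4) (nat_lit 539) (nat_lit 431) (nat_lit 230)) (XT.lf (nat_lit 0) (nat_lit 338661802695) (nat_lit 76) (nat_lit 233407246385) (nat_lit 76) (nat_lit 159950368145) (nat_lit 9) (nat_lit 4) (nat_lit 10) (nat_lit 5) (nat_lit 10) (nat_lit 4) (nat_lit 540) (nat_lit 431) (nat_lit 229))) (XT.nd (nat_lit 53976) (nat_lit 0) (nat_lit 8816) (XT.lf (nat_lit 0) (nat_lit 517303213134) (nat_lit 76) (nat_lit 160369358337) (nat_lit 76) (nat_lit 86912296613) (nat_lit 9) (nat_lit 4) (nat_lit 10) (nat_lit 5) (nat_lit 10) (nat_lit 4) (nat_lit 541) (nat_lit 431) (nat_lit 228)) (XT.lf (nat_lit 0) (nat_lit 2063408746) (nat_lit 836) (nat_lit 3839239146) (nat_lit 836) (nat_lit 3839239146) (nat_lit 125) (nat_lit 3) (nat_lit 136) (nat_lit 3) (nat_lit 136) (nat_lit 5) (nat_lit 432)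 (nat_lit 432) (nat_lit 336))))) (XT.nd (nat_lit 312) (nat_lit 0) (nat_lit 152) (XT.nd (nat_lit 156) (nat_lit 0) (nat_lit 76) (XT.nd (nat_lit 78) (nat_lit 0) (nat_lit 76) (XT.lf (nat_lit 76) (nat_lit 1928811434) (nat_lit 0) (nat_lit 2501985627) (nat_lit 836) (nat_lit 15529964500) (nat_lit 126) (nat_lit 5) (nat_lit 125) (nat_lit 3) (nat_lit 136) (nat_lit 5) (nat_lit 433) (nat_lit 432) (nat_lit 335)) (XT.lf (nat_lit 0) (nat_lit 4984656722) (nat_lit 760) (nat_lit 8294196494) (nat_lit 836) (nat_lit 7171015396) (nat_lit 126) (nat_lit 5) (nat_lit 136) (nat_lit 5) (nat_lit 137) (nat_lit 5) (nat_lit 434) (nat_lit 432) (nat_lit 334))) (XT.nd (nat_lit 78) (nat_lit 0) (nat_lit 76) (XT.lf (nat_lit 76) (nat_lit 1945444530) (nat_lit 0) (nat_lit 3681736086) (nat_lit 836) (nat_lit 15333205887) (nat_lit 127) (nat_lit 5) (nat_lit 126) (nat_lit 5) (nat_lit 137) (nat_lit 5) (nat_lit 435) (nat_lit 432) (nat_lit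 333)) (XT.lf (nat_lit 0) (nat_lit 6534489005) (nat_lit 760) (nat_lit 8613248779) (nat_lit 836) (nat_lit 6337063446) (nat_lit 127) (nat_lit 5) (nat_lit 137) (nat_lit 5) (nat_lit 138) (nat_lit 5) (nat_lit 436) (nat_lit 432) (nat_lit 332)))) (XT.nd (nat_lit 156) (nat_lit 0) (nat_lit 76) (XT.nd (nat_lit 78) (nat_lit 0) (nat_lit 76) (XT.lf (nat_lit 76) (nat_lit 2315900910) (nat_lit 0) (nat_lit 5258291910) (nat_lit 836) (nat_lit 14456896045) (nat_lit 128) (nat_lit 5) (nat_lit 127) (nat_lit 5) (nat_lit 138) (nat_lit 5) (nat_lit 437) (nat_lit 432) (nat_lit 331)) (XT.lf (nat_lit 0) (nat_lit 8885081735) (nat_lit 760) (nat_lit 8596069797) (nat_lit 836) (nat_lit 5112582852) (nat_lit 128) (nat_lit 5) (nat_lit 138) (nat_lit 5) (nat_lit 139) (nat_lit 5) (nat_lit 438) (nat_lit 432) (nat_lit 330))) (XT.nd (nat_lit 78) (nat_lit 0) (nat_lit 76) (XT.lf (nat_lit 76) (nat_lit 3085071625) (nat_lit 0) (nat_lit 7302157951)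 (nat_lit 836) (nat_lit 12791000210) (nat_lit 129) (nat_lit 5) (nat_lit 128) (nat_lit 5) (nat_lit 139) (nat_lit 5) (nat_lit 439) (nat_lit 432) (nat_lit 329)) (XT.lf (nat_lit 0) (nat_lit 12157001354) (nat_lit 760) (nat_lit 8198032226) (nat_lit 836) (nat_lit 3427293723) (nat_lit 129) (nat_lit 5) (nat_lit 139) (nat_lit 5) (nat_lit 140) (nat_lit 5) (nat_lit 440) (nat_lit 432) (nat_lit 328))))))))
noncomputable def xc166 : XT := (XT.nd (nat_lit 2184) (nat_lit 2508) (nat_lit 0) (XT.nd (nat_lit 1092) (nat_lit 1900) (nat_lit 0) (XT.nd (nat_lit 546) (nat_lit 1292) (nat_lit 0) (XT.nd (nat_lit 234) (nat_lit 836) (nat_lit 0) (XT.nd (nat_lit 78) (nat_lit 684) (nat_lit 0) (XT.lf (nat_lit 76) (nat_lit 4303383043) (nat_lit 0) (nat_lit 9890859588) (nat_lit 836) (nat_lit 10213441041) (nat_lit 130) (nat_lit 5) (nat_lit 129) (nat_lit 5) (nat_lit 140) (nat_lit 5) (nat_lit 441) (nat_lit 432) (nat_lit 327)) (XT.nd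 (nat_lit 78) (nat_lit 760) (nat_lit 0) (XT.lf (nat_lit 0) (nat_lit 16483961568) (nat_lit 760) (nat_lit 7369069619) (nat_lit 76) (nat_lit 1203748769) (nat_lit 130) (nat_lit 5) (nat_lit 140) (nat_lit 5) (nat_lit 131) (nat_lit 5) (nat_lit 442) (nat_lit 432) (nat_lit 326)) (XT.lf (nat_lit 0) (nat_lit 6027215713) (nat_lit 760) (nat_lit 13109942589) (nat_lit 836) (nat_lit 6588725901) (nat_lit 120) (nat_lit 5) (nat_lit 130) (nat_lit 5) (nat_lit 131) (nat_lit 5) (nat_lit 443) (nat_lit 432) (nat_lit 325)))) (XT.nd (nat_lit 156) (nat_lit 456) (nat_lit 0) (XT.nd (nat_lit 78) (nat_lit 380) (nat_lit 0) (XT.lf (nat_lit 0) (nat_lit 20342786600) (nat_lit 760) (nat_lit 1698018003) (nat_lit 836) (nat_lit 4381752182) (nat_lit 120) (nat_lit 5) (nat_lit 130) (nat_lit 5) (nat_lit 131) (nat_lit 5) (nat_lit 444) (nat_lit 432) (nat_lit 324)) (XT.lf (nat_lit 0) (nat_lit 8319365963) (nat_lit 380) (nat_lit 17054060079)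 (nat_lit 456) (nat_lit 1766449799) (nat_lit 115) (nat_lit 5) (nat_lit 120) (nat_lit 5) (nat_lit 121) (nat_lit 5) (nat_lit 445) (nat_lit 432) (nat_lit 323))) (XT.nd (nat_lit 78) (nat_lit 380) (nat_lit 0) (XT.lf (nat_lit 0) (nat_lit 1074197247) (nat_lit 456) (nat_lit 4289721157) (nat_lit 76) (nat_lit 22522083301) (nat_lit 114) (nat_lit 5) (nat_lit 120) (nat_lit 5) (nat_lit 115) (nat_lit 5) (nat_lit 446) (nat_lit 432) (nat_lit 322)) (XT.lf (nat_lit 0) (nat_lit 4278861055) (nat_lit 456) (nat_lit 17476834711) (nat_lit 76) (nat_lit 6898224897) (nat_lit 109) (nat_lit 5) (nat_lit 115) (nat_lit 5) (nat_lit 110) (nat_lit 5) (nat_lit 447) (nat_lit 432) (nat_lit 321))))) (XT.nd (nat_lit 234) (nat_lit 608) (nat_lit 0) (XT.nd (nat_lit 78) (nat_lit 684) (nat_lit 0) (XT.lf (nat_lit 0) (nat_lit 7799488700) (nat_lit 456) (nat_lit 1985980821) (nat_lit 76) (nat_lit 19666981561) (nat_lit 109) (nat_lit 5) (nat_lit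 115) (nat_lit 5) (nat_lit 110) (nat_lit 5) (nat_lit 448) (nat_lit 432) (nat_lit 320)) (XT.nd (nat_lit 78) (nat_lit 304) (nat_lit 0) (XT.lf (nat_lit 0) (nat_lit 11767831182) (nat_lit 456) (nat_lit 15581665255) (nat_lit 76) (nat_lit 2927829359) (nat_lit 104) (nat_lit 5) (nat_lit 110) (nat_lit 5) (nat_lit 105) (nat_lit 5) (nat_lit 449) (nat_lit 432) (nat_lit 319)) (XT.lf (nat_lit 0) (nat_lit 1003431253) (nat_lit 304) (nat_lit 15135847459) (nat_lit 380) (nat_lit 14993932994) (nat_lit 100) (nat_lit 5) (nat_lit 104) (nat_lit 5) (nat_lit 105) (nat_lit 5) (nat_lit 450) (nat_lit 432) (nat_lit 318)))) (XT.nd (nat_lit 156) (nat_lit 304) (nat_lit 0) (XT.nd (nat_lit 78) (nat_lit 304) (nat_lit 0) (XT.lf (nat_lit 0) (nat_lit 18952558127) (nat_lit 304) (nat_lit 2035211831) (nat_lit 380) (nat_lit 11031200152) (nat_lit 100) (nat_lit 5) (nat_lit 104) (nat_lit 5) (nat_lit 105) (nat_lit 5) (nat_lit 451) (nat_lit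 432) (nat_lit 317)) (XT.lf (nat_lit 0) (nat_lit 4815111310) (nat_lit 304) (nat_lit 21516575501) (nat_lit 380) (nat_lit 6604681253) (nat_lit 96) (nat_lit 5) (nat_lit 100) (nat_lit 5) (nat_lit 101) (nat_lit 5) (nat_lit 452) (nat_lit 432) (nat_lit 316))) (XT.nd (nat_lit 78) (nat_lit 304) (nat_lit 0) (XT.lf (nat_lit 0) (nat_lit 24003840719) (nat_lit 304) (nat_lit 8188056989) (nat_lit 380) (nat_lit 1695284901) (nat_lit 96) (nat_lit 5) (nat_lit 100) (nat_lit 5) (nat_lit 101) (nat_lit 5) (nat_lit 453) (nat_lit 432) (nat_lit 315)) (XT.lf (nat_lit 0) (nat_lit 3586455891) (nat_lit 304) (nat_lit 25458670467) (nat_lit 76) (nat_lit 5825832146) (nat_lit 92) (nat_lit 5) (nat_lit 96) (nat_lit 5) (nat_lit 93) (nat_lit 5) (nat_lit 454) (nat_lit 432) (nat_lit 314)))))) (XT.nd (nat_lit 546) (nat_lit 836) (nat_lit 0) (XT.nd (nat_lit 234) (nat_lit 760) (nat_lit 0) (XT.nd (nat_lit 78) (nat_lit 304) (nat_lit 0) (XT.lf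 (nat_lit 0) (nat_lit 9374932878) (nat_lit 304) (nat_lit 6050531350) (nat_lit 76) (nat_lit 20462089681) (nat_lit 92) (nat_lit 5) (nat_lit 96) (nat_lit 5) (nat_lit 93) (nat_lit 5) (nat_lit 455) (nat_lit 432) (nat_lit 313)) (XT.nd (nat_lit 78) (nat_lit 0) (nat_lit 0) (XT.lf (nat_lit 0) (nat_lit 14795823012) (nat_lit 304) (nat_lit 883508587) (nat_lit 380) (nat_lit 21264323907) (nat_lit 88) (nat_lit 5) (nat_lit 92) (nat_lit 5) (nat_lit 93) (nat_lit 5) (nat_lit 456) (nat_lit 432) (nat_lit 312)) (XT.lf (nat_lit 0) (nat_lit 22623297351) (nat_lit 380) (nat_lit 1385019372) (nat_lit 76) (nat_lit 14028029363) (nat_lit 88) (nat_lit 5) (nat_lit 93) (nat_lit 5) (nat_lit 89) (nat_lit 5) (nat_lit 457) (nat_lit 432) (nat_lit 311)))) (XT.nd (nat_lit 156) (nat_lit 304) (nat_lit 0) (XT.nd (nat_lit 78) (nat_lit 228) (nat_lit 0) (XT.lf (nat_lit 0) (nat_lit 21070251224) (nat_lit 228) (nat_lit 9183469044) (nat_lit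 304) (nat_lit 8912989178) (nat_lit 85) (nat_lit 5) (nat_lit 88) (nat_lit 5) (nat_lit 89) (nat_lit 5) (nat_lit 458) (nat_lit 432) (nat_lit 310)) (XT.lf (nat_lit 0) (nat_lit 4378380309) (nat_lit 228) (nat_lit 34075035165) (nat_lit 304) (nat_lit 1890789080) (nat_lit 82) (nat_lit 5) (nat_lit 85) (nat_lit 5) (nat_lit 86) (nat_lit 5) (nat_lit 459) (nat_lit 432) (nat_lit 309))) (XT.nd (nat_lit 78) (nat_lit 228) (nat_lit 0) (XT.lf (nat_lit 0) (nat_lit 5765034033) (nat_lit 304) (nat_lit 13206907893) (nat_lit 76) (nat_lit 22581454254) (nat_lit 81) (nat_lit 5) (nat_lit 85) (nat_lit 5) (nat_lit 82) (nat_lit 5) (nat_lit 460) (nat_lit 432) (nat_lit 308)) (XT.lf (nat_lit 0) (nat_lit 11005767507) (nat_lit 228) (nat_lit 2902304793) (nat_lit 304) (nat_lit 28905027897) (nat_lit 78) (nat_lit 5) (nat_lit 81) (nat_lit 5) (nat_lit 82) (nat_lit 5) (nat_lit 461) (nat_lit 432) (nat_lit 307))))) (XT.nd (nat_lit 234)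 (nat_lit 608) (nat_lit 0) (XT.nd (nat_lit 78) (nat_lit 228) (nat_lit 0) (XT.lf (nat_lit 0) (nat_lit 22899929626) (nat_lit 304) (nat_lit 7464325637) (nat_lit 76) (nat_lit 13749451734) (nat_lit 78) (nat_lit 5) (nat_lit 82) (nat_lit 5) (nat_lit 79) (nat_lit 5) (nat_lit 462) (nat_lit 432) (nat_lit 306)) (XT.nd (nat_lit 78) (nat_lit 0) (nat_lit 0) (XT.lf (nat_lit 0) (nat_lit 18639578808) (nat_lit 228) (nat_lit 14036787799) (nat_lit 304) (nat_lit 12786229080) (nat_lit 75) (nat_lit 5) (nat_lit 78) (nat_lit 5) (nat_lit 79) (nat_lit 5) (nat_lit 463) (nat_lit 432) (nat_lit 305)) (XT.lf (nat_lit 0) (nat_lit 43115076710) (nat_lit 304) (nat_lit 620690524) (nat_lit 76) (nat_lit 3134489864) (nat_lit 75) (nat_lit 5) (nat_lit 79) (nat_lit 5) (nat_lit 76) (nat_lit 5) (nat_lit 464) (nat_lit 432) (nat_lit 304)))) (XT.nd (nat_lit 156) (nat_lit 152) (nat_lit 0) (XT.nd (nat_lit 78) (nat_lit 228) (nat_lit 0) (XT.lf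 (nat_lit 0) (nat_lit 6211553848) (nat_lit 228) (nat_lit 20877696850) (nat_lit 76) (nat_lit 21221208281) (nat_lit 72) (nat_lit 5) (nat_lit 75) (nat_lit 5) (nat_lit 73) (nat_lit 5) (nat_lit 465) (nat_lit 432) (nat_lit 303)) (XT.lf (nat_lit 0) (nat_lit 7253620210) (nat_lit 228) (nat_lit 9417393233) (nat_lit 304) (nat_lit 33142550863) (nat_lit 69) (nat_lit 5) (nat_lit 72) (nat_lit 5) (nat_lit 73) (nat_lit 5) (nat_lit 466) (nat_lit 432) (nat_lit 302))) (XT.nd (nat_lit 78) (nat_lit 152) (nat_lit 0) (XT.lf (nat_lit 0) (nat_lit 28152194515) (nat_lit 304) (nat_lit 14011437211) (nat_lit 76) (nat_lit 9203256446) (nat_lit 69) (nat_lit 5) (nat_lit 73) (nat_lit 5) (nat_lit 70) (nat_lit 5) (nat_lit 467) (nat_lit 432) (nat_lit 301)) (XT.lf (nat_lit 0) (nat_lit 16327794685) (nat_lit 152) (nat_lit 24285810487) (nat_lit 228) (nat_lit 12363965198) (nat_lit 67) (nat_lit 5) (nat_lit 69) (nat_lit 5) (nat_lit 70)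 (nat_lit 5) (nat_lit 468) (nat_lit 432) (nat_lit 300))))))) (XT.nd (nat_lit 1092) (nat_lit 1064) (nat_lit 0) (XT.nd (nat_lit 546) (nat_lit 684) (nat_lit 0) (XT.nd (nat_lit 234) (nat_lit 380) (nat_lit 0) (XT.nd (nat_lit 78) (nat_lit 380) (nat_lit 0) (XT.lf (nat_lit 0) (nat_lit 48665604567) (nat_lit 152) (nat_lit 5266710588) (nat_lit 228) (nat_lit 724760719) (nat_lit 67) (nat_lit 5) (nat_lit 69) (nat_lit 5) (nat_lit 70) (nat_lit 5) (nat_lit 469) (nat_lit 432) (nat_lit 299)) (XT.nd (nat_lit 78) (nat_lit 152) (nat_lit 0) (XT.lf (nat_lit 0) (nat_lit 11784443396) (nat_lit 228) (nat_lit 29754353818) (nat_lit 76) (nat_lit 14839985653) (nat_lit 64) (nat_lit 5) (nat_lit 67) (nat_lit 5) (nat_lit 65) (nat_lit 5) (nat_lit 470) (nat_lit 432) (nat_lit 298)) (XT.lf (nat_lit 0) (nat_lit 2885357921) (nat_lit 152) (nat_lit 22240990775) (nat_lit 228) (nat_lit 33048053110) (nat_lit 62) (nat_lit 5) (nat_lit 64)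 (nat_lit 5) (nat_lit 65) (nat_lit 5) (nat_lit 471) (nat_lit 432) (nat_lit 297)))) (XT.nd (nat_lit 156) (nat_lit 228) (nat_lit 0) (XT.nd (nat_lit 78) (nat_lit 152) (nat_lit 0) (XT.lf (nat_lit 0) (nat_lit 38185395394) (nat_lit 152) (nat_lit 1451002353) (nat_lit 228) (nat_lit 20398352043) (nat_lit 62) (nat_lit 5) (nat_lit 64) (nat_lit 5) (nat_lit 65) (nat_lit 5) (nat_lit 472) (nat_lit 432) (nat_lit 296)) (XT.lf (nat_lit 0) (nat_lit 13367444655) (nat_lit 152) (nat_lit 42028626354) (nat_lit 228) (nat_lit 6565838571) (nat_lit 60) (nat_lit 5) (nat_lit 62) (nat_lit 5) (nat_lit 63) (nat_lit 5) (nat_lit 473) (nat_lit 432) (nat_lit 295))) (XT.nd (nat_lit 78) (nat_lit 152) (nat_lit 0) (XT.lf (nat_lit 0) (nat_lit 8100737237) (nat_lit 228) (nat_lit 13021955013) (nat_lit 76) (nat_lit 42836665395) (nat_lit 59) (nat_lit 5) (nat_lit 62) (nat_lit 5) (nat_lit 60) (nat_lit 5) (nat_lit 474) (nat_lit 432) (nat_lit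 294)) (XT.lf (nat_lit 0) (nat_lit 23689062408) (nat_lit 228) (nat_lit 41035050683) (nat_lit 76) (nat_lit 1306729825) (nat_lit 57) (nat_lit 5) (nat_lit 60) (nat_lit 5) (nat_lit 58) (nat_lit 5) (nat_lit 475) (nat_lit 432) (nat_lit 293))))) (XT.nd (nat_lit 234) (nat_lit 304) (nat_lit 0) (XT.nd (nat_lit 78) (nat_lit 380) (nat_lit 0) (XT.lf (nat_lit 0) (nat_lit 40624655380) (nat_lit 228) (nat_lit 3182626407) (nat_lit 76) (nat_lit 24370228495) (nat_lit 57) (nat_lit 5) (nat_lit 60) (nat_lit 5) (nat_lit 58) (nat_lit 5) (nat_lit 476) (nat_lit 432) (nat_lit 292)) (XT.nd (nat_lit 78) (nat_lit 228) (nat_lit 0) (XT.lf (nat_lit 0) (nat_lit 37767027057) (nat_lit 152) (nat_lit 21227201978) (nat_lit 228) (nat_lit 11407922320) (nat_lit 55) (nat_lit 5) (nat_lit 57) (nat_lit 5) (nat_lit 58) (nat_lit 5) (nat_lit 477) (nat_lit 432) (nat_lit 291)) (XT.lf (nat_lit 0) (nat_lit 5592122060) (nat_lit 228) (nat_lit 64453966958)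 (nat_lit 76) (nat_lit 2676341945) (nat_lit 52) (nat_lit 5) (nat_lit 55) (nat_lit 5) (nat_lit 53) (nat_lit 5) (nat_lit 478) (nat_lit 432) (nat_lit 290)))) (XT.nd (nat_lit 156) (nat_lit 152) (nat_lit 0) (XT.nd (nat_lit 78) (nat_lit 152) (nat_lit 0) (XT.lf (nat_lit 0) (nat_lit 23966116035) (nat_lit 228) (nat_lit 23329114204) (nat_lit 76) (nat_lit 27808777476) (nat_lit 52) (nat_lit 5) (nat_lit 55) (nat_lit 5) (nat_lit 53) (nat_lit 5) (nat_lit 479) (nat_lit 432) (nat_lit 289)) (XT.lf (nat_lit 0) (nat_lit 20504234039) (nat_lit 152) (nat_lit 23072408334) (nat_lit 228) (nat_lit 34012129618) (nat_lit 50) (nat_lit 5) (nat_lit 52) (nat_lit 5) (nat_lit 53) (nat_lit 5) (nat_lit 480) (nat_lit 432) (nat_lit 288))) (XT.nd (nat_lit 78) (nat_lit 152) (nat_lit 0) (XT.lf (nat_lit 0) (nat_lit 64603857555) (nat_lit 228) (nat_lit 12886215703) (nat_lit 76) (nat_lit 2685893400) (nat_lit 50) (nat_lit 5) (nat_lit 53)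 (nat_lit 5) (nat_lit 51) (nat_lit 4) (nat_lit 481) (nat_lit 432) (nat_lit 287)) (XT.lf (nat_lit 0) (nat_lit 4594124016) (nat_lit 152) (nat_lit 48685388324) (nat_lit 76) (nat_lit 29563774816) (nat_lit 48) (nat_lit 5) (nat_lit 50) (nat_lit 5) (nat_lit 49) (nat_lit 5) (nat_lit 482) (nat_lit 432) (nat_lit 286)))))) (XT.nd (nat_lit 546) (nat_lit 532) (nat_lit 0) (XT.nd (nat_lit 234) (nat_lit 304) (nat_lit 0) (XT.nd (nat_lit 78) (nat_lit 228) (nat_lit 0) (XT.lf (nat_lit 0) (nat_lit 25464998475) (nat_lit 152) (nat_lit 1894170496) (nat_lit 76) (nat_lit 58261058214) (nat_lit 48) (nat_lit 5) (nat_lit 50) (nat_lit 5) (nat_lit 49) (nat_lit 5) (nat_lit 483) (nat_lit 432) (nat_lit 285)) (XT.nd (nat_lit 78) (nat_lit 76) (nat_lit 0) (XT.lf (nat_lit 0) (nat_lit 48149417847) (nat_lit 228) (nat_lit 39713584123) (nat_lit 76) (nat_lit 634512438) (nat_lit 46) (nat_lit 5) (nat_lit 49) (nat_lit 5) (nat_lit 47) (nat_lit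 4) (nat_lit 484) (nat_lit 432) (nat_lit 284)) (XT.lf (nat_lit 0) (nat_lit 10425599433) (nat_lit 76) (nat_lit 62184309218) (nat_lit 152) (nat_lit 18876665056) (nat_lit 45) (nat_lit 5) (nat_lit 46) (nat_lit 5) (nat_lit 47) (nat_lit 4) (nat_lit 485) (nat_lit 432) (nat_lit 283)))) (XT.nd (nat_lit 156) (nat_lit 76) (nat_lit 0) (XT.nd (nat_lit 78) (nat_lit 152) (nat_lit 0) (XT.lf (nat_lit 0) (nat_lit 4232492374) (nat_lit 152) (nat_lit 30212939481) (nat_lit 76) (nat_lit 60142712477) (nat_lit 44) (nat_lit 5) (nat_lit 46) (nat_lit 5) (nat_lit 45) (nat_lit 5) (nat_lit 486) (nat_lit 432) (nat_lit 282)) (XT.lf (nat_lit 0) (nat_lit 23620532532) (nat_lit 152) (nat_lit 4609044407) (nat_lit 228) (nat_lit 69581401631) (nat_lit 42) (nat_lit 5) (nat_lit 44) (nat_lit 5) (nat_lit 45) (nat_lit 5) (nat_lit 487) (nat_lit 432) (nat_lit 281))) (XT.nd (nat_lit 78) (nat_lit 76) (nat_lit 0) (XT.lf (nat_lit 0) (nat_lit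 54361815488) (nat_lit 228) (nat_lit 20403846267) (nat_lit 76) (nat_lit 26382527973) (nat_lit 42) (nat_lit 5) (nat_lit 45) (nat_lit 5) (nat_lit 43) (nat_lit 4) (nat_lit 488) (nat_lit 432) (nat_lit 280)) (XT.lf (nat_lit 0) (nat_lit 37183260590) (nat_lit 76) (nat_lit 45271669768) (nat_lit 152) (nat_lit 22164618052) (nat_lit 41) (nat_lit 5) (nat_lit 42) (nat_lit 5) (nat_lit 43) (nat_lit 4) (nat_lit 489) (nat_lit 432) (nat_lit 279))))) (XT.nd (nat_lit 312) (nat_lit 228) (nat_lit 0) (XT.nd (nat_lit 156) (nat_lit 76) (nat_lit 0) (XT.nd (nat_lit 78) (nat_lit 152) (nat_lit 0) (XT.lf (nat_lit 0) (nat_lit 3919570687) (nat_lit 152) (nat_lit 9955715173) (nat_lit 76) (nat_lit 94368840611) (nat_lit 40) (nat_lit 5) (nat_lit 42) (nat_lit 5) (nat_lit 41) (nat_lit 5) (nat_lit 490) (nat_lit 432) (nat_lit 278)) (XT.lf (nat_lit 0) (nat_lit 31685554833) (nat_lit 228) (nat_lit 60622110367) (nat_lit 76) (nat_lit 19667977551)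 (nat_lit 38) (nat_lit 5) (nat_lit 41) (nat_lit 5) (nat_lit 39) (nat_lit 4) (nat_lit 491) (nat_lit 432) (nat_lit 277))) (XT.nd (nat_lit 78) (nat_lit 76) (nat_lit 0) (XT.lf (nat_lit 0) (nat_lit 61236945528) (nat_lit 228) (nat_lit 44868129) (nat_lit 76) (nat_lit 54592065976) (nat_lit 38) (nat_lit 5) (nat_lit 41) (nat_lit 5) (nat_lit 39) (nat_lit 4) (nat_lit 492) (nat_lit 432) (nat_lit 276)) (XT.lf (nat_lit 0) (nat_lit 65659691564) (nat_lit 76) (nat_lit 27629702913) (nat_lit 152) (nat_lit 26626459592) (nat_lit 37) (nat_lit 5) (nat_lit 38) (nat_lit 5) (nat_lit 39) (nat_lit 4) (nat_lit 493) (nat_lit 432) (nat_lit 275)))) (XT.nd (nat_lit 156) (nat_lit 76) (nat_lit 0) (XT.nd (nat_lit 78) (nat_lit 0) (nat_lit 0) (XT.lf (nat_lit 0) (nat_lit 2986772535) (nat_lit 152) (nat_lit 113483198955) (nat_lit 76) (nat_lit 7673214323) (nat_lit 35) (nat_lit 5) (nat_lit 37) (nat_lit 5) (nat_lit 36) (nat_lit 4) (nat_lit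 494) (nat_lit 432) (nat_lit 274)) (XT.lf (nat_lit 0) (nat_lit 34571076470) (nat_lit 152) (nat_lit 48737933412) (nat_lit 76) (nat_lit 45181787729) (nat_lit 35) (nat_lit 5) (nat_lit 37) (nat_lit 5) (nat_lit 36) (nat_lit 4) (nat_lit 495) (nat_lit 432) (nat_lit 273))) (XT.nd (nat_lit 78) (nat_lit 0) (nat_lit 0) (XT.lf (nat_lit 0) (nat_lit 19877879643) (nat_lit 76) (nat_lit 48165513311) (nat_lit 152) (nat_lit 64996957298) (nat_lit 34) (nat_lit 5) (nat_lit 35) (nat_lit 5) (nat_lit 36) (nat_lit 4) (nat_lit 496) (nat_lit 432) (nat_lit 272)) (XT.lf (nat_lit 0) (nat_lit 93613669587) (nat_lit 76) (nat_lit 10399532974) (nat_lit 152) (nat_lit 33762984215) (nat_lit 34) (nat_lit 5) (nat_lit 35) (nat_lit 5) (nat_lit 36) (nat_lit 4) (nat_lit 497) (nat_lit 432) (nat_lit 271))))))))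
noncomputable def xc167 : XT := (XT.nd (nat_lit 2184) (nat_lit 456) (nat_lit 0) (XT.nd (nat_lit 1092) (nat_lit 684) (nat_lit 0) (XT.nd (nat_lit 546) (nat_lit 304) (nat_lit 0) (XT.nd (nat_lit 234) (nat_lit 228) (nat_lit 0) (XT.nd (nat_lit 78) (nat_lit 152) (nat_lit 0) (XT.lf (nat_lit 0) (nat_lit 28748001107) (nat_lit 76) (nat_lit 113937616081) (nat_lit 76) (nat_lit 17992320) (nat_lit 33) (nat_lit 4) (nat_lit 34) (nat_lit 5) (nat_lit 34) (nat_lit 4) (nat_lit 498) (nat_lit 432) (nat_lit 270)) (XT.nd (nat_lit 78) (nat_lit 76) (nat_lit 0) (XT.lf (nat_lit 0) (nat_lit 35209963017) (nat_lit 152) (nat_lit 41741203462) (nat_lit 76) (nat_lit 70852131663) (nat_lit 32) (nat_lit 5) (nat_lit 34) (nat_lit 5) (nat_lit 33) (nat_lit 4) (nat_lit 499) (nat_lit 432) (nat_lit 269)) (XT.lf (nat_lit 0) (nat_lit 35207827352) (nat_lit 76) (nat_lit 37539179215) (nat_lit 152) (nat_lit 80383535233) (nat_lit 31) (nat_lit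 5) (nat_lit 32) (nat_lit 5) (nat_lit 33) (nat_lit 4) (nat_lit 500) (nat_lit 432) (nat_lit 268)))) (XT.nd (nat_lit 156) (nat_lit 152) (nat_lit 0) (XT.nd (nat_lit 78) (nat_lit 76) (nat_lit 0) (XT.lf (nat_lit 0) (nat_lit 112938012996) (nat_lit 152) (nat_lit 41309603057) (nat_lit 0) (nat_lit 4437676142) (nat_lit 31) (nat_lit 5) (nat_lit 33) (nat_lit 4) (nat_lit 31) (nat_lit 4) (nat_lit 501) (nat_lit 432) (nat_lit 267)) (XT.lf (nat_lit 0) (nat_lit 39789739270) (nat_lit 76) (nat_lit 116584130686) (nat_lit 76) (nat_lit 8082145230) (nat_lit 30) (nat_lit 4) (nat_lit 31) (nat_lit 5) (nat_lit 31) (nat_lit 4) (nat_lit 502) (nat_lit 432) (nat_lit 266))) (XT.nd (nat_lit 78) (nat_lit 76) (nat_lit 0) (XT.lf (nat_lit 0) (nat_lit 31168873059) (nat_lit 152) (nat_lit 44607365782) (nat_lit 76) (nat_lit 94678984550) (nat_lit 29) (nat_lit 5) (nat_lit 31) (nat_lit 5) (nat_lit 30) (nat_lit 4) (nat_lit 503) (nat_lit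 432) (nat_lit 265)) (XT.lf (nat_lit 0) (nat_lit 40619648463) (nat_lit 76) (nat_lit 32124107316) (nat_lit 152) (nat_lit 103972365262) (nat_lit 28) (nat_lit 5) (nat_lit 29) (nat_lit 5) (nat_lit 30) (nat_lit 4) (nat_lit 504) (nat_lit 432) (nat_lit 264))))) (XT.nd (nat_lit 234) (nat_lit 152) (nat_lit 0) (XT.nd (nat_lit 78) (nat_lit 152) (nat_lit 0) (XT.lf (nat_lit 0) (nat_lit 117378020430) (nat_lit 152) (nat_lit 51824490904) (nat_lit 0) (nat_lit 14038520421) (nat_lit 28) (nat_lit 5) (nat_lit 30) (nat_lit 4) (nat_lit 28) (nat_lit 4) (nat_lit 505) (nat_lit 432) (nat_lit 263)) (XT.nd (nat_lit 78) (nat_lit 76) (nat_lit 0) (XT.lf (nat_lit 0) (nat_lit 37326838635) (nat_lit 76) (nat_lit 128025365441) (nat_lit 76) (nat_lit 24684573707) (nat_lit 27) (nat_lit 4) (nat_lit 28) (nat_lit 5) (nat_lit 28) (nat_lit 4) (nat_lit 506) (nat_lit 432) (nat_lit 262)) (XT.lf (nat_lit 0) (nat_lit 18849848186) (nat_lit 152)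 (nat_lit 64699833163) (nat_lit 76) (nat_lit 113563603406) (nat_lit 26) (nat_lit 5) (nat_lit 28) (nat_lit 5) (nat_lit 27) (nat_lit 4) (nat_lit 507) (nat_lit 432) (nat_lit 261)))) (XT.nd (nat_lit 156) (nat_lit 76) (nat_lit 0) (XT.nd (nat_lit 78) (nat_lit 0) (nat_lit 0) (XT.lf (nat_lit 0) (nat_lit 28206693235) (nat_lit 76) (nat_lit 35963983258) (nat_lit 152) (nat_lit 140330744940) (nat_lit 25) (nat_lit 5) (nat_lit 26) (nat_lit 5) (nat_lit 27) (nat_lit 4) (nat_lit 508) (nat_lit 432) (nat_lit 260)) (XT.lf (nat_lit 0) (nat_lit 113088693703) (nat_lit 152) (nat_lit 84438172043) (nat_lit 0) (nat_lit 14665541879) (nat_lit 25) (nat_lit 5) (nat_lit 27) (nat_lit 4) (nat_lit 25) (nat_lit 4) (nat_lit 509) (nat_lit 432) (nat_lit 259))) (XT.nd (nat_lit 78) (nat_lit 0) (nat_lit 0) (XT.lf (nat_lit 0) (nat_lit 11797111280) (nat_lit 76) (nat_lit 153428180902) (nat_lit 76) (nat_lit 55004016978) (nat_lit 24) (nat_lit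 4) (nat_lit 25) (nat_lit 5) (nat_lit 25) (nat_lit 4) (nat_lit 510) (nat_lit 432) (nat_lit 258)) (XT.lf (nat_lit 0) (nat_lit 115773587066) (nat_lit 76) (nat_lit 105624074761) (nat_lit 76) (nat_lit 7198946933) (nat_lit 24) (nat_lit 4) (nat_lit 25) (nat_lit 5) (nat_lit 25) (nat_lit 4) (nat_lit 511) (nat_lit 432) (nat_lit 257)))))) (XT.nd (nat_lit 546) (nat_lit 304) (nat_lit 0) (XT.nd (nat_lit 234) (nat_lit 228) (nat_lit 0) (XT.nd (nat_lit 78) (nat_lit 76) (nat_lit 0) (XT.lf (nat_lit 0) (nat_lit 41619197867) (nat_lit 152) (nat_lit 13106690203) (nat_lit 76) (nat_lit 182622871927) (nat_lit 23) (nat_lit 5) (nat_lit 25) (nat_lit 5) (nat_lit 24) (nat_lit 4) (nat_lit 512) (nat_lit 432) (nat_lit 256)) (XT.nd (nat_lit 78) (nat_lit 0) (nat_lit 0) (XT.lf (nat_lit 0) (nat_lit 94116831680) (nat_lit 152) (nat_lit 151964852948) (nat_lit 0) (nat_lit 376907755) (nat_lit 22) (nat_lit 5) (nat_lit 24) (nat_lit 4)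 (nat_lit 22) (nat_lit 4) (nat_lit 513) (nat_lit 432) (nat_lit 255)) (XT.lf (nat_lit 0) (nat_lit 150361125272) (nat_lit 152) (nat_lit 48986293911) (nat_lit 0) (nat_lit 56620408342) (nat_lit 22) (nat_lit 5) (nat_lit 24) (nat_lit 4) (nat_lit 22) (nat_lit 4) (nat_lit 514) (nat_lit 432) (nat_lit 254)))) (XT.nd (nat_lit 156) (nat_lit 152) (nat_lit 0) (XT.nd (nat_lit 78) (nat_lit 0) (nat_lit 0) (XT.lf (nat_lit 0) (nat_lit 61094782276) (nat_lit 76) (nat_lit 149275783867) (nat_lit 76) (nat_lit 55534311692) (nat_lit 21) (nat_lit 4) (nat_lit 22) (nat_lit 5) (nat_lit 22) (nat_lit 4) (nat_lit 515) (nat_lit 432) (nat_lit 253)) (XT.lf (nat_lit 0) (nat_lit 178378809847) (nat_lit 76) (nat_lit 95830363787) (nat_lit 76) (nat_lit 2088172333) (nat_lit 21) (nat_lit 4) (nat_lit 22) (nat_lit 5) (nat_lit 22) (nat_lit 4) (nat_lit 516) (nat_lit 432) (nat_lit 252))) (XT.nd (nat_lit 78) (nat_lit 0) (nat_lit 0) (XT.lf (nat_lit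 0) (nat_lit 13917752654) (nat_lit 76) (nat_lit 38599627412) (nat_lit 152) (nat_lit 234639058662) (nat_lit 19) (nat_lit 5) (nat_lit 20) (nat_lit 5) (nat_lit 21) (nat_lit 4) (nat_lit 517) (nat_lit 432) (nat_lit 251)) (XT.lf (nat_lit 0) (nat_lit 111803196520) (nat_lit 152) (nat_lit 164128924690) (nat_lit 0) (nat_lit 22523645196) (nat_lit 19) (nat_lit 5) (nat_lit 21) (nat_lit 4) (nat_lit 19) (nat_lit 4) (nat_lit 518) (nat_lit 432) (nat_lit 250))))) (XT.nd (nat_lit 234) (nat_lit 228) (nat_lit 0) (XT.nd (nat_lit 78) (nat_lit 76) (nat_lit 0) (XT.lf (nat_lit 0) (nat_lit 174685245796) (nat_lit 152) (nat_lit 50198114885) (nat_lit 0) (nat_lit 85405102718) (nat_lit 19) (nat_lit 5) (nat_lit 21) (nat_lit 4) (nat_lit 19) (nat_lit 4) (nat_lit 519) (nat_lit 432) (nat_lit 249)) (XT.nd (nat_lit 78) (nat_lit 0) (nat_lit 0) (XT.lf (nat_lit 0) (nat_lit 71723247371) (nat_lit 76) (nat_lit 170107152225) (nat_lit 76)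 (nat_lit 80826445572) (nat_lit 18) (nat_lit 4) (nat_lit 19) (nat_lit 5) (nat_lit 19) (nat_lit 4) (nat_lit 520) (nat_lit 432) (nat_lit 248)) (XT.lf (nat_lit 0) (nat_lit 201481888544) (nat_lit 76) (nat_lit 111700266842) (nat_lit 76) (nat_lit 22419023452) (nat_lit 18) (nat_lit 4) (nat_lit 19) (nat_lit 5) (nat_lit 19) (nat_lit 4) (nat_lit 521) (nat_lit 432) (nat_lit 247)))) (XT.nd (nat_lit 156) (nat_lit 76) (nat_lit 0) (XT.nd (nat_lit 78) (nat_lit 76) (nat_lit 0) (XT.lf (nat_lit 0) (nat_lit 37662686188) (nat_lit 152) (nat_lit 12073247883) (nat_lit 76) (nat_lit 299426459398) (nat_lit 17) (nat_lit 5) (nat_lit 19) (nat_lit 5) (nat_lit 18) (nat_lit 4) (nat_lit 522) (nat_lit 432) (nat_lit 246)) (XT.lf (nat_lit 0) (nat_lit 102136458601) (nat_lit 152) (nat_lit 244034011329) (nat_lit 0) (nat_lit 17105752501) (nat_lit 16) (nat_lit 5) (nat_lit 18) (nat_lit 4) (nat_lit 16) (nat_lit 4) (nat_lit 523) (nat_lit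 432) (nat_lit 245))) (XT.nd (nat_lit 78) (nat_lit 76) (nat_lit 0) (XT.lf (nat_lit 0) (nat_lit 170856358765) (nat_lit 152) (nat_lit 121363051054) (nat_lit 0) (nat_lit 85825211089) (nat_lit 16) (nat_lit 5) (nat_lit 18) (nat_lit 4) (nat_lit 16) (nat_lit 4) (nat_lit 524) (nat_lit 432) (nat_lit 244)) (XT.lf (nat_lit 0) (nat_lit 7686093187) (nat_lit 76) (nat_lit 235445474344) (nat_lit 76) (nat_lit 150413906120) (nat_lit 15) (nat_lit 4) (nat_lit 16) (nat_lit 5) (nat_lit 16) (nat_lit 4) (nat_lit 525) (nat_lit 432) (nat_lit 243))))))) (XT.nd (nat_lit 1092) (nat_lit 0) (nat_lit 0) (XT.nd (nat_lit 546) (nat_lit 228) (nat_lit 0) (XT.nd (nat_lit 234) (nat_lit 76) (nat_lit 0) (XT.nd (nat_lit 78) (nat_lit 152) (nat_lit 0) (XT.lf (nat_lit 0) (nat_lit 147399800748) (nat_lit 76) (nat_lit 173675401878) (nat_lit 76) (nat_lit 88643433132) (nat_lit 15) (nat_lit 4) (nat_lit 16) (nat_lit 5) (nat_lit 16) (nat_lit 4)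 (nat_lit 526) (nat_lit 432) (nat_lit 242)) (XT.nd (nat_lit 78) (nat_lit 152) (nat_lit 0) (XT.lf (nat_lit 0) (nat_lit 294097912753) (nat_lit 76) (nat_lit 108817462814) (nat_lit 76) (nat_lit 23785112618) (nat_lit 15) (nat_lit 4) (nat_lit 16) (nat_lit 5) (nat_lit 16) (nat_lit 4) (nat_lit 527) (nat_lit 432) (nat_lit 241)) (XT.lf (nat_lit 0) (nat_lit 3002454977) (nat_lit 76) (nat_lit 39941529636) (nat_lit 152) (nat_lit 401550541024) (nat_lit 13) (nat_lit 5) (nat_lit 14) (nat_lit 5) (nat_lit 15) (nat_lit 4) (nat_lit 528) (nat_lit 432) (nat_lit 240)))) (XT.nd (nat_lit 156) (nat_lit 76) (nat_lit 0) (XT.nd (nat_lit 78) (nat_lit 0) (nat_lit 0) (XT.lf (nat_lit 0) (nat_lit 114997596566) (nat_lit 152) (nat_lit 314008072230) (nat_lit 0) (nat_lit 34013730407) (nat_lit 13) (nat_lit 5) (nat_lit 15) (nat_lit 4) (nat_lit 13) (nat_lit 4) (nat_lit 529) (nat_lit 432) (nat_lit 239)) (XT.lf (nat_lit 0) (nat_lit 191308075736)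 (nat_lit 152) (nat_lit 180805835640) (nat_lit 0) (nat_lit 110323895758) (nat_lit 13) (nat_lit 5) (nat_lit 15) (nat_lit 4) (nat_lit 13) (nat_lit 4) (nat_lit 530) (nat_lit 432) (nat_lit 238))) (XT.nd (nat_lit 78) (nat_lit 76) (nat_lit 0) (XT.lf (nat_lit 0) (nat_lit 271433514526) (nat_lit 152) (nat_lit 40944613495) (nat_lit 0) (nat_lit 190449035672) (nat_lit 13) (nat_lit 5) (nat_lit 15) (nat_lit 4) (nat_lit 13) (nat_lit 4) (nat_lit 531) (nat_lit 432) (nat_lit 237)) (XT.lf (nat_lit 0) (nat_lit 109410413633) (nat_lit 76) (nat_lit 247862477337) (nat_lit 76) (nat_lit 166877713840) (nat_lit 12) (nat_lit 4) (nat_lit 13) (nat_lit 5) (nat_lit 13) (nat_lit 4) (nat_lit 532) (nat_lit 432) (nat_lit 236))))) (XT.nd (nat_lit 234) (nat_lit 76) (nat_lit 0) (XT.nd (nat_lit 78) (nat_lit 152) (nat_lit 0) (XT.lf (nat_lit 0) (nat_lit 268703641302) (nat_lit 76) (nat_lit 179393483428) (nat_lit 76) (nat_lit 98408448842)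 (nat_lit 12) (nat_lit 4) (nat_lit 13) (nat_lit 5) (nat_lit 13) (nat_lit 4) (nat_lit 533) (nat_lit 432) (nat_lit 235)) (XT.nd (nat_lit 78) (nat_lit 152) (nat_lit 0) (XT.lf (nat_lit 0) (nat_lit 435960525267) (nat_lit 76) (nat_lit 107501541722) (nat_lit 76) (nat_lit 26516248955) (nat_lit 12) (nat_lit 4) (nat_lit 13) (nat_lit 5) (nat_lit 13) (nat_lit 4) (nat_lit 534) (nat_lit 432) (nat_lit 234)) (XT.lf (nat_lit 0) (nat_lit 16725332032) (nat_lit 76) (nat_lit 30938507325) (nat_lit 152) (nat_lit 546909595595) (nat_lit 10) (nat_lit 5) (nat_lit 11) (nat_lit 5) (nat_lit 12) (nat_lit 4) (nat_lit 535) (nat_lit 432) (nat_lit 233)))) (XT.nd (nat_lit 156) (nat_lit 76) (nat_lit 0) (XT.nd (nat_lit 78) (nat_lit 0) (nat_lit 0) (XT.lf (nat_lit 0) (nat_lit 127740284435) (nat_lit 152) (nat_lit 441871390268) (nat_lit 0) (nat_lit 50610976979) (nat_lit 10) (nat_lit 5) (nat_lit 12) (nat_lit 4) (nat_lit 10) (nat_lit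 4) (nat_lit 536) (nat_lit 432) (nat_lit 232)) (XT.lf (nat_lit 0) (nat_lit 212327277242) (nat_lit 152) (nat_lit 299603958364) (nat_lit 0) (nat_lit 135197757381) (nat_lit 10) (nat_lit 5) (nat_lit 12) (nat_lit 4) (nat_lit 10) (nat_lit 4) (nat_lit 537) (nat_lit 432) (nat_lit 231))) (XT.nd (nat_lit 78) (nat_lit 76) (nat_lit 0) (XT.lf (nat_lit 0) (nat_lit 301143178576) (nat_lit 152) (nat_lit 150224038423) (nat_lit 0) (nat_lit 224013456423) (nat_lit 10) (nat_lit 5) (nat_lit 12) (nat_lit 4) (nat_lit 10) (nat_lit 4) (nat_lit 538) (nat_lit 432) (nat_lit 230)) (XT.lf (nat_lit 0) (nat_lit 6843056576) (nat_lit 76) (nat_lit 387663237582) (nat_lit 76) (nat_lit 310533322772) (nat_lit 9) (nat_lit 4) (nat_lit 10) (nat_lit 5) (nat_lit 10) (nat_lit 4) (nat_lit 539) (nat_lit 432) (nat_lit 229)))))) (XT.nd (nat_lit 54522) (nat_lit 0) (nat_lit 8436) (XT.nd (nat_lit 54210) (nat_lit 0) (nat_lit 8816) (XT.nd (nat_lit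 78) (nat_lit 0) (nat_lit 0) (XT.lf (nat_lit 0) (nat_lit 176978117813) (nat_lit 76) (nat_lit 318103151459) (nat_lit 76) (nat_lit 240973053164) (nat_lit 9) (nat_lit 4) (nat_lit 10) (nat_lit 5) (nat_lit 10) (nat_lit 4) (nat_lit 540) (nat_lit 432) (nat_lit 228)) (XT.nd (nat_lit 54054) (nat_lit 0) (nat_lit 8816) (XT.lf (nat_lit 0) (nat_lit 355619143625) (nat_lit 76) (nat_lit 245065456155) (nat_lit 76) (nat_lit 167935183115) (nat_lit 9) (nat_lit 4) (nat_lit 10) (nat_lit 5) (nat_lit 10) (nat_lit 4) (nat_lit 541) (nat_lit 432) (nat_lit 227)) (XT.lf (nat_lit 0) (nat_lit 2334609135) (nat_lit 836) (nat_lit 3942952691) (nat_lit 836) (nat_lit 3942952691) (nat_lit 125) (nat_lit 3) (nat_lit 136) (nat_lit 3) (nat_lit 136) (nat_lit 5) (nat_lit 433) (nat_lit 433) (nat_lit 334)))) (XT.nd (nat_lit 156) (nat_lit 0) (nat_lit 76) (XT.nd (nat_lit 78) (nat_lit 0) (nat_lit 76) (XT.lf (nat_lit 76) (nat_lit 2198902107)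 (nat_lit 0) (nat_lit 2776203021) (nat_lit 836) (nat_lit 15967431574) (nat_lit 126) (nat_lit 5) (nat_lit 125) (nat_lit 3) (nat_lit 136) (nat_lit 5) (nat_lit 434) (nat_lit 433) (nat_lit 333)) (XT.lf (nat_lit 0) (nat_lit 5539070571) (nat_lit 760) (nat_lit 8525819471) (nat_lit 836) (nat_lit 7392094355) (nat_lit 126) (nat_lit 5) (nat_lit 136) (nat_lit 5) (nat_lit 137) (nat_lit 5) (nat_lit 435) (nat_lit 433) (nat_lit 332))) (XT.nd (nat_lit 78) (nat_lit 0) (nat_lit 76) (XT.lf (nat_lit 76) (nat_lit 2222850591) (nat_lit 0) (nat_lit 3979150034) (nat_lit 836) (nat_lit 15791619207) (nat_lit 127) (nat_lit 5) (nat_lit 126) (nat_lit 5) (nat_lit 137) (nat_lit 5) (nat_lit 436) (nat_lit 433) (nat_lit 331)) (XT.lf (nat_lit 0) (nat_lit 7139015002) (nat_lit 760) (nat_lit 8856588183) (nat_lit 836) (nat_lit 6549440459) (nat_lit 127) (nat_lit 5) (nat_lit 137) (nat_lit 5) (nat_lit 138) (nat_lit 5) (nat_lit 437) (nat_lit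 433) (nat_lit 330))))) (XT.nd (nat_lit 312) (nat_lit 532) (nat_lit 0) (XT.nd (nat_lit 156) (nat_lit 0) (nat_lit 76) (XT.nd (nat_lit 78) (nat_lit 0) (nat_lit 76) (XT.lf (nat_lit 76) (nat_lit 2615997651) (nat_lit 0) (nat_lit 5604355177) (nat_lit 836) (nat_lit 14898815515) (nat_lit 128) (nat_lit 5) (nat_lit 127) (nat_lit 5) (nat_lit 138) (nat_lit 5) (nat_lit 438) (nat_lit 433) (nat_lit 329)) (XT.lf (nat_lit 0) (nat_lit 9582814091) (nat_lit 760) (nat_lit 8836278197) (nat_lit 836) (nat_lit 5291557333) (nat_lit 128) (nat_lit 5) (nat_lit 138) (nat_lit 5) (nat_lit 139) (nat_lit 5) (nat_lit 439) (nat_lit 433) (nat_lit 328))) (XT.nd (nat_lit 78) (nat_lit 0) (nat_lit 76) (XT.lf (nat_lit 76) (nat_lit 3425862311) (nat_lit 0) (nat_lit 7725048986) (nat_lit 836) (nat_lit 13173921042) (nat_lit 129) (nat_lit 5) (nat_lit 128) (nat_lit 5) (nat_lit 139) (nat_lit 5) (nat_lit 440) (nat_lit 433) (nat_lit 327)) (XT.lf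 (nat_lit 0) (nat_lit 12996678170) (nat_lit 760) (nat_lit 8417697459) (nat_lit 836) (nat_lit 3545388203) (nat_lit 129) (nat_lit 5) (nat_lit 139) (nat_lit 5) (nat_lit 140) (nat_lit 5) (nat_lit 441) (nat_lit 433) (nat_lit 326)))) (XT.nd (nat_lit 156) (nat_lit 684) (nat_lit 0) (XT.nd (nat_lit 78) (nat_lit 0) (nat_lit 76) (XT.lf (nat_lit 76) (nat_lit 4705720244) (nat_lit 0) (nat_lit 10421944115) (nat_lit 836) (nat_lit 10489133732) (nat_lit 130) (nat_lit 5) (nat_lit 129) (nat_lit 5) (nat_lit 140) (nat_lit 5) (nat_lit 442) (nat_lit 433) (nat_lit 325)) (XT.lf (nat_lit 0) (nat_lit 17520673057) (nat_lit 760) (nat_lit 7547991358) (nat_lit 76) (nat_lit 1230248598) (nat_lit 130) (nat_lit 5) (nat_lit 140) (nat_lit 5) (nat_lit 131) (nat_lit 5) (nat_lit 443) (nat_lit 433) (nat_lit 324))) (XT.nd (nat_lit 78) (nat_lit 0) (nat_lit 0) (XT.lf (nat_lit 0) (nat_lit 6515051277) (nat_lit 760) (nat_lit 13784270058)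 (nat_lit 836) (nat_lit 6702515374) (nat_lit 120) (nat_lit 5) (nat_lit 130) (nat_lit 5) (nat_lit 131) (nat_lit 5) (nat_lit 444) (nat_lit 433) (nat_lit 323)) (XT.lf (nat_lit 0) (nat_lit 21537520958) (nat_lit 760) (nat_lit 1800852560) (nat_lit 836) (nat_lit 4395461865) (nat_lit 120) (nat_lit 5) (nat_lit 130) (nat_lit 5) (nat_lit 131) (nat_lit 5) (nat_lit 445) (nat_lit 433) (nat_lit 322))))))))
noncomputable def xc168 : XT := (XT.nd (nat_lit 2184) (nat_lit 2356) (nat_lit 0) (XT.nd (nat_lit 1092) (nat_lit 1748) (nat_lit 0) (XT.nd (nat_lit 546) (nat_lit 1140) (nat_lit 0) (XT.nd (nat_lit 234) (nat_lit 684) (nat_lit 0) (XT.nd (nat_lit 78) (nat_lit 456) (nat_lit 0) (XT.lf (nat_lit 0) (nat_lit 8920030714) (nat_lit 380) (nat_lit 17910901392) (nat_lit 456) (nat_lit 1656426448) (nat_lit 115) (nat_lit 5) (nat_lit 120) (nat_lit 5) (nat_lit 121) (nat_lit 5) (nat_lit 446) (nat_lit 433) (nat_lit 321)) (XT.nd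 (nat_lit 78) (nat_lit 380) (nat_lit 0) (XT.lf (nat_lit 0) (nat_lit 1310761905) (nat_lit 456) (nat_lit 4322196932) (nat_lit 76) (nat_lit 23638137319) (nat_lit 114) (nat_lit 5) (nat_lit 120) (nat_lit 5) (nat_lit 115) (nat_lit 5) (nat_lit 447) (nat_lit 433) (nat_lit 320)) (XT.lf (nat_lit 0) (nat_lit 4669780665) (nat_lit 456) (nat_lit 18162728027) (nat_lit 76) (nat_lit 7245199278) (nat_lit 109) (nat_lit 5) (nat_lit 115) (nat_lit 5) (nat_lit 110) (nat_lit 5) (nat_lit 448) (nat_lit 433) (nat_lit 319)))) (XT.nd (nat_lit 156) (nat_lit 304) (nat_lit 0) (XT.nd (nat_lit 78) (nat_lit 380) (nat_lit 0) (XT.lf (nat_lit 0) (nat_lit 8358012238) (nat_lit 456) (nat_lit 1906281367) (nat_lit 76) (nat_lit 20652295530) (nat_lit 109) (nat_lit 5) (nat_lit 115) (nat_lit 5) (nat_lit 110) (nat_lit 5) (nat_lit 449) (nat_lit 433) (nat_lit 318)) (XT.lf (nat_lit 0) (nat_lit 12519695739) (nat_lit 456) (nat_lit 16176619588)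 (nat_lit 76) (nat_lit 3086648778) (nat_lit 104) (nat_lit 5) (nat_lit 110) (nat_lit 5) (nat_lit 105) (nat_lit 5) (nat_lit 450) (nat_lit 433) (nat_lit 317))) (XT.nd (nat_lit 78) (nat_lit 0) (nat_lit 0) (XT.lf (nat_lit 0) (nat_lit 1234761924) (nat_lit 304) (nat_lit 15869997695) (nat_lit 380) (nat_lit 15577135080) (nat_lit 100) (nat_lit 5) (nat_lit 104) (nat_lit 5) (nat_lit 105) (nat_lit 5) (nat_lit 451) (nat_lit 433) (nat_lit 316)) (XT.lf (nat_lit 0) (nat_lit 20072718517) (nat_lit 304) (nat_lit 2115408483) (nat_lit 380) (nat_lit 11424193909) (nat_lit 100) (nat_lit 5) (nat_lit 104) (nat_lit 5) (nat_lit 105) (nat_lit 5) (nat_lit 452) (nat_lit 433) (nat_lit 315))))) (XT.nd (nat_lit 234) (nat_lit 532) (nat_lit 0) (XT.nd (nat_lit 78) (nat_lit 304) (nat_lit 0) (XT.lf (nat_lit 0) (nat_lit 5232760497) (nat_lit 304) (nat_lit 22562372667) (nat_lit 380) (nat_lit 6780663270) (nat_lit 96) (nat_lit 5) (nat_lit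 100) (nat_lit 5) (nat_lit 101) (nat_lit 5) (nat_lit 453) (nat_lit 433) (nat_lit 314)) (XT.nd (nat_lit 78) (nat_lit 304) (nat_lit 0) (XT.lf (nat_lit 0) (nat_lit 25372502870) (nat_lit 304) (nat_lit 8568858306) (nat_lit 380) (nat_lit 1633142436) (nat_lit 96) (nat_lit 5) (nat_lit 100) (nat_lit 5) (nat_lit 101) (nat_lit 5) (nat_lit 454) (nat_lit 433) (nat_lit 313)) (XT.lf (nat_lit 0) (nat_lit 3904377269) (nat_lit 304) (nat_lit 26554742636) (nat_lit 76) (nat_lit 6148416053) (nat_lit 92) (nat_lit 5) (nat_lit 96) (nat_lit 5) (nat_lit 93) (nat_lit 5) (nat_lit 455) (nat_lit 433) (nat_lit 312)))) (XT.nd (nat_lit 156) (nat_lit 228) (nat_lit 0) (XT.nd (nat_lit 78) (nat_lit 304) (nat_lit 0) (XT.lf (nat_lit 0) (nat_lit 9975678172) (nat_lit 304) (nat_lit 6184618532) (nat_lit 76) (nat_lit 21514996355) (nat_lit 92) (nat_lit 5) (nat_lit 96) (nat_lit 5) (nat_lit 93) (nat_lit 5) (nat_lit 456) (nat_lit 433) (nat_lit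 311)) (XT.lf (nat_lit 0) (nat_lit 15701336783) (nat_lit 304) (nat_lit 890261791) (nat_lit 380) (nat_lit 22192787915) (nat_lit 88) (nat_lit 5) (nat_lit 92) (nat_lit 5) (nat_lit 93) (nat_lit 5) (nat_lit 457) (nat_lit 433) (nat_lit 310))) (XT.nd (nat_lit 78) (nat_lit 228) (nat_lit 0) (XT.lf (nat_lit 0) (nat_lit 23877209514) (nat_lit 380) (nat_lit 1290851153) (nat_lit 76) (nat_lit 14763930336) (nat_lit 88) (nat_lit 5) (nat_lit 93) (nat_lit 5) (nat_lit 89) (nat_lit 5) (nat_lit 458) (nat_lit 433) (nat_lit 309)) (XT.lf (nat_lit 0) (nat_lit 22284547179) (nat_lit 228) (nat_lit 9601271568) (nat_lit 304) (nat_lit 9233222193) (nat_lit 85) (nat_lit 5) (nat_lit 88) (nat_lit 5) (nat_lit 89) (nat_lit 5) (nat_lit 459) (nat_lit 433) (nat_lit 308)))))) (XT.nd (nat_lit 546) (nat_lit 760) (nat_lit 0) (XT.nd (nat_lit 234) (nat_lit 456) (nat_lit 0) (XT.nd (nat_lit 78) (nat_lit 304) (nat_lit 0) (XT.lf (nat_lit 0)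 (nat_lit 4760761079) (nat_lit 228) (nat_lit 35732218581) (nat_lit 304) (nat_lit 1862558685) (nat_lit 82) (nat_lit 5) (nat_lit 85) (nat_lit 5) (nat_lit 86) (nat_lit 5) (nat_lit 460) (nat_lit 433) (nat_lit 307)) (XT.nd (nat_lit 78) (nat_lit 228) (nat_lit 0) (XT.lf (nat_lit 0) (nat_lit 6166467112) (nat_lit 304) (nat_lit 13707804326) (nat_lit 76) (nat_lit 23751106669) (nat_lit 81) (nat_lit 5) (nat_lit 85) (nat_lit 5) (nat_lit 82) (nat_lit 5) (nat_lit 461) (nat_lit 433) (nat_lit 306)) (XT.lf (nat_lit 0) (nat_lit 11712933087) (nat_lit 228) (nat_lit 3000783911) (nat_lit 304) (nat_lit 30234498716) (nat_lit 78) (nat_lit 5) (nat_lit 81) (nat_lit 5) (nat_lit 82) (nat_lit 5) (nat_lit 462) (nat_lit 433) (nat_lit 305)))) (XT.nd (nat_lit 156) (nat_lit 228) (nat_lit 0) (XT.nd (nat_lit 78) (nat_lit 228) (nat_lit 0) (XT.lf (nat_lit 0) (nat_lit 24150611061) (nat_lit 304) (nat_lit 7683552796) (nat_lit 76) (nat_lit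 14479918106) (nat_lit 78) (nat_lit 5) (nat_lit 82) (nat_lit 5) (nat_lit 79) (nat_lit 5) (nat_lit 463) (nat_lit 433) (nat_lit 304)) (XT.lf (nat_lit 0) (nat_lit 19723063175) (nat_lit 228) (nat_lit 14690139524) (nat_lit 304) (nat_lit 13317346995) (nat_lit 75) (nat_lit 5) (nat_lit 78) (nat_lit 5) (nat_lit 79) (nat_lit 5) (nat_lit 464) (nat_lit 433) (nat_lit 303))) (XT.nd (nat_lit 78) (nat_lit 228) (nat_lit 0) (XT.lf (nat_lit 0) (nat_lit 45369663679) (nat_lit 304) (nat_lit 503225836) (nat_lit 76) (nat_lit 3335915077) (nat_lit 75) (nat_lit 5) (nat_lit 79) (nat_lit 5) (nat_lit 76) (nat_lit 5) (nat_lit 465) (nat_lit 433) (nat_lit 302)) (XT.lf (nat_lit 0) (nat_lit 6620141738) (nat_lit 228) (nat_lit 21772215467) (nat_lit 76) (nat_lit 22328702713) (nat_lit 72) (nat_lit 5) (nat_lit 75) (nat_lit 5) (nat_lit 73) (nat_lit 5) (nat_lit 466) (nat_lit 433) (nat_lit 301))))) (XT.nd (nat_lit 234) (nat_lit 380)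 (nat_lit 0) (XT.nd (nat_lit 78) (nat_lit 152) (nat_lit 0) (XT.lf (nat_lit 0) (nat_lit 7763258314) (nat_lit 228) (nat_lit 9836943259) (nat_lit 304) (nat_lit 34699238599) (nat_lit 69) (nat_lit 5) (nat_lit 72) (nat_lit 5) (nat_lit 73) (nat_lit 5) (nat_lit 467) (nat_lit 433) (nat_lit 300)) (XT.nd (nat_lit 78) (nat_lit 152) (nat_lit 0) (XT.lf (nat_lit 0) (nat_lit 29651650622) (nat_lit 304) (nat_lit 14568239357) (nat_lit 76) (nat_lit 9710730780) (nat_lit 69) (nat_lit 5) (nat_lit 73) (nat_lit 5) (nat_lit 70) (nat_lit 5) (nat_lit 468) (nat_lit 433) (nat_lit 299)) (XT.lf (nat_lit 0) (nat_lit 17285635267) (nat_lit 152) (nat_lit 25448331353) (nat_lit 228) (nat_lit 12887979637) (nat_lit 67) (nat_lit 5) (nat_lit 69) (nat_lit 5) (nat_lit 70) (nat_lit 5) (nat_lit 469) (nat_lit 433) (nat_lit 298)))) (XT.nd (nat_lit 156) (nat_lit 152) (nat_lit 0) (XT.nd (nat_lit 78) (nat_lit 228) (nat_lit 0) (XT.lf (nat_lit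 0) (nat_lit 51233599888) (nat_lit 152) (nat_lit 5480741681) (nat_lit 228) (nat_lit 671299878) (nat_lit 67) (nat_lit 5) (nat_lit 69) (nat_lit 5) (nat_lit 70) (nat_lit 5) (nat_lit 470) (nat_lit 433) (nat_lit 297)) (XT.lf (nat_lit 0) (nat_lit 12459262210) (nat_lit 228) (nat_lit 31103221293) (nat_lit 76) (nat_lit 15630942632) (nat_lit 64) (nat_lit 5) (nat_lit 67) (nat_lit 5) (nat_lit 65) (nat_lit 5) (nat_lit 471) (nat_lit 433) (nat_lit 296))) (XT.nd (nat_lit 78) (nat_lit 0) (nat_lit 0) (XT.lf (nat_lit 0) (nat_lit 3166236513) (nat_lit 152) (nat_lit 23300083107) (nat_lit 228) (nat_lit 34612604322) (nat_lit 62) (nat_lit 5) (nat_lit 64) (nat_lit 5) (nat_lit 65) (nat_lit 5) (nat_lit 472) (nat_lit 433) (nat_lit 295)) (XT.lf (nat_lit 0) (nat_lit 40224770589) (nat_lit 152) (nat_lit 1473117035) (nat_lit 228) (nat_lit 21334601604) (nat_lit 62) (nat_lit 5) (nat_lit 64) (nat_lit 5) (nat_lit 65) (nat_lit 5)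 (nat_lit 473) (nat_lit 433) (nat_lit 294))))))) (XT.nd (nat_lit 1092) (nat_lit 988) (nat_lit 0) (XT.nd (nat_lit 546) (nat_lit 608) (nat_lit 0) (XT.nd (nat_lit 234) (nat_lit 380) (nat_lit 0) (XT.nd (nat_lit 78) (nat_lit 228) (nat_lit 0) (XT.lf (nat_lit 0) (nat_lit 14166982668) (nat_lit 152) (nat_lit 44077565880) (nat_lit 228) (nat_lit 6811508954) (nat_lit 60) (nat_lit 5) (nat_lit 62) (nat_lit 5) (nat_lit 63) (nat_lit 5) (nat_lit 474) (nat_lit 433) (nat_lit 293)) (XT.nd (nat_lit 78) (nat_lit 152) (nat_lit 0) (XT.lf (nat_lit 0) (nat_lit 8581942805) (nat_lit 228) (nat_lit 13545601921) (nat_lit 76) (nat_lit 45025959796) (nat_lit 59) (nat_lit 5) (nat_lit 62) (nat_lit 5) (nat_lit 60) (nat_lit 5) (nat_lit 475) (nat_lit 433) (nat_lit 292)) (XT.lf (nat_lit 0) (nat_lit 24948809548) (nat_lit 228) (nat_lit 42958465718) (nat_lit 76) (nat_lit 1421333123) (nat_lit 57) (nat_lit 5) (nat_lit 60) (nat_lit 5) (nat_lit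 58) (nat_lit 5) (nat_lit 476) (nat_lit 433) (nat_lit 291)))) (XT.nd (nat_lit 156) (nat_lit 228) (nat_lit 0) (XT.nd (nat_lit 78) (nat_lit 152) (nat_lit 0) (XT.lf (nat_lit 0) (nat_lit 42727596740) (nat_lit 228) (nat_lit 3219531538) (nat_lit 76) (nat_lit 25635660688) (nat_lit 57) (nat_lit 5) (nat_lit 60) (nat_lit 5) (nat_lit 58) (nat_lit 5) (nat_lit 477) (nat_lit 433) (nat_lit 290)) (XT.lf (nat_lit 0) (nat_lit 39775633210) (nat_lit 152) (nat_lit 22238478687) (nat_lit 228) (nat_lit 11904627596) (nat_lit 55) (nat_lit 5) (nat_lit 57) (nat_lit 5) (nat_lit 58) (nat_lit 5) (nat_lit 478) (nat_lit 433) (nat_lit 289))) (XT.nd (nat_lit 78) (nat_lit 0) (nat_lit 0) (XT.lf (nat_lit 0) (nat_lit 5942340830) (nat_lit 228) (nat_lit 67553312142) (nat_lit 76) (nat_lit 2859359057) (nat_lit 52) (nat_lit 5) (nat_lit 55) (nat_lit 5) (nat_lit 53) (nat_lit 5) (nat_lit 479) (nat_lit 433) (nat_lit 288)) (XT.lf (nat_lit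 0) (nat_lit 25231671996) (nat_lit 228) (nat_lit 24378090710) (nat_lit 76) (nat_lit 29246073506) (nat_lit 52) (nat_lit 5) (nat_lit 55) (nat_lit 5) (nat_lit 53) (nat_lit 5) (nat_lit 480) (nat_lit 433) (nat_lit 287))))) (XT.nd (nat_lit 234) (nat_lit 304) (nat_lit 0) (XT.nd (nat_lit 78) (nat_lit 152) (nat_lit 0) (XT.lf (nat_lit 0) (nat_lit 21645030119) (nat_lit 152) (nat_lit 24176296739) (nat_lit 228) (nat_lit 35643582180) (nat_lit 50) (nat_lit 5) (nat_lit 52) (nat_lit 5) (nat_lit 53) (nat_lit 5) (nat_lit 481) (nat_lit 433) (nat_lit 286)) (XT.nd (nat_lit 78) (nat_lit 152) (nat_lit 0) (XT.lf (nat_lit 0) (nat_lit 67897506455) (nat_lit 228) (nat_lit 13418041275) (nat_lit 76) (nat_lit 2866035952) (nat_lit 50) (nat_lit 5) (nat_lit 53) (nat_lit 5) (nat_lit 51) (nat_lit 4) (nat_lit 482) (nat_lit 433) (nat_lit 285)) (XT.lf (nat_lit 0) (nat_lit 4887019303) (nat_lit 152) (nat_lit 51006889771) (nat_lit 76)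 (nat_lit 31088375269) (nat_lit 48) (nat_lit 5) (nat_lit 50) (nat_lit 5) (nat_lit 49) (nat_lit 5) (nat_lit 483) (nat_lit 433) (nat_lit 284)))) (XT.nd (nat_lit 156) (nat_lit 152) (nat_lit 0) (XT.nd (nat_lit 78) (nat_lit 152) (nat_lit 0) (XT.lf (nat_lit 0) (nat_lit 26798428481) (nat_lit 152) (nat_lit 1881480955) (nat_lit 76) (nat_lit 61218312755) (nat_lit 48) (nat_lit 5) (nat_lit 50) (nat_lit 5) (nat_lit 49) (nat_lit 5) (nat_lit 484) (nat_lit 433) (nat_lit 283)) (XT.lf (nat_lit 0) (nat_lit 50616581988) (nat_lit 228) (nat_lit 41591371429) (nat_lit 76) (nat_lit 711445048) (nat_lit 46) (nat_lit 5) (nat_lit 49) (nat_lit 5) (nat_lit 47) (nat_lit 4) (nat_lit 485) (nat_lit 433) (nat_lit 282))) (XT.nd (nat_lit 78) (nat_lit 76) (nat_lit 0) (XT.lf (nat_lit 0) (nat_lit 11053031112) (nat_lit 76) (nat_lit 65245881010) (nat_lit 152) (nat_lit 19759058202) (nat_lit 45) (nat_lit 5) (nat_lit 46) (nat_lit 5) (nat_lit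 47) (nat_lit 4) (nat_lit 486) (nat_lit 433) (nat_lit 281)) (XT.lf (nat_lit 0) (nat_lit 4500758554) (nat_lit 152) (nat_lit 31620610718) (nat_lit 76) (nat_lit 63193344151) (nat_lit 44) (nat_lit 5) (nat_lit 46) (nat_lit 5) (nat_lit 45) (nat_lit 5) (nat_lit 487) (nat_lit 433) (nat_lit 280)))))) (XT.nd (nat_lit 546) (nat_lit 456) (nat_lit 0) (XT.nd (nat_lit 234) (nat_lit 304) (nat_lit 0) (XT.nd (nat_lit 78) (nat_lit 76) (nat_lit 0) (XT.lf (nat_lit 0) (nat_lit 24902873997) (nat_lit 152) (nat_lit 4793707942) (nat_lit 228) (nat_lit 73002163492) (nat_lit 42) (nat_lit 5) (nat_lit 44) (nat_lit 5) (nat_lit 45) (nat_lit 5) (nat_lit 488) (nat_lit 433) (nat_lit 279)) (XT.nd (nat_lit 78) (nat_lit 76) (nat_lit 0) (XT.lf (nat_lit 0) (nat_lit 57133469160) (nat_lit 228) (nat_lit 21325579518) (nat_lit 76) (nat_lit 27743866906) (nat_lit 42) (nat_lit 5) (nat_lit 45) (nat_lit 5) (nat_lit 43) (nat_lit 4) (nat_lit 489)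 (nat_lit 433) (nat_lit 278)) (XT.lf (nat_lit 0) (nat_lit 39139294632) (nat_lit 76) (nat_lit 47490906956) (nat_lit 152) (nat_lit 23217692784) (nat_lit 41) (nat_lit 5) (nat_lit 42) (nat_lit 5) (nat_lit 43) (nat_lit 4) (nat_lit 490) (nat_lit 433) (nat_lit 277)))) (XT.nd (nat_lit 156) (nat_lit 76) (nat_lit 0) (XT.nd (nat_lit 78) (nat_lit 152) (nat_lit 0) (XT.lf (nat_lit 0) (nat_lit 4166397630) (nat_lit 152) (nat_lit 10359556809) (nat_lit 76) (nat_lit 99127831197) (nat_lit 40) (nat_lit 5) (nat_lit 42) (nat_lit 5) (nat_lit 41) (nat_lit 5) (nat_lit 491) (nat_lit 433) (nat_lit 276)) (XT.lf (nat_lit 0) (nat_lit 33320367166) (nat_lit 228) (nat_lit 63558953433) (nat_lit 76) (nat_lit 20692573047) (nat_lit 38) (nat_lit 5) (nat_lit 41) (nat_lit 5) (nat_lit 39) (nat_lit 4) (nat_lit 492) (nat_lit 433) (nat_lit 275))) (XT.nd (nat_lit 78) (nat_lit 0) (nat_lit 0) (XT.lf (nat_lit 0) (nat_lit 44072833) (nat_lit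 76) (nat_lit 64303536253) (nat_lit 152) (nat_lit 57317519417) (nat_lit 37) (nat_lit 5) (nat_lit 38) (nat_lit 5) (nat_lit 39) (nat_lit 4) (nat_lit 493) (nat_lit 433) (nat_lit 274)) (XT.lf (nat_lit 0) (nat_lit 69031001943) (nat_lit 76) (nat_lit 28970077636) (nat_lit 152) (nat_lit 27908202333) (nat_lit 37) (nat_lit 5) (nat_lit 38) (nat_lit 5) (nat_lit 39) (nat_lit 4) (nat_lit 494) (nat_lit 433) (nat_lit 273))))) (XT.nd (nat_lit 234) (nat_lit 228) (nat_lit 0) (XT.nd (nat_lit 78) (nat_lit 76) (nat_lit 0) (XT.lf (nat_lit 0) (nat_lit 3183846346) (nat_lit 152) (nat_lit 119067180437) (nat_lit 76) (nat_lit 8096927850) (nat_lit 35) (nat_lit 5) (nat_lit 37) (nat_lit 5) (nat_lit 36) (nat_lit 4) (nat_lit 495) (nat_lit 433) (nat_lit 272)) (XT.nd (nat_lit 78) (nat_lit 76) (nat_lit 0) (XT.lf (nat_lit 0) (nat_lit 36345092373) (nat_lit 152) (nat_lit 51088945830) (nat_lit 76) (nat_lit 47479022649) (nat_lit 35)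 (nat_lit 5) (nat_lit 37) (nat_lit 5) (nat_lit 36) (nat_lit 4) (nat_lit 496) (nat_lit 433) (nat_lit 271)) (XT.lf (nat_lit 0) (nat_lit 20956272649) (nat_lit 76) (nat_lit 50533906439) (nat_lit 152) (nat_lit 68199954486) (nat_lit 34) (nat_lit 5) (nat_lit 35) (nat_lit 5) (nat_lit 36) (nat_lit 4) (nat_lit 497) (nat_lit 433) (nat_lit 270)))) (XT.nd (nat_lit 156) (nat_lit 76) (nat_lit 0) (XT.nd (nat_lit 78) (nat_lit 152) (nat_lit 0) (XT.lf (nat_lit 0) (nat_lit 98374828326) (nat_lit 76) (nat_lit 10881526253) (nat_lit 152) (nat_lit 35406513734) (nat_lit 34) (nat_lit 5) (nat_lit 35) (nat_lit 5) (nat_lit 36) (nat_lit 4) (nat_lit 498) (nat_lit 433) (nat_lit 269)) (XT.lf (nat_lit 0) (nat_lit 24702017) (nat_lit 152) (nat_lit 119570982244) (nat_lit 76) (nat_lit 30240968096) (nat_lit 32) (nat_lit 5) (nat_lit 34) (nat_lit 5) (nat_lit 33) (nat_lit 4) (nat_lit 499) (nat_lit 433) (nat_lit 268))) (XT.nd (nat_lit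 78) (nat_lit 76) (nat_lit 0) (XT.lf (nat_lit 0) (nat_lit 37011403352) (nat_lit 152) (nat_lit 43750062092) (nat_lit 76) (nat_lit 74429947726) (nat_lit 32) (nat_lit 5) (nat_lit 34) (nat_lit 5) (nat_lit 33) (nat_lit 4) (nat_lit 500) (nat_lit 433) (nat_lit 267)) (XT.lf (nat_lit 0) (nat_lit 37045158948) (nat_lit 76) (nat_lit 39379391757) (nat_lit 152) (nat_lit 84360505856) (nat_lit 31) (nat_lit 5) (nat_lit 32) (nat_lit 5) (nat_lit 33) (nat_lit 4) (nat_lit 501) (nat_lit 433) (nat_lit 266))))))))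
noncomputable def xc169 : XT := (XT.nd (nat_lit 2184) (nat_lit 304) (nat_lit 0) (XT.nd (nat_lit 1092) (nat_lit 684) (nat_lit 0) (XT.nd (nat_lit 546) (nat_lit 304) (nat_lit 0) (XT.nd (nat_lit 234) (nat_lit 228) (nat_lit 0) (XT.nd (nat_lit 78) (nat_lit 152) (nat_lit 0) (XT.lf (nat_lit 0) (nat_lit 118623739859) (nat_lit 152) (nat_lit 43300436694) (nat_lit 0) (nat_lit 4693436429) (nat_lit 31) (nat_lit 5) (nat_lit 33) (nat_lit 4) (nat_lit 31) (nat_lit 4) (nat_lit 502) (nat_lit 433) (nat_lit 265)) (XT.nd (nat_lit 78) (nat_lit 76) (nat_lit 0) (XT.lf (nat_lit 0) (nat_lit 41852668774) (nat_lit 76) (nat_lit 122378018670) (nat_lit 76) (nat_lit 8446219909) (nat_lit 30) (nat_lit 4) (nat_lit 31) (nat_lit 5) (nat_lit 31) (nat_lit 4) (nat_lit 503) (nat_lit 433) (nat_lit 264)) (XT.lf (nat_lit 0) (nat_lit 32764222702) (nat_lit 152) (nat_lit 46766566346) (nat_lit 76) (nat_lit 99445348043) (nat_lit 29) (nat_lit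 5) (nat_lit 31) (nat_lit 5) (nat_lit 30) (nat_lit 4) (nat_lit 504) (nat_lit 433) (nat_lit 263)))) (XT.nd (nat_lit 156) (nat_lit 152) (nat_lit 0) (XT.nd (nat_lit 78) (nat_lit 0) (nat_lit 0) (XT.lf (nat_lit 0) (nat_lit 42720650746) (nat_lit 76) (nat_lit 33696534591) (nat_lit 152) (nat_lit 109132927601) (nat_lit 28) (nat_lit 5) (nat_lit 29) (nat_lit 5) (nat_lit 30) (nat_lit 4) (nat_lit 505) (nat_lit 433) (nat_lit 262)) (XT.lf (nat_lit 0) (nat_lit 123281939680) (nat_lit 152) (nat_lit 54347804359) (nat_lit 0) (nat_lit 14771586424) (nat_lit 28) (nat_lit 5) (nat_lit 30) (nat_lit 4) (nat_lit 28) (nat_lit 4) (nat_lit 506) (nat_lit 433) (nat_lit 261))) (XT.nd (nat_lit 78) (nat_lit 76) (nat_lit 0) (XT.lf (nat_lit 0) (nat_lit 39259996316) (nat_lit 76) (nat_lit 134394211837) (nat_lit 76) (nat_lit 25882686950) (nat_lit 27) (nat_lit 4) (nat_lit 28) (nat_lit 5) (nat_lit 28) (nat_lit 4) (nat_lit 507) (nat_lit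 433) (nat_lit 260)) (XT.lf (nat_lit 0) (nat_lit 19825635379) (nat_lit 152) (nat_lit 67870088198) (nat_lit 76) (nat_lit 119271558976) (nat_lit 26) (nat_lit 5) (nat_lit 28) (nat_lit 5) (nat_lit 27) (nat_lit 4) (nat_lit 508) (nat_lit 433) (nat_lit 259))))) (XT.nd (nat_lit 234) (nat_lit 152) (nat_lit 0) (XT.nd (nat_lit 78) (nat_lit 76) (nat_lit 0) (XT.lf (nat_lit 0) (nat_lit 29680720381) (nat_lit 76) (nat_lit 37731193672) (nat_lit 152) (nat_lit 147312941645) (nat_lit 25) (nat_lit 5) (nat_lit 26) (nat_lit 5) (nat_lit 27) (nat_lit 4) (nat_lit 509) (nat_lit 433) (nat_lit 258)) (XT.nd (nat_lit 78) (nat_lit 76) (nat_lit 0) (XT.lf (nat_lit 0) (nat_lit 118774735586) (nat_lit 152) (nat_lit 88598323055) (nat_lit 0) (nat_lit 15427387463) (nat_lit 25) (nat_lit 5) (nat_lit 27) (nat_lit 4) (nat_lit 25) (nat_lit 4) (nat_lit 510) (nat_lit 433) (nat_lit 257)) (XT.lf (nat_lit 0) (nat_lit 12447728344) (nat_lit 76)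 (nat_lit 161069879197) (nat_lit 76) (nat_lit 57721613071) (nat_lit 24) (nat_lit 4) (nat_lit 25) (nat_lit 5) (nat_lit 25) (nat_lit 4) (nat_lit 511) (nat_lit 433) (nat_lit 256)))) (XT.nd (nat_lit 156) (nat_lit 76) (nat_lit 0) (XT.nd (nat_lit 78) (nat_lit 76) (nat_lit 0) (XT.lf (nat_lit 0) (nat_lit 121620134514) (nat_lit 76) (nat_lit 110876982547) (nat_lit 76) (nat_lit 7527842131) (nat_lit 24) (nat_lit 4) (nat_lit 25) (nat_lit 5) (nat_lit 25) (nat_lit 4) (nat_lit 512) (nat_lit 433) (nat_lit 255)) (XT.lf (nat_lit 0) (nat_lit 43728784699) (nat_lit 152) (nat_lit 13705964437) (nat_lit 76) (nat_lit 191780016245) (nat_lit 23) (nat_lit 5) (nat_lit 25) (nat_lit 5) (nat_lit 24) (nat_lit 4) (nat_lit 513) (nat_lit 433) (nat_lit 254))) (XT.nd (nat_lit 78) (nat_lit 0) (nat_lit 0) (XT.lf (nat_lit 0) (nat_lit 98851220189) (nat_lit 152) (nat_lit 159506954096) (nat_lit 0) (nat_lit 421919162) (nat_lit 22) (nat_lit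 5) (nat_lit 24) (nat_lit 4) (nat_lit 22) (nat_lit 4) (nat_lit 514) (nat_lit 433) (nat_lit 253)) (XT.lf (nat_lit 0) (nat_lit 157906369084) (nat_lit 152) (nat_lit 51382140512) (nat_lit 0) (nat_lit 59476348777) (nat_lit 22) (nat_lit 5) (nat_lit 24) (nat_lit 4) (nat_lit 22) (nat_lit 4) (nat_lit 515) (nat_lit 433) (nat_lit 252)))))) (XT.nd (nat_lit 546) (nat_lit 380) (nat_lit 0) (XT.nd (nat_lit 234) (nat_lit 76) (nat_lit 0) (XT.nd (nat_lit 78) (nat_lit 152) (nat_lit 0) (XT.lf (nat_lit 0) (nat_lit 64202127095) (nat_lit 76) (nat_lit 156713681579) (nat_lit 76) (nat_lit 58282976244) (nat_lit 21) (nat_lit 4) (nat_lit 22) (nat_lit 5) (nat_lit 22) (nat_lit 4) (nat_lit 516) (nat_lit 433) (nat_lit 251)) (XT.nd (nat_lit 78) (nat_lit 152) (nat_lit 0) (XT.lf (nat_lit 0) (nat_lit 187347851012) (nat_lit 76) (nat_lit 100597223424) (nat_lit 76) (nat_lit 2165865680) (nat_lit 21) (nat_lit 4) (nat_lit 22) (nat_lit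 5) (nat_lit 22) (nat_lit 4) (nat_lit 517) (nat_lit 433) (nat_lit 250)) (XT.lf (nat_lit 0) (nat_lit 14663775126) (nat_lit 76) (nat_lit 40504885463) (nat_lit 152) (nat_lit 246344328551) (nat_lit 19) (nat_lit 5) (nat_lit 20) (nat_lit 5) (nat_lit 21) (nat_lit 4) (nat_lit 518) (nat_lit 433) (nat_lit 249)))) (XT.nd (nat_lit 156) (nat_lit 76) (nat_lit 0) (XT.nd (nat_lit 78) (nat_lit 0) (nat_lit 0) (XT.lf (nat_lit 0) (nat_lit 117417925413) (nat_lit 152) (nat_lit 172286780104) (nat_lit 0) (nat_lit 23672619854) (nat_lit 19) (nat_lit 5) (nat_lit 21) (nat_lit 4) (nat_lit 19) (nat_lit 4) (nat_lit 519) (nat_lit 433) (nat_lit 248)) (XT.lf (nat_lit 0) (nat_lit 183442907198) (nat_lit 152) (nat_lit 52661743656) (nat_lit 0) (nat_lit 89697064900) (nat_lit 19) (nat_lit 5) (nat_lit 21) (nat_lit 4) (nat_lit 19) (nat_lit 4) (nat_lit 520) (nat_lit 433) (nat_lit 247))) (XT.nd (nat_lit 78) (nat_lit 0) (nat_lit 0) (XT.lf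 (nat_lit 0) (nat_lit 75354940309) (nat_lit 76) (nat_lit 178589974994) (nat_lit 76) (nat_lit 84843621518) (nat_lit 18) (nat_lit 4) (nat_lit 19) (nat_lit 5) (nat_lit 19) (nat_lit 4) (nat_lit 521) (nat_lit 433) (nat_lit 246)) (XT.lf (nat_lit 0) (nat_lit 211599345418) (nat_lit 76) (nat_lit 117263818430) (nat_lit 76) (nat_lit 23516978117) (nat_lit 18) (nat_lit 4) (nat_lit 19) (nat_lit 5) (nat_lit 19) (nat_lit 4) (nat_lit 522) (nat_lit 433) (nat_lit 245))))) (XT.nd (nat_lit 234) (nat_lit 228) (nat_lit 0) (XT.nd (nat_lit 78) (nat_lit 76) (nat_lit 0) (XT.lf (nat_lit 0) (nat_lit 39567020950) (nat_lit 152) (nat_lit 12634911019) (nat_lit 76) (nat_lit 314417520444) (nat_lit 17) (nat_lit 5) (nat_lit 19) (nat_lit 5) (nat_lit 18) (nat_lit 4) (nat_lit 523) (nat_lit 433) (nat_lit 244)) (XT.nd (nat_lit 78) (nat_lit 0) (nat_lit 0) (XT.lf (nat_lit 0) (nat_lit 107264437429) (nat_lit 152) (nat_lit 256193667409)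 (nat_lit 0) (nat_lit 17980870246) (nat_lit 16) (nat_lit 5) (nat_lit 18) (nat_lit 4) (nat_lit 16) (nat_lit 4) (nat_lit 524) (nat_lit 433) (nat_lit 243)) (XT.lf (nat_lit 0) (nat_lit 179419325178) (nat_lit 152) (nat_lit 127391161239) (nat_lit 0) (nat_lit 90135357472) (nat_lit 16) (nat_lit 5) (nat_lit 18) (nat_lit 4) (nat_lit 16) (nat_lit 4) (nat_lit 525) (nat_lit 433) (nat_lit 242)))) (XT.nd (nat_lit 156) (nat_lit 152) (nat_lit 0) (XT.nd (nat_lit 78) (nat_lit 0) (nat_lit 0) (XT.lf (nat_lit 0) (nat_lit 8109794370) (nat_lit 76) (nat_lit 247198155652) (nat_lit 76) (nat_lit 157913806497) (nat_lit 15) (nat_lit 4) (nat_lit 16) (nat_lit 5) (nat_lit 16) (nat_lit 4) (nat_lit 526) (nat_lit 433) (nat_lit 241)) (XT.lf (nat_lit 0) (nat_lit 154807311284) (nat_lit 76) (nat_lit 182340512534) (nat_lit 76) (nat_lit 93055800094) (nat_lit 15) (nat_lit 4) (nat_lit 16) (nat_lit 5) (nat_lit 16) (nat_lit 4) (nat_lit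 527) (nat_lit 433) (nat_lit 240))) (XT.nd (nat_lit 78) (nat_lit 152) (nat_lit 0) (XT.lf (nat_lit 0) (nat_lit 308838542198) (nat_lit 76) (nat_lit 114240565062) (nat_lit 76) (nat_lit 24955506636) (nat_lit 15) (nat_lit 4) (nat_lit 16) (nat_lit 5) (nat_lit 16) (nat_lit 4) (nat_lit 528) (nat_lit 433) (nat_lit 239)) (XT.lf (nat_lit 0) (nat_lit 3188329654) (nat_lit 76) (nat_lit 41920800877) (nat_lit 152) (nat_lit 421609223551) (nat_lit 13) (nat_lit 5) (nat_lit 14) (nat_lit 5) (nat_lit 15) (nat_lit 4) (nat_lit 529) (nat_lit 433) (nat_lit 238))))))) (XT.nd (nat_lit 55146) (nat_lit 0) (nat_lit 7600) (XT.nd (nat_lit 546) (nat_lit 76) (nat_lit 0) (XT.nd (nat_lit 234) (nat_lit 228) (nat_lit 0) (XT.nd (nat_lit 78) (nat_lit 0) (nat_lit 0) (XT.lf (nat_lit 0) (nat_lit 120764833230) (nat_lit 152) (nat_lit 329673836057) (nat_lit 0) (nat_lit 35730831557) (nat_lit 13) (nat_lit 5) (nat_lit 15) (nat_lit 4) (nat_lit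 13) (nat_lit 4) (nat_lit 530) (nat_lit 433) (nat_lit 237)) (XT.nd (nat_lit 78) (nat_lit 0) (nat_lit 0) (XT.lf (nat_lit 0) (nat_lit 200890009842) (nat_lit 152) (nat_lit 189813137151) (nat_lit 0) (nat_lit 115855723526) (nat_lit 13) (nat_lit 5) (nat_lit 15) (nat_lit 4) (nat_lit 13) (nat_lit 4) (nat_lit 531) (nat_lit 433) (nat_lit 236)) (XT.lf (nat_lit 0) (nat_lit 285020933414) (nat_lit 152) (nat_lit 42960424864) (nat_lit 0) (nat_lit 199986376009) (nat_lit 13) (nat_lit 5) (nat_lit 15) (nat_lit 4) (nat_lit 13) (nat_lit 4) (nat_lit 532) (nat_lit 433) (nat_lit 235)))) (XT.nd (nat_lit 156) (nat_lit 152) (nat_lit 0) (XT.nd (nat_lit 78) (nat_lit 0) (nat_lit 0) (XT.lf (nat_lit 0) (nat_lit 114911846857) (nat_lit 76) (nat_lit 260240164780) (nat_lit 76) (nat_lit 175205349195) (nat_lit 12) (nat_lit 4) (nat_lit 13) (nat_lit 5) (nat_lit 13) (nat_lit 4) (nat_lit 533) (nat_lit 433) (nat_lit 234)) (XT.lf (nat_lit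 0) (nat_lit 282168263884) (nat_lit 76) (nat_lit 188348456243) (nat_lit 76) (nat_lit 103313394772) (nat_lit 12) (nat_lit 4) (nat_lit 13) (nat_lit 5) (nat_lit 13) (nat_lit 4) (nat_lit 534) (nat_lit 433) (nat_lit 233))) (XT.nd (nat_lit 78) (nat_lit 152) (nat_lit 0) (XT.lf (nat_lit 0) (nat_lit 457786590119) (nat_lit 76) (nat_lit 112862617515) (nat_lit 76) (nat_lit 27827321868) (nat_lit 12) (nat_lit 4) (nat_lit 13) (nat_lit 5) (nat_lit 13) (nat_lit 4) (nat_lit 535) (nat_lit 433) (nat_lit 232)) (XT.lf (nat_lit 0) (nat_lit 17589649486) (nat_lit 76) (nat_lit 32471408152) (nat_lit 152) (nat_lit 574240347407) (nat_lit 10) (nat_lit 5) (nat_lit 11) (nat_lit 5) (nat_lit 12) (nat_lit 4) (nat_lit 536) (nat_lit 433) (nat_lit 231))))) (XT.nd (nat_lit 234) (nat_lit 76) (nat_lit 0) (XT.nd (nat_lit 78) (nat_lit 0) (nat_lit 0) (XT.lf (nat_lit 0) (nat_lit 134140865585) (nat_lit 152) (nat_lit 463937784977) (nat_lit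 0) (nat_lit 53154455035) (nat_lit 10) (nat_lit 5) (nat_lit 12) (nat_lit 4) (nat_lit 10) (nat_lit 4) (nat_lit 537) (nat_lit 433) (nat_lit 230)) (XT.nd (nat_lit 78) (nat_lit 0) (nat_lit 0) (XT.lf (nat_lit 0) (nat_lit 222956561988) (nat_lit 152) (nat_lit 314558275516) (nat_lit 0) (nat_lit 141969958780) (nat_lit 10) (nat_lit 5) (nat_lit 12) (nat_lit 4) (nat_lit 10) (nat_lit 4) (nat_lit 538) (nat_lit 433) (nat_lit 229)) (XT.lf (nat_lit 0) (nat_lit 316212643109) (nat_lit 152) (nat_lit 157710591995) (nat_lit 0) (nat_lit 235225856416) (nat_lit 10) (nat_lit 5) (nat_lit 12) (nat_lit 4) (nat_lit 10) (nat_lit 4) (nat_lit 539) (nat_lit 433) (nat_lit 228)))) (XT.nd (nat_lit 54210) (nat_lit 0) (nat_lit 8816) (XT.nd (nat_lit 78) (nat_lit 0) (nat_lit 0) (XT.lf (nat_lit 0) (nat_lit 7209460200) (nat_lit 76) (nat_lit 407034246912) (nat_lit 76) (nat_lit 326047285473) (nat_lit 9) (nat_lit 4) (nat_lit 10) (nat_lit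 5) (nat_lit 10) (nat_lit 4) (nat_lit 540) (nat_lit 433) (nat_lit 227)) (XT.lf (nat_lit 0) (nat_lit 185850119699) (nat_lit 76) (nat_lit 333996735175) (nat_lit 76) (nat_lit 253009607311) (nat_lit 9) (nat_lit 4) (nat_lit 10) (nat_lit 5) (nat_lit 10) (nat_lit 4) (nat_lit 541) (nat_lit 433) (nat_lit 226))) (XT.nd (nat_lit 78) (nat_lit 0) (nat_lit 0) (XT.lf (nat_lit 0) (nat_lit 2603747711) (nat_lit 836) (nat_lit 4060056414) (nat_lit 836) (nat_lit 4060056414) (nat_lit 125) (nat_lit 3) (nat_lit 136) (nat_lit 3) (nat_lit 136) (nat_lit 5) (nat_lit 434) (nat_lit 434) (nat_lit 332)) (XT.lf (nat_lit 76) (nat_lit 2466352974) (nat_lit 0) (nat_lit 3050267696) (nat_lit 836) (nat_lit 16458291904) (nat_lit 126) (nat_lit 5) (nat_lit 125) (nat_lit 3) (nat_lit 136) (nat_lit 5) (nat_lit 435) (nat_lit 434) (nat_lit 331)))))) (XT.nd (nat_lit 546) (nat_lit 1292) (nat_lit 0) (XT.nd (nat_lit 234) (nat_lit 0) (nat_lit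 76) (XT.nd (nat_lit 78) (nat_lit 0) (nat_lit 0) (XT.lf (nat_lit 0) (nat_lit 6092832275) (nat_lit 760) (nat_lit 8786045276) (nat_lit 836) (nat_lit 7637008087) (nat_lit 126) (nat_lit 5) (nat_lit 136) (nat_lit 5) (nat_lit 137) (nat_lit 5) (nat_lit 436) (nat_lit 434) (nat_lit 330)) (XT.nd (nat_lit 78) (nat_lit 0) (nat_lit 76) (XT.lf (nat_lit 76) (nat_lit 2497379818) (nat_lit 0) (nat_lit 4280898595) (nat_lit 836) (nat_lit 16301611074) (nat_lit 127) (nat_lit 5) (nat_lit 126) (nat_lit 5) (nat_lit 137) (nat_lit 5) (nat_lit 437) (nat_lit 434) (nat_lit 329)) (XT.lf (nat_lit 0) (nat_lit 7747939943) (nat_lit 760) (nat_lit 9129510079) (nat_lit 836) (nat_lit 6782149526) (nat_lit 127) (nat_lit 5) (nat_lit 137) (nat_lit 5) (nat_lit 138) (nat_lit 5) (nat_lit 438) (nat_lit 434) (nat_lit 328)))) (XT.nd (nat_lit 156) (nat_lit 0) (nat_lit 76) (XT.nd (nat_lit 78) (nat_lit 0) (nat_lit 76) (XT.lf (nat_lit 76) (nat_lit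 2913964604) (nat_lit 0) (nat_lit 5959991233) (nat_lit 836) (nat_lit 15388948732) (nat_lit 128) (nat_lit 5) (nat_lit 127) (nat_lit 5) (nat_lit 138) (nat_lit 5) (nat_lit 439) (nat_lit 434) (nat_lit 327)) (XT.lf (nat_lit 0) (nat_lit 10291867059) (nat_lit 760) (nat_lit 9106123771) (nat_lit 836) (nat_lit 5486607161) (nat_lit 128) (nat_lit 5) (nat_lit 138) (nat_lit 5) (nat_lit 139) (nat_lit 5) (nat_lit 440) (nat_lit 434) (nat_lit 326))) (XT.nd (nat_lit 78) (nat_lit 0) (nat_lit 76) (XT.lf (nat_lit 76) (nat_lit 3766350080) (nat_lit 0) (nat_lit 8163712445) (nat_lit 836) (nat_lit 13599846865) (nat_lit 129) (nat_lit 5) (nat_lit 128) (nat_lit 5) (nat_lit 139) (nat_lit 5) (nat_lit 441) (nat_lit 434) (nat_lit 325)) (XT.lf (nat_lit 0) (nat_lit 13856785774) (nat_lit 760) (nat_lit 8666032329) (nat_lit 836) (nat_lit 3674339966) (nat_lit 129) (nat_lit 5) (nat_lit 139) (nat_lit 5) (nat_lit 140) (nat_lit 5) (nat_lit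 442) (nat_lit 434) (nat_lit 324))))) (XT.nd (nat_lit 312) (nat_lit 836) (nat_lit 0) (XT.nd (nat_lit 156) (nat_lit 684) (nat_lit 0) (XT.nd (nat_lit 78) (nat_lit 0) (nat_lit 76) (XT.lf (nat_lit 76) (nat_lit 5110773195) (nat_lit 0) (nat_lit 10976185582) (nat_lit 836) (nat_lit 10800457211) (nat_lit 130) (nat_lit 5) (nat_lit 129) (nat_lit 5) (nat_lit 140) (nat_lit 5) (nat_lit 443) (nat_lit 434) (nat_lit 323)) (XT.lf (nat_lit 0) (nat_lit 18589462638) (nat_lit 760) (nat_lit 7753480049) (nat_lit 76) (nat_lit 1261205373) (nat_lit 130) (nat_lit 5) (nat_lit 140) (nat_lit 5) (nat_lit 131) (nat_lit 5) (nat_lit 444) (nat_lit 434) (nat_lit 322))) (XT.nd (nat_lit 78) (nat_lit 0) (nat_lit 0) (XT.lf (nat_lit 0) (nat_lit 7009941962) (nat_lit 760) (nat_lit 14490563235) (nat_lit 836) (nat_lit 6842043118) (nat_lit 120) (nat_lit 5) (nat_lit 130) (nat_lit 5) (nat_lit 131) (nat_lit 5) (nat_lit 445) (nat_lit 434) (nat_lit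 321)) (XT.lf (nat_lit 0) (nat_lit 22775480930) (nat_lit 760) (nat_lit 1907161544) (nat_lit 836) (nat_lit 4428951125) (nat_lit 120) (nat_lit 5) (nat_lit 130) (nat_lit 5) (nat_lit 131) (nat_lit 5) (nat_lit 446) (nat_lit 434) (nat_lit 320)))) (XT.nd (nat_lit 156) (nat_lit 380) (nat_lit 0) (XT.nd (nat_lit 78) (nat_lit 76) (nat_lit 0) (XT.lf (nat_lit 0) (nat_lit 9533557378) (nat_lit 380) (nat_lit 18810200031) (nat_lit 456) (nat_lit 1559342246) (nat_lit 115) (nat_lit 5) (nat_lit 120) (nat_lit 5) (nat_lit 121) (nat_lit 5) (nat_lit 447) (nat_lit 434) (nat_lit 319)) (XT.lf (nat_lit 0) (nat_lit 1542154690) (nat_lit 456) (nat_lit 4373218086) (nat_lit 76) (nat_lit 24810928407) (nat_lit 114) (nat_lit 5) (nat_lit 120) (nat_lit 5) (nat_lit 115) (nat_lit 5) (nat_lit 448) (nat_lit 434) (nat_lit 318))) (XT.nd (nat_lit 78) (nat_lit 0) (nat_lit 0) (XT.lf (nat_lit 0) (nat_lit 5063792653) (nat_lit 456) (nat_lit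 18900389670) (nat_lit 76) (nat_lit 7609330566) (nat_lit 109) (nat_lit 5) (nat_lit 115) (nat_lit 5) (nat_lit 110) (nat_lit 5) (nat_lit 449) (nat_lit 434) (nat_lit 317)) (XT.lf (nat_lit 0) (nat_lit 8928791854) (nat_lit 456) (nat_lit 1839238523) (nat_lit 76) (nat_lit 21686692520) (nat_lit 109) (nat_lit 5) (nat_lit 115) (nat_lit 5) (nat_lit 110) (nat_lit 5) (nat_lit 450) (nat_lit 434) (nat_lit 316))))))))
noncomputable def xc170 : XT := (XT.nd (nat_lit 2184) (nat_lit 2204) (nat_lit 0) (XT.nd (nat_lit 1092) (nat_lit 1596) (nat_lit 0) (XT.nd (nat_lit 546) (nat_lit 1064) (nat_lit 0) (XT.nd (nat_lit 234) (nat_lit 608) (nat_lit 0) (XT.nd (nat_lit 78) (nat_lit 304) (nat_lit 0) (XT.lf (nat_lit 0) (nat_lit 13293955355) (nat_lit 456) (nat_lit 16818440201) (nat_lit 76) (nat_lit 3252253735) (nat_lit 104) (nat_lit 5) (nat_lit 110) (nat_lit 5) (nat_lit 105) (nat_lit 5) (nat_lit 451) (nat_lit 434) (nat_lit 315))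 (XT.nd (nat_lit 78) (nat_lit 0) (nat_lit 0) (XT.lf (nat_lit 0) (nat_lit 1460816672) (nat_lit 304) (nat_lit 16642960494) (nat_lit 380) (nat_lit 16204976358) (nat_lit 100) (nat_lit 5) (nat_lit 104) (nat_lit 5) (nat_lit 105) (nat_lit 5) (nat_lit 452) (nat_lit 434) (nat_lit 314)) (XT.lf (nat_lit 0) (nat_lit 21232846492) (nat_lit 304) (nat_lit 2201619778) (nat_lit 380) (nat_lit 11851579341) (nat_lit 100) (nat_lit 5) (nat_lit 104) (nat_lit 5) (nat_lit 105) (nat_lit 5) (nat_lit 453) (nat_lit 434) (nat_lit 313)))) (XT.nd (nat_lit 156) (nat_lit 304) (nat_lit 0) (XT.nd (nat_lit 78) (nat_lit 0) (nat_lit 0) (XT.lf (nat_lit 0) (nat_lit 5654846251) (nat_lit 304) (nat_lit 23663251746) (nat_lit 380) (nat_lit 6979785281) (nat_lit 96) (nat_lit 5) (nat_lit 100) (nat_lit 5) (nat_lit 101) (nat_lit 5) (nat_lit 454) (nat_lit 434) (nat_lit 312)) (XT.lf (nat_lit 0) (nat_lit 26793935375) (nat_lit 304) (nat_lit 8971358788)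 (nat_lit 380) (nat_lit 1581550841) (nat_lit 96) (nat_lit 5) (nat_lit 100) (nat_lit 5) (nat_lit 101) (nat_lit 5) (nat_lit 455) (nat_lit 434) (nat_lit 311))) (XT.nd (nat_lit 78) (nat_lit 0) (nat_lit 0) (XT.lf (nat_lit 0) (nat_lit 4225309133) (nat_lit 304) (nat_lit 27722061306) (nat_lit 76) (nat_lit 6484219894) (nat_lit 92) (nat_lit 5) (nat_lit 96) (nat_lit 5) (nat_lit 93) (nat_lit 5) (nat_lit 456) (nat_lit 434) (nat_lit 310)) (XT.lf (nat_lit 0) (nat_lit 10594188748) (nat_lit 304) (nat_lit 6341069972) (nat_lit 76) (nat_lit 22617777637) (nat_lit 92) (nat_lit 5) (nat_lit 96) (nat_lit 5) (nat_lit 93) (nat_lit 5) (nat_lit 457) (nat_lit 434) (nat_lit 309))))) (XT.nd (nat_lit 234) (nat_lit 532) (nat_lit 0) (XT.nd (nat_lit 78) (nat_lit 228) (nat_lit 0) (XT.lf (nat_lit 0) (nat_lit 16636718924) (nat_lit 304) (nat_lit 900831819) (nat_lit 380) (nat_lit 23180203104) (nat_lit 88) (nat_lit 5) (nat_lit 92) (nat_lit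 5) (nat_lit 93) (nat_lit 5) (nat_lit 458) (nat_lit 434) (nat_lit 308)) (XT.nd (nat_lit 78) (nat_lit 228) (nat_lit 0) (XT.lf (nat_lit 0) (nat_lit 25182405406) (nat_lit 380) (nat_lit 1207167690) (nat_lit 76) (nat_lit 15533418921) (nat_lit 88) (nat_lit 5) (nat_lit 93) (nat_lit 5) (nat_lit 89) (nat_lit 5) (nat_lit 459) (nat_lit 434) (nat_lit 307)) (XT.lf (nat_lit 0) (nat_lit 23544609817) (nat_lit 228) (nat_lit 10043810495) (nat_lit 304) (nat_lit 9581126892) (nat_lit 85) (nat_lit 5) (nat_lit 88) (nat_lit 5) (nat_lit 89) (nat_lit 5) (nat_lit 460) (nat_lit 434) (nat_lit 306)))) (XT.nd (nat_lit 156) (nat_lit 228) (nat_lit 0) (XT.nd (nat_lit 78) (nat_lit 76) (nat_lit 0) (XT.lf (nat_lit 0) (nat_lit 5147063763) (nat_lit 228) (nat_lit 37476590651) (nat_lit 304) (nat_lit 1844330748) (nat_lit 82) (nat_lit 5) (nat_lit 85) (nat_lit 5) (nat_lit 86) (nat_lit 5) (nat_lit 461) (nat_lit 434) (nat_lit 305)) (XT.lf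 (nat_lit 0) (nat_lit 6577449314) (nat_lit 304) (nat_lit 14248569634) (nat_lit 76) (nat_lit 24975468988) (nat_lit 81) (nat_lit 5) (nat_lit 85) (nat_lit 5) (nat_lit 82) (nat_lit 5) (nat_lit 462) (nat_lit 434) (nat_lit 304))) (XT.nd (nat_lit 78) (nat_lit 0) (nat_lit 0) (XT.lf (nat_lit 0) (nat_lit 12440871990) (nat_lit 228) (nat_lit 3108522768) (nat_lit 304) (nat_lit 31641207256) (nat_lit 78) (nat_lit 5) (nat_lit 81) (nat_lit 5) (nat_lit 82) (nat_lit 5) (nat_lit 463) (nat_lit 434) (nat_lit 303)) (XT.lf (nat_lit 0) (nat_lit 25454000984) (nat_lit 304) (nat_lit 7928057763) (nat_lit 76) (nat_lit 15242910643) (nat_lit 78) (nat_lit 5) (nat_lit 82) (nat_lit 5) (nat_lit 79) (nat_lit 5) (nat_lit 464) (nat_lit 434) (nat_lit 302)))))) (XT.nd (nat_lit 546) (nat_lit 760) (nat_lit 0) (XT.nd (nat_lit 234) (nat_lit 380) (nat_lit 0) (XT.nd (nat_lit 78) (nat_lit 228) (nat_lit 0) (XT.lf (nat_lit 0) (nat_lit 20846636222)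 (nat_lit 228) (nat_lit 15380666759) (nat_lit 304) (nat_lit 13885079615) (nat_lit 75) (nat_lit 5) (nat_lit 78) (nat_lit 5) (nat_lit 79) (nat_lit 5) (nat_lit 465) (nat_lit 434) (nat_lit 301)) (XT.nd (nat_lit 78) (nat_lit 228) (nat_lit 0) (XT.lf (nat_lit 0) (nat_lit 47727791429) (nat_lit 304) (nat_lit 393693962) (nat_lit 76) (nat_lit 3543255703) (nat_lit 75) (nat_lit 5) (nat_lit 79) (nat_lit 5) (nat_lit 76) (nat_lit 5) (nat_lit 466) (nat_lit 434) (nat_lit 300)) (XT.lf (nat_lit 0) (nat_lit 7040046964) (nat_lit 228) (nat_lit 22725346670) (nat_lit 76) (nat_lit 23487254872) (nat_lit 72) (nat_lit 5) (nat_lit 75) (nat_lit 5) (nat_lit 73) (nat_lit 5) (nat_lit 467) (nat_lit 434) (nat_lit 299)))) (XT.nd (nat_lit 156) (nat_lit 152) (nat_lit 0) (XT.nd (nat_lit 78) (nat_lit 0) (nat_lit 0) (XT.lf (nat_lit 0) (nat_lit 8284715645) (nat_lit 228) (nat_lit 10282241999) (nat_lit 304) (nat_lit 36343098663) (nat_lit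 69) (nat_lit 5) (nat_lit 72) (nat_lit 5) (nat_lit 73) (nat_lit 5) (nat_lit 468) (nat_lit 434) (nat_lit 298)) (XT.lf (nat_lit 0) (nat_lit 31217540529) (nat_lit 304) (nat_lit 15166247957) (nat_lit 76) (nat_lit 10239180255) (nat_lit 69) (nat_lit 5) (nat_lit 73) (nat_lit 5) (nat_lit 70) (nat_lit 5) (nat_lit 469) (nat_lit 434) (nat_lit 297))) (XT.nd (nat_lit 78) (nat_lit 0) (nat_lit 0) (XT.lf (nat_lit 0) (nat_lit 18278217119) (nat_lit 152) (nat_lit 26673791314) (nat_lit 228) (nat_lit 13446951117) (nat_lit 67) (nat_lit 5) (nat_lit 69) (nat_lit 5) (nat_lit 70) (nat_lit 5) (nat_lit 470) (nat_lit 434) (nat_lit 296)) (XT.lf (nat_lit 0) (nat_lit 53917470443) (nat_lit 152) (nat_lit 5710058187) (nat_lit 228) (nat_lit 623505346) (nat_lit 67) (nat_lit 5) (nat_lit 69) (nat_lit 5) (nat_lit 70) (nat_lit 5) (nat_lit 471) (nat_lit 434) (nat_lit 295))))) (XT.nd (nat_lit 234) (nat_lit 380) (nat_lit 0) (XT.nd (nat_lit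 78) (nat_lit 152) (nat_lit 0) (XT.lf (nat_lit 0) (nat_lit 13159863999) (nat_lit 228) (nat_lit 32532441119) (nat_lit 76) (nat_lit 16456895837) (nat_lit 64) (nat_lit 5) (nat_lit 67) (nat_lit 5) (nat_lit 65) (nat_lit 5) (nat_lit 472) (nat_lit 434) (nat_lit 294)) (XT.nd (nat_lit 78) (nat_lit 0) (nat_lit 0) (XT.lf (nat_lit 0) (nat_lit 3448458267) (nat_lit 152) (nat_lit 24417053514) (nat_lit 228) (nat_lit 36263550690) (nat_lit 62) (nat_lit 5) (nat_lit 64) (nat_lit 5) (nat_lit 65) (nat_lit 5) (nat_lit 473) (nat_lit 434) (nat_lit 293)) (XT.lf (nat_lit 0) (nat_lit 42354018574) (nat_lit 152) (nat_lit 1501026460) (nat_lit 228) (nat_lit 22325442304) (nat_lit 62) (nat_lit 5) (nat_lit 64) (nat_lit 5) (nat_lit 65) (nat_lit 5) (nat_lit 474) (nat_lit 434) (nat_lit 292)))) (XT.nd (nat_lit 156) (nat_lit 152) (nat_lit 0) (XT.nd (nat_lit 78) (nat_lit 76) (nat_lit 0) (XT.lf (nat_lit 0) (nat_lit 14994303030) (nat_lit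 152) (nat_lit 46233832571) (nat_lit 228) (nat_lit 7077144224) (nat_lit 60) (nat_lit 5) (nat_lit 62) (nat_lit 5) (nat_lit 63) (nat_lit 5) (nat_lit 475) (nat_lit 434) (nat_lit 291)) (XT.lf (nat_lit 0) (nat_lit 9080127206) (nat_lit 228) (nat_lit 14107280346) (nat_lit 76) (nat_lit 47320306430) (nat_lit 59) (nat_lit 5) (nat_lit 62) (nat_lit 5) (nat_lit 60) (nat_lit 5) (nat_lit 476) (nat_lit 434) (nat_lit 290))) (XT.nd (nat_lit 78) (nat_lit 0) (nat_lit 0) (XT.lf (nat_lit 0) (nat_lit 26264543922) (nat_lit 228) (nat_lit 44989983109) (nat_lit 76) (nat_lit 1537086224) (nat_lit 57) (nat_lit 5) (nat_lit 60) (nat_lit 5) (nat_lit 58) (nat_lit 5) (nat_lit 477) (nat_lit 434) (nat_lit 289)) (XT.lf (nat_lit 0) (nat_lit 44929018383) (nat_lit 228) (nat_lit 3269645357) (nat_lit 76) (nat_lit 26960002241) (nat_lit 57) (nat_lit 5) (nat_lit 60) (nat_lit 5) (nat_lit 58) (nat_lit 5) (nat_lit 478) (nat_lit 434) (nat_lit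 288))))))) (XT.nd (nat_lit 1092) (nat_lit 912) (nat_lit 0) (XT.nd (nat_lit 546) (nat_lit 608) (nat_lit 0) (XT.nd (nat_lit 234) (nat_lit 304) (nat_lit 0) (XT.nd (nat_lit 78) (nat_lit 228) (nat_lit 0) (XT.lf (nat_lit 0) (nat_lit 41873489519) (nat_lit 152) (nat_lit 23304975511) (nat_lit 228) (nat_lit 12433019212) (nat_lit 55) (nat_lit 5) (nat_lit 57) (nat_lit 5) (nat_lit 58) (nat_lit 5) (nat_lit 479) (nat_lit 434) (nat_lit 287)) (XT.nd (nat_lit 78) (nat_lit 0) (nat_lit 0) (XT.lf (nat_lit 0) (nat_lit 6303505642) (nat_lit 228) (nat_lit 70819092793) (nat_lit 76) (nat_lit 3046952872) (nat_lit 52) (nat_lit 5) (nat_lit 55) (nat_lit 5) (nat_lit 53) (nat_lit 5) (nat_lit 480) (nat_lit 434) (nat_lit 286)) (XT.lf (nat_lit 0) (nat_lit 26554253473) (nat_lit 228) (nat_lit 25490438144) (nat_lit 76) (nat_lit 30750878003) (nat_lit 52) (nat_lit 5) (nat_lit 55) (nat_lit 5) (nat_lit 53) (nat_lit 5) (nat_lit 481)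 (nat_lit 434) (nat_lit 285)))) (XT.nd (nat_lit 156) (nat_lit 152) (nat_lit 0) (XT.nd (nat_lit 78) (nat_lit 0) (nat_lit 0) (XT.lf (nat_lit 0) (nat_lit 22832120063) (nat_lit 152) (nat_lit 25340003176) (nat_lit 228) (nat_lit 37363036645) (nat_lit 50) (nat_lit 5) (nat_lit 52) (nat_lit 5) (nat_lit 53) (nat_lit 5) (nat_lit 482) (nat_lit 434) (nat_lit 284)) (XT.lf (nat_lit 0) (nat_lit 71349938260) (nat_lit 228) (nat_lit 13986915934) (nat_lit 76) (nat_lit 3050923130) (nat_lit 50) (nat_lit 5) (nat_lit 53) (nat_lit 5) (nat_lit 51) (nat_lit 4) (nat_lit 483) (nat_lit 434) (nat_lit 283))) (XT.nd (nat_lit 78) (nat_lit 0) (nat_lit 0) (XT.lf (nat_lit 0) (nat_lit 5188684632) (nat_lit 152) (nat_lit 53454950386) (nat_lit 76) (nat_lit 32684890823) (nat_lit 48) (nat_lit 5) (nat_lit 50) (nat_lit 5) (nat_lit 49) (nat_lit 5) (nat_lit 484) (nat_lit 434) (nat_lit 282)) (XT.lf (nat_lit 0) (nat_lit 28192935014) (nat_lit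 152) (nat_lit 1878141790) (nat_lit 76) (nat_lit 64319320575) (nat_lit 48) (nat_lit 5) (nat_lit 50) (nat_lit 5) (nat_lit 49) (nat_lit 5) (nat_lit 485) (nat_lit 434) (nat_lit 281))))) (XT.nd (nat_lit 234) (nat_lit 304) (nat_lit 0) (XT.nd (nat_lit 78) (nat_lit 152) (nat_lit 0) (XT.lf (nat_lit 0) (nat_lit 53201554624) (nat_lit 228) (nat_lit 43573078867) (nat_lit 76) (nat_lit 788021372) (nat_lit 46) (nat_lit 5) (nat_lit 49) (nat_lit 5) (nat_lit 47) (nat_lit 4) (nat_lit 486) (nat_lit 434) (nat_lit 280)) (XT.nd (nat_lit 78) (nat_lit 76) (nat_lit 0) (XT.lf (nat_lit 0) (nat_lit 11701965396) (nat_lit 76) (nat_lit 68464960849) (nat_lit 152) (nat_lit 20691283123) (nat_lit 45) (nat_lit 5) (nat_lit 46) (nat_lit 5) (nat_lit 47) (nat_lit 4) (nat_lit 487) (nat_lit 434) (nat_lit 279)) (XT.lf (nat_lit 0) (nat_lit 4777172049) (nat_lit 152) (nat_lit 33108239225) (nat_lit 76) (nat_lit 66392463559) (nat_lit 44) (nat_lit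 5) (nat_lit 46) (nat_lit 5) (nat_lit 45) (nat_lit 5) (nat_lit 488) (nat_lit 434) (nat_lit 278)))) (XT.nd (nat_lit 156) (nat_lit 152) (nat_lit 0) (XT.nd (nat_lit 78) (nat_lit 0) (nat_lit 0) (XT.lf (nat_lit 0) (nat_lit 26239913242) (nat_lit 152) (nat_lit 4991861652) (nat_lit 228) (nat_lit 76599384393) (nat_lit 42) (nat_lit 5) (nat_lit 44) (nat_lit 5) (nat_lit 45) (nat_lit 5) (nat_lit 489) (nat_lit 434) (nat_lit 277)) (XT.lf (nat_lit 0) (nat_lit 60038725746) (nat_lit 228) (nat_lit 22302553223) (nat_lit 76) (nat_lit 29169348264) (nat_lit 42) (nat_lit 5) (nat_lit 45) (nat_lit 5) (nat_lit 43) (nat_lit 4) (nat_lit 490) (nat_lit 434) (nat_lit 276))) (XT.nd (nat_lit 78) (nat_lit 76) (nat_lit 0) (XT.lf (nat_lit 0) (nat_lit 41184124227) (nat_lit 76) (nat_lit 49825228902) (nat_lit 152) (nat_lit 24328549151) (nat_lit 41) (nat_lit 5) (nat_lit 42) (nat_lit 5) (nat_lit 43) (nat_lit 4) (nat_lit 491) (nat_lit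 434) (nat_lit 275)) (XT.lf (nat_lit 0) (nat_lit 4420838517) (nat_lit 152) (nat_lit 10792324560) (nat_lit 76) (nat_lit 104121001493) (nat_lit 40) (nat_lit 5) (nat_lit 42) (nat_lit 5) (nat_lit 41) (nat_lit 5) (nat_lit 492) (nat_lit 434) (nat_lit 274)))))) (XT.nd (nat_lit 546) (nat_lit 456) (nat_lit 0) (XT.nd (nat_lit 234) (nat_lit 228) (nat_lit 0) (XT.nd (nat_lit 78) (nat_lit 76) (nat_lit 0) (XT.lf (nat_lit 0) (nat_lit 35032221889) (nat_lit 228) (nat_lit 66651402282) (nat_lit 76) (nat_lit 21764568248) (nat_lit 38) (nat_lit 5) (nat_lit 41) (nat_lit 5) (nat_lit 39) (nat_lit 4) (nat_lit 493) (nat_lit 434) (nat_lit 273)) (XT.nd (nat_lit 78) (nat_lit 0) (nat_lit 0) (XT.lf (nat_lit 0) (nat_lit 130396284) (nat_lit 76) (nat_lit 67479560283) (nat_lit 152) (nat_lit 60136176113) (nat_lit 37) (nat_lit 5) (nat_lit 38) (nat_lit 5) (nat_lit 39) (nat_lit 4) (nat_lit 494) (nat_lit 434) (nat_lit 272)) (XT.lf (nat_lit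 0) (nat_lit 72562666144) (nat_lit 76) (nat_lit 30381293153) (nat_lit 152) (nat_lit 29258641711) (nat_lit 37) (nat_lit 5) (nat_lit 38) (nat_lit 5) (nat_lit 39) (nat_lit 4) (nat_lit 495) (nat_lit 434) (nat_lit 271)))) (XT.nd (nat_lit 156) (nat_lit 76) (nat_lit 0) (XT.nd (nat_lit 78) (nat_lit 0) (nat_lit 0) (XT.lf (nat_lit 0) (nat_lit 3386335882) (nat_lit 152) (nat_lit 124938744933) (nat_lit 76) (nat_lit 8538103322) (nat_lit 35) (nat_lit 5) (nat_lit 37) (nat_lit 5) (nat_lit 36) (nat_lit 4) (nat_lit 496) (nat_lit 434) (nat_lit 270)) (XT.lf (nat_lit 0) (nat_lit 38203582438) (nat_lit 152) (nat_lit 53565493573) (nat_lit 76) (nat_lit 49887572905) (nat_lit 35) (nat_lit 5) (nat_lit 37) (nat_lit 5) (nat_lit 36) (nat_lit 4) (nat_lit 497) (nat_lit 434) (nat_lit 269))) (XT.nd (nat_lit 78) (nat_lit 0) (nat_lit 0) (XT.lf (nat_lit 0) (nat_lit 22080729386) (nat_lit 76) (nat_lit 53024427123) (nat_lit 152) (nat_lit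 71567457266) (nat_lit 34) (nat_lit 5) (nat_lit 35) (nat_lit 5) (nat_lit 36) (nat_lit 4) (nat_lit 498) (nat_lit 434) (nat_lit 268)) (XT.lf (nat_lit 0) (nat_lit 103366563176) (nat_lit 76) (nat_lit 11391150530) (nat_lit 152) (nat_lit 37136368044) (nat_lit 34) (nat_lit 5) (nat_lit 35) (nat_lit 5) (nat_lit 36) (nat_lit 4) (nat_lit 499) (nat_lit 434) (nat_lit 267))))) (XT.nd (nat_lit 312) (nat_lit 228) (nat_lit 0) (XT.nd (nat_lit 156) (nat_lit 76) (nat_lit 0) (XT.nd (nat_lit 78) (nat_lit 0) (nat_lit 0) (XT.lf (nat_lit 0) (nat_lit 64929675) (nat_lit 152) (nat_lit 125475053696) (nat_lit 76) (nat_lit 31786549338) (nat_lit 32) (nat_lit 5) (nat_lit 34) (nat_lit 5) (nat_lit 33) (nat_lit 4) (nat_lit 500) (nat_lit 434) (nat_lit 266)) (XT.lf (nat_lit 0) (nat_lit 38899109288) (nat_lit 152) (nat_lit 45866634091) (nat_lit 76) (nat_lit 78183381148) (nat_lit 32) (nat_lit 5) (nat_lit 34) (nat_lit 5) (nat_lit 33)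 (nat_lit 4) (nat_lit 501) (nat_lit 434) (nat_lit 265))) (XT.nd (nat_lit 78) (nat_lit 0) (nat_lit 0) (XT.lf (nat_lit 0) (nat_lit 38967203950) (nat_lit 76) (nat_lit 41315031260) (nat_lit 152) (nat_lit 88540248938) (nat_lit 31) (nat_lit 5) (nat_lit 32) (nat_lit 5) (nat_lit 33) (nat_lit 4) (nat_lit 502) (nat_lit 434) (nat_lit 264)) (XT.lf (nat_lit 0) (nat_lit 124590143372) (nat_lit 152) (nat_lit 45397751937) (nat_lit 0) (nat_lit 4958835217) (nat_lit 31) (nat_lit 5) (nat_lit 33) (nat_lit 4) (nat_lit 31) (nat_lit 4) (nat_lit 503) (nat_lit 434) (nat_lit 263)))) (XT.nd (nat_lit 156) (nat_lit 76) (nat_lit 0) (XT.nd (nat_lit 78) (nat_lit 76) (nat_lit 0) (XT.lf (nat_lit 0) (nat_lit 44011916762) (nat_lit 76) (nat_lit 128464884637) (nat_lit 76) (nat_lit 8832220172) (nat_lit 30) (nat_lit 4) (nat_lit 31) (nat_lit 5) (nat_lit 31) (nat_lit 4) (nat_lit 504) (nat_lit 434) (nat_lit 262)) (XT.lf (nat_lit 0) (nat_lit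 34435908658) (nat_lit 152) (nat_lit 49040343438) (nat_lit 76) (nat_lit 104447016140) (nat_lit 29) (nat_lit 5) (nat_lit 31) (nat_lit 5) (nat_lit 30) (nat_lit 4) (nat_lit 505) (nat_lit 434) (nat_lit 261))) (XT.nd (nat_lit 78) (nat_lit 0) (nat_lit 0) (XT.lf (nat_lit 0) (nat_lit 44920193359) (nat_lit 76) (nat_lit 35350723596) (nat_lit 152) (nat_lit 114555056137) (nat_lit 28) (nat_lit 5) (nat_lit 29) (nat_lit 5) (nat_lit 30) (nat_lit 4) (nat_lit 506) (nat_lit 434) (nat_lit 260)) (XT.lf (nat_lit 0) (nat_lit 129477799228) (nat_lit 152) (nat_lit 57003597217) (nat_lit 0) (nat_lit 15538410627) (nat_lit 28) (nat_lit 5) (nat_lit 30) (nat_lit 4) (nat_lit 28) (nat_lit 4) (nat_lit 507) (nat_lit 434) (nat_lit 259))))))))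
noncomputable def xc171 : XT := (XT.nd (nat_lit 2184) (nat_lit 228) (nat_lit 0) (XT.nd (nat_lit 1092) (nat_lit 532) (nat_lit 0) (XT.nd (nat_lit 546) (nat_lit 304) (nat_lit 0) (XT.nd (nat_lit 234) (nat_lit 152) (nat_lit 0) (XT.nd (nat_lit 78) (nat_lit 152) (nat_lit 0) (XT.lf (nat_lit 0) (nat_lit 41283599987) (nat_lit 76) (nat_lit 141084514832) (nat_lit 76) (nat_lit 27144063527) (nat_lit 27) (nat_lit 4) (nat_lit 28) (nat_lit 5) (nat_lit 28) (nat_lit 4) (nat_lit 508) (nat_lit 434) (nat_lit 258)) (XT.nd (nat_lit 78) (nat_lit 76) (nat_lit 0) (XT.lf (nat_lit 0) (nat_lit 20847116498) (nat_lit 152) (nat_lit 71204874582) (nat_lit 76) (nat_lit 125262144091) (nat_lit 26) (nat_lit 5) (nat_lit 28) (nat_lit 5) (nat_lit 27) (nat_lit 4) (nat_lit 509) (nat_lit 434) (nat_lit 257)) (XT.lf (nat_lit 0) (nat_lit 31222527361) (nat_lit 76) (nat_lit 39589645648) (nat_lit 152) (nat_lit 154647440843) (nat_lit 25) (nat_lit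 5) (nat_lit 26) (nat_lit 5) (nat_lit 27) (nat_lit 4) (nat_lit 510) (nat_lit 434) (nat_lit 256)))) (XT.nd (nat_lit 156) (nat_lit 76) (nat_lit 0) (XT.nd (nat_lit 78) (nat_lit 76) (nat_lit 0) (XT.lf (nat_lit 0) (nat_lit 124742141025) (nat_lit 152) (nat_lit 92972223254) (nat_lit 0) (nat_lit 16224669299) (nat_lit 25) (nat_lit 5) (nat_lit 27) (nat_lit 4) (nat_lit 25) (nat_lit 4) (nat_lit 511) (nat_lit 434) (nat_lit 255)) (XT.lf (nat_lit 0) (nat_lit 13125227233) (nat_lit 76) (nat_lit 169096424631) (nat_lit 76) (nat_lit 60578120249) (nat_lit 24) (nat_lit 4) (nat_lit 25) (nat_lit 5) (nat_lit 25) (nat_lit 4) (nat_lit 512) (nat_lit 434) (nat_lit 254))) (XT.nd (nat_lit 78) (nat_lit 76) (nat_lit 0) (XT.lf (nat_lit 0) (nat_lit 127753629308) (nat_lit 76) (nat_lit 116395166411) (nat_lit 76) (nat_lit 7876069023) (nat_lit 24) (nat_lit 4) (nat_lit 25) (nat_lit 5) (nat_lit 25) (nat_lit 4) (nat_lit 513) (nat_lit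 434) (nat_lit 253)) (XT.lf (nat_lit 0) (nat_lit 45941189412) (nat_lit 152) (nat_lit 14340414335) (nat_lit 76) (nat_lit 201392600477) (nat_lit 23) (nat_lit 5) (nat_lit 25) (nat_lit 5) (nat_lit 24) (nat_lit 4) (nat_lit 514) (nat_lit 434) (nat_lit 252))))) (XT.nd (nat_lit 234) (nat_lit 152) (nat_lit 0) (XT.nd (nat_lit 78) (nat_lit 76) (nat_lit 0) (XT.lf (nat_lit 0) (nat_lit 103819674101) (nat_lit 152) (nat_lit 167431379806) (nat_lit 0) (nat_lit 466748471) (nat_lit 22) (nat_lit 5) (nat_lit 24) (nat_lit 4) (nat_lit 22) (nat_lit 4) (nat_lit 515) (nat_lit 434) (nat_lit 251)) (XT.nd (nat_lit 78) (nat_lit 76) (nat_lit 0) (XT.lf (nat_lit 0) (nat_lit 165826347446) (nat_lit 152) (nat_lit 53902750400) (nat_lit 0) (nat_lit 62472769407) (nat_lit 22) (nat_lit 5) (nat_lit 24) (nat_lit 4) (nat_lit 22) (nat_lit 4) (nat_lit 516) (nat_lit 434) (nat_lit 250)) (XT.lf (nat_lit 0) (nat_lit 67459948376) (nat_lit 76)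 (nat_lit 164525881322) (nat_lit 76) (nat_lit 61171681943) (nat_lit 21) (nat_lit 4) (nat_lit 22) (nat_lit 5) (nat_lit 22) (nat_lit 4) (nat_lit 517) (nat_lit 434) (nat_lit 249)))) (XT.nd (nat_lit 156) (nat_lit 0) (nat_lit 0) (XT.nd (nat_lit 78) (nat_lit 152) (nat_lit 0) (XT.lf (nat_lit 0) (nat_lit 196760686349) (nat_lit 76) (nat_lit 105604718561) (nat_lit 76) (nat_lit 2249927428) (nat_lit 21) (nat_lit 4) (nat_lit 22) (nat_lit 5) (nat_lit 22) (nat_lit 4) (nat_lit 518) (nat_lit 434) (nat_lit 248)) (XT.lf (nat_lit 0) (nat_lit 15442437660) (nat_lit 76) (nat_lit 42507704958) (nat_lit 152) (nat_lit 258637342672) (nat_lit 19) (nat_lit 5) (nat_lit 20) (nat_lit 5) (nat_lit 21) (nat_lit 4) (nat_lit 519) (nat_lit 434) (nat_lit 247))) (XT.nd (nat_lit 78) (nat_lit 0) (nat_lit 0) (XT.lf (nat_lit 0) (nat_lit 123311106552) (nat_lit 152) (nat_lit 180857045802) (nat_lit 0) (nat_lit 24876924224) (nat_lit 19) (nat_lit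 5) (nat_lit 21) (nat_lit 4) (nat_lit 19) (nat_lit 4) (nat_lit 520) (nat_lit 434) (nat_lit 246)) (XT.lf (nat_lit 0) (nat_lit 192636276242) (nat_lit 152) (nat_lit 55252856261) (nat_lit 0) (nat_lit 94201607076) (nat_lit 19) (nat_lit 5) (nat_lit 21) (nat_lit 4) (nat_lit 19) (nat_lit 4) (nat_lit 521) (nat_lit 434) (nat_lit 245)))))) (XT.nd (nat_lit 546) (nat_lit 228) (nat_lit 0) (XT.nd (nat_lit 234) (nat_lit 152) (nat_lit 0) (XT.nd (nat_lit 78) (nat_lit 76) (nat_lit 0) (XT.lf (nat_lit 0) (nat_lit 79163984893) (nat_lit 76) (nat_lit 187499033979) (nat_lit 76) (nat_lit 89063901159) (nat_lit 18) (nat_lit 4) (nat_lit 19) (nat_lit 5) (nat_lit 19) (nat_lit 4) (nat_lit 522) (nat_lit 434) (nat_lit 244)) (XT.nd (nat_lit 78) (nat_lit 76) (nat_lit 0) (XT.lf (nat_lit 0) (nat_lit 222218643707) (nat_lit 76) (nat_lit 123107542909) (nat_lit 76) (nat_lit 24671968513) (nat_lit 18) (nat_lit 4) (nat_lit 19) (nat_lit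 5) (nat_lit 19) (nat_lit 4) (nat_lit 523) (nat_lit 434) (nat_lit 243)) (XT.lf (nat_lit 0) (nat_lit 41564601433) (nat_lit 152) (nat_lit 13228562004) (nat_lit 76) (nat_lit 330156299483) (nat_lit 17) (nat_lit 5) (nat_lit 19) (nat_lit 5) (nat_lit 18) (nat_lit 4) (nat_lit 524) (nat_lit 434) (nat_lit 242)))) (XT.nd (nat_lit 156) (nat_lit 76) (nat_lit 0) (XT.nd (nat_lit 78) (nat_lit 0) (nat_lit 0) (XT.lf (nat_lit 0) (nat_lit 112646848324) (nat_lit 152) (nat_lit 268965215191) (nat_lit 0) (nat_lit 18897900262) (nat_lit 16) (nat_lit 5) (nat_lit 18) (nat_lit 4) (nat_lit 16) (nat_lit 4) (nat_lit 525) (nat_lit 434) (nat_lit 241)) (XT.lf (nat_lit 0) (nat_lit 188408566697) (nat_lit 152) (nat_lit 133724399693) (nat_lit 0) (nat_lit 94659255349) (nat_lit 16) (nat_lit 5) (nat_lit 18) (nat_lit 4) (nat_lit 16) (nat_lit 4) (nat_lit 526) (nat_lit 434) (nat_lit 240))) (XT.nd (nat_lit 78) (nat_lit 0) (nat_lit 0) (XT.lf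 (nat_lit 0) (nat_lit 8551017896) (nat_lit 76) (nat_lit 259540292541) (nat_lit 76) (nat_lit 165790635208) (nat_lit 15) (nat_lit 4) (nat_lit 16) (nat_lit 5) (nat_lit 16) (nat_lit 4) (nat_lit 527) (nat_lit 434) (nat_lit 239)) (XT.lf (nat_lit 0) (nat_lit 162581709046) (nat_lit 76) (nat_lit 191440613501) (nat_lit 76) (nat_lit 97690626657) (nat_lit 15) (nat_lit 4) (nat_lit 16) (nat_lit 5) (nat_lit 16) (nat_lit 4) (nat_lit 528) (nat_lit 434) (nat_lit 238))))) (XT.nd (nat_lit 234) (nat_lit 76) (nat_lit 0) (XT.nd (nat_lit 78) (nat_lit 152) (nat_lit 0) (XT.lf (nat_lit 0) (nat_lit 324312880925) (nat_lit 76) (nat_lit 119936474591) (nat_lit 76) (nat_lit 26186173928) (nat_lit 15) (nat_lit 4) (nat_lit 16) (nat_lit 5) (nat_lit 16) (nat_lit 4) (nat_lit 529) (nat_lit 434) (nat_lit 237)) (XT.nd (nat_lit 78) (nat_lit 0) (nat_lit 0) (XT.lf (nat_lit 0) (nat_lit 3380174188) (nat_lit 76) (nat_lit 44000691044) (nat_lit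 152) (nat_lit 442672592191) (nat_lit 13) (nat_lit 5) (nat_lit 14) (nat_lit 5) (nat_lit 15) (nat_lit 4) (nat_lit 530) (nat_lit 434) (nat_lit 236)) (XT.lf (nat_lit 0) (nat_lit 126818818052) (nat_lit 152) (nat_lit 346126108554) (nat_lit 0) (nat_lit 37532261688) (nat_lit 13) (nat_lit 5) (nat_lit 15) (nat_lit 4) (nat_lit 13) (nat_lit 4) (nat_lit 531) (nat_lit 434) (nat_lit 235)))) (XT.nd (nat_lit 156) (nat_lit 76) (nat_lit 0) (XT.nd (nat_lit 78) (nat_lit 0) (nat_lit 0) (XT.lf (nat_lit 0) (nat_lit 210949503821) (nat_lit 152) (nat_lit 199273870860) (nat_lit 0) (nat_lit 121662689277) (nat_lit 13) (nat_lit 5) (nat_lit 15) (nat_lit 4) (nat_lit 13) (nat_lit 4) (nat_lit 532) (nat_lit 434) (nat_lit 234)) (XT.lf (nat_lit 0) (nat_lit 299286259596) (nat_lit 152) (nat_lit 45079947870) (nat_lit 0) (nat_lit 209999199166) (nat_lit 13) (nat_lit 5) (nat_lit 15) (nat_lit 4) (nat_lit 13) (nat_lit 4) (nat_lit 533)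 (nat_lit 434) (nat_lit 233))) (XT.nd (nat_lit 78) (nat_lit 0) (nat_lit 0) (XT.lf (nat_lit 0) (nat_lit 120685477788) (nat_lit 76) (nat_lit 273238171726) (nat_lit 76) (nat_lit 183950877119) (nat_lit 12) (nat_lit 4) (nat_lit 13) (nat_lit 5) (nat_lit 13) (nat_lit 4) (nat_lit 534) (nat_lit 434) (nat_lit 232)) (XT.lf (nat_lit 0) (nat_lit 296303380495) (nat_lit 76) (nat_lit 197752544491) (nat_lit 76) (nat_lit 108465026858) (nat_lit 12) (nat_lit 4) (nat_lit 13) (nat_lit 5) (nat_lit 13) (nat_lit 4) (nat_lit 535) (nat_lit 434) (nat_lit 231))))))) (XT.nd (nat_lit 55224) (nat_lit 0) (nat_lit 6308) (XT.nd (nat_lit 54678) (nat_lit 0) (nat_lit 8816) (XT.nd (nat_lit 234) (nat_lit 76) (nat_lit 0) (XT.nd (nat_lit 78) (nat_lit 152) (nat_lit 0) (XT.lf (nat_lit 0) (nat_lit 480701351450) (nat_lit 76) (nat_lit 118493048806) (nat_lit 76) (nat_lit 29205318769) (nat_lit 12) (nat_lit 4) (nat_lit 13) (nat_lit 5) (nat_lit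 13) (nat_lit 4) (nat_lit 536) (nat_lit 434) (nat_lit 230)) (XT.nd (nat_lit 78) (nat_lit 0) (nat_lit 0) (XT.lf (nat_lit 0) (nat_lit 18494574910) (nat_lit 76) (nat_lit 34082257889) (nat_lit 152) (nat_lit 602939006076) (nat_lit 10) (nat_lit 5) (nat_lit 11) (nat_lit 5) (nat_lit 12) (nat_lit 4) (nat_lit 537) (nat_lit 434) (nat_lit 229)) (XT.lf (nat_lit 0) (nat_lit 140860214469) (nat_lit 152) (nat_lit 487110025877) (nat_lit 0) (nat_lit 55823904958) (nat_lit 10) (nat_lit 5) (nat_lit 12) (nat_lit 4) (nat_lit 10) (nat_lit 4) (nat_lit 538) (nat_lit 434) (nat_lit 228)))) (XT.nd (nat_lit 156) (nat_lit 76) (nat_lit 0) (XT.nd (nat_lit 78) (nat_lit 0) (nat_lit 0) (XT.lf (nat_lit 0) (nat_lit 234116109710) (nat_lit 152) (nat_lit 330262714674) (nat_lit 0) (nat_lit 149079625453) (nat_lit 10) (nat_lit 5) (nat_lit 12) (nat_lit 4) (nat_lit 10) (nat_lit 4) (nat_lit 539) (nat_lit 434) (nat_lit 227)) (XT.lf (nat_lit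 0) (nat_lit 332034436809) (nat_lit 152) (nat_lit 165573764816) (nat_lit 0) (nat_lit 246997786127) (nat_lit 10) (nat_lit 5) (nat_lit 12) (nat_lit 4) (nat_lit 10) (nat_lit 4) (nat_lit 540) (nat_lit 434) (nat_lit 226))) (XT.nd (nat_lit 54210) (nat_lit 0) (nat_lit 8816) (XT.lf (nat_lit 0) (nat_lit 7591929396) (nat_lit 76) (nat_lit 427374936537) (nat_lit 76) (nat_lit 342338127355) (nat_lit 9) (nat_lit 4) (nat_lit 10) (nat_lit 5) (nat_lit 10) (nat_lit 4) (nat_lit 541) (nat_lit 434) (nat_lit 225)) (XT.lf (nat_lit 0) (nat_lit 2872173753) (nat_lit 836) (nat_lit 4190457047) (nat_lit 836) (nat_lit 4190457047) (nat_lit 125) (nat_lit 3) (nat_lit 136) (nat_lit 3) (nat_lit 136) (nat_lit 5) (nat_lit 435) (nat_lit 435) (nat_lit 330))))) (XT.nd (nat_lit 234) (nat_lit 0) (nat_lit 152) (XT.nd (nat_lit 78) (nat_lit 0) (nat_lit 76) (XT.lf (nat_lit 76) (nat_lit 2732532992) (nat_lit 0) (nat_lit 3325460922) (nat_lit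 836) (nat_lit 17002284731) (nat_lit 126) (nat_lit 5) (nat_lit 125) (nat_lit 3) (nat_lit 136) (nat_lit 5) (nat_lit 436) (nat_lit 435) (nat_lit 329)) (XT.nd (nat_lit 78) (nat_lit 0) (nat_lit 0) (XT.lf (nat_lit 0) (nat_lit 6648547063) (nat_lit 760) (nat_lit 9074721537) (nat_lit 836) (nat_lit 7905760092) (nat_lit 126) (nat_lit 5) (nat_lit 136) (nat_lit 5) (nat_lit 137) (nat_lit 5) (nat_lit 437) (nat_lit 435) (nat_lit 328)) (XT.lf (nat_lit 76) (nat_lit 2770445360) (nat_lit 0) (nat_lit 4588178046) (nat_lit 836) (nat_lit 16863096079) (nat_lit 127) (nat_lit 5) (nat_lit 126) (nat_lit 5) (nat_lit 137) (nat_lit 5) (nat_lit 438) (nat_lit 435) (nat_lit 327)))) (XT.nd (nat_lit 156) (nat_lit 0) (nat_lit 76) (XT.nd (nat_lit 78) (nat_lit 0) (nat_lit 0) (XT.lf (nat_lit 0) (nat_lit 8363884960) (nat_lit 760) (nat_lit 9431874459) (nat_lit 836) (nat_lit 7035304208) (nat_lit 127) (nat_lit 5) (nat_lit 137) (nat_lit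 5) (nat_lit 138) (nat_lit 5) (nat_lit 439) (nat_lit 435) (nat_lit 326)) (XT.lf (nat_lit 76) (nat_lit 3211288294) (nat_lit 0) (nat_lit 6326397412) (nat_lit 836) (nat_lit 15927278202) (nat_lit 128) (nat_lit 5) (nat_lit 127) (nat_lit 5) (nat_lit 138) (nat_lit 5) (nat_lit 440) (nat_lit 435) (nat_lit 325))) (XT.nd (nat_lit 78) (nat_lit 0) (nat_lit 0) (XT.lf (nat_lit 0) (nat_lit 11014997611) (nat_lit 760) (nat_lit 9405449609) (nat_lit 836) (nat_lit 5697873539) (nat_lit 128) (nat_lit 5) (nat_lit 138) (nat_lit 5) (nat_lit 139) (nat_lit 5) (nat_lit 441) (nat_lit 435) (nat_lit 324)) (XT.lf (nat_lit 76) (nat_lit 4108132122) (nat_lit 0) (nat_lit 8619436398) (nat_lit 836) (nat_lit 14068709749) (nat_lit 129) (nat_lit 5) (nat_lit 128) (nat_lit 5) (nat_lit 139) (nat_lit 5) (nat_lit 442) (nat_lit 435) (nat_lit 323)))))) (XT.nd (nat_lit 546) (nat_lit 1672) (nat_lit 0) (XT.nd (nat_lit 234) (nat_lit 1140) (nat_lit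 0) (XT.nd (nat_lit 78) (nat_lit 0) (nat_lit 0) (XT.lf (nat_lit 0) (nat_lit 14740349502) (nat_lit 760) (nat_lit 8942826006) (nat_lit 836) (nat_lit 3814231434) (nat_lit 129) (nat_lit 5) (nat_lit 139) (nat_lit 5) (nat_lit 140) (nat_lit 5) (nat_lit 443) (nat_lit 435) (nat_lit 322)) (XT.nd (nat_lit 78) (nat_lit 0) (nat_lit 76) (XT.lf (nat_lit 76) (nat_lit 5520295472) (nat_lit 0) (nat_lit 11555057684) (nat_lit 836) (nat_lit 11147161969) (nat_lit 130) (nat_lit 5) (nat_lit 129) (nat_lit 5) (nat_lit 140) (nat_lit 5) (nat_lit 444) (nat_lit 435) (nat_lit 321)) (XT.lf (nat_lit 0) (nat_lit 19693771079) (nat_lit 760) (nat_lit 7985225818) (nat_lit 76) (nat_lit 1296550762) (nat_lit 130) (nat_lit 5) (nat_lit 140) (nat_lit 5) (nat_lit 131) (nat_lit 5) (nat_lit 445) (nat_lit 435) (nat_lit 320)))) (XT.nd (nat_lit 156) (nat_lit 456) (nat_lit 0) (XT.nd (nat_lit 78) (nat_lit 0) (nat_lit 0) (XT.lf (nat_lit 0) (nat_lit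 7513852322) (nat_lit 760) (nat_lit 15230583164) (nat_lit 836) (nat_lit 7006732099) (nat_lit 120) (nat_lit 5) (nat_lit 130) (nat_lit 5) (nat_lit 131) (nat_lit 5) (nat_lit 446) (nat_lit 435) (nat_lit 319)) (XT.lf (nat_lit 0) (nat_lit 24060362845) (nat_lit 760) (nat_lit 2017273685) (nat_lit 836) (nat_lit 4481433753) (nat_lit 120) (nat_lit 5) (nat_lit 130) (nat_lit 5) (nat_lit 131) (nat_lit 5) (nat_lit 447) (nat_lit 435) (nat_lit 318))) (XT.nd (nat_lit 78) (nat_lit 76) (nat_lit 0) (XT.lf (nat_lit 0) (nat_lit 10162185475) (nat_lit 380) (nat_lit 19754114629) (nat_lit 456) (nat_lit 1474129744) (nat_lit 115) (nat_lit 5) (nat_lit 120) (nat_lit 5) (nat_lit 121) (nat_lit 5) (nat_lit 448) (nat_lit 435) (nat_lit 317)) (XT.lf (nat_lit 0) (nat_lit 1769697518) (nat_lit 456) (nat_lit 4442138680) (nat_lit 76) (nat_lit 26043206547) (nat_lit 114) (nat_lit 5) (nat_lit 120) (nat_lit 5) (nat_lit 115) (nat_lit 5)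 (nat_lit 449) (nat_lit 435) (nat_lit 316))))) (XT.nd (nat_lit 312) (nat_lit 608) (nat_lit 0) (XT.nd (nat_lit 156) (nat_lit 684) (nat_lit 0) (XT.nd (nat_lit 78) (nat_lit 0) (nat_lit 0) (XT.lf (nat_lit 0) (nat_lit 5462581338) (nat_lit 456) (nat_lit 19690783523) (nat_lit 76) (nat_lit 7991494441) (nat_lit 109) (nat_lit 5) (nat_lit 115) (nat_lit 5) (nat_lit 110) (nat_lit 5) (nat_lit 450) (nat_lit 435) (nat_lit 315)) (XT.lf (nat_lit 0) (nat_lit 9513897211) (nat_lit 456) (nat_lit 1783937944) (nat_lit 76) (nat_lit 22772643667) (nat_lit 109) (nat_lit 5) (nat_lit 115) (nat_lit 5) (nat_lit 110) (nat_lit 5) (nat_lit 451) (nat_lit 435) (nat_lit 314))) (XT.nd (nat_lit 78) (nat_lit 304) (nat_lit 0) (XT.lf (nat_lit 0) (nat_lit 14093142763) (nat_lit 456) (nat_lit 17507878885) (nat_lit 76) (nat_lit 3425090928) (nat_lit 104) (nat_lit 5) (nat_lit 110) (nat_lit 5) (nat_lit 105) (nat_lit 5) (nat_lit 452) (nat_lit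 435) (nat_lit 313)) (XT.lf (nat_lit 0) (nat_lit 1682897552) (nat_lit 304) (nat_lit 17456480777) (nat_lit 380) (nat_lit 16878249687) (nat_lit 100) (nat_lit 5) (nat_lit 104) (nat_lit 5) (nat_lit 105) (nat_lit 5) (nat_lit 453) (nat_lit 435) (nat_lit 312)))) (XT.nd (nat_lit 156) (nat_lit 304) (nat_lit 0) (XT.nd (nat_lit 78) (nat_lit 304) (nat_lit 0) (XT.lf (nat_lit 0) (nat_lit 22436431718) (nat_lit 304) (nat_lit 2293960060) (nat_lit 380) (nat_lit 12313705461) (nat_lit 100) (nat_lit 5) (nat_lit 104) (nat_lit 5) (nat_lit 105) (nat_lit 5) (nat_lit 454) (nat_lit 435) (nat_lit 311)) (XT.lf (nat_lit 0) (nat_lit 6083119384) (nat_lit 304) (nat_lit 24821707255) (nat_lit 380) (nat_lit 7201871005) (nat_lit 96) (nat_lit 5) (nat_lit 100) (nat_lit 5) (nat_lit 101) (nat_lit 5) (nat_lit 455) (nat_lit 435) (nat_lit 310))) (XT.nd (nat_lit 78) (nat_lit 304) (nat_lit 0) (XT.lf (nat_lit 0) (nat_lit 28272232925) (nat_lit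 304) (nat_lit 9396396177) (nat_lit 380) (nat_lit 1539767869) (nat_lit 96) (nat_lit 5) (nat_lit 100) (nat_lit 5) (nat_lit 101) (nat_lit 5) (nat_lit 456) (nat_lit 435) (nat_lit 309)) (XT.lf (nat_lit 0) (nat_lit 4550599987) (nat_lit 304) (nat_lit 28962660098) (nat_lit 76) (nat_lit 6834175141) (nat_lit 92) (nat_lit 5) (nat_lit 96) (nat_lit 5) (nat_lit 93) (nat_lit 5) (nat_lit 457) (nat_lit 435) (nat_lit 308))))))))
noncomputable def xc172 : XT := (XT.nd (nat_lit 2184) (nat_lit 1824) (nat_lit 0) (XT.nd (nat_lit 1092) (nat_lit 1444) (nat_lit 0) (XT.nd (nat_lit 546) (nat_lit 836) (nat_lit 0) (XT.nd (nat_lit 234) (nat_lit 760) (nat_lit 0) (XT.nd (nat_lit 78) (nat_lit 304) (nat_lit 0) (XT.lf (nat_lit 0) (nat_lit 11232493802) (nat_lit 304) (nat_lit 6519547972) (nat_lit 76) (nat_lit 23773184854) (nat_lit 92) (nat_lit 5) (nat_lit 96) (nat_lit 5) (nat_lit 93) (nat_lit 5) (nat_lit 458) (nat_lit 435) (nat_lit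 307)) (XT.nd (nat_lit 78) (nat_lit 0) (nat_lit 0) (XT.lf (nat_lit 0) (nat_lit 17604895280) (nat_lit 304) (nat_lit 915086053) (nat_lit 380) (nat_lit 24228352301) (nat_lit 88) (nat_lit 5) (nat_lit 92) (nat_lit 5) (nat_lit 93) (nat_lit 5) (nat_lit 459) (nat_lit 435) (nat_lit 306)) (XT.lf (nat_lit 0) (nat_lit 26542510181) (nat_lit 380) (nat_lit 1133080704) (nat_lit 76) (nat_lit 16338472695) (nat_lit 88) (nat_lit 5) (nat_lit 93) (nat_lit 5) (nat_lit 89) (nat_lit 5) (nat_lit 460) (nat_lit 435) (nat_lit 305)))) (XT.nd (nat_lit 156) (nat_lit 304) (nat_lit 0) (XT.nd (nat_lit 78) (nat_lit 228) (nat_lit 0) (XT.lf (nat_lit 0) (nat_lit 24854117204) (nat_lit 228) (nat_lit 10511965054) (nat_lit 304) (nat_lit 9957002818) (nat_lit 85) (nat_lit 5) (nat_lit 88) (nat_lit 5) (nat_lit 89) (nat_lit 5) (nat_lit 461) (nat_lit 435) (nat_lit 304)) (XT.lf (nat_lit 0) (nat_lit 5538897342) (nat_lit 228) (nat_lit 39312108294)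 (nat_lit 304) (nat_lit 1835544226) (nat_lit 82) (nat_lit 5) (nat_lit 85) (nat_lit 5) (nat_lit 86) (nat_lit 5) (nat_lit 462) (nat_lit 435) (nat_lit 303))) (XT.nd (nat_lit 78) (nat_lit 228) (nat_lit 0) (XT.lf (nat_lit 0) (nat_lit 6999436380) (nat_lit 304) (nat_lit 14829819061) (nat_lit 76) (nat_lit 26257627459) (nat_lit 81) (nat_lit 5) (nat_lit 85) (nat_lit 5) (nat_lit 82) (nat_lit 5) (nat_lit 463) (nat_lit 435) (nat_lit 302)) (XT.lf (nat_lit 0) (nat_lit 13191978853) (nat_lit 228) (nat_lit 3225581253) (nat_lit 304) (nat_lit 33128014653) (nat_lit 78) (nat_lit 5) (nat_lit 81) (nat_lit 5) (nat_lit 82) (nat_lit 5) (nat_lit 464) (nat_lit 435) (nat_lit 301))))) (XT.nd (nat_lit 234) (nat_lit 608) (nat_lit 0) (XT.nd (nat_lit 78) (nat_lit 228) (nat_lit 0) (XT.lf (nat_lit 0) (nat_lit 26813648306) (nat_lit 304) (nat_lit 8197773420) (nat_lit 76) (nat_lit 16040427270) (nat_lit 78) (nat_lit 5) (nat_lit 82)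 (nat_lit 5) (nat_lit 79) (nat_lit 5) (nat_lit 465) (nat_lit 435) (nat_lit 300)) (XT.nd (nat_lit 78) (nat_lit 0) (nat_lit 0) (XT.lf (nat_lit 0) (nat_lit 22013611922) (nat_lit 228) (nat_lit 16109809175) (nat_lit 304) (nat_lit 14490322504) (nat_lit 75) (nat_lit 5) (nat_lit 78) (nat_lit 5) (nat_lit 79) (nat_lit 5) (nat_lit 466) (nat_lit 435) (nat_lit 299)) (XT.lf (nat_lit 0) (nat_lit 50195491264) (nat_lit 304) (nat_lit 291207989) (nat_lit 76) (nat_lit 3757193881) (nat_lit 75) (nat_lit 5) (nat_lit 79) (nat_lit 5) (nat_lit 76) (nat_lit 5) (nat_lit 467) (nat_lit 435) (nat_lit 298)))) (XT.nd (nat_lit 156) (nat_lit 152) (nat_lit 0) (XT.nd (nat_lit 78) (nat_lit 228) (nat_lit 0) (XT.lf (nat_lit 0) (nat_lit 7472682544) (nat_lit 228) (nat_lit 23738730039) (nat_lit 76) (nat_lit 24699818998) (nat_lit 72) (nat_lit 5) (nat_lit 75) (nat_lit 5) (nat_lit 73) (nat_lit 5) (nat_lit 468) (nat_lit 435) (nat_lit 297))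 (XT.lf (nat_lit 0) (nat_lit 8819853392) (nat_lit 228) (nat_lit 10754133307) (nat_lit 304) (nat_lit 38077621519) (nat_lit 69) (nat_lit 5) (nat_lit 72) (nat_lit 5) (nat_lit 73) (nat_lit 5) (nat_lit 469) (nat_lit 435) (nat_lit 296))) (XT.nd (nat_lit 78) (nat_lit 152) (nat_lit 0) (XT.lf (nat_lit 0) (nat_lit 32853979801) (nat_lit 304) (nat_lit 15806280655) (nat_lit 76) (nat_lit 10790062566) (nat_lit 69) (nat_lit 5) (nat_lit 73) (nat_lit 5) (nat_lit 70) (nat_lit 5) (nat_lit 470) (nat_lit 435) (nat_lit 295)) (XT.lf (nat_lit 0) (nat_lit 19308499937) (nat_lit 152) (nat_lit 27964889853) (nat_lit 228) (nat_lit 14041813411) (nat_lit 67) (nat_lit 5) (nat_lit 69) (nat_lit 5) (nat_lit 70) (nat_lit 5) (nat_lit 471) (nat_lit 435) (nat_lit 294)))))) (XT.nd (nat_lit 546) (nat_lit 684) (nat_lit 0) (XT.nd (nat_lit 234) (nat_lit 380) (nat_lit 0) (XT.nd (nat_lit 78) (nat_lit 380) (nat_lit 0) (XT.lf (nat_lit 0) (nat_lit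 56724174405) (nat_lit 152) (nat_lit 5954998214) (nat_lit 228) (nat_lit 580885126) (nat_lit 67) (nat_lit 5) (nat_lit 69) (nat_lit 5) (nat_lit 70) (nat_lit 5) (nat_lit 472) (nat_lit 435) (nat_lit 293)) (XT.nd (nat_lit 78) (nat_lit 152) (nat_lit 0) (XT.lf (nat_lit 0) (nat_lit 13888277770) (nat_lit 228) (nat_lit 34044830758) (nat_lit 76) (nat_lit 17320018246) (nat_lit 64) (nat_lit 5) (nat_lit 67) (nat_lit 5) (nat_lit 65) (nat_lit 5) (nat_lit 473) (nat_lit 435) (nat_lit 292)) (XT.lf (nat_lit 0) (nat_lit 3733271139) (nat_lit 152) (nat_lit 25594338164) (nat_lit 228) (nat_lit 38004452624) (nat_lit 62) (nat_lit 5) (nat_lit 64) (nat_lit 5) (nat_lit 65) (nat_lit 5) (nat_lit 474) (nat_lit 435) (nat_lit 291)))) (XT.nd (nat_lit 156) (nat_lit 228) (nat_lit 0) (XT.nd (nat_lit 78) (nat_lit 152) (nat_lit 0) (XT.lf (nat_lit 0) (nat_lit 44578757558) (nat_lit 152) (nat_lit 1534584425) (nat_lit 228) (nat_lit 23372880515)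 (nat_lit 62) (nat_lit 5) (nat_lit 64) (nat_lit 5) (nat_lit 65) (nat_lit 5) (nat_lit 475) (nat_lit 435) (nat_lit 290)) (XT.lf (nat_lit 0) (nat_lit 15851928593) (nat_lit 152) (nat_lit 48502339072) (nat_lit 228) (nat_lit 7363028484) (nat_lit 60) (nat_lit 5) (nat_lit 62) (nat_lit 5) (nat_lit 63) (nat_lit 5) (nat_lit 476) (nat_lit 435) (nat_lit 289))) (XT.nd (nat_lit 78) (nat_lit 152) (nat_lit 0) (XT.lf (nat_lit 0) (nat_lit 9596797749) (nat_lit 228) (nat_lit 14707790240) (nat_lit 76) (nat_lit 49725368142) (nat_lit 59) (nat_lit 5) (nat_lit 62) (nat_lit 5) (nat_lit 60) (nat_lit 5) (nat_lit 477) (nat_lit 435) (nat_lit 288)) (XT.lf (nat_lit 0) (nat_lit 27639715695) (nat_lit 228) (nat_lit 47133898686) (nat_lit 76) (nat_lit 1654472459) (nat_lit 57) (nat_lit 5) (nat_lit 60) (nat_lit 5) (nat_lit 58) (nat_lit 5) (nat_lit 478) (nat_lit 435) (nat_lit 287))))) (XT.nd (nat_lit 234) (nat_lit 304) (nat_lit 0)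 (XT.nd (nat_lit 78) (nat_lit 380) (nat_lit 0) (XT.lf (nat_lit 0) (nat_lit 47234464137) (nat_lit 228) (nat_lit 3332571836) (nat_lit 76) (nat_lit 28346604185) (nat_lit 57) (nat_lit 5) (nat_lit 60) (nat_lit 5) (nat_lit 58) (nat_lit 5) (nat_lit 479) (nat_lit 435) (nat_lit 286)) (XT.nd (nat_lit 78) (nat_lit 228) (nat_lit 0) (XT.lf (nat_lit 0) (nat_lit 44066097916) (nat_lit 152) (nat_lit 24429020558) (nat_lit 228) (nat_lit 12994044536) (nat_lit 55) (nat_lit 5) (nat_lit 57) (nat_lit 5) (nat_lit 58) (nat_lit 5) (nat_lit 480) (nat_lit 435) (nat_lit 285)) (XT.lf (nat_lit 0) (nat_lit 6676774141) (nat_lit 228) (nat_lit 74258564480) (nat_lit 76) (nat_lit 3239777489) (nat_lit 52) (nat_lit 5) (nat_lit 55) (nat_lit 5) (nat_lit 53) (nat_lit 5) (nat_lit 481) (nat_lit 435) (nat_lit 284)))) (XT.nd (nat_lit 156) (nat_lit 152) (nat_lit 0) (XT.nd (nat_lit 78) (nat_lit 152) (nat_lit 0) (XT.lf (nat_lit 0) (nat_lit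 27937293019) (nat_lit 228) (nat_lit 26668309620) (nat_lit 76) (nat_lit 32326971402) (nat_lit 52) (nat_lit 5) (nat_lit 55) (nat_lit 5) (nat_lit 53) (nat_lit 5) (nat_lit 482) (nat_lit 435) (nat_lit 283)) (XT.lf (nat_lit 0) (nat_lit 24068817620) (nat_lit 152) (nat_lit 26566088686) (nat_lit 228) (nat_lit 39174295377) (nat_lit 50) (nat_lit 5) (nat_lit 52) (nat_lit 5) (nat_lit 53) (nat_lit 5) (nat_lit 483) (nat_lit 435) (nat_lit 282))) (XT.nd (nat_lit 78) (nat_lit 152) (nat_lit 0) (XT.lf (nat_lit 0) (nat_lit 74969640599) (nat_lit 228) (nat_lit 14593719867) (nat_lit 76) (nat_lit 3241188453) (nat_lit 50) (nat_lit 5) (nat_lit 53) (nat_lit 5) (nat_lit 51) (nat_lit 4) (nat_lit 484) (nat_lit 435) (nat_lit 281)) (XT.lf (nat_lit 0) (nat_lit 5500104681) (nat_lit 152) (nat_lit 56034923418) (nat_lit 76) (nat_lit 34357318395) (nat_lit 48) (nat_lit 5) (nat_lit 50) (nat_lit 5) (nat_lit 49) (nat_lit 5) (nat_lit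 485) (nat_lit 435) (nat_lit 280))))))) (XT.nd (nat_lit 1092) (nat_lit 760) (nat_lit 0) (XT.nd (nat_lit 546) (nat_lit 532) (nat_lit 0) (XT.nd (nat_lit 234) (nat_lit 304) (nat_lit 0) (XT.nd (nat_lit 78) (nat_lit 228) (nat_lit 0) (XT.lf (nat_lit 0) (nat_lit 29652092067) (nat_lit 152) (nat_lit 1883692225) (nat_lit 76) (nat_lit 67571651394) (nat_lit 48) (nat_lit 5) (nat_lit 50) (nat_lit 5) (nat_lit 49) (nat_lit 5) (nat_lit 486) (nat_lit 435) (nat_lit 279)) (XT.nd (nat_lit 78) (nat_lit 76) (nat_lit 0) (XT.lf (nat_lit 0) (nat_lit 55910742139) (nat_lit 228) (nat_lit 45662969878) (nat_lit 76) (nat_lit 864614342) (nat_lit 46) (nat_lit 5) (nat_lit 49) (nat_lit 5) (nat_lit 47) (nat_lit 4) (nat_lit 487) (nat_lit 435) (nat_lit 278)) (XT.lf (nat_lit 0) (nat_lit 12374394938) (nat_lit 76) (nat_lit 71849012327) (nat_lit 152) (nat_lit 21675300351) (nat_lit 45) (nat_lit 5) (nat_lit 46) (nat_lit 5) (nat_lit 47)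 (nat_lit 4) (nat_lit 488) (nat_lit 435) (nat_lit 277)))) (XT.nd (nat_lit 156) (nat_lit 76) (nat_lit 0) (XT.nd (nat_lit 78) (nat_lit 152) (nat_lit 0) (XT.lf (nat_lit 0) (nat_lit 5062629804) (nat_lit 152) (nat_lit 34678932793) (nat_lit 76) (nat_lit 69747871045) (nat_lit 44) (nat_lit 5) (nat_lit 46) (nat_lit 5) (nat_lit 45) (nat_lit 5) (nat_lit 489) (nat_lit 435) (nat_lit 276)) (XT.lf (nat_lit 0) (nat_lit 27635260872) (nat_lit 152) (nat_lit 5203784271) (nat_lit 228) (nat_lit 80381383296) (nat_lit 42) (nat_lit 5) (nat_lit 44) (nat_lit 5) (nat_lit 45) (nat_lit 5) (nat_lit 490) (nat_lit 435) (nat_lit 275))) (XT.nd (nat_lit 78) (nat_lit 76) (nat_lit 0) (XT.lf (nat_lit 0) (nat_lit 63084728362) (nat_lit 228) (nat_lit 23336678370) (nat_lit 76) (nat_lit 30662544033) (nat_lit 42) (nat_lit 5) (nat_lit 45) (nat_lit 5) (nat_lit 43) (nat_lit 4) (nat_lit 491) (nat_lit 435) (nat_lit 274)) (XT.lf (nat_lit 0)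 (nat_lit 43323026460) (nat_lit 76) (nat_lit 52280006536) (nat_lit 152) (nat_lit 25499599490) (nat_lit 41) (nat_lit 5) (nat_lit 42) (nat_lit 5) (nat_lit 43) (nat_lit 4) (nat_lit 492) (nat_lit 435) (nat_lit 273))))) (XT.nd (nat_lit 234) (nat_lit 228) (nat_lit 0) (XT.nd (nat_lit 78) (nat_lit 228) (nat_lit 0) (XT.lf (nat_lit 0) (nat_lit 4683713554) (nat_lit 152) (nat_lit 11254652726) (nat_lit 76) (nat_lit 109360410965) (nat_lit 40) (nat_lit 5) (nat_lit 42) (nat_lit 5) (nat_lit 41) (nat_lit 5) (nat_lit 493) (nat_lit 435) (nat_lit 272)) (XT.nd (nat_lit 78) (nat_lit 76) (nat_lit 0) (XT.lf (nat_lit 0) (nat_lit 36825407917) (nat_lit 228) (nat_lit 69906422444) (nat_lit 76) (nat_lit 22886689221) (nat_lit 38) (nat_lit 5) (nat_lit 41) (nat_lit 5) (nat_lit 39) (nat_lit 4) (nat_lit 494) (nat_lit 435) (nat_lit 271)) (XT.lf (nat_lit 0) (nat_lit 213215246) (nat_lit 76) (nat_lit 70818025568) (nat_lit 152) (nat_lit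 63100155644) (nat_lit 37) (nat_lit 5) (nat_lit 38) (nat_lit 5) (nat_lit 39) (nat_lit 4) (nat_lit 495) (nat_lit 435) (nat_lit 270)))) (XT.nd (nat_lit 156) (nat_lit 76) (nat_lit 0) (XT.nd (nat_lit 78) (nat_lit 152) (nat_lit 0) (XT.lf (nat_lit 0) (nat_lit 76263465306) (nat_lit 76) (nat_lit 31866536164) (nat_lit 152) (nat_lit 30680784012) (nat_lit 37) (nat_lit 5) (nat_lit 38) (nat_lit 5) (nat_lit 39) (nat_lit 4) (nat_lit 496) (nat_lit 435) (nat_lit 269)) (XT.lf (nat_lit 0) (nat_lit 3594924529) (nat_lit 152) (nat_lit 131111492133) (nat_lit 76) (nat_lit 8997960034) (nat_lit 35) (nat_lit 5) (nat_lit 37) (nat_lit 5) (nat_lit 36) (nat_lit 4) (nat_lit 497) (nat_lit 435) (nat_lit 268))) (XT.nd (nat_lit 78) (nat_lit 76) (nat_lit 0) (XT.lf (nat_lit 0) (nat_lit 40151163326) (nat_lit 152) (nat_lit 56173111064) (nat_lit 76) (nat_lit 52413333976) (nat_lit 35) (nat_lit 5) (nat_lit 37) (nat_lit 5) (nat_lit 36)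 (nat_lit 4) (nat_lit 498) (nat_lit 435) (nat_lit 267)) (XT.lf (nat_lit 0) (nat_lit 23254283410) (nat_lit 76) (nat_lit 55642837017) (nat_lit 152) (nat_lit 75107285962) (nat_lit 34) (nat_lit 5) (nat_lit 35) (nat_lit 5) (nat_lit 36) (nat_lit 4) (nat_lit 499) (nat_lit 435) (nat_lit 266)))))) (XT.nd (nat_lit 546) (nat_lit 380) (nat_lit 0) (XT.nd (nat_lit 234) (nat_lit 228) (nat_lit 0) (XT.nd (nat_lit 78) (nat_lit 152) (nat_lit 0) (XT.lf (nat_lit 0) (nat_lit 108601098530) (nat_lit 76) (nat_lit 11929459045) (nat_lit 152) (nat_lit 38956477716) (nat_lit 34) (nat_lit 5) (nat_lit 35) (nat_lit 5) (nat_lit 36) (nat_lit 4) (nat_lit 500) (nat_lit 435) (nat_lit 265)) (XT.nd (nat_lit 78) (nat_lit 0) (nat_lit 0) (XT.lf (nat_lit 0) (nat_lit 103543557) (nat_lit 152) (nat_lit 131681252947) (nat_lit 76) (nat_lit 33406292078) (nat_lit 32) (nat_lit 5) (nat_lit 34) (nat_lit 5) (nat_lit 33) (nat_lit 4) (nat_lit 501)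 (nat_lit 435) (nat_lit 264)) (XT.lf (nat_lit 0) (nat_lit 40877747989) (nat_lit 152) (nat_lit 48095629192) (nat_lit 76) (nat_lit 82121517131) (nat_lit 32) (nat_lit 5) (nat_lit 34) (nat_lit 5) (nat_lit 33) (nat_lit 4) (nat_lit 502) (nat_lit 435) (nat_lit 263)))) (XT.nd (nat_lit 156) (nat_lit 152) (nat_lit 0) (XT.nd (nat_lit 78) (nat_lit 0) (nat_lit 0) (XT.lf (nat_lit 0) (nat_lit 40978863064) (nat_lit 76) (nat_lit 43350551453) (nat_lit 152) (nat_lit 92932538291) (nat_lit 31) (nat_lit 5) (nat_lit 32) (nat_lit 5) (nat_lit 33) (nat_lit 4) (nat_lit 503) (nat_lit 435) (nat_lit 262)) (XT.lf (nat_lit 0) (nat_lit 130851592962) (nat_lit 152) (nat_lit 47606227660) (nat_lit 0) (nat_lit 5234647242) (nat_lit 31) (nat_lit 5) (nat_lit 33) (nat_lit 4) (nat_lit 31) (nat_lit 4) (nat_lit 504) (nat_lit 435) (nat_lit 261))) (XT.nd (nat_lit 78) (nat_lit 76) (nat_lit 0) (XT.lf (nat_lit 0) (nat_lit 46272933959) (nat_lit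 76) (nat_lit 134859072210) (nat_lit 76) (nat_lit 9240896277) (nat_lit 30) (nat_lit 4) (nat_lit 31) (nat_lit 5) (nat_lit 31) (nat_lit 4) (nat_lit 505) (nat_lit 435) (nat_lit 260)) (XT.lf (nat_lit 0) (nat_lit 36188066740) (nat_lit 152) (nat_lit 51433810746) (nat_lit 76) (nat_lit 109696034243) (nat_lit 29) (nat_lit 5) (nat_lit 31) (nat_lit 5) (nat_lit 30) (nat_lit 4) (nat_lit 506) (nat_lit 435) (nat_lit 259))))) (XT.nd (nat_lit 234) (nat_lit 228) (nat_lit 0) (XT.nd (nat_lit 78) (nat_lit 76) (nat_lit 0) (XT.lf (nat_lit 0) (nat_lit 47223808539) (nat_lit 76) (nat_lit 37090470457) (nat_lit 152) (nat_lit 120251500241) (nat_lit 28) (nat_lit 5) (nat_lit 29) (nat_lit 5) (nat_lit 30) (nat_lit 4) (nat_lit 507) (nat_lit 435) (nat_lit 258)) (XT.nd (nat_lit 78) (nat_lit 76) (nat_lit 0) (XT.lf (nat_lit 0) (nat_lit 135980498772) (nat_lit 152) (nat_lit 59797906456) (nat_lit 0) (nat_lit 16340950098) (nat_lit 28)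 (nat_lit 5) (nat_lit 30) (nat_lit 4) (nat_lit 28) (nat_lit 4) (nat_lit 508) (nat_lit 435) (nat_lit 257)) (XT.lf (nat_lit 0) (nat_lit 43402749468) (nat_lit 76) (nat_lit 148112067017) (nat_lit 76) (nat_lit 28471554439) (nat_lit 27) (nat_lit 4) (nat_lit 28) (nat_lit 5) (nat_lit 28) (nat_lit 4) (nat_lit 509) (nat_lit 435) (nat_lit 256)))) (XT.nd (nat_lit 156) (nat_lit 76) (nat_lit 0) (XT.nd (nat_lit 78) (nat_lit 76) (nat_lit 0) (XT.lf (nat_lit 0) (nat_lit 21916864024) (nat_lit 152) (nat_lit 74711859331) (nat_lit 76) (nat_lit 131549747590) (nat_lit 26) (nat_lit 5) (nat_lit 28) (nat_lit 5) (nat_lit 27) (nat_lit 4) (nat_lit 510) (nat_lit 435) (nat_lit 255)) (XT.lf (nat_lit 0) (nat_lit 32836053694) (nat_lit 76) (nat_lit 41543633410) (nat_lit 152) (nat_lit 162351560836) (nat_lit 25) (nat_lit 5) (nat_lit 26) (nat_lit 5) (nat_lit 27) (nat_lit 4) (nat_lit 511) (nat_lit 435) (nat_lit 254))) (XT.nd (nat_lit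 78) (nat_lit 76) (nat_lit 0) (XT.lf (nat_lit 0) (nat_lit 131005251396) (nat_lit 152) (nat_lit 97570026294) (nat_lit 0) (nat_lit 17059406132) (nat_lit 25) (nat_lit 5) (nat_lit 27) (nat_lit 4) (nat_lit 25) (nat_lit 4) (nat_lit 512) (nat_lit 435) (nat_lit 253)) (XT.lf (nat_lit 0) (nat_lit 13831477231) (nat_lit 76) (nat_lit 177526802755) (nat_lit 76) (nat_lit 63580202248) (nat_lit 24) (nat_lit 4) (nat_lit 25) (nat_lit 5) (nat_lit 25) (nat_lit 4) (nat_lit 513) (nat_lit 435) (nat_lit 252))))))))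
noncomputable def xc173 : XT := (XT.nd (nat_lit 56394) (nat_lit 0) (nat_lit 5396) (XT.nd (nat_lit 1092) (nat_lit 456) (nat_lit 0) (XT.nd (nat_lit 546) (nat_lit 228) (nat_lit 0) (XT.nd (nat_lit 234) (nat_lit 228) (nat_lit 0) (XT.nd (nat_lit 78) (nat_lit 152) (nat_lit 0) (XT.lf (nat_lit 0) (nat_lit 134188918999) (nat_lit 76) (nat_lit 122191645582) (nat_lit 76) (nat_lit 8244325794) (nat_lit 24) (nat_lit 4) (nat_lit 25) (nat_lit 5) (nat_lit 25) (nat_lit 4) (nat_lit 514) (nat_lit 435) (nat_lit 251)) (XT.nd (nat_lit 78) (nat_lit 76) (nat_lit 0) (XT.lf (nat_lit 0) (nat_lit 48261800337) (nat_lit 152) (nat_lit 15011314124) (nat_lit 76) (nat_lit 211483621359) (nat_lit 23) (nat_lit 5) (nat_lit 25) (nat_lit 5) (nat_lit 24) (nat_lit 4) (nat_lit 515) (nat_lit 435) (nat_lit 250)) (XT.lf (nat_lit 0) (nat_lit 109034143433) (nat_lit 152) (nat_lit 175756761046) (nat_lit 0) (nat_lit 511612743) (nat_lit 22) (nat_lit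 5) (nat_lit 24) (nat_lit 4) (nat_lit 22) (nat_lit 4) (nat_lit 516) (nat_lit 435) (nat_lit 249)))) (XT.nd (nat_lit 156) (nat_lit 152) (nat_lit 0) (XT.nd (nat_lit 78) (nat_lit 76) (nat_lit 0) (XT.lf (nat_lit 0) (nat_lit 174140032081) (nat_lit 152) (nat_lit 56553899586) (nat_lit 0) (nat_lit 65616909638) (nat_lit 22) (nat_lit 5) (nat_lit 24) (nat_lit 4) (nat_lit 22) (nat_lit 4) (nat_lit 517) (nat_lit 435) (nat_lit 248)) (XT.lf (nat_lit 0) (nat_lit 70876224639) (nat_lit 76) (nat_lit 172730874403) (nat_lit 76) (nat_lit 64207188386) (nat_lit 21) (nat_lit 4) (nat_lit 22) (nat_lit 5) (nat_lit 22) (nat_lit 4) (nat_lit 518) (nat_lit 435) (nat_lit 247))) (XT.nd (nat_lit 78) (nat_lit 152) (nat_lit 0) (XT.lf (nat_lit 0) (nat_lit 206639938613) (nat_lit 76) (nat_lit 110864667836) (nat_lit 76) (nat_lit 2340445081) (nat_lit 21) (nat_lit 4) (nat_lit 22) (nat_lit 5) (nat_lit 22) (nat_lit 4) (nat_lit 519) (nat_lit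 435) (nat_lit 246)) (XT.lf (nat_lit 0) (nat_lit 16255805599) (nat_lit 76) (nat_lit 44612750270) (nat_lit 152) (nat_lit 271547257600) (nat_lit 19) (nat_lit 5) (nat_lit 20) (nat_lit 5) (nat_lit 21) (nat_lit 4) (nat_lit 520) (nat_lit 435) (nat_lit 245))))) (XT.nd (nat_lit 234) (nat_lit 152) (nat_lit 0) (XT.nd (nat_lit 78) (nat_lit 76) (nat_lit 0) (XT.lf (nat_lit 0) (nat_lit 129496874913) (nat_lit 152) (nat_lit 189859922303) (nat_lit 0) (nat_lit 26139521798) (nat_lit 19) (nat_lit 5) (nat_lit 21) (nat_lit 4) (nat_lit 19) (nat_lit 4) (nat_lit 521) (nat_lit 435) (nat_lit 244)) (XT.nd (nat_lit 78) (nat_lit 76) (nat_lit 0) (XT.lf (nat_lit 0) (nat_lit 202287340561) (nat_lit 152) (nat_lit 57977426894) (nat_lit 0) (nat_lit 98929545870) (nat_lit 19) (nat_lit 5) (nat_lit 21) (nat_lit 4) (nat_lit 19) (nat_lit 4) (nat_lit 522) (nat_lit 435) (nat_lit 243)) (XT.lf (nat_lit 0) (nat_lit 83159642250) (nat_lit 76)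 (nat_lit 196855446208) (nat_lit 76) (nat_lit 93497230969) (nat_lit 18) (nat_lit 4) (nat_lit 19) (nat_lit 5) (nat_lit 19) (nat_lit 4) (nat_lit 523) (nat_lit 435) (nat_lit 242)))) (XT.nd (nat_lit 156) (nat_lit 76) (nat_lit 0) (XT.nd (nat_lit 78) (nat_lit 76) (nat_lit 0) (XT.lf (nat_lit 0) (nat_lit 233365250285) (nat_lit 76) (nat_lit 129245263416) (nat_lit 76) (nat_lit 25886647655) (nat_lit 18) (nat_lit 4) (nat_lit 19) (nat_lit 5) (nat_lit 19) (nat_lit 4) (nat_lit 524) (nat_lit 435) (nat_lit 241)) (XT.lf (nat_lit 0) (nat_lit 43660273170) (nat_lit 152) (nat_lit 13855437211) (nat_lit 76) (nat_lit 346680353021) (nat_lit 17) (nat_lit 5) (nat_lit 19) (nat_lit 5) (nat_lit 18) (nat_lit 4) (nat_lit 525) (nat_lit 435) (nat_lit 240))) (XT.nd (nat_lit 78) (nat_lit 0) (nat_lit 0) (XT.lf (nat_lit 0) (nat_lit 118296595750) (nat_lit 152) (nat_lit 282378885848) (nat_lit 0) (nat_lit 19859109564) (nat_lit 16) (nat_lit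 5) (nat_lit 18) (nat_lit 4) (nat_lit 16) (nat_lit 4) (nat_lit 526) (nat_lit 435) (nat_lit 239)) (XT.lf (nat_lit 0) (nat_lit 197845571231) (nat_lit 152) (nat_lit 140377676723) (nat_lit 0) (nat_lit 99407755535) (nat_lit 16) (nat_lit 5) (nat_lit 18) (nat_lit 4) (nat_lit 16) (nat_lit 4) (nat_lit 527) (nat_lit 435) (nat_lit 238)))))) (XT.nd (nat_lit 546) (nat_lit 228) (nat_lit 0) (XT.nd (nat_lit 234) (nat_lit 152) (nat_lit 0) (XT.nd (nat_lit 78) (nat_lit 0) (nat_lit 0) (XT.lf (nat_lit 0) (nat_lit 9010980408) (nat_lit 76) (nat_lit 272501188444) (nat_lit 76) (nat_lit 174063058928) (nat_lit 15) (nat_lit 4) (nat_lit 16) (nat_lit 5) (nat_lit 16) (nat_lit 4) (nat_lit 528) (nat_lit 435) (nat_lit 237)) (XT.nd (nat_lit 78) (nat_lit 0) (nat_lit 0) (XT.lf (nat_lit 0) (nat_lit 170741662704) (nat_lit 76) (nat_lit 200997293010) (nat_lit 76) (nat_lit 102558864619) (nat_lit 15) (nat_lit 4) (nat_lit 16) (nat_lit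 5) (nat_lit 16) (nat_lit 4) (nat_lit 529) (nat_lit 435) (nat_lit 236)) (XT.lf (nat_lit 0) (nat_lit 340557923264) (nat_lit 76) (nat_lit 125918678163) (nat_lit 76) (nat_lit 27479965128) (nat_lit 15) (nat_lit 4) (nat_lit 16) (nat_lit 5) (nat_lit 16) (nat_lit 4) (nat_lit 530) (nat_lit 435) (nat_lit 235)))) (XT.nd (nat_lit 156) (nat_lit 0) (nat_lit 0) (XT.nd (nat_lit 78) (nat_lit 0) (nat_lit 0) (XT.lf (nat_lit 0) (nat_lit 3578596097) (nat_lit 76) (nat_lit 46186077181) (nat_lit 152) (nat_lit 464790718364) (nat_lit 13) (nat_lit 5) (nat_lit 14) (nat_lit 5) (nat_lit 15) (nat_lit 4) (nat_lit 531) (nat_lit 435) (nat_lit 234)) (XT.lf (nat_lit 0) (nat_lit 133174038466) (nat_lit 152) (nat_lit 363403915745) (nat_lit 0) (nat_lit 39422379129) (nat_lit 13) (nat_lit 5) (nat_lit 15) (nat_lit 4) (nat_lit 13) (nat_lit 4) (nat_lit 532) (nat_lit 435) (nat_lit 233))) (XT.nd (nat_lit 78) (nat_lit 0) (nat_lit 0) (XT.lf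 (nat_lit 0) (nat_lit 221510578547) (nat_lit 152) (nat_lit 209210423225) (nat_lit 0) (nat_lit 127758685033) (nat_lit 13) (nat_lit 5) (nat_lit 15) (nat_lit 4) (nat_lit 13) (nat_lit 4) (nat_lit 533) (nat_lit 435) (nat_lit 232)) (XT.lf (nat_lit 0) (nat_lit 314263524513) (nat_lit 152) (nat_lit 47308096523) (nat_lit 0) (nat_lit 220511407973) (nat_lit 13) (nat_lit 5) (nat_lit 15) (nat_lit 4) (nat_lit 13) (nat_lit 4) (nat_lit 534) (nat_lit 435) (nat_lit 231))))) (XT.nd (nat_lit 234) (nat_lit 152) (nat_lit 0) (XT.nd (nat_lit 78) (nat_lit 0) (nat_lit 0) (XT.lf (nat_lit 0) (nat_lit 126745183503) (nat_lit 76) (nat_lit 286887380728) (nat_lit 76) (nat_lit 193135051783) (nat_lit 12) (nat_lit 4) (nat_lit 13) (nat_lit 5) (nat_lit 13) (nat_lit 4) (nat_lit 535) (nat_lit 435) (nat_lit 230)) (XT.nd (nat_lit 78) (nat_lit 0) (nat_lit 0) (XT.lf (nat_lit 0) (nat_lit 311142770306) (nat_lit 76) (nat_lit 207628076873)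 (nat_lit 76) (nat_lit 113875545637) (nat_lit 12) (nat_lit 4) (nat_lit 13) (nat_lit 5) (nat_lit 13) (nat_lit 4) (nat_lit 536) (nat_lit 435) (nat_lit 229)) (XT.lf (nat_lit 0) (nat_lit 504759486438) (nat_lit 76) (nat_lit 124406182349) (nat_lit 76) (nat_lit 30653458455) (nat_lit 12) (nat_lit 4) (nat_lit 13) (nat_lit 5) (nat_lit 13) (nat_lit 4) (nat_lit 537) (nat_lit 435) (nat_lit 228)))) (XT.nd (nat_lit 156) (nat_lit 0) (nat_lit 0) (XT.nd (nat_lit 78) (nat_lit 0) (nat_lit 0) (XT.lf (nat_lit 0) (nat_lit 19442381160) (nat_lit 76) (nat_lit 35774832760) (nat_lit 152) (nat_lit 633073839645) (nat_lit 10) (nat_lit 5) (nat_lit 11) (nat_lit 5) (nat_lit 12) (nat_lit 4) (nat_lit 538) (nat_lit 435) (nat_lit 227)) (XT.lf (nat_lit 0) (nat_lit 147914386737) (nat_lit 152) (nat_lit 511443170391) (nat_lit 0) (nat_lit 58625737096) (nat_lit 10) (nat_lit 5) (nat_lit 12) (nat_lit 4) (nat_lit 10) (nat_lit 4) (nat_lit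 539) (nat_lit 435) (nat_lit 226))) (XT.nd (nat_lit 78) (nat_lit 0) (nat_lit 0) (XT.lf (nat_lit 0) (nat_lit 245832545239) (nat_lit 152) (nat_lit 346754558237) (nat_lit 0) (nat_lit 156543737097) (nat_lit 10) (nat_lit 5) (nat_lit 12) (nat_lit 4) (nat_lit 10) (nat_lit 4) (nat_lit 540) (nat_lit 435) (nat_lit 225)) (XT.lf (nat_lit 0) (nat_lit 348646282501) (nat_lit 152) (nat_lit 173832174799) (nat_lit 0) (nat_lit 259357323406) (nat_lit 10) (nat_lit 5) (nat_lit 12) (nat_lit 4) (nat_lit 10) (nat_lit 4) (nat_lit 541) (nat_lit 435) (nat_lit 224))))))) (XT.nd (nat_lit 1092) (nat_lit 2584) (nat_lit 0) (XT.nd (nat_lit 546) (nat_lit 760) (nat_lit 0) (XT.nd (nat_lit 234) (nat_lit 0) (nat_lit 76) (XT.nd (nat_lit 78) (nat_lit 0) (nat_lit 0) (XT.lf (nat_lit 0) (nat_lit 3141168978) (nat_lit 836) (nat_lit 4334127575) (nat_lit 836) (nat_lit 4334127575) (nat_lit 125) (nat_lit 3) (nat_lit 136) (nat_lit 3) (nat_lit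 136) (nat_lit 5) (nat_lit 436) (nat_lit 436) (nat_lit 328)) (XT.nd (nat_lit 78) (nat_lit 0) (nat_lit 76) (XT.lf (nat_lit 76) (nat_lit 2998740021) (nat_lit 0) (nat_lit 3603008200) (nat_lit 836) (nat_lit 17599408703) (nat_lit 126) (nat_lit 5) (nat_lit 125) (nat_lit 3) (nat_lit 136) (nat_lit 5) (nat_lit 437) (nat_lit 436) (nat_lit 327)) (XT.lf (nat_lit 0) (nat_lit 7208705186) (nat_lit 760) (nat_lit 9391835389) (nat_lit 836) (nat_lit 8198464514) (nat_lit 126) (nat_lit 5) (nat_lit 136) (nat_lit 5) (nat_lit 137) (nat_lit 5) (nat_lit 438) (nat_lit 436) (nat_lit 326)))) (XT.nd (nat_lit 156) (nat_lit 0) (nat_lit 76) (XT.nd (nat_lit 78) (nat_lit 0) (nat_lit 76) (XT.lf (nat_lit 76) (nat_lit 3043386269) (nat_lit 0) (nat_lit 4902153408) (nat_lit 836) (nat_lit 17476232244) (nat_lit 127) (nat_lit 5) (nat_lit 126) (nat_lit 5) (nat_lit 137) (nat_lit 5) (nat_lit 439) (nat_lit 436) (nat_lit 325)) (XT.lf (nat_lit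 0) (nat_lit 8989378999) (nat_lit 760) (nat_lit 9763684849) (nat_lit 836) (nat_lit 7309107700) (nat_lit 127) (nat_lit 5) (nat_lit 137) (nat_lit 5) (nat_lit 138) (nat_lit 5) (nat_lit 440) (nat_lit 436) (nat_lit 324))) (XT.nd (nat_lit 78) (nat_lit 0) (nat_lit 76) (XT.lf (nat_lit 76) (nat_lit 3509381472) (nat_lit 0) (nat_lit 6704764102) (nat_lit 836) (nat_lit 16514011303) (nat_lit 128) (nat_lit 5) (nat_lit 127) (nat_lit 5) (nat_lit 138) (nat_lit 5) (nat_lit 441) (nat_lit 436) (nat_lit 323)) (XT.lf (nat_lit 0) (nat_lit 11754896880) (nat_lit 760) (nat_lit 9734243314) (nat_lit 836) (nat_lit 5925566327) (nat_lit 128) (nat_lit 5) (nat_lit 138) (nat_lit 5) (nat_lit 139) (nat_lit 5) (nat_lit 442) (nat_lit 436) (nat_lit 322))))) (XT.nd (nat_lit 234) (nat_lit 988) (nat_lit 0) (XT.nd (nat_lit 78) (nat_lit 0) (nat_lit 76) (XT.lf (nat_lit 76) (nat_lit 4452735588) (nat_lit 0) (nat_lit 9093526885) (nat_lit 836)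 (nat_lit 14580644592) (nat_lit 129) (nat_lit 5) (nat_lit 128) (nat_lit 5) (nat_lit 139) (nat_lit 5) (nat_lit 443) (nat_lit 436) (nat_lit 321)) (XT.nd (nat_lit 78) (nat_lit 0) (nat_lit 0) (XT.lf (nat_lit 0) (nat_lit 15650359666) (nat_lit 760) (nat_lit 9248009992) (nat_lit 836) (nat_lit 3965191958) (nat_lit 129) (nat_lit 5) (nat_lit 139) (nat_lit 5) (nat_lit 140) (nat_lit 5) (nat_lit 444) (nat_lit 436) (nat_lit 320)) (XT.lf (nat_lit 76) (nat_lit 5935977926) (nat_lit 0) (nat_lit 12160078434) (nat_lit 836) (nat_lit 11529174850) (nat_lit 130) (nat_lit 5) (nat_lit 129) (nat_lit 5) (nat_lit 140) (nat_lit 5) (nat_lit 445) (nat_lit 436) (nat_lit 319)))) (XT.nd (nat_lit 156) (nat_lit 380) (nat_lit 0) (XT.nd (nat_lit 78) (nat_lit 760) (nat_lit 0) (XT.lf (nat_lit 0) (nat_lit 20837040412) (nat_lit 760) (nat_lit 8243055604) (nat_lit 76) (nat_lit 1336240087) (nat_lit 130) (nat_lit 5) (nat_lit 140) (nat_lit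 5) (nat_lit 131) (nat_lit 5) (nat_lit 446) (nat_lit 436) (nat_lit 318)) (XT.lf (nat_lit 0) (nat_lit 8028695289) (nat_lit 760) (nat_lit 16006163811) (nat_lit 836) (nat_lit 7196149725) (nat_lit 120) (nat_lit 5) (nat_lit 130) (nat_lit 5) (nat_lit 131) (nat_lit 5) (nat_lit 447) (nat_lit 436) (nat_lit 317))) (XT.nd (nat_lit 78) (nat_lit 380) (nat_lit 0) (XT.lf (nat_lit 0) (nat_lit 25395905131) (nat_lit 760) (nat_lit 2131519741) (nat_lit 836) (nat_lit 4552249270) (nat_lit 120) (nat_lit 5) (nat_lit 130) (nat_lit 5) (nat_lit 131) (nat_lit 5) (nat_lit 448) (nat_lit 436) (nat_lit 316)) (XT.lf (nat_lit 0) (nat_lit 10808118086) (nat_lit 380) (nat_lit 20744908431) (nat_lit 456) (nat_lit 1399827510) (nat_lit 115) (nat_lit 5) (nat_lit 120) (nat_lit 5) (nat_lit 121) (nat_lit 5) (nat_lit 449) (nat_lit 436) (nat_lit 315)))))) (XT.nd (nat_lit 546) (nat_lit 1140) (nat_lit 0) (XT.nd (nat_lit 234) (nat_lit 988)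 (nat_lit 0) (XT.nd (nat_lit 78) (nat_lit 380) (nat_lit 0) (XT.lf (nat_lit 0) (nat_lit 1994631457) (nat_lit 456) (nat_lit 4528426738) (nat_lit 76) (nat_lit 27337867300) (nat_lit 114) (nat_lit 5) (nat_lit 120) (nat_lit 5) (nat_lit 115) (nat_lit 5) (nat_lit 450) (nat_lit 436) (nat_lit 314)) (XT.nd (nat_lit 78) (nat_lit 0) (nat_lit 0) (XT.lf (nat_lit 0) (nat_lit 5867773037) (nat_lit 456) (nat_lit 20535072695) (nat_lit 76) (nat_lit 8392608707) (nat_lit 109) (nat_lit 5) (nat_lit 115) (nat_lit 5) (nat_lit 110) (nat_lit 5) (nat_lit 451) (nat_lit 436) (nat_lit 313)) (XT.lf (nat_lit 0) (nat_lit 10115366007) (nat_lit 456) (nat_lit 1739563408) (nat_lit 76) (nat_lit 23912742083) (nat_lit 109) (nat_lit 5) (nat_lit 115) (nat_lit 5) (nat_lit 110) (nat_lit 5) (nat_lit 452) (nat_lit 436) (nat_lit 312)))) (XT.nd (nat_lit 156) (nat_lit 304) (nat_lit 0) (XT.nd (nat_lit 78) (nat_lit 304) (nat_lit 0) (XT.lf (nat_lit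 0) (nat_lit 14919785970) (nat_lit 456) (nat_lit 18245872987) (nat_lit 76) (nat_lit 3605619403) (nat_lit 104) (nat_lit 5) (nat_lit 110) (nat_lit 5) (nat_lit 105) (nat_lit 5) (nat_lit 453) (nat_lit 436) (nat_lit 311)) (XT.lf (nat_lit 0) (nat_lit 1902226146) (nat_lit 304) (nat_lit 18312408904) (nat_lit 380) (nat_lit 17597921365) (nat_lit 100) (nat_lit 5) (nat_lit 104) (nat_lit 5) (nat_lit 105) (nat_lit 5) (nat_lit 454) (nat_lit 436) (nat_lit 310))) (XT.nd (nat_lit 78) (nat_lit 304) (nat_lit 0) (XT.lf (nat_lit 0) (nat_lit 23686999700) (nat_lit 304) (nat_lit 2392566719) (nat_lit 380) (nat_lit 12811066156) (nat_lit 100) (nat_lit 5) (nat_lit 104) (nat_lit 5) (nat_lit 105) (nat_lit 5) (nat_lit 455) (nat_lit 436) (nat_lit 309)) (XT.lf (nat_lit 0) (nat_lit 6519276097) (nat_lit 304) (nat_lit 26040382568) (nat_lit 380) (nat_lit 7446859304) (nat_lit 96) (nat_lit 5) (nat_lit 100) (nat_lit 5) (nat_lit 101)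 (nat_lit 5) (nat_lit 456) (nat_lit 436) (nat_lit 308))))) (XT.nd (nat_lit 312) (nat_lit 532) (nat_lit 0) (XT.nd (nat_lit 156) (nat_lit 304) (nat_lit 0) (XT.nd (nat_lit 78) (nat_lit 304) (nat_lit 0) (XT.lf (nat_lit 0) (nat_lit 29811559565) (nat_lit 304) (nat_lit 9844873082) (nat_lit 380) (nat_lit 1507132213) (nat_lit 96) (nat_lit 5) (nat_lit 100) (nat_lit 5) (nat_lit 101) (nat_lit 5) (nat_lit 457) (nat_lit 436) (nat_lit 307)) (XT.lf (nat_lit 0) (nat_lit 4881554383) (nat_lit 304) (nat_lit 30278816438) (nat_lit 76) (nat_lit 7199234693) (nat_lit 92) (nat_lit 5) (nat_lit 96) (nat_lit 5) (nat_lit 93) (nat_lit 5) (nat_lit 458) (nat_lit 436) (nat_lit 306))) (XT.nd (nat_lit 78) (nat_lit 304) (nat_lit 0) (XT.lf (nat_lit 0) (nat_lit 11892617918) (nat_lit 304) (nat_lit 6719833309) (nat_lit 76) (nat_lit 24984082950) (nat_lit 92) (nat_lit 5) (nat_lit 96) (nat_lit 5) (nat_lit 93) (nat_lit 5) (nat_lit 459)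 (nat_lit 436) (nat_lit 305)) (XT.lf (nat_lit 0) (nat_lit 18608804815) (nat_lit 304) (nat_lit 932915315) (nat_lit 380) (nat_lit 25339215759) (nat_lit 88) (nat_lit 5) (nat_lit 92) (nat_lit 5) (nat_lit 93) (nat_lit 5) (nat_lit 460) (nat_lit 436) (nat_lit 304)))) (XT.nd (nat_lit 156) (nat_lit 304) (nat_lit 0) (XT.nd (nat_lit 78) (nat_lit 228) (nat_lit 0) (XT.lf (nat_lit 0) (nat_lit 27961231612) (nat_lit 380) (nat_lit 1067788825) (nat_lit 76) (nat_lit 17181140392) (nat_lit 88) (nat_lit 5) (nat_lit 93) (nat_lit 5) (nat_lit 89) (nat_lit 5) (nat_lit 461) (nat_lit 436) (nat_lit 303)) (XT.lf (nat_lit 0) (nat_lit 26216802108) (nat_lit 228) (nat_lit 11006691684) (nat_lit 304) (nat_lit 10361265277) (nat_lit 85) (nat_lit 5) (nat_lit 88) (nat_lit 5) (nat_lit 89) (nat_lit 5) (nat_lit 462) (nat_lit 436) (nat_lit 302))) (XT.nd (nat_lit 78) (nat_lit 76) (nat_lit 0) (XT.lf (nat_lit 0) (nat_lit 5937819887) (nat_lit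 228) (nat_lit 41242963695) (nat_lit 304) (nat_lit 1835708686) (nat_lit 82) (nat_lit 5) (nat_lit 85) (nat_lit 5) (nat_lit 86) (nat_lit 5) (nat_lit 463) (nat_lit 436) (nat_lit 301)) (XT.lf (nat_lit 0) (nat_lit 7433865886) (nat_lit 304) (nat_lit 15452326744) (nat_lit 76) (nat_lit 27600790030) (nat_lit 81) (nat_lit 5) (nat_lit 85) (nat_lit 5) (nat_lit 82) (nat_lit 5) (nat_lit 464) (nat_lit 436) (nat_lit 300))))))))
noncomputable def xc174 : XT := (XT.nd (nat_lit 2184) (nat_lit 1748) (nat_lit 0) (XT.nd (nat_lit 1092) (nat_lit 1292) (nat_lit 0) (XT.nd (nat_lit 546) (nat_lit 760) (nat_lit 0) (XT.nd (nat_lit 234) (nat_lit 456) (nat_lit 0) (XT.nd (nat_lit 78) (nat_lit 228) (nat_lit 0) (XT.lf (nat_lit 0) (nat_lit 13968641981) (nat_lit 228) (nat_lit 3352059723) (nat_lit 304) (nat_lit 34698018137) (nat_lit 78) (nat_lit 5) (nat_lit 81) (nat_lit 5) (nat_lit 82) (nat_lit 5) (nat_lit 465) (nat_lit 436) (nat_lit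 299)) (XT.nd (nat_lit 78) (nat_lit 228) (nat_lit 0) (XT.lf (nat_lit 0) (nat_lit 28233194462) (nat_lit 304) (nat_lit 8492753037) (nat_lit 76) (nat_lit 16874531258) (nat_lit 78) (nat_lit 5) (nat_lit 82) (nat_lit 5) (nat_lit 79) (nat_lit 5) (nat_lit 466) (nat_lit 436) (nat_lit 298)) (XT.lf (nat_lit 0) (nat_lit 23227348200) (nat_lit 228) (nat_lit 16879117392) (nat_lit 304) (nat_lit 15134102944) (nat_lit 75) (nat_lit 5) (nat_lit 78) (nat_lit 5) (nat_lit 79) (nat_lit 5) (nat_lit 467) (nat_lit 436) (nat_lit 297)))) (XT.nd (nat_lit 156) (nat_lit 228) (nat_lit 0) (XT.nd (nat_lit 78) (nat_lit 228) (nat_lit 0) (XT.lf (nat_lit 0) (nat_lit 52779016633) (nat_lit 304) (nat_lit 194955988) (nat_lit 76) (nat_lit 3978409941) (nat_lit 75) (nat_lit 5) (nat_lit 79) (nat_lit 5) (nat_lit 76) (nat_lit 5) (nat_lit 468) (nat_lit 436) (nat_lit 296)) (XT.lf (nat_lit 0) (nat_lit 7919453390) (nat_lit 228) (nat_lit 24814207164)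 (nat_lit 76) (nat_lit 25969459727) (nat_lit 72) (nat_lit 5) (nat_lit 75) (nat_lit 5) (nat_lit 73) (nat_lit 5) (nat_lit 469) (nat_lit 436) (nat_lit 295))) (XT.nd (nat_lit 78) (nat_lit 0) (nat_lit 0) (XT.lf (nat_lit 0) (nat_lit 9370507708) (nat_lit 228) (nat_lit 11253544470) (nat_lit 304) (nat_lit 39906552865) (nat_lit 69) (nat_lit 5) (nat_lit 72) (nat_lit 5) (nat_lit 73) (nat_lit 5) (nat_lit 470) (nat_lit 436) (nat_lit 294)) (XT.lf (nat_lit 0) (nat_lit 34565215975) (nat_lit 304) (nat_lit 16489311514) (nat_lit 76) (nat_lit 11364870272) (nat_lit 69) (nat_lit 5) (nat_lit 73) (nat_lit 5) (nat_lit 70) (nat_lit 5) (nat_lit 471) (nat_lit 436) (nat_lit 293))))) (XT.nd (nat_lit 234) (nat_lit 380) (nat_lit 0) (XT.nd (nat_lit 78) (nat_lit 228) (nat_lit 0) (XT.lf (nat_lit 0) (nat_lit 20379477734) (nat_lit 152) (nat_lit 29324503029) (nat_lit 228) (nat_lit 14673622664) (nat_lit 67) (nat_lit 5) (nat_lit 69)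 (nat_lit 5) (nat_lit 70) (nat_lit 5) (nat_lit 472) (nat_lit 436) (nat_lit 292)) (XT.nd (nat_lit 78) (nat_lit 228) (nat_lit 0) (XT.lf (nat_lit 0) (nat_lit 59660909602) (nat_lit 152) (nat_lit 6215956395) (nat_lit 228) (nat_lit 542994699) (nat_lit 67) (nat_lit 5) (nat_lit 69) (nat_lit 5) (nat_lit 70) (nat_lit 5) (nat_lit 473) (nat_lit 436) (nat_lit 291)) (XT.lf (nat_lit 0) (nat_lit 14646565192) (nat_lit 228) (nat_lit 35643460127) (nat_lit 76) (nat_lit 18222552145) (nat_lit 64) (nat_lit 5) (nat_lit 67) (nat_lit 5) (nat_lit 65) (nat_lit 5) (nat_lit 474) (nat_lit 436) (nat_lit 290)))) (XT.nd (nat_lit 156) (nat_lit 228) (nat_lit 0) (XT.nd (nat_lit 78) (nat_lit 0) (nat_lit 0) (XT.lf (nat_lit 0) (nat_lit 4021875701) (nat_lit 152) (nat_lit 26834537589) (nat_lit 228) (nat_lit 39839119156) (nat_lit 62) (nat_lit 5) (nat_lit 64) (nat_lit 5) (nat_lit 65) (nat_lit 5) (nat_lit 475) (nat_lit 436) (nat_lit 289))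 (XT.lf (nat_lit 0) (nat_lit 46904782107) (nat_lit 152) (nat_lit 1573677948) (nat_lit 228) (nat_lit 24479090160) (nat_lit 62) (nat_lit 5) (nat_lit 64) (nat_lit 5) (nat_lit 65) (nat_lit 5) (nat_lit 476) (nat_lit 436) (nat_lit 288))) (XT.nd (nat_lit 78) (nat_lit 76) (nat_lit 0) (XT.lf (nat_lit 0) (nat_lit 16742402947) (nat_lit 152) (nat_lit 50888285842) (nat_lit 228) (nat_lit 7669526439) (nat_lit 60) (nat_lit 5) (nat_lit 62) (nat_lit 5) (nat_lit 63) (nat_lit 5) (nat_lit 477) (nat_lit 436) (nat_lit 287)) (XT.lf (nat_lit 0) (nat_lit 10133475897) (nat_lit 228) (nat_lit 15348073971) (nat_lit 76) (nat_lit 52247052776) (nat_lit 59) (nat_lit 5) (nat_lit 62) (nat_lit 5) (nat_lit 60) (nat_lit 5) (nat_lit 478) (nat_lit 436) (nat_lit 286)))))) (XT.nd (nat_lit 546) (nat_lit 608) (nat_lit 0) (XT.nd (nat_lit 234) (nat_lit 380) (nat_lit 0) (XT.nd (nat_lit 78) (nat_lit 152) (nat_lit 0) (XT.lf (nat_lit 0) (nat_lit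 29077887036) (nat_lit 228) (nat_lit 49394826202) (nat_lit 76) (nat_lit 1773959731) (nat_lit 57) (nat_lit 5) (nat_lit 60) (nat_lit 5) (nat_lit 58) (nat_lit 5) (nat_lit 479) (nat_lit 436) (nat_lit 285)) (XT.nd (nat_lit 78) (nat_lit 152) (nat_lit 0) (XT.lf (nat_lit 0) (nat_lit 49649697398) (nat_lit 228) (nat_lit 3407993363) (nat_lit 76) (nat_lit 29798947394) (nat_lit 57) (nat_lit 5) (nat_lit 60) (nat_lit 5) (nat_lit 58) (nat_lit 5) (nat_lit 480) (nat_lit 436) (nat_lit 284)) (XT.lf (nat_lit 0) (nat_lit 46359138795) (nat_lit 152) (nat_lit 25613098589) (nat_lit 228) (nat_lit 13588757523) (nat_lit 55) (nat_lit 5) (nat_lit 57) (nat_lit 5) (nat_lit 58) (nat_lit 5) (nat_lit 481) (nat_lit 436) (nat_lit 283)))) (XT.nd (nat_lit 156) (nat_lit 152) (nat_lit 0) (XT.nd (nat_lit 78) (nat_lit 0) (nat_lit 0) (XT.lf (nat_lit 0) (nat_lit 7063305107) (nat_lit 228) (nat_lit 77879444673) (nat_lit 76) (nat_lit 3438480171)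 (nat_lit 52) (nat_lit 5) (nat_lit 55) (nat_lit 5) (nat_lit 53) (nat_lit 5) (nat_lit 482) (nat_lit 436) (nat_lit 282)) (XT.lf (nat_lit 0) (nat_lit 29384340774) (nat_lit 228) (nat_lit 27914060310) (nat_lit 76) (nat_lit 33978285503) (nat_lit 52) (nat_lit 5) (nat_lit 55) (nat_lit 5) (nat_lit 53) (nat_lit 5) (nat_lit 483) (nat_lit 436) (nat_lit 281))) (XT.nd (nat_lit 78) (nat_lit 0) (nat_lit 0) (XT.lf (nat_lit 0) (nat_lit 25358509344) (nat_lit 152) (nat_lit 27857282328) (nat_lit 228) (nat_lit 41081406427) (nat_lit 50) (nat_lit 5) (nat_lit 52) (nat_lit 5) (nat_lit 53) (nat_lit 5) (nat_lit 484) (nat_lit 436) (nat_lit 280)) (XT.lf (nat_lit 0) (nat_lit 78765474490) (nat_lit 228) (nat_lit 15239467662) (nat_lit 76) (nat_lit 3437460271) (nat_lit 50) (nat_lit 5) (nat_lit 53) (nat_lit 5) (nat_lit 51) (nat_lit 4) (nat_lit 485) (nat_lit 436) (nat_lit 279))))) (XT.nd (nat_lit 234) (nat_lit 304) (nat_lit 0)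 (XT.nd (nat_lit 78) (nat_lit 152) (nat_lit 0) (XT.lf (nat_lit 0) (nat_lit 5822262584) (nat_lit 152) (nat_lit 58752520393) (nat_lit 76) (nat_lit 36109817448) (nat_lit 48) (nat_lit 5) (nat_lit 50) (nat_lit 5) (nat_lit 49) (nat_lit 5) (nat_lit 486) (nat_lit 436) (nat_lit 278)) (XT.nd (nat_lit 78) (nat_lit 152) (nat_lit 0) (XT.lf (nat_lit 0) (nat_lit 31179603974) (nat_lit 152) (nat_lit 1897734745) (nat_lit 76) (nat_lit 70983217901) (nat_lit 48) (nat_lit 5) (nat_lit 50) (nat_lit 5) (nat_lit 49) (nat_lit 5) (nat_lit 487) (nat_lit 436) (nat_lit 277)) (XT.lf (nat_lit 0) (nat_lit 58750823267) (nat_lit 228) (nat_lit 47865607775) (nat_lit 76) (nat_lit 941579210) (nat_lit 46) (nat_lit 5) (nat_lit 49) (nat_lit 5) (nat_lit 47) (nat_lit 4) (nat_lit 488) (nat_lit 436) (nat_lit 276)))) (XT.nd (nat_lit 156) (nat_lit 152) (nat_lit 0) (XT.nd (nat_lit 78) (nat_lit 76) (nat_lit 0) (XT.lf (nat_lit 0) (nat_lit 13072326724)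 (nat_lit 76) (nat_lit 75405910504) (nat_lit 152) (nat_lit 22713217815) (nat_lit 45) (nat_lit 5) (nat_lit 46) (nat_lit 5) (nat_lit 47) (nat_lit 4) (nat_lit 489) (nat_lit 436) (nat_lit 275)) (XT.lf (nat_lit 0) (nat_lit 5358028100) (nat_lit 152) (nat_lit 36336037352) (nat_lit 76) (nat_lit 73267722020) (nat_lit 44) (nat_lit 5) (nat_lit 46) (nat_lit 5) (nat_lit 45) (nat_lit 5) (nat_lit 490) (nat_lit 436) (nat_lit 274))) (XT.nd (nat_lit 78) (nat_lit 0) (nat_lit 0) (XT.lf (nat_lit 0) (nat_lit 29092626607) (nat_lit 152) (nat_lit 5429805263) (nat_lit 228) (nat_lit 84356941969) (nat_lit 42) (nat_lit 5) (nat_lit 44) (nat_lit 5) (nat_lit 45) (nat_lit 5) (nat_lit 491) (nat_lit 436) (nat_lit 273)) (XT.lf (nat_lit 0) (nat_lit 66278934240) (nat_lit 228) (nat_lit 24430040621) (nat_lit 76) (nat_lit 32227170878) (nat_lit 42) (nat_lit 5) (nat_lit 45) (nat_lit 5) (nat_lit 43) (nat_lit 4) (nat_lit 492) (nat_lit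 436) (nat_lit 272))))))) (XT.nd (nat_lit 1092) (nat_lit 836) (nat_lit 0) (XT.nd (nat_lit 546) (nat_lit 380) (nat_lit 0) (XT.nd (nat_lit 234) (nat_lit 228) (nat_lit 0) (XT.nd (nat_lit 78) (nat_lit 228) (nat_lit 0) (XT.lf (nat_lit 0) (nat_lit 45561464424) (nat_lit 76) (nat_lit 54860914971) (nat_lit 152) (nat_lit 26733421080) (nat_lit 41) (nat_lit 5) (nat_lit 42) (nat_lit 5) (nat_lit 43) (nat_lit 4) (nat_lit 493) (nat_lit 436) (nat_lit 271)) (XT.nd (nat_lit 78) (nat_lit 152) (nat_lit 0) (XT.lf (nat_lit 0) (nat_lit 4955843097) (nat_lit 152) (nat_lit 11747282811) (nat_lit 76) (nat_lit 114858689470) (nat_lit 40) (nat_lit 5) (nat_lit 42) (nat_lit 5) (nat_lit 41) (nat_lit 5) (nat_lit 494) (nat_lit 436) (nat_lit 270)) (XT.lf (nat_lit 0) (nat_lit 38704388003) (nat_lit 228) (nat_lit 73331403473) (nat_lit 76) (nat_lit 24061765233) (nat_lit 38) (nat_lit 5) (nat_lit 41) (nat_lit 5) (nat_lit 39) (nat_lit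 4) (nat_lit 495) (nat_lit 436) (nat_lit 269)))) (XT.nd (nat_lit 156) (nat_lit 152) (nat_lit 0) (XT.nd (nat_lit 78) (nat_lit 0) (nat_lit 0) (XT.lf (nat_lit 0) (nat_lit 293081583) (nat_lit 76) (nat_lit 74326715755) (nat_lit 152) (nat_lit 66216316011) (nat_lit 37) (nat_lit 5) (nat_lit 38) (nat_lit 5) (nat_lit 39) (nat_lit 4) (nat_lit 496) (nat_lit 436) (nat_lit 268)) (XT.lf (nat_lit 0) (nat_lit 80142548643) (nat_lit 76) (nat_lit 33429185742) (nat_lit 152) (nat_lit 32177825675) (nat_lit 37) (nat_lit 5) (nat_lit 38) (nat_lit 5) (nat_lit 39) (nat_lit 4) (nat_lit 497) (nat_lit 436) (nat_lit 267))) (XT.nd (nat_lit 78) (nat_lit 0) (nat_lit 0) (XT.lf (nat_lit 0) (nat_lit 3810291485) (nat_lit 152) (nat_lit 137599774180) (nat_lit 76) (nat_lit 9477746060) (nat_lit 35) (nat_lit 5) (nat_lit 37) (nat_lit 5) (nat_lit 36) (nat_lit 4) (nat_lit 498) (nat_lit 436) (nat_lit 266)) (XT.lf (nat_lit 0) (nat_lit 42192645996)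 (nat_lit 152) (nat_lit 58917678465) (nat_lit 76) (nat_lit 55062465459) (nat_lit 35) (nat_lit 5) (nat_lit 37) (nat_lit 5) (nat_lit 36) (nat_lit 4) (nat_lit 499) (nat_lit 436) (nat_lit 265))))) (XT.nd (nat_lit 234) (nat_lit 152) (nat_lit 0) (XT.nd (nat_lit 78) (nat_lit 152) (nat_lit 0) (XT.lf (nat_lit 0) (nat_lit 24480052053) (nat_lit 76) (nat_lit 58395217904) (nat_lit 152) (nat_lit 78827689564) (nat_lit 34) (nat_lit 5) (nat_lit 35) (nat_lit 5) (nat_lit 36) (nat_lit 4) (nat_lit 500) (nat_lit 436) (nat_lit 264)) (XT.nd (nat_lit 78) (nat_lit 152) (nat_lit 0) (XT.lf (nat_lit 0) (nat_lit 114091205335) (nat_lit 76) (nat_lit 12497588222) (nat_lit 152) (nat_lit 40871005700) (nat_lit 34) (nat_lit 5) (nat_lit 35) (nat_lit 5) (nat_lit 36) (nat_lit 4) (nat_lit 501) (nat_lit 436) (nat_lit 263)) (XT.lf (nat_lit 0) (nat_lit 140800008) (nat_lit 152) (nat_lit 138204042639) (nat_lit 76) (nat_lit 35104194230)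 (nat_lit 32) (nat_lit 5) (nat_lit 34) (nat_lit 5) (nat_lit 33) (nat_lit 4) (nat_lit 502) (nat_lit 436) (nat_lit 262)))) (XT.nd (nat_lit 156) (nat_lit 76) (nat_lit 0) (XT.nd (nat_lit 78) (nat_lit 76) (nat_lit 0) (XT.lf (nat_lit 0) (nat_lit 42952187077) (nat_lit 152) (nat_lit 50442055456) (nat_lit 76) (nat_lit 86253866844) (nat_lit 32) (nat_lit 5) (nat_lit 34) (nat_lit 5) (nat_lit 33) (nat_lit 4) (nat_lit 503) (nat_lit 436) (nat_lit 261)) (XT.lf (nat_lit 0) (nat_lit 43085220200) (nat_lit 76) (nat_lit 45490658282) (nat_lit 152) (nat_lit 97547670335) (nat_lit 31) (nat_lit 5) (nat_lit 32) (nat_lit 5) (nat_lit 33) (nat_lit 4) (nat_lit 504) (nat_lit 436) (nat_lit 260))) (XT.nd (nat_lit 78) (nat_lit 76) (nat_lit 0) (XT.lf (nat_lit 0) (nat_lit 137423145328) (nat_lit 152) (nat_lit 49930836664) (nat_lit 0) (nat_lit 5521658755) (nat_lit 31) (nat_lit 5) (nat_lit 33) (nat_lit 4) (nat_lit 31) (nat_lit 4)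 (nat_lit 505) (nat_lit 436) (nat_lit 259)) (XT.lf (nat_lit 0) (nat_lit 48641384612) (nat_lit 76) (nat_lit 141575670574) (nat_lit 76) (nat_lit 9673068161) (nat_lit 30) (nat_lit 4) (nat_lit 31) (nat_lit 5) (nat_lit 31) (nat_lit 4) (nat_lit 506) (nat_lit 436) (nat_lit 258)))))) (XT.nd (nat_lit 546) (nat_lit 456) (nat_lit 0) (XT.nd (nat_lit 234) (nat_lit 228) (nat_lit 0) (XT.nd (nat_lit 78) (nat_lit 76) (nat_lit 0) (XT.lf (nat_lit 0) (nat_lit 38025009895) (nat_lit 152) (nat_lit 53952394830) (nat_lit 76) (nat_lit 115205023980) (nat_lit 29) (nat_lit 5) (nat_lit 31) (nat_lit 5) (nat_lit 30) (nat_lit 4) (nat_lit 507) (nat_lit 436) (nat_lit 257)) (XT.nd (nat_lit 78) (nat_lit 0) (nat_lit 0) (XT.lf (nat_lit 0) (nat_lit 49637248863) (nat_lit 76) (nat_lit 38919788248) (nat_lit 152) (nat_lit 126235677337) (nat_lit 28) (nat_lit 5) (nat_lit 29) (nat_lit 5) (nat_lit 30) (nat_lit 4) (nat_lit 508) (nat_lit 436)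 (nat_lit 256)) (XT.lf (nat_lit 0) (nat_lit 142805654851) (nat_lit 152) (nat_lit 62737125479) (nat_lit 0) (nat_lit 17181234737) (nat_lit 28) (nat_lit 5) (nat_lit 30) (nat_lit 4) (nat_lit 28) (nat_lit 4) (nat_lit 509) (nat_lit 436) (nat_lit 255)))) (XT.nd (nat_lit 156) (nat_lit 76) (nat_lit 0) (XT.nd (nat_lit 78) (nat_lit 76) (nat_lit 0) (XT.lf (nat_lit 0) (nat_lit 45622745883) (nat_lit 76) (nat_lit 155493476665) (nat_lit 76) (nat_lit 29868182262) (nat_lit 27) (nat_lit 4) (nat_lit 28) (nat_lit 5) (nat_lit 28) (nat_lit 4) (nat_lit 510) (nat_lit 436) (nat_lit 254)) (XT.lf (nat_lit 0) (nat_lit 23037552305) (nat_lit 152) (nat_lit 78399144832) (nat_lit 76) (nat_lit 138149453832) (nat_lit 26) (nat_lit 5) (nat_lit 28) (nat_lit 5) (nat_lit 27) (nat_lit 4) (nat_lit 511) (nat_lit 436) (nat_lit 253))) (XT.nd (nat_lit 78) (nat_lit 0) (nat_lit 0) (XT.lf (nat_lit 0) (nat_lit 34525384691) (nat_lit 76) (nat_lit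 43597690799) (nat_lit 152) (nat_lit 170443513436) (nat_lit 25) (nat_lit 5) (nat_lit 26) (nat_lit 5) (nat_lit 27) (nat_lit 4) (nat_lit 512) (nat_lit 436) (nat_lit 252)) (XT.lf (nat_lit 0) (nat_lit 137579099743) (nat_lit 152) (nat_lit 102402443144) (nat_lit 0) (nat_lit 17933694686) (nat_lit 25) (nat_lit 5) (nat_lit 27) (nat_lit 4) (nat_lit 25) (nat_lit 4) (nat_lit 513) (nat_lit 436) (nat_lit 251))))) (XT.nd (nat_lit 312) (nat_lit 228) (nat_lit 0) (XT.nd (nat_lit 156) (nat_lit 152) (nat_lit 0) (XT.nd (nat_lit 78) (nat_lit 0) (nat_lit 0) (XT.lf (nat_lit 0) (nat_lit 14568392259) (nat_lit 76) (nat_lit 186380972274) (nat_lit 76) (nat_lit 66734882189) (nat_lit 24) (nat_lit 4) (nat_lit 25) (nat_lit 5) (nat_lit 25) (nat_lit 4) (nat_lit 514) (nat_lit 436) (nat_lit 250)) (XT.lf (nat_lit 0) (nat_lit 140941547012) (nat_lit 76) (nat_lit 128280112985) (nat_lit 76) (nat_lit 8633370492) (nat_lit 24) (nat_lit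 4) (nat_lit 25) (nat_lit 5) (nat_lit 25) (nat_lit 4) (nat_lit 515) (nat_lit 436) (nat_lit 249))) (XT.nd (nat_lit 78) (nat_lit 76) (nat_lit 0) (XT.lf (nat_lit 0) (nat_lit 50696252217) (nat_lit 152) (nat_lit 15720046789) (nat_lit 76) (nat_lit 222077204565) (nat_lit 23) (nat_lit 5) (nat_lit 25) (nat_lit 5) (nat_lit 24) (nat_lit 4) (nat_lit 516) (nat_lit 436) (nat_lit 248)) (XT.lf (nat_lit 0) (nat_lit 114507152760) (nat_lit 152) (nat_lit 184502705447) (nat_lit 0) (nat_lit 556718867) (nat_lit 22) (nat_lit 5) (nat_lit 24) (nat_lit 4) (nat_lit 22) (nat_lit 4) (nat_lit 517) (nat_lit 436) (nat_lit 247)))) (XT.nd (nat_lit 156) (nat_lit 152) (nat_lit 0) (XT.nd (nat_lit 78) (nat_lit 76) (nat_lit 0) (XT.lf (nat_lit 0) (nat_lit 182867321452) (nat_lit 152) (nat_lit 59341695850) (nat_lit 0) (nat_lit 68916350821) (nat_lit 22) (nat_lit 5) (nat_lit 24) (nat_lit 4) (nat_lit 22) (nat_lit 4) (nat_lit 518) (nat_lit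 436) (nat_lit 246)) (XT.lf (nat_lit 0) (nat_lit 74459291059) (nat_lit 76) (nat_lit 181348097502) (nat_lit 76) (nat_lit 67396615693) (nat_lit 21) (nat_lit 4) (nat_lit 22) (nat_lit 5) (nat_lit 22) (nat_lit 4) (nat_lit 519) (nat_lit 436) (nat_lit 245))) (XT.nd (nat_lit 78) (nat_lit 152) (nat_lit 0) (XT.lf (nat_lit 0) (nat_lit 217009321437) (nat_lit 76) (nat_lit 116389500636) (nat_lit 76) (nat_lit 2437531990) (nat_lit 21) (nat_lit 4) (nat_lit 22) (nat_lit 5) (nat_lit 22) (nat_lit 4) (nat_lit 520) (nat_lit 436) (nat_lit 244)) (XT.lf (nat_lit 0) (nat_lit 17106007268) (nat_lit 76) (nat_lit 46824938862) (nat_lit 152) (nat_lit 285104709182) (nat_lit 19) (nat_lit 5) (nat_lit 20) (nat_lit 5) (nat_lit 21) (nat_lit 4) (nat_lit 521) (nat_lit 436) (nat_lit 243))))))))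
noncomputable def xc175 : XT := (XT.nd (nat_lit 56472) (nat_lit 0) (nat_lit 4332) (XT.nd (nat_lit 1092) (nat_lit 228) (nat_lit 0) (XT.nd (nat_lit 546) (nat_lit 228) (nat_lit 0) (XT.nd (nat_lit 234) (nat_lit 152) (nat_lit 0) (XT.nd (nat_lit 78) (nat_lit 76) (nat_lit 0) (XT.lf (nat_lit 0) (nat_lit 135990052475) (nat_lit 152) (nat_lit 199316659200) (nat_lit 0) (nat_lit 27463505926) (nat_lit 19) (nat_lit 5) (nat_lit 21) (nat_lit 4) (nat_lit 19) (nat_lit 4) (nat_lit 522) (nat_lit 436) (nat_lit 242)) (XT.nd (nat_lit 78) (nat_lit 76) (nat_lit 0) (XT.lf (nat_lit 0) (nat_lit 212419168366) (nat_lit 152) (nat_lit 60841765650) (nat_lit 0) (nat_lit 103892221296) (nat_lit 19) (nat_lit 5) (nat_lit 21) (nat_lit 4) (nat_lit 19) (nat_lit 4) (nat_lit 523) (nat_lit 436) (nat_lit 241)) (XT.lf (nat_lit 0) (nat_lit 87351599975) (nat_lit 76) (nat_lit 206681402673) (nat_lit 76) (nat_lit 98154074152) (nat_lit 18) (nat_lit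 4) (nat_lit 19) (nat_lit 5) (nat_lit 19) (nat_lit 4) (nat_lit 524) (nat_lit 436) (nat_lit 240)))) (XT.nd (nat_lit 156) (nat_lit 76) (nat_lit 0) (XT.nd (nat_lit 78) (nat_lit 76) (nat_lit 0) (XT.lf (nat_lit 0) (nat_lit 245065870525) (nat_lit 76) (nat_lit 135691511496) (nat_lit 76) (nat_lit 27163819690) (nat_lit 18) (nat_lit 4) (nat_lit 19) (nat_lit 5) (nat_lit 19) (nat_lit 4) (nat_lit 525) (nat_lit 436) (nat_lit 239)) (XT.lf (nat_lit 0) (nat_lit 45859106932) (nat_lit 152) (nat_lit 14516868578) (nat_lit 76) (nat_lit 364029099528) (nat_lit 17) (nat_lit 5) (nat_lit 19) (nat_lit 5) (nat_lit 18) (nat_lit 4) (nat_lit 526) (nat_lit 436) (nat_lit 238))) (XT.nd (nat_lit 78) (nat_lit 0) (nat_lit 0) (XT.lf (nat_lit 0) (nat_lit 124227212394) (nat_lit 152) (nat_lit 296466455898) (nat_lit 0) (nat_lit 20866862583) (nat_lit 16) (nat_lit 5) (nat_lit 18) (nat_lit 4) (nat_lit 16) (nat_lit 4) (nat_lit 527) (nat_lit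 436) (nat_lit 237)) (XT.lf (nat_lit 0) (nat_lit 207752884894) (nat_lit 152) (nat_lit 147366680328) (nat_lit 0) (nat_lit 104392236208) (nat_lit 16) (nat_lit 5) (nat_lit 18) (nat_lit 4) (nat_lit 16) (nat_lit 4) (nat_lit 528) (nat_lit 436) (nat_lit 236))))) (XT.nd (nat_lit 234) (nat_lit 152) (nat_lit 0) (XT.nd (nat_lit 78) (nat_lit 0) (nat_lit 0) (XT.lf (nat_lit 0) (nat_lit 9490927720) (nat_lit 76) (nat_lit 286111627708) (nat_lit 76) (nat_lit 182750694378) (nat_lit 15) (nat_lit 4) (nat_lit 16) (nat_lit 5) (nat_lit 16) (nat_lit 4) (nat_lit 529) (nat_lit 436) (nat_lit 235)) (XT.nd (nat_lit 78) (nat_lit 0) (nat_lit 0) (XT.lf (nat_lit 0) (nat_lit 179306744213) (nat_lit 76) (nat_lit 211033233701) (nat_lit 76) (nat_lit 107672029282) (nat_lit 15) (nat_lit 4) (nat_lit 16) (nat_lit 5) (nat_lit 16) (nat_lit 4) (nat_lit 530) (nat_lit 436) (nat_lit 234)) (XT.lf (nat_lit 0) (nat_lit 357612484544) (nat_lit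 76) (nat_lit 132201351157) (nat_lit 76) (nat_lit 28839888557) (nat_lit 15) (nat_lit 4) (nat_lit 16) (nat_lit 5) (nat_lit 16) (nat_lit 4) (nat_lit 531) (nat_lit 436) (nat_lit 233)))) (XT.nd (nat_lit 156) (nat_lit 0) (nat_lit 0) (XT.nd (nat_lit 78) (nat_lit 0) (nat_lit 0) (XT.lf (nat_lit 0) (nat_lit 3784204540) (nat_lit 76) (nat_lit 48482094496) (nat_lit 152) (nat_lit 488016192208) (nat_lit 13) (nat_lit 5) (nat_lit 14) (nat_lit 5) (nat_lit 15) (nat_lit 4) (nat_lit 532) (nat_lit 436) (nat_lit 232)) (XT.lf (nat_lit 0) (nat_lit 139845692327) (nat_lit 152) (nat_lit 381548262791) (nat_lit 0) (nat_lit 41405746935) (nat_lit 13) (nat_lit 5) (nat_lit 15) (nat_lit 4) (nat_lit 13) (nat_lit 4) (nat_lit 533) (nat_lit 436) (nat_lit 231))) (XT.nd (nat_lit 78) (nat_lit 0) (nat_lit 0) (XT.lf (nat_lit 0) (nat_lit 232598442653) (nat_lit 152) (nat_lit 219646326538) (nat_lit 0) (nat_lit 134158284855) (nat_lit 13)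 (nat_lit 5) (nat_lit 15) (nat_lit 4) (nat_lit 13) (nat_lit 4) (nat_lit 534) (nat_lit 436) (nat_lit 230)) (XT.lf (nat_lit 0) (nat_lit 329988448528) (nat_lit 152) (nat_lit 49650055779) (nat_lit 0) (nat_lit 231548088440) (nat_lit 13) (nat_lit 5) (nat_lit 15) (nat_lit 4) (nat_lit 13) (nat_lit 4) (nat_lit 535) (nat_lit 436) (nat_lit 229)))))) (XT.nd (nat_lit 54834) (nat_lit 0) (nat_lit 8740) (XT.nd (nat_lit 234) (nat_lit 152) (nat_lit 0) (XT.nd (nat_lit 78) (nat_lit 0) (nat_lit 0) (XT.lf (nat_lit 0) (nat_lit 133105510094) (nat_lit 76) (nat_lit 301220230866) (nat_lit 76) (nat_lit 202779678120) (nat_lit 12) (nat_lit 4) (nat_lit 13) (nat_lit 5) (nat_lit 13) (nat_lit 4) (nat_lit 536) (nat_lit 436) (nat_lit 228)) (XT.nd (nat_lit 78) (nat_lit 0) (nat_lit 0) (XT.lf (nat_lit 0) (nat_lit 326721877789) (nat_lit 76) (nat_lit 217998510337) (nat_lit 76) (nat_lit 119557774107) (nat_lit 12) (nat_lit 4) (nat_lit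 13) (nat_lit 5) (nat_lit 13) (nat_lit 4) (nat_lit 537) (nat_lit 436) (nat_lit 227)) (XT.lf (nat_lit 0) (nat_lit 530018383586) (nat_lit 76) (nat_lit 130616043486) (nat_lit 76) (nat_lit 32175132510) (nat_lit 12) (nat_lit 4) (nat_lit 13) (nat_lit 5) (nat_lit 13) (nat_lit 4) (nat_lit 538) (nat_lit 436) (nat_lit 226)))) (XT.nd (nat_lit 156) (nat_lit 0) (nat_lit 0) (XT.nd (nat_lit 78) (nat_lit 0) (nat_lit 0) (XT.lf (nat_lit 0) (nat_lit 20435432196) (nat_lit 76) (nat_lit 37553109070) (nat_lit 152) (nat_lit 664716541391) (nat_lit 10) (nat_lit 5) (nat_lit 11) (nat_lit 5) (nat_lit 12) (nat_lit 4) (nat_lit 539) (nat_lit 436) (nat_lit 225)) (XT.lf (nat_lit 0) (nat_lit 155320229925) (nat_lit 152) (nat_lit 536995050653) (nat_lit 0) (nat_lit 61566671923) (nat_lit 10) (nat_lit 5) (nat_lit 12) (nat_lit 4) (nat_lit 10) (nat_lit 4) (nat_lit 540) (nat_lit 436) (nat_lit 224))) (XT.nd (nat_lit 54366) (nat_lit 0)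 (nat_lit 8740) (XT.lf (nat_lit 0) (nat_lit 258133814264) (nat_lit 152) (nat_lit 364072973522) (nat_lit 0) (nat_lit 164380112498) (nat_lit 10) (nat_lit 5) (nat_lit 12) (nat_lit 4) (nat_lit 10) (nat_lit 4) (nat_lit 541) (nat_lit 436) (nat_lit 223)) (XT.lf (nat_lit 0) (nat_lit 3411956712) (nat_lit 836) (nat_lit 4491103955) (nat_lit 836) (nat_lit 4491103955) (nat_lit 125) (nat_lit 3) (nat_lit 136) (nat_lit 3) (nat_lit 136) (nat_lit 5) (nat_lit 437) (nat_lit 437) (nat_lit 326))))) (XT.nd (nat_lit 234) (nat_lit 0) (nat_lit 152) (XT.nd (nat_lit 78) (nat_lit 0) (nat_lit 76) (XT.lf (nat_lit 76) (nat_lit 3266210246) (nat_lit 0) (nat_lit 3884087618) (nat_lit 836) (nat_lit 18249909509) (nat_lit 126) (nat_lit 5) (nat_lit 125) (nat_lit 3) (nat_lit 136) (nat_lit 5) (nat_lit 438) (nat_lit 437) (nat_lit 325)) (XT.nd (nat_lit 78) (nat_lit 0) (nat_lit 0) (XT.lf (nat_lit 0) (nat_lit 7775698968) (nat_lit 760) (nat_lit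 9737506774) (nat_lit 836) (nat_lit 8515341406) (nat_lit 126) (nat_lit 5) (nat_lit 136) (nat_lit 5) (nat_lit 137) (nat_lit 5) (nat_lit 439) (nat_lit 437) (nat_lit 324)) (XT.lf (nat_lit 76) (nat_lit 3317477252) (nat_lit 0) (nat_lit 5223965350) (nat_lit 836) (nat_lit 18141410170) (nat_lit 127) (nat_lit 5) (nat_lit 126) (nat_lit 5) (nat_lit 137) (nat_lit 5) (nat_lit 440) (nat_lit 437) (nat_lit 323)))) (XT.nd (nat_lit 156) (nat_lit 0) (nat_lit 76) (XT.nd (nat_lit 78) (nat_lit 0) (nat_lit 0) (XT.lf (nat_lit 0) (nat_lit 9626874970) (nat_lit 760) (nat_lit 10125081489) (nat_lit 836) (nat_lit 7603849508) (nat_lit 127) (nat_lit 5) (nat_lit 137) (nat_lit 5) (nat_lit 138) (nat_lit 5) (nat_lit 441) (nat_lit 437) (nat_lit 322)) (XT.lf (nat_lit 76) (nat_lit 3809593187) (nat_lit 0) (nat_lit 7096280601) (nat_lit 836) (nat_lit 17149570546) (nat_lit 128) (nat_lit 5) (nat_lit 127) (nat_lit 5) (nat_lit 138) (nat_lit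 5) (nat_lit 442) (nat_lit 437) (nat_lit 321))) (XT.nd (nat_lit 78) (nat_lit 0) (nat_lit 0) (XT.lf (nat_lit 0) (nat_lit 12514205794) (nat_lit 760) (nat_lit 10092630060) (nat_lit 836) (nat_lit 6169961751) (nat_lit 128) (nat_lit 5) (nat_lit 138) (nat_lit 5) (nat_lit 139) (nat_lit 5) (nat_lit 443) (nat_lit 437) (nat_lit 320)) (XT.lf (nat_lit 76) (nat_lit 4801628023) (nat_lit 0) (nat_lit 9587313131) (nat_lit 836) (nat_lit 15135980093) (nat_lit 129) (nat_lit 5) (nat_lit 128) (nat_lit 5) (nat_lit 139) (nat_lit 5) (nat_lit 444) (nat_lit 437) (nat_lit 319))))))) (XT.nd (nat_lit 1092) (nat_lit 2204) (nat_lit 0) (XT.nd (nat_lit 546) (nat_lit 1368) (nat_lit 0) (XT.nd (nat_lit 234) (nat_lit 1140) (nat_lit 0) (XT.nd (nat_lit 78) (nat_lit 0) (nat_lit 0) (XT.lf (nat_lit 0) (nat_lit 16589787119) (nat_lit 760) (nat_lit 9581651023) (nat_lit 836) (nat_lit 4127396184) (nat_lit 129) (nat_lit 5) (nat_lit 139) (nat_lit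 5) (nat_lit 140) (nat_lit 5) (nat_lit 445) (nat_lit 437) (nat_lit 318)) (XT.nd (nat_lit 78) (nat_lit 0) (nat_lit 76) (XT.lf (nat_lit 76) (nat_lit 6359459525) (nat_lit 0) (nat_lit 12792815113) (nat_lit 836) (nat_lit 11946590312) (nat_lit 130) (nat_lit 5) (nat_lit 129) (nat_lit 5) (nat_lit 140) (nat_lit 5) (nat_lit 446) (nat_lit 437) (nat_lit 317)) (XT.lf (nat_lit 0) (nat_lit 22022729874) (nat_lit 760) (nat_lit 8526925841) (nat_lit 76) (nat_lit 1380250991) (nat_lit 130) (nat_lit 5) (nat_lit 140) (nat_lit 5) (nat_lit 131) (nat_lit 5) (nat_lit 447) (nat_lit 437) (nat_lit 316)))) (XT.nd (nat_lit 156) (nat_lit 456) (nat_lit 0) (XT.nd (nat_lit 78) (nat_lit 0) (nat_lit 0) (XT.lf (nat_lit 0) (nat_lit 8556343523) (nat_lit 760) (nat_lit 16819217117) (nat_lit 836) (nat_lit 7409998953) (nat_lit 120) (nat_lit 5) (nat_lit 130) (nat_lit 5) (nat_lit 131) (nat_lit 5) (nat_lit 448) (nat_lit 437) (nat_lit 315))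 (XT.lf (nat_lit 0) (nat_lit 26785903693) (nat_lit 760) (nat_lit 2250233933) (nat_lit 836) (nat_lit 4640853869) (nat_lit 120) (nat_lit 5) (nat_lit 130) (nat_lit 5) (nat_lit 131) (nat_lit 5) (nat_lit 449) (nat_lit 437) (nat_lit 314))) (XT.nd (nat_lit 78) (nat_lit 76) (nat_lit 0) (XT.lf (nat_lit 0) (nat_lit 11473533820) (nat_lit 380) (nat_lit 21784954823) (nat_lit 456) (nat_lit 1335570613) (nat_lit 115) (nat_lit 5) (nat_lit 120) (nat_lit 5) (nat_lit 121) (nat_lit 5) (nat_lit 450) (nat_lit 437) (nat_lit 313)) (XT.lf (nat_lit 0) (nat_lit 2218126353) (nat_lit 456) (nat_lit 4631656351) (nat_lit 76) (nat_lit 28697958331) (nat_lit 114) (nat_lit 5) (nat_lit 120) (nat_lit 5) (nat_lit 115) (nat_lit 5) (nat_lit 451) (nat_lit 437) (nat_lit 312))))) (XT.nd (nat_lit 234) (nat_lit 608) (nat_lit 0) (XT.nd (nat_lit 78) (nat_lit 380) (nat_lit 0) (XT.lf (nat_lit 0) (nat_lit 6280946389) (nat_lit 456) (nat_lit 21434615441)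 (nat_lit 76) (nat_lit 8813635554) (nat_lit 109) (nat_lit 5) (nat_lit 115) (nat_lit 5) (nat_lit 110) (nat_lit 5) (nat_lit 452) (nat_lit 437) (nat_lit 311)) (XT.nd (nat_lit 78) (nat_lit 380) (nat_lit 0) (XT.lf (nat_lit 0) (nat_lit 10735214974) (nat_lit 456) (nat_lit 1705388351) (nat_lit 76) (nat_lit 25109709102) (nat_lit 109) (nat_lit 5) (nat_lit 115) (nat_lit 5) (nat_lit 110) (nat_lit 5) (nat_lit 453) (nat_lit 437) (nat_lit 310)) (XT.lf (nat_lit 0) (nat_lit 15776420228) (nat_lit 456) (nat_lit 19033540929) (nat_lit 76) (nat_lit 3794312100) (nat_lit 104) (nat_lit 5) (nat_lit 110) (nat_lit 5) (nat_lit 105) (nat_lit 5) (nat_lit 454) (nat_lit 437) (nat_lit 309)))) (XT.nd (nat_lit 156) (nat_lit 304) (nat_lit 0) (XT.nd (nat_lit 78) (nat_lit 0) (nat_lit 0) (XT.lf (nat_lit 0) (nat_lit 2119953068) (nat_lit 304) (nat_lit 19212704260) (nat_lit 380) (nat_lit 18365127359) (nat_lit 100) (nat_lit 5) (nat_lit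 104) (nat_lit 5) (nat_lit 105) (nat_lit 5) (nat_lit 455) (nat_lit 437) (nat_lit 308)) (XT.lf (nat_lit 0) (nat_lit 24988126462) (nat_lit 304) (nat_lit 2497599732) (nat_lit 380) (nat_lit 13344295584) (nat_lit 100) (nat_lit 5) (nat_lit 104) (nat_lit 5) (nat_lit 105) (nat_lit 5) (nat_lit 456) (nat_lit 437) (nat_lit 307))) (XT.nd (nat_lit 78) (nat_lit 0) (nat_lit 0) (XT.lf (nat_lit 0) (nat_lit 6964968468) (nat_lit 304) (nat_lit 27322075122) (nat_lit 380) (nat_lit 7714798413) (nat_lit 96) (nat_lit 5) (nat_lit 100) (nat_lit 5) (nat_lit 101) (nat_lit 5) (nat_lit 457) (nat_lit 437) (nat_lit 306)) (XT.lf (nat_lit 0) (nat_lit 31416164749) (nat_lit 304) (nat_lit 10317758093) (nat_lit 380) (nat_lit 1483056580) (nat_lit 96) (nat_lit 5) (nat_lit 100) (nat_lit 5) (nat_lit 101) (nat_lit 5) (nat_lit 458) (nat_lit 437) (nat_lit 305)))))) (XT.nd (nat_lit 546) (nat_lit 1064) (nat_lit 0) (XT.nd (nat_lit 234) (nat_lit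 532) (nat_lit 0) (XT.nd (nat_lit 78) (nat_lit 304) (nat_lit 0) (XT.lf (nat_lit 0) (nat_lit 5219441078) (nat_lit 304) (nat_lit 31673050534) (nat_lit 76) (nat_lit 7580376288) (nat_lit 92) (nat_lit 5) (nat_lit 96) (nat_lit 5) (nat_lit 93) (nat_lit 5) (nat_lit 459) (nat_lit 437) (nat_lit 304)) (XT.nd (nat_lit 78) (nat_lit 304) (nat_lit 0) (XT.lf (nat_lit 0) (nat_lit 12576590696) (nat_lit 304) (nat_lit 6941818568) (nat_lit 76) (nat_lit 26253458393) (nat_lit 92) (nat_lit 5) (nat_lit 96) (nat_lit 5) (nat_lit 93) (nat_lit 5) (nat_lit 460) (nat_lit 437) (nat_lit 303)) (XT.lf (nat_lit 0) (nat_lit 19651412648) (nat_lit 304) (nat_lit 954232246) (nat_lit 380) (nat_lit 26514970962) (nat_lit 88) (nat_lit 5) (nat_lit 92) (nat_lit 5) (nat_lit 93) (nat_lit 5) (nat_lit 461) (nat_lit 437) (nat_lit 302)))) (XT.nd (nat_lit 156) (nat_lit 304) (nat_lit 0) (XT.nd (nat_lit 78) (nat_lit 228) (nat_lit 0) (XT.lf (nat_lit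 0) (nat_lit 29442373395) (nat_lit 380) (nat_lit 1010569728) (nat_lit 76) (nat_lit 18063548034) (nat_lit 88) (nat_lit 5) (nat_lit 93) (nat_lit 5) (nat_lit 89) (nat_lit 5) (nat_lit 462) (nat_lit 437) (nat_lit 301)) (XT.lf (nat_lit 0) (nat_lit 27636466744) (nat_lit 228) (nat_lit 11529024795) (nat_lit 304) (nat_lit 10794441756) (nat_lit 85) (nat_lit 5) (nat_lit 88) (nat_lit 5) (nat_lit 89) (nat_lit 5) (nat_lit 463) (nat_lit 437) (nat_lit 300))) (XT.nd (nat_lit 78) (nat_lit 76) (nat_lit 0) (XT.lf (nat_lit 0) (nat_lit 6345348231) (nat_lit 228) (nat_lit 43273592592) (nat_lit 304) (nat_lit 1844398654) (nat_lit 82) (nat_lit 5) (nat_lit 85) (nat_lit 5) (nat_lit 86) (nat_lit 5) (nat_lit 464) (nat_lit 437) (nat_lit 299)) (XT.lf (nat_lit 0) (nat_lit 7882164792) (nat_lit 304) (nat_lit 16117021747) (nat_lit 76) (nat_lit 29008295471) (nat_lit 81) (nat_lit 5) (nat_lit 85) (nat_lit 5) (nat_lit 82) (nat_lit 5)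 (nat_lit 465) (nat_lit 437) (nat_lit 298))))) (XT.nd (nat_lit 312) (nat_lit 608) (nat_lit 0) (XT.nd (nat_lit 156) (nat_lit 228) (nat_lit 0) (XT.nd (nat_lit 78) (nat_lit 0) (nat_lit 0) (XT.lf (nat_lit 0) (nat_lit 14773254747) (nat_lit 228) (nat_lit 3488097546) (nat_lit 304) (nat_lit 36354554192) (nat_lit 78) (nat_lit 5) (nat_lit 81) (nat_lit 5) (nat_lit 82) (nat_lit 5) (nat_lit 466) (nat_lit 437) (nat_lit 297)) (XT.lf (nat_lit 0) (nat_lit 29716385922) (nat_lit 304) (nat_lit 8813164790) (nat_lit 76) (nat_lit 17747357708) (nat_lit 78) (nat_lit 5) (nat_lit 82) (nat_lit 5) (nat_lit 79) (nat_lit 5) (nat_lit 467) (nat_lit 437) (nat_lit 296))) (XT.nd (nat_lit 78) (nat_lit 0) (nat_lit 0) (XT.lf (nat_lit 0) (nat_lit 24491260446) (nat_lit 228) (nat_lit 17690254902) (nat_lit 304) (nat_lit 15817578445) (nat_lit 75) (nat_lit 5) (nat_lit 78) (nat_lit 5) (nat_lit 79) (nat_lit 5) (nat_lit 468) (nat_lit 437)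 (nat_lit 295)) (XT.lf (nat_lit 0) (nat_lit 55484861619) (nat_lit 304) (nat_lit 104193674) (nat_lit 76) (nat_lit 4207585645) (nat_lit 75) (nat_lit 5) (nat_lit 79) (nat_lit 5) (nat_lit 76) (nat_lit 5) (nat_lit 469) (nat_lit 437) (nat_lit 294)))) (XT.nd (nat_lit 156) (nat_lit 152) (nat_lit 0) (XT.nd (nat_lit 78) (nat_lit 228) (nat_lit 0) (XT.lf (nat_lit 0) (nat_lit 8381763219) (nat_lit 228) (nat_lit 25953820581) (nat_lit 76) (nat_lit 27299361085) (nat_lit 72) (nat_lit 5) (nat_lit 75) (nat_lit 5) (nat_lit 73) (nat_lit 5) (nat_lit 470) (nat_lit 437) (nat_lit 293)) (XT.lf (nat_lit 0) (nat_lit 9938499438) (nat_lit 228) (nat_lit 11781486544) (nat_lit 304) (nat_lit 41833898893) (nat_lit 69) (nat_lit 5) (nat_lit 72) (nat_lit 5) (nat_lit 73) (nat_lit 5) (nat_lit 471) (nat_lit 437) (nat_lit 292))) (XT.nd (nat_lit 78) (nat_lit 152) (nat_lit 0) (XT.lf (nat_lit 0) (nat_lit 36355642021) (nat_lit 304) (nat_lit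 17216468088) (nat_lit 76) (nat_lit 11965136079) (nat_lit 69) (nat_lit 5) (nat_lit 73) (nat_lit 5) (nat_lit 70) (nat_lit 5) (nat_lit 472) (nat_lit 437) (nat_lit 291)) (XT.lf (nat_lit 0) (nat_lit 21494191122) (nat_lit 152) (nat_lit 30755688438) (nat_lit 228) (nat_lit 15343556480) (nat_lit 67) (nat_lit 5) (nat_lit 69) (nat_lit 5) (nat_lit 70) (nat_lit 5) (nat_lit 473) (nat_lit 437) (nat_lit 290))))))))
noncomputable def xc176 : XT := (XT.nd (nat_lit 2184) (nat_lit 1368) (nat_lit 0) (XT.nd (nat_lit 1092) (nat_lit 1064) (nat_lit 0) (XT.nd (nat_lit 546) (nat_lit 684) (nat_lit 0) (XT.nd (nat_lit 234) (nat_lit 380) (nat_lit 0) (XT.nd (nat_lit 78) (nat_lit 380) (nat_lit 0) (XT.lf (nat_lit 0) (nat_lit 62735135560) (nat_lit 152) (nat_lit 6493383031) (nat_lit 228) (nat_lit 509432703) (nat_lit 67) (nat_lit 5) (nat_lit 69) (nat_lit 5) (nat_lit 70) (nat_lit 5) (nat_lit 474) (nat_lit 437) (nat_lit 289)) (XT.nd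 (nat_lit 78) (nat_lit 152) (nat_lit 0) (XT.lf (nat_lit 0) (nat_lit 15436828630) (nat_lit 228) (nat_lit 37331653842) (nat_lit 76) (nat_lit 19166816248) (nat_lit 64) (nat_lit 5) (nat_lit 67) (nat_lit 5) (nat_lit 65) (nat_lit 5) (nat_lit 475) (nat_lit 437) (nat_lit 288)) (XT.lf (nat_lit 0) (nat_lit 4315432982) (nat_lit 152) (nat_lit 28140420946) (nat_lit 228) (nat_lit 41771613799) (nat_lit 62) (nat_lit 5) (nat_lit 64) (nat_lit 5) (nat_lit 65) (nat_lit 5) (nat_lit 476) (nat_lit 437) (nat_lit 287)))) (XT.nd (nat_lit 156) (nat_lit 228) (nat_lit 0) (XT.nd (nat_lit 78) (nat_lit 152) (nat_lit 0) (XT.lf (nat_lit 0) (nat_lit 49338081685) (nat_lit 152) (nat_lit 1618225157) (nat_lit 228) (nat_lit 25646414844) (nat_lit 62) (nat_lit 5) (nat_lit 64) (nat_lit 5) (nat_lit 65) (nat_lit 5) (nat_lit 477) (nat_lit 437) (nat_lit 286)) (XT.lf (nat_lit 0) (nat_lit 17668301257) (nat_lit 152) (nat_lit 53397171623) (nat_lit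 228) (nat_lit 7997081246) (nat_lit 60) (nat_lit 5) (nat_lit 62) (nat_lit 5) (nat_lit 63) (nat_lit 5) (nat_lit 478) (nat_lit 437) (nat_lit 285))) (XT.nd (nat_lit 78) (nat_lit 152) (nat_lit 0) (XT.lf (nat_lit 0) (nat_lit 10691703669) (nat_lit 228) (nat_lit 16029213923) (nat_lit 76) (nat_lit 54891528976) (nat_lit 59) (nat_lit 5) (nat_lit 62) (nat_lit 5) (nat_lit 60) (nat_lit 5) (nat_lit 479) (nat_lit 437) (nat_lit 284)) (XT.lf (nat_lit 0) (nat_lit 30582743345) (nat_lit 228) (nat_lit 51777703641) (nat_lit 76) (nat_lit 1896003431) (nat_lit 57) (nat_lit 5) (nat_lit 60) (nat_lit 5) (nat_lit 58) (nat_lit 5) (nat_lit 480) (nat_lit 437) (nat_lit 283))))) (XT.nd (nat_lit 234) (nat_lit 304) (nat_lit 0) (XT.nd (nat_lit 78) (nat_lit 380) (nat_lit 0) (XT.lf (nat_lit 0) (nat_lit 52180717465) (nat_lit 228) (nat_lit 3495665535) (nat_lit 76) (nat_lit 31320652586) (nat_lit 57) (nat_lit 5) (nat_lit 60) (nat_lit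 5) (nat_lit 58) (nat_lit 5) (nat_lit 481) (nat_lit 437) (nat_lit 282)) (XT.nd (nat_lit 78) (nat_lit 228) (nat_lit 0) (XT.lf (nat_lit 0) (nat_lit 48758488917) (nat_lit 152) (nat_lit 26859855109) (nat_lit 228) (nat_lit 14218318538) (nat_lit 55) (nat_lit 5) (nat_lit 57) (nat_lit 5) (nat_lit 58) (nat_lit 5) (nat_lit 482) (nat_lit 437) (nat_lit 281)) (XT.lf (nat_lit 0) (nat_lit 7464263795) (nat_lit 228) (nat_lit 81689926630) (nat_lit 76) (nat_lit 3643704686) (nat_lit 52) (nat_lit 5) (nat_lit 55) (nat_lit 5) (nat_lit 53) (nat_lit 5) (nat_lit 483) (nat_lit 437) (nat_lit 280)))) (XT.nd (nat_lit 156) (nat_lit 152) (nat_lit 0) (XT.nd (nat_lit 78) (nat_lit 152) (nat_lit 0) (XT.lf (nat_lit 0) (nat_lit 30899075368) (nat_lit 228) (nat_lit 29230248776) (nat_lit 76) (nat_lit 35708914546) (nat_lit 52) (nat_lit 5) (nat_lit 55) (nat_lit 5) (nat_lit 53) (nat_lit 5) (nat_lit 484) (nat_lit 437) (nat_lit 279)) (XT.lf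 (nat_lit 0) (nat_lit 26704666867) (nat_lit 152) (nat_lit 29216485862) (nat_lit 228) (nat_lit 43088670654) (nat_lit 50) (nat_lit 5) (nat_lit 52) (nat_lit 5) (nat_lit 53) (nat_lit 5) (nat_lit 485) (nat_lit 437) (nat_lit 278))) (XT.nd (nat_lit 78) (nat_lit 152) (nat_lit 0) (XT.lf (nat_lit 0) (nat_lit 82746697748) (nat_lit 228) (nat_lit 15925306625) (nat_lit 76) (nat_lit 3640364936) (nat_lit 50) (nat_lit 5) (nat_lit 53) (nat_lit 5) (nat_lit 51) (nat_lit 4) (nat_lit 486) (nat_lit 437) (nat_lit 277)) (XT.lf (nat_lit 0) (nat_lit 6156144574) (nat_lit 152) (nat_lit 61613820612) (nat_lit 76) (nat_lit 37946721594) (nat_lit 48) (nat_lit 5) (nat_lit 50) (nat_lit 5) (nat_lit 49) (nat_lit 5) (nat_lit 487) (nat_lit 437) (nat_lit 276)))))) (XT.nd (nat_lit 546) (nat_lit 532) (nat_lit 0) (XT.nd (nat_lit 234) (nat_lit 304) (nat_lit 0) (XT.nd (nat_lit 78) (nat_lit 228) (nat_lit 0) (XT.lf (nat_lit 0) (nat_lit 32779316421)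 (nat_lit 152) (nat_lit 1919930244) (nat_lit 76) (nat_lit 74562296200) (nat_lit 48) (nat_lit 5) (nat_lit 50) (nat_lit 5) (nat_lit 49) (nat_lit 5) (nat_lit 488) (nat_lit 437) (nat_lit 275)) (XT.nd (nat_lit 78) (nat_lit 76) (nat_lit 0) (XT.lf (nat_lit 0) (nat_lit 61728767171) (nat_lit 228) (nat_lit 50185862679) (nat_lit 76) (nat_lit 1019256040) (nat_lit 46) (nat_lit 5) (nat_lit 49) (nat_lit 5) (nat_lit 47) (nat_lit 4) (nat_lit 489) (nat_lit 437) (nat_lit 274)) (XT.lf (nat_lit 0) (nat_lit 13797790714) (nat_lit 76) (nat_lit 79143958918) (nat_lit 152) (nat_lit 23807293623) (nat_lit 45) (nat_lit 5) (nat_lit 46) (nat_lit 5) (nat_lit 47) (nat_lit 4) (nat_lit 490) (nat_lit 437) (nat_lit 273)))) (XT.nd (nat_lit 156) (nat_lit 76) (nat_lit 0) (XT.nd (nat_lit 78) (nat_lit 152) (nat_lit 0) (XT.lf (nat_lit 0) (nat_lit 5664266744) (nat_lit 152) (nat_lit 38083141187) (nat_lit 76) (nat_lit 76960547960) (nat_lit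 44) (nat_lit 5) (nat_lit 46) (nat_lit 5) (nat_lit 45) (nat_lit 5) (nat_lit 491) (nat_lit 437) (nat_lit 272)) (XT.lf (nat_lit 0) (nat_lit 30615831808) (nat_lit 152) (nat_lit 5670303942) (nat_lit 228) (nat_lit 88535323770) (nat_lit 42) (nat_lit 5) (nat_lit 44) (nat_lit 5) (nat_lit 45) (nat_lit 5) (nat_lit 492) (nat_lit 437) (nat_lit 271))) (XT.nd (nat_lit 78) (nat_lit 76) (nat_lit 0) (XT.lf (nat_lit 0) (nat_lit 69629134429) (nat_lit 228) (nat_lit 25584901683) (nat_lit 76) (nat_lit 33867100527) (nat_lit 42) (nat_lit 5) (nat_lit 45) (nat_lit 5) (nat_lit 43) (nat_lit 4) (nat_lit 493) (nat_lit 437) (nat_lit 270)) (XT.lf (nat_lit 0) (nat_lit 47905103760) (nat_lit 76) (nat_lit 57573945398) (nat_lit 152) (nat_lit 28032760267) (nat_lit 41) (nat_lit 5) (nat_lit 42) (nat_lit 5) (nat_lit 43) (nat_lit 4) (nat_lit 494) (nat_lit 437) (nat_lit 269))))) (XT.nd (nat_lit 234) (nat_lit 228) (nat_lit 0) (XT.nd (nat_lit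 78) (nat_lit 228) (nat_lit 0) (XT.lf (nat_lit 0) (nat_lit 5238051457) (nat_lit 152) (nat_lit 12271061872) (nat_lit 76) (nat_lit 120629068803) (nat_lit 40) (nat_lit 5) (nat_lit 42) (nat_lit 5) (nat_lit 41) (nat_lit 5) (nat_lit 495) (nat_lit 437) (nat_lit 268)) (XT.nd (nat_lit 78) (nat_lit 76) (nat_lit 0) (XT.lf (nat_lit 0) (nat_lit 40673811203) (nat_lit 228) (nat_lit 76934173108) (nat_lit 76) (nat_lit 25292736988) (nat_lit 38) (nat_lit 5) (nat_lit 41) (nat_lit 5) (nat_lit 39) (nat_lit 4) (nat_lit 496) (nat_lit 437) (nat_lit 267)) (XT.lf (nat_lit 0) (nat_lit 370507160) (nat_lit 76) (nat_lit 78013835132) (nat_lit 152) (nat_lit 69491896062) (nat_lit 37) (nat_lit 5) (nat_lit 38) (nat_lit 5) (nat_lit 39) (nat_lit 4) (nat_lit 497) (nat_lit 437) (nat_lit 266)))) (XT.nd (nat_lit 156) (nat_lit 76) (nat_lit 0) (XT.nd (nat_lit 78) (nat_lit 152) (nat_lit 0) (XT.lf (nat_lit 0) (nat_lit 84209458453) (nat_lit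 76) (nat_lit 35072819877) (nat_lit 152) (nat_lit 33753159101) (nat_lit 37) (nat_lit 5) (nat_lit 38) (nat_lit 5) (nat_lit 39) (nat_lit 4) (nat_lit 498) (nat_lit 437) (nat_lit 265)) (XT.lf (nat_lit 0) (nat_lit 4033115110) (nat_lit 152) (nat_lit 144418726554) (nat_lit 76) (nat_lit 9978742682) (nat_lit 35) (nat_lit 5) (nat_lit 37) (nat_lit 5) (nat_lit 36) (nat_lit 4) (nat_lit 499) (nat_lit 437) (nat_lit 264))) (XT.nd (nat_lit 78) (nat_lit 76) (nat_lit 0) (XT.lf (nat_lit 0) (nat_lit 44333048820) (nat_lit 152) (nat_lit 61805432546) (nat_lit 76) (nat_lit 57841407131) (nat_lit 35) (nat_lit 5) (nat_lit 37) (nat_lit 5) (nat_lit 36) (nat_lit 4) (nat_lit 500) (nat_lit 437) (nat_lit 263)) (XT.lf (nat_lit 0) (nat_lit 25761246920) (nat_lit 76) (nat_lit 61287984728) (nat_lit 152) (nat_lit 82737363660) (nat_lit 34) (nat_lit 5) (nat_lit 35) (nat_lit 5) (nat_lit 36) (nat_lit 4) (nat_lit 501) (nat_lit 437) (nat_lit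 262))))))) (XT.nd (nat_lit 1092) (nat_lit 608) (nat_lit 0) (XT.nd (nat_lit 546) (nat_lit 380) (nat_lit 0) (XT.nd (nat_lit 234) (nat_lit 228) (nat_lit 0) (XT.nd (nat_lit 78) (nat_lit 152) (nat_lit 0) (XT.lf (nat_lit 0) (nat_lit 119850234425) (nat_lit 76) (nat_lit 13096758994) (nat_lit 152) (nat_lit 42884355622) (nat_lit 34) (nat_lit 5) (nat_lit 35) (nat_lit 5) (nat_lit 36) (nat_lit 4) (nat_lit 502) (nat_lit 437) (nat_lit 261)) (XT.nd (nat_lit 78) (nat_lit 0) (nat_lit 0) (XT.lf (nat_lit 0) (nat_lit 176936854) (nat_lit 152) (nat_lit 145058668394) (nat_lit 76) (nat_lit 36884426661) (nat_lit 32) (nat_lit 5) (nat_lit 34) (nat_lit 5) (nat_lit 33) (nat_lit 4) (nat_lit 503) (nat_lit 437) (nat_lit 260)) (XT.lf (nat_lit 0) (nat_lit 45127507713) (nat_lit 152) (nat_lit 52911228346) (nat_lit 76) (nat_lit 90590391347) (nat_lit 32) (nat_lit 5) (nat_lit 34) (nat_lit 5) (nat_lit 33) (nat_lit 4) (nat_lit 504)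 (nat_lit 437) (nat_lit 259)))) (XT.nd (nat_lit 156) (nat_lit 152) (nat_lit 0) (XT.nd (nat_lit 78) (nat_lit 0) (nat_lit 0) (XT.lf (nat_lit 0) (nat_lit 45291557385) (nat_lit 76) (nat_lit 47740319773) (nat_lit 152) (nat_lit 102396487076) (nat_lit 31) (nat_lit 5) (nat_lit 32) (nat_lit 5) (nat_lit 33) (nat_lit 4) (nat_lit 505) (nat_lit 437) (nat_lit 258)) (XT.lf (nat_lit 0) (nat_lit 144320581704) (nat_lit 152) (nat_lit 52376854796) (nat_lit 0) (nat_lit 5820670628) (nat_lit 31) (nat_lit 5) (nat_lit 33) (nat_lit 4) (nat_lit 31) (nat_lit 4) (nat_lit 506) (nat_lit 437) (nat_lit 257))) (XT.nd (nat_lit 78) (nat_lit 76) (nat_lit 0) (XT.lf (nat_lit 0) (nat_lit 51123162645) (nat_lit 76) (nat_lit 148630549118) (nat_lit 76) (nat_lit 10129625942) (nat_lit 30) (nat_lit 4) (nat_lit 31) (nat_lit 5) (nat_lit 31) (nat_lit 4) (nat_lit 507) (nat_lit 437) (nat_lit 256)) (XT.lf (nat_lit 0) (nat_lit 39951239817) (nat_lit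 152) (nat_lit 56601845454) (nat_lit 76) (nat_lit 120987214429) (nat_lit 29) (nat_lit 5) (nat_lit 31) (nat_lit 5) (nat_lit 30) (nat_lit 4) (nat_lit 508) (nat_lit 437) (nat_lit 255))))) (XT.nd (nat_lit 234) (nat_lit 228) (nat_lit 0) (XT.nd (nat_lit 78) (nat_lit 76) (nat_lit 0) (XT.lf (nat_lit 0) (nat_lit 52166503503) (nat_lit 76) (nat_lit 40842915319) (nat_lit 152) (nat_lit 132521703457) (nat_lit 28) (nat_lit 5) (nat_lit 29) (nat_lit 5) (nat_lit 30) (nat_lit 4) (nat_lit 509) (nat_lit 437) (nat_lit 254)) (XT.nd (nat_lit 78) (nat_lit 76) (nat_lit 0) (XT.lf (nat_lit 0) (nat_lit 149969639309) (nat_lit 152) (nat_lit 65828016854) (nat_lit 0) (nat_lit 18061373240) (nat_lit 28) (nat_lit 5) (nat_lit 30) (nat_lit 4) (nat_lit 28) (nat_lit 4) (nat_lit 510) (nat_lit 437) (nat_lit 253)) (XT.lf (nat_lit 0) (nat_lit 47949106706) (nat_lit 76) (nat_lit 163246206097) (nat_lit 76) (nat_lit 31337147022) (nat_lit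 27) (nat_lit 4) (nat_lit 28) (nat_lit 5) (nat_lit 28) (nat_lit 4) (nat_lit 511) (nat_lit 437) (nat_lit 252)))) (XT.nd (nat_lit 156) (nat_lit 76) (nat_lit 0) (XT.nd (nat_lit 78) (nat_lit 76) (nat_lit 0) (XT.lf (nat_lit 0) (nat_lit 24211965141) (nat_lit 152) (nat_lit 82275285778) (nat_lit 76) (nat_lit 145077079686) (nat_lit 26) (nat_lit 5) (nat_lit 28) (nat_lit 5) (nat_lit 27) (nat_lit 4) (nat_lit 512) (nat_lit 437) (nat_lit 251)) (XT.lf (nat_lit 0) (nat_lit 36294763506) (nat_lit 76) (nat_lit 45756600935) (nat_lit 152) (nat_lit 178942446077) (nat_lit 25) (nat_lit 5) (nat_lit 26) (nat_lit 5) (nat_lit 27) (nat_lit 4) (nat_lit 513) (nat_lit 437) (nat_lit 250))) (XT.nd (nat_lit 78) (nat_lit 76) (nat_lit 0) (XT.lf (nat_lit 0) (nat_lit 144479447725) (nat_lit 152) (nat_lit 107480765333) (nat_lit 0) (nat_lit 18849715699) (nat_lit 25) (nat_lit 5) (nat_lit 27) (nat_lit 4) (nat_lit 25) (nat_lit 4) (nat_lit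 514) (nat_lit 437) (nat_lit 249)) (XT.lf (nat_lit 0) (nat_lit 15337937647) (nat_lit 76) (nat_lit 195679911482) (nat_lit 76) (nat_lit 70049558115) (nat_lit 24) (nat_lit 4) (nat_lit 25) (nat_lit 5) (nat_lit 25) (nat_lit 4) (nat_lit 515) (nat_lit 437) (nat_lit 248)))))) (XT.nd (nat_lit 546) (nat_lit 228) (nat_lit 0) (XT.nd (nat_lit 234) (nat_lit 228) (nat_lit 0) (XT.nd (nat_lit 78) (nat_lit 152) (nat_lit 0) (XT.lf (nat_lit 0) (nat_lit 148027791767) (nat_lit 76) (nat_lit 134674966820) (nat_lit 76) (nat_lit 9044021700) (nat_lit 24) (nat_lit 4) (nat_lit 25) (nat_lit 5) (nat_lit 25) (nat_lit 4) (nat_lit 516) (nat_lit 437) (nat_lit 247)) (XT.nd (nat_lit 78) (nat_lit 76) (nat_lit 0) (XT.lf (nat_lit 0) (nat_lit 53250440667) (nat_lit 152) (nat_lit 16468105326) (nat_lit 76) (nat_lit 233198663105) (nat_lit 23) (nat_lit 5) (nat_lit 25) (nat_lit 5) (nat_lit 24) (nat_lit 4) (nat_lit 517) (nat_lit 437) (nat_lit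 246)) (XT.lf (nat_lit 0) (nat_lit 120251832080) (nat_lit 152) (nat_lit 193689841943) (nat_lit 0) (nat_lit 602265002) (nat_lit 22) (nat_lit 5) (nat_lit 24) (nat_lit 4) (nat_lit 22) (nat_lit 4) (nat_lit 518) (nat_lit 437) (nat_lit 245)))) (XT.nd (nat_lit 156) (nat_lit 152) (nat_lit 0) (XT.nd (nat_lit 78) (nat_lit 76) (nat_lit 0) (XT.lf (nat_lit 0) (nat_lit 192029089127) (nat_lit 152) (nat_lit 62272591332) (nat_lit 0) (nat_lit 72379035211) (nat_lit 22) (nat_lit 5) (nat_lit 24) (nat_lit 4) (nat_lit 22) (nat_lit 4) (nat_lit 519) (nat_lit 437) (nat_lit 244)) (XT.lf (nat_lit 0) (nat_lit 78217861224) (nat_lit 76) (nat_lit 190397978004) (nat_lit 76) (nat_lit 70747460434) (nat_lit 21) (nat_lit 4) (nat_lit 22) (nat_lit 5) (nat_lit 22) (nat_lit 4) (nat_lit 520) (nat_lit 437) (nat_lit 243))) (XT.nd (nat_lit 78) (nat_lit 152) (nat_lit 0) (XT.lf (nat_lit 0) (nat_lit 227893697616) (nat_lit 76) (nat_lit 122192285789)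 (nat_lit 76) (nat_lit 2541326643) (nat_lit 21) (nat_lit 4) (nat_lit 22) (nat_lit 5) (nat_lit 22) (nat_lit 4) (nat_lit 521) (nat_lit 437) (nat_lit 242)) (XT.lf (nat_lit 0) (nat_lit 17995240865) (nat_lit 76) (nat_lit 49149452090) (nat_lit 152) (nat_lit 299341884507) (nat_lit 19) (nat_lit 5) (nat_lit 20) (nat_lit 5) (nat_lit 21) (nat_lit 4) (nat_lit 522) (nat_lit 437) (nat_lit 241))))) (XT.nd (nat_lit 234) (nat_lit 152) (nat_lit 0) (XT.nd (nat_lit 78) (nat_lit 76) (nat_lit 0) (XT.lf (nat_lit 0) (nat_lit 142806184410) (nat_lit 152) (nat_lit 209249603980) (nat_lit 0) (nat_lit 28852108015) (nat_lit 19) (nat_lit 5) (nat_lit 21) (nat_lit 4) (nat_lit 19) (nat_lit 4) (nat_lit 523) (nat_lit 437) (nat_lit 240)) (XT.nd (nat_lit 78) (nat_lit 76) (nat_lit 0) (XT.lf (nat_lit 0) (nat_lit 223055964225) (nat_lit 152) (nat_lit 63852531856) (nat_lit 0) (nat_lit 109101524544) (nat_lit 19) (nat_lit 5) (nat_lit 21)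 (nat_lit 4) (nat_lit 19) (nat_lit 4) (nat_lit 524) (nat_lit 437) (nat_lit 239)) (XT.lf (nat_lit 0) (nat_lit 91749996855) (nat_lit 76) (nat_lit 217000220338) (nat_lit 76) (nat_lit 103045434672) (nat_lit 18) (nat_lit 4) (nat_lit 19) (nat_lit 5) (nat_lit 19) (nat_lit 4) (nat_lit 525) (nat_lit 437) (nat_lit 238)))) (XT.nd (nat_lit 156) (nat_lit 76) (nat_lit 0) (XT.nd (nat_lit 78) (nat_lit 76) (nat_lit 0) (XT.lf (nat_lit 0) (nat_lit 257348513463) (nat_lit 76) (nat_lit 142461560911) (nat_lit 76) (nat_lit 28506445734) (nat_lit 18) (nat_lit 4) (nat_lit 19) (nat_lit 5) (nat_lit 19) (nat_lit 4) (nat_lit 526) (nat_lit 437) (nat_lit 237)) (XT.lf (nat_lit 0) (nat_lit 48166411580) (nat_lit 152) (nat_lit 15214285256) (nat_lit 76) (nat_lit 382243914012) (nat_lit 17) (nat_lit 5) (nat_lit 19) (nat_lit 5) (nat_lit 18) (nat_lit 4) (nat_lit 527) (nat_lit 437) (nat_lit 236))) (XT.nd (nat_lit 78) (nat_lit 0) (nat_lit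 0) (XT.lf (nat_lit 0) (nat_lit 130452892158) (nat_lit 152) (nat_lit 311261321330) (nat_lit 0) (nat_lit 21923627518) (nat_lit 16) (nat_lit 5) (nat_lit 18) (nat_lit 4) (nat_lit 16) (nat_lit 4) (nat_lit 528) (nat_lit 437) (nat_lit 235)) (XT.lf (nat_lit 0) (nat_lit 218154166420) (nat_lit 152) (nat_lit 154707912093) (nat_lit 0) (nat_lit 109624630690) (nat_lit 16) (nat_lit 5) (nat_lit 18) (nat_lit 4) (nat_lit 16) (nat_lit 4) (nat_lit 529) (nat_lit 437) (nat_lit 234))))))))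
noncomputable def xc177 : XT := (XT.nd (nat_lit 56550) (nat_lit 0) (nat_lit 3572) (XT.nd (nat_lit 55458) (nat_lit 0) (nat_lit 7524) (XT.nd (nat_lit 546) (nat_lit 228) (nat_lit 0) (XT.nd (nat_lit 234) (nat_lit 152) (nat_lit 0) (XT.nd (nat_lit 78) (nat_lit 0) (nat_lit 0) (XT.lf (nat_lit 0) (nat_lit 9992139224) (nat_lit 76) (nat_lit 300403948180) (nat_lit 76) (nat_lit 191874154271) (nat_lit 15) (nat_lit 4) (nat_lit 16) (nat_lit 5) (nat_lit 16) (nat_lit 4) (nat_lit 530) (nat_lit 437) (nat_lit 233)) (XT.nd (nat_lit 78) (nat_lit 0) (nat_lit 0) (XT.lf (nat_lit 0) (nat_lit 188297476774) (nat_lit 76) (nat_lit 221572265944) (nat_lit 76) (nat_lit 113042226149) (nat_lit 15) (nat_lit 4) (nat_lit 16) (nat_lit 5) (nat_lit 16) (nat_lit 4) (nat_lit 531) (nat_lit 437) (nat_lit 232)) (XT.lf (nat_lit 0) (nat_lit 375517294819) (nat_lit 76) (nat_lit 138799390674) (nat_lit 76) (nat_lit 30269116703) (nat_lit 15) (nat_lit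 4) (nat_lit 16) (nat_lit 5) (nat_lit 16) (nat_lit 4) (nat_lit 532) (nat_lit 437) (nat_lit 231)))) (XT.nd (nat_lit 156) (nat_lit 0) (nat_lit 0) (XT.nd (nat_lit 78) (nat_lit 0) (nat_lit 0) (XT.lf (nat_lit 0) (nat_lit 3997613079) (nat_lit 76) (nat_lit 50894147933) (nat_lit 152) (nat_lit 512404247103) (nat_lit 13) (nat_lit 5) (nat_lit 14) (nat_lit 5) (nat_lit 15) (nat_lit 4) (nat_lit 533) (nat_lit 437) (nat_lit 230)) (XT.lf (nat_lit 0) (nat_lit 146849724733) (nat_lit 152) (nat_lit 400602230361) (nat_lit 0) (nat_lit 43487144349) (nat_lit 13) (nat_lit 5) (nat_lit 15) (nat_lit 4) (nat_lit 13) (nat_lit 4) (nat_lit 534) (nat_lit 437) (nat_lit 229))) (XT.nd (nat_lit 78) (nat_lit 0) (nat_lit 0) (XT.lf (nat_lit 0) (nat_lit 244239553156) (nat_lit 152) (nat_lit 230606313751) (nat_lit 0) (nat_lit 140876780114) (nat_lit 13) (nat_lit 5) (nat_lit 15) (nat_lit 4) (nat_lit 13) (nat_lit 4) (nat_lit 535) (nat_lit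 437) (nat_lit 228)) (XT.lf (nat_lit 0) (nat_lit 346498526546) (nat_lit 152) (nat_lit 52111292745) (nat_lit 0) (nat_lit 243135570020) (nat_lit 13) (nat_lit 5) (nat_lit 15) (nat_lit 4) (nat_lit 13) (nat_lit 4) (nat_lit 536) (nat_lit 437) (nat_lit 227))))) (XT.nd (nat_lit 234) (nat_lit 152) (nat_lit 0) (XT.nd (nat_lit 78) (nat_lit 0) (nat_lit 0) (XT.lf (nat_lit 0) (nat_lit 139781708424) (nat_lit 76) (nat_lit 316270794430) (nat_lit 76) (nat_lit 212907663158) (nat_lit 12) (nat_lit 4) (nat_lit 13) (nat_lit 5) (nat_lit 13) (nat_lit 4) (nat_lit 537) (nat_lit 437) (nat_lit 226)) (XT.nd (nat_lit 78) (nat_lit 0) (nat_lit 0) (XT.lf (nat_lit 0) (nat_lit 343077898179) (nat_lit 76) (nat_lit 228888485397) (nat_lit 76) (nat_lit 125525187701) (nat_lit 12) (nat_lit 4) (nat_lit 13) (nat_lit 5) (nat_lit 13) (nat_lit 4) (nat_lit 538) (nat_lit 437) (nat_lit 225)) (XT.lf (nat_lit 0) (nat_lit 556538280385) (nat_lit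 76) (nat_lit 137137369035) (nat_lit 76) (nat_lit 33773912838) (nat_lit 12) (nat_lit 4) (nat_lit 13) (nat_lit 5) (nat_lit 13) (nat_lit 4) (nat_lit 539) (nat_lit 437) (nat_lit 224)))) (XT.nd (nat_lit 54522) (nat_lit 0) (nat_lit 8740) (XT.nd (nat_lit 78) (nat_lit 0) (nat_lit 0) (XT.lf (nat_lit 0) (nat_lit 21476189726) (nat_lit 76) (nat_lit 39421272164) (nat_lit 152) (nat_lit 697942399992) (nat_lit 10) (nat_lit 5) (nat_lit 11) (nat_lit 5) (nat_lit 12) (nat_lit 4) (nat_lit 540) (nat_lit 437) (nat_lit 223)) (XT.lf (nat_lit 0) (nat_lit 163095424052) (nat_lit 152) (nat_lit 563826410209) (nat_lit 0) (nat_lit 64653756515) (nat_lit 10) (nat_lit 5) (nat_lit 12) (nat_lit 4) (nat_lit 10) (nat_lit 4) (nat_lit 541) (nat_lit 437) (nat_lit 222))) (XT.nd (nat_lit 78) (nat_lit 0) (nat_lit 0) (XT.lf (nat_lit 0) (nat_lit 3685710362) (nat_lit 836) (nat_lit 4661482283) (nat_lit 836) (nat_lit 4661482283) (nat_lit 125)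 (nat_lit 3) (nat_lit 136) (nat_lit 3) (nat_lit 136) (nat_lit 5) (nat_lit 438) (nat_lit 438) (nat_lit 324)) (XT.lf (nat_lit 76) (nat_lit 3536126858) (nat_lit 0) (nat_lit 4169837585) (nat_lit 836) (nat_lit 18954269267) (nat_lit 126) (nat_lit 5) (nat_lit 125) (nat_lit 3) (nat_lit 136) (nat_lit 5) (nat_lit 439) (nat_lit 438) (nat_lit 323)))))) (XT.nd (nat_lit 546) (nat_lit 1292) (nat_lit 0) (XT.nd (nat_lit 234) (nat_lit 0) (nat_lit 76) (XT.nd (nat_lit 78) (nat_lit 0) (nat_lit 0) (XT.lf (nat_lit 0) (nat_lit 8351838585) (nat_lit 760) (nat_lit 10111982670) (nat_lit 836) (nat_lit 8856712710) (nat_lit 126) (nat_lit 5) (nat_lit 136) (nat_lit 5) (nat_lit 137) (nat_lit 5) (nat_lit 440) (nat_lit 438) (nat_lit 322)) (XT.nd (nat_lit 78) (nat_lit 0) (nat_lit 76) (XT.lf (nat_lit 76) (nat_lit 3593937662) (nat_lit 0) (nat_lit 5554736653) (nat_lit 836) (nat_lit 18859243775) (nat_lit 127) (nat_lit 5) (nat_lit 126)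 (nat_lit 5) (nat_lit 137) (nat_lit 5) (nat_lit 441) (nat_lit 438) (nat_lit 321)) (XT.lf (nat_lit 0) (nat_lit 10278764769) (nat_lit 760) (nat_lit 10516335470) (nat_lit 836) (nat_lit 7919902685) (nat_lit 127) (nat_lit 5) (nat_lit 137) (nat_lit 5) (nat_lit 138) (nat_lit 5) (nat_lit 442) (nat_lit 438) (nat_lit 320)))) (XT.nd (nat_lit 156) (nat_lit 0) (nat_lit 76) (XT.nd (nat_lit 78) (nat_lit 0) (nat_lit 76) (XT.lf (nat_lit 76) (nat_lit 4113218100) (nat_lit 0) (nat_lit 7502140703) (nat_lit 836) (nat_lit 17834585288) (nat_lit 128) (nat_lit 5) (nat_lit 127) (nat_lit 5) (nat_lit 138) (nat_lit 5) (nat_lit 443) (nat_lit 438) (nat_lit 319)) (XT.lf (nat_lit 0) (nat_lit 13295529753) (nat_lit 760) (nat_lit 10480866624) (nat_lit 836) (nat_lit 6431400526) (nat_lit 128) (nat_lit 5) (nat_lit 138) (nat_lit 5) (nat_lit 139) (nat_lit 5) (nat_lit 444) (nat_lit 438) (nat_lit 318))) (XT.nd (nat_lit 78) (nat_lit 0)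 (nat_lit 76) (XT.lf (nat_lit 76) (nat_lit 5156227025) (nat_lit 0) (nat_lit 10102152621) (nat_lit 836) (nat_lit 15735231044) (nat_lit 129) (nat_lit 5) (nat_lit 128) (nat_lit 5) (nat_lit 139) (nat_lit 5) (nat_lit 445) (nat_lit 438) (nat_lit 317)) (XT.lf (nat_lit 0) (nat_lit 17561597988) (nat_lit 760) (nat_lit 9943944941) (nat_lit 836) (nat_lit 4301062707) (nat_lit 129) (nat_lit 5) (nat_lit 139) (nat_lit 5) (nat_lit 140) (nat_lit 5) (nat_lit 446) (nat_lit 438) (nat_lit 316))))) (XT.nd (nat_lit 234) (nat_lit 836) (nat_lit 0) (XT.nd (nat_lit 78) (nat_lit 684) (nat_lit 0) (XT.lf (nat_lit 76) (nat_lit 6792337448) (nat_lit 0) (nat_lit 13454889210) (nat_lit 836) (nat_lit 12399662883) (nat_lit 130) (nat_lit 5) (nat_lit 129) (nat_lit 5) (nat_lit 140) (nat_lit 5) (nat_lit 447) (nat_lit 438) (nat_lit 315)) (XT.nd (nat_lit 78) (nat_lit 760) (nat_lit 0) (XT.lf (nat_lit 0) (nat_lit 23254331168) (nat_lit 760)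 (nat_lit 8836916085) (nat_lit 76) (nat_lit 1428582270) (nat_lit 130) (nat_lit 5) (nat_lit 140) (nat_lit 5) (nat_lit 131) (nat_lit 5) (nat_lit 448) (nat_lit 438) (nat_lit 314)) (XT.lf (nat_lit 0) (nat_lit 9098640038) (nat_lit 760) (nat_lit 17671738169) (nat_lit 836) (nat_lit 7648110458) (nat_lit 120) (nat_lit 5) (nat_lit 130) (nat_lit 5) (nat_lit 131) (nat_lit 5) (nat_lit 449) (nat_lit 438) (nat_lit 313)))) (XT.nd (nat_lit 156) (nat_lit 456) (nat_lit 0) (XT.nd (nat_lit 78) (nat_lit 380) (nat_lit 0) (XT.lf (nat_lit 0) (nat_lit 28234226818) (nat_lit 760) (nat_lit 2373755339) (nat_lit 836) (nat_lit 4746812331) (nat_lit 120) (nat_lit 5) (nat_lit 130) (nat_lit 5) (nat_lit 131) (nat_lit 5) (nat_lit 450) (nat_lit 438) (nat_lit 312)) (XT.lf (nat_lit 0) (nat_lit 12160598111) (nat_lit 380) (nat_lit 22876743127) (nat_lit 456) (nat_lit 1280582003) (nat_lit 115) (nat_lit 5) (nat_lit 120) (nat_lit 5) (nat_lit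 121) (nat_lit 5) (nat_lit 451) (nat_lit 438) (nat_lit 311))) (XT.nd (nat_lit 78) (nat_lit 380) (nat_lit 0) (XT.lf (nat_lit 0) (nat_lit 2441289654) (nat_lit 456) (nat_lit 4751500643) (nat_lit 76) (nat_lit 30126686329) (nat_lit 114) (nat_lit 5) (nat_lit 120) (nat_lit 5) (nat_lit 115) (nat_lit 5) (nat_lit 452) (nat_lit 438) (nat_lit 310)) (XT.lf (nat_lit 0) (nat_lit 6703641963) (nat_lit 456) (nat_lit 22390962186) (nat_lit 76) (nat_lit 9255583918) (nat_lit 109) (nat_lit 5) (nat_lit 115) (nat_lit 5) (nat_lit 110) (nat_lit 5) (nat_lit 453) (nat_lit 438) (nat_lit 309))))))) (XT.nd (nat_lit 1092) (nat_lit 1596) (nat_lit 0) (XT.nd (nat_lit 546) (nat_lit 1064) (nat_lit 0) (XT.nd (nat_lit 234) (nat_lit 608) (nat_lit 0) (XT.nd (nat_lit 78) (nat_lit 684) (nat_lit 0) (XT.lf (nat_lit 0) (nat_lit 11375450251) (nat_lit 456) (nat_lit 1680768220) (nat_lit 76) (nat_lit 26366400830) (nat_lit 109) (nat_lit 5) (nat_lit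 115) (nat_lit 5) (nat_lit 110) (nat_lit 5) (nat_lit 454) (nat_lit 438) (nat_lit 308)) (XT.nd (nat_lit 78) (nat_lit 304) (nat_lit 0) (XT.lf (nat_lit 0) (nat_lit 16665599480) (nat_lit 456) (nat_lit 19872178785) (nat_lit 76) (nat_lit 3991657389) (nat_lit 104) (nat_lit 5) (nat_lit 110) (nat_lit 5) (nat_lit 105) (nat_lit 5) (nat_lit 455) (nat_lit 438) (nat_lit 307)) (XT.lf (nat_lit 0) (nat_lit 2337166699) (nat_lit 304) (nat_lit 20159439165) (nat_lit 380) (nat_lit 19181170508) (nat_lit 100) (nat_lit 5) (nat_lit 104) (nat_lit 5) (nat_lit 105) (nat_lit 5) (nat_lit 456) (nat_lit 438) (nat_lit 306)))) (XT.nd (nat_lit 156) (nat_lit 304) (nat_lit 0) (XT.nd (nat_lit 78) (nat_lit 304) (nat_lit 0) (XT.lf (nat_lit 0) (nat_lit 26343452764) (nat_lit 304) (nat_lit 2609241330) (nat_lit 380) (nat_lit 13914164441) (nat_lit 100) (nat_lit 5) (nat_lit 104) (nat_lit 5) (nat_lit 105) (nat_lit 5) (nat_lit 457) (nat_lit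 438) (nat_lit 305)) (XT.lf (nat_lit 0) (nat_lit 7421814230) (nat_lit 304) (nat_lit 28669742075) (nat_lit 380) (nat_lit 8005840958) (nat_lit 96) (nat_lit 5) (nat_lit 100) (nat_lit 5) (nat_lit 101) (nat_lit 5) (nat_lit 458) (nat_lit 438) (nat_lit 304))) (XT.nd (nat_lit 78) (nat_lit 304) (nat_lit 0) (XT.lf (nat_lit 0) (nat_lit 33090399023) (nat_lit 304) (nat_lit 10816087138) (nat_lit 380) (nat_lit 1467021433) (nat_lit 96) (nat_lit 5) (nat_lit 100) (nat_lit 5) (nat_lit 101) (nat_lit 5) (nat_lit 459) (nat_lit 438) (nat_lit 303)) (XT.lf (nat_lit 0) (nat_lit 5565500640) (nat_lit 304) (nat_lit 33148125532) (nat_lit 76) (nat_lit 7978605860) (nat_lit 92) (nat_lit 5) (nat_lit 96) (nat_lit 5) (nat_lit 93) (nat_lit 5) (nat_lit 460) (nat_lit 438) (nat_lit 302))))) (XT.nd (nat_lit 234) (nat_lit 760) (nat_lit 0) (XT.nd (nat_lit 78) (nat_lit 304) (nat_lit 0) (XT.lf (nat_lit 0) (nat_lit 13286455952) (nat_lit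 304) (nat_lit 7185502326) (nat_lit 76) (nat_lit 27584427272) (nat_lit 92) (nat_lit 5) (nat_lit 96) (nat_lit 5) (nat_lit 93) (nat_lit 5) (nat_lit 461) (nat_lit 438) (nat_lit 301)) (XT.nd (nat_lit 78) (nat_lit 0) (nat_lit 0) (XT.lf (nat_lit 0) (nat_lit 20735722594) (nat_lit 304) (nat_lit 978969858) (nat_lit 380) (nat_lit 27757993356) (nat_lit 88) (nat_lit 5) (nat_lit 92) (nat_lit 5) (nat_lit 93) (nat_lit 5) (nat_lit 462) (nat_lit 438) (nat_lit 300)) (XT.lf (nat_lit 0) (nat_lit 30989848256) (nat_lit 380) (nat_lit 960773009) (nat_lit 76) (nat_lit 18987905139) (nat_lit 88) (nat_lit 5) (nat_lit 93) (nat_lit 5) (nat_lit 89) (nat_lit 5) (nat_lit 463) (nat_lit 438) (nat_lit 299)))) (XT.nd (nat_lit 156) (nat_lit 304) (nat_lit 0) (XT.nd (nat_lit 78) (nat_lit 228) (nat_lit 0) (XT.lf (nat_lit 0) (nat_lit 29116997138) (nat_lit 228) (nat_lit 12080077874) (nat_lit 304) (nat_lit 11257169027) (nat_lit 85) (nat_lit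 5) (nat_lit 88) (nat_lit 5) (nat_lit 89) (nat_lit 5) (nat_lit 464) (nat_lit 438) (nat_lit 298)) (XT.lf (nat_lit 0) (nat_lit 6762966980) (nat_lit 228) (nat_lit 45408683300) (nat_lit 304) (nat_lit 1861248549) (nat_lit 82) (nat_lit 5) (nat_lit 85) (nat_lit 5) (nat_lit 86) (nat_lit 5) (nat_lit 465) (nat_lit 438) (nat_lit 297))) (XT.nd (nat_lit 78) (nat_lit 228) (nat_lit 0) (XT.lf (nat_lit 0) (nat_lit 8345756580) (nat_lit 304) (nat_lit 16824985004) (nat_lit 76) (nat_lit 30483622662) (nat_lit 81) (nat_lit 5) (nat_lit 85) (nat_lit 5) (nat_lit 82) (nat_lit 5) (nat_lit 466) (nat_lit 438) (nat_lit 296)) (XT.lf (nat_lit 0) (nat_lit 15608226479) (nat_lit 228) (nat_lit 3633871889) (nat_lit 304) (nat_lit 38101202672) (nat_lit 78) (nat_lit 5) (nat_lit 81) (nat_lit 5) (nat_lit 82) (nat_lit 5) (nat_lit 467) (nat_lit 438) (nat_lit 295)))))) (XT.nd (nat_lit 546) (nat_lit 760) (nat_lit 0) (XT.nd (nat_lit 234)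 (nat_lit 608) (nat_lit 0) (XT.nd (nat_lit 78) (nat_lit 228) (nat_lit 0) (XT.lf (nat_lit 0) (nat_lit 31267086612) (nat_lit 304) (nat_lit 9159287067) (nat_lit 76) (nat_lit 18661120048) (nat_lit 78) (nat_lit 5) (nat_lit 82) (nat_lit 5) (nat_lit 79) (nat_lit 5) (nat_lit 468) (nat_lit 438) (nat_lit 294)) (XT.nd (nat_lit 78) (nat_lit 0) (nat_lit 0) (XT.lf (nat_lit 0) (nat_lit 25808834658) (nat_lit 228) (nat_lit 18545000427) (nat_lit 304) (nat_lit 16542035920) (nat_lit 75) (nat_lit 5) (nat_lit 78) (nat_lit 5) (nat_lit 79) (nat_lit 5) (nat_lit 469) (nat_lit 438) (nat_lit 293)) (XT.lf (nat_lit 0) (nat_lit 58319779671) (nat_lit 304) (nat_lit 18237721) (nat_lit 76) (nat_lit 4445407292) (nat_lit 75) (nat_lit 5) (nat_lit 79) (nat_lit 5) (nat_lit 76) (nat_lit 5) (nat_lit 470) (nat_lit 438) (nat_lit 292)))) (XT.nd (nat_lit 156) (nat_lit 152) (nat_lit 0) (XT.nd (nat_lit 78) (nat_lit 228) (nat_lit 0) (XT.lf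 (nat_lit 0) (nat_lit 8861021139) (nat_lit 228) (nat_lit 27159813704) (nat_lit 76) (nat_lit 28692835599) (nat_lit 72) (nat_lit 5) (nat_lit 75) (nat_lit 5) (nat_lit 73) (nat_lit 5) (nat_lit 471) (nat_lit 438) (nat_lit 291)) (XT.lf (nat_lit 0) (nat_lit 10525643318) (nat_lit 228) (nat_lit 12339055067) (nat_lit 304) (nat_lit 43863932509) (nat_lit 69) (nat_lit 5) (nat_lit 72) (nat_lit 5) (nat_lit 73) (nat_lit 5) (nat_lit 472) (nat_lit 438) (nat_lit 290))) (XT.nd (nat_lit 78) (nat_lit 152) (nat_lit 0) (XT.lf (nat_lit 0) (nat_lit 38229809833) (nat_lit 304) (nat_lit 17989029360) (nat_lit 76) (nat_lit 12592438047) (nat_lit 69) (nat_lit 5) (nat_lit 73) (nat_lit 5) (nat_lit 70) (nat_lit 5) (nat_lit 473) (nat_lit 438) (nat_lit 289)) (XT.lf (nat_lit 0) (nat_lit 22655739228) (nat_lit 152) (nat_lit 32261690780) (nat_lit 228) (nat_lit 16052913608) (nat_lit 67) (nat_lit 5) (nat_lit 69) (nat_lit 5) (nat_lit 70)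 (nat_lit 5) (nat_lit 474) (nat_lit 438) (nat_lit 288))))) (XT.nd (nat_lit 312) (nat_lit 380) (nat_lit 0) (XT.nd (nat_lit 156) (nat_lit 152) (nat_lit 0) (XT.nd (nat_lit 78) (nat_lit 228) (nat_lit 0) (XT.lf (nat_lit 0) (nat_lit 65954595719) (nat_lit 152) (nat_lit 6787783535) (nat_lit 228) (nat_lit 479837009) (nat_lit 67) (nat_lit 5) (nat_lit 69) (nat_lit 5) (nat_lit 70) (nat_lit 5) (nat_lit 475) (nat_lit 438) (nat_lit 287)) (XT.lf (nat_lit 0) (nat_lit 16261218975) (nat_lit 228) (nat_lit 39112994546) (nat_lit 76) (nat_lit 20155212839) (nat_lit 64) (nat_lit 5) (nat_lit 67) (nat_lit 5) (nat_lit 65) (nat_lit 5) (nat_lit 476) (nat_lit 438) (nat_lit 286))) (XT.nd (nat_lit 78) (nat_lit 0) (nat_lit 0) (XT.lf (nat_lit 0) (nat_lit 4615071748) (nat_lit 152) (nat_lit 29514930862) (nat_lit 228) (nat_lit 43806261323) (nat_lit 62) (nat_lit 5) (nat_lit 64) (nat_lit 5) (nat_lit 65) (nat_lit 5) (nat_lit 477) (nat_lit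 438) (nat_lit 285)) (XT.lf (nat_lit 0) (nat_lit 51884859215) (nat_lit 152) (nat_lit 1668173433) (nat_lit 228) (nat_lit 26877370667) (nat_lit 62) (nat_lit 5) (nat_lit 64) (nat_lit 5) (nat_lit 65) (nat_lit 5) (nat_lit 478) (nat_lit 438) (nat_lit 284)))) (XT.nd (nat_lit 156) (nat_lit 152) (nat_lit 0) (XT.nd (nat_lit 78) (nat_lit 76) (nat_lit 0) (XT.lf (nat_lit 0) (nat_lit 18632240730) (nat_lit 152) (nat_lit 56034804797) (nat_lit 228) (nat_lit 8346212847) (nat_lit 60) (nat_lit 5) (nat_lit 62) (nat_lit 5) (nat_lit 63) (nat_lit 5) (nat_lit 479) (nat_lit 438) (nat_lit 283)) (XT.lf (nat_lit 0) (nat_lit 11273049831) (nat_lit 228) (nat_lit 16752430858) (nat_lit 76) (nat_lit 57665242442) (nat_lit 59) (nat_lit 5) (nat_lit 62) (nat_lit 5) (nat_lit 60) (nat_lit 5) (nat_lit 480) (nat_lit 438) (nat_lit 282))) (XT.nd (nat_lit 78) (nat_lit 0) (nat_lit 0) (XT.lf (nat_lit 0) (nat_lit 32158104509) (nat_lit 228)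 (nat_lit 54287800731) (nat_lit 76) (nat_lit 2021049148) (nat_lit 57) (nat_lit 5) (nat_lit 60) (nat_lit 5) (nat_lit 58) (nat_lit 5) (nat_lit 481) (nat_lit 438) (nat_lit 281)) (XT.lf (nat_lit 0) (nat_lit 54833776192) (nat_lit 228) (nat_lit 3595412533) (nat_lit 76) (nat_lit 32915490497) (nat_lit 57) (nat_lit 5) (nat_lit 60) (nat_lit 5) (nat_lit 58) (nat_lit 5) (nat_lit 482) (nat_lit 438) (nat_lit 280))))))))
noncomputable def xc178 : XT := (XT.nd (nat_lit 2184) (nat_lit 1216) (nat_lit 0) (XT.nd (nat_lit 1092) (nat_lit 912) (nat_lit 0) (XT.nd (nat_lit 546) (nat_lit 608) (nat_lit 0) (XT.nd (nat_lit 234) (nat_lit 304) (nat_lit 0) (XT.nd (nat_lit 78) (nat_lit 228) (nat_lit 0) (XT.lf (nat_lit 0) (nat_lit 51270239379) (nat_lit 152) (nat_lit 28172101008) (nat_lit 228) (nat_lit 14883994682) (nat_lit 55) (nat_lit 5) (nat_lit 57) (nat_lit 5) (nat_lit 58) (nat_lit 5) (nat_lit 483) (nat_lit 438) (nat_lit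 279)) (XT.nd (nat_lit 78) (nat_lit 0) (nat_lit 0) (XT.lf (nat_lit 0) (nat_lit 7880827038) (nat_lit 228) (nat_lit 85698694820) (nat_lit 76) (nat_lit 3856094461) (nat_lit 52) (nat_lit 5) (nat_lit 55) (nat_lit 5) (nat_lit 53) (nat_lit 5) (nat_lit 484) (nat_lit 438) (nat_lit 278)) (XT.lf (nat_lit 0) (nat_lit 32485314900) (nat_lit 228) (nat_lit 30619639175) (nat_lit 76) (nat_lit 37523126503) (nat_lit 52) (nat_lit 5) (nat_lit 55) (nat_lit 5) (nat_lit 53) (nat_lit 5) (nat_lit 485) (nat_lit 438) (nat_lit 277)))) (XT.nd (nat_lit 156) (nat_lit 152) (nat_lit 0) (XT.nd (nat_lit 78) (nat_lit 0) (nat_lit 0) (XT.lf (nat_lit 0) (nat_lit 28110858992) (nat_lit 152) (nat_lit 30646779014) (nat_lit 228) (nat_lit 45200649679) (nat_lit 50) (nat_lit 5) (nat_lit 52) (nat_lit 5) (nat_lit 53) (nat_lit 5) (nat_lit 486) (nat_lit 438) (nat_lit 276)) (XT.lf (nat_lit 0) (nat_lit 86922989128) (nat_lit 228) (nat_lit 16652515793)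 (nat_lit 76) (nat_lit 3850529805) (nat_lit 50) (nat_lit 5) (nat_lit 53) (nat_lit 5) (nat_lit 51) (nat_lit 4) (nat_lit 487) (nat_lit 438) (nat_lit 275))) (XT.nd (nat_lit 78) (nat_lit 0) (nat_lit 0) (XT.lf (nat_lit 0) (nat_lit 6502744420) (nat_lit 152) (nat_lit 64625281892) (nat_lit 76) (nat_lit 39872550439) (nat_lit 48) (nat_lit 5) (nat_lit 50) (nat_lit 5) (nat_lit 49) (nat_lit 5) (nat_lit 488) (nat_lit 438) (nat_lit 274)) (XT.lf (nat_lit 0) (nat_lit 34455227592) (nat_lit 152) (nat_lit 1949993660) (nat_lit 76) (nat_lit 78317546976) (nat_lit 48) (nat_lit 5) (nat_lit 50) (nat_lit 5) (nat_lit 49) (nat_lit 5) (nat_lit 489) (nat_lit 438) (nat_lit 273))))) (XT.nd (nat_lit 234) (nat_lit 304) (nat_lit 0) (XT.nd (nat_lit 78) (nat_lit 152) (nat_lit 0) (XT.lf (nat_lit 0) (nat_lit 64851852006) (nat_lit 228) (nat_lit 52628919546) (nat_lit 76) (nat_lit 1097972012) (nat_lit 46) (nat_lit 5) (nat_lit 49) (nat_lit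 5) (nat_lit 47) (nat_lit 4) (nat_lit 490) (nat_lit 438) (nat_lit 272)) (XT.nd (nat_lit 78) (nat_lit 76) (nat_lit 0) (XT.lf (nat_lit 0) (nat_lit 14552848190) (nat_lit 76) (nat_lit 83071907785) (nat_lit 152) (nat_lit 24959939408) (nat_lit 45) (nat_lit 5) (nat_lit 46) (nat_lit 5) (nat_lit 47) (nat_lit 4) (nat_lit 491) (nat_lit 438) (nat_lit 271)) (XT.lf (nat_lit 0) (nat_lit 5982253087) (nat_lit 152) (nat_lit 39924080077) (nat_lit 76) (nat_lit 80835278159) (nat_lit 44) (nat_lit 5) (nat_lit 46) (nat_lit 5) (nat_lit 45) (nat_lit 5) (nat_lit 492) (nat_lit 438) (nat_lit 270)))) (XT.nd (nat_lit 156) (nat_lit 152) (nat_lit 0) (XT.nd (nat_lit 78) (nat_lit 0) (nat_lit 0) (XT.lf (nat_lit 0) (nat_lit 32208821920) (nat_lit 152) (nat_lit 5925708858) (nat_lit 228) (nat_lit 92926293769) (nat_lit 42) (nat_lit 5) (nat_lit 44) (nat_lit 5) (nat_lit 45) (nat_lit 5) (nat_lit 493) (nat_lit 438) (nat_lit 269)) (XT.lf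 (nat_lit 0) (nat_lit 73143474124) (nat_lit 228) (nat_lit 26803701444) (nat_lit 76) (nat_lit 35586370387) (nat_lit 42) (nat_lit 5) (nat_lit 45) (nat_lit 5) (nat_lit 43) (nat_lit 4) (nat_lit 494) (nat_lit 438) (nat_lit 268))) (XT.nd (nat_lit 78) (nat_lit 76) (nat_lit 0) (XT.lf (nat_lit 0) (nat_lit 50359829346) (nat_lit 76) (nat_lit 60425417886) (nat_lit 152) (nat_lit 29400537176) (nat_lit 41) (nat_lit 5) (nat_lit 42) (nat_lit 5) (nat_lit 43) (nat_lit 4) (nat_lit 495) (nat_lit 438) (nat_lit 267)) (XT.lf (nat_lit 0) (nat_lit 5531170541) (nat_lit 152) (nat_lit 12826941423) (nat_lit 76) (nat_lit 126685415539) (nat_lit 40) (nat_lit 5) (nat_lit 42) (nat_lit 5) (nat_lit 41) (nat_lit 5) (nat_lit 496) (nat_lit 438) (nat_lit 266)))))) (XT.nd (nat_lit 546) (nat_lit 456) (nat_lit 0) (XT.nd (nat_lit 234) (nat_lit 228) (nat_lit 0) (XT.nd (nat_lit 78) (nat_lit 76) (nat_lit 0) (XT.lf (nat_lit 0) (nat_lit 42738525619)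 (nat_lit 228) (nat_lit 80723012795) (nat_lit 76) (nat_lit 26582664988) (nat_lit 38) (nat_lit 5) (nat_lit 41) (nat_lit 5) (nat_lit 39) (nat_lit 4) (nat_lit 497) (nat_lit 438) (nat_lit 265)) (XT.nd (nat_lit 78) (nat_lit 0) (nat_lit 0) (XT.lf (nat_lit 0) (nat_lit 445968116) (nat_lit 76) (nat_lit 81888026744) (nat_lit 152) (nat_lit 72934531001) (nat_lit 37) (nat_lit 5) (nat_lit 38) (nat_lit 5) (nat_lit 39) (nat_lit 4) (nat_lit 498) (nat_lit 438) (nat_lit 264)) (XT.lf (nat_lit 0) (nat_lit 88474155755) (nat_lit 76) (nat_lit 36801222637) (nat_lit 152) (nat_lit 35410379090) (nat_lit 37) (nat_lit 5) (nat_lit 38) (nat_lit 5) (nat_lit 39) (nat_lit 4) (nat_lit 499) (nat_lit 438) (nat_lit 263)))) (XT.nd (nat_lit 156) (nat_lit 76) (nat_lit 0) (XT.nd (nat_lit 78) (nat_lit 0) (nat_lit 0) (XT.lf (nat_lit 0) (nat_lit 4264076128) (nat_lit 152) (nat_lit 151584301127) (nat_lit 76) (nat_lit 10502268767) (nat_lit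 35) (nat_lit 5) (nat_lit 37) (nat_lit 5) (nat_lit 36) (nat_lit 4) (nat_lit 500) (nat_lit 438) (nat_lit 262)) (XT.lf (nat_lit 0) (nat_lit 46577611035) (nat_lit 152) (nat_lit 64842978692) (nat_lit 76) (nat_lit 60756895536) (nat_lit 35) (nat_lit 5) (nat_lit 37) (nat_lit 5) (nat_lit 36) (nat_lit 4) (nat_lit 501) (nat_lit 438) (nat_lit 261))) (XT.nd (nat_lit 78) (nat_lit 0) (nat_lit 0) (XT.lf (nat_lit 0) (nat_lit 27101184336) (nat_lit 76) (nat_lit 64327899546) (nat_lit 152) (nat_lit 86845469592) (nat_lit 34) (nat_lit 5) (nat_lit 35) (nat_lit 5) (nat_lit 36) (nat_lit 4) (nat_lit 502) (nat_lit 438) (nat_lit 260)) (XT.lf (nat_lit 0) (nat_lit 125892150975) (nat_lit 76) (nat_lit 13728278450) (nat_lit 152) (nat_lit 45001180782) (nat_lit 34) (nat_lit 5) (nat_lit 35) (nat_lit 5) (nat_lit 36) (nat_lit 4) (nat_lit 503) (nat_lit 438) (nat_lit 259))))) (XT.nd (nat_lit 234) (nat_lit 228) (nat_lit 0) (XT.nd (nat_lit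 78) (nat_lit 76) (nat_lit 0) (XT.lf (nat_lit 0) (nat_lit 212175394) (nat_lit 152) (nat_lit 152261192402) (nat_lit 76) (nat_lit 38751344339) (nat_lit 32) (nat_lit 5) (nat_lit 34) (nat_lit 5) (nat_lit 33) (nat_lit 4) (nat_lit 504) (nat_lit 438) (nat_lit 258)) (XT.nd (nat_lit 78) (nat_lit 76) (nat_lit 0) (XT.lf (nat_lit 0) (nat_lit 47409018049) (nat_lit 152) (nat_lit 55508780800) (nat_lit 76) (nat_lit 95141526481) (nat_lit 32) (nat_lit 5) (nat_lit 34) (nat_lit 5) (nat_lit 33) (nat_lit 4) (nat_lit 505) (nat_lit 438) (nat_lit 257)) (XT.lf (nat_lit 0) (nat_lit 47603369880) (nat_lit 76) (nat_lit 50104776648) (nat_lit 152) (nat_lit 107490400523) (nat_lit 31) (nat_lit 5) (nat_lit 32) (nat_lit 5) (nat_lit 33) (nat_lit 4) (nat_lit 506) (nat_lit 438) (nat_lit 256)))) (XT.nd (nat_lit 156) (nat_lit 152) (nat_lit 0) (XT.nd (nat_lit 78) (nat_lit 76) (nat_lit 0) (XT.lf (nat_lit 0) (nat_lit 151560446716) (nat_lit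 152) (nat_lit 54949871050) (nat_lit 0) (nat_lit 6132501379) (nat_lit 31) (nat_lit 5) (nat_lit 33) (nat_lit 4) (nat_lit 31) (nat_lit 4) (nat_lit 507) (nat_lit 438) (nat_lit 255)) (XT.lf (nat_lit 0) (nat_lit 53724408126) (nat_lit 76) (nat_lit 156040394047) (nat_lit 76) (nat_lit 10611530706) (nat_lit 30) (nat_lit 4) (nat_lit 31) (nat_lit 5) (nat_lit 31) (nat_lit 4) (nat_lit 508) (nat_lit 438) (nat_lit 254))) (XT.nd (nat_lit 78) (nat_lit 76) (nat_lit 0) (XT.lf (nat_lit 0) (nat_lit 41971458884) (nat_lit 152) (nat_lit 59388246916) (nat_lit 76) (nat_lit 127056474698) (nat_lit 29) (nat_lit 5) (nat_lit 31) (nat_lit 5) (nat_lit 30) (nat_lit 4) (nat_lit 509) (nat_lit 438) (nat_lit 253)) (XT.lf (nat_lit 0) (nat_lit 54817814797) (nat_lit 76) (nat_lit 42864324267) (nat_lit 152) (nat_lit 139124425594) (nat_lit 28) (nat_lit 5) (nat_lit 29) (nat_lit 5) (nat_lit 30) (nat_lit 4) (nat_lit 510) (nat_lit 438) (nat_lit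 252))))))) (XT.nd (nat_lit 1092) (nat_lit 532) (nat_lit 0) (XT.nd (nat_lit 546) (nat_lit 380) (nat_lit 0) (XT.nd (nat_lit 234) (nat_lit 152) (nat_lit 0) (XT.nd (nat_lit 78) (nat_lit 152) (nat_lit 0) (XT.lf (nat_lit 0) (nat_lit 157489619428) (nat_lit 152) (nat_lit 69077726179) (nat_lit 0) (nat_lit 18983559149) (nat_lit 28) (nat_lit 5) (nat_lit 30) (nat_lit 4) (nat_lit 28) (nat_lit 4) (nat_lit 511) (nat_lit 438) (nat_lit 251)) (XT.nd (nat_lit 78) (nat_lit 76) (nat_lit 0) (XT.lf (nat_lit 0) (nat_lit 50387581115) (nat_lit 76) (nat_lit 171388612183) (nat_lit 76) (nat_lit 32881832624) (nat_lit 27) (nat_lit 4) (nat_lit 28) (nat_lit 5) (nat_lit 28) (nat_lit 4) (nat_lit 512) (nat_lit 438) (nat_lit 250)) (XT.lf (nat_lit 0) (nat_lit 25443003507) (nat_lit 152) (nat_lit 86349307396) (nat_lit 76) (nat_lit 152349213183) (nat_lit 26) (nat_lit 5) (nat_lit 28) (nat_lit 5) (nat_lit 27) (nat_lit 4) (nat_lit 513)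 (nat_lit 438) (nat_lit 249)))) (XT.nd (nat_lit 156) (nat_lit 76) (nat_lit 0) (XT.nd (nat_lit 78) (nat_lit 0) (nat_lit 0) (XT.lf (nat_lit 0) (nat_lit 38148603342) (nat_lit 76) (nat_lit 48025406578) (nat_lit 152) (nat_lit 187868486267) (nat_lit 25) (nat_lit 5) (nat_lit 26) (nat_lit 5) (nat_lit 27) (nat_lit 4) (nat_lit 514) (nat_lit 438) (nat_lit 248)) (XT.lf (nat_lit 0) (nat_lit 151722824189) (nat_lit 152) (nat_lit 112816889797) (nat_lit 0) (nat_lit 19809740059) (nat_lit 25) (nat_lit 5) (nat_lit 27) (nat_lit 4) (nat_lit 25) (nat_lit 4) (nat_lit 515) (nat_lit 438) (nat_lit 247))) (XT.nd (nat_lit 78) (nat_lit 0) (nat_lit 0) (XT.lf (nat_lit 0) (nat_lit 16142136820) (nat_lit 76) (nat_lit 205445667233) (nat_lit 76) (nat_lit 73532019529) (nat_lit 24) (nat_lit 4) (nat_lit 25) (nat_lit 5) (nat_lit 25) (nat_lit 4) (nat_lit 516) (nat_lit 438) (nat_lit 246)) (XT.lf (nat_lit 0) (nat_lit 155464707347) (nat_lit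 76) (nat_lit 141391343901) (nat_lit 76) (nat_lit 9477159459) (nat_lit 24) (nat_lit 4) (nat_lit 25) (nat_lit 5) (nat_lit 25) (nat_lit 4) (nat_lit 517) (nat_lit 438) (nat_lit 245))))) (XT.nd (nat_lit 234) (nat_lit 228) (nat_lit 0) (XT.nd (nat_lit 78) (nat_lit 76) (nat_lit 0) (XT.lf (nat_lit 0) (nat_lit 55930537158) (nat_lit 152) (nat_lit 17257094446) (nat_lit 76) (nat_lit 244874558448) (nat_lit 23) (nat_lit 5) (nat_lit 25) (nat_lit 5) (nat_lit 24) (nat_lit 4) (nat_lit 518) (nat_lit 438) (nat_lit 244)) (XT.nd (nat_lit 78) (nat_lit 0) (nat_lit 0) (XT.lf (nat_lit 0) (nat_lit 126281949020) (nat_lit 152) (nat_lit 203339868030) (nat_lit 0) (nat_lit 648441918) (nat_lit 22) (nat_lit 5) (nat_lit 24) (nat_lit 4) (nat_lit 22) (nat_lit 4) (nat_lit 519) (nat_lit 438) (nat_lit 243)) (XT.lf (nat_lit 0) (nat_lit 201647234380) (nat_lit 152) (nat_lit 65353396127) (nat_lit 0) (nat_lit 76013285701) (nat_lit 22)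 (nat_lit 5) (nat_lit 24) (nat_lit 4) (nat_lit 22) (nat_lit 4) (nat_lit 520) (nat_lit 438) (nat_lit 242)))) (XT.nd (nat_lit 156) (nat_lit 152) (nat_lit 0) (XT.nd (nat_lit 78) (nat_lit 0) (nat_lit 0) (XT.lf (nat_lit 0) (nat_lit 82161049626) (nat_lit 76) (nat_lit 199901981781) (nat_lit 76) (nat_lit 74267612555) (nat_lit 21) (nat_lit 4) (nat_lit 22) (nat_lit 5) (nat_lit 22) (nat_lit 4) (nat_lit 521) (nat_lit 438) (nat_lit 241)) (XT.lf (nat_lit 0) (nat_lit 239319139964) (nat_lit 76) (nat_lit 128286761866) (nat_lit 76) (nat_lit 2651992118) (nat_lit 21) (nat_lit 4) (nat_lit 22) (nat_lit 5) (nat_lit 22) (nat_lit 4) (nat_lit 522) (nat_lit 438) (nat_lit 240))) (XT.nd (nat_lit 78) (nat_lit 0) (nat_lit 0) (XT.lf (nat_lit 0) (nat_lit 18925781350) (nat_lit 76) (nat_lit 51591746721) (nat_lit 152) (nat_lit 314292597658) (nat_lit 19) (nat_lit 5) (nat_lit 20) (nat_lit 5) (nat_lit 21) (nat_lit 4) (nat_lit 523)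 (nat_lit 438) (nat_lit 239)) (XT.lf (nat_lit 0) (nat_lit 149961576907) (nat_lit 152) (nat_lit 219682253629) (nat_lit 0) (nat_lit 30308705971) (nat_lit 19) (nat_lit 5) (nat_lit 21) (nat_lit 4) (nat_lit 19) (nat_lit 4) (nat_lit 524) (nat_lit 438) (nat_lit 238)))))) (XT.nd (nat_lit 546) (nat_lit 228) (nat_lit 0) (XT.nd (nat_lit 234) (nat_lit 228) (nat_lit 0) (XT.nd (nat_lit 78) (nat_lit 76) (nat_lit 0) (XT.lf (nat_lit 0) (nat_lit 234223127461) (nat_lit 152) (nat_lit 67016748402) (nat_lit 0) (nat_lit 114569927015) (nat_lit 19) (nat_lit 5) (nat_lit 21) (nat_lit 4) (nat_lit 19) (nat_lit 4) (nat_lit 525) (nat_lit 438) (nat_lit 237)) (XT.nd (nat_lit 78) (nat_lit 0) (nat_lit 0) (XT.lf (nat_lit 0) (nat_lit 96365448518) (nat_lit 76) (nat_lit 227836396918) (nat_lit 76) (nat_lit 108182882652) (nat_lit 18) (nat_lit 4) (nat_lit 19) (nat_lit 5) (nat_lit 19) (nat_lit 4) (nat_lit 526) (nat_lit 438) (nat_lit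 236)) (XT.lf (nat_lit 0) (nat_lit 270242559917) (nat_lit 76) (nat_lit 149571463301) (nat_lit 76) (nat_lit 29917650160) (nat_lit 18) (nat_lit 4) (nat_lit 19) (nat_lit 5) (nat_lit 19) (nat_lit 4) (nat_lit 527) (nat_lit 438) (nat_lit 235)))) (XT.nd (nat_lit 156) (nat_lit 76) (nat_lit 0) (XT.nd (nat_lit 78) (nat_lit 76) (nat_lit 0) (XT.lf (nat_lit 0) (nat_lit 50587747398) (nat_lit 152) (nat_lit 15949215618) (nat_lit 76) (nat_lit 401368227179) (nat_lit 17) (nat_lit 5) (nat_lit 19) (nat_lit 5) (nat_lit 18) (nat_lit 4) (nat_lit 528) (nat_lit 438) (nat_lit 234)) (XT.lf (nat_lit 0) (nat_lit 136988524652) (nat_lit 152) (nat_lit 326798575729) (nat_lit 0) (nat_lit 23031982868) (nat_lit 16) (nat_lit 5) (nat_lit 18) (nat_lit 4) (nat_lit 16) (nat_lit 4) (nat_lit 529) (nat_lit 438) (nat_lit 233))) (XT.nd (nat_lit 78) (nat_lit 76) (nat_lit 0) (XT.lf (nat_lit 0) (nat_lit 229074244156) (nat_lit 152) (nat_lit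 162418725158) (nat_lit 0) (nat_lit 115117456486) (nat_lit 16) (nat_lit 5) (nat_lit 18) (nat_lit 4) (nat_lit 16) (nat_lit 4) (nat_lit 530) (nat_lit 438) (nat_lit 232)) (XT.lf (nat_lit 0) (nat_lit 10515932232) (nat_lit 76) (nat_lit 315412117549) (nat_lit 76) (nat_lit 201455095701) (nat_lit 15) (nat_lit 4) (nat_lit 16) (nat_lit 5) (nat_lit 16) (nat_lit 4) (nat_lit 531) (nat_lit 438) (nat_lit 231))))) (XT.nd (nat_lit 312) (nat_lit 76) (nat_lit 0) (XT.nd (nat_lit 156) (nat_lit 152) (nat_lit 0) (XT.nd (nat_lit 78) (nat_lit 0) (nat_lit 0) (XT.lf (nat_lit 0) (nat_lit 197735384943) (nat_lit 76) (nat_lit 232639423965) (nat_lit 76) (nat_lit 118682179092) (nat_lit 15) (nat_lit 4) (nat_lit 16) (nat_lit 5) (nat_lit 16) (nat_lit 4) (nat_lit 532) (nat_lit 438) (nat_lit 230)) (XT.lf (nat_lit 0) (nat_lit 394315097018) (nat_lit 76) (nat_lit 145728450421) (nat_lit 76) (nat_lit 31770993143) (nat_lit 15) (nat_lit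 4) (nat_lit 16) (nat_lit 5) (nat_lit 16) (nat_lit 4) (nat_lit 533) (nat_lit 438) (nat_lit 229))) (XT.nd (nat_lit 78) (nat_lit 0) (nat_lit 0) (XT.lf (nat_lit 0) (nat_lit 4219442315) (nat_lit 76) (nat_lit 53427924457) (nat_lit 152) (nat_lit 538012890555) (nat_lit 13) (nat_lit 5) (nat_lit 14) (nat_lit 5) (nat_lit 15) (nat_lit 4) (nat_lit 534) (nat_lit 438) (nat_lit 228)) (XT.lf (nat_lit 0) (nat_lit 154202866561) (nat_lit 152) (nat_lit 420611076056) (nat_lit 0) (nat_lit 45671578725) (nat_lit 13) (nat_lit 5) (nat_lit 15) (nat_lit 4) (nat_lit 13) (nat_lit 4) (nat_lit 535) (nat_lit 438) (nat_lit 227)))) (XT.nd (nat_lit 156) (nat_lit 76) (nat_lit 0) (XT.nd (nat_lit 78) (nat_lit 0) (nat_lit 0) (XT.lf (nat_lit 0) (nat_lit 256461678996) (nat_lit 152) (nat_lit 242116376274) (nat_lit 0) (nat_lit 147930216414) (nat_lit 13) (nat_lit 5) (nat_lit 15) (nat_lit 4) (nat_lit 13) (nat_lit 4) (nat_lit 536) (nat_lit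 438) (nat_lit 226)) (XT.lf (nat_lit 0) (nat_lit 363833117808) (nat_lit 152) (nat_lit 54697568654) (nat_lit 0) (nat_lit 255301488801) (nat_lit 13) (nat_lit 5) (nat_lit 15) (nat_lit 4) (nat_lit 13) (nat_lit 4) (nat_lit 537) (nat_lit 438) (nat_lit 225))) (XT.nd (nat_lit 78) (nat_lit 0) (nat_lit 0) (XT.lf (nat_lit 0) (nat_lit 146789771465) (nat_lit 76) (nat_lit 332074857526) (nat_lit 76) (nat_lit 223543070019) (nat_lit 12) (nat_lit 4) (nat_lit 13) (nat_lit 5) (nat_lit 13) (nat_lit 4) (nat_lit 538) (nat_lit 438) (nat_lit 224)) (XT.lf (nat_lit 0) (nat_lit 360249867011) (nat_lit 76) (nat_lit 240323884309) (nat_lit 76) (nat_lit 131791945850) (nat_lit 12) (nat_lit 4) (nat_lit 13) (nat_lit 5) (nat_lit 13) (nat_lit 4) (nat_lit 539) (nat_lit 438) (nat_lit 223))))))))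
noncomputable def xc179 : XT := (XT.nd (nat_lit 56706) (nat_lit 0) (nat_lit 2280) (XT.nd (nat_lit 55614) (nat_lit 0) (nat_lit 5548) (XT.nd (nat_lit 55068) (nat_lit 0) (nat_lit 8208) (XT.nd (nat_lit 54756) (nat_lit 0) (nat_lit 8664) (XT.nd (nat_lit 54600) (nat_lit 0) (nat_lit 8588) (XT.lf (nat_lit 0) (nat_lit 584382407665) (nat_lit 76) (nat_lit 143985641908) (nat_lit 76) (nat_lit 35453559684) (nat_lit 12) (nat_lit 4) (nat_lit 13) (nat_lit 5) (nat_lit 13) (nat_lit 4) (nat_lit 540) (nat_lit 438) (nat_lit 222)) (XT.nd (nat_lit 78) (nat_lit 0) (nat_lit 0) (XT.lf (nat_lit 0) (nat_lit 3963561244) (nat_lit 836) (nat_lit 4845416379) (nat_lit 836) (nat_lit 4845416379) (nat_lit 125) (nat_lit 3) (nat_lit 136) (nat_lit 3) (nat_lit 136) (nat_lit 5) (nat_lit 439) (nat_lit 439) (nat_lit 322)) (XT.lf (nat_lit 76) (nat_lit 3809628075) (nat_lit 0) (nat_lit 4461364010) (nat_lit 836) (nat_lit 19713197500) (nat_lit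 126) (nat_lit 5) (nat_lit 125) (nat_lit 3) (nat_lit 136) (nat_lit 5) (nat_lit 440) (nat_lit 439) (nat_lit 321)))) (XT.nd (nat_lit 156) (nat_lit 0) (nat_lit 76) (XT.nd (nat_lit 78) (nat_lit 0) (nat_lit 0) (XT.lf (nat_lit 0) (nat_lit 8939366721) (nat_lit 760) (nat_lit 10515632196) (nat_lit 836) (nat_lit 9222998896) (nat_lit 126) (nat_lit 5) (nat_lit 136) (nat_lit 5) (nat_lit 137) (nat_lit 5) (nat_lit 441) (nat_lit 439) (nat_lit 320)) (XT.lf (nat_lit 76) (nat_lit 3873939805) (nat_lit 0) (nat_lit 5895578279) (nat_lit 836) (nat_lit 19630562514) (nat_lit 127) (nat_lit 5) (nat_lit 126) (nat_lit 5) (nat_lit 137) (nat_lit 5) (nat_lit 442) (nat_lit 439) (nat_lit 319))) (XT.nd (nat_lit 78) (nat_lit 0) (nat_lit 0) (XT.lf (nat_lit 0) (nat_lit 10947393303) (nat_lit 760) (nat_lit 10937843768) (nat_lit 836) (nat_lit 8257721585) (nat_lit 127) (nat_lit 5) (nat_lit 137) (nat_lit 5) (nat_lit 138) (nat_lit 5) (nat_lit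 443) (nat_lit 439) (nat_lit 318)) (XT.lf (nat_lit 76) (nat_lit 4421505085) (nat_lit 0) (nat_lit 7923548030) (nat_lit 836) (nat_lit 18569884815) (nat_lit 128) (nat_lit 5) (nat_lit 127) (nat_lit 5) (nat_lit 138) (nat_lit 5) (nat_lit 444) (nat_lit 439) (nat_lit 317))))) (XT.nd (nat_lit 234) (nat_lit 608) (nat_lit 0) (XT.nd (nat_lit 78) (nat_lit 0) (nat_lit 0) (XT.lf (nat_lit 0) (nat_lit 14101452426) (nat_lit 760) (nat_lit 10899336314) (nat_lit 836) (nat_lit 6710286368) (nat_lit 128) (nat_lit 5) (nat_lit 138) (nat_lit 5) (nat_lit 139) (nat_lit 5) (nat_lit 445) (nat_lit 439) (nat_lit 316)) (XT.nd (nat_lit 78) (nat_lit 0) (nat_lit 76) (XT.lf (nat_lit 76) (nat_lit 5517909216) (nat_lit 0) (nat_lit 10639436066) (nat_lit 836) (nat_lit 16379091867) (nat_lit 129) (nat_lit 5) (nat_lit 128) (nat_lit 5) (nat_lit 139) (nat_lit 5) (nat_lit 446) (nat_lit 439) (nat_lit 315)) (XT.lf (nat_lit 0) (nat_lit 18568767696)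 (nat_lit 760) (nat_lit 10335211454) (nat_lit 836) (nat_lit 4486452999) (nat_lit 129) (nat_lit 5) (nat_lit 139) (nat_lit 5) (nat_lit 140) (nat_lit 5) (nat_lit 447) (nat_lit 439) (nat_lit 314)))) (XT.nd (nat_lit 156) (nat_lit 684) (nat_lit 0) (XT.nd (nat_lit 78) (nat_lit 0) (nat_lit 76) (XT.lf (nat_lit 76) (nat_lit 7236176494) (nat_lit 0) (nat_lit 14147981371) (nat_lit 836) (nat_lit 12888800727) (nat_lit 130) (nat_lit 5) (nat_lit 129) (nat_lit 5) (nat_lit 140) (nat_lit 5) (nat_lit 448) (nat_lit 439) (nat_lit 313)) (XT.lf (nat_lit 0) (nat_lit 24535383145) (nat_lit 760) (nat_lit 9173223523) (nat_lit 76) (nat_lit 1481252862) (nat_lit 130) (nat_lit 5) (nat_lit 140) (nat_lit 5) (nat_lit 131) (nat_lit 5) (nat_lit 449) (nat_lit 439) (nat_lit 312))) (XT.nd (nat_lit 78) (nat_lit 0) (nat_lit 0) (XT.lf (nat_lit 0) (nat_lit 9657408174) (nat_lit 760) (nat_lit 18565810515) (nat_lit 836) (nat_lit 7910435761)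 (nat_lit 120) (nat_lit 5) (nat_lit 130) (nat_lit 5) (nat_lit 131) (nat_lit 5) (nat_lit 450) (nat_lit 439) (nat_lit 311)) (XT.lf (nat_lit 0) (nat_lit 29744829716) (nat_lit 760) (nat_lit 2502429238) (nat_lit 836) (nat_lit 4869790834) (nat_lit 120) (nat_lit 5) (nat_lit 130) (nat_lit 5) (nat_lit 131) (nat_lit 5) (nat_lit 451) (nat_lit 439) (nat_lit 310)))))) (XT.nd (nat_lit 546) (nat_lit 1140) (nat_lit 0) (XT.nd (nat_lit 234) (nat_lit 684) (nat_lit 0) (XT.nd (nat_lit 78) (nat_lit 456) (nat_lit 0) (XT.lf (nat_lit 0) (nat_lit 12871473913) (nat_lit 380) (nat_lit 24022884649) (nat_lit 456) (nat_lit 1234164718) (nat_lit 115) (nat_lit 5) (nat_lit 120) (nat_lit 5) (nat_lit 121) (nat_lit 5) (nat_lit 452) (nat_lit 439) (nat_lit 309)) (XT.nd (nat_lit 78) (nat_lit 380) (nat_lit 0) (XT.lf (nat_lit 0) (nat_lit 2665174529) (nat_lit 456) (nat_lit 4887725539) (nat_lit 76) (nat_lit 31627424348) (nat_lit 114) (nat_lit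 5) (nat_lit 120) (nat_lit 5) (nat_lit 115) (nat_lit 5) (nat_lit 453) (nat_lit 439) (nat_lit 308)) (XT.lf (nat_lit 0) (nat_lit 7137371231) (nat_lit 456) (nat_lit 23405853583) (nat_lit 76) (nat_lit 9719511945) (nat_lit 109) (nat_lit 5) (nat_lit 115) (nat_lit 5) (nat_lit 110) (nat_lit 5) (nat_lit 454) (nat_lit 439) (nat_lit 307)))) (XT.nd (nat_lit 156) (nat_lit 304) (nat_lit 0) (XT.nd (nat_lit 78) (nat_lit 380) (nat_lit 0) (XT.lf (nat_lit 0) (nat_lit 12038077211) (nat_lit 456) (nat_lit 1665133571) (nat_lit 76) (nat_lit 27685814996) (nat_lit 109) (nat_lit 5) (nat_lit 115) (nat_lit 5) (nat_lit 110) (nat_lit 5) (nat_lit 455) (nat_lit 439) (nat_lit 306)) (XT.lf (nat_lit 0) (nat_lit 17589907337) (nat_lit 456) (nat_lit 20763257846) (nat_lit 76) (nat_lit 4198160606) (nat_lit 104) (nat_lit 5) (nat_lit 110) (nat_lit 5) (nat_lit 105) (nat_lit 5) (nat_lit 456) (nat_lit 439) (nat_lit 305))) (XT.nd (nat_lit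 78) (nat_lit 0) (nat_lit 0) (XT.lf (nat_lit 0) (nat_lit 2554901204) (nat_lit 304) (nat_lit 21154803135) (nat_lit 380) (nat_lit 20047518631) (nat_lit 100) (nat_lit 5) (nat_lit 104) (nat_lit 5) (nat_lit 105) (nat_lit 5) (nat_lit 457) (nat_lit 439) (nat_lit 304)) (XT.lf (nat_lit 0) (nat_lit 27756697945) (nat_lit 304) (nat_lit 2727695788) (nat_lit 380) (nat_lit 14521577041) (nat_lit 100) (nat_lit 5) (nat_lit 104) (nat_lit 5) (nat_lit 105) (nat_lit 5) (nat_lit 458) (nat_lit 439) (nat_lit 303))))) (XT.nd (nat_lit 234) (nat_lit 532) (nat_lit 0) (XT.nd (nat_lit 78) (nat_lit 304) (nat_lit 0) (XT.lf (nat_lit 0) (nat_lit 7891405929) (nat_lit 304) (nat_lit 30086506456) (nat_lit 380) (nat_lit 8320239696) (nat_lit 96) (nat_lit 5) (nat_lit 100) (nat_lit 5) (nat_lit 101) (nat_lit 5) (nat_lit 459) (nat_lit 439) (nat_lit 302)) (XT.nd (nat_lit 78) (nat_lit 304) (nat_lit 0) (XT.lf (nat_lit 0) (nat_lit 34838729439)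 (nat_lit 304) (nat_lit 11340965091) (nat_lit 380) (nat_lit 1458569351) (nat_lit 96) (nat_lit 5) (nat_lit 100) (nat_lit 5) (nat_lit 101) (nat_lit 5) (nat_lit 460) (nat_lit 439) (nat_lit 301)) (XT.lf (nat_lit 0) (nat_lit 5920952549) (nat_lit 304) (nat_lit 34707048789) (nat_lit 76) (nat_lit 8394960876) (nat_lit 92) (nat_lit 5) (nat_lit 96) (nat_lit 5) (nat_lit 93) (nat_lit 5) (nat_lit 461) (nat_lit 439) (nat_lit 300)))) (XT.nd (nat_lit 156) (nat_lit 228) (nat_lit 0) (XT.nd (nat_lit 78) (nat_lit 304) (nat_lit 0) (XT.lf (nat_lit 0) (nat_lit 14024280538) (nat_lit 304) (nat_lit 7450984091) (nat_lit 76) (nat_lit 28980243610) (nat_lit 92) (nat_lit 5) (nat_lit 96) (nat_lit 5) (nat_lit 93) (nat_lit 5) (nat_lit 462) (nat_lit 439) (nat_lit 299)) (XT.lf (nat_lit 0) (nat_lit 21864789279) (nat_lit 304) (nat_lit 1007080256) (nat_lit 380) (nat_lit 29070857964) (nat_lit 88) (nat_lit 5) (nat_lit 92) (nat_lit 5)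 (nat_lit 93) (nat_lit 5) (nat_lit 463) (nat_lit 439) (nat_lit 298))) (XT.nd (nat_lit 78) (nat_lit 228) (nat_lit 0) (XT.lf (nat_lit 0) (nat_lit 32607690957) (nat_lit 380) (nat_lit 917813741) (nat_lit 76) (nat_lit 19956511012) (nat_lit 88) (nat_lit 5) (nat_lit 93) (nat_lit 5) (nat_lit 89) (nat_lit 5) (nat_lit 464) (nat_lit 439) (nat_lit 297)) (XT.lf (nat_lit 0) (nat_lit 30662377205) (nat_lit 228) (nat_lit 12661044887) (nat_lit 304) (nat_lit 11750190909) (nat_lit 85) (nat_lit 5) (nat_lit 88) (nat_lit 5) (nat_lit 89) (nat_lit 5) (nat_lit 465) (nat_lit 439) (nat_lit 296))))))) (XT.nd (nat_lit 1092) (nat_lit 1520) (nat_lit 0) (XT.nd (nat_lit 546) (nat_lit 760) (nat_lit 0) (XT.nd (nat_lit 234) (nat_lit 456) (nat_lit 0) (XT.nd (nat_lit 78) (nat_lit 304) (nat_lit 0) (XT.lf (nat_lit 0) (nat_lit 7192136951) (nat_lit 228) (nat_lit 47653186469) (nat_lit 304) (nat_lit 1885948131) (nat_lit 82) (nat_lit 5)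 (nat_lit 85) (nat_lit 5) (nat_lit 86) (nat_lit 5) (nat_lit 466) (nat_lit 439) (nat_lit 295)) (XT.nd (nat_lit 78) (nat_lit 228) (nat_lit 0) (XT.lf (nat_lit 0) (nat_lit 8826068036) (nat_lit 304) (nat_lit 17577447106) (nat_lit 76) (nat_lit 32030400092) (nat_lit 81) (nat_lit 5) (nat_lit 85) (nat_lit 5) (nat_lit 82) (nat_lit 5) (nat_lit 467) (nat_lit 439) (nat_lit 294)) (XT.lf (nat_lit 0) (nat_lit 16475992900) (nat_lit 228) (nat_lit 3789596746) (nat_lit 304) (nat_lit 39941791848) (nat_lit 78) (nat_lit 5) (nat_lit 81) (nat_lit 5) (nat_lit 82) (nat_lit 5) (nat_lit 468) (nat_lit 439) (nat_lit 293)))) (XT.nd (nat_lit 156) (nat_lit 228) (nat_lit 0) (XT.nd (nat_lit 78) (nat_lit 228) (nat_lit 0) (XT.lf (nat_lit 0) (nat_lit 32889290280) (nat_lit 304) (nat_lit 9531504515) (nat_lit 76) (nat_lit 19618116600) (nat_lit 78) (nat_lit 5) (nat_lit 82) (nat_lit 5) (nat_lit 79) (nat_lit 5) (nat_lit 469) (nat_lit 439)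 (nat_lit 292)) (XT.lf (nat_lit 0) (nat_lit 27183640281) (nat_lit 228) (nat_lit 19445250702) (nat_lit 304) (nat_lit 17308891505) (nat_lit 75) (nat_lit 5) (nat_lit 78) (nat_lit 5) (nat_lit 79) (nat_lit 5) (nat_lit 470) (nat_lit 439) (nat_lit 291))) (XT.nd (nat_lit 78) (nat_lit 76) (nat_lit 0) (XT.lf (nat_lit 0) (nat_lit 65641241) (nat_lit 152) (nat_lit 61226186244) (nat_lit 228) (nat_lit 4627952294) (nat_lit 73) (nat_lit 5) (nat_lit 75) (nat_lit 5) (nat_lit 76) (nat_lit 5) (nat_lit 471) (nat_lit 439) (nat_lit 290)) (XT.lf (nat_lit 0) (nat_lit 9358647942) (nat_lit 228) (nat_lit 28434631685) (nat_lit 76) (nat_lit 30153333577) (nat_lit 72) (nat_lit 5) (nat_lit 75) (nat_lit 5) (nat_lit 73) (nat_lit 5) (nat_lit 472) (nat_lit 439) (nat_lit 289))))) (XT.nd (nat_lit 234) (nat_lit 380) (nat_lit 0) (XT.nd (nat_lit 78) (nat_lit 152) (nat_lit 0) (XT.lf (nat_lit 0) (nat_lit 11133756692) (nat_lit 228) (nat_lit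 12927431126) (nat_lit 304) (nat_lit 46001200492) (nat_lit 69) (nat_lit 5) (nat_lit 72) (nat_lit 5) (nat_lit 73) (nat_lit 5) (nat_lit 473) (nat_lit 439) (nat_lit 288)) (XT.nd (nat_lit 78) (nat_lit 152) (nat_lit 0) (XT.lf (nat_lit 0) (nat_lit 40192443826) (nat_lit 304) (nat_lit 18808424472) (nat_lit 76) (nat_lit 13248404770) (nat_lit 69) (nat_lit 5) (nat_lit 73) (nat_lit 5) (nat_lit 70) (nat_lit 5) (nat_lit 474) (nat_lit 439) (nat_lit 287)) (XT.lf (nat_lit 0) (nat_lit 23867291315) (nat_lit 152) (nat_lit 33845948036) (nat_lit 228) (nat_lit 16803114213) (nat_lit 67) (nat_lit 5) (nat_lit 69) (nat_lit 5) (nat_lit 70) (nat_lit 5) (nat_lit 475) (nat_lit 439) (nat_lit 286)))) (XT.nd (nat_lit 156) (nat_lit 152) (nat_lit 0) (XT.nd (nat_lit 78) (nat_lit 228) (nat_lit 0) (XT.lf (nat_lit 0) (nat_lit 69327339909) (nat_lit 152) (nat_lit 7099718157) (nat_lit 228) (nat_lit 453881168) (nat_lit 67) (nat_lit 5)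 (nat_lit 69) (nat_lit 5) (nat_lit 70) (nat_lit 5) (nat_lit 476) (nat_lit 439) (nat_lit 285)) (XT.lf (nat_lit 0) (nat_lit 17121943338) (nat_lit 228) (nat_lit 40991327278) (nat_lit 76) (nat_lit 21190234958) (nat_lit 64) (nat_lit 5) (nat_lit 67) (nat_lit 5) (nat_lit 65) (nat_lit 5) (nat_lit 477) (nat_lit 439) (nat_lit 284))) (XT.nd (nat_lit 78) (nat_lit 0) (nat_lit 0) (XT.lf (nat_lit 0) (nat_lit 4921895283) (nat_lit 152) (nat_lit 30961188851) (nat_lit 228) (nat_lit 45947655419) (nat_lit 62) (nat_lit 5) (nat_lit 64) (nat_lit 5) (nat_lit 65) (nat_lit 5) (nat_lit 478) (nat_lit 439) (nat_lit 283)) (XT.lf (nat_lit 0) (nat_lit 54551549744) (nat_lit 152) (nat_lit 1723497767) (nat_lit 228) (nat_lit 28174649705) (nat_lit 62) (nat_lit 5) (nat_lit 64) (nat_lit 5) (nat_lit 65) (nat_lit 5) (nat_lit 479) (nat_lit 439) (nat_lit 282)))))) (XT.nd (nat_lit 546) (nat_lit 760) (nat_lit 0) (XT.nd (nat_lit 234) (nat_lit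 380) (nat_lit 0) (XT.nd (nat_lit 78) (nat_lit 228) (nat_lit 0) (XT.lf (nat_lit 0) (nat_lit 19636890781) (nat_lit 152) (nat_lit 58807315643) (nat_lit 228) (nat_lit 8717516721) (nat_lit 60) (nat_lit 5) (nat_lit 62) (nat_lit 5) (nat_lit 63) (nat_lit 5) (nat_lit 480) (nat_lit 439) (nat_lit 281)) (XT.nd (nat_lit 78) (nat_lit 152) (nat_lit 0) (XT.lf (nat_lit 0) (nat_lit 11879115907) (nat_lit 228) (nat_lit 17519083003) (nat_lit 76) (nat_lit 60574932698) (nat_lit 59) (nat_lit 5) (nat_lit 62) (nat_lit 5) (nat_lit 60) (nat_lit 5) (nat_lit 481) (nat_lit 439) (nat_lit 280)) (XT.lf (nat_lit 0) (nat_lit 33807936262) (nat_lit 228) (nat_lit 56930727645) (nat_lit 76) (nat_lit 2149535207) (nat_lit 57) (nat_lit 5) (nat_lit 60) (nat_lit 5) (nat_lit 58) (nat_lit 5) (nat_lit 482) (nat_lit 439) (nat_lit 279)))) (XT.nd (nat_lit 156) (nat_lit 228) (nat_lit 0) (XT.nd (nat_lit 78) (nat_lit 152) (nat_lit 0) (XT.lf (nat_lit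 0) (nat_lit 57615395029) (nat_lit 228) (nat_lit 3707123044) (nat_lit 76) (nat_lit 34587392261) (nat_lit 57) (nat_lit 5) (nat_lit 60) (nat_lit 5) (nat_lit 58) (nat_lit 5) (nat_lit 483) (nat_lit 439) (nat_lit 278)) (XT.lf (nat_lit 0) (nat_lit 53900713720) (nat_lit 152) (nat_lit 29552817753) (nat_lit 228) (nat_lit 15587160599) (nat_lit 55) (nat_lit 5) (nat_lit 57) (nat_lit 5) (nat_lit 58) (nat_lit 5) (nat_lit 484) (nat_lit 439) (nat_lit 277))) (XT.nd (nat_lit 78) (nat_lit 0) (nat_lit 0) (XT.lf (nat_lit 0) (nat_lit 8314188165) (nat_lit 228) (nat_lit 89914941903) (nat_lit 76) (nat_lit 4076295593) (nat_lit 52) (nat_lit 5) (nat_lit 55) (nat_lit 5) (nat_lit 53) (nat_lit 5) (nat_lit 485) (nat_lit 439) (nat_lit 276)) (XT.lf (nat_lit 0) (nat_lit 34147028050) (nat_lit 228) (nat_lit 32085204317) (nat_lit 76) (nat_lit 39425374645) (nat_lit 52) (nat_lit 5) (nat_lit 55) (nat_lit 5) (nat_lit 53) (nat_lit 5)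 (nat_lit 486) (nat_lit 439) (nat_lit 275))))) (XT.nd (nat_lit 312) (nat_lit 456) (nat_lit 0) (XT.nd (nat_lit 156) (nat_lit 152) (nat_lit 0) (XT.nd (nat_lit 78) (nat_lit 0) (nat_lit 0) (XT.lf (nat_lit 0) (nat_lit 29580763649) (nat_lit 152) (nat_lit 32151425320) (nat_lit 228) (nat_lit 47422174674) (nat_lit 50) (nat_lit 5) (nat_lit 52) (nat_lit 5) (nat_lit 53) (nat_lit 5) (nat_lit 487) (nat_lit 439) (nat_lit 274)) (XT.lf (nat_lit 0) (nat_lit 91304473272) (nat_lit 228) (nat_lit 17422505607) (nat_lit 76) (nat_lit 4068586112) (nat_lit 50) (nat_lit 5) (nat_lit 53) (nat_lit 5) (nat_lit 51) (nat_lit 4) (nat_lit 488) (nat_lit 439) (nat_lit 273))) (XT.nd (nat_lit 78) (nat_lit 0) (nat_lit 0) (XT.lf (nat_lit 0) (nat_lit 6863067689) (nat_lit 152) (nat_lit 67793752561) (nat_lit 76) (nat_lit 41892021739) (nat_lit 48) (nat_lit 5) (nat_lit 50) (nat_lit 5) (nat_lit 49) (nat_lit 5) (nat_lit 489) (nat_lit 439)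 (nat_lit 272)) (XT.lf (nat_lit 0) (nat_lit 36211499493) (nat_lit 152) (nat_lit 1987690081) (nat_lit 76) (nat_lit 82258037447) (nat_lit 48) (nat_lit 5) (nat_lit 50) (nat_lit 5) (nat_lit 49) (nat_lit 5) (nat_lit 490) (nat_lit 439) (nat_lit 271)))) (XT.nd (nat_lit 156) (nat_lit 228) (nat_lit 0) (XT.nd (nat_lit 78) (nat_lit 76) (nat_lit 0) (XT.lf (nat_lit 0) (nat_lit 68127684041) (nat_lit 228) (nat_lit 55200287277) (nat_lit 76) (nat_lit 1178043555) (nat_lit 46) (nat_lit 5) (nat_lit 49) (nat_lit 5) (nat_lit 47) (nat_lit 4) (nat_lit 491) (nat_lit 439) (nat_lit 270)) (XT.lf (nat_lit 0) (nat_lit 15339599842) (nat_lit 76) (nat_lit 87198973396) (nat_lit 152) (nat_lit 26173724227) (nat_lit 45) (nat_lit 5) (nat_lit 46) (nat_lit 5) (nat_lit 47) (nat_lit 4) (nat_lit 492) (nat_lit 439) (nat_lit 269))) (XT.nd (nat_lit 78) (nat_lit 152) (nat_lit 0) (XT.lf (nat_lit 0) (nat_lit 6312905882) (nat_lit 152) (nat_lit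 41862943337) (nat_lit 76) (nat_lit 84901262296) (nat_lit 44) (nat_lit 5) (nat_lit 46) (nat_lit 5) (nat_lit 45) (nat_lit 5) (nat_lit 493) (nat_lit 439) (nat_lit 268)) (XT.lf (nat_lit 0) (nat_lit 33875678909) (nat_lit 152) (nat_lit 6196497448) (nat_lit 228) (nat_lit 97540140259) (nat_lit 42) (nat_lit 5) (nat_lit 44) (nat_lit 5) (nat_lit 45) (nat_lit 5) (nat_lit 494) (nat_lit 439) (nat_lit 267))))))))
noncomputable def xc180 : XT := (XT.nd (nat_lit 2184) (nat_lit 684) (nat_lit 0) (XT.nd (nat_lit 1092) (nat_lit 760) (nat_lit 0) (XT.nd (nat_lit 546) (nat_lit 304) (nat_lit 0) (XT.nd (nat_lit 234) (nat_lit 380) (nat_lit 0) (XT.nd (nat_lit 78) (nat_lit 152) (nat_lit 0) (XT.lf (nat_lit 0) (nat_lit 76830473656) (nat_lit 228) (nat_lit 28089060827) (nat_lit 76) (nat_lit 37389194425) (nat_lit 42) (nat_lit 5) (nat_lit 45) (nat_lit 5) (nat_lit 43) (nat_lit 4) (nat_lit 495) (nat_lit 439) (nat_lit 266)) (XT.nd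 (nat_lit 78) (nat_lit 76) (nat_lit 0) (XT.lf (nat_lit 0) (nat_lit 52931762218) (nat_lit 76) (nat_lit 63421995101) (nat_lit 152) (nat_lit 30839851015) (nat_lit 41) (nat_lit 5) (nat_lit 42) (nat_lit 5) (nat_lit 43) (nat_lit 4) (nat_lit 496) (nat_lit 439) (nat_lit 265)) (XT.lf (nat_lit 0) (nat_lit 5836043365) (nat_lit 152) (nat_lit 13415976892) (nat_lit 76) (nat_lit 133042265269) (nat_lit 40) (nat_lit 5) (nat_lit 42) (nat_lit 5) (nat_lit 41) (nat_lit 5) (nat_lit 497) (nat_lit 439) (nat_lit 264)))) (XT.nd (nat_lit 156) (nat_lit 152) (nat_lit 0) (XT.nd (nat_lit 78) (nat_lit 76) (nat_lit 0) (XT.lf (nat_lit 0) (nat_lit 44903591452) (nat_lit 228) (nat_lit 84706674574) (nat_lit 76) (nat_lit 27934738056) (nat_lit 38) (nat_lit 5) (nat_lit 41) (nat_lit 5) (nat_lit 39) (nat_lit 4) (nat_lit 498) (nat_lit 439) (nat_lit 263)) (XT.lf (nat_lit 0) (nat_lit 519908788) (nat_lit 76) (nat_lit 85958391669) (nat_lit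 152) (nat_lit 76552269012) (nat_lit 37) (nat_lit 5) (nat_lit 38) (nat_lit 5) (nat_lit 39) (nat_lit 4) (nat_lit 499) (nat_lit 439) (nat_lit 262))) (XT.nd (nat_lit 78) (nat_lit 152) (nat_lit 0) (XT.lf (nat_lit 0) (nat_lit 92947046653) (nat_lit 76) (nat_lit 38618391948) (nat_lit 152) (nat_lit 37153289913) (nat_lit 37) (nat_lit 5) (nat_lit 38) (nat_lit 5) (nat_lit 39) (nat_lit 4) (nat_lit 500) (nat_lit 439) (nat_lit 261)) (XT.lf (nat_lit 0) (nat_lit 4503860670) (nat_lit 152) (nat_lit 159113301439) (nat_lit 76) (nat_lit 11049685109) (nat_lit 35) (nat_lit 5) (nat_lit 37) (nat_lit 5) (nat_lit 36) (nat_lit 4) (nat_lit 501) (nat_lit 439) (nat_lit 260))))) (XT.nd (nat_lit 234) (nat_lit 228) (nat_lit 0) (XT.nd (nat_lit 78) (nat_lit 76) (nat_lit 0) (XT.lf (nat_lit 0) (nat_lit 48931806573) (nat_lit 152) (nat_lit 68037304061) (nat_lit 76) (nat_lit 63815981174) (nat_lit 35) (nat_lit 5) (nat_lit 37) (nat_lit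 5) (nat_lit 36) (nat_lit 4) (nat_lit 502) (nat_lit 439) (nat_lit 259)) (XT.nd (nat_lit 78) (nat_lit 0) (nat_lit 0) (XT.lf (nat_lit 0) (nat_lit 28503295771) (nat_lit 76) (nat_lit 67522086434) (nat_lit 152) (nat_lit 91161654862) (nat_lit 34) (nat_lit 5) (nat_lit 35) (nat_lit 5) (nat_lit 36) (nat_lit 4) (nat_lit 503) (nat_lit 439) (nat_lit 258)) (XT.lf (nat_lit 0) (nat_lit 132231570160) (nat_lit 76) (nat_lit 14393541811) (nat_lit 152) (nat_lit 47226393908) (nat_lit 34) (nat_lit 5) (nat_lit 35) (nat_lit 5) (nat_lit 36) (nat_lit 4) (nat_lit 504) (nat_lit 439) (nat_lit 257)))) (XT.nd (nat_lit 156) (nat_lit 76) (nat_lit 0) (XT.nd (nat_lit 78) (nat_lit 0) (nat_lit 0) (XT.lf (nat_lit 0) (nat_lit 246722212) (nat_lit 152) (nat_lit 159828529199) (nat_lit 76) (nat_lit 40709497809) (nat_lit 32) (nat_lit 5) (nat_lit 34) (nat_lit 5) (nat_lit 33) (nat_lit 4) (nat_lit 505) (nat_lit 439) (nat_lit 256)) (XT.lf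 (nat_lit 0) (nat_lit 49802267092) (nat_lit 152) (nat_lit 58240674294) (nat_lit 76) (nat_lit 99918208761) (nat_lit 32) (nat_lit 5) (nat_lit 34) (nat_lit 5) (nat_lit 33) (nat_lit 4) (nat_lit 506) (nat_lit 439) (nat_lit 255))) (XT.nd (nat_lit 78) (nat_lit 0) (nat_lit 0) (XT.lf (nat_lit 0) (nat_lit 50026381573) (nat_lit 76) (nat_lit 52589553700) (nat_lit 152) (nat_lit 112841418592) (nat_lit 31) (nat_lit 5) (nat_lit 32) (nat_lit 5) (nat_lit 33) (nat_lit 4) (nat_lit 507) (nat_lit 439) (nat_lit 254)) (XT.lf (nat_lit 0) (nat_lit 159160088941) (nat_lit 152) (nat_lit 57655798629) (nat_lit 0) (nat_lit 6457990140) (nat_lit 31) (nat_lit 5) (nat_lit 33) (nat_lit 4) (nat_lit 31) (nat_lit 4) (nat_lit 508) (nat_lit 439) (nat_lit 253)))))) (XT.nd (nat_lit 546) (nat_lit 304) (nat_lit 0) (XT.nd (nat_lit 234) (nat_lit 228) (nat_lit 0) (XT.nd (nat_lit 78) (nat_lit 152) (nat_lit 0) (XT.lf (nat_lit 0) (nat_lit 56451524087)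 (nat_lit 76) (nat_lit 163822747059) (nat_lit 76) (nat_lit 11119815602) (nat_lit 30) (nat_lit 4) (nat_lit 31) (nat_lit 5) (nat_lit 31) (nat_lit 4) (nat_lit 509) (nat_lit 439) (nat_lit 252)) (XT.nd (nat_lit 78) (nat_lit 76) (nat_lit 0) (XT.lf (nat_lit 0) (nat_lit 44090582465) (nat_lit 152) (nat_lit 62318030410) (nat_lit 76) (nat_lit 133427347909) (nat_lit 29) (nat_lit 5) (nat_lit 31) (nat_lit 5) (nat_lit 30) (nat_lit 4) (nat_lit 510) (nat_lit 439) (nat_lit 251)) (XT.lf (nat_lit 0) (nat_lit 57597695215) (nat_lit 76) (nat_lit 44988731576) (nat_lit 152) (nat_lit 146059455911) (nat_lit 28) (nat_lit 5) (nat_lit 29) (nat_lit 5) (nat_lit 30) (nat_lit 4) (nat_lit 511) (nat_lit 439) (nat_lit 250)))) (XT.nd (nat_lit 156) (nat_lit 152) (nat_lit 0) (XT.nd (nat_lit 78) (nat_lit 76) (nat_lit 0) (XT.lf (nat_lit 0) (nat_lit 165383599859) (nat_lit 152) (nat_lit 72493797052) (nat_lit 0) (nat_lit 19950077014) (nat_lit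 28) (nat_lit 5) (nat_lit 30) (nat_lit 4) (nat_lit 28) (nat_lit 4) (nat_lit 512) (nat_lit 439) (nat_lit 249)) (XT.lf (nat_lit 0) (nat_lit 52944165681) (nat_lit 76) (nat_lit 179939989078) (nat_lit 76) (nat_lit 34505813825) (nat_lit 27) (nat_lit 4) (nat_lit 28) (nat_lit 5) (nat_lit 28) (nat_lit 4) (nat_lit 513) (nat_lit 439) (nat_lit 248))) (XT.nd (nat_lit 78) (nat_lit 76) (nat_lit 0) (XT.lf (nat_lit 0) (nat_lit 26733693464) (nat_lit 152) (nat_lit 90630724992) (nat_lit 76) (nat_lit 159983253900) (nat_lit 26) (nat_lit 5) (nat_lit 28) (nat_lit 5) (nat_lit 27) (nat_lit 4) (nat_lit 514) (nat_lit 439) (nat_lit 247)) (XT.lf (nat_lit 0) (nat_lit 40091499868) (nat_lit 76) (nat_lit 50409421212) (nat_lit 152) (nat_lit 197242788481) (nat_lit 25) (nat_lit 5) (nat_lit 26) (nat_lit 5) (nat_lit 27) (nat_lit 4) (nat_lit 515) (nat_lit 439) (nat_lit 246))))) (XT.nd (nat_lit 234) (nat_lit 228) (nat_lit 0) (XT.nd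 (nat_lit 78) (nat_lit 76) (nat_lit 0) (XT.lf (nat_lit 0) (nat_lit 159326565469) (nat_lit 152) (nat_lit 118423345350) (nat_lit 0) (nat_lit 20816135067) (nat_lit 25) (nat_lit 5) (nat_lit 27) (nat_lit 4) (nat_lit 25) (nat_lit 4) (nat_lit 516) (nat_lit 439) (nat_lit 245)) (XT.nd (nat_lit 78) (nat_lit 0) (nat_lit 0) (XT.lf (nat_lit 0) (nat_lit 16983077938) (nat_lit 76) (nat_lit 215701406538) (nat_lit 76) (nat_lit 77190464957) (nat_lit 24) (nat_lit 4) (nat_lit 25) (nat_lit 5) (nat_lit 25) (nat_lit 4) (nat_lit 517) (nat_lit 439) (nat_lit 244)) (XT.lf (nat_lit 0) (nat_lit 163270165835) (nat_lit 76) (nat_lit 148445154851) (nat_lit 76) (nat_lit 9933726434) (nat_lit 24) (nat_lit 4) (nat_lit 25) (nat_lit 5) (nat_lit 25) (nat_lit 4) (nat_lit 518) (nat_lit 439) (nat_lit 243)))) (XT.nd (nat_lit 156) (nat_lit 76) (nat_lit 0) (XT.nd (nat_lit 78) (nat_lit 76) (nat_lit 0) (XT.lf (nat_lit 0) (nat_lit 58743004567)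 (nat_lit 152) (nat_lit 18088732708) (nat_lit 76) (nat_lit 257132764545) (nat_lit 23) (nat_lit 5) (nat_lit 25) (nat_lit 5) (nat_lit 24) (nat_lit 4) (nat_lit 519) (nat_lit 439) (nat_lit 242)) (XT.lf (nat_lit 0) (nat_lit 132611942467) (nat_lit 152) (nat_lit 213475599744) (nat_lit 0) (nat_lit 695434232) (nat_lit 22) (nat_lit 5) (nat_lit 24) (nat_lit 4) (nat_lit 22) (nat_lit 4) (nat_lit 520) (nat_lit 439) (nat_lit 241))) (XT.nd (nat_lit 78) (nat_lit 76) (nat_lit 0) (XT.lf (nat_lit 0) (nat_lit 211744735143) (nat_lit 152) (nat_lit 68591292897) (nat_lit 0) (nat_lit 79827826385) (nat_lit 22) (nat_lit 5) (nat_lit 24) (nat_lit 4) (nat_lit 22) (nat_lit 4) (nat_lit 521) (nat_lit 439) (nat_lit 240)) (XT.lf (nat_lit 0) (nat_lit 86298394932) (nat_lit 76) (nat_lit 209882663525) (nat_lit 76) (nat_lit 77965373318) (nat_lit 21) (nat_lit 4) (nat_lit 22) (nat_lit 5) (nat_lit 22) (nat_lit 4) (nat_lit 522) (nat_lit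 439) (nat_lit 239))))))) (XT.nd (nat_lit 1092) (nat_lit 76) (nat_lit 0) (XT.nd (nat_lit 546) (nat_lit 304) (nat_lit 0) (XT.nd (nat_lit 234) (nat_lit 152) (nat_lit 0) (XT.nd (nat_lit 78) (nat_lit 152) (nat_lit 0) (XT.lf (nat_lit 0) (nat_lit 251312994891) (nat_lit 76) (nat_lit 134687369154) (nat_lit 76) (nat_lit 2769715662) (nat_lit 21) (nat_lit 4) (nat_lit 22) (nat_lit 5) (nat_lit 22) (nat_lit 4) (nat_lit 523) (nat_lit 439) (nat_lit 238)) (XT.nd (nat_lit 78) (nat_lit 0) (nat_lit 0) (XT.lf (nat_lit 0) (nat_lit 19899987372) (nat_lit 76) (nat_lit 54157567188) (nat_lit 152) (nat_lit 329992369424) (nat_lit 19) (nat_lit 5) (nat_lit 20) (nat_lit 5) (nat_lit 21) (nat_lit 4) (nat_lit 524) (nat_lit 439) (nat_lit 237)) (XT.lf (nat_lit 0) (nat_lit 157473336728) (nat_lit 152) (nat_lit 230639309124) (nat_lit 0) (nat_lit 31836832930) (nat_lit 19) (nat_lit 5) (nat_lit 21) (nat_lit 4) (nat_lit 19) (nat_lit 4)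 (nat_lit 525) (nat_lit 439) (nat_lit 236)))) (XT.nd (nat_lit 156) (nat_lit 76) (nat_lit 0) (XT.nd (nat_lit 78) (nat_lit 76) (nat_lit 0) (XT.lf (nat_lit 0) (nat_lit 245947313335) (nat_lit 152) (nat_lit 70341817072) (nat_lit 0) (nat_lit 120310510661) (nat_lit 19) (nat_lit 5) (nat_lit 21) (nat_lit 4) (nat_lit 19) (nat_lit 4) (nat_lit 526) (nat_lit 439) (nat_lit 235)) (XT.lf (nat_lit 0) (nat_lit 101209074069) (nat_lit 76) (nat_lit 239215668520) (nat_lit 76) (nat_lit 113578581203) (nat_lit 18) (nat_lit 4) (nat_lit 19) (nat_lit 5) (nat_lit 19) (nat_lit 4) (nat_lit 527) (nat_lit 439) (nat_lit 234))) (XT.nd (nat_lit 78) (nat_lit 76) (nat_lit 0) (XT.lf (nat_lit 0) (nat_lit 283778833746) (nat_lit 76) (nat_lit 157038085759) (nat_lit 76) (nat_lit 31400727352) (nat_lit 18) (nat_lit 4) (nat_lit 19) (nat_lit 5) (nat_lit 19) (nat_lit 4) (nat_lit 528) (nat_lit 439) (nat_lit 233)) (XT.lf (nat_lit 0) (nat_lit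 53128939973) (nat_lit 152) (nat_lit 16723289640) (nat_lit 76) (nat_lit 421447629437) (nat_lit 17) (nat_lit 5) (nat_lit 19) (nat_lit 5) (nat_lit 18) (nat_lit 4) (nat_lit 529) (nat_lit 439) (nat_lit 232))))) (XT.nd (nat_lit 234) (nat_lit 152) (nat_lit 0) (XT.nd (nat_lit 78) (nat_lit 76) (nat_lit 0) (XT.lf (nat_lit 0) (nat_lit 143849731280) (nat_lit 152) (nat_lit 343115092573) (nat_lit 0) (nat_lit 24194624164) (nat_lit 16) (nat_lit 5) (nat_lit 18) (nat_lit 4) (nat_lit 16) (nat_lit 4) (nat_lit 530) (nat_lit 439) (nat_lit 231)) (XT.nd (nat_lit 78) (nat_lit 76) (nat_lit 0) (XT.lf (nat_lit 0) (nat_lit 240539175788) (nat_lit 152) (nat_lit 170517364327) (nat_lit 0) (nat_lit 120883845646) (nat_lit 16) (nat_lit 5) (nat_lit 18) (nat_lit 4) (nat_lit 16) (nat_lit 4) (nat_lit 531) (nat_lit 439) (nat_lit 230)) (XT.lf (nat_lit 0) (nat_lit 11063666302) (nat_lit 76) (nat_lit 331171813639) (nat_lit 76) (nat_lit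 211516271092) (nat_lit 15) (nat_lit 4) (nat_lit 16) (nat_lit 5) (nat_lit 16) (nat_lit 4) (nat_lit 532) (nat_lit 439) (nat_lit 229)))) (XT.nd (nat_lit 156) (nat_lit 152) (nat_lit 0) (XT.nd (nat_lit 78) (nat_lit 0) (nat_lit 0) (XT.lf (nat_lit 0) (nat_lit 207643047008) (nat_lit 76) (nat_lit 244261004890) (nat_lit 76) (nat_lit 124605260052) (nat_lit 15) (nat_lit 4) (nat_lit 16) (nat_lit 5) (nat_lit 16) (nat_lit 4) (nat_lit 533) (nat_lit 439) (nat_lit 228)) (XT.lf (nat_lit 0) (nat_lit 414050749790) (nat_lit 76) (nat_lit 153004977444) (nat_lit 76) (nat_lit 33349039948) (nat_lit 15) (nat_lit 4) (nat_lit 16) (nat_lit 5) (nat_lit 16) (nat_lit 4) (nat_lit 534) (nat_lit 439) (nat_lit 227))) (XT.nd (nat_lit 78) (nat_lit 0) (nat_lit 0) (XT.lf (nat_lit 0) (nat_lit 4450322441) (nat_lit 76) (nat_lit 56089406056) (nat_lit 152) (nat_lit 564903041747) (nat_lit 13) (nat_lit 5) (nat_lit 14) (nat_lit 5) (nat_lit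 15) (nat_lit 4) (nat_lit 535) (nat_lit 439) (nat_lit 226)) (XT.lf (nat_lit 0) (nat_lit 161922674824) (nat_lit 152) (nat_lit 441622341130) (nat_lit 0) (nat_lit 47964297942) (nat_lit 13) (nat_lit 5) (nat_lit 15) (nat_lit 4) (nat_lit 13) (nat_lit 4) (nat_lit 536) (nat_lit 439) (nat_lit 225)))))) (XT.nd (nat_lit 55146) (nat_lit 0) (nat_lit 8664) (XT.nd (nat_lit 234) (nat_lit 0) (nat_lit 0) (XT.nd (nat_lit 78) (nat_lit 76) (nat_lit 0) (XT.lf (nat_lit 0) (nat_lit 269293967646) (nat_lit 152) (nat_lit 254203824870) (nat_lit 0) (nat_lit 155335432264) (nat_lit 13) (nat_lit 5) (nat_lit 15) (nat_lit 4) (nat_lit 13) (nat_lit 4) (nat_lit 537) (nat_lit 439) (nat_lit 224)) (XT.nd (nat_lit 78) (nat_lit 76) (nat_lit 0) (XT.lf (nat_lit 0) (nat_lit 382033540080) (nat_lit 152) (nat_lit 57414951642) (nat_lit 0) (nat_lit 268074853745) (nat_lit 13) (nat_lit 5) (nat_lit 15) (nat_lit 4) (nat_lit 13) (nat_lit 4) (nat_lit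 538) (nat_lit 439) (nat_lit 223)) (XT.lf (nat_lit 0) (nat_lit 154146473299) (nat_lit 76) (nat_lit 348670004823) (nat_lit 76) (nat_lit 234711174724) (nat_lit 12) (nat_lit 4) (nat_lit 13) (nat_lit 5) (nat_lit 13) (nat_lit 4) (nat_lit 539) (nat_lit 439) (nat_lit 222)))) (XT.nd (nat_lit 54756) (nat_lit 0) (nat_lit 8588) (XT.nd (nat_lit 54678) (nat_lit 0) (nat_lit 8588) (XT.lf (nat_lit 0) (nat_lit 378278753944) (nat_lit 76) (nat_lit 252331892259) (nat_lit 76) (nat_lit 138372925242) (nat_lit 12) (nat_lit 4) (nat_lit 13) (nat_lit 5) (nat_lit 13) (nat_lit 4) (nat_lit 540) (nat_lit 439) (nat_lit 221)) (XT.lf (nat_lit 0) (nat_lit 4246605850) (nat_lit 836) (nat_lit 5043115752) (nat_lit 836) (nat_lit 5043115752) (nat_lit 125) (nat_lit 3) (nat_lit 136) (nat_lit 3) (nat_lit 136) (nat_lit 5) (nat_lit 440) (nat_lit 440) (nat_lit 320))) (XT.nd (nat_lit 78) (nat_lit 0) (nat_lit 76) (XT.lf (nat_lit 76) (nat_lit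 4087814581) (nat_lit 0) (nat_lit 4759746990) (nat_lit 836) (nat_lit 20527623605) (nat_lit 126) (nat_lit 5) (nat_lit 125) (nat_lit 3) (nat_lit 136) (nat_lit 5) (nat_lit 441) (nat_lit 440) (nat_lit 319)) (XT.lf (nat_lit 0) (nat_lit 9540472207) (nat_lit 760) (nat_lit 10948942506) (nat_lit 836) (nat_lit 9614716235) (nat_lit 126) (nat_lit 5) (nat_lit 136) (nat_lit 5) (nat_lit 137) (nat_lit 5) (nat_lit 442) (nat_lit 440) (nat_lit 318))))) (XT.nd (nat_lit 234) (nat_lit 0) (nat_lit 152) (XT.nd (nat_lit 78) (nat_lit 0) (nat_lit 76) (XT.lf (nat_lit 76) (nat_lit 4158616622) (nat_lit 0) (nat_lit 6247595101) (nat_lit 836) (nat_lit 20456404971) (nat_lit 127) (nat_lit 5) (nat_lit 126) (nat_lit 5) (nat_lit 137) (nat_lit 5) (nat_lit 443) (nat_lit 440) (nat_lit 317)) (XT.nd (nat_lit 78) (nat_lit 0) (nat_lit 0) (XT.lf (nat_lit 0) (nat_lit 11635071626) (nat_lit 760) (nat_lit 11390125095) (nat_lit 836) (nat_lit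 8617840104) (nat_lit 127) (nat_lit 5) (nat_lit 137) (nat_lit 5) (nat_lit 138) (nat_lit 5) (nat_lit 444) (nat_lit 440) (nat_lit 316)) (XT.lf (nat_lit 76) (nat_lit 4735665219) (nat_lit 0) (nat_lit 8361721161) (nat_lit 836) (nat_lit 19356492673) (nat_lit 128) (nat_lit 5) (nat_lit 127) (nat_lit 5) (nat_lit 138) (nat_lit 5) (nat_lit 445) (nat_lit 440) (nat_lit 315)))) (XT.nd (nat_lit 156) (nat_lit 0) (nat_lit 76) (XT.nd (nat_lit 78) (nat_lit 0) (nat_lit 0) (XT.lf (nat_lit 0) (nat_lit 14934548798) (nat_lit 760) (nat_lit 11348544726) (nat_lit 836) (nat_lit 7007084873) (nat_lit 128) (nat_lit 5) (nat_lit 138) (nat_lit 5) (nat_lit 139) (nat_lit 5) (nat_lit 446) (nat_lit 440) (nat_lit 314)) (XT.lf (nat_lit 76) (nat_lit 5888018591) (nat_lit 0) (nat_lit 11200592280) (nat_lit 836) (nat_lit 17068431287) (nat_lit 129) (nat_lit 5) (nat_lit 128) (nat_lit 5) (nat_lit 139) (nat_lit 5) (nat_lit 447) (nat_lit 440)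 (nat_lit 313))) (XT.nd (nat_lit 78) (nat_lit 0) (nat_lit 0) (XT.lf (nat_lit 0) (nat_lit 19614294342) (nat_lit 760) (nat_lit 10755889729) (nat_lit 836) (nat_lit 4683870574) (nat_lit 129) (nat_lit 5) (nat_lit 139) (nat_lit 5) (nat_lit 140) (nat_lit 5) (nat_lit 448) (nat_lit 440) (nat_lit 312)) (XT.lf (nat_lit 76) (nat_lit 7692517902) (nat_lit 0) (nat_lit 14873836405) (nat_lit 836) (nat_lit 13414560218) (nat_lit 130) (nat_lit 5) (nat_lit 129) (nat_lit 5) (nat_lit 140) (nat_lit 5) (nat_lit 449) (nat_lit 440) (nat_lit 311))))))))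
noncomputable def xc181 : XT := (XT.nd (nat_lit 2184) (nat_lit 2660) (nat_lit 0) (XT.nd (nat_lit 1092) (nat_lit 1900) (nat_lit 0) (XT.nd (nat_lit 546) (nat_lit 1292) (nat_lit 0) (XT.nd (nat_lit 234) (nat_lit 836) (nat_lit 0) (XT.nd (nat_lit 78) (nat_lit 760) (nat_lit 0) (XT.lf (nat_lit 0) (nat_lit 25869486016) (nat_lit 760) (nat_lit 9536158290) (nat_lit 76) (nat_lit 1538300973) (nat_lit 130) (nat_lit 5) (nat_lit 140) (nat_lit 5) (nat_lit 131) (nat_lit 5) (nat_lit 450) (nat_lit 440) (nat_lit 310)) (XT.nd (nat_lit 78) (nat_lit 0) (nat_lit 0) (XT.lf (nat_lit 0) (nat_lit 10234461017) (nat_lit 760) (nat_lit 19503611642) (nat_lit 836) (nat_lit 8197041250) (nat_lit 120) (nat_lit 5) (nat_lit 130) (nat_lit 5) (nat_lit 131) (nat_lit 5) (nat_lit 451) (nat_lit 440) (nat_lit 309)) (XT.lf (nat_lit 0) (nat_lit 31321768758) (nat_lit 760) (nat_lit 2636608415) (nat_lit 836) (nat_lit 5009550567) (nat_lit 120)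 (nat_lit 5) (nat_lit 130) (nat_lit 5) (nat_lit 131) (nat_lit 5) (nat_lit 452) (nat_lit 440) (nat_lit 308)))) (XT.nd (nat_lit 156) (nat_lit 380) (nat_lit 0) (XT.nd (nat_lit 78) (nat_lit 76) (nat_lit 0) (XT.lf (nat_lit 0) (nat_lit 13608331868) (nat_lit 380) (nat_lit 25226119009) (nat_lit 456) (nat_lit 1195694825) (nat_lit 115) (nat_lit 5) (nat_lit 120) (nat_lit 5) (nat_lit 121) (nat_lit 5) (nat_lit 453) (nat_lit 440) (nat_lit 307)) (XT.lf (nat_lit 0) (nat_lit 2890787353) (nat_lit 456) (nat_lit 5040184255) (nat_lit 76) (nat_lit 33203719559) (nat_lit 114) (nat_lit 5) (nat_lit 120) (nat_lit 5) (nat_lit 115) (nat_lit 5) (nat_lit 454) (nat_lit 440) (nat_lit 306))) (XT.nd (nat_lit 78) (nat_lit 0) (nat_lit 0) (XT.lf (nat_lit 0) (nat_lit 7583624980) (nat_lit 456) (nat_lit 24481219538) (nat_lit 76) (nat_lit 10206529565) (nat_lit 109) (nat_lit 5) (nat_lit 115) (nat_lit 5) (nat_lit 110) (nat_lit 5) (nat_lit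 455) (nat_lit 440) (nat_lit 305)) (XT.lf (nat_lit 0) (nat_lit 12725109821) (nat_lit 456) (nat_lit 1657983845) (nat_lit 76) (nat_lit 29071098150) (nat_lit 109) (nat_lit 5) (nat_lit 115) (nat_lit 5) (nat_lit 110) (nat_lit 5) (nat_lit 456) (nat_lit 440) (nat_lit 304))))) (XT.nd (nat_lit 234) (nat_lit 608) (nat_lit 0) (XT.nd (nat_lit 78) (nat_lit 304) (nat_lit 0) (XT.lf (nat_lit 0) (nat_lit 18551967676) (nat_lit 456) (nat_lit 21708423117) (nat_lit 76) (nat_lit 4414345596) (nat_lit 104) (nat_lit 5) (nat_lit 110) (nat_lit 5) (nat_lit 105) (nat_lit 5) (nat_lit 457) (nat_lit 440) (nat_lit 303)) (XT.nd (nat_lit 78) (nat_lit 0) (nat_lit 0) (XT.lf (nat_lit 0) (nat_lit 2774143924) (nat_lit 304) (nat_lit 22201107474) (nat_lit 380) (nat_lit 20965803494) (nat_lit 100) (nat_lit 5) (nat_lit 104) (nat_lit 5) (nat_lit 105) (nat_lit 5) (nat_lit 458) (nat_lit 440) (nat_lit 302)) (XT.lf (nat_lit 0) (nat_lit 29231673471)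 (nat_lit 304) (nat_lit 2853189322) (nat_lit 380) (nat_lit 15167569162) (nat_lit 100) (nat_lit 5) (nat_lit 104) (nat_lit 5) (nat_lit 105) (nat_lit 5) (nat_lit 459) (nat_lit 440) (nat_lit 301)))) (XT.nd (nat_lit 156) (nat_lit 304) (nat_lit 0) (XT.nd (nat_lit 78) (nat_lit 0) (nat_lit 0) (XT.lf (nat_lit 0) (nat_lit 8375319524) (nat_lit 304) (nat_lit 31575663775) (nat_lit 380) (nat_lit 8658343915) (nat_lit 96) (nat_lit 5) (nat_lit 100) (nat_lit 5) (nat_lit 101) (nat_lit 5) (nat_lit 460) (nat_lit 440) (nat_lit 300)) (XT.lf (nat_lit 0) (nat_lit 36665754767) (nat_lit 304) (nat_lit 11893567629) (nat_lit 380) (nat_lit 1457299947) (nat_lit 96) (nat_lit 5) (nat_lit 100) (nat_lit 5) (nat_lit 101) (nat_lit 5) (nat_lit 461) (nat_lit 440) (nat_lit 299))) (XT.nd (nat_lit 78) (nat_lit 0) (nat_lit 0) (XT.lf (nat_lit 0) (nat_lit 6287001879) (nat_lit 304) (nat_lit 36353074226) (nat_lit 76) (nat_lit 8830513657)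 (nat_lit 92) (nat_lit 5) (nat_lit 96) (nat_lit 5) (nat_lit 93) (nat_lit 5) (nat_lit 462) (nat_lit 440) (nat_lit 298)) (XT.lf (nat_lit 0) (nat_lit 14792162853) (nat_lit 304) (nat_lit 7738459960) (nat_lit 76) (nat_lit 30444307921) (nat_lit 92) (nat_lit 5) (nat_lit 96) (nat_lit 5) (nat_lit 93) (nat_lit 5) (nat_lit 463) (nat_lit 440) (nat_lit 297)))))) (XT.nd (nat_lit 546) (nat_lit 836) (nat_lit 0) (XT.nd (nat_lit 234) (nat_lit 532) (nat_lit 0) (XT.nd (nat_lit 78) (nat_lit 228) (nat_lit 0) (XT.lf (nat_lit 0) (nat_lit 23041729928) (nat_lit 304) (nat_lit 1038533502) (nat_lit 380) (nat_lit 30456341851) (nat_lit 88) (nat_lit 5) (nat_lit 92) (nat_lit 5) (nat_lit 93) (nat_lit 5) (nat_lit 464) (nat_lit 440) (nat_lit 296)) (XT.nd (nat_lit 78) (nat_lit 228) (nat_lit 0) (XT.lf (nat_lit 0) (nat_lit 34300071230) (nat_lit 380) (nat_lit 881166633) (nat_lit 76) (nat_lit 20971761157) (nat_lit 88) (nat_lit 5) (nat_lit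 93) (nat_lit 5) (nat_lit 89) (nat_lit 5) (nat_lit 465) (nat_lit 440) (nat_lit 295)) (XT.lf (nat_lit 0) (nat_lit 32276702605) (nat_lit 228) (nat_lit 13273202001) (nat_lit 304) (nat_lit 12274356628) (nat_lit 85) (nat_lit 5) (nat_lit 88) (nat_lit 5) (nat_lit 89) (nat_lit 5) (nat_lit 466) (nat_lit 440) (nat_lit 294)))) (XT.nd (nat_lit 156) (nat_lit 228) (nat_lit 0) (XT.nd (nat_lit 78) (nat_lit 76) (nat_lit 0) (XT.lf (nat_lit 0) (nat_lit 7634303092) (nat_lit 228) (nat_lit 50012325616) (nat_lit 304) (nat_lit 1918238422) (nat_lit 82) (nat_lit 5) (nat_lit 85) (nat_lit 5) (nat_lit 86) (nat_lit 5) (nat_lit 467) (nat_lit 440) (nat_lit 293)) (XT.lf (nat_lit 0) (nat_lit 9324535724) (nat_lit 304) (nat_lit 18375786901) (nat_lit 76) (nat_lit 33652415603) (nat_lit 81) (nat_lit 5) (nat_lit 85) (nat_lit 5) (nat_lit 82) (nat_lit 5) (nat_lit 468) (nat_lit 440) (nat_lit 292))) (XT.nd (nat_lit 78) (nat_lit 0) (nat_lit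 0) (XT.lf (nat_lit 0) (nat_lit 17379026194) (nat_lit 228) (nat_lit 3955522172) (nat_lit 304) (nat_lit 41880404382) (nat_lit 78) (nat_lit 5) (nat_lit 81) (nat_lit 5) (nat_lit 82) (nat_lit 5) (nat_lit 469) (nat_lit 440) (nat_lit 291)) (XT.lf (nat_lit 0) (nat_lit 34587132878) (nat_lit 304) (nat_lit 9930304770) (nat_lit 76) (nat_lit 20620737213) (nat_lit 78) (nat_lit 5) (nat_lit 82) (nat_lit 5) (nat_lit 79) (nat_lit 5) (nat_lit 470) (nat_lit 440) (nat_lit 290))))) (XT.nd (nat_lit 234) (nat_lit 380) (nat_lit 0) (XT.nd (nat_lit 78) (nat_lit 228) (nat_lit 0) (XT.lf (nat_lit 0) (nat_lit 28619342831) (nat_lit 228) (nat_lit 20393023672) (nat_lit 304) (nat_lit 18119690991) (nat_lit 75) (nat_lit 5) (nat_lit 78) (nat_lit 5) (nat_lit 79) (nat_lit 5) (nat_lit 471) (nat_lit 440) (nat_lit 289)) (XT.nd (nat_lit 78) (nat_lit 76) (nat_lit 0) (XT.lf (nat_lit 0) (nat_lit 146405408) (nat_lit 152) (nat_lit 64261140612)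 (nat_lit 228) (nat_lit 4805654417) (nat_lit 73) (nat_lit 5) (nat_lit 75) (nat_lit 5) (nat_lit 76) (nat_lit 5) (nat_lit 472) (nat_lit 440) (nat_lit 288)) (XT.lf (nat_lit 0) (nat_lit 9876082149) (nat_lit 228) (nat_lit 29780923175) (nat_lit 76) (nat_lit 31684452591) (nat_lit 72) (nat_lit 5) (nat_lit 75) (nat_lit 5) (nat_lit 73) (nat_lit 5) (nat_lit 473) (nat_lit 440) (nat_lit 287)))) (XT.nd (nat_lit 156) (nat_lit 152) (nat_lit 0) (XT.nd (nat_lit 78) (nat_lit 0) (nat_lit 0) (XT.lf (nat_lit 0) (nat_lit 11764667845) (nat_lit 228) (nat_lit 13547882779) (nat_lit 304) (nat_lit 48250531589) (nat_lit 69) (nat_lit 5) (nat_lit 72) (nat_lit 5) (nat_lit 73) (nat_lit 5) (nat_lit 474) (nat_lit 440) (nat_lit 286)) (XT.lf (nat_lit 0) (nat_lit 42248454682) (nat_lit 304) (nat_lit 19676232220) (nat_lit 76) (nat_lit 13934720537) (nat_lit 69) (nat_lit 5) (nat_lit 73) (nat_lit 5) (nat_lit 70) (nat_lit 5) (nat_lit 475)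 (nat_lit 440) (nat_lit 285))) (XT.nd (nat_lit 78) (nat_lit 0) (nat_lit 0) (XT.lf (nat_lit 0) (nat_lit 25132098170) (nat_lit 152) (nat_lit 35512098242) (nat_lit 228) (nat_lit 17595700694) (nat_lit 67) (nat_lit 5) (nat_lit 69) (nat_lit 5) (nat_lit 70) (nat_lit 5) (nat_lit 476) (nat_lit 440) (nat_lit 284)) (XT.lf (nat_lit 0) (nat_lit 72861747181) (nat_lit 152) (nat_lit 7429801973) (nat_lit 228) (nat_lit 431271198) (nat_lit 67) (nat_lit 5) (nat_lit 69) (nat_lit 5) (nat_lit 70) (nat_lit 5) (nat_lit 477) (nat_lit 440) (nat_lit 283))))))) (XT.nd (nat_lit 1092) (nat_lit 1216) (nat_lit 0) (XT.nd (nat_lit 546) (nat_lit 684) (nat_lit 0) (XT.nd (nat_lit 234) (nat_lit 380) (nat_lit 0) (XT.nd (nat_lit 78) (nat_lit 152) (nat_lit 0) (XT.lf (nat_lit 0) (nat_lit 18021272627) (nat_lit 228) (nat_lit 42970764848) (nat_lit 76) (nat_lit 22274473670) (nat_lit 64) (nat_lit 5) (nat_lit 67) (nat_lit 5) (nat_lit 65) (nat_lit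 5) (nat_lit 478) (nat_lit 440) (nat_lit 282)) (XT.nd (nat_lit 78) (nat_lit 0) (nat_lit 0) (XT.lf (nat_lit 0) (nat_lit 5236987732) (nat_lit 152) (nat_lit 32482501305) (nat_lit 228) (nat_lit 48200667241) (nat_lit 62) (nat_lit 5) (nat_lit 64) (nat_lit 5) (nat_lit 65) (nat_lit 5) (nat_lit 479) (nat_lit 440) (nat_lit 281)) (XT.lf (nat_lit 0) (nat_lit 57344839312) (nat_lit 152) (nat_lit 1784199333) (nat_lit 228) (nat_lit 29541124143) (nat_lit 62) (nat_lit 5) (nat_lit 64) (nat_lit 5) (nat_lit 65) (nat_lit 5) (nat_lit 480) (nat_lit 440) (nat_lit 280)))) (XT.nd (nat_lit 156) (nat_lit 152) (nat_lit 0) (XT.nd (nat_lit 78) (nat_lit 76) (nat_lit 0) (XT.lf (nat_lit 0) (nat_lit 20684982952) (nat_lit 152) (nat_lit 61721169503) (nat_lit 228) (nat_lit 9111663062) (nat_lit 60) (nat_lit 5) (nat_lit 62) (nat_lit 5) (nat_lit 63) (nat_lit 5) (nat_lit 481) (nat_lit 440) (nat_lit 279)) (XT.lf (nat_lit 0) (nat_lit 12511542075)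 (nat_lit 228) (nat_lit 18330665817) (nat_lit 76) (nat_lit 63627650429) (nat_lit 59) (nat_lit 5) (nat_lit 62) (nat_lit 5) (nat_lit 60) (nat_lit 5) (nat_lit 482) (nat_lit 440) (nat_lit 278))) (XT.nd (nat_lit 78) (nat_lit 0) (nat_lit 0) (XT.lf (nat_lit 0) (nat_lit 35536361672) (nat_lit 228) (nat_lit 59712444870) (nat_lit 76) (nat_lit 2281895052) (nat_lit 57) (nat_lit 5) (nat_lit 60) (nat_lit 5) (nat_lit 58) (nat_lit 5) (nat_lit 483) (nat_lit 440) (nat_lit 277)) (XT.lf (nat_lit 0) (nat_lit 60532382491) (nat_lit 228) (nat_lit 3830746665) (nat_lit 76) (nat_lit 36340460050) (nat_lit 57) (nat_lit 5) (nat_lit 60) (nat_lit 5) (nat_lit 58) (nat_lit 5) (nat_lit 484) (nat_lit 440) (nat_lit 276))))) (XT.nd (nat_lit 234) (nat_lit 304) (nat_lit 0) (XT.nd (nat_lit 78) (nat_lit 228) (nat_lit 0) (XT.lf (nat_lit 0) (nat_lit 56656486251) (nat_lit 152) (nat_lit 31005163126) (nat_lit 228) (nat_lit 16329299747) (nat_lit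 55) (nat_lit 5) (nat_lit 57) (nat_lit 5) (nat_lit 58) (nat_lit 5) (nat_lit 485) (nat_lit 440) (nat_lit 275)) (XT.nd (nat_lit 78) (nat_lit 0) (nat_lit 0) (XT.lf (nat_lit 0) (nat_lit 8765561769) (nat_lit 228) (nat_lit 94348387268) (nat_lit 76) (nat_lit 4304959723) (nat_lit 52) (nat_lit 5) (nat_lit 55) (nat_lit 5) (nat_lit 53) (nat_lit 5) (nat_lit 486) (nat_lit 440) (nat_lit 274)) (XT.lf (nat_lit 0) (nat_lit 35888345353) (nat_lit 228) (nat_lit 33630129552) (nat_lit 76) (nat_lit 41420309426) (nat_lit 52) (nat_lit 5) (nat_lit 55) (nat_lit 5) (nat_lit 53) (nat_lit 5) (nat_lit 487) (nat_lit 440) (nat_lit 273)))) (XT.nd (nat_lit 156) (nat_lit 152) (nat_lit 0) (XT.nd (nat_lit 78) (nat_lit 0) (nat_lit 0) (XT.lf (nat_lit 0) (nat_lit 31118179796) (nat_lit 152) (nat_lit 33733878541) (nat_lit 228) (nat_lit 49758355979) (nat_lit 50) (nat_lit 5) (nat_lit 52) (nat_lit 5) (nat_lit 53) (nat_lit 5) (nat_lit 488)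 (nat_lit 440) (nat_lit 272)) (XT.lf (nat_lit 0) (nat_lit 95901746538) (nat_lit 228) (nat_lit 18236818211) (nat_lit 76) (nat_lit 4295171713) (nat_lit 50) (nat_lit 5) (nat_lit 53) (nat_lit 5) (nat_lit 51) (nat_lit 4) (nat_lit 489) (nat_lit 440) (nat_lit 271))) (XT.nd (nat_lit 78) (nat_lit 0) (nat_lit 0) (XT.lf (nat_lit 0) (nat_lit 7238135856) (nat_lit 152) (nat_lit 71126484702) (nat_lit 76) (nat_lit 44010063894) (nat_lit 48) (nat_lit 5) (nat_lit 50) (nat_lit 5) (nat_lit 49) (nat_lit 5) (nat_lit 490) (nat_lit 440) (nat_lit 270)) (XT.lf (nat_lit 0) (nat_lit 38052469499) (nat_lit 152) (nat_lit 2032831263) (nat_lit 76) (nat_lit 86393264146) (nat_lit 48) (nat_lit 5) (nat_lit 50) (nat_lit 5) (nat_lit 49) (nat_lit 5) (nat_lit 491) (nat_lit 440) (nat_lit 269)))))) (XT.nd (nat_lit 546) (nat_lit 608) (nat_lit 0) (XT.nd (nat_lit 234) (nat_lit 304) (nat_lit 0) (XT.nd (nat_lit 78) (nat_lit 152) (nat_lit 0)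 (XT.lf (nat_lit 0) (nat_lit 71564217390) (nat_lit 228) (nat_lit 57905808900) (nat_lit 76) (nat_lit 1259778334) (nat_lit 46) (nat_lit 5) (nat_lit 49) (nat_lit 5) (nat_lit 47) (nat_lit 4) (nat_lit 492) (nat_lit 440) (nat_lit 268)) (XT.nd (nat_lit 78) (nat_lit 76) (nat_lit 0) (XT.lf (nat_lit 0) (nat_lit 16160193660) (nat_lit 76) (nat_lit 91534858776) (nat_lit 152) (nat_lit 27451379010) (nat_lit 45) (nat_lit 5) (nat_lit 46) (nat_lit 5) (nat_lit 47) (nat_lit 4) (nat_lit 493) (nat_lit 440) (nat_lit 267)) (XT.lf (nat_lit 0) (nat_lit 6657159014) (nat_lit 152) (nat_lit 43904080759) (nat_lit 76) (nat_lit 89168293871) (nat_lit 44) (nat_lit 5) (nat_lit 46) (nat_lit 5) (nat_lit 45) (nat_lit 5) (nat_lit 494) (nat_lit 440) (nat_lit 266)))) (XT.nd (nat_lit 156) (nat_lit 152) (nat_lit 0) (XT.nd (nat_lit 78) (nat_lit 0) (nat_lit 0) (XT.lf (nat_lit 0) (nat_lit 35620633733) (nat_lit 152) (nat_lit 6483195923) (nat_lit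 228) (nat_lit 102387697659) (nat_lit 42) (nat_lit 5) (nat_lit 44) (nat_lit 5) (nat_lit 45) (nat_lit 5) (nat_lit 495) (nat_lit 440) (nat_lit 265)) (XT.lf (nat_lit 0) (nat_lit 80699050242) (nat_lit 228) (nat_lit 29443785351) (nat_lit 76) (nat_lit 39279974345) (nat_lit 42) (nat_lit 5) (nat_lit 45) (nat_lit 5) (nat_lit 43) (nat_lit 4) (nat_lit 496) (nat_lit 440) (nat_lit 264))) (XT.nd (nat_lit 78) (nat_lit 76) (nat_lit 0) (XT.lf (nat_lit 0) (nat_lit 55627276773) (nat_lit 76) (nat_lit 66570696961) (nat_lit 152) (nat_lit 32353985951) (nat_lit 41) (nat_lit 5) (nat_lit 42) (nat_lit 5) (nat_lit 43) (nat_lit 4) (nat_lit 497) (nat_lit 440) (nat_lit 263)) (XT.lf (nat_lit 0) (nat_lit 6153527435) (nat_lit 152) (nat_lit 14039327570) (nat_lit 76) (nat_lit 139714858309) (nat_lit 40) (nat_lit 5) (nat_lit 42) (nat_lit 5) (nat_lit 41) (nat_lit 5) (nat_lit 498) (nat_lit 440) (nat_lit 262))))) (XT.nd (nat_lit 312)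 (nat_lit 228) (nat_lit 0) (XT.nd (nat_lit 156) (nat_lit 152) (nat_lit 0) (XT.nd (nat_lit 78) (nat_lit 76) (nat_lit 0) (XT.lf (nat_lit 0) (nat_lit 47174294427) (nat_lit 228) (nat_lit 88894399359) (nat_lit 76) (nat_lit 29352282051) (nat_lit 38) (nat_lit 5) (nat_lit 41) (nat_lit 5) (nat_lit 39) (nat_lit 4) (nat_lit 499) (nat_lit 440) (nat_lit 261)) (XT.lf (nat_lit 0) (nat_lit 592745285) (nat_lit 76) (nat_lit 90234509517) (nat_lit 152) (nat_lit 80353589003) (nat_lit 37) (nat_lit 5) (nat_lit 38) (nat_lit 5) (nat_lit 39) (nat_lit 4) (nat_lit 500) (nat_lit 440) (nat_lit 260))) (XT.nd (nat_lit 78) (nat_lit 152) (nat_lit 0) (XT.lf (nat_lit 0) (nat_lit 97639009517) (nat_lit 76) (nat_lit 40528547988) (nat_lit 152) (nat_lit 38985913018) (nat_lit 37) (nat_lit 5) (nat_lit 38) (nat_lit 5) (nat_lit 39) (nat_lit 4) (nat_lit 501) (nat_lit 440) (nat_lit 259)) (XT.lf (nat_lit 0) (nat_lit 4753163215) (nat_lit 152)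 (nat_lit 167023420258) (nat_lit 76) (nat_lit 11622398756) (nat_lit 35) (nat_lit 5) (nat_lit 37) (nat_lit 5) (nat_lit 36) (nat_lit 4) (nat_lit 502) (nat_lit 440) (nat_lit 258)))) (XT.nd (nat_lit 156) (nat_lit 152) (nat_lit 0) (XT.nd (nat_lit 78) (nat_lit 76) (nat_lit 0) (XT.lf (nat_lit 0) (nat_lit 51401358342) (nat_lit 152) (nat_lit 71395791880) (nat_lit 76) (nat_lit 67026046319) (nat_lit 35) (nat_lit 5) (nat_lit 37) (nat_lit 5) (nat_lit 36) (nat_lit 4) (nat_lit 503) (nat_lit 440) (nat_lit 257)) (XT.lf (nat_lit 0) (nat_lit 29971138308) (nat_lit 76) (nat_lit 70878047364) (nat_lit 152) (nat_lit 95696074829) (nat_lit 34) (nat_lit 5) (nat_lit 35) (nat_lit 5) (nat_lit 36) (nat_lit 4) (nat_lit 504) (nat_lit 440) (nat_lit 256))) (XT.nd (nat_lit 78) (nat_lit 152) (nat_lit 0) (XT.lf (nat_lit 0) (nat_lit 138883794142) (nat_lit 76) (nat_lit 15094034719) (nat_lit 152) (nat_lit 49565177626) (nat_lit 34)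 (nat_lit 5) (nat_lit 35) (nat_lit 5) (nat_lit 36) (nat_lit 4) (nat_lit 505) (nat_lit 440) (nat_lit 255)) (XT.lf (nat_lit 0) (nat_lit 280770837) (nat_lit 152) (nat_lit 167778483711) (nat_lit 76) (nat_lit 42763645038) (nat_lit 32) (nat_lit 5) (nat_lit 34) (nat_lit 5) (nat_lit 33) (nat_lit 4) (nat_lit 506) (nat_lit 440) (nat_lit 254))))))))
noncomputable def xc182 : XT := (XT.nd (nat_lit 2184) (nat_lit 228) (nat_lit 0) (XT.nd (nat_lit 1092) (nat_lit 608) (nat_lit 0) (XT.nd (nat_lit 546) (nat_lit 380) (nat_lit 0) (XT.nd (nat_lit 234) (nat_lit 228) (nat_lit 0) (XT.nd (nat_lit 78) (nat_lit 76) (nat_lit 0) (XT.lf (nat_lit 0) (nat_lit 52313059032) (nat_lit 152) (nat_lit 61113210915) (nat_lit 76) (nat_lit 104931902379) (nat_lit 32) (nat_lit 5) (nat_lit 34) (nat_lit 5) (nat_lit 33) (nat_lit 4) (nat_lit 507) (nat_lit 440) (nat_lit 253)) (XT.nd (nat_lit 78) (nat_lit 0) (nat_lit 0) (XT.lf (nat_lit 0) (nat_lit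 52566560695) (nat_lit 76) (nat_lit 55200471946) (nat_lit 152) (nat_lit 118462172554) (nat_lit 31) (nat_lit 5) (nat_lit 32) (nat_lit 5) (nat_lit 33) (nat_lit 4) (nat_lit 508) (nat_lit 440) (nat_lit 252)) (XT.lf (nat_lit 0) (nat_lit 167137703264) (nat_lit 152) (nat_lit 60500886997) (nat_lit 0) (nat_lit 6797999571) (nat_lit 31) (nat_lit 5) (nat_lit 33) (nat_lit 4) (nat_lit 31) (nat_lit 4) (nat_lit 509) (nat_lit 440) (nat_lit 251)))) (XT.nd (nat_lit 156) (nat_lit 76) (nat_lit 0) (XT.nd (nat_lit 78) (nat_lit 76) (nat_lit 0) (XT.lf (nat_lit 0) (nat_lit 59311193765) (nat_lit 76) (nat_lit 171996046144) (nat_lit 76) (nat_lit 11655587207) (nat_lit 30) (nat_lit 4) (nat_lit 31) (nat_lit 5) (nat_lit 31) (nat_lit 4) (nat_lit 510) (nat_lit 440) (nat_lit 250)) (XT.lf (nat_lit 0) (nat_lit 46313751621) (nat_lit 152) (nat_lit 65397987393) (nat_lit 76) (nat_lit 140115086712) (nat_lit 29) (nat_lit 5) (nat_lit 31)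 (nat_lit 5) (nat_lit 30) (nat_lit 4) (nat_lit 511) (nat_lit 440) (nat_lit 249))) (XT.nd (nat_lit 78) (nat_lit 0) (nat_lit 0) (XT.lf (nat_lit 0) (nat_lit 60512944763) (nat_lit 76) (nat_lit 47221107923) (nat_lit 152) (nat_lit 153343207879) (nat_lit 28) (nat_lit 5) (nat_lit 29) (nat_lit 5) (nat_lit 30) (nat_lit 4) (nat_lit 512) (nat_lit 440) (nat_lit 248)) (XT.lf (nat_lit 0) (nat_lit 173670466436) (nat_lit 152) (nat_lit 76084187190) (nat_lit 0) (nat_lit 20963308672) (nat_lit 28) (nat_lit 5) (nat_lit 30) (nat_lit 4) (nat_lit 28) (nat_lit 4) (nat_lit 513) (nat_lit 440) (nat_lit 247))))) (XT.nd (nat_lit 234) (nat_lit 152) (nat_lit 0) (XT.nd (nat_lit 78) (nat_lit 152) (nat_lit 0) (XT.lf (nat_lit 0) (nat_lit 55625120458) (nat_lit 76) (nat_lit 188920613282) (nat_lit 76) (nat_lit 36212863764) (nat_lit 27) (nat_lit 4) (nat_lit 28) (nat_lit 5) (nat_lit 28) (nat_lit 4) (nat_lit 514) (nat_lit 440) (nat_lit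 246)) (XT.nd (nat_lit 78) (nat_lit 76) (nat_lit 0) (XT.lf (nat_lit 0) (nat_lit 28087194265) (nat_lit 152) (nat_lit 95129564847) (nat_lit 76) (nat_lit 167997455195) (nat_lit 26) (nat_lit 5) (nat_lit 28) (nat_lit 5) (nat_lit 27) (nat_lit 4) (nat_lit 515) (nat_lit 440) (nat_lit 245)) (XT.lf (nat_lit 0) (nat_lit 42128243894) (nat_lit 76) (nat_lit 52914240849) (nat_lit 152) (nat_lit 207087583598) (nat_lit 25) (nat_lit 5) (nat_lit 26) (nat_lit 5) (nat_lit 27) (nat_lit 4) (nat_lit 516) (nat_lit 440) (nat_lit 244)))) (XT.nd (nat_lit 156) (nat_lit 76) (nat_lit 0) (XT.nd (nat_lit 78) (nat_lit 76) (nat_lit 0) (XT.lf (nat_lit 0) (nat_lit 167308857524) (nat_lit 152) (nat_lit 124313320838) (nat_lit 0) (nat_lit 21871370849) (nat_lit 25) (nat_lit 5) (nat_lit 27) (nat_lit 4) (nat_lit 25) (nat_lit 4) (nat_lit 517) (nat_lit 440) (nat_lit 243)) (XT.lf (nat_lit 0) (nat_lit 17862920521) (nat_lit 76) (nat_lit 226471470917)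 (nat_lit 76) (nat_lit 81033520587) (nat_lit 24) (nat_lit 4) (nat_lit 25) (nat_lit 5) (nat_lit 25) (nat_lit 4) (nat_lit 518) (nat_lit 440) (nat_lit 242))) (XT.nd (nat_lit 78) (nat_lit 76) (nat_lit 0) (XT.lf (nat_lit 0) (nat_lit 171462901447) (nat_lit 76) (nat_lit 155853121215) (nat_lit 76) (nat_lit 10414729310) (nat_lit 24) (nat_lit 4) (nat_lit 25) (nat_lit 5) (nat_lit 25) (nat_lit 4) (nat_lit 519) (nat_lit 440) (nat_lit 241)) (XT.lf (nat_lit 0) (nat_lit 61694613345) (nat_lit 152) (nat_lit 18964855095) (nat_lit 76) (nat_lit 270002534903) (nat_lit 23) (nat_lit 5) (nat_lit 25) (nat_lit 5) (nat_lit 24) (nat_lit 4) (nat_lit 520) (nat_lit 440) (nat_lit 240)))))) (XT.nd (nat_lit 546) (nat_lit 304) (nat_lit 0) (XT.nd (nat_lit 234) (nat_lit 152) (nat_lit 0) (XT.nd (nat_lit 78) (nat_lit 76) (nat_lit 0) (XT.lf (nat_lit 0) (nat_lit 139256957728) (nat_lit 152) (nat_lit 224121024459) (nat_lit 0) (nat_lit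 743421561) (nat_lit 22) (nat_lit 5) (nat_lit 24) (nat_lit 4) (nat_lit 22) (nat_lit 4) (nat_lit 521) (nat_lit 440) (nat_lit 239)) (XT.nd (nat_lit 78) (nat_lit 76) (nat_lit 0) (XT.lf (nat_lit 0) (nat_lit 222345703459) (nat_lit 152) (nat_lit 71993852521) (nat_lit 0) (nat_lit 83831804007) (nat_lit 22) (nat_lit 5) (nat_lit 24) (nat_lit 4) (nat_lit 22) (nat_lit 4) (nat_lit 522) (nat_lit 440) (nat_lit 238)) (XT.lf (nat_lit 0) (nat_lit 90639884135) (nat_lit 76) (nat_lit 220363719744) (nat_lit 76) (nat_lit 81849474306) (nat_lit 21) (nat_lit 4) (nat_lit 22) (nat_lit 5) (nat_lit 22) (nat_lit 4) (nat_lit 523) (nat_lit 440) (nat_lit 237)))) (XT.nd (nat_lit 156) (nat_lit 0) (nat_lit 0) (XT.nd (nat_lit 78) (nat_lit 152) (nat_lit 0) (XT.lf (nat_lit 0) (nat_lit 263903948879) (nat_lit 76) (nat_lit 141409283367) (nat_lit 76) (nat_lit 2894708419) (nat_lit 21) (nat_lit 4) (nat_lit 22) (nat_lit 5) (nat_lit 22) (nat_lit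 4) (nat_lit 524) (nat_lit 440) (nat_lit 236)) (XT.lf (nat_lit 0) (nat_lit 20920308242) (nat_lit 76) (nat_lit 56852958591) (nat_lit 152) (nat_lit 346478511145) (nat_lit 19) (nat_lit 5) (nat_lit 20) (nat_lit 5) (nat_lit 21) (nat_lit 4) (nat_lit 525) (nat_lit 440) (nat_lit 235))) (XT.nd (nat_lit 78) (nat_lit 0) (nat_lit 0) (XT.lf (nat_lit 0) (nat_lit 165359412613) (nat_lit 152) (nat_lit 242146732913) (nat_lit 0) (nat_lit 33440186286) (nat_lit 19) (nat_lit 5) (nat_lit 21) (nat_lit 4) (nat_lit 19) (nat_lit 4) (nat_lit 526) (nat_lit 440) (nat_lit 234)) (XT.lf (nat_lit 0) (nat_lit 258256497143) (nat_lit 152) (nat_lit 73835534910) (nat_lit 0) (nat_lit 126336999727) (nat_lit 19) (nat_lit 5) (nat_lit 21) (nat_lit 4) (nat_lit 19) (nat_lit 4) (nat_lit 527) (nat_lit 440) (nat_lit 233))))) (XT.nd (nat_lit 234) (nat_lit 152) (nat_lit 0) (XT.nd (nat_lit 78) (nat_lit 76) (nat_lit 0) (XT.lf (nat_lit 0) (nat_lit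 106292523804) (nat_lit 76) (nat_lit 251165070320) (nat_lit 76) (nat_lit 119245314724) (nat_lit 18) (nat_lit 4) (nat_lit 19) (nat_lit 5) (nat_lit 19) (nat_lit 4) (nat_lit 528) (nat_lit 440) (nat_lit 232)) (XT.nd (nat_lit 78) (nat_lit 76) (nat_lit 0) (XT.lf (nat_lit 0) (nat_lit 297989676416) (nat_lit 76) (nat_lit 164879150403) (nat_lit 76) (nat_lit 32959148921) (nat_lit 18) (nat_lit 4) (nat_lit 19) (nat_lit 5) (nat_lit 19) (nat_lit 4) (nat_lit 529) (nat_lit 440) (nat_lit 231)) (XT.lf (nat_lit 0) (nat_lit 55796094641) (nat_lit 152) (nat_lit 17538241643) (nat_lit 76) (nat_lit 442529979979) (nat_lit 17) (nat_lit 5) (nat_lit 19) (nat_lit 5) (nat_lit 18) (nat_lit 4) (nat_lit 530) (nat_lit 440) (nat_lit 230)))) (XT.nd (nat_lit 156) (nat_lit 76) (nat_lit 0) (XT.nd (nat_lit 78) (nat_lit 0) (nat_lit 0) (XT.lf (nat_lit 0) (nat_lit 151052903011) (nat_lit 152) (nat_lit 360249611879) (nat_lit 0) (nat_lit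 25414370930) (nat_lit 16) (nat_lit 5) (nat_lit 18) (nat_lit 4) (nat_lit 16) (nat_lit 4) (nat_lit 531) (nat_lit 440) (nat_lit 229)) (XT.lf (nat_lit 0) (nat_lit 252576310926) (nat_lit 152) (nat_lit 179023008427) (nat_lit 0) (nat_lit 126937576555) (nat_lit 16) (nat_lit 5) (nat_lit 18) (nat_lit 4) (nat_lit 16) (nat_lit 4) (nat_lit 532) (nat_lit 440) (nat_lit 228))) (XT.nd (nat_lit 78) (nat_lit 0) (nat_lit 0) (XT.lf (nat_lit 0) (nat_lit 11636747538) (nat_lit 76) (nat_lit 347720508823) (nat_lit 76) (nat_lit 222081581794) (nat_lit 15) (nat_lit 4) (nat_lit 16) (nat_lit 5) (nat_lit 16) (nat_lit 4) (nat_lit 533) (nat_lit 440) (nat_lit 227)) (XT.lf (nat_lit 0) (nat_lit 218044149759) (nat_lit 76) (nat_lit 256464630850) (nat_lit 76) (nat_lit 130825520338) (nat_lit 15) (nat_lit 4) (nat_lit 16) (nat_lit 5) (nat_lit 16) (nat_lit 4) (nat_lit 534) (nat_lit 440) (nat_lit 226))))))) (XT.nd (nat_lit 55770) (nat_lit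 0) (nat_lit 6080) (XT.nd (nat_lit 55224) (nat_lit 0) (nat_lit 8588) (XT.nd (nat_lit 234) (nat_lit 76) (nat_lit 0) (XT.nd (nat_lit 78) (nat_lit 152) (nat_lit 0) (XT.lf (nat_lit 0) (nat_lit 434771335281) (nat_lit 76) (nat_lit 160646250808) (nat_lit 76) (nat_lit 35006965549) (nat_lit 15) (nat_lit 4) (nat_lit 16) (nat_lit 5) (nat_lit 16) (nat_lit 4) (nat_lit 535) (nat_lit 440) (nat_lit 225)) (XT.nd (nat_lit 78) (nat_lit 0) (nat_lit 0) (XT.lf (nat_lit 0) (nat_lit 4690895716) (nat_lit 76) (nat_lit 58884883503) (nat_lit 152) (nat_lit 593138676070) (nat_lit 13) (nat_lit 5) (nat_lit 14) (nat_lit 5) (nat_lit 15) (nat_lit 4) (nat_lit 536) (nat_lit 440) (nat_lit 224)) (XT.lf (nat_lit 0) (nat_lit 170027574946) (nat_lit 152) (nat_lit 463685962742) (nat_lit 0) (nat_lit 50370803342) (nat_lit 13) (nat_lit 5) (nat_lit 15) (nat_lit 4) (nat_lit 13) (nat_lit 4) (nat_lit 537) (nat_lit 440) (nat_lit 223)))) (XT.nd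 (nat_lit 156) (nat_lit 76) (nat_lit 0) (XT.nd (nat_lit 78) (nat_lit 0) (nat_lit 0) (XT.lf (nat_lit 0) (nat_lit 282767014963) (nat_lit 152) (nat_lit 266897353785) (nat_lit 0) (nat_lit 163110099594) (nat_lit 13) (nat_lit 5) (nat_lit 15) (nat_lit 4) (nat_lit 13) (nat_lit 4) (nat_lit 538) (nat_lit 440) (nat_lit 222)) (XT.lf (nat_lit 0) (nat_lit 401143168450) (nat_lit 152) (nat_lit 60269830339) (nat_lit 0) (nat_lit 281486116163) (nat_lit 13) (nat_lit 5) (nat_lit 15) (nat_lit 4) (nat_lit 13) (nat_lit 4) (nat_lit 539) (nat_lit 440) (nat_lit 221))) (XT.nd (nat_lit 54756) (nat_lit 0) (nat_lit 8588) (XT.lf (nat_lit 0) (nat_lit 161869409899) (nat_lit 76) (nat_lit 366095708621) (nat_lit 76) (nat_lit 246438525935) (nat_lit 12) (nat_lit 4) (nat_lit 13) (nat_lit 5) (nat_lit 13) (nat_lit 4) (nat_lit 540) (nat_lit 440) (nat_lit 220)) (XT.lf (nat_lit 0) (nat_lit 4535912599) (nat_lit 836) (nat_lit 5254843925)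 (nat_lit 836) (nat_lit 5254843925) (nat_lit 125) (nat_lit 3) (nat_lit 136) (nat_lit 3) (nat_lit 136) (nat_lit 5) (nat_lit 441) (nat_lit 441) (nat_lit 318))))) (XT.nd (nat_lit 234) (nat_lit 0) (nat_lit 152) (XT.nd (nat_lit 78) (nat_lit 0) (nat_lit 76) (XT.lf (nat_lit 76) (nat_lit 4371756422) (nat_lit 0) (nat_lit 5066047065) (nat_lit 836) (nat_lit 21398690708) (nat_lit 126) (nat_lit 5) (nat_lit 125) (nat_lit 3) (nat_lit 136) (nat_lit 5) (nat_lit 442) (nat_lit 441) (nat_lit 317)) (XT.nd (nat_lit 78) (nat_lit 0) (nat_lit 0) (XT.lf (nat_lit 0) (nat_lit 10157302755) (nat_lit 760) (nat_lit 11412515437) (nat_lit 836) (nat_lit 10032474626) (nat_lit 126) (nat_lit 5) (nat_lit 136) (nat_lit 5) (nat_lit 137) (nat_lit 5) (nat_lit 443) (nat_lit 441) (nat_lit 316)) (XT.lf (nat_lit 76) (nat_lit 4449068838) (nat_lit 0) (nat_lit 6611891327) (nat_lit 836) (nat_lit 21338013729) (nat_lit 127) (nat_lit 5) (nat_lit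 126) (nat_lit 5) (nat_lit 137) (nat_lit 5) (nat_lit 444) (nat_lit 441) (nat_lit 315)))) (XT.nd (nat_lit 156) (nat_lit 0) (nat_lit 76) (XT.nd (nat_lit 78) (nat_lit 0) (nat_lit 0) (XT.lf (nat_lit 0) (nat_lit 12344089297) (nat_lit 760) (nat_lit 11873816510) (nat_lit 836) (nat_lit 9000870377) (nat_lit 127) (nat_lit 5) (nat_lit 137) (nat_lit 5) (nat_lit 138) (nat_lit 5) (nat_lit 445) (nat_lit 441) (nat_lit 314)) (XT.lf (nat_lit 76) (nat_lit 5056879210) (nat_lit 0) (nat_lit 8817898584) (nat_lit 836) (nat_lit 20195622175) (nat_lit 128) (nat_lit 5) (nat_lit 127) (nat_lit 5) (nat_lit 138) (nat_lit 5) (nat_lit 446) (nat_lit 441) (nat_lit 313))) (XT.nd (nat_lit 78) (nat_lit 0) (nat_lit 0) (XT.lf (nat_lit 0) (nat_lit 15797397553) (nat_lit 760) (nat_lit 11829116267) (nat_lit 836) (nat_lit 7322322733) (nat_lit 128) (nat_lit 5) (nat_lit 138) (nat_lit 5) (nat_lit 139) (nat_lit 5) (nat_lit 447) (nat_lit 441)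 (nat_lit 312)) (XT.lf (nat_lit 76) (nat_lit 6267874317) (nat_lit 0) (nat_lit 11787093015) (nat_lit 836) (nat_lit 17804288068) (nat_lit 129) (nat_lit 5) (nat_lit 128) (nat_lit 5) (nat_lit 139) (nat_lit 5) (nat_lit 448) (nat_lit 441) (nat_lit 311)))))) (XT.nd (nat_lit 546) (nat_lit 1672) (nat_lit 0) (XT.nd (nat_lit 234) (nat_lit 1140) (nat_lit 0) (XT.nd (nat_lit 78) (nat_lit 0) (nat_lit 0) (XT.lf (nat_lit 0) (nat_lit 20701211564) (nat_lit 760) (nat_lit 11206534738) (nat_lit 836) (nat_lit 4893660408) (nat_lit 129) (nat_lit 5) (nat_lit 139) (nat_lit 5) (nat_lit 140) (nat_lit 5) (nat_lit 449) (nat_lit 441) (nat_lit 310)) (XT.nd (nat_lit 78) (nat_lit 0) (nat_lit 76) (XT.lf (nat_lit 76) (nat_lit 8162887637) (nat_lit 0) (nat_lit 15634268329) (nat_lit 836) (nat_lit 13977641476) (nat_lit 130) (nat_lit 5) (nat_lit 129) (nat_lit 5) (nat_lit 140) (nat_lit 5) (nat_lit 450) (nat_lit 441) (nat_lit 309)) (XT.lf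 (nat_lit 0) (nat_lit 27260315159) (nat_lit 760) (nat_lit 9926139530) (nat_lit 76) (nat_lit 1599783340) (nat_lit 130) (nat_lit 5) (nat_lit 140) (nat_lit 5) (nat_lit 131) (nat_lit 5) (nat_lit 451) (nat_lit 441) (nat_lit 308)))) (XT.nd (nat_lit 156) (nat_lit 456) (nat_lit 0) (XT.nd (nat_lit 78) (nat_lit 0) (nat_lit 0) (XT.lf (nat_lit 0) (nat_lit 10831610313) (nat_lit 760) (nat_lit 20487418620) (nat_lit 836) (nat_lit 8508103019) (nat_lit 120) (nat_lit 5) (nat_lit 130) (nat_lit 5) (nat_lit 131) (nat_lit 5) (nat_lit 452) (nat_lit 441) (nat_lit 307)) (XT.lf (nat_lit 0) (nat_lit 32969215525) (nat_lit 760) (nat_lit 2776654451) (nat_lit 836) (nat_lit 5165942101) (nat_lit 120) (nat_lit 5) (nat_lit 130) (nat_lit 5) (nat_lit 131) (nat_lit 5) (nat_lit 453) (nat_lit 441) (nat_lit 306))) (XT.nd (nat_lit 78) (nat_lit 76) (nat_lit 0) (XT.lf (nat_lit 0) (nat_lit 14373360035) (nat_lit 380) (nat_lit 26489320766)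 (nat_lit 456) (nat_lit 1164615052) (nat_lit 115) (nat_lit 5) (nat_lit 120) (nat_lit 5) (nat_lit 121) (nat_lit 5) (nat_lit 454) (nat_lit 441) (nat_lit 305)) (XT.lf (nat_lit 0) (nat_lit 3119094609) (nat_lit 456) (nat_lit 5208812460) (nat_lit 76) (nat_lit 34859301449) (nat_lit 114) (nat_lit 5) (nat_lit 120) (nat_lit 5) (nat_lit 115) (nat_lit 5) (nat_lit 455) (nat_lit 441) (nat_lit 304))))) (XT.nd (nat_lit 312) (nat_lit 608) (nat_lit 0) (XT.nd (nat_lit 156) (nat_lit 684) (nat_lit 0) (XT.nd (nat_lit 78) (nat_lit 0) (nat_lit 0) (XT.lf (nat_lit 0) (nat_lit 8043881229) (nat_lit 456) (nat_lit 25619179178) (nat_lit 76) (nat_lit 10717801190) (nat_lit 109) (nat_lit 5) (nat_lit 115) (nat_lit 5) (nat_lit 110) (nat_lit 5) (nat_lit 456) (nat_lit 441) (nat_lit 303)) (XT.lf (nat_lit 0) (nat_lit 13438579598) (nat_lit 456) (nat_lit 1658881765) (nat_lit 76) (nat_lit 30525553196) (nat_lit 109) (nat_lit 5) (nat_lit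 115) (nat_lit 5) (nat_lit 110) (nat_lit 5) (nat_lit 457) (nat_lit 441) (nat_lit 302))) (XT.nd (nat_lit 78) (nat_lit 304) (nat_lit 0) (XT.lf (nat_lit 0) (nat_lit 19554454924) (nat_lit 456) (nat_lit 22709492688) (nat_lit 76) (nat_lit 4640756264) (nat_lit 104) (nat_lit 5) (nat_lit 110) (nat_lit 5) (nat_lit 105) (nat_lit 5) (nat_lit 458) (nat_lit 441) (nat_lit 301)) (XT.lf (nat_lit 0) (nat_lit 2995842196) (nat_lit 304) (nat_lit 23300790224) (nat_lit 380) (nat_lit 21937820591) (nat_lit 100) (nat_lit 5) (nat_lit 104) (nat_lit 5) (nat_lit 105) (nat_lit 5) (nat_lit 459) (nat_lit 441) (nat_lit 300)))) (XT.nd (nat_lit 156) (nat_lit 304) (nat_lit 0) (XT.nd (nat_lit 78) (nat_lit 304) (nat_lit 0) (XT.lf (nat_lit 0) (nat_lit 30772296263) (nat_lit 304) (nat_lit 2985970099) (nat_lit 380) (nat_lit 15853306594) (nat_lit 100) (nat_lit 5) (nat_lit 104) (nat_lit 5) (nat_lit 105) (nat_lit 5) (nat_lit 460) (nat_lit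 441) (nat_lit 299)) (XT.lf (nat_lit 0) (nat_lit 8875122507) (nat_lit 304) (nat_lit 33140689138) (nat_lit 380) (nat_lit 9020596472) (nat_lit 96) (nat_lit 5) (nat_lit 100) (nat_lit 5) (nat_lit 101) (nat_lit 5) (nat_lit 461) (nat_lit 441) (nat_lit 298))) (XT.nd (nat_lit 78) (nat_lit 304) (nat_lit 0) (XT.lf (nat_lit 0) (nat_lit 38576220607) (nat_lit 304) (nat_lit 12475143319) (nat_lit 380) (nat_lit 1462865288) (nat_lit 96) (nat_lit 5) (nat_lit 100) (nat_lit 5) (nat_lit 101) (nat_lit 5) (nat_lit 462) (nat_lit 441) (nat_lit 297)) (XT.lf (nat_lit 0) (nat_lit 6664845581) (nat_lit 304) (nat_lit 38089705714) (nat_lit 76) (nat_lit 9286374703) (nat_lit 92) (nat_lit 5) (nat_lit 96) (nat_lit 5) (nat_lit 93) (nat_lit 5) (nat_lit 463) (nat_lit 441) (nat_lit 296))))))))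
noncomputable def xc183 : XT := (XT.nd (nat_lit 2184) (nat_lit 1824) (nat_lit 0) (XT.nd (nat_lit 1092) (nat_lit 1444) (nat_lit 0) (XT.nd (nat_lit 546) (nat_lit 836) (nat_lit 0) (XT.nd (nat_lit 234) (nat_lit 760) (nat_lit 0) (XT.nd (nat_lit 78) (nat_lit 304) (nat_lit 0) (XT.lf (nat_lit 0) (nat_lit 15592241098) (nat_lit 304) (nat_lit 8048218935) (nat_lit 76) (nat_lit 31980176044) (nat_lit 92) (nat_lit 5) (nat_lit 96) (nat_lit 5) (nat_lit 93) (nat_lit 5) (nat_lit 464) (nat_lit 441) (nat_lit 295)) (XT.nd (nat_lit 78) (nat_lit 0) (nat_lit 0) (XT.lf (nat_lit 0) (nat_lit 24269735866) (nat_lit 304) (nat_lit 1073316625) (nat_lit 380) (nat_lit 31917427413) (nat_lit 88) (nat_lit 5) (nat_lit 92) (nat_lit 5) (nat_lit 93) (nat_lit 5) (nat_lit 465) (nat_lit 441) (nat_lit 294)) (XT.lf (nat_lit 0) (nat_lit 36071306742) (nat_lit 380) (nat_lit 850360752) (nat_lit 76) (nat_lit 22036153835) (nat_lit 88) (nat_lit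 5) (nat_lit 93) (nat_lit 5) (nat_lit 89) (nat_lit 5) (nat_lit 466) (nat_lit 441) (nat_lit 293)))) (XT.nd (nat_lit 156) (nat_lit 304) (nat_lit 0) (XT.nd (nat_lit 78) (nat_lit 228) (nat_lit 0) (XT.lf (nat_lit 0) (nat_lit 33964194461) (nat_lit 228) (nat_lit 13917909602) (nat_lit 304) (nat_lit 12830619742) (nat_lit 85) (nat_lit 5) (nat_lit 88) (nat_lit 5) (nat_lit 89) (nat_lit 5) (nat_lit 467) (nat_lit 441) (nat_lit 292)) (XT.lf (nat_lit 0) (nat_lit 8090901960) (nat_lit 228) (nat_lit 52491608402) (nat_lit 304) (nat_lit 1957908060) (nat_lit 82) (nat_lit 5) (nat_lit 85) (nat_lit 5) (nat_lit 86) (nat_lit 5) (nat_lit 468) (nat_lit 441) (nat_lit 291))) (XT.nd (nat_lit 78) (nat_lit 228) (nat_lit 0) (XT.lf (nat_lit 0) (nat_lit 9842612204) (nat_lit 304) (nat_lit 19221530840) (nat_lit 76) (nat_lit 35353626412) (nat_lit 81) (nat_lit 5) (nat_lit 85) (nat_lit 5) (nat_lit 82) (nat_lit 5) (nat_lit 469) (nat_lit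 441) (nat_lit 290)) (XT.lf (nat_lit 0) (nat_lit 18319844758) (nat_lit 228) (nat_lit 4131933736) (nat_lit 304) (nat_lit 43921384185) (nat_lit 78) (nat_lit 5) (nat_lit 81) (nat_lit 5) (nat_lit 82) (nat_lit 5) (nat_lit 470) (nat_lit 441) (nat_lit 289))))) (XT.nd (nat_lit 234) (nat_lit 456) (nat_lit 0) (XT.nd (nat_lit 78) (nat_lit 380) (nat_lit 0) (XT.lf (nat_lit 0) (nat_lit 36364905017) (nat_lit 304) (nat_lit 10356275817) (nat_lit 76) (nat_lit 21671470023) (nat_lit 78) (nat_lit 5) (nat_lit 82) (nat_lit 5) (nat_lit 79) (nat_lit 5) (nat_lit 471) (nat_lit 441) (nat_lit 288)) (XT.nd (nat_lit 78) (nat_lit 152) (nat_lit 0) (XT.lf (nat_lit 0) (nat_lit 30119716354) (nat_lit 228) (nat_lit 21390462098) (nat_lit 304) (nat_lit 18976110833) (nat_lit 75) (nat_lit 5) (nat_lit 78) (nat_lit 5) (nat_lit 79) (nat_lit 5) (nat_lit 472) (nat_lit 441) (nat_lit 287)) (XT.lf (nat_lit 0) (nat_lit 224004233) (nat_lit 152)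 (nat_lit 67450292931) (nat_lit 228) (nat_lit 4997233744) (nat_lit 73) (nat_lit 5) (nat_lit 75) (nat_lit 5) (nat_lit 76) (nat_lit 5) (nat_lit 473) (nat_lit 441) (nat_lit 286)))) (XT.nd (nat_lit 156) (nat_lit 152) (nat_lit 0) (XT.nd (nat_lit 78) (nat_lit 228) (nat_lit 0) (XT.lf (nat_lit 0) (nat_lit 10414785857) (nat_lit 228) (nat_lit 31201542945) (nat_lit 76) (nat_lit 33289947179) (nat_lit 72) (nat_lit 5) (nat_lit 75) (nat_lit 5) (nat_lit 73) (nat_lit 5) (nat_lit 474) (nat_lit 441) (nat_lit 285)) (XT.lf (nat_lit 0) (nat_lit 12420223975) (nat_lit 228) (nat_lit 14201766801) (nat_lit 304) (nat_lit 50617045535) (nat_lit 69) (nat_lit 5) (nat_lit 72) (nat_lit 5) (nat_lit 73) (nat_lit 5) (nat_lit 475) (nat_lit 441) (nat_lit 284))) (XT.nd (nat_lit 78) (nat_lit 152) (nat_lit 0) (XT.lf (nat_lit 0) (nat_lit 44402953302) (nat_lit 304) (nat_lit 20594181269) (nat_lit 76) (nat_lit 14653130512) (nat_lit 69)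 (nat_lit 5) (nat_lit 73) (nat_lit 5) (nat_lit 70) (nat_lit 5) (nat_lit 476) (nat_lit 441) (nat_lit 283)) (XT.lf (nat_lit 0) (nat_lit 26453503342) (nat_lit 152) (nat_lit 37263986877) (nat_lit 228) (nat_lit 18432339035) (nat_lit 67) (nat_lit 5) (nat_lit 69) (nat_lit 5) (nat_lit 70) (nat_lit 5) (nat_lit 477) (nat_lit 441) (nat_lit 282)))))) (XT.nd (nat_lit 546) (nat_lit 684) (nat_lit 0) (XT.nd (nat_lit 234) (nat_lit 380) (nat_lit 0) (XT.nd (nat_lit 78) (nat_lit 380) (nat_lit 0) (XT.lf (nat_lit 0) (nat_lit 76566549076) (nat_lit 152) (nat_lit 7778705141) (nat_lit 228) (nat_lit 411742669) (nat_lit 67) (nat_lit 5) (nat_lit 69) (nat_lit 5) (nat_lit 70) (nat_lit 5) (nat_lit 478) (nat_lit 441) (nat_lit 281)) (XT.nd (nat_lit 78) (nat_lit 152) (nat_lit 0) (XT.lf (nat_lit 0) (nat_lit 18961549067) (nat_lit 228) (nat_lit 45055694206) (nat_lit 76) (nat_lit 23410625438) (nat_lit 64) (nat_lit 5) (nat_lit 67)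 (nat_lit 5) (nat_lit 65) (nat_lit 5) (nat_lit 479) (nat_lit 441) (nat_lit 280)) (XT.lf (nat_lit 0) (nat_lit 5561420053) (nat_lit 152) (nat_lit 34082366063) (nat_lit 228) (nat_lit 50570454844) (nat_lit 62) (nat_lit 5) (nat_lit 64) (nat_lit 5) (nat_lit 65) (nat_lit 5) (nat_lit 480) (nat_lit 441) (nat_lit 279)))) (XT.nd (nat_lit 156) (nat_lit 228) (nat_lit 0) (XT.nd (nat_lit 78) (nat_lit 152) (nat_lit 0) (XT.lf (nat_lit 0) (nat_lit 60271684072) (nat_lit 152) (nat_lit 1850304246) (nat_lit 228) (nat_lit 30979851057) (nat_lit 62) (nat_lit 5) (nat_lit 64) (nat_lit 5) (nat_lit 65) (nat_lit 5) (nat_lit 481) (nat_lit 441) (nat_lit 278)) (XT.lf (nat_lit 0) (nat_lit 21779320654) (nat_lit 152) (nat_lit 64783180884) (nat_lit 228) (nat_lit 9529396333) (nat_lit 60) (nat_lit 5) (nat_lit 62) (nat_lit 5) (nat_lit 63) (nat_lit 5) (nat_lit 482) (nat_lit 441) (nat_lit 277))) (XT.nd (nat_lit 78) (nat_lit 152) (nat_lit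 0) (XT.lf (nat_lit 0) (nat_lit 13172012940) (nat_lit 228) (nat_lit 19188812408) (nat_lit 76) (nat_lit 66830775441) (nat_lit 59) (nat_lit 5) (nat_lit 62) (nat_lit 5) (nat_lit 60) (nat_lit 5) (nat_lit 483) (nat_lit 441) (nat_lit 276)) (XT.lf (nat_lit 0) (nat_lit 37347672814) (nat_lit 228) (nat_lit 62639274226) (nat_lit 76) (nat_lit 2418559496) (nat_lit 57) (nat_lit 5) (nat_lit 60) (nat_lit 5) (nat_lit 58) (nat_lit 5) (nat_lit 484) (nat_lit 441) (nat_lit 275))))) (XT.nd (nat_lit 234) (nat_lit 304) (nat_lit 0) (XT.nd (nat_lit 78) (nat_lit 380) (nat_lit 0) (XT.lf (nat_lit 0) (nat_lit 63591852147) (nat_lit 228) (nat_lit 3966290772) (nat_lit 76) (nat_lit 38178977997) (nat_lit 57) (nat_lit 5) (nat_lit 60) (nat_lit 5) (nat_lit 58) (nat_lit 5) (nat_lit 485) (nat_lit 441) (nat_lit 274)) (XT.nd (nat_lit 78) (nat_lit 228) (nat_lit 0) (XT.lf (nat_lit 0) (nat_lit 59544400673) (nat_lit 152) (nat_lit 32532477504)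 (nat_lit 228) (nat_lit 17112006112) (nat_lit 55) (nat_lit 5) (nat_lit 57) (nat_lit 5) (nat_lit 58) (nat_lit 5) (nat_lit 486) (nat_lit 441) (nat_lit 273)) (XT.lf (nat_lit 0) (nat_lit 9236188333) (nat_lit 228) (nat_lit 99009297126) (nat_lit 76) (nat_lit 4542746802) (nat_lit 52) (nat_lit 5) (nat_lit 55) (nat_lit 5) (nat_lit 53) (nat_lit 5) (nat_lit 487) (nat_lit 441) (nat_lit 272)))) (XT.nd (nat_lit 156) (nat_lit 152) (nat_lit 0) (XT.nd (nat_lit 78) (nat_lit 152) (nat_lit 0) (XT.lf (nat_lit 0) (nat_lit 37713570694) (nat_lit 228) (nat_lit 35257817453) (nat_lit 76) (nat_lit 43512790700) (nat_lit 52) (nat_lit 5) (nat_lit 55) (nat_lit 5) (nat_lit 53) (nat_lit 5) (nat_lit 488) (nat_lit 441) (nat_lit 271)) (XT.lf (nat_lit 0) (nat_lit 32727039322) (nat_lit 152) (nat_lit 35397789661) (nat_lit 228) (nat_lit 52214593571) (nat_lit 50) (nat_lit 5) (nat_lit 52) (nat_lit 5) (nat_lit 53) (nat_lit 5) (nat_lit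 489) (nat_lit 441) (nat_lit 270))) (XT.nd (nat_lit 78) (nat_lit 152) (nat_lit 0) (XT.lf (nat_lit 0) (nat_lit 100725903800) (nat_lit 228) (nat_lit 19097128349) (nat_lit 76) (nat_lit 4530933742) (nat_lit 50) (nat_lit 5) (nat_lit 53) (nat_lit 5) (nat_lit 51) (nat_lit 4) (nat_lit 490) (nat_lit 441) (nat_lit 269)) (XT.lf (nat_lit 0) (nat_lit 7628990297) (nat_lit 152) (nat_lit 74631148631) (nat_lit 76) (nat_lit 46231828829) (nat_lit 48) (nat_lit 5) (nat_lit 50) (nat_lit 5) (nat_lit 49) (nat_lit 5) (nat_lit 491) (nat_lit 441) (nat_lit 268))))))) (XT.nd (nat_lit 1092) (nat_lit 760) (nat_lit 0) (XT.nd (nat_lit 546) (nat_lit 532) (nat_lit 0) (XT.nd (nat_lit 234) (nat_lit 304) (nat_lit 0) (XT.nd (nat_lit 78) (nat_lit 228) (nat_lit 0) (XT.lf (nat_lit 0) (nat_lit 39982662163) (nat_lit 152) (nat_lit 2085272534) (nat_lit 76) (nat_lit 90733176630) (nat_lit 48) (nat_lit 5) (nat_lit 50) (nat_lit 5) (nat_lit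 49) (nat_lit 5) (nat_lit 492) (nat_lit 441) (nat_lit 267)) (XT.nd (nat_lit 78) (nat_lit 76) (nat_lit 0) (XT.lf (nat_lit 0) (nat_lit 75169774424) (nat_lit 228) (nat_lit 60751672822) (nat_lit 76) (nat_lit 1343477093) (nat_lit 46) (nat_lit 5) (nat_lit 49) (nat_lit 5) (nat_lit 47) (nat_lit 4) (nat_lit 493) (nat_lit 441) (nat_lit 266)) (XT.lf (nat_lit 0) (nat_lit 17016832664) (nat_lit 76) (nat_lit 96089775601) (nat_lit 152) (nat_lit 28795801539) (nat_lit 45) (nat_lit 5) (nat_lit 46) (nat_lit 5) (nat_lit 47) (nat_lit 4) (nat_lit 494) (nat_lit 441) (nat_lit 265)))) (XT.nd (nat_lit 156) (nat_lit 76) (nat_lit 0) (XT.nd (nat_lit 78) (nat_lit 152) (nat_lit 0) (XT.lf (nat_lit 0) (nat_lit 7015965117) (nat_lit 152) (nat_lit 46052110426) (nat_lit 76) (nat_lit 93646634607) (nat_lit 44) (nat_lit 5) (nat_lit 46) (nat_lit 5) (nat_lit 45) (nat_lit 5) (nat_lit 495) (nat_lit 441) (nat_lit 264)) (XT.lf (nat_lit 0)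 (nat_lit 37448078914) (nat_lit 152) (nat_lit 6786379395) (nat_lit 228) (nat_lit 107480370874) (nat_lit 42) (nat_lit 5) (nat_lit 44) (nat_lit 5) (nat_lit 45) (nat_lit 5) (nat_lit 496) (nat_lit 441) (nat_lit 263))) (XT.nd (nat_lit 78) (nat_lit 76) (nat_lit 0) (XT.lf (nat_lit 0) (nat_lit 84758540535) (nat_lit 228) (nat_lit 30870869388) (nat_lit 76) (nat_lit 41263311110) (nat_lit 42) (nat_lit 5) (nat_lit 45) (nat_lit 5) (nat_lit 43) (nat_lit 4) (nat_lit 497) (nat_lit 441) (nat_lit 262)) (XT.lf (nat_lit 0) (nat_lit 58453018338) (nat_lit 76) (nat_lit 69878916257) (nat_lit 152) (nat_lit 33946417571) (nat_lit 41) (nat_lit 5) (nat_lit 42) (nat_lit 5) (nat_lit 43) (nat_lit 4) (nat_lit 498) (nat_lit 441) (nat_lit 261))))) (XT.nd (nat_lit 234) (nat_lit 228) (nat_lit 0) (XT.nd (nat_lit 78) (nat_lit 228) (nat_lit 0) (XT.lf (nat_lit 0) (nat_lit 6484498048) (nat_lit 152) (nat_lit 14698257064) (nat_lit 76)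 (nat_lit 146719176985) (nat_lit 40) (nat_lit 5) (nat_lit 42) (nat_lit 5) (nat_lit 41) (nat_lit 5) (nat_lit 499) (nat_lit 441) (nat_lit 260)) (XT.nd (nat_lit 78) (nat_lit 76) (nat_lit 0) (XT.lf (nat_lit 0) (nat_lit 49556159627) (nat_lit 228) (nat_lit 93295936612) (nat_lit 76) (nat_lit 30838768799) (nat_lit 38) (nat_lit 5) (nat_lit 41) (nat_lit 5) (nat_lit 39) (nat_lit 4) (nat_lit 500) (nat_lit 441) (nat_lit 259)) (XT.lf (nat_lit 0) (nat_lit 664868769) (nat_lit 76) (nat_lit 94726460177) (nat_lit 152) (nat_lit 84347419511) (nat_lit 37) (nat_lit 5) (nat_lit 38) (nat_lit 5) (nat_lit 39) (nat_lit 4) (nat_lit 501) (nat_lit 441) (nat_lit 258)))) (XT.nd (nat_lit 156) (nat_lit 76) (nat_lit 0) (XT.nd (nat_lit 78) (nat_lit 152) (nat_lit 0) (XT.lf (nat_lit 0) (nat_lit 102561423060) (nat_lit 76) (nat_lit 42536142229) (nat_lit 152) (nat_lit 40912495391) (nat_lit 37) (nat_lit 5) (nat_lit 38) (nat_lit 5) (nat_lit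 39) (nat_lit 4) (nat_lit 502) (nat_lit 441) (nat_lit 257)) (XT.lf (nat_lit 0) (nat_lit 5012689414) (nat_lit 152) (nat_lit 175333279477) (nat_lit 76) (nat_lit 12221867347) (nat_lit 35) (nat_lit 5) (nat_lit 37) (nat_lit 5) (nat_lit 36) (nat_lit 4) (nat_lit 503) (nat_lit 441) (nat_lit 256))) (XT.nd (nat_lit 78) (nat_lit 76) (nat_lit 0) (XT.lf (nat_lit 0) (nat_lit 53992252961) (nat_lit 152) (nat_lit 74926236909) (nat_lit 76) (nat_lit 70394823544) (nat_lit 35) (nat_lit 5) (nat_lit 37) (nat_lit 5) (nat_lit 36) (nat_lit 4) (nat_lit 504) (nat_lit 441) (nat_lit 255)) (XT.lf (nat_lit 0) (nat_lit 31508405199) (nat_lit 76) (nat_lit 74403679082) (nat_lit 152) (nat_lit 100459415736) (nat_lit 34) (nat_lit 5) (nat_lit 35) (nat_lit 5) (nat_lit 36) (nat_lit 4) (nat_lit 505) (nat_lit 441) (nat_lit 254)))))) (XT.nd (nat_lit 546) (nat_lit 380) (nat_lit 0) (XT.nd (nat_lit 234) (nat_lit 228) (nat_lit 0) (XT.nd (nat_lit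 78) (nat_lit 152) (nat_lit 0) (XT.lf (nat_lit 0) (nat_lit 145864850493) (nat_lit 76) (nat_lit 15831335836) (nat_lit 152) (nat_lit 52022995713) (nat_lit 34) (nat_lit 5) (nat_lit 35) (nat_lit 5) (nat_lit 36) (nat_lit 4) (nat_lit 506) (nat_lit 441) (nat_lit 253)) (XT.nd (nat_lit 78) (nat_lit 0) (nat_lit 0) (XT.lf (nat_lit 0) (nat_lit 314503269) (nat_lit 152) (nat_lit 176129791617) (nat_lit 76) (nat_lit 44918763652) (nat_lit 32) (nat_lit 5) (nat_lit 34) (nat_lit 5) (nat_lit 33) (nat_lit 4) (nat_lit 507) (nat_lit 441) (nat_lit 252)) (XT.lf (nat_lit 0) (nat_lit 54947468070) (nat_lit 152) (nat_lit 64133046433) (nat_lit 76) (nat_lit 110194627366) (nat_lit 32) (nat_lit 5) (nat_lit 34) (nat_lit 5) (nat_lit 33) (nat_lit 4) (nat_lit 508) (nat_lit 441) (nat_lit 251)))) (XT.nd (nat_lit 156) (nat_lit 152) (nat_lit 0) (XT.nd (nat_lit 78) (nat_lit 0) (nat_lit 0) (XT.lf (nat_lit 0) (nat_lit 55230135935) (nat_lit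 76) (nat_lit 57943661586) (nat_lit 152) (nat_lit 124365946063) (nat_lit 31) (nat_lit 5) (nat_lit 32) (nat_lit 5) (nat_lit 33) (nat_lit 4) (nat_lit 509) (nat_lit 441) (nat_lit 250)) (XT.lf (nat_lit 0) (nat_lit 175512375163) (nat_lit 152) (nat_lit 63491734918) (nat_lit 0) (nat_lit 7153418755) (nat_lit 31) (nat_lit 5) (nat_lit 33) (nat_lit 4) (nat_lit 31) (nat_lit 4) (nat_lit 510) (nat_lit 441) (nat_lit 249))) (XT.nd (nat_lit 78) (nat_lit 76) (nat_lit 0) (XT.lf (nat_lit 0) (nat_lit 62310398327) (nat_lit 76) (nat_lit 180579668616) (nat_lit 76) (nat_lit 12220027181) (nat_lit 30) (nat_lit 4) (nat_lit 31) (nat_lit 5) (nat_lit 31) (nat_lit 4) (nat_lit 511) (nat_lit 441) (nat_lit 248)) (XT.lf (nat_lit 0) (nat_lit 48646346261) (nat_lit 152) (nat_lit 68635284007) (nat_lit 76) (nat_lit 147135690396) (nat_lit 29) (nat_lit 5) (nat_lit 31) (nat_lit 5) (nat_lit 30) (nat_lit 4) (nat_lit 512) (nat_lit 441) (nat_lit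 247))))) (XT.nd (nat_lit 312) (nat_lit 152) (nat_lit 0) (XT.nd (nat_lit 156) (nat_lit 152) (nat_lit 0) (XT.nd (nat_lit 78) (nat_lit 0) (nat_lit 0) (XT.lf (nat_lit 0) (nat_lit 63570668905) (nat_lit 76) (nat_lit 49566689187) (nat_lit 152) (nat_lit 160992934416) (nat_lit 28) (nat_lit 5) (nat_lit 29) (nat_lit 5) (nat_lit 30) (nat_lit 4) (nat_lit 513) (nat_lit 441) (nat_lit 246)) (XT.lf (nat_lit 0) (nat_lit 182370032012) (nat_lit 152) (nat_lit 79857285697) (nat_lit 0) (nat_lit 22025739690) (nat_lit 28) (nat_lit 5) (nat_lit 30) (nat_lit 4) (nat_lit 28) (nat_lit 4) (nat_lit 514) (nat_lit 441) (nat_lit 245))) (XT.nd (nat_lit 78) (nat_lit 76) (nat_lit 0) (XT.lf (nat_lit 0) (nat_lit 58436985546) (nat_lit 76) (nat_lit 198351791112) (nat_lit 76) (nat_lit 38006962052) (nat_lit 27) (nat_lit 4) (nat_lit 28) (nat_lit 5) (nat_lit 28) (nat_lit 4) (nat_lit 515) (nat_lit 441) (nat_lit 244)) (XT.lf (nat_lit 0)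 (nat_lit 29506806702) (nat_lit 152) (nat_lit 99856386497) (nat_lit 76) (nat_lit 176410968409) (nat_lit 26) (nat_lit 5) (nat_lit 28) (nat_lit 5) (nat_lit 27) (nat_lit 4) (nat_lit 516) (nat_lit 441) (nat_lit 243)))) (XT.nd (nat_lit 156) (nat_lit 76) (nat_lit 0) (XT.nd (nat_lit 78) (nat_lit 0) (nat_lit 0) (XT.lf (nat_lit 0) (nat_lit 44263834349) (nat_lit 76) (nat_lit 55545756589) (nat_lit 152) (nat_lit 217426230980) (nat_lit 25) (nat_lit 5) (nat_lit 26) (nat_lit 5) (nat_lit 27) (nat_lit 4) (nat_lit 517) (nat_lit 441) (nat_lit 242)) (XT.lf (nat_lit 0) (nat_lit 175688780022) (nat_lit 152) (nat_lit 130500695016) (nat_lit 0) (nat_lit 22978026946) (nat_lit 25) (nat_lit 5) (nat_lit 27) (nat_lit 4) (nat_lit 25) (nat_lit 4) (nat_lit 518) (nat_lit 441) (nat_lit 241))) (XT.nd (nat_lit 78) (nat_lit 0) (nat_lit 0) (XT.lf (nat_lit 0) (nat_lit 18783902090) (nat_lit 76) (nat_lit 237781433626) (nat_lit 76) (nat_lit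 85070260002) (nat_lit 24) (nat_lit 4) (nat_lit 25) (nat_lit 5) (nat_lit 25) (nat_lit 4) (nat_lit 519) (nat_lit 441) (nat_lit 240)) (XT.lf (nat_lit 0) (nat_lit 180062556560) (nat_lit 76) (nat_lit 163632814574) (nat_lit 76) (nat_lit 10921240428) (nat_lit 24) (nat_lit 4) (nat_lit 25) (nat_lit 5) (nat_lit 25) (nat_lit 4) (nat_lit 520) (nat_lit 441) (nat_lit 239))))))))
noncomputable def xc184 : XT := (XT.nd (nat_lit 56940) (nat_lit 0) (nat_lit 4256) (XT.nd (nat_lit 1092) (nat_lit 152) (nat_lit 0) (XT.nd (nat_lit 546) (nat_lit 304) (nat_lit 0) (XT.nd (nat_lit 234) (nat_lit 228) (nat_lit 0) (XT.nd (nat_lit 78) (nat_lit 76) (nat_lit 0) (XT.lf (nat_lit 0) (nat_lit 64792458343) (nat_lit 152) (nat_lit 19887415991) (nat_lit 76) (nat_lit 283514572878) (nat_lit 23) (nat_lit 5) (nat_lit 25) (nat_lit 5) (nat_lit 24) (nat_lit 4) (nat_lit 521) (nat_lit 441) (nat_lit 238)) (XT.nd (nat_lit 78) (nat_lit 0) (nat_lit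 0) (XT.lf (nat_lit 0) (nat_lit 146232883290) (nat_lit 152) (nat_lit 235301356615) (nat_lit 0) (nat_lit 792579594) (nat_lit 22) (nat_lit 5) (nat_lit 24) (nat_lit 4) (nat_lit 22) (nat_lit 4) (nat_lit 522) (nat_lit 441) (nat_lit 237)) (XT.lf (nat_lit 0) (nat_lit 233475443561) (nat_lit 152) (nat_lit 75569050797) (nat_lit 0) (nat_lit 88034810355) (nat_lit 22) (nat_lit 5) (nat_lit 24) (nat_lit 4) (nat_lit 22) (nat_lit 4) (nat_lit 523) (nat_lit 441) (nat_lit 236)))) (XT.nd (nat_lit 156) (nat_lit 152) (nat_lit 0) (XT.nd (nat_lit 78) (nat_lit 0) (nat_lit 0) (XT.lf (nat_lit 0) (nat_lit 95195977622) (nat_lit 76) (nat_lit 231370044546) (nat_lit 76) (nat_lit 85929097520) (nat_lit 21) (nat_lit 4) (nat_lit 22) (nat_lit 5) (nat_lit 22) (nat_lit 4) (nat_lit 524) (nat_lit 441) (nat_lit 235)) (XT.lf (nat_lit 0) (nat_lit 277122098019) (nat_lit 76) (nat_lit 148468451168) (nat_lit 76) (nat_lit 3027205267) (nat_lit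 21) (nat_lit 4) (nat_lit 22) (nat_lit 5) (nat_lit 22) (nat_lit 4) (nat_lit 525) (nat_lit 441) (nat_lit 234))) (XT.nd (nat_lit 78) (nat_lit 0) (nat_lit 0) (XT.lf (nat_lit 0) (nat_lit 21989291001) (nat_lit 76) (nat_lit 59684280484) (nat_lit 152) (nat_lit 363790212893) (nat_lit 19) (nat_lit 5) (nat_lit 20) (nat_lit 5) (nat_lit 21) (nat_lit 4) (nat_lit 526) (nat_lit 441) (nat_lit 233)) (XT.lf (nat_lit 0) (nat_lit 173638638617) (nat_lit 152) (nat_lit 254231809544) (nat_lit 0) (nat_lit 35122637061) (nat_lit 19) (nat_lit 5) (nat_lit 21) (nat_lit 4) (nat_lit 19) (nat_lit 4) (nat_lit 527) (nat_lit 441) (nat_lit 232))))) (XT.nd (nat_lit 234) (nat_lit 228) (nat_lit 0) (XT.nd (nat_lit 78) (nat_lit 76) (nat_lit 0) (XT.lf (nat_lit 0) (nat_lit 271180041403) (nat_lit 152) (nat_lit 77506111642) (nat_lit 0) (nat_lit 132663793962) (nat_lit 19) (nat_lit 5) (nat_lit 21) (nat_lit 4) (nat_lit 19) (nat_lit 4) (nat_lit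 528) (nat_lit 441) (nat_lit 231)) (XT.nd (nat_lit 78) (nat_lit 0) (nat_lit 0) (XT.lf (nat_lit 0) (nat_lit 111628008073) (nat_lit 76) (nat_lit 263713000366) (nat_lit 76) (nat_lit 125196518747) (nat_lit 18) (nat_lit 4) (nat_lit 19) (nat_lit 5) (nat_lit 19) (nat_lit 4) (nat_lit 529) (nat_lit 441) (nat_lit 230)) (XT.lf (nat_lit 0) (nat_lit 312909025073) (nat_lit 76) (nat_lit 173113276046) (nat_lit 76) (nat_lit 34596571402) (nat_lit 18) (nat_lit 4) (nat_lit 19) (nat_lit 5) (nat_lit 19) (nat_lit 4) (nat_lit 530) (nat_lit 441) (nat_lit 229)))) (XT.nd (nat_lit 156) (nat_lit 76) (nat_lit 0) (XT.nd (nat_lit 78) (nat_lit 76) (nat_lit 0) (XT.lf (nat_lit 0) (nat_lit 58595611545) (nat_lit 152) (nat_lit 18395913381) (nat_lit 76) (nat_lit 464665521218) (nat_lit 17) (nat_lit 5) (nat_lit 19) (nat_lit 5) (nat_lit 18) (nat_lit 4) (nat_lit 531) (nat_lit 441) (nat_lit 228)) (XT.lf (nat_lit 0) (nat_lit 158615239922)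 (nat_lit 152) (nat_lit 378242831409) (nat_lit 0) (nat_lit 26694173883) (nat_lit 16) (nat_lit 5) (nat_lit 18) (nat_lit 4) (nat_lit 16) (nat_lit 4) (nat_lit 532) (nat_lit 441) (nat_lit 227))) (XT.nd (nat_lit 78) (nat_lit 76) (nat_lit 0) (XT.lf (nat_lit 0) (nat_lit 265214356721) (nat_lit 152) (nat_lit 187955814979) (nat_lit 0) (nat_lit 133293107199) (nat_lit 16) (nat_lit 5) (nat_lit 18) (nat_lit 4) (nat_lit 16) (nat_lit 4) (nat_lit 533) (nat_lit 441) (nat_lit 226)) (XT.lf (nat_lit 0) (nat_lit 12236632917) (nat_lit 76) (nat_lit 365097558756) (nat_lit 76) (nat_lit 233176134487) (nat_lit 15) (nat_lit 4) (nat_lit 16) (nat_lit 5) (nat_lit 16) (nat_lit 4) (nat_lit 534) (nat_lit 441) (nat_lit 225)))))) (XT.nd (nat_lit 55302) (nat_lit 0) (nat_lit 8512) (XT.nd (nat_lit 234) (nat_lit 0) (nat_lit 0) (XT.nd (nat_lit 78) (nat_lit 152) (nat_lit 0) (XT.lf (nat_lit 0) (nat_lit 228963545820) (nat_lit 76) (nat_lit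 269279314289) (nat_lit 76) (nat_lit 137357723596) (nat_lit 15) (nat_lit 4) (nat_lit 16) (nat_lit 5) (nat_lit 16) (nat_lit 4) (nat_lit 535) (nat_lit 441) (nat_lit 224)) (XT.nd (nat_lit 78) (nat_lit 152) (nat_lit 0) (XT.lf (nat_lit 0) (nat_lit 456526272114) (nat_lit 76) (nat_lit 168670422297) (nat_lit 76) (nat_lit 36748673103) (nat_lit 15) (nat_lit 4) (nat_lit 16) (nat_lit 5) (nat_lit 16) (nat_lit 4) (nat_lit 536) (nat_lit 441) (nat_lit 223)) (XT.lf (nat_lit 0) (nat_lit 4941818872) (nat_lit 76) (nat_lit 61820970892) (nat_lit 152) (nat_lit 622786976980) (nat_lit 13) (nat_lit 5) (nat_lit 14) (nat_lit 5) (nat_lit 15) (nat_lit 4) (nat_lit 537) (nat_lit 441) (nat_lit 222)))) (XT.nd (nat_lit 156) (nat_lit 0) (nat_lit 0) (XT.nd (nat_lit 78) (nat_lit 0) (nat_lit 0) (XT.lf (nat_lit 0) (nat_lit 178536905060) (nat_lit 152) (nat_lit 486854391994) (nat_lit 0) (nat_lit 52896863240) (nat_lit 13) (nat_lit 5)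 (nat_lit 15) (nat_lit 4) (nat_lit 13) (nat_lit 4) (nat_lit 538) (nat_lit 441) (nat_lit 221)) (XT.lf (nat_lit 0) (nat_lit 296912938441) (nat_lit 152) (nat_lit 280227108251) (nat_lit 0) (nat_lit 171272766223) (nat_lit 13) (nat_lit 5) (nat_lit 15) (nat_lit 4) (nat_lit 13) (nat_lit 4) (nat_lit 539) (nat_lit 441) (nat_lit 220))) (XT.nd (nat_lit 54834) (nat_lit 0) (nat_lit 8512) (XT.lf (nat_lit 0) (nat_lit 421207538996) (nat_lit 152) (nat_lit 63268928310) (nat_lit 0) (nat_lit 295567242589) (nat_lit 13) (nat_lit 5) (nat_lit 15) (nat_lit 4) (nat_lit 13) (nat_lit 4) (nat_lit 540) (nat_lit 441) (nat_lit 219)) (XT.lf (nat_lit 0) (nat_lit 4832528145) (nat_lit 836) (nat_lit 5480917084) (nat_lit 836) (nat_lit 5480917084) (nat_lit 125) (nat_lit 3) (nat_lit 136) (nat_lit 3) (nat_lit 136) (nat_lit 5) (nat_lit 442) (nat_lit 442) (nat_lit 316))))) (XT.nd (nat_lit 234) (nat_lit 0) (nat_lit 152) (XT.nd (nat_lit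 78) (nat_lit 0) (nat_lit 76) (XT.lf (nat_lit 76) (nat_lit 4662499448) (nat_lit 0) (nat_lit 5381311075) (nat_lit 836) (nat_lit 22327750798) (nat_lit 126) (nat_lit 5) (nat_lit 125) (nat_lit 3) (nat_lit 136) (nat_lit 5) (nat_lit 443) (nat_lit 442) (nat_lit 315)) (XT.nd (nat_lit 78) (nat_lit 0) (nat_lit 0) (XT.lf (nat_lit 0) (nat_lit 10791976907) (nat_lit 760) (nat_lit 11907064842) (nat_lit 836) (nat_lit 10476975980) (nat_lit 126) (nat_lit 5) (nat_lit 136) (nat_lit 5) (nat_lit 137) (nat_lit 5) (nat_lit 444) (nat_lit 442) (nat_lit 314)) (XT.lf (nat_lit 76) (nat_lit 4746371609) (nat_lit 0) (nat_lit 6989575662) (nat_lit 836) (nat_lit 22276831431) (nat_lit 127) (nat_lit 5) (nat_lit 126) (nat_lit 5) (nat_lit 137) (nat_lit 5) (nat_lit 445) (nat_lit 442) (nat_lit 313)))) (XT.nd (nat_lit 156) (nat_lit 0) (nat_lit 76) (XT.nd (nat_lit 78) (nat_lit 0) (nat_lit 0) (XT.lf (nat_lit 0) (nat_lit 13076726042) (nat_lit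 760) (nat_lit 12389670745) (nat_lit 836) (nat_lit 9407501894) (nat_lit 127) (nat_lit 5) (nat_lit 137) (nat_lit 5) (nat_lit 138) (nat_lit 5) (nat_lit 446) (nat_lit 442) (nat_lit 312)) (XT.lf (nat_lit 76) (nat_lit 5386304331) (nat_lit 0) (nat_lit 9293343503) (nat_lit 836) (nat_lit 21088673005) (nat_lit 128) (nat_lit 5) (nat_lit 127) (nat_lit 5) (nat_lit 138) (nat_lit 5) (nat_lit 447) (nat_lit 442) (nat_lit 311))) (XT.nd (nat_lit 78) (nat_lit 0) (nat_lit 0) (XT.lf (nat_lit 0) (nat_lit 16692592888) (nat_lit 760) (nat_lit 12341791404) (nat_lit 836) (nat_lit 7656587274) (nat_lit 128) (nat_lit 5) (nat_lit 138) (nat_lit 5) (nat_lit 139) (nat_lit 5) (nat_lit 448) (nat_lit 442) (nat_lit 310)) (XT.lf (nat_lit 76) (nat_lit 6658778053) (nat_lit 0) (nat_lit 12400457753) (nat_lit 836) (nat_lit 18587867747) (nat_lit 129) (nat_lit 5) (nat_lit 128) (nat_lit 5) (nat_lit 139) (nat_lit 5) (nat_lit 449) (nat_lit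 442) (nat_lit 309))))))) (XT.nd (nat_lit 1092) (nat_lit 2052) (nat_lit 0) (XT.nd (nat_lit 546) (nat_lit 1368) (nat_lit 0) (XT.nd (nat_lit 234) (nat_lit 1140) (nat_lit 0) (XT.nd (nat_lit 78) (nat_lit 0) (nat_lit 0) (XT.lf (nat_lit 0) (nat_lit 21832600944) (nat_lit 760) (nat_lit 11687814331) (nat_lit 836) (nat_lit 5116208558) (nat_lit 129) (nat_lit 5) (nat_lit 139) (nat_lit 5) (nat_lit 140) (nat_lit 5) (nat_lit 450) (nat_lit 442) (nat_lit 308)) (XT.nd (nat_lit 78) (nat_lit 0) (nat_lit 76) (XT.lf (nat_lit 76) (nat_lit 8648804209) (nat_lit 0) (nat_lit 16431165514) (nat_lit 836) (nat_lit 14578884772) (nat_lit 130) (nat_lit 5) (nat_lit 129) (nat_lit 5) (nat_lit 140) (nat_lit 5) (nat_lit 451) (nat_lit 442) (nat_lit 307)) (XT.lf (nat_lit 0) (nat_lit 28711634629) (nat_lit 760) (nat_lit 10343692153) (nat_lit 76) (nat_lit 1665774609) (nat_lit 130) (nat_lit 5) (nat_lit 140) (nat_lit 5) (nat_lit 131) (nat_lit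 5) (nat_lit 452) (nat_lit 442) (nat_lit 306)))) (XT.nd (nat_lit 156) (nat_lit 456) (nat_lit 0) (XT.nd (nat_lit 78) (nat_lit 0) (nat_lit 0) (XT.lf (nat_lit 0) (nat_lit 11450674951) (nat_lit 760) (nat_lit 21519613946) (nat_lit 836) (nat_lit 8843902461) (nat_lit 120) (nat_lit 5) (nat_lit 130) (nat_lit 5) (nat_lit 131) (nat_lit 5) (nat_lit 453) (nat_lit 442) (nat_lit 305)) (XT.lf (nat_lit 0) (nat_lit 34691470703) (nat_lit 760) (nat_lit 2922938978) (nat_lit 836) (nat_lit 5338900435) (nat_lit 120) (nat_lit 5) (nat_lit 130) (nat_lit 5) (nat_lit 131) (nat_lit 5) (nat_lit 454) (nat_lit 442) (nat_lit 304))) (XT.nd (nat_lit 78) (nat_lit 76) (nat_lit 0) (XT.lf (nat_lit 0) (nat_lit 15168773228) (nat_lit 380) (nat_lit 27815506358) (nat_lit 456) (nat_lit 1140429010) (nat_lit 115) (nat_lit 5) (nat_lit 120) (nat_lit 5) (nat_lit 121) (nat_lit 5) (nat_lit 455) (nat_lit 442) (nat_lit 303)) (XT.lf (nat_lit 0) (nat_lit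 3351029284) (nat_lit 456) (nat_lit 5393624051) (nat_lit 76) (nat_lit 36598090478) (nat_lit 114) (nat_lit 5) (nat_lit 120) (nat_lit 5) (nat_lit 115) (nat_lit 5) (nat_lit 456) (nat_lit 442) (nat_lit 302))))) (XT.nd (nat_lit 234) (nat_lit 608) (nat_lit 0) (XT.nd (nat_lit 78) (nat_lit 380) (nat_lit 0) (XT.lf (nat_lit 0) (nat_lit 8519612706) (nat_lit 456) (nat_lit 26822041686) (nat_lit 76) (nat_lit 11254548525) (nat_lit 109) (nat_lit 5) (nat_lit 115) (nat_lit 5) (nat_lit 110) (nat_lit 5) (nat_lit 457) (nat_lit 442) (nat_lit 301)) (XT.nd (nat_lit 78) (nat_lit 380) (nat_lit 0) (XT.lf (nat_lit 0) (nat_lit 14180544212) (nat_lit 456) (nat_lit 1667448281) (nat_lit 76) (nat_lit 32052647309) (nat_lit 109) (nat_lit 5) (nat_lit 115) (nat_lit 5) (nat_lit 110) (nat_lit 5) (nat_lit 458) (nat_lit 442) (nat_lit 300)) (XT.lf (nat_lit 0) (nat_lit 20600104078) (nat_lit 456) (nat_lit 23768457949) (nat_lit 76) (nat_lit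 4877958147) (nat_lit 104) (nat_lit 5) (nat_lit 110) (nat_lit 5) (nat_lit 105) (nat_lit 5) (nat_lit 459) (nat_lit 442) (nat_lit 299)))) (XT.nd (nat_lit 156) (nat_lit 304) (nat_lit 0) (XT.nd (nat_lit 78) (nat_lit 0) (nat_lit 0) (XT.lf (nat_lit 0) (nat_lit 3220909657) (nat_lit 304) (nat_lit 24456421459) (nat_lit 380) (nat_lit 22965529691) (nat_lit 100) (nat_lit 5) (nat_lit 104) (nat_lit 5) (nat_lit 105) (nat_lit 5) (nat_lit 460) (nat_lit 442) (nat_lit 298)) (XT.lf (nat_lit 0) (nat_lit 32382601887) (nat_lit 304) (nat_lit 3126308342) (nat_lit 380) (nat_lit 16580084371) (nat_lit 100) (nat_lit 5) (nat_lit 104) (nat_lit 5) (nat_lit 105) (nat_lit 5) (nat_lit 461) (nat_lit 442) (nat_lit 297))) (XT.nd (nat_lit 78) (nat_lit 0) (nat_lit 0) (XT.lf (nat_lit 0) (nat_lit 9392381585) (nat_lit 304) (nat_lit 34785244841) (nat_lit 380) (nat_lit 9407531384) (nat_lit 96) (nat_lit 5) (nat_lit 100) (nat_lit 5) (nat_lit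 101) (nat_lit 5) (nat_lit 462) (nat_lit 442) (nat_lit 296)) (XT.lf (nat_lit 0) (nat_lit 40575034450) (nat_lit 304) (nat_lit 13087015957) (nat_lit 380) (nat_lit 1474965780) (nat_lit 96) (nat_lit 5) (nat_lit 100) (nat_lit 5) (nat_lit 101) (nat_lit 5) (nat_lit 463) (nat_lit 442) (nat_lit 295)))))) (XT.nd (nat_lit 546) (nat_lit 912) (nat_lit 0) (XT.nd (nat_lit 234) (nat_lit 532) (nat_lit 0) (XT.nd (nat_lit 78) (nat_lit 304) (nat_lit 0) (XT.lf (nat_lit 0) (nat_lit 7055678434) (nat_lit 304) (nat_lit 39920701454) (nat_lit 76) (nat_lit 9763696035) (nat_lit 92) (nat_lit 5) (nat_lit 96) (nat_lit 5) (nat_lit 93) (nat_lit 5) (nat_lit 464) (nat_lit 442) (nat_lit 294)) (XT.nd (nat_lit 78) (nat_lit 304) (nat_lit 0) (XT.lf (nat_lit 0) (nat_lit 16426701319) (nat_lit 304) (nat_lit 8380639839) (nat_lit 76) (nat_lit 33591568272) (nat_lit 92) (nat_lit 5) (nat_lit 96) (nat_lit 5) (nat_lit 93) (nat_lit 5) (nat_lit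 465) (nat_lit 442) (nat_lit 293)) (XT.lf (nat_lit 0) (nat_lit 25552083831) (nat_lit 304) (nat_lit 1111432749) (nat_lit 380) (nat_lit 33457306467) (nat_lit 88) (nat_lit 5) (nat_lit 92) (nat_lit 5) (nat_lit 93) (nat_lit 5) (nat_lit 466) (nat_lit 442) (nat_lit 292)))) (XT.nd (nat_lit 156) (nat_lit 304) (nat_lit 0) (XT.nd (nat_lit 78) (nat_lit 228) (nat_lit 0) (XT.lf (nat_lit 0) (nat_lit 37925876116) (nat_lit 380) (nat_lit 824974742) (nat_lit 76) (nat_lit 23152296784) (nat_lit 88) (nat_lit 5) (nat_lit 93) (nat_lit 5) (nat_lit 89) (nat_lit 5) (nat_lit 467) (nat_lit 442) (nat_lit 291)) (XT.lf (nat_lit 0) (nat_lit 35729213005) (nat_lit 228) (nat_lit 14596614607) (nat_lit 304) (nat_lit 13420037606) (nat_lit 85) (nat_lit 5) (nat_lit 88) (nat_lit 5) (nat_lit 89) (nat_lit 5) (nat_lit 468) (nat_lit 442) (nat_lit 290))) (XT.nd (nat_lit 78) (nat_lit 76) (nat_lit 0) (XT.lf (nat_lit 0) (nat_lit 8563368793)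 (nat_lit 228) (nat_lit 55096838715) (nat_lit 304) (nat_lit 2004790055) (nat_lit 82) (nat_lit 5) (nat_lit 85) (nat_lit 5) (nat_lit 86) (nat_lit 5) (nat_lit 469) (nat_lit 442) (nat_lit 289)) (XT.lf (nat_lit 0) (nat_lit 10381772015) (nat_lit 304) (nat_lit 20116353045) (nat_lit 76) (nat_lit 37138169437) (nat_lit 81) (nat_lit 5) (nat_lit 85) (nat_lit 5) (nat_lit 82) (nat_lit 5) (nat_lit 470) (nat_lit 442) (nat_lit 288))))) (XT.nd (nat_lit 234) (nat_lit 456) (nat_lit 0) (XT.nd (nat_lit 78) (nat_lit 228) (nat_lit 0) (XT.lf (nat_lit 0) (nat_lit 19301022714) (nat_lit 228) (nat_lit 4319152150) (nat_lit 304) (nat_lit 46069344174) (nat_lit 78) (nat_lit 5) (nat_lit 81) (nat_lit 5) (nat_lit 82) (nat_lit 5) (nat_lit 471) (nat_lit 442) (nat_lit 287)) (XT.nd (nat_lit 78) (nat_lit 228) (nat_lit 0) (XT.lf (nat_lit 0) (nat_lit 38227064549) (nat_lit 304) (nat_lit 10810103947) (nat_lit 76) (nat_lit 22772908330)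 (nat_lit 78) (nat_lit 5) (nat_lit 82) (nat_lit 5) (nat_lit 79) (nat_lit 5) (nat_lit 472) (nat_lit 442) (nat_lit 286)) (XT.lf (nat_lit 0) (nat_lit 31688655806) (nat_lit 228) (nat_lit 22439837577) (nat_lit 304) (nat_lit 19879959725) (nat_lit 75) (nat_lit 5) (nat_lit 78) (nat_lit 5) (nat_lit 79) (nat_lit 5) (nat_lit 473) (nat_lit 442) (nat_lit 285)))) (XT.nd (nat_lit 156) (nat_lit 228) (nat_lit 0) (XT.nd (nat_lit 78) (nat_lit 76) (nat_lit 0) (XT.lf (nat_lit 0) (nat_lit 298949164) (nat_lit 152) (nat_lit 70801125299) (nat_lit 228) (nat_lit 5202920017) (nat_lit 73) (nat_lit 5) (nat_lit 75) (nat_lit 5) (nat_lit 76) (nat_lit 5) (nat_lit 474) (nat_lit 442) (nat_lit 284)) (XT.lf (nat_lit 0) (nat_lit 10976250411) (nat_lit 228) (nat_lit 32699555340) (nat_lit 76) (nat_lit 34973738832) (nat_lit 72) (nat_lit 5) (nat_lit 75) (nat_lit 5) (nat_lit 73) (nat_lit 5) (nat_lit 475) (nat_lit 442) (nat_lit 283))) (XT.nd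 (nat_lit 78) (nat_lit 0) (nat_lit 0) (XT.lf (nat_lit 0) (nat_lit 13102298882) (nat_lit 228) (nat_lit 14890530773) (nat_lit 304) (nat_lit 53106162998) (nat_lit 69) (nat_lit 5) (nat_lit 72) (nat_lit 5) (nat_lit 73) (nat_lit 5) (nat_lit 476) (nat_lit 442) (nat_lit 282)) (XT.lf (nat_lit 0) (nat_lit 46661265035) (nat_lit 304) (nat_lit 21564151046) (nat_lit 76) (nat_lit 15405445948) (nat_lit 69) (nat_lit 5) (nat_lit 73) (nat_lit 5) (nat_lit 70) (nat_lit 5) (nat_lit 477) (nat_lit 442) (nat_lit 281))))))))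
noncomputable def xc185 : XT := (XT.nd (nat_lit 2184) (nat_lit 1444) (nat_lit 0) (XT.nd (nat_lit 1092) (nat_lit 1140) (nat_lit 0) (XT.nd (nat_lit 546) (nat_lit 684) (nat_lit 0) (XT.nd (nat_lit 234) (nat_lit 380) (nat_lit 0) (XT.nd (nat_lit 78) (nat_lit 228) (nat_lit 0) (XT.lf (nat_lit 0) (nat_lit 27834954258) (nat_lit 152) (nat_lit 39105674858) (nat_lit 228) (nat_lit 19314820664) (nat_lit 67) (nat_lit 5) (nat_lit 69) (nat_lit 5) (nat_lit 70) (nat_lit 5) (nat_lit 478) (nat_lit 442) (nat_lit 280)) (XT.nd (nat_lit 78) (nat_lit 228) (nat_lit 0) (XT.lf (nat_lit 0) (nat_lit 80450853433) (nat_lit 152) (nat_lit 8147153387) (nat_lit 228) (nat_lit 395058067) (nat_lit 67) (nat_lit 5) (nat_lit 69) (nat_lit 5) (nat_lit 70) (nat_lit 5) (nat_lit 479) (nat_lit 442) (nat_lit 279)) (XT.lf (nat_lit 0) (nat_lit 19945193694) (nat_lit 228) (nat_lit 47250783784) (nat_lit 76) (nat_lit 24601499643) (nat_lit 64) (nat_lit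 5) (nat_lit 67) (nat_lit 5) (nat_lit 65) (nat_lit 5) (nat_lit 480) (nat_lit 442) (nat_lit 278)))) (XT.nd (nat_lit 156) (nat_lit 228) (nat_lit 0) (XT.nd (nat_lit 78) (nat_lit 0) (nat_lit 0) (XT.lf (nat_lit 0) (nat_lit 5896255622) (nat_lit 152) (nat_lit 35764479553) (nat_lit 228) (nat_lit 53062473497) (nat_lit 62) (nat_lit 5) (nat_lit 64) (nat_lit 5) (nat_lit 65) (nat_lit 5) (nat_lit 481) (nat_lit 442) (nat_lit 277)) (XT.lf (nat_lit 0) (nat_lit 63339329767) (nat_lit 152) (nat_lit 1921862493) (nat_lit 228) (nat_lit 32494077810) (nat_lit 62) (nat_lit 5) (nat_lit 64) (nat_lit 5) (nat_lit 65) (nat_lit 5) (nat_lit 482) (nat_lit 442) (nat_lit 276))) (XT.nd (nat_lit 78) (nat_lit 76) (nat_lit 0) (XT.lf (nat_lit 0) (nat_lit 22922788778) (nat_lit 152) (nat_lit 68000528504) (nat_lit 228) (nat_lit 9971535190) (nat_lit 60) (nat_lit 5) (nat_lit 62) (nat_lit 5) (nat_lit 63) (nat_lit 5) (nat_lit 483) (nat_lit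 442) (nat_lit 275)) (XT.lf (nat_lit 0) (nat_lit 13862263257) (nat_lit 228) (nat_lit 20095294571) (nat_lit 76) (nat_lit 70192035294) (nat_lit 59) (nat_lit 5) (nat_lit 62) (nat_lit 5) (nat_lit 60) (nat_lit 5) (nat_lit 484) (nat_lit 442) (nat_lit 274))))) (XT.nd (nat_lit 234) (nat_lit 380) (nat_lit 0) (XT.nd (nat_lit 78) (nat_lit 152) (nat_lit 0) (XT.lf (nat_lit 0) (nat_lit 39246342675) (nat_lit 228) (nat_lit 65717911055) (nat_lit 76) (nat_lit 2559958846) (nat_lit 57) (nat_lit 5) (nat_lit 60) (nat_lit 5) (nat_lit 58) (nat_lit 5) (nat_lit 485) (nat_lit 442) (nat_lit 273)) (XT.nd (nat_lit 78) (nat_lit 152) (nat_lit 0) (XT.lf (nat_lit 0) (nat_lit 66801241155) (nat_lit 228) (nat_lit 4113817804) (nat_lit 76) (nat_lit 40107423445) (nat_lit 57) (nat_lit 5) (nat_lit 60) (nat_lit 5) (nat_lit 58) (nat_lit 5) (nat_lit 486) (nat_lit 442) (nat_lit 272)) (XT.lf (nat_lit 0) (nat_lit 62571589060) (nat_lit 152)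 (nat_lit 34138290697) (nat_lit 228) (nat_lit 17936986351) (nat_lit 55) (nat_lit 5) (nat_lit 57) (nat_lit 5) (nat_lit 58) (nat_lit 5) (nat_lit 487) (nat_lit 442) (nat_lit 271)))) (XT.nd (nat_lit 156) (nat_lit 152) (nat_lit 0) (XT.nd (nat_lit 78) (nat_lit 0) (nat_lit 0) (XT.lf (nat_lit 0) (nat_lit 9727338772) (nat_lit 228) (nat_lit 103908506195) (nat_lit 76) (nat_lit 4790327764) (nat_lit 52) (nat_lit 5) (nat_lit 55) (nat_lit 5) (nat_lit 53) (nat_lit 5) (nat_lit 488) (nat_lit 442) (nat_lit 270)) (XT.lf (nat_lit 0) (nat_lit 39627193059) (nat_lit 228) (nat_lit 36971893290) (nat_lit 76) (nat_lit 45707900351) (nat_lit 52) (nat_lit 5) (nat_lit 55) (nat_lit 5) (nat_lit 53) (nat_lit 5) (nat_lit 489) (nat_lit 442) (nat_lit 269))) (XT.nd (nat_lit 78) (nat_lit 0) (nat_lit 0) (XT.lf (nat_lit 0) (nat_lit 34411418984) (nat_lit 152) (nat_lit 37147014466) (nat_lit 228) (nat_lit 54796588368) (nat_lit 50) (nat_lit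 5) (nat_lit 52) (nat_lit 5) (nat_lit 53) (nat_lit 5) (nat_lit 490) (nat_lit 442) (nat_lit 268)) (XT.lf (nat_lit 0) (nat_lit 105788566278) (nat_lit 228) (nat_lit 20005244837) (nat_lit 76) (nat_lit 4776531171) (nat_lit 50) (nat_lit 5) (nat_lit 53) (nat_lit 5) (nat_lit 51) (nat_lit 4) (nat_lit 491) (nat_lit 442) (nat_lit 267)))))) (XT.nd (nat_lit 546) (nat_lit 532) (nat_lit 0) (XT.nd (nat_lit 234) (nat_lit 304) (nat_lit 0) (XT.nd (nat_lit 78) (nat_lit 152) (nat_lit 0) (XT.lf (nat_lit 0) (nat_lit 8036696182) (nat_lit 152) (nat_lit 78315848642) (nat_lit 76) (nat_lit 48562705295) (nat_lit 48) (nat_lit 5) (nat_lit 50) (nat_lit 5) (nat_lit 49) (nat_lit 5) (nat_lit 492) (nat_lit 442) (nat_lit 266)) (XT.nd (nat_lit 78) (nat_lit 152) (nat_lit 0) (XT.lf (nat_lit 0) (nat_lit 42006801338) (nat_lit 152) (nat_lit 2144910046) (nat_lit 76) (nat_lit 95288202152) (nat_lit 48) (nat_lit 5) (nat_lit 50) (nat_lit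 5) (nat_lit 49) (nat_lit 5) (nat_lit 493) (nat_lit 442) (nat_lit 265)) (XT.lf (nat_lit 0) (nat_lit 78953066923) (nat_lit 228) (nat_lit 63744425151) (nat_lit 76) (nat_lit 1429435385) (nat_lit 46) (nat_lit 5) (nat_lit 49) (nat_lit 5) (nat_lit 47) (nat_lit 4) (nat_lit 494) (nat_lit 442) (nat_lit 264)))) (XT.nd (nat_lit 156) (nat_lit 152) (nat_lit 0) (XT.nd (nat_lit 78) (nat_lit 76) (nat_lit 0) (XT.lf (nat_lit 0) (nat_lit 17911782524) (nat_lit 76) (nat_lit 100874467452) (nat_lit 152) (nat_lit 30210061982) (nat_lit 45) (nat_lit 5) (nat_lit 46) (nat_lit 5) (nat_lit 47) (nat_lit 4) (nat_lit 495) (nat_lit 442) (nat_lit 263)) (XT.lf (nat_lit 0) (nat_lit 7390299112) (nat_lit 152) (nat_lit 48311927401) (nat_lit 76) (nat_lit 98347039844) (nat_lit 44) (nat_lit 5) (nat_lit 46) (nat_lit 5) (nat_lit 45) (nat_lit 5) (nat_lit 496) (nat_lit 442) (nat_lit 262))) (XT.nd (nat_lit 78) (nat_lit 0) (nat_lit 0) (XT.lf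 (nat_lit 0) (nat_lit 39362581268) (nat_lit 152) (nat_lit 7106672221) (nat_lit 228) (nat_lit 112830161148) (nat_lit 42) (nat_lit 5) (nat_lit 44) (nat_lit 5) (nat_lit 45) (nat_lit 5) (nat_lit 497) (nat_lit 442) (nat_lit 261)) (XT.lf (nat_lit 0) (nat_lit 89018724052) (nat_lit 228) (nat_lit 32373501084) (nat_lit 76) (nat_lit 43344016846) (nat_lit 42) (nat_lit 5) (nat_lit 45) (nat_lit 5) (nat_lit 43) (nat_lit 4) (nat_lit 498) (nat_lit 442) (nat_lit 260))))) (XT.nd (nat_lit 234) (nat_lit 228) (nat_lit 0) (XT.nd (nat_lit 78) (nat_lit 228) (nat_lit 0) (XT.lf (nat_lit 0) (nat_lit 61415921162) (nat_lit 76) (nat_lit 73354435267) (nat_lit 152) (nat_lit 35620819922) (nat_lit 41) (nat_lit 5) (nat_lit 42) (nat_lit 5) (nat_lit 43) (nat_lit 4) (nat_lit 499) (nat_lit 442) (nat_lit 259)) (XT.nd (nat_lit 78) (nat_lit 152) (nat_lit 0) (XT.lf (nat_lit 0) (nat_lit 6829851515) (nat_lit 152) (nat_lit 15394134193) (nat_lit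 76) (nat_lit 154071984597) (nat_lit 40) (nat_lit 5) (nat_lit 42) (nat_lit 5) (nat_lit 41) (nat_lit 5) (nat_lit 500) (nat_lit 442) (nat_lit 258)) (XT.lf (nat_lit 0) (nat_lit 52054965775) (nat_lit 228) (nat_lit 97921565447) (nat_lit 76) (nat_lit 32397825285) (nat_lit 38) (nat_lit 5) (nat_lit 41) (nat_lit 5) (nat_lit 39) (nat_lit 4) (nat_lit 501) (nat_lit 442) (nat_lit 257)))) (XT.nd (nat_lit 156) (nat_lit 152) (nat_lit 0) (XT.nd (nat_lit 78) (nat_lit 0) (nat_lit 0) (XT.lf (nat_lit 0) (nat_lit 736648461) (nat_lit 76) (nat_lit 99444846845) (nat_lit 152) (nat_lit 88543158792) (nat_lit 37) (nat_lit 5) (nat_lit 38) (nat_lit 5) (nat_lit 39) (nat_lit 4) (nat_lit 502) (nat_lit 442) (nat_lit 256)) (XT.lf (nat_lit 0) (nat_lit 107726195407) (nat_lit 76) (nat_lit 44645867111) (nat_lit 152) (nat_lit 42937518547) (nat_lit 37) (nat_lit 5) (nat_lit 38) (nat_lit 5) (nat_lit 39) (nat_lit 4) (nat_lit 503) (nat_lit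 442) (nat_lit 255))) (XT.nd (nat_lit 78) (nat_lit 0) (nat_lit 0) (XT.lf (nat_lit 0) (nat_lit 5283158839) (nat_lit 152) (nat_lit 184062472436) (nat_lit 76) (nat_lit 12849603485) (nat_lit 35) (nat_lit 5) (nat_lit 37) (nat_lit 5) (nat_lit 36) (nat_lit 4) (nat_lit 504) (nat_lit 442) (nat_lit 254)) (XT.lf (nat_lit 0) (nat_lit 56710756042) (nat_lit 152) (nat_lit 78636862073) (nat_lit 76) (nat_lit 73930414978) (nat_lit 35) (nat_lit 5) (nat_lit 37) (nat_lit 5) (nat_lit 36) (nat_lit 4) (nat_lit 505) (nat_lit 442) (nat_lit 253))))))) (XT.nd (nat_lit 1092) (nat_lit 684) (nat_lit 0) (XT.nd (nat_lit 546) (nat_lit 380) (nat_lit 0) (XT.nd (nat_lit 234) (nat_lit 152) (nat_lit 0) (XT.nd (nat_lit 78) (nat_lit 152) (nat_lit 0) (XT.lf (nat_lit 0) (nat_lit 33118936549) (nat_lit 76) (nat_lit 78107291018) (nat_lit 152) (nat_lit 105462919099) (nat_lit 34) (nat_lit 5) (nat_lit 35) (nat_lit 5) (nat_lit 36) (nat_lit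 4) (nat_lit 506) (nat_lit 442) (nat_lit 252)) (XT.nd (nat_lit 78) (nat_lit 152) (nat_lit 0) (XT.lf (nat_lit 0) (nat_lit 153191532151) (nat_lit 76) (nat_lit 16607119753) (nat_lit 152) (nat_lit 54605605095) (nat_lit 34) (nat_lit 5) (nat_lit 35) (nat_lit 5) (nat_lit 36) (nat_lit 4) (nat_lit 507) (nat_lit 442) (nat_lit 251)) (XT.lf (nat_lit 0) (nat_lit 348091373) (nat_lit 152) (nat_lit 184902162124) (nat_lit 76) (nat_lit 47180063614) (nat_lit 32) (nat_lit 5) (nat_lit 34) (nat_lit 5) (nat_lit 33) (nat_lit 4) (nat_lit 508) (nat_lit 442) (nat_lit 250)))) (XT.nd (nat_lit 156) (nat_lit 76) (nat_lit 0) (XT.nd (nat_lit 78) (nat_lit 76) (nat_lit 0) (XT.lf (nat_lit 0) (nat_lit 57711853797) (nat_lit 152) (nat_lit 67307204398) (nat_lit 76) (nat_lit 115718989000) (nat_lit 32) (nat_lit 5) (nat_lit 34) (nat_lit 5) (nat_lit 33) (nat_lit 4) (nat_lit 509) (nat_lit 442) (nat_lit 249)) (XT.lf (nat_lit 0) (nat_lit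 58023612985) (nat_lit 76) (nat_lit 60825575769) (nat_lit 152) (nat_lit 130566705845) (nat_lit 31) (nat_lit 5) (nat_lit 32) (nat_lit 5) (nat_lit 33) (nat_lit 4) (nat_lit 510) (nat_lit 442) (nat_lit 248))) (XT.nd (nat_lit 78) (nat_lit 76) (nat_lit 0) (XT.lf (nat_lit 0) (nat_lit 184304127014) (nat_lit 152) (nat_lit 66635304495) (nat_lit 0) (nat_lit 7525166070) (nat_lit 31) (nat_lit 5) (nat_lit 33) (nat_lit 4) (nat_lit 31) (nat_lit 4) (nat_lit 511) (nat_lit 442) (nat_lit 247)) (XT.lf (nat_lit 0) (nat_lit 65456435136) (nat_lit 76) (nat_lit 189593976460) (nat_lit 76) (nat_lit 12814394175) (nat_lit 30) (nat_lit 4) (nat_lit 31) (nat_lit 5) (nat_lit 31) (nat_lit 4) (nat_lit 512) (nat_lit 442) (nat_lit 246))))) (XT.nd (nat_lit 234) (nat_lit 228) (nat_lit 0) (XT.nd (nat_lit 78) (nat_lit 76) (nat_lit 0) (XT.lf (nat_lit 0) (nat_lit 51093998775) (nat_lit 152) (nat_lit 72037476547) (nat_lit 76) (nat_lit 154505943712)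 (nat_lit 29) (nat_lit 5) (nat_lit 31) (nat_lit 5) (nat_lit 30) (nat_lit 4) (nat_lit 513) (nat_lit 442) (nat_lit 245)) (XT.nd (nat_lit 78) (nat_lit 0) (nat_lit 0) (XT.lf (nat_lit 0) (nat_lit 66778297048) (nat_lit 76) (nat_lit 52030988152) (nat_lit 152) (nat_lit 169026768114) (nat_lit 28) (nat_lit 5) (nat_lit 29) (nat_lit 5) (nat_lit 30) (nat_lit 4) (nat_lit 514) (nat_lit 442) (nat_lit 244)) (XT.lf (nat_lit 0) (nat_lit 191503084409) (nat_lit 152) (nat_lit 83821931521) (nat_lit 0) (nat_lit 23139965980) (nat_lit 28) (nat_lit 5) (nat_lit 30) (nat_lit 4) (nat_lit 28) (nat_lit 4) (nat_lit 515) (nat_lit 442) (nat_lit 243)))) (XT.nd (nat_lit 156) (nat_lit 76) (nat_lit 0) (XT.nd (nat_lit 78) (nat_lit 76) (nat_lit 0) (XT.lf (nat_lit 0) (nat_lit 61386598147) (nat_lit 76) (nat_lit 208255908708) (nat_lit 76) (nat_lit 39892303442) (nat_lit 27) (nat_lit 4) (nat_lit 28) (nat_lit 5) (nat_lit 28) (nat_lit 4)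 (nat_lit 516) (nat_lit 442) (nat_lit 242)) (XT.lf (nat_lit 0) (nat_lit 30995981708) (nat_lit 152) (nat_lit 104822306417) (nat_lit 76) (nat_lit 185243889123) (nat_lit 26) (nat_lit 5) (nat_lit 28) (nat_lit 5) (nat_lit 27) (nat_lit 4) (nat_lit 517) (nat_lit 442) (nat_lit 241))) (XT.nd (nat_lit 78) (nat_lit 0) (nat_lit 0) (XT.lf (nat_lit 0) (nat_lit 46503491610) (nat_lit 76) (nat_lit 58310167953) (nat_lit 152) (nat_lit 228283273324) (nat_lit 25) (nat_lit 5) (nat_lit 26) (nat_lit 5) (nat_lit 27) (nat_lit 4) (nat_lit 518) (nat_lit 442) (nat_lit 240)) (XT.lf (nat_lit 0) (nat_lit 184486352466) (nat_lit 152) (nat_lit 137000068212) (nat_lit 0) (nat_lit 24138799091) (nat_lit 25) (nat_lit 5) (nat_lit 27) (nat_lit 4) (nat_lit 25) (nat_lit 4) (nat_lit 519) (nat_lit 442) (nat_lit 239)))))) (XT.nd (nat_lit 546) (nat_lit 380) (nat_lit 0) (XT.nd (nat_lit 234) (nat_lit 152) (nat_lit 0) (XT.nd (nat_lit 78) (nat_lit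 76) (nat_lit 0) (XT.lf (nat_lit 0) (nat_lit 19748344853) (nat_lit 76) (nat_lit 249658159877) (nat_lit 76) (nat_lit 89310225052) (nat_lit 24) (nat_lit 4) (nat_lit 25) (nat_lit 5) (nat_lit 25) (nat_lit 4) (nat_lit 520) (nat_lit 442) (nat_lit 238)) (XT.nd (nat_lit 78) (nat_lit 76) (nat_lit 0) (XT.lf (nat_lit 0) (nat_lit 189089729777) (nat_lit 76) (nat_lit 171802697750) (nat_lit 76) (nat_lit 11454399640) (nat_lit 24) (nat_lit 4) (nat_lit 25) (nat_lit 5) (nat_lit 25) (nat_lit 4) (nat_lit 521) (nat_lit 442) (nat_lit 237)) (XT.lf (nat_lit 0) (nat_lit 68043976345) (nat_lit 152) (nat_lit 20858492588) (nat_lit 76) (nat_lit 297701105359) (nat_lit 23) (nat_lit 5) (nat_lit 25) (nat_lit 5) (nat_lit 24) (nat_lit 4) (nat_lit 522) (nat_lit 442) (nat_lit 236)))) (XT.nd (nat_lit 156) (nat_lit 76) (nat_lit 0) (XT.nd (nat_lit 78) (nat_lit 0) (nat_lit 0) (XT.lf (nat_lit 0) (nat_lit 153556389291) (nat_lit 152) (nat_lit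 247043096493) (nat_lit 0) (nat_lit 843081095) (nat_lit 22) (nat_lit 5) (nat_lit 24) (nat_lit 4) (nat_lit 22) (nat_lit 4) (nat_lit 523) (nat_lit 442) (nat_lit 235)) (XT.lf (nat_lit 0) (nat_lit 245160512727) (nat_lit 152) (nat_lit 79325286240) (nat_lit 0) (nat_lit 92446905655) (nat_lit 22) (nat_lit 5) (nat_lit 24) (nat_lit 4) (nat_lit 22) (nat_lit 4) (nat_lit 524) (nat_lit 442) (nat_lit 234))) (XT.nd (nat_lit 78) (nat_lit 0) (nat_lit 0) (XT.lf (nat_lit 0) (nat_lit 99977635260) (nat_lit 76) (nat_lit 242927788328) (nat_lit 76) (nat_lit 90213896613) (nat_lit 21) (nat_lit 4) (nat_lit 22) (nat_lit 5) (nat_lit 22) (nat_lit 4) (nat_lit 525) (nat_lit 442) (nat_lit 233)) (XT.lf (nat_lit 0) (nat_lit 290999020784) (nat_lit 76) (nat_lit 155881627588) (nat_lit 76) (nat_lit 3167464784) (nat_lit 21) (nat_lit 4) (nat_lit 22) (nat_lit 5) (nat_lit 22) (nat_lit 4) (nat_lit 526) (nat_lit 442) (nat_lit 232))))) (XT.nd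 (nat_lit 312) (nat_lit 152) (nat_lit 0) (XT.nd (nat_lit 156) (nat_lit 76) (nat_lit 0) (XT.nd (nat_lit 78) (nat_lit 0) (nat_lit 0) (XT.lf (nat_lit 0) (nat_lit 23109587613) (nat_lit 76) (nat_lit 62658221458) (nat_lit 152) (nat_lit 381968636182) (nat_lit 19) (nat_lit 5) (nat_lit 20) (nat_lit 5) (nat_lit 21) (nat_lit 4) (nat_lit 527) (nat_lit 442) (nat_lit 231)) (XT.lf (nat_lit 0) (nat_lit 182330779503) (nat_lit 152) (nat_lit 266923209532) (nat_lit 0) (nat_lit 36888239626) (nat_lit 19) (nat_lit 5) (nat_lit 21) (nat_lit 4) (nat_lit 19) (nat_lit 4) (nat_lit 528) (nat_lit 442) (nat_lit 230))) (XT.nd (nat_lit 78) (nat_lit 76) (nat_lit 0) (XT.lf (nat_lit 0) (nat_lit 284748766287) (nat_lit 152) (nat_lit 81362188186) (nat_lit 0) (nat_lit 139306003386) (nat_lit 19) (nat_lit 5) (nat_lit 21) (nat_lit 4) (nat_lit 19) (nat_lit 4) (nat_lit 529) (nat_lit 442) (nat_lit 229)) (XT.lf (nat_lit 0) (nat_lit 117228327369)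 (nat_lit 76) (nat_lit 276889286692) (nat_lit 76) (nat_lit 131446311385) (nat_lit 18) (nat_lit 4) (nat_lit 19) (nat_lit 5) (nat_lit 19) (nat_lit 4) (nat_lit 530) (nat_lit 442) (nat_lit 228)))) (XT.nd (nat_lit 156) (nat_lit 76) (nat_lit 0) (XT.nd (nat_lit 78) (nat_lit 76) (nat_lit 0) (XT.lf (nat_lit 0) (nat_lit 328572494320) (nat_lit 76) (nat_lit 181760022047) (nat_lit 76) (nat_lit 36316844449) (nat_lit 18) (nat_lit 4) (nat_lit 19) (nat_lit 5) (nat_lit 19) (nat_lit 4) (nat_lit 531) (nat_lit 442) (nat_lit 227)) (XT.lf (nat_lit 0) (nat_lit 61534201348) (nat_lit 152) (nat_lit 19298257491) (nat_lit 76) (nat_lit 487906998857) (nat_lit 17) (nat_lit 5) (nat_lit 19) (nat_lit 5) (nat_lit 18) (nat_lit 4) (nat_lit 532) (nat_lit 442) (nat_lit 226))) (XT.nd (nat_lit 78) (nat_lit 0) (nat_lit 0) (XT.lf (nat_lit 0) (nat_lit 166554792630) (nat_lit 152) (nat_lit 397137502627) (nat_lit 0) (nat_lit 28037122402)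 (nat_lit 16) (nat_lit 5) (nat_lit 18) (nat_lit 4) (nat_lit 16) (nat_lit 4) (nat_lit 533) (nat_lit 442) (nat_lit 225)) (XT.lf (nat_lit 0) (nat_lit 278483446664) (nat_lit 152) (nat_lit 197336967297) (nat_lit 0) (nat_lit 139965610011) (nat_lit 16) (nat_lit 5) (nat_lit 18) (nat_lit 4) (nat_lit 16) (nat_lit 4) (nat_lit 534) (nat_lit 442) (nat_lit 224))))))))
noncomputable def xc186 : XT := (XT.nd (nat_lit 57018) (nat_lit 0) (nat_lit 2660) (XT.nd (nat_lit 55926) (nat_lit 0) (nat_lit 6308) (XT.nd (nat_lit 55380) (nat_lit 0) (nat_lit 8512) (XT.nd (nat_lit 234) (nat_lit 152) (nat_lit 0) (XT.nd (nat_lit 78) (nat_lit 0) (nat_lit 0) (XT.lf (nat_lit 0) (nat_lit 12864834631) (nat_lit 76) (nat_lit 383344295642) (nat_lit 76) (nat_lit 244826300489) (nat_lit 15) (nat_lit 4) (nat_lit 16) (nat_lit 5) (nat_lit 16) (nat_lit 4) (nat_lit 535) (nat_lit 442) (nat_lit 223)) (XT.nd (nat_lit 78) (nat_lit 0) (nat_lit 0)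 (XT.lf (nat_lit 0) (nat_lit 240427313653) (nat_lit 76) (nat_lit 282735526622) (nat_lit 76) (nat_lit 144217380516) (nat_lit 15) (nat_lit 4) (nat_lit 16) (nat_lit 5) (nat_lit 16) (nat_lit 4) (nat_lit 536) (nat_lit 442) (nat_lit 222)) (XT.lf (nat_lit 0) (nat_lit 479367433855) (nat_lit 76) (nat_lit 177096559239) (nat_lit 76) (nat_lit 38578269368) (nat_lit 15) (nat_lit 4) (nat_lit 16) (nat_lit 5) (nat_lit 16) (nat_lit 4) (nat_lit 537) (nat_lit 442) (nat_lit 221)))) (XT.nd (nat_lit 156) (nat_lit 0) (nat_lit 0) (XT.nd (nat_lit 78) (nat_lit 0) (nat_lit 0) (XT.lf (nat_lit 0) (nat_lit 5203765480) (nat_lit 76) (nat_lit 64904620992) (nat_lit 152) (nat_lit 653918495540) (nat_lit 13) (nat_lit 5) (nat_lit 14) (nat_lit 5) (nat_lit 15) (nat_lit 4) (nat_lit 538) (nat_lit 442) (nat_lit 220)) (XT.lf (nat_lit 0) (nat_lit 187470962436) (nat_lit 152) (nat_lit 511182718048) (nat_lit 0) (nat_lit 55548527020) (nat_lit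 13) (nat_lit 5) (nat_lit 15) (nat_lit 4) (nat_lit 13) (nat_lit 4) (nat_lit 539) (nat_lit 442) (nat_lit 219))) (XT.nd (nat_lit 54912) (nat_lit 0) (nat_lit 8512) (XT.lf (nat_lit 0) (nat_lit 311765454052) (nat_lit 152) (nat_lit 294224755524) (nat_lit 0) (nat_lit 179842900360) (nat_lit 13) (nat_lit 5) (nat_lit 15) (nat_lit 4) (nat_lit 13) (nat_lit 4) (nat_lit 540) (nat_lit 442) (nat_lit 218)) (XT.lf (nat_lit 0) (nat_lit 5137483274) (nat_lit 836) (nat_lit 5721703039) (nat_lit 836) (nat_lit 5721703039) (nat_lit 125) (nat_lit 3) (nat_lit 136) (nat_lit 3) (nat_lit 136) (nat_lit 5) (nat_lit 443) (nat_lit 443) (nat_lit 314))))) (XT.nd (nat_lit 234) (nat_lit 0) (nat_lit 152) (XT.nd (nat_lit 78) (nat_lit 0) (nat_lit 76) (XT.lf (nat_lit 76) (nat_lit 4961071317) (nat_lit 0) (nat_lit 5706577677) (nat_lit 836) (nat_lit 23316361062) (nat_lit 126) (nat_lit 5) (nat_lit 125) (nat_lit 3) (nat_lit 136) (nat_lit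 5) (nat_lit 444) (nat_lit 443) (nat_lit 313)) (XT.nd (nat_lit 78) (nat_lit 0) (nat_lit 0) (XT.lf (nat_lit 0) (nat_lit 11446595267) (nat_lit 760) (nat_lit 12433414576) (nat_lit 836) (nat_lit 10949013099) (nat_lit 126) (nat_lit 5) (nat_lit 136) (nat_lit 5) (nat_lit 137) (nat_lit 5) (nat_lit 445) (nat_lit 443) (nat_lit 312)) (XT.lf (nat_lit 76) (nat_lit 5051580737) (nat_lit 0) (nat_lit 7381766253) (nat_lit 836) (nat_lit 23274497959) (nat_lit 127) (nat_lit 5) (nat_lit 126) (nat_lit 5) (nat_lit 137) (nat_lit 5) (nat_lit 446) (nat_lit 443) (nat_lit 311)))) (XT.nd (nat_lit 156) (nat_lit 0) (nat_lit 76) (XT.nd (nat_lit 78) (nat_lit 0) (nat_lit 0) (XT.lf (nat_lit 0) (nat_lit 13835262825) (nat_lit 760) (nat_lit 12938554201) (nat_lit 836) (nat_lit 9838501023) (nat_lit 127) (nat_lit 5) (nat_lit 137) (nat_lit 5) (nat_lit 138) (nat_lit 5) (nat_lit 447) (nat_lit 443) (nat_lit 310)) (XT.lf (nat_lit 76) (nat_lit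 5725080918) (nat_lit 0) (nat_lit 9789348539) (nat_lit 836) (nat_lit 22037228852) (nat_lit 128) (nat_lit 5) (nat_lit 127) (nat_lit 5) (nat_lit 138) (nat_lit 5) (nat_lit 448) (nat_lit 443) (nat_lit 309))) (XT.nd (nat_lit 78) (nat_lit 0) (nat_lit 0) (XT.lf (nat_lit 0) (nat_lit 17622755826) (nat_lit 760) (nat_lit 12887424579) (nat_lit 836) (nat_lit 8010526302) (nat_lit 128) (nat_lit 5) (nat_lit 138) (nat_lit 5) (nat_lit 139) (nat_lit 5) (nat_lit 449) (nat_lit 443) (nat_lit 308)) (XT.lf (nat_lit 76) (nat_lit 7062020829) (nat_lit 0) (nat_lit 13042258498) (nat_lit 836) (nat_lit 19420540296) (nat_lit 129) (nat_lit 5) (nat_lit 128) (nat_lit 5) (nat_lit 139) (nat_lit 5) (nat_lit 450) (nat_lit 443) (nat_lit 307)))))) (XT.nd (nat_lit 546) (nat_lit 1368) (nat_lit 0) (XT.nd (nat_lit 234) (nat_lit 1140) (nat_lit 0) (XT.nd (nat_lit 78) (nat_lit 0) (nat_lit 0) (XT.lf (nat_lit 0) (nat_lit 23011604055) (nat_lit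 760) (nat_lit 12200506957) (nat_lit 836) (nat_lit 5351942005) (nat_lit 129) (nat_lit 5) (nat_lit 139) (nat_lit 5) (nat_lit 140) (nat_lit 5) (nat_lit 451) (nat_lit 443) (nat_lit 306)) (XT.nd (nat_lit 78) (nat_lit 0) (nat_lit 76) (XT.lf (nat_lit 76) (nat_lit 9151786089) (nat_lit 0) (nat_lit 17266495915) (nat_lit 836) (nat_lit 15219267760) (nat_lit 130) (nat_lit 5) (nat_lit 129) (nat_lit 5) (nat_lit 140) (nat_lit 5) (nat_lit 452) (nat_lit 443) (nat_lit 305)) (XT.lf (nat_lit 0) (nat_lit 30227310430) (nat_lit 760) (nat_lit 10789444240) (nat_lit 76) (nat_lit 1736366834) (nat_lit 130) (nat_lit 5) (nat_lit 140) (nat_lit 5) (nat_lit 131) (nat_lit 5) (nat_lit 453) (nat_lit 443) (nat_lit 304)))) (XT.nd (nat_lit 156) (nat_lit 456) (nat_lit 0) (XT.nd (nat_lit 78) (nat_lit 0) (nat_lit 0) (XT.lf (nat_lit 0) (nat_lit 12093489081) (nat_lit 760) (nat_lit 22602691601) (nat_lit 836) (nat_lit 9204822564) (nat_lit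 120) (nat_lit 5) (nat_lit 130) (nat_lit 5) (nat_lit 131) (nat_lit 5) (nat_lit 454) (nat_lit 443) (nat_lit 303)) (XT.lf (nat_lit 0) (nat_lit 36492977936) (nat_lit 760) (nat_lit 3075844934) (nat_lit 836) (nat_lit 5528440677) (nat_lit 120) (nat_lit 5) (nat_lit 130) (nat_lit 5) (nat_lit 131) (nat_lit 5) (nat_lit 455) (nat_lit 443) (nat_lit 302))) (XT.nd (nat_lit 78) (nat_lit 76) (nat_lit 0) (XT.lf (nat_lit 0) (nat_lit 15996822040) (nat_lit 380) (nat_lit 29207841361) (nat_lit 456) (nat_lit 1122696000) (nat_lit 115) (nat_lit 5) (nat_lit 120) (nat_lit 5) (nat_lit 121) (nat_lit 5) (nat_lit 456) (nat_lit 443) (nat_lit 301)) (XT.lf (nat_lit 0) (nat_lit 3587496798) (nat_lit 456) (nat_lit 5594707492) (nat_lit 76) (nat_lit 38424207208) (nat_lit 114) (nat_lit 5) (nat_lit 120) (nat_lit 5) (nat_lit 115) (nat_lit 5) (nat_lit 457) (nat_lit 443) (nat_lit 300))))) (XT.nd (nat_lit 234) (nat_lit 608) (nat_lit 0)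 (XT.nd (nat_lit 78) (nat_lit 380) (nat_lit 0) (XT.lf (nat_lit 0) (nat_lit 9012293945) (nat_lit 456) (nat_lit 28092307988) (nat_lit 76) (nat_lit 11818053525) (nat_lit 109) (nat_lit 5) (nat_lit 115) (nat_lit 5) (nat_lit 110) (nat_lit 5) (nat_lit 458) (nat_lit 443) (nat_lit 299)) (XT.nd (nat_lit 78) (nat_lit 380) (nat_lit 0) (XT.lf (nat_lit 0) (nat_lit 14953095806) (nat_lit 456) (nat_lit 1683358044) (nat_lit 76) (nat_lit 33656020221) (nat_lit 109) (nat_lit 5) (nat_lit 115) (nat_lit 5) (nat_lit 110) (nat_lit 5) (nat_lit 459) (nat_lit 443) (nat_lit 298)) (XT.lf (nat_lit 0) (nat_lit 21691720536) (nat_lit 456) (nat_lit 24887484590) (nat_lit 76) (nat_lit 5126540019) (nat_lit 104) (nat_lit 5) (nat_lit 110) (nat_lit 5) (nat_lit 105) (nat_lit 5) (nat_lit 460) (nat_lit 443) (nat_lit 297)))) (XT.nd (nat_lit 156) (nat_lit 304) (nat_lit 0) (XT.nd (nat_lit 78) (nat_lit 0) (nat_lit 0) (XT.lf (nat_lit 0) (nat_lit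 3450232102) (nat_lit 304) (nat_lit 25670708949) (nat_lit 380) (nat_lit 24051056126) (nat_lit 100) (nat_lit 5) (nat_lit 104) (nat_lit 5) (nat_lit 105) (nat_lit 5) (nat_lit 461) (nat_lit 443) (nat_lit 296)) (XT.lf (nat_lit 0) (nat_lit 34066757660) (nat_lit 304) (nat_lit 3274496537) (nat_lit 380) (nat_lit 17349326638) (nat_lit 100) (nat_lit 5) (nat_lit 104) (nat_lit 5) (nat_lit 105) (nat_lit 5) (nat_lit 462) (nat_lit 443) (nat_lit 295))) (XT.nd (nat_lit 78) (nat_lit 0) (nat_lit 0) (XT.lf (nat_lit 0) (nat_lit 9928670010) (nat_lit 304) (nat_lit 36513188485) (nat_lit 380) (nat_lit 9819771980) (nat_lit 96) (nat_lit 5) (nat_lit 100) (nat_lit 5) (nat_lit 101) (nat_lit 5) (nat_lit 463) (nat_lit 443) (nat_lit 294)) (XT.lf (nat_lit 0) (nat_lit 42667280787) (nat_lit 304) (nat_lit 13730587138) (nat_lit 380) (nat_lit 1493346475) (nat_lit 96) (nat_lit 5) (nat_lit 100) (nat_lit 5) (nat_lit 101) (nat_lit 5)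 (nat_lit 464) (nat_lit 443) (nat_lit 293))))))) (XT.nd (nat_lit 1092) (nat_lit 1596) (nat_lit 0) (XT.nd (nat_lit 546) (nat_lit 912) (nat_lit 0) (XT.nd (nat_lit 234) (nat_lit 532) (nat_lit 0) (XT.nd (nat_lit 78) (nat_lit 304) (nat_lit 0) (XT.lf (nat_lit 0) (nat_lit 7460698704) (nat_lit 304) (nat_lit 41850079342) (nat_lit 76) (nat_lit 10263674575) (nat_lit 92) (nat_lit 5) (nat_lit 96) (nat_lit 5) (nat_lit 93) (nat_lit 5) (nat_lit 465) (nat_lit 443) (nat_lit 292)) (XT.nd (nat_lit 78) (nat_lit 304) (nat_lit 0) (XT.lf (nat_lit 0) (nat_lit 17297785288) (nat_lit 304) (nat_lit 8736188798) (nat_lit 76) (nat_lit 35282378817) (nat_lit 92) (nat_lit 5) (nat_lit 96) (nat_lit 5) (nat_lit 93) (nat_lit 5) (nat_lit 466) (nat_lit 443) (nat_lit 291)) (XT.lf (nat_lit 0) (nat_lit 26892147136) (nat_lit 304) (nat_lit 1152900343) (nat_lit 380) (nat_lit 35079385108) (nat_lit 88) (nat_lit 5) (nat_lit 92) (nat_lit 5)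 (nat_lit 93) (nat_lit 5) (nat_lit 467) (nat_lit 443) (nat_lit 290)))) (XT.nd (nat_lit 156) (nat_lit 304) (nat_lit 0) (XT.nd (nat_lit 78) (nat_lit 228) (nat_lit 0) (XT.lf (nat_lit 0) (nat_lit 39868432087) (nat_lit 380) (nat_lit 804632506) (nat_lit 76) (nat_lit 24322914124) (nat_lit 88) (nat_lit 5) (nat_lit 93) (nat_lit 5) (nat_lit 89) (nat_lit 5) (nat_lit 468) (nat_lit 443) (nat_lit 289)) (XT.lf (nat_lit 0) (nat_lit 37576271226) (nat_lit 228) (nat_lit 15310853070) (nat_lit 304) (nat_lit 14043771348) (nat_lit 85) (nat_lit 5) (nat_lit 88) (nat_lit 5) (nat_lit 89) (nat_lit 5) (nat_lit 469) (nat_lit 443) (nat_lit 288))) (XT.nd (nat_lit 78) (nat_lit 76) (nat_lit 0) (XT.lf (nat_lit 0) (nat_lit 9053144249) (nat_lit 228) (nat_lit 57834129532) (nat_lit 304) (nat_lit 2058758893) (nat_lit 82) (nat_lit 5) (nat_lit 85) (nat_lit 5) (nat_lit 86) (nat_lit 5) (nat_lit 470) (nat_lit 443) (nat_lit 287)) (XT.lf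 (nat_lit 0) (nat_lit 10943517487) (nat_lit 304) (nat_lit 21062076060) (nat_lit 76) (nat_lit 39010371972) (nat_lit 81) (nat_lit 5) (nat_lit 85) (nat_lit 5) (nat_lit 82) (nat_lit 5) (nat_lit 471) (nat_lit 443) (nat_lit 286))))) (XT.nd (nat_lit 234) (nat_lit 456) (nat_lit 0) (XT.nd (nat_lit 78) (nat_lit 228) (nat_lit 0) (XT.lf (nat_lit 0) (nat_lit 20325199219) (nat_lit 228) (nat_lit 4517533094) (nat_lit 304) (nat_lit 48329174901) (nat_lit 78) (nat_lit 5) (nat_lit 81) (nat_lit 5) (nat_lit 82) (nat_lit 5) (nat_lit 472) (nat_lit 443) (nat_lit 285)) (XT.nd (nat_lit 78) (nat_lit 228) (nat_lit 0) (XT.lf (nat_lit 0) (nat_lit 40178249325) (nat_lit 304) (nat_lit 11292572264) (nat_lit 76) (nat_lit 23927757652) (nat_lit 78) (nat_lit 5) (nat_lit 82) (nat_lit 5) (nat_lit 79) (nat_lit 5) (nat_lit 473) (nat_lit 443) (nat_lit 284)) (XT.lf (nat_lit 0) (nat_lit 33330189398) (nat_lit 228) (nat_lit 23543554965) (nat_lit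 304) (nat_lit 20833180704) (nat_lit 75) (nat_lit 5) (nat_lit 78) (nat_lit 5) (nat_lit 79) (nat_lit 5) (nat_lit 474) (nat_lit 443) (nat_lit 283)))) (XT.nd (nat_lit 156) (nat_lit 228) (nat_lit 0) (XT.nd (nat_lit 78) (nat_lit 76) (nat_lit 0) (XT.lf (nat_lit 0) (nat_lit 371714963) (nat_lit 152) (nat_lit 74321515099) (nat_lit 228) (nat_lit 5422997616) (nat_lit 73) (nat_lit 5) (nat_lit 75) (nat_lit 5) (nat_lit 76) (nat_lit 5) (nat_lit 475) (nat_lit 443) (nat_lit 282)) (XT.lf (nat_lit 0) (nat_lit 11562001945) (nat_lit 228) (nat_lit 34278238547) (nat_lit 76) (nat_lit 36739926267) (nat_lit 72) (nat_lit 5) (nat_lit 75) (nat_lit 5) (nat_lit 73) (nat_lit 5) (nat_lit 476) (nat_lit 443) (nat_lit 281))) (XT.nd (nat_lit 78) (nat_lit 0) (nat_lit 0) (XT.lf (nat_lit 0) (nat_lit 13812800409) (nat_lit 228) (nat_lit 15615715480) (nat_lit 304) (nat_lit 55723616441) (nat_lit 69) (nat_lit 5) (nat_lit 72) (nat_lit 5)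 (nat_lit 73) (nat_lit 5) (nat_lit 477) (nat_lit 443) (nat_lit 280)) (XT.lf (nat_lit 0) (nat_lit 49028944223) (nat_lit 304) (nat_lit 22588173306) (nat_lit 76) (nat_lit 16193549457) (nat_lit 69) (nat_lit 5) (nat_lit 73) (nat_lit 5) (nat_lit 70) (nat_lit 5) (nat_lit 478) (nat_lit 443) (nat_lit 279)))))) (XT.nd (nat_lit 546) (nat_lit 836) (nat_lit 0) (XT.nd (nat_lit 234) (nat_lit 380) (nat_lit 0) (XT.nd (nat_lit 78) (nat_lit 228) (nat_lit 0) (XT.lf (nat_lit 0) (nat_lit 29280013308) (nat_lit 152) (nat_lit 41041447161) (nat_lit 228) (nat_lit 20245064806) (nat_lit 67) (nat_lit 5) (nat_lit 69) (nat_lit 5) (nat_lit 70) (nat_lit 5) (nat_lit 479) (nat_lit 443) (nat_lit 278)) (XT.nd (nat_lit 78) (nat_lit 228) (nat_lit 0) (XT.lf (nat_lit 0) (nat_lit 84524168807) (nat_lit 152) (nat_lit 8535928732) (nat_lit 228) (nat_lit 381004407) (nat_lit 67) (nat_lit 5) (nat_lit 69) (nat_lit 5) (nat_lit 70) (nat_lit 5)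 (nat_lit 480) (nat_lit 443) (nat_lit 277)) (XT.lf (nat_lit 0) (nat_lit 20974713853) (nat_lit 228) (nat_lit 49560991787) (nat_lit 76) (nat_lit 25850026266) (nat_lit 64) (nat_lit 5) (nat_lit 67) (nat_lit 5) (nat_lit 65) (nat_lit 5) (nat_lit 481) (nat_lit 443) (nat_lit 276)))) (XT.nd (nat_lit 156) (nat_lit 228) (nat_lit 0) (XT.nd (nat_lit 78) (nat_lit 0) (nat_lit 0) (XT.lf (nat_lit 0) (nat_lit 6242555537) (nat_lit 152) (nat_lit 37532744516) (nat_lit 228) (nat_lit 55682486887) (nat_lit 62) (nat_lit 5) (nat_lit 64) (nat_lit 5) (nat_lit 65) (nat_lit 5) (nat_lit 482) (nat_lit 443) (nat_lit 275)) (XT.lf (nat_lit 0) (nat_lit 66555331622) (nat_lit 152) (nat_lit 1998947032) (nat_lit 228) (nat_lit 34087248096) (nat_lit 62) (nat_lit 5) (nat_lit 64) (nat_lit 5) (nat_lit 65) (nat_lit 5) (nat_lit 483) (nat_lit 443) (nat_lit 274))) (XT.nd (nat_lit 78) (nat_lit 76) (nat_lit 0) (XT.lf (nat_lit 0) (nat_lit 24118363220)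 (nat_lit 152) (nat_lit 71380771325) (nat_lit 228) (nat_lit 10438972758) (nat_lit 60) (nat_lit 5) (nat_lit 62) (nat_lit 5) (nat_lit 63) (nat_lit 5) (nat_lit 484) (nat_lit 443) (nat_lit 273)) (XT.lf (nat_lit 0) (nat_lit 14584083604) (nat_lit 228) (nat_lit 21052024418) (nat_lit 76) (nat_lit 73719524659) (nat_lit 59) (nat_lit 5) (nat_lit 62) (nat_lit 5) (nat_lit 60) (nat_lit 5) (nat_lit 485) (nat_lit 443) (nat_lit 272))))) (XT.nd (nat_lit 312) (nat_lit 304) (nat_lit 0) (XT.nd (nat_lit 156) (nat_lit 380) (nat_lit 0) (XT.nd (nat_lit 78) (nat_lit 0) (nat_lit 0) (XT.lf (nat_lit 0) (nat_lit 41237037334) (nat_lit 228) (nat_lit 68955437554) (nat_lit 76) (nat_lit 2706524930) (nat_lit 57) (nat_lit 5) (nat_lit 60) (nat_lit 5) (nat_lit 58) (nat_lit 5) (nat_lit 486) (nat_lit 443) (nat_lit 271)) (XT.lf (nat_lit 0) (nat_lit 70168329427) (nat_lit 228) (nat_lit 4273442929) (nat_lit 76) (nat_lit 42130478561) (nat_lit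 57) (nat_lit 5) (nat_lit 60) (nat_lit 5) (nat_lit 58) (nat_lit 5) (nat_lit 487) (nat_lit 443) (nat_lit 270))) (XT.nd (nat_lit 78) (nat_lit 228) (nat_lit 0) (XT.lf (nat_lit 0) (nat_lit 65745491283) (nat_lit 152) (nat_lit 35826329329) (nat_lit 228) (nat_lit 18806062366) (nat_lit 55) (nat_lit 5) (nat_lit 57) (nat_lit 5) (nat_lit 58) (nat_lit 5) (nat_lit 488) (nat_lit 443) (nat_lit 269)) (XT.lf (nat_lit 0) (nat_lit 10240318882) (nat_lit 228) (nat_lit 109057440994) (nat_lit 76) (nat_lit 5048387120) (nat_lit 52) (nat_lit 5) (nat_lit 55) (nat_lit 5) (nat_lit 53) (nat_lit 5) (nat_lit 489) (nat_lit 443) (nat_lit 268)))) (XT.nd (nat_lit 156) (nat_lit 152) (nat_lit 0) (XT.nd (nat_lit 78) (nat_lit 152) (nat_lit 0) (XT.lf (nat_lit 0) (nat_lit 41633898589) (nat_lit 228) (nat_lit 38776211278) (nat_lit 76) (nat_lit 48010955338) (nat_lit 52) (nat_lit 5) (nat_lit 55) (nat_lit 5) (nat_lit 53) (nat_lit 5) (nat_lit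 490) (nat_lit 443) (nat_lit 267)) (XT.lf (nat_lit 0) (nat_lit 36175552470) (nat_lit 152) (nat_lit 38985621717) (nat_lit 228) (nat_lit 57510354401) (nat_lit 50) (nat_lit 5) (nat_lit 52) (nat_lit 5) (nat_lit 53) (nat_lit 5) (nat_lit 491) (nat_lit 443) (nat_lit 266))) (XT.nd (nat_lit 78) (nat_lit 152) (nat_lit 0) (XT.lf (nat_lit 0) (nat_lit 111101910499) (nat_lit 228) (nat_lit 20963112585) (nat_lit 76) (nat_lit 5032637314) (nat_lit 50) (nat_lit 5) (nat_lit 53) (nat_lit 5) (nat_lit 51) (nat_lit 4) (nat_lit 492) (nat_lit 443) (nat_lit 265)) (XT.lf (nat_lit 0) (nat_lit 8462346294) (nat_lit 152) (nat_lit 82189140012) (nat_lit 76) (nat_lit 51008332646) (nat_lit 48) (nat_lit 5) (nat_lit 50) (nat_lit 5) (nat_lit 49) (nat_lit 5) (nat_lit 493) (nat_lit 443) (nat_lit 264))))))))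
noncomputable def xc187 : XT := (XT.nd (nat_lit 2184) (nat_lit 836) (nat_lit 0) (XT.nd (nat_lit 1092) (nat_lit 760) (nat_lit 0) (XT.nd (nat_lit 546) (nat_lit 532) (nat_lit 0) (XT.nd (nat_lit 234) (nat_lit 304) (nat_lit 0) (XT.nd (nat_lit 78) (nat_lit 228) (nat_lit 0) (XT.lf (nat_lit 0) (nat_lit 44129822645) (nat_lit 152) (nat_lit 2211678347) (nat_lit 76) (nat_lit 100069271389) (nat_lit 48) (nat_lit 5) (nat_lit 50) (nat_lit 5) (nat_lit 49) (nat_lit 5) (nat_lit 494) (nat_lit 443) (nat_lit 263)) (XT.nd (nat_lit 78) (nat_lit 76) (nat_lit 0) (XT.lf (nat_lit 0) (nat_lit 82923218027) (nat_lit 228) (nat_lit 66890983086) (nat_lit 76) (nat_lit 1517945193) (nat_lit 46) (nat_lit 5) (nat_lit 49) (nat_lit 5) (nat_lit 47) (nat_lit 4) (nat_lit 495) (nat_lit 443) (nat_lit 262)) (XT.lf (nat_lit 0) (nat_lit 18847379112) (nat_lit 76) (nat_lit 105900234427) (nat_lit 152) (nat_lit 31697408951) (nat_lit 45) (nat_lit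 5) (nat_lit 46) (nat_lit 5) (nat_lit 47) (nat_lit 4) (nat_lit 496) (nat_lit 443) (nat_lit 261)))) (XT.nd (nat_lit 156) (nat_lit 76) (nat_lit 0) (XT.nd (nat_lit 78) (nat_lit 152) (nat_lit 0) (XT.lf (nat_lit 0) (nat_lit 7781161676) (nat_lit 152) (nat_lit 50688713299) (nat_lit 76) (nat_lit 103280785041) (nat_lit 44) (nat_lit 5) (nat_lit 46) (nat_lit 5) (nat_lit 45) (nat_lit 5) (nat_lit 497) (nat_lit 443) (nat_lit 260)) (XT.lf (nat_lit 0) (nat_lit 41368894828) (nat_lit 152) (nat_lit 7444748558) (nat_lit 228) (nat_lit 118449693451) (nat_lit 42) (nat_lit 5) (nat_lit 44) (nat_lit 5) (nat_lit 45) (nat_lit 5) (nat_lit 498) (nat_lit 443) (nat_lit 259))) (XT.nd (nat_lit 78) (nat_lit 76) (nat_lit 0) (XT.lf (nat_lit 0) (nat_lit 93489847548) (nat_lit 228) (nat_lit 33955067953) (nat_lit 76) (nat_lit 45527127148) (nat_lit 42) (nat_lit 5) (nat_lit 45) (nat_lit 5) (nat_lit 43) (nat_lit 4) (nat_lit 499) (nat_lit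 443) (nat_lit 258)) (XT.lf (nat_lit 0) (nat_lit 64523226886) (nat_lit 76) (nat_lit 77005443376) (nat_lit 152) (nat_lit 37381073137) (nat_lit 41) (nat_lit 5) (nat_lit 42) (nat_lit 5) (nat_lit 43) (nat_lit 4) (nat_lit 500) (nat_lit 443) (nat_lit 257))))) (XT.nd (nat_lit 234) (nat_lit 228) (nat_lit 0) (XT.nd (nat_lit 78) (nat_lit 228) (nat_lit 0) (XT.lf (nat_lit 0) (nat_lit 7190508321) (nat_lit 152) (nat_lit 16128434351) (nat_lit 76) (nat_lit 161790866151) (nat_lit 40) (nat_lit 5) (nat_lit 42) (nat_lit 5) (nat_lit 41) (nat_lit 5) (nat_lit 501) (nat_lit 443) (nat_lit 256)) (XT.nd (nat_lit 78) (nat_lit 76) (nat_lit 0) (XT.lf (nat_lit 0) (nat_lit 54676760019) (nat_lit 228) (nat_lit 102782117192) (nat_lit 76) (nat_lit 34033243122) (nat_lit 38) (nat_lit 5) (nat_lit 41) (nat_lit 5) (nat_lit 39) (nat_lit 4) (nat_lit 502) (nat_lit 443) (nat_lit 255)) (XT.lf (nat_lit 0) (nat_lit 808434403) (nat_lit 76)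 (nat_lit 104400820397) (nat_lit 152) (nat_lit 92950696148) (nat_lit 37) (nat_lit 5) (nat_lit 38) (nat_lit 5) (nat_lit 39) (nat_lit 4) (nat_lit 503) (nat_lit 443) (nat_lit 254)))) (XT.nd (nat_lit 156) (nat_lit 76) (nat_lit 0) (XT.nd (nat_lit 78) (nat_lit 152) (nat_lit 0) (XT.lf (nat_lit 0) (nat_lit 113145794243) (nat_lit 76) (nat_lit 46862666381) (nat_lit 152) (nat_lit 45065708204) (nat_lit 37) (nat_lit 5) (nat_lit 38) (nat_lit 5) (nat_lit 39) (nat_lit 4) (nat_lit 504) (nat_lit 443) (nat_lit 253)) (XT.lf (nat_lit 0) (nat_lit 5565307670) (nat_lit 152) (nat_lit 193231608742) (nat_lit 76) (nat_lit 13507179142) (nat_lit 35) (nat_lit 5) (nat_lit 37) (nat_lit 5) (nat_lit 36) (nat_lit 4) (nat_lit 505) (nat_lit 443) (nat_lit 252))) (XT.nd (nat_lit 78) (nat_lit 76) (nat_lit 0) (XT.lf (nat_lit 0) (nat_lit 59563428024) (nat_lit 152) (nat_lit 82536336305) (nat_lit 76) (nat_lit 77641312377) (nat_lit 35)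 (nat_lit 5) (nat_lit 37) (nat_lit 5) (nat_lit 36) (nat_lit 4) (nat_lit 506) (nat_lit 443) (nat_lit 251)) (XT.lf (nat_lit 0) (nat_lit 34806730169) (nat_lit 76) (nat_lit 81997624260) (nat_lit 152) (nat_lit 110718407527) (nat_lit 34) (nat_lit 5) (nat_lit 35) (nat_lit 5) (nat_lit 36) (nat_lit 4) (nat_lit 507) (nat_lit 443) (nat_lit 250)))))) (XT.nd (nat_lit 546) (nat_lit 380) (nat_lit 0) (XT.nd (nat_lit 234) (nat_lit 228) (nat_lit 0) (XT.nd (nat_lit 78) (nat_lit 152) (nat_lit 0) (XT.lf (nat_lit 0) (nat_lit 160881439037) (nat_lit 76) (nat_lit 17423160209) (nat_lit 152) (nat_lit 57319068657) (nat_lit 34) (nat_lit 5) (nat_lit 35) (nat_lit 5) (nat_lit 36) (nat_lit 4) (nat_lit 508) (nat_lit 443) (nat_lit 249)) (XT.nd (nat_lit 78) (nat_lit 0) (nat_lit 0) (XT.lf (nat_lit 0) (nat_lit 381698154) (nat_lit 152) (nat_lit 194116323224) (nat_lit 76) (nat_lit 49553000381) (nat_lit 32) (nat_lit 5) (nat_lit 34)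 (nat_lit 5) (nat_lit 33) (nat_lit 4) (nat_lit 509) (nat_lit 443) (nat_lit 248)) (XT.lf (nat_lit 0) (nat_lit 60612877165) (nat_lit 152) (nat_lit 70643091279) (nat_lit 76) (nat_lit 121518208533) (nat_lit 32) (nat_lit 5) (nat_lit 34) (nat_lit 5) (nat_lit 33) (nat_lit 4) (nat_lit 510) (nat_lit 443) (nat_lit 247)))) (XT.nd (nat_lit 156) (nat_lit 152) (nat_lit 0) (XT.nd (nat_lit 78) (nat_lit 0) (nat_lit 0) (XT.lf (nat_lit 0) (nat_lit 60953791597) (nat_lit 76) (nat_lit 63853005219) (nat_lit 152) (nat_lit 137079134087) (nat_lit 31) (nat_lit 5) (nat_lit 32) (nat_lit 5) (nat_lit 33) (nat_lit 4) (nat_lit 511) (nat_lit 443) (nat_lit 246)) (XT.lf (nat_lit 0) (nat_lit 193533966556) (nat_lit 152) (nat_lit 69938936232) (nat_lit 0) (nat_lit 7914192063) (nat_lit 31) (nat_lit 5) (nat_lit 33) (nat_lit 4) (nat_lit 31) (nat_lit 4) (nat_lit 512) (nat_lit 443) (nat_lit 245))) (XT.nd (nat_lit 78) (nat_lit 76) (nat_lit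 0) (XT.lf (nat_lit 0) (nat_lit 68756936614) (nat_lit 76) (nat_lit 199060364093) (nat_lit 76) (nat_lit 13440026024) (nat_lit 30) (nat_lit 4) (nat_lit 31) (nat_lit 5) (nat_lit 31) (nat_lit 4) (nat_lit 513) (nat_lit 443) (nat_lit 244)) (XT.lf (nat_lit 0) (nat_lit 53662608194) (nat_lit 152) (nat_lit 75612528007) (nat_lit 76) (nat_lit 162243457494) (nat_lit 29) (nat_lit 5) (nat_lit 31) (nat_lit 5) (nat_lit 30) (nat_lit 4) (nat_lit 514) (nat_lit 443) (nat_lit 243))))) (XT.nd (nat_lit 234) (nat_lit 228) (nat_lit 0) (XT.nd (nat_lit 78) (nat_lit 76) (nat_lit 0) (XT.lf (nat_lit 0) (nat_lit 70143601649) (nat_lit 76) (nat_lit 54619806952) (nat_lit 152) (nat_lit 177463763643) (nat_lit 28) (nat_lit 5) (nat_lit 29) (nat_lit 5) (nat_lit 30) (nat_lit 4) (nat_lit 515) (nat_lit 443) (nat_lit 242)) (XT.nd (nat_lit 78) (nat_lit 76) (nat_lit 0) (XT.lf (nat_lit 0) (nat_lit 201091436631) (nat_lit 152) (nat_lit 87987433122)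 (nat_lit 0) (nat_lit 24308700611) (nat_lit 28) (nat_lit 5) (nat_lit 30) (nat_lit 4) (nat_lit 28) (nat_lit 4) (nat_lit 516) (nat_lit 443) (nat_lit 241)) (XT.lf (nat_lit 0) (nat_lit 64481110208) (nat_lit 76) (nat_lit 218656484680) (nat_lit 76) (nat_lit 41873307084) (nat_lit 27) (nat_lit 4) (nat_lit 28) (nat_lit 5) (nat_lit 28) (nat_lit 4) (nat_lit 517) (nat_lit 443) (nat_lit 240)))) (XT.nd (nat_lit 156) (nat_lit 76) (nat_lit 0) (XT.nd (nat_lit 78) (nat_lit 76) (nat_lit 0) (XT.lf (nat_lit 0) (nat_lit 32558329247) (nat_lit 152) (nat_lit 110039023186) (nat_lit 76) (nat_lit 194517305614) (nat_lit 26) (nat_lit 5) (nat_lit 28) (nat_lit 5) (nat_lit 27) (nat_lit 4) (nat_lit 518) (nat_lit 443) (nat_lit 239)) (XT.lf (nat_lit 0) (nat_lit 48852671218) (nat_lit 76) (nat_lit 61213997017) (nat_lit 152) (nat_lit 239684494401) (nat_lit 25) (nat_lit 5) (nat_lit 26) (nat_lit 5) (nat_lit 27) (nat_lit 4) (nat_lit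 519) (nat_lit 443) (nat_lit 238))) (XT.nd (nat_lit 78) (nat_lit 76) (nat_lit 0) (XT.lf (nat_lit 0) (nat_lit 193722582510) (nat_lit 152) (nat_lit 143826795837) (nat_lit 0) (nat_lit 25356506210) (nat_lit 25) (nat_lit 5) (nat_lit 27) (nat_lit 4) (nat_lit 25) (nat_lit 4) (nat_lit 520) (nat_lit 443) (nat_lit 237)) (XT.lf (nat_lit 0) (nat_lit 20758662466) (nat_lit 76) (nat_lit 262129870202) (nat_lit 76) (nat_lit 93763447915) (nat_lit 24) (nat_lit 4) (nat_lit 25) (nat_lit 5) (nat_lit 25) (nat_lit 4) (nat_lit 521) (nat_lit 443) (nat_lit 236))))))) (XT.nd (nat_lit 1092) (nat_lit 228) (nat_lit 0) (XT.nd (nat_lit 546) (nat_lit 228) (nat_lit 0) (XT.nd (nat_lit 234) (nat_lit 228) (nat_lit 0) (XT.nd (nat_lit 78) (nat_lit 152) (nat_lit 0) (XT.lf (nat_lit 0) (nat_lit 198566026143) (nat_lit 76) (nat_lit 180382168191) (nat_lit 76) (nat_lit 12015416394) (nat_lit 24) (nat_lit 4) (nat_lit 25) (nat_lit 5) (nat_lit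 25) (nat_lit 4) (nat_lit 522) (nat_lit 443) (nat_lit 235)) (XT.nd (nat_lit 78) (nat_lit 76) (nat_lit 0) (XT.lf (nat_lit 0) (nat_lit 71456964354) (nat_lit 152) (nat_lit 21880288688) (nat_lit 76) (nat_lit 312595960025) (nat_lit 23) (nat_lit 5) (nat_lit 25) (nat_lit 5) (nat_lit 24) (nat_lit 4) (nat_lit 523) (nat_lit 443) (nat_lit 234)) (XT.lf (nat_lit 0) (nat_lit 161244967792) (nat_lit 152) (nat_lit 259374092177) (nat_lit 0) (nat_lit 895096847) (nat_lit 22) (nat_lit 5) (nat_lit 24) (nat_lit 4) (nat_lit 22) (nat_lit 4) (nat_lit 524) (nat_lit 443) (nat_lit 233)))) (XT.nd (nat_lit 156) (nat_lit 152) (nat_lit 0) (XT.nd (nat_lit 78) (nat_lit 76) (nat_lit 0) (XT.lf (nat_lit 0) (nat_lit 257428785064) (nat_lit 152) (nat_lit 83271398989) (nat_lit 0) (nat_lit 97078643030) (nat_lit 22) (nat_lit 5) (nat_lit 24) (nat_lit 4) (nat_lit 22) (nat_lit 4) (nat_lit 525) (nat_lit 443) (nat_lit 232)) (XT.lf (nat_lit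 0) (nat_lit 104996343561) (nat_lit 76) (nat_lit 255064419518) (nat_lit 76) (nat_lit 94714019304) (nat_lit 21) (nat_lit 4) (nat_lit 22) (nat_lit 5) (nat_lit 22) (nat_lit 4) (nat_lit 526) (nat_lit 443) (nat_lit 231))) (XT.nd (nat_lit 78) (nat_lit 152) (nat_lit 0) (XT.lf (nat_lit 0) (nat_lit 305567854239) (nat_lit 76) (nat_lit 163666415419) (nat_lit 76) (nat_lit 3315769319) (nat_lit 21) (nat_lit 4) (nat_lit 22) (nat_lit 5) (nat_lit 22) (nat_lit 4) (nat_lit 527) (nat_lit 443) (nat_lit 230)) (XT.lf (nat_lit 0) (nat_lit 24283962287) (nat_lit 76) (nat_lit 65781814572) (nat_lit 152) (nat_lit 401057011433) (nat_lit 19) (nat_lit 5) (nat_lit 20) (nat_lit 5) (nat_lit 21) (nat_lit 4) (nat_lit 528) (nat_lit 443) (nat_lit 229))))) (XT.nd (nat_lit 234) (nat_lit 152) (nat_lit 0) (XT.nd (nat_lit 78) (nat_lit 76) (nat_lit 0) (XT.lf (nat_lit 0) (nat_lit 191456578301) (nat_lit 152) (nat_lit 280251056639) (nat_lit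 0) (nat_lit 38741241823) (nat_lit 19) (nat_lit 5) (nat_lit 21) (nat_lit 4) (nat_lit 19) (nat_lit 4) (nat_lit 529) (nat_lit 443) (nat_lit 228)) (XT.nd (nat_lit 78) (nat_lit 76) (nat_lit 0) (XT.lf (nat_lit 0) (nat_lit 298995023481) (nat_lit 152) (nat_lit 85412856291) (nat_lit 0) (nat_lit 146279484712) (nat_lit 19) (nat_lit 5) (nat_lit 21) (nat_lit 4) (nat_lit 19) (nat_lit 4) (nat_lit 530) (nat_lit 443) (nat_lit 227)) (XT.lf (nat_lit 0) (nat_lit 123106903730) (nat_lit 76) (nat_lit 290725257882) (nat_lit 76) (nat_lit 138009526455) (nat_lit 18) (nat_lit 4) (nat_lit 19) (nat_lit 5) (nat_lit 19) (nat_lit 4) (nat_lit 531) (nat_lit 443) (nat_lit 226)))) (XT.nd (nat_lit 156) (nat_lit 76) (nat_lit 0) (XT.nd (nat_lit 78) (nat_lit 76) (nat_lit 0) (XT.lf (nat_lit 0) (nat_lit 345017461886) (nat_lit 76) (nat_lit 190839934440) (nat_lit 76) (nat_lit 38124019529) (nat_lit 18) (nat_lit 4) (nat_lit 19) (nat_lit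 5) (nat_lit 19) (nat_lit 4) (nat_lit 532) (nat_lit 443) (nat_lit 225)) (XT.lf (nat_lit 0) (nat_lit 64618901643) (nat_lit 152) (nat_lit 20247341287) (nat_lit 76) (nat_lit 512309787873) (nat_lit 17) (nat_lit 5) (nat_lit 19) (nat_lit 5) (nat_lit 18) (nat_lit 4) (nat_lit 533) (nat_lit 443) (nat_lit 224))) (XT.nd (nat_lit 78) (nat_lit 0) (nat_lit 0) (XT.lf (nat_lit 0) (nat_lit 174890505697) (nat_lit 152) (nat_lit 416978531634) (nat_lit 0) (nat_lit 29446452286) (nat_lit 16) (nat_lit 5) (nat_lit 18) (nat_lit 4) (nat_lit 16) (nat_lit 4) (nat_lit 534) (nat_lit 443) (nat_lit 223)) (XT.lf (nat_lit 0) (nat_lit 292415212745) (nat_lit 152) (nat_lit 207188724114) (nat_lit 0) (nat_lit 146971008381) (nat_lit 16) (nat_lit 5) (nat_lit 18) (nat_lit 4) (nat_lit 16) (nat_lit 4) (nat_lit 535) (nat_lit 443) (nat_lit 222)))))) (XT.nd (nat_lit 55458) (nat_lit 0) (nat_lit 8588) (XT.nd (nat_lit 234) (nat_lit 152) (nat_lit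 0) (XT.nd (nat_lit 78) (nat_lit 0) (nat_lit 0) (XT.lf (nat_lit 0) (nat_lit 13522924498) (nat_lit 76) (nat_lit 402504126251) (nat_lit 76) (nat_lit 257059778123) (nat_lit 15) (nat_lit 4) (nat_lit 16) (nat_lit 5) (nat_lit 16) (nat_lit 4) (nat_lit 536) (nat_lit 443) (nat_lit 221)) (XT.nd (nat_lit 78) (nat_lit 0) (nat_lit 0) (XT.lf (nat_lit 0) (nat_lit 252462820417) (nat_lit 76) (nat_lit 296865270407) (nat_lit 76) (nat_lit 151420785361) (nat_lit 15) (nat_lit 4) (nat_lit 16) (nat_lit 5) (nat_lit 16) (nat_lit 4) (nat_lit 537) (nat_lit 443) (nat_lit 220)) (XT.lf (nat_lit 0) (nat_lit 503349273244) (nat_lit 76) (nat_lit 185944689538) (nat_lit 76) (nat_lit 40500074093) (nat_lit 15) (nat_lit 4) (nat_lit 16) (nat_lit 5) (nat_lit 16) (nat_lit 4) (nat_lit 538) (nat_lit 443) (nat_lit 219)))) (XT.nd (nat_lit 55068) (nat_lit 0) (nat_lit 8512) (XT.nd (nat_lit 78) (nat_lit 0) (nat_lit 0) (XT.lf (nat_lit 0) (nat_lit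 5477428279) (nat_lit 76) (nat_lit 68143141434) (nat_lit 152) (nat_lit 686607318014) (nat_lit 13) (nat_lit 5) (nat_lit 14) (nat_lit 5) (nat_lit 15) (nat_lit 4) (nat_lit 539) (nat_lit 443) (nat_lit 218)) (XT.lf (nat_lit 0) (nat_lit 196851052167) (nat_lit 152) (nat_lit 536728798580) (nat_lit 0) (nat_lit 58332139872) (nat_lit 13) (nat_lit 5) (nat_lit 15) (nat_lit 4) (nat_lit 13) (nat_lit 4) (nat_lit 540) (nat_lit 443) (nat_lit 217))) (XT.nd (nat_lit 78) (nat_lit 0) (nat_lit 0) (XT.lf (nat_lit 0) (nat_lit 5451798455) (nat_lit 836) (nat_lit 5977620483) (nat_lit 836) (nat_lit 5977620483) (nat_lit 125) (nat_lit 3) (nat_lit 136) (nat_lit 3) (nat_lit 136) (nat_lit 5) (nat_lit 444) (nat_lit 444) (nat_lit 312)) (XT.lf (nat_lit 76) (nat_lit 5268487148) (nat_lit 0) (nat_lit 6042882568) (nat_lit 836) (nat_lit 24366281360) (nat_lit 126) (nat_lit 5) (nat_lit 125) (nat_lit 3) (nat_lit 136) (nat_lit 5) (nat_lit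 445) (nat_lit 444) (nat_lit 311))))) (XT.nd (nat_lit 312) (nat_lit 0) (nat_lit 152) (XT.nd (nat_lit 156) (nat_lit 0) (nat_lit 76) (XT.nd (nat_lit 78) (nat_lit 0) (nat_lit 0) (XT.lf (nat_lit 0) (nat_lit 12123251120) (nat_lit 760) (nat_lit 12992497090) (nat_lit 836) (nat_lit 11449469033) (nat_lit 126) (nat_lit 5) (nat_lit 136) (nat_lit 5) (nat_lit 137) (nat_lit 5) (nat_lit 446) (nat_lit 444) (nat_lit 310)) (XT.lf (nat_lit 76) (nat_lit 5365738502) (nat_lit 0) (nat_lit 7789595435) (nat_lit 836) (nat_lit 24332848669) (nat_lit 127) (nat_lit 5) (nat_lit 126) (nat_lit 5) (nat_lit 137) (nat_lit 5) (nat_lit 447) (nat_lit 444) (nat_lit 309))) (XT.nd (nat_lit 78) (nat_lit 0) (nat_lit 0) (XT.lf (nat_lit 0) (nat_lit 14621992389) (nat_lit 760) (nat_lit 13521445556) (nat_lit 836) (nat_lit 10294710913) (nat_lit 127) (nat_lit 5) (nat_lit 137) (nat_lit 5) (nat_lit 138) (nat_lit 5) (nat_lit 448) (nat_lit 444)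 (nat_lit 308)) (XT.lf (nat_lit 76) (nat_lit 6074338475) (nat_lit 0) (nat_lit 10307240328) (nat_lit 836) (nat_lit 23043056006) (nat_lit 128) (nat_lit 5) (nat_lit 127) (nat_lit 5) (nat_lit 138) (nat_lit 5) (nat_lit 449) (nat_lit 444) (nat_lit 307)))) (XT.nd (nat_lit 156) (nat_lit 0) (nat_lit 76) (XT.nd (nat_lit 78) (nat_lit 0) (nat_lit 0) (XT.lf (nat_lit 0) (nat_lit 18590545131) (nat_lit 760) (nat_lit 13466982751) (nat_lit 836) (nat_lit 8384848231) (nat_lit 128) (nat_lit 5) (nat_lit 138) (nat_lit 5) (nat_lit 139) (nat_lit 5) (nat_lit 450) (nat_lit 444) (nat_lit 306)) (XT.lf (nat_lit 76) (nat_lit 7478889556) (nat_lit 0) (nat_lit 13714124581) (nat_lit 836) (nat_lit 20303838659) (nat_lit 129) (nat_lit 5) (nat_lit 128) (nat_lit 5) (nat_lit 139) (nat_lit 5) (nat_lit 451) (nat_lit 444) (nat_lit 305))) (XT.nd (nat_lit 78) (nat_lit 0) (nat_lit 0) (XT.lf (nat_lit 0) (nat_lit 24241434202) (nat_lit 760)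 (nat_lit 12745500024) (nat_lit 836) (nat_lit 5601328692) (nat_lit 129) (nat_lit 5) (nat_lit 139) (nat_lit 5) (nat_lit 140) (nat_lit 5) (nat_lit 452) (nat_lit 444) (nat_lit 304)) (XT.lf (nat_lit 76) (nat_lit 9673358767) (nat_lit 0) (nat_lit 18142312434) (nat_lit 836) (nat_lit 15899903484) (nat_lit 130) (nat_lit 5) (nat_lit 129) (nat_lit 5) (nat_lit 140) (nat_lit 5) (nat_lit 453) (nat_lit 444) (nat_lit 303))))))))
noncomputable def xc188 : XT := (XT.nd (nat_lit 2184) (nat_lit 2660) (nat_lit 0) (XT.nd (nat_lit 1092) (nat_lit 1900) (nat_lit 0) (XT.nd (nat_lit 546) (nat_lit 1292) (nat_lit 0) (XT.nd (nat_lit 234) (nat_lit 836) (nat_lit 0) (XT.nd (nat_lit 78) (nat_lit 760) (nat_lit 0) (XT.lf (nat_lit 0) (nat_lit 31811323633) (nat_lit 760) (nat_lit 11264125051) (nat_lit 76) (nat_lit 1811669070) (nat_lit 130) (nat_lit 5) (nat_lit 140) (nat_lit 5) (nat_lit 131) (nat_lit 5) (nat_lit 454) (nat_lit 444)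 (nat_lit 302)) (XT.nd (nat_lit 78) (nat_lit 0) (nat_lit 0) (XT.lf (nat_lit 0) (nat_lit 12761909914) (nat_lit 760) (nat_lit 23739263330) (nat_lit 836) (nat_lit 9591344854) (nat_lit 120) (nat_lit 5) (nat_lit 130) (nat_lit 5) (nat_lit 131) (nat_lit 5) (nat_lit 455) (nat_lit 444) (nat_lit 301)) (XT.lf (nat_lit 0) (nat_lit 38378337670) (nat_lit 760) (nat_lit 3235767799) (nat_lit 836) (nat_lit 5734654293) (nat_lit 120) (nat_lit 5) (nat_lit 130) (nat_lit 5) (nat_lit 131) (nat_lit 5) (nat_lit 456) (nat_lit 444) (nat_lit 300)))) (XT.nd (nat_lit 156) (nat_lit 380) (nat_lit 0) (XT.nd (nat_lit 78) (nat_lit 76) (nat_lit 0) (XT.lf (nat_lit 0) (nat_lit 16859801601) (nat_lit 380) (nat_lit 30669648110) (nat_lit 456) (nat_lit 1111026299) (nat_lit 115) (nat_lit 5) (nat_lit 120) (nat_lit 5) (nat_lit 121) (nat_lit 5) (nat_lit 457) (nat_lit 444) (nat_lit 299)) (XT.lf (nat_lit 0) (nat_lit 3829380526) (nat_lit 456)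 (nat_lit 5812222675) (nat_lit 76) (nat_lit 40341981927) (nat_lit 114) (nat_lit 5) (nat_lit 120) (nat_lit 5) (nat_lit 115) (nat_lit 5) (nat_lit 458) (nat_lit 444) (nat_lit 298))) (XT.nd (nat_lit 78) (nat_lit 0) (nat_lit 0) (XT.lf (nat_lit 0) (nat_lit 9523408055) (nat_lit 456) (nat_lit 29432673244) (nat_lit 76) (nat_lit 12409661484) (nat_lit 109) (nat_lit 5) (nat_lit 115) (nat_lit 5) (nat_lit 110) (nat_lit 5) (nat_lit 459) (nat_lit 444) (nat_lit 297)) (XT.lf (nat_lit 0) (nat_lit 15758369086) (nat_lit 456) (nat_lit 1706335334) (nat_lit 76) (nat_lit 35339492930) (nat_lit 109) (nat_lit 5) (nat_lit 115) (nat_lit 5) (nat_lit 110) (nat_lit 5) (nat_lit 460) (nat_lit 444) (nat_lit 296))))) (XT.nd (nat_lit 234) (nat_lit 608) (nat_lit 0) (XT.nd (nat_lit 78) (nat_lit 304) (nat_lit 0) (XT.lf (nat_lit 0) (nat_lit 22832189786) (nat_lit 456) (nat_lit 26068914368) (nat_lit 76) (nat_lit 5387115513) (nat_lit 104)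 (nat_lit 5) (nat_lit 110) (nat_lit 5) (nat_lit 105) (nat_lit 5) (nat_lit 461) (nat_lit 444) (nat_lit 295)) (XT.nd (nat_lit 78) (nat_lit 0) (nat_lit 0) (XT.lf (nat_lit 0) (nat_lit 3684672925) (nat_lit 304) (nat_lit 26946504185) (nat_lit 380) (nat_lit 25196692787) (nat_lit 100) (nat_lit 5) (nat_lit 104) (nat_lit 5) (nat_lit 105) (nat_lit 5) (nat_lit 462) (nat_lit 444) (nat_lit 294)) (XT.lf (nat_lit 0) (nat_lit 35829075751) (nat_lit 304) (nat_lit 3430849734) (nat_lit 380) (nat_lit 18162587117) (nat_lit 100) (nat_lit 5) (nat_lit 104) (nat_lit 5) (nat_lit 105) (nat_lit 5) (nat_lit 463) (nat_lit 444) (nat_lit 293)))) (XT.nd (nat_lit 156) (nat_lit 304) (nat_lit 0) (XT.nd (nat_lit 78) (nat_lit 0) (nat_lit 0) (XT.lf (nat_lit 0) (nat_lit 10485574573) (nat_lit 304) (nat_lit 38328581608) (nat_lit 380) (nat_lit 10258029537) (nat_lit 96) (nat_lit 5) (nat_lit 100) (nat_lit 5) (nat_lit 101) (nat_lit 5) (nat_lit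 464) (nat_lit 444) (nat_lit 292)) (XT.lf (nat_lit 0) (nat_lit 44858236314) (nat_lit 304) (nat_lit 14407339065) (nat_lit 380) (nat_lit 1517793759) (nat_lit 96) (nat_lit 5) (nat_lit 100) (nat_lit 5) (nat_lit 101) (nat_lit 5) (nat_lit 465) (nat_lit 444) (nat_lit 291))) (XT.nd (nat_lit 78) (nat_lit 0) (nat_lit 0) (XT.lf (nat_lit 0) (nat_lit 7881113547) (nat_lit 304) (nat_lit 43882123278) (nat_lit 76) (nat_lit 10787555573) (nat_lit 92) (nat_lit 5) (nat_lit 96) (nat_lit 5) (nat_lit 93) (nat_lit 5) (nat_lit 466) (nat_lit 444) (nat_lit 290)) (XT.lf (nat_lit 0) (nat_lit 18207798274) (nat_lit 304) (nat_lit 9115417256) (nat_lit 76) (nat_lit 37056685633) (nat_lit 92) (nat_lit 5) (nat_lit 96) (nat_lit 5) (nat_lit 93) (nat_lit 5) (nat_lit 467) (nat_lit 444) (nat_lit 289)))))) (XT.nd (nat_lit 546) (nat_lit 836) (nat_lit 0) (XT.nd (nat_lit 234) (nat_lit 532) (nat_lit 0) (XT.nd (nat_lit 78) (nat_lit 228) (nat_lit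 0) (XT.lf (nat_lit 0) (nat_lit 28293406749) (nat_lit 304) (nat_lit 1197752578) (nat_lit 380) (nat_lit 36787289345) (nat_lit 88) (nat_lit 5) (nat_lit 92) (nat_lit 5) (nat_lit 93) (nat_lit 5) (nat_lit 468) (nat_lit 444) (nat_lit 288)) (XT.nd (nat_lit 78) (nat_lit 228) (nat_lit 0) (XT.lf (nat_lit 0) (nat_lit 41903814839) (nat_lit 380) (nat_lit 788999303) (nat_lit 76) (nat_lit 25550853481) (nat_lit 88) (nat_lit 5) (nat_lit 93) (nat_lit 5) (nat_lit 89) (nat_lit 5) (nat_lit 469) (nat_lit 444) (nat_lit 287)) (XT.lf (nat_lit 0) (nat_lit 39510048570) (nat_lit 228) (nat_lit 16062253077) (nat_lit 304) (nat_lit 14703086321) (nat_lit 85) (nat_lit 5) (nat_lit 88) (nat_lit 5) (nat_lit 89) (nat_lit 5) (nat_lit 470) (nat_lit 444) (nat_lit 286)))) (XT.nd (nat_lit 156) (nat_lit 228) (nat_lit 0) (XT.nd (nat_lit 78) (nat_lit 76) (nat_lit 0) (XT.lf (nat_lit 0) (nat_lit 9561680841) (nat_lit 228) (nat_lit 60709916627)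 (nat_lit 304) (nat_lit 2119727981) (nat_lit 82) (nat_lit 5) (nat_lit 85) (nat_lit 5) (nat_lit 86) (nat_lit 5) (nat_lit 471) (nat_lit 444) (nat_lit 285)) (XT.lf (nat_lit 0) (nat_lit 11529384400) (nat_lit 304) (nat_lit 22060672256) (nat_lit 76) (nat_lit 40974762737) (nat_lit 81) (nat_lit 5) (nat_lit 85) (nat_lit 5) (nat_lit 82) (nat_lit 5) (nat_lit 472) (nat_lit 444) (nat_lit 284))) (XT.nd (nat_lit 78) (nat_lit 0) (nat_lit 0) (XT.lf (nat_lit 0) (nat_lit 21395087632) (nat_lit 228) (nat_lit 4727467196) (nat_lit 304) (nat_lit 50706054071) (nat_lit 78) (nat_lit 5) (nat_lit 81) (nat_lit 5) (nat_lit 82) (nat_lit 5) (nat_lit 473) (nat_lit 444) (nat_lit 283)) (XT.lf (nat_lit 0) (nat_lit 42223290179) (nat_lit 304) (nat_lit 11804559716) (nat_lit 76) (nat_lit 25138842955) (nat_lit 78) (nat_lit 5) (nat_lit 82) (nat_lit 5) (nat_lit 79) (nat_lit 5) (nat_lit 474) (nat_lit 444) (nat_lit 282))))) (XT.nd (nat_lit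 234) (nat_lit 380) (nat_lit 0) (XT.nd (nat_lit 78) (nat_lit 228) (nat_lit 0) (XT.lf (nat_lit 0) (nat_lit 35048490979) (nat_lit 228) (nat_lit 24704157211) (nat_lit 304) (nat_lit 21837853792) (nat_lit 75) (nat_lit 5) (nat_lit 78) (nat_lit 5) (nat_lit 79) (nat_lit 5) (nat_lit 475) (nat_lit 444) (nat_lit 281)) (XT.nd (nat_lit 78) (nat_lit 76) (nat_lit 0) (XT.lf (nat_lit 0) (nat_lit 442743650) (nat_lit 152) (nat_lit 78019752790) (nat_lit 228) (nat_lit 5657804275) (nat_lit 73) (nat_lit 5) (nat_lit 75) (nat_lit 5) (nat_lit 76) (nat_lit 5) (nat_lit 476) (nat_lit 444) (nat_lit 280)) (XT.lf (nat_lit 0) (nat_lit 12173606815) (nat_lit 228) (nat_lit 35941089650) (nat_lit 76) (nat_lit 38592796043) (nat_lit 72) (nat_lit 5) (nat_lit 75) (nat_lit 5) (nat_lit 73) (nat_lit 5) (nat_lit 477) (nat_lit 444) (nat_lit 279)))) (XT.nd (nat_lit 156) (nat_lit 152) (nat_lit 0) (XT.nd (nat_lit 78) (nat_lit 0) (nat_lit 0)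 (XT.lf (nat_lit 0) (nat_lit 14553677693) (nat_lit 228) (nat_lit 16378957643) (nat_lit 304) (nat_lit 58475461928) (nat_lit 69) (nat_lit 5) (nat_lit 72) (nat_lit 5) (nat_lit 73) (nat_lit 5) (nat_lit 478) (nat_lit 444) (nat_lit 278)) (XT.lf (nat_lit 0) (nat_lit 51511789108) (nat_lit 304) (nat_lit 23668434313) (nat_lit 76) (nat_lit 17019400364) (nat_lit 69) (nat_lit 5) (nat_lit 73) (nat_lit 5) (nat_lit 70) (nat_lit 5) (nat_lit 479) (nat_lit 444) (nat_lit 277))) (XT.nd (nat_lit 78) (nat_lit 0) (nat_lit 0) (XT.lf (nat_lit 0) (nat_lit 30792368927) (nat_lit 152) (nat_lit 43075822068) (nat_lit 228) (nat_lit 21225121319) (nat_lit 67) (nat_lit 5) (nat_lit 69) (nat_lit 5) (nat_lit 70) (nat_lit 5) (nat_lit 480) (nat_lit 444) (nat_lit 276)) (XT.lf (nat_lit 0) (nat_lit 88796429584) (nat_lit 152) (nat_lit 8945870453) (nat_lit 228) (nat_lit 369391077) (nat_lit 67) (nat_lit 5) (nat_lit 69) (nat_lit 5) (nat_lit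 70) (nat_lit 5) (nat_lit 481) (nat_lit 444) (nat_lit 275))))))) (XT.nd (nat_lit 1092) (nat_lit 1216) (nat_lit 0) (XT.nd (nat_lit 546) (nat_lit 684) (nat_lit 0) (XT.nd (nat_lit 234) (nat_lit 380) (nat_lit 0) (XT.nd (nat_lit 78) (nat_lit 152) (nat_lit 0) (XT.lf (nat_lit 0) (nat_lit 22052710748) (nat_lit 228) (nat_lit 51991575448) (nat_lit 76) (nat_lit 27159263762) (nat_lit 64) (nat_lit 5) (nat_lit 67) (nat_lit 5) (nat_lit 65) (nat_lit 5) (nat_lit 482) (nat_lit 444) (nat_lit 274)) (XT.nd (nat_lit 78) (nat_lit 0) (nat_lit 0) (XT.lf (nat_lit 0) (nat_lit 6601383663) (nat_lit 152) (nat_lit 39391278328) (nat_lit 228) (nat_lit 58436579227) (nat_lit 62) (nat_lit 5) (nat_lit 64) (nat_lit 5) (nat_lit 65) (nat_lit 5) (nat_lit 483) (nat_lit 444) (nat_lit 273)) (XT.lf (nat_lit 0) (nat_lit 69927574726) (nat_lit 152) (nat_lit 2081653037) (nat_lit 228) (nat_lit 35763008592) (nat_lit 62) (nat_lit 5) (nat_lit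 64) (nat_lit 5) (nat_lit 65) (nat_lit 5) (nat_lit 484) (nat_lit 444) (nat_lit 272)))) (XT.nd (nat_lit 156) (nat_lit 152) (nat_lit 0) (XT.nd (nat_lit 78) (nat_lit 76) (nat_lit 0) (XT.lf (nat_lit 0) (nat_lit 25369120385) (nat_lit 152) (nat_lit 74931865579) (nat_lit 228) (nat_lit 10932677231) (nat_lit 60) (nat_lit 5) (nat_lit 62) (nat_lit 5) (nat_lit 63) (nat_lit 5) (nat_lit 485) (nat_lit 444) (nat_lit 271)) (XT.lf (nat_lit 0) (nat_lit 15339326047) (nat_lit 228) (nat_lit 22061056585) (nat_lit 76) (nat_lit 77421725474) (nat_lit 59) (nat_lit 5) (nat_lit 62) (nat_lit 5) (nat_lit 60) (nat_lit 5) (nat_lit 486) (nat_lit 444) (nat_lit 270))) (XT.nd (nat_lit 78) (nat_lit 0) (nat_lit 0) (XT.lf (nat_lit 0) (nat_lit 43324628451) (nat_lit 228) (nat_lit 72359337274) (nat_lit 76) (nat_lit 2858693028) (nat_lit 57) (nat_lit 5) (nat_lit 60) (nat_lit 5) (nat_lit 58) (nat_lit 5) (nat_lit 487) (nat_lit 444) (nat_lit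 269)) (XT.lf (nat_lit 0) (nat_lit 73701259471) (nat_lit 228) (nat_lit 4445332068) (nat_lit 76) (nat_lit 44253042347) (nat_lit 57) (nat_lit 5) (nat_lit 60) (nat_lit 5) (nat_lit 58) (nat_lit 5) (nat_lit 488) (nat_lit 444) (nat_lit 268))))) (XT.nd (nat_lit 234) (nat_lit 304) (nat_lit 0) (XT.nd (nat_lit 78) (nat_lit 228) (nat_lit 0) (XT.lf (nat_lit 0) (nat_lit 69073874935) (nat_lit 152) (nat_lit 37600524795) (nat_lit 228) (nat_lit 19721174281) (nat_lit 55) (nat_lit 5) (nat_lit 57) (nat_lit 5) (nat_lit 58) (nat_lit 5) (nat_lit 489) (nat_lit 444) (nat_lit 267)) (XT.nd (nat_lit 78) (nat_lit 0) (nat_lit 0) (XT.lf (nat_lit 0) (nat_lit 10776473758) (nat_lit 228) (nat_lit 114468144781) (nat_lit 76) (nat_lit 5317625495) (nat_lit 52) (nat_lit 5) (nat_lit 55) (nat_lit 5) (nat_lit 53) (nat_lit 5) (nat_lit 490) (nat_lit 444) (nat_lit 266)) (XT.lf (nat_lit 0) (nat_lit 43738582977) (nat_lit 228) (nat_lit 40674861591)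 (nat_lit 76) (nat_lit 50427521218) (nat_lit 52) (nat_lit 5) (nat_lit 55) (nat_lit 5) (nat_lit 53) (nat_lit 5) (nat_lit 491) (nat_lit 444) (nat_lit 265)))) (XT.nd (nat_lit 156) (nat_lit 152) (nat_lit 0) (XT.nd (nat_lit 78) (nat_lit 0) (nat_lit 0) (XT.lf (nat_lit 0) (nat_lit 38023842598) (nat_lit 152) (nat_lit 40917901922) (nat_lit 228) (nat_lit 60362231863) (nat_lit 50) (nat_lit 5) (nat_lit 52) (nat_lit 5) (nat_lit 53) (nat_lit 5) (nat_lit 492) (nat_lit 444) (nat_lit 264)) (XT.lf (nat_lit 0) (nat_lit 116678698457) (nat_lit 228) (nat_lit 21972815159) (nat_lit 76) (nat_lit 5299942273) (nat_lit 50) (nat_lit 5) (nat_lit 53) (nat_lit 5) (nat_lit 51) (nat_lit 4) (nat_lit 493) (nat_lit 444) (nat_lit 263))) (XT.nd (nat_lit 78) (nat_lit 0) (nat_lit 0) (XT.lf (nat_lit 0) (nat_lit 8907064789) (nat_lit 152) (nat_lit 86260047297) (nat_lit 76) (nat_lit 53574615116) (nat_lit 48) (nat_lit 5) (nat_lit 50) (nat_lit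 5) (nat_lit 49) (nat_lit 5) (nat_lit 494) (nat_lit 444) (nat_lit 262)) (XT.lf (nat_lit 0) (nat_lit 46356886330) (nat_lit 152) (nat_lit 2285548249) (nat_lit 76) (nat_lit 105087845280) (nat_lit 48) (nat_lit 5) (nat_lit 50) (nat_lit 5) (nat_lit 49) (nat_lit 5) (nat_lit 495) (nat_lit 444) (nat_lit 261)))))) (XT.nd (nat_lit 546) (nat_lit 608) (nat_lit 0) (XT.nd (nat_lit 234) (nat_lit 304) (nat_lit 0) (XT.nd (nat_lit 78) (nat_lit 152) (nat_lit 0) (XT.lf (nat_lit 0) (nat_lit 87089785058) (nat_lit 228) (nat_lit 70198649408) (nat_lit 76) (nat_lit 1609296456) (nat_lit 46) (nat_lit 5) (nat_lit 49) (nat_lit 5) (nat_lit 47) (nat_lit 4) (nat_lit 496) (nat_lit 444) (nat_lit 260)) (XT.nd (nat_lit 78) (nat_lit 76) (nat_lit 0) (XT.lf (nat_lit 0) (nat_lit 19826036016) (nat_lit 76) (nat_lit 111178959167) (nat_lit 152) (nat_lit 33261276106) (nat_lit 45) (nat_lit 5) (nat_lit 46) (nat_lit 5) (nat_lit 47) (nat_lit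 4) (nat_lit 497) (nat_lit 444) (nat_lit 259)) (XT.lf (nat_lit 0) (nat_lit 8189582671) (nat_lit 152) (nat_lit 53187946721) (nat_lit 76) (nat_lit 108459693412) (nat_lit 44) (nat_lit 5) (nat_lit 46) (nat_lit 5) (nat_lit 45) (nat_lit 5) (nat_lit 498) (nat_lit 444) (nat_lit 258)))) (XT.nd (nat_lit 156) (nat_lit 152) (nat_lit 0) (XT.nd (nat_lit 78) (nat_lit 0) (nat_lit 0) (XT.lf (nat_lit 0) (nat_lit 43471974034) (nat_lit 152) (nat_lit 7801333130) (nat_lit 228) (nat_lit 124352245466) (nat_lit 42) (nat_lit 5) (nat_lit 44) (nat_lit 5) (nat_lit 45) (nat_lit 5) (nat_lit 499) (nat_lit 444) (nat_lit 257)) (XT.lf (nat_lit 0) (nat_lit 98182650395) (nat_lit 228) (nat_lit 35619163133) (nat_lit 76) (nat_lit 47817913855) (nat_lit 42) (nat_lit 5) (nat_lit 45) (nat_lit 5) (nat_lit 43) (nat_lit 4) (nat_lit 500) (nat_lit 444) (nat_lit 256))) (XT.nd (nat_lit 78) (nat_lit 76) (nat_lit 0) (XT.lf (nat_lit 0) (nat_lit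 67782503573) (nat_lit 76) (nat_lit 80840555767) (nat_lit 152) (nat_lit 39231271664) (nat_lit 41) (nat_lit 5) (nat_lit 42) (nat_lit 5) (nat_lit 43) (nat_lit 4) (nat_lit 501) (nat_lit 444) (nat_lit 255)) (XT.lf (nat_lit 0) (nat_lit 7567416259) (nat_lit 152) (nat_lit 16902741283) (nat_lit 76) (nat_lit 169894270977) (nat_lit 40) (nat_lit 5) (nat_lit 42) (nat_lit 5) (nat_lit 41) (nat_lit 5) (nat_lit 502) (nat_lit 444) (nat_lit 254))))) (XT.nd (nat_lit 312) (nat_lit 228) (nat_lit 0) (XT.nd (nat_lit 156) (nat_lit 152) (nat_lit 0) (XT.nd (nat_lit 78) (nat_lit 76) (nat_lit 0) (XT.lf (nat_lit 0) (nat_lit 57427873264) (nat_lit 228) (nat_lit 107888999445) (nat_lit 76) (nat_lit 35748988337) (nat_lit 38) (nat_lit 5) (nat_lit 41) (nat_lit 5) (nat_lit 39) (nat_lit 4) (nat_lit 503) (nat_lit 444) (nat_lit 253)) (XT.lf (nat_lit 0) (nat_lit 880559995) (nat_lit 76) (nat_lit 109606105144) (nat_lit 152) (nat_lit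 97580434507) (nat_lit 37) (nat_lit 5) (nat_lit 38) (nat_lit 5) (nat_lit 39) (nat_lit 4) (nat_lit 504) (nat_lit 444) (nat_lit 252))) (XT.nd (nat_lit 78) (nat_lit 152) (nat_lit 0) (XT.lf (nat_lit 0) (nat_lit 118833278118) (nat_lit 76) (nat_lit 49191746107) (nat_lit 152) (nat_lit 47302044616) (nat_lit 37) (nat_lit 5) (nat_lit 38) (nat_lit 5) (nat_lit 39) (nat_lit 4) (nat_lit 505) (nat_lit 444) (nat_lit 251)) (XT.lf (nat_lit 0) (nat_lit 5859891320) (nat_lit 152) (nat_lit 202862361683) (nat_lit 76) (nat_lit 14196230147) (nat_lit 35) (nat_lit 5) (nat_lit 37) (nat_lit 5) (nat_lit 36) (nat_lit 4) (nat_lit 506) (nat_lit 444) (nat_lit 250)))) (XT.nd (nat_lit 156) (nat_lit 152) (nat_lit 0) (XT.nd (nat_lit 78) (nat_lit 76) (nat_lit 0) (XT.lf (nat_lit 0) (nat_lit 62557140631) (nat_lit 152) (nat_lit 86633793600) (nat_lit 76) (nat_lit 81536418042) (nat_lit 35) (nat_lit 5) (nat_lit 37) (nat_lit 5) (nat_lit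 36) (nat_lit 4) (nat_lit 507) (nat_lit 444) (nat_lit 249)) (XT.lf (nat_lit 0) (nat_lit 36575952658) (nat_lit 76) (nat_lit 86083871633) (nat_lit 152) (nat_lit 116238312006) (nat_lit 34) (nat_lit 5) (nat_lit 35) (nat_lit 5) (nat_lit 36) (nat_lit 4) (nat_lit 508) (nat_lit 444) (nat_lit 248))) (XT.nd (nat_lit 78) (nat_lit 152) (nat_lit 0) (XT.lf (nat_lit 0) (nat_lit 168953021447) (nat_lit 76) (nat_lit 18281333609) (nat_lit 152) (nat_lit 60169768854) (nat_lit 34) (nat_lit 5) (nat_lit 35) (nat_lit 5) (nat_lit 36) (nat_lit 4) (nat_lit 509) (nat_lit 444) (nat_lit 247)) (XT.lf (nat_lit 0) (nat_lit 415478946) (nat_lit 152) (nat_lit 203794069538) (nat_lit 76) (nat_lit 52043288574) (nat_lit 32) (nat_lit 5) (nat_lit 34) (nat_lit 5) (nat_lit 33) (nat_lit 4) (nat_lit 510) (nat_lit 444) (nat_lit 246))))))))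
noncomputable def xc189 : XT := (XT.nd (nat_lit 2184) (nat_lit 152) (nat_lit 0) (XT.nd (nat_lit 1092) (nat_lit 608) (nat_lit 0) (XT.nd (nat_lit 546) (nat_lit 380) (nat_lit 0) (XT.nd (nat_lit 234) (nat_lit 228) (nat_lit 0) (XT.nd (nat_lit 78) (nat_lit 76) (nat_lit 0) (XT.lf (nat_lit 0) (nat_lit 63657517104) (nat_lit 152) (nat_lit 74148512655) (nat_lit 76) (nat_lit 127606155315) (nat_lit 32) (nat_lit 5) (nat_lit 34) (nat_lit 5) (nat_lit 33) (nat_lit 4) (nat_lit 511) (nat_lit 444) (nat_lit 245)) (XT.nd (nat_lit 78) (nat_lit 0) (nat_lit 0) (XT.lf (nat_lit 0) (nat_lit 64027783184) (nat_lit 76) (nat_lit 67033093721) (nat_lit 152) (nat_lit 143918662629) (nat_lit 31) (nat_lit 5) (nat_lit 32) (nat_lit 5) (nat_lit 33) (nat_lit 4) (nat_lit 512) (nat_lit 444) (nat_lit 244)) (XT.lf (nat_lit 0) (nat_lit 203223937620) (nat_lit 152) (nat_lit 73410365142) (nat_lit 0) (nat_lit 8321482337) (nat_lit 31) (nat_lit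 5) (nat_lit 33) (nat_lit 4) (nat_lit 31) (nat_lit 4) (nat_lit 513) (nat_lit 444) (nat_lit 243)))) (XT.nd (nat_lit 156) (nat_lit 76) (nat_lit 0) (XT.nd (nat_lit 78) (nat_lit 76) (nat_lit 0) (XT.lf (nat_lit 0) (nat_lit 72219889767) (nat_lit 76) (nat_lit 209001308655) (nat_lit 76) (nat_lit 14098342193) (nat_lit 30) (nat_lit 4) (nat_lit 31) (nat_lit 5) (nat_lit 31) (nat_lit 4) (nat_lit 514) (nat_lit 444) (nat_lit 242)) (XT.lf (nat_lit 0) (nat_lit 56358354911) (nat_lit 152) (nat_lit 79368825730) (nat_lit 76) (nat_lit 170366711181) (nat_lit 29) (nat_lit 5) (nat_lit 31) (nat_lit 5) (nat_lit 30) (nat_lit 4) (nat_lit 515) (nat_lit 444) (nat_lit 241))) (XT.nd (nat_lit 78) (nat_lit 0) (nat_lit 0) (XT.lf (nat_lit 0) (nat_lit 73674718011) (nat_lit 76) (nat_lit 57339250263) (nat_lit 152) (nat_lit 186323942412) (nat_lit 28) (nat_lit 5) (nat_lit 29) (nat_lit 5) (nat_lit 30) (nat_lit 4) (nat_lit 516) (nat_lit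 444) (nat_lit 240)) (XT.lf (nat_lit 0) (nat_lit 211157979439) (nat_lit 152) (nat_lit 92363589381) (nat_lit 0) (nat_lit 25534780840) (nat_lit 28) (nat_lit 5) (nat_lit 30) (nat_lit 4) (nat_lit 28) (nat_lit 4) (nat_lit 517) (nat_lit 444) (nat_lit 239))))) (XT.nd (nat_lit 234) (nat_lit 152) (nat_lit 0) (XT.nd (nat_lit 78) (nat_lit 152) (nat_lit 0) (XT.lf (nat_lit 0) (nat_lit 67728006674) (nat_lit 76) (nat_lit 229578225500) (nat_lit 76) (nat_lit 43954626379) (nat_lit 27) (nat_lit 4) (nat_lit 28) (nat_lit 5) (nat_lit 28) (nat_lit 4) (nat_lit 518) (nat_lit 444) (nat_lit 238)) (XT.nd (nat_lit 78) (nat_lit 76) (nat_lit 0) (XT.lf (nat_lit 0) (nat_lit 34197627527) (nat_lit 152) (nat_lit 115518844139) (nat_lit 76) (nat_lit 204253349611) (nat_lit 26) (nat_lit 5) (nat_lit 28) (nat_lit 5) (nat_lit 27) (nat_lit 4) (nat_lit 519) (nat_lit 444) (nat_lit 237)) (XT.lf (nat_lit 0) (nat_lit 51317078046) (nat_lit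 76) (nat_lit 64264103369) (nat_lit 152) (nat_lit 251656979811) (nat_lit 25) (nat_lit 5) (nat_lit 26) (nat_lit 5) (nat_lit 27) (nat_lit 4) (nat_lit 520) (nat_lit 444) (nat_lit 236)))) (XT.nd (nat_lit 156) (nat_lit 76) (nat_lit 0) (XT.nd (nat_lit 78) (nat_lit 76) (nat_lit 0) (XT.lf (nat_lit 0) (nat_lit 203419516552) (nat_lit 152) (nat_lit 150997023804) (nat_lit 0) (nat_lit 26634097655) (nat_lit 25) (nat_lit 5) (nat_lit 27) (nat_lit 4) (nat_lit 25) (nat_lit 4) (nat_lit 521) (nat_lit 444) (nat_lit 235)) (XT.lf (nat_lit 0) (nat_lit 21817366900) (nat_lit 76) (nat_lit 275226207096) (nat_lit 76) (nat_lit 98440474379) (nat_lit 24) (nat_lit 4) (nat_lit 25) (nat_lit 5) (nat_lit 25) (nat_lit 4) (nat_lit 522) (nat_lit 444) (nat_lit 234))) (XT.nd (nat_lit 78) (nat_lit 76) (nat_lit 0) (XT.lf (nat_lit 0) (nat_lit 208514109651) (nat_lit 76) (nat_lit 189391603633) (nat_lit 76) (nat_lit 12605572041) (nat_lit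 24) (nat_lit 4) (nat_lit 25) (nat_lit 5) (nat_lit 25) (nat_lit 4) (nat_lit 523) (nat_lit 444) (nat_lit 233)) (XT.lf (nat_lit 0) (nat_lit 75039598688) (nat_lit 152) (nat_lit 22955138924) (nat_lit 76) (nat_lit 328234646369) (nat_lit 23) (nat_lit 5) (nat_lit 25) (nat_lit 5) (nat_lit 24) (nat_lit 4) (nat_lit 524) (nat_lit 444) (nat_lit 232)))))) (XT.nd (nat_lit 546) (nat_lit 304) (nat_lit 0) (XT.nd (nat_lit 234) (nat_lit 152) (nat_lit 0) (XT.nd (nat_lit 78) (nat_lit 76) (nat_lit 0) (XT.lf (nat_lit 0) (nat_lit 169316974944) (nat_lit 152) (nat_lit 272323604822) (nat_lit 0) (nat_lit 948796540) (nat_lit 22) (nat_lit 5) (nat_lit 24) (nat_lit 4) (nat_lit 22) (nat_lit 4) (nat_lit 525) (nat_lit 444) (nat_lit 231)) (XT.nd (nat_lit 78) (nat_lit 76) (nat_lit 0) (XT.lf (nat_lit 0) (nat_lit 270309518377) (nat_lit 152) (nat_lit 87416690877) (nat_lit 0) (nat_lit 101941094087) (nat_lit 22) (nat_lit 5) (nat_lit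 24) (nat_lit 4) (nat_lit 22) (nat_lit 4) (nat_lit 526) (nat_lit 444) (nat_lit 230)) (XT.lf (nat_lit 0) (nat_lit 110264143993) (nat_lit 76) (nat_lit 267808789494) (nat_lit 76) (nat_lit 99440131028) (nat_lit 21) (nat_lit 4) (nat_lit 22) (nat_lit 5) (nat_lit 22) (nat_lit 4) (nat_lit 527) (nat_lit 444) (nat_lit 229)))) (XT.nd (nat_lit 156) (nat_lit 0) (nat_lit 0) (XT.nd (nat_lit 78) (nat_lit 152) (nat_lit 0) (XT.lf (nat_lit 0) (nat_lit 320863373860) (nat_lit 76) (nat_lit 171841306666) (nat_lit 76) (nat_lit 3472425174) (nat_lit 21) (nat_lit 4) (nat_lit 22) (nat_lit 5) (nat_lit 22) (nat_lit 4) (nat_lit 528) (nat_lit 444) (nat_lit 228)) (XT.lf (nat_lit 0) (nat_lit 25515298990) (nat_lit 76) (nat_lit 69062453638) (nat_lit 152) (nat_lit 421100740409) (nat_lit 19) (nat_lit 5) (nat_lit 20) (nat_lit 5) (nat_lit 21) (nat_lit 4) (nat_lit 529) (nat_lit 444) (nat_lit 227))) (XT.nd (nat_lit 78) (nat_lit 0) (nat_lit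 0) (XT.lf (nat_lit 0) (nat_lit 201037806149) (nat_lit 152) (nat_lit 294246998705) (nat_lit 0) (nat_lit 40686095493) (nat_lit 19) (nat_lit 5) (nat_lit 21) (nat_lit 4) (nat_lit 19) (nat_lit 4) (nat_lit 530) (nat_lit 444) (nat_lit 226)) (XT.lf (nat_lit 0) (nat_lit 313952773638) (nat_lit 152) (nat_lit 89667679328) (nat_lit 0) (nat_lit 153600879499) (nat_lit 19) (nat_lit 5) (nat_lit 21) (nat_lit 4) (nat_lit 19) (nat_lit 4) (nat_lit 531) (nat_lit 444) (nat_lit 225))))) (XT.nd (nat_lit 234) (nat_lit 152) (nat_lit 0) (XT.nd (nat_lit 78) (nat_lit 76) (nat_lit 0) (XT.lf (nat_lit 0) (nat_lit 129277813536) (nat_lit 76) (nat_lit 305253817243) (nat_lit 76) (nat_lit 144901748357) (nat_lit 18) (nat_lit 4) (nat_lit 19) (nat_lit 5) (nat_lit 19) (nat_lit 4) (nat_lit 532) (nat_lit 444) (nat_lit 224)) (XT.nd (nat_lit 78) (nat_lit 76) (nat_lit 0) (XT.lf (nat_lit 0) (nat_lit 362283158427) (nat_lit 76) (nat_lit 200374594464)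 (nat_lit 76) (nat_lit 40022359153) (nat_lit 18) (nat_lit 4) (nat_lit 19) (nat_lit 5) (nat_lit 19) (nat_lit 4) (nat_lit 533) (nat_lit 444) (nat_lit 223)) (XT.lf (nat_lit 0) (nat_lit 67857094097) (nat_lit 152) (nat_lit 21245350910) (nat_lit 76) (nat_lit 537932024726) (nat_lit 17) (nat_lit 5) (nat_lit 19) (nat_lit 5) (nat_lit 18) (nat_lit 4) (nat_lit 534) (nat_lit 444) (nat_lit 222)))) (XT.nd (nat_lit 156) (nat_lit 76) (nat_lit 0) (XT.nd (nat_lit 78) (nat_lit 0) (nat_lit 0) (XT.lf (nat_lit 0) (nat_lit 183642263123) (nat_lit 152) (nat_lit 437813085314) (nat_lit 0) (nat_lit 30925553824) (nat_lit 16) (nat_lit 5) (nat_lit 18) (nat_lit 4) (nat_lit 16) (nat_lit 4) (nat_lit 535) (nat_lit 444) (nat_lit 221)) (XT.lf (nat_lit 0) (nat_lit 307042861136) (nat_lit 152) (nat_lit 217534471842) (nat_lit 0) (nat_lit 154326014919) (nat_lit 16) (nat_lit 5) (nat_lit 18) (nat_lit 4) (nat_lit 16) (nat_lit 4) (nat_lit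 536) (nat_lit 444) (nat_lit 220))) (XT.nd (nat_lit 78) (nat_lit 0) (nat_lit 0) (XT.lf (nat_lit 0) (nat_lit 14212538419) (nat_lit 76) (nat_lit 422622634901) (nat_lit 76) (nat_lit 269905658285) (nat_lit 15) (nat_lit 4) (nat_lit 16) (nat_lit 5) (nat_lit 16) (nat_lit 4) (nat_lit 537) (nat_lit 444) (nat_lit 219)) (XT.lf (nat_lit 0) (nat_lit 265098787815) (nat_lit 76) (nat_lit 311702155201) (nat_lit 76) (nat_lit 158985054397) (nat_lit 15) (nat_lit 4) (nat_lit 16) (nat_lit 5) (nat_lit 16) (nat_lit 4) (nat_lit 538) (nat_lit 444) (nat_lit 218))))))) (XT.nd (nat_lit 56082) (nat_lit 0) (nat_lit 5472) (XT.nd (nat_lit 55536) (nat_lit 0) (nat_lit 8132) (XT.nd (nat_lit 55224) (nat_lit 0) (nat_lit 8512) (XT.nd (nat_lit 78) (nat_lit 152) (nat_lit 0) (XT.lf (nat_lit 0) (nat_lit 528528952504) (nat_lit 76) (nat_lit 195235849037) (nat_lit 76) (nat_lit 42518629957) (nat_lit 15) (nat_lit 4) (nat_lit 16) (nat_lit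 5) (nat_lit 16) (nat_lit 4) (nat_lit 539) (nat_lit 444) (nat_lit 217)) (XT.nd (nat_lit 55068) (nat_lit 0) (nat_lit 8512) (XT.lf (nat_lit 0) (nat_lit 5763521485) (nat_lit 76) (nat_lit 71544211787) (nat_lit 152) (nat_lit 720931241917) (nat_lit 13) (nat_lit 5) (nat_lit 14) (nat_lit 5) (nat_lit 15) (nat_lit 4) (nat_lit 540) (nat_lit 444) (nat_lit 216)) (XT.lf (nat_lit 0) (nat_lit 5776489073) (nat_lit 836) (nat_lit 6249138506) (nat_lit 836) (nat_lit 6249138506) (nat_lit 125) (nat_lit 3) (nat_lit 136) (nat_lit 3) (nat_lit 136) (nat_lit 5) (nat_lit 445) (nat_lit 445) (nat_lit 310)))) (XT.nd (nat_lit 156) (nat_lit 0) (nat_lit 76) (XT.nd (nat_lit 78) (nat_lit 0) (nat_lit 76) (XT.lf (nat_lit 76) (nat_lit 5585754830) (nat_lit 0) (nat_lit 6391263439) (nat_lit 836) (nat_lit 25479472747) (nat_lit 126) (nat_lit 5) (nat_lit 125) (nat_lit 3) (nat_lit 136) (nat_lit 5) (nat_lit 446) (nat_lit 445) (nat_lit 309))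 (XT.lf (nat_lit 0) (nat_lit 12824040515) (nat_lit 760) (nat_lit 13585352588) (nat_lit 836) (nat_lit 11979316887) (nat_lit 126) (nat_lit 5) (nat_lit 136) (nat_lit 5) (nat_lit 137) (nat_lit 5) (nat_lit 447) (nat_lit 445) (nat_lit 308))) (XT.nd (nat_lit 78) (nat_lit 0) (nat_lit 76) (XT.lf (nat_lit 76) (nat_lit 5689879148) (nat_lit 0) (nat_lit 8214214318) (nat_lit 836) (nat_lit 25453913607) (nat_lit 127) (nat_lit 5) (nat_lit 126) (nat_lit 5) (nat_lit 137) (nat_lit 5) (nat_lit 448) (nat_lit 445) (nat_lit 307)) (XT.lf (nat_lit 0) (nat_lit 15439229353) (nat_lit 760) (nat_lit 14139434972) (nat_lit 836) (nat_lit 10777051754) (nat_lit 127) (nat_lit 5) (nat_lit 137) (nat_lit 5) (nat_lit 138) (nat_lit 5) (nat_lit 449) (nat_lit 445) (nat_lit 306))))) (XT.nd (nat_lit 234) (nat_lit 532) (nat_lit 0) (XT.nd (nat_lit 78) (nat_lit 0) (nat_lit 76) (XT.lf (nat_lit 76) (nat_lit 6435201440) (nat_lit 0) (nat_lit 10848384080)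 (nat_lit 836) (nat_lit 24108102875) (nat_lit 128) (nat_lit 5) (nat_lit 127) (nat_lit 5) (nat_lit 138) (nat_lit 5) (nat_lit 450) (nat_lit 445) (nat_lit 305)) (XT.nd (nat_lit 78) (nat_lit 0) (nat_lit 0) (XT.lf (nat_lit 0) (nat_lit 19598667865) (nat_lit 760) (nat_lit 14081544535) (nat_lit 836) (nat_lit 8780322492) (nat_lit 128) (nat_lit 5) (nat_lit 138) (nat_lit 5) (nat_lit 139) (nat_lit 5) (nat_lit 451) (nat_lit 445) (nat_lit 304)) (XT.lf (nat_lit 76) (nat_lit 7910673204) (nat_lit 0) (nat_lit 14417747507) (nat_lit 836) (nat_lit 21239458120) (nat_lit 129) (nat_lit 5) (nat_lit 128) (nat_lit 5) (nat_lit 139) (nat_lit 5) (nat_lit 452) (nat_lit 445) (nat_lit 303)))) (XT.nd (nat_lit 156) (nat_lit 684) (nat_lit 0) (XT.nd (nat_lit 78) (nat_lit 0) (nat_lit 0) (XT.lf (nat_lit 0) (nat_lit 25525387947) (nat_lit 760) (nat_lit 13323788829) (nat_lit 836) (nat_lit 5864877745) (nat_lit 129) (nat_lit 5) (nat_lit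 139) (nat_lit 5) (nat_lit 140) (nat_lit 5) (nat_lit 453) (nat_lit 445) (nat_lit 302)) (XT.lf (nat_lit 76) (nat_lit 10215061512) (nat_lit 0) (nat_lit 19060758417) (nat_lit 836) (nat_lit 16622039099) (nat_lit 130) (nat_lit 5) (nat_lit 129) (nat_lit 5) (nat_lit 140) (nat_lit 5) (nat_lit 454) (nat_lit 445) (nat_lit 301))) (XT.nd (nat_lit 78) (nat_lit 760) (nat_lit 0) (XT.lf (nat_lit 0) (nat_lit 33467783404) (nat_lit 760) (nat_lit 11768563592) (nat_lit 76) (nat_lit 1891807077) (nat_lit 130) (nat_lit 5) (nat_lit 140) (nat_lit 5) (nat_lit 131) (nat_lit 5) (nat_lit 455) (nat_lit 445) (nat_lit 300)) (XT.lf (nat_lit 0) (nat_lit 13457825255) (nat_lit 760) (nat_lit 24932065181) (nat_lit 836) (nat_lit 10004046937) (nat_lit 120) (nat_lit 5) (nat_lit 130) (nat_lit 5) (nat_lit 131) (nat_lit 5) (nat_lit 456) (nat_lit 445) (nat_lit 299)))))) (XT.nd (nat_lit 546) (nat_lit 1140) (nat_lit 0) (XT.nd (nat_lit 234)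 (nat_lit 1064) (nat_lit 0) (XT.nd (nat_lit 78) (nat_lit 456) (nat_lit 0) (XT.lf (nat_lit 0) (nat_lit 40352321072) (nat_lit 760) (nat_lit 3403116841) (nat_lit 836) (nat_lit 5957705903) (nat_lit 120) (nat_lit 5) (nat_lit 130) (nat_lit 5) (nat_lit 131) (nat_lit 5) (nat_lit 457) (nat_lit 445) (nat_lit 298)) (XT.nd (nat_lit 78) (nat_lit 76) (nat_lit 0) (XT.lf (nat_lit 0) (nat_lit 17760060124) (nat_lit 380) (nat_lit 32204413672) (nat_lit 456) (nat_lit 1105076934) (nat_lit 115) (nat_lit 5) (nat_lit 120) (nat_lit 5) (nat_lit 121) (nat_lit 5) (nat_lit 458) (nat_lit 445) (nat_lit 297)) (XT.lf (nat_lit 0) (nat_lit 4077546956) (nat_lit 456) (nat_lit 6046398261) (nat_lit 76) (nat_lit 42355964795) (nat_lit 114) (nat_lit 5) (nat_lit 120) (nat_lit 5) (nat_lit 115) (nat_lit 5) (nat_lit 459) (nat_lit 445) (nat_lit 296)))) (XT.nd (nat_lit 156) (nat_lit 684) (nat_lit 0) (XT.nd (nat_lit 78) (nat_lit 0) (nat_lit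 0) (XT.lf (nat_lit 0) (nat_lit 10054453210) (nat_lit 456) (nat_lit 30846030132) (nat_lit 76) (nat_lit 13030784271) (nat_lit 109) (nat_lit 5) (nat_lit 115) (nat_lit 5) (nat_lit 110) (nat_lit 5) (nat_lit 460) (nat_lit 445) (nat_lit 295)) (XT.lf (nat_lit 0) (nat_lit 16598549208) (nat_lit 456) (nat_lit 1736150411) (nat_lit 76) (nat_lit 37107076826) (nat_lit 109) (nat_lit 5) (nat_lit 115) (nat_lit 5) (nat_lit 110) (nat_lit 5) (nat_lit 461) (nat_lit 445) (nat_lit 294))) (XT.nd (nat_lit 78) (nat_lit 304) (nat_lit 0) (XT.lf (nat_lit 0) (nat_lit 24024487006) (nat_lit 456) (nat_lit 27315267614) (nat_lit 76) (nat_lit 5660324798) (nat_lit 104) (nat_lit 5) (nat_lit 110) (nat_lit 5) (nat_lit 105) (nat_lit 5) (nat_lit 462) (nat_lit 445) (nat_lit 293)) (XT.lf (nat_lit 0) (nat_lit 3925078198) (nat_lit 304) (nat_lit 28286808794) (nat_lit 380) (nat_lit 26404902805) (nat_lit 100) (nat_lit 5) (nat_lit 104) (nat_lit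 5) (nat_lit 105) (nat_lit 5) (nat_lit 463) (nat_lit 445) (nat_lit 292))))) (XT.nd (nat_lit 312) (nat_lit 532) (nat_lit 0) (XT.nd (nat_lit 156) (nat_lit 304) (nat_lit 0) (XT.nd (nat_lit 78) (nat_lit 304) (nat_lit 0) (XT.lf (nat_lit 0) (nat_lit 37674026325) (nat_lit 304) (nat_lit 3595705935) (nat_lit 380) (nat_lit 19021550167) (nat_lit 100) (nat_lit 5) (nat_lit 104) (nat_lit 5) (nat_lit 105) (nat_lit 5) (nat_lit 464) (nat_lit 445) (nat_lit 291)) (XT.lf (nat_lit 0) (nat_lit 11064702337) (nat_lit 304) (nat_lit 40235698850) (nat_lit 380) (nat_lit 10723102404) (nat_lit 96) (nat_lit 5) (nat_lit 100) (nat_lit 5) (nat_lit 101) (nat_lit 5) (nat_lit 465) (nat_lit 445) (nat_lit 290))) (XT.nd (nat_lit 78) (nat_lit 304) (nat_lit 0) (XT.lf (nat_lit 0) (nat_lit 47153385306) (nat_lit 304) (nat_lit 15118837601) (nat_lit 380) (nat_lit 1548132390) (nat_lit 96) (nat_lit 5) (nat_lit 100) (nat_lit 5) (nat_lit 101)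 (nat_lit 5) (nat_lit 466) (nat_lit 445) (nat_lit 289)) (XT.lf (nat_lit 0) (nat_lit 8318144198) (nat_lit 304) (nat_lit 46021390412) (nat_lit 76) (nat_lit 11336636089) (nat_lit 92) (nat_lit 5) (nat_lit 96) (nat_lit 5) (nat_lit 93) (nat_lit 5) (nat_lit 467) (nat_lit 445) (nat_lit 288)))) (XT.nd (nat_lit 156) (nat_lit 228) (nat_lit 0) (XT.nd (nat_lit 78) (nat_lit 304) (nat_lit 0) (XT.lf (nat_lit 0) (nat_lit 19159116734) (nat_lit 304) (nat_lit 9518960471) (nat_lit 76) (nat_lit 38918760617) (nat_lit 92) (nat_lit 5) (nat_lit 96) (nat_lit 5) (nat_lit 93) (nat_lit 5) (nat_lit 468) (nat_lit 445) (nat_lit 287)) (XT.lf (nat_lit 0) (nat_lit 29759462353) (nat_lit 304) (nat_lit 1246036775) (nat_lit 380) (nat_lit 38584871483) (nat_lit 88) (nat_lit 5) (nat_lit 92) (nat_lit 5) (nat_lit 93) (nat_lit 5) (nat_lit 469) (nat_lit 445) (nat_lit 286))) (XT.nd (nat_lit 78) (nat_lit 228) (nat_lit 0) (XT.lf (nat_lit 0)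 (nat_lit 44037065578) (nat_lit 380) (nat_lit 777778222) (nat_lit 76) (nat_lit 26839093345) (nat_lit 88) (nat_lit 5) (nat_lit 93) (nat_lit 5) (nat_lit 89) (nat_lit 5) (nat_lit 470) (nat_lit 445) (nat_lit 285)) (XT.lf (nat_lit 0) (nat_lit 41535404769) (nat_lit 228) (nat_lit 16852537934) (nat_lit 304) (nat_lit 15399353022) (nat_lit 85) (nat_lit 5) (nat_lit 88) (nat_lit 5) (nat_lit 89) (nat_lit 5) (nat_lit 471) (nat_lit 445) (nat_lit 284))))))))
noncomputable def xc190 : XT := (XT.nd (nat_lit 2184) (nat_lit 1748) (nat_lit 0) (XT.nd (nat_lit 1092) (nat_lit 1368) (nat_lit 0) (XT.nd (nat_lit 546) (nat_lit 760) (nat_lit 0) (XT.nd (nat_lit 234) (nat_lit 456) (nat_lit 0) (XT.nd (nat_lit 78) (nat_lit 304) (nat_lit 0) (XT.lf (nat_lit 0) (nat_lit 10090449128) (nat_lit 228) (nat_lit 63730973110) (nat_lit 304) (nat_lit 2187647389) (nat_lit 82) (nat_lit 5) (nat_lit 85) (nat_lit 5) (nat_lit 86) (nat_lit 5)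 (nat_lit 472) (nat_lit 445) (nat_lit 283)) (XT.nd (nat_lit 78) (nat_lit 228) (nat_lit 0) (XT.lf (nat_lit 0) (nat_lit 12140947534) (nat_lit 304) (nat_lit 23114265863) (nat_lit 76) (nat_lit 43036083337) (nat_lit 81) (nat_lit 5) (nat_lit 85) (nat_lit 5) (nat_lit 82) (nat_lit 5) (nat_lit 473) (nat_lit 445) (nat_lit 282)) (XT.lf (nat_lit 0) (nat_lit 22513484600) (nat_lit 228) (nat_lit 4949380191) (nat_lit 304) (nat_lit 53205456934) (nat_lit 78) (nat_lit 5) (nat_lit 81) (nat_lit 5) (nat_lit 82) (nat_lit 5) (nat_lit 474) (nat_lit 445) (nat_lit 281)))) (XT.nd (nat_lit 156) (nat_lit 228) (nat_lit 0) (XT.nd (nat_lit 78) (nat_lit 228) (nat_lit 0) (XT.lf (nat_lit 0) (nat_lit 44367224201) (nat_lit 304) (nat_lit 12347040617) (nat_lit 76) (nat_lit 26409116096) (nat_lit 78) (nat_lit 5) (nat_lit 82) (nat_lit 5) (nat_lit 79) (nat_lit 5) (nat_lit 475) (nat_lit 445) (nat_lit 280)) (XT.lf (nat_lit 0) (nat_lit 36847892498)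 (nat_lit 228) (nat_lit 25924330603) (nat_lit 304) (nat_lit 22896199137) (nat_lit 75) (nat_lit 5) (nat_lit 78) (nat_lit 5) (nat_lit 79) (nat_lit 5) (nat_lit 476) (nat_lit 445) (nat_lit 279))) (XT.nd (nat_lit 78) (nat_lit 76) (nat_lit 0) (XT.lf (nat_lit 0) (nat_lit 512448124) (nat_lit 152) (nat_lit 81904560780) (nat_lit 228) (nat_lit 5907730114) (nat_lit 73) (nat_lit 5) (nat_lit 75) (nat_lit 5) (nat_lit 76) (nat_lit 5) (nat_lit 477) (nat_lit 445) (nat_lit 278)) (XT.lf (nat_lit 0) (nat_lit 12812676973) (nat_lit 228) (nat_lit 37691830458) (nat_lit 76) (nat_lit 40536833545) (nat_lit 72) (nat_lit 5) (nat_lit 75) (nat_lit 5) (nat_lit 73) (nat_lit 5) (nat_lit 478) (nat_lit 445) (nat_lit 277))))) (XT.nd (nat_lit 234) (nat_lit 380) (nat_lit 0) (XT.nd (nat_lit 78) (nat_lit 152) (nat_lit 0) (XT.lf (nat_lit 0) (nat_lit 15326928256) (nat_lit 228) (nat_lit 17181992953) (nat_lit 304) (nat_lit 61368091863)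 (nat_lit 69) (nat_lit 5) (nat_lit 72) (nat_lit 5) (nat_lit 73) (nat_lit 5) (nat_lit 479) (nat_lit 445) (nat_lit 276)) (XT.nd (nat_lit 78) (nat_lit 152) (nat_lit 0) (XT.lf (nat_lit 0) (nat_lit 54115857179) (nat_lit 304) (nat_lit 24807277654) (nat_lit 76) (nat_lit 17885040163) (nat_lit 69) (nat_lit 5) (nat_lit 73) (nat_lit 5) (nat_lit 70) (nat_lit 5) (nat_lit 480) (nat_lit 445) (nat_lit 275)) (XT.lf (nat_lit 0) (nat_lit 32375846742) (nat_lit 152) (nat_lit 45213561062) (nat_lit 228) (nat_lit 22257174005) (nat_lit 67) (nat_lit 5) (nat_lit 69) (nat_lit 5) (nat_lit 70) (nat_lit 5) (nat_lit 481) (nat_lit 445) (nat_lit 274)))) (XT.nd (nat_lit 156) (nat_lit 152) (nat_lit 0) (XT.nd (nat_lit 78) (nat_lit 228) (nat_lit 0) (XT.lf (nat_lit 0) (nat_lit 93278021891) (nat_lit 152) (nat_lit 9377876252) (nat_lit 228) (nat_lit 360047888) (nat_lit 67) (nat_lit 5) (nat_lit 69) (nat_lit 5) (nat_lit 70) (nat_lit 5)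 (nat_lit 482) (nat_lit 445) (nat_lit 273)) (XT.lf (nat_lit 0) (nat_lit 23181887058) (nat_lit 228) (nat_lit 54548101224) (nat_lit 76) (nat_lit 28532407160) (nat_lit 64) (nat_lit 5) (nat_lit 67) (nat_lit 5) (nat_lit 65) (nat_lit 5) (nat_lit 483) (nat_lit 445) (nat_lit 272))) (XT.nd (nat_lit 78) (nat_lit 0) (nat_lit 0) (XT.lf (nat_lit 0) (nat_lit 6973811439) (nat_lit 152) (nat_lit 41344421913) (nat_lit 228) (nat_lit 61331168275) (nat_lit 62) (nat_lit 5) (nat_lit 64) (nat_lit 5) (nat_lit 65) (nat_lit 5) (nat_lit 484) (nat_lit 445) (nat_lit 271)) (XT.lf (nat_lit 0) (nat_lit 73464294979) (nat_lit 152) (nat_lit 2170097279) (nat_lit 228) (nat_lit 37525216247) (nat_lit 62) (nat_lit 5) (nat_lit 64) (nat_lit 5) (nat_lit 65) (nat_lit 5) (nat_lit 485) (nat_lit 445) (nat_lit 270)))))) (XT.nd (nat_lit 546) (nat_lit 608) (nat_lit 0) (XT.nd (nat_lit 234) (nat_lit 380) (nat_lit 0) (XT.nd (nat_lit 78) (nat_lit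 228) (nat_lit 0) (XT.lf (nat_lit 0) (nat_lit 26678246704) (nat_lit 152) (nat_lit 78662182837) (nat_lit 228) (nat_lit 11453692803) (nat_lit 60) (nat_lit 5) (nat_lit 62) (nat_lit 5) (nat_lit 63) (nat_lit 5) (nat_lit 486) (nat_lit 445) (nat_lit 269)) (XT.nd (nat_lit 78) (nat_lit 152) (nat_lit 0) (XT.lf (nat_lit 0) (nat_lit 16129909820) (nat_lit 228) (nat_lit 23124590998) (nat_lit 76) (nat_lit 81307527921) (nat_lit 59) (nat_lit 5) (nat_lit 62) (nat_lit 5) (nat_lit 60) (nat_lit 5) (nat_lit 487) (nat_lit 445) (nat_lit 268)) (XT.lf (nat_lit 0) (nat_lit 45514206134) (nat_lit 228) (nat_lit 75937510798) (nat_lit 76) (nat_lit 3016903735) (nat_lit 57) (nat_lit 5) (nat_lit 60) (nat_lit 5) (nat_lit 58) (nat_lit 5) (nat_lit 488) (nat_lit 445) (nat_lit 267)))) (XT.nd (nat_lit 156) (nat_lit 228) (nat_lit 0) (XT.nd (nat_lit 78) (nat_lit 152) (nat_lit 0) (XT.lf (nat_lit 0) (nat_lit 77408556977) (nat_lit 228)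 (nat_lit 4629700252) (nat_lit 76) (nat_lit 46480243089) (nat_lit 57) (nat_lit 5) (nat_lit 60) (nat_lit 5) (nat_lit 58) (nat_lit 5) (nat_lit 489) (nat_lit 445) (nat_lit 266)) (XT.lf (nat_lit 0) (nat_lit 72564855836) (nat_lit 152) (nat_lit 39465021783) (nat_lit 228) (nat_lit 20684383830) (nat_lit 55) (nat_lit 5) (nat_lit 57) (nat_lit 5) (nat_lit 58) (nat_lit 5) (nat_lit 490) (nat_lit 445) (nat_lit 265))) (XT.nd (nat_lit 78) (nat_lit 0) (nat_lit 0) (XT.lf (nat_lit 0) (nat_lit 11337192168) (nat_lit 228) (nat_lit 120153304162) (nat_lit 76) (nat_lit 5598762115) (nat_lit 52) (nat_lit 5) (nat_lit 55) (nat_lit 5) (nat_lit 53) (nat_lit 5) (nat_lit 491) (nat_lit 445) (nat_lit 264)) (XT.lf (nat_lit 0) (nat_lit 45946364243) (nat_lit 228) (nat_lit 42672178139) (nat_lit 76) (nat_lit 52963426179) (nat_lit 52) (nat_lit 5) (nat_lit 55) (nat_lit 5) (nat_lit 53) (nat_lit 5) (nat_lit 492) (nat_lit 445) (nat_lit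 263))))) (XT.nd (nat_lit 234) (nat_lit 304) (nat_lit 0) (XT.nd (nat_lit 78) (nat_lit 152) (nat_lit 0) (XT.lf (nat_lit 0) (nat_lit 39960873735) (nat_lit 152) (nat_lit 42948376717) (nat_lit 228) (nat_lit 63358901045) (nat_lit 50) (nat_lit 5) (nat_lit 52) (nat_lit 5) (nat_lit 53) (nat_lit 5) (nat_lit 493) (nat_lit 445) (nat_lit 262)) (XT.nd (nat_lit 78) (nat_lit 152) (nat_lit 0) (XT.lf (nat_lit 0) (nat_lit 122532309056) (nat_lit 228) (nat_lit 23036577862) (nat_lit 76) (nat_lit 5579155343) (nat_lit 50) (nat_lit 5) (nat_lit 53) (nat_lit 5) (nat_lit 51) (nat_lit 4) (nat_lit 494) (nat_lit 445) (nat_lit 261)) (XT.lf (nat_lit 0) (nat_lit 9372010937) (nat_lit 152) (nat_lit 90538083933) (nat_lit 76) (nat_lit 56267736655) (nat_lit 48) (nat_lit 5) (nat_lit 50) (nat_lit 5) (nat_lit 49) (nat_lit 5) (nat_lit 495) (nat_lit 445) (nat_lit 260)))) (XT.nd (nat_lit 156) (nat_lit 152) (nat_lit 0) (XT.nd (nat_lit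 78) (nat_lit 152) (nat_lit 0) (XT.lf (nat_lit 0) (nat_lit 48693390559) (nat_lit 152) (nat_lit 2366524968) (nat_lit 76) (nat_lit 110355943051) (nat_lit 48) (nat_lit 5) (nat_lit 50) (nat_lit 5) (nat_lit 49) (nat_lit 5) (nat_lit 496) (nat_lit 445) (nat_lit 259)) (XT.lf (nat_lit 0) (nat_lit 91462783272) (nat_lit 228) (nat_lit 73675128063) (nat_lit 76) (nat_lit 1703778515) (nat_lit 46) (nat_lit 5) (nat_lit 49) (nat_lit 5) (nat_lit 47) (nat_lit 4) (nat_lit 497) (nat_lit 445) (nat_lit 258))) (XT.nd (nat_lit 78) (nat_lit 76) (nat_lit 0) (XT.lf (nat_lit 0) (nat_lit 20850252055) (nat_lit 76) (nat_lit 116723134352) (nat_lit 152) (nat_lit 34905289306) (nat_lit 45) (nat_lit 5) (nat_lit 46) (nat_lit 5) (nat_lit 47) (nat_lit 4) (nat_lit 498) (nat_lit 445) (nat_lit 257)) (XT.lf (nat_lit 0) (nat_lit 8616624535) (nat_lit 152) (nat_lit 55815414586) (nat_lit 76) (nat_lit 113896164812) (nat_lit 44) (nat_lit 5)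 (nat_lit 46) (nat_lit 5) (nat_lit 45) (nat_lit 5) (nat_lit 499) (nat_lit 445) (nat_lit 256))))))) (XT.nd (nat_lit 1092) (nat_lit 760) (nat_lit 0) (XT.nd (nat_lit 546) (nat_lit 456) (nat_lit 0) (XT.nd (nat_lit 234) (nat_lit 304) (nat_lit 0) (XT.nd (nat_lit 78) (nat_lit 76) (nat_lit 0) (XT.lf (nat_lit 0) (nat_lit 45676987216) (nat_lit 152) (nat_lit 8177202185) (nat_lit 228) (nat_lit 130551778232) (nat_lit 42) (nat_lit 5) (nat_lit 44) (nat_lit 5) (nat_lit 45) (nat_lit 5) (nat_lit 500) (nat_lit 445) (nat_lit 255)) (XT.nd (nat_lit 78) (nat_lit 76) (nat_lit 0) (XT.lf (nat_lit 0) (nat_lit 103108391051) (nat_lit 228) (nat_lit 37369592294) (nat_lit 76) (nat_lit 50221898300) (nat_lit 42) (nat_lit 5) (nat_lit 45) (nat_lit 5) (nat_lit 43) (nat_lit 4) (nat_lit 501) (nat_lit 445) (nat_lit 254)) (XT.lf (nat_lit 0) (nat_lit 71201665344) (nat_lit 76) (nat_lit 84868833191) (nat_lit 152) (nat_lit 41175733089)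 (nat_lit 41) (nat_lit 5) (nat_lit 42) (nat_lit 5) (nat_lit 43) (nat_lit 4) (nat_lit 502) (nat_lit 445) (nat_lit 253)))) (XT.nd (nat_lit 156) (nat_lit 76) (nat_lit 0) (XT.nd (nat_lit 78) (nat_lit 152) (nat_lit 0) (XT.lf (nat_lit 0) (nat_lit 7961553532) (nat_lit 152) (nat_lit 17718749289) (nat_lit 76) (nat_lit 178401557332) (nat_lit 40) (nat_lit 5) (nat_lit 42) (nat_lit 5) (nat_lit 41) (nat_lit 5) (nat_lit 503) (nat_lit 445) (nat_lit 252)) (XT.lf (nat_lit 0) (nat_lit 60314936082) (nat_lit 228) (nat_lit 113254221655) (nat_lit 76) (nat_lit 37549211504) (nat_lit 38) (nat_lit 5) (nat_lit 41) (nat_lit 5) (nat_lit 39) (nat_lit 4) (nat_lit 504) (nat_lit 445) (nat_lit 251))) (XT.nd (nat_lit 78) (nat_lit 0) (nat_lit 0) (XT.lf (nat_lit 0) (nat_lit 953344340) (nat_lit 76) (nat_lit 115073026027) (nat_lit 152) (nat_lit 102443314329) (nat_lit 37) (nat_lit 5) (nat_lit 38) (nat_lit 5) (nat_lit 39) (nat_lit 4)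 (nat_lit 505) (nat_lit 445) (nat_lit 250)) (XT.lf (nat_lit 0) (nat_lit 124802329020) (nat_lit 76) (nat_lit 51638586390) (nat_lit 152) (nat_lit 49651773605) (nat_lit 37) (nat_lit 5) (nat_lit 38) (nat_lit 5) (nat_lit 39) (nat_lit 4) (nat_lit 506) (nat_lit 445) (nat_lit 249))))) (XT.nd (nat_lit 234) (nat_lit 228) (nat_lit 0) (XT.nd (nat_lit 78) (nat_lit 76) (nat_lit 0) (XT.lf (nat_lit 0) (nat_lit 6167687034) (nat_lit 152) (nat_lit 212977518319) (nat_lit 76) (nat_lit 14918460746) (nat_lit 35) (nat_lit 5) (nat_lit 37) (nat_lit 5) (nat_lit 36) (nat_lit 4) (nat_lit 507) (nat_lit 445) (nat_lit 248)) (XT.nd (nat_lit 78) (nat_lit 76) (nat_lit 0) (XT.lf (nat_lit 0) (nat_lit 65699093995) (nat_lit 152) (nat_lit 90938853329) (nat_lit 76) (nat_lit 85625066650) (nat_lit 35) (nat_lit 5) (nat_lit 37) (nat_lit 5) (nat_lit 36) (nat_lit 4) (nat_lit 508) (nat_lit 445) (nat_lit 247)) (XT.lf (nat_lit 0) (nat_lit 38430950726)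 (nat_lit 76) (nat_lit 90375698919) (nat_lit 152) (nat_lit 122035700715) (nat_lit 34) (nat_lit 5) (nat_lit 35) (nat_lit 5) (nat_lit 36) (nat_lit 4) (nat_lit 509) (nat_lit 445) (nat_lit 246)))) (XT.nd (nat_lit 156) (nat_lit 76) (nat_lit 0) (XT.nd (nat_lit 78) (nat_lit 152) (nat_lit 0) (XT.lf (nat_lit 0) (nat_lit 177425625315) (nat_lit 76) (nat_lit 19183622866) (nat_lit 152) (nat_lit 63164422162) (nat_lit 34) (nat_lit 5) (nat_lit 35) (nat_lit 5) (nat_lit 36) (nat_lit 4) (nat_lit 510) (nat_lit 445) (nat_lit 245)) (XT.lf (nat_lit 0) (nat_lit 449582494) (nat_lit 152) (nat_lit 213958312836) (nat_lit 76) (nat_lit 54656916199) (nat_lit 32) (nat_lit 5) (nat_lit 34) (nat_lit 5) (nat_lit 33) (nat_lit 4) (nat_lit 511) (nat_lit 445) (nat_lit 244))) (XT.nd (nat_lit 78) (nat_lit 76) (nat_lit 0) (XT.lf (nat_lit 0) (nat_lit 66853087817) (nat_lit 152) (nat_lit 77831690499) (nat_lit 76) (nat_lit 133997380411)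 (nat_lit 32) (nat_lit 5) (nat_lit 34) (nat_lit 5) (nat_lit 33) (nat_lit 4) (nat_lit 512) (nat_lit 445) (nat_lit 243)) (XT.lf (nat_lit 0) (nat_lit 67253029040) (nat_lit 76) (nat_lit 70373354522) (nat_lit 152) (nat_lit 151101508991) (nat_lit 31) (nat_lit 5) (nat_lit 32) (nat_lit 5) (nat_lit 33) (nat_lit 4) (nat_lit 513) (nat_lit 445) (nat_lit 242)))))) (XT.nd (nat_lit 546) (nat_lit 380) (nat_lit 0) (XT.nd (nat_lit 234) (nat_lit 228) (nat_lit 0) (XT.nd (nat_lit 78) (nat_lit 152) (nat_lit 0) (XT.lf (nat_lit 0) (nat_lit 213397173264) (nat_lit 152) (nat_lit 77057737910) (nat_lit 0) (nat_lit 8748060463) (nat_lit 31) (nat_lit 5) (nat_lit 33) (nat_lit 4) (nat_lit 31) (nat_lit 4) (nat_lit 514) (nat_lit 445) (nat_lit 241)) (XT.nd (nat_lit 78) (nat_lit 76) (nat_lit 0) (XT.lf (nat_lit 0) (nat_lit 75853656431) (nat_lit 76) (nat_lit 219440422939) (nat_lit 76) (nat_lit 14790846483) (nat_lit 30) (nat_lit 4)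 (nat_lit 31) (nat_lit 5) (nat_lit 31) (nat_lit 4) (nat_lit 515) (nat_lit 445) (nat_lit 240)) (XT.lf (nat_lit 0) (nat_lit 59187716020) (nat_lit 152) (nat_lit 83315200188) (nat_lit 76) (nat_lit 178895097364) (nat_lit 29) (nat_lit 5) (nat_lit 31) (nat_lit 5) (nat_lit 30) (nat_lit 4) (nat_lit 516) (nat_lit 445) (nat_lit 239)))) (XT.nd (nat_lit 156) (nat_lit 152) (nat_lit 0) (XT.nd (nat_lit 78) (nat_lit 0) (nat_lit 0) (XT.lf (nat_lit 0) (nat_lit 77380164823) (nat_lit 76) (nat_lit 60195739275) (nat_lit 152) (nat_lit 195628339612) (nat_lit 28) (nat_lit 5) (nat_lit 29) (nat_lit 5) (nat_lit 30) (nat_lit 4) (nat_lit 517) (nat_lit 445) (nat_lit 238)) (XT.lf (nat_lit 0) (nat_lit 221726736440) (nat_lit 152) (nat_lit 96960711800) (nat_lit 0) (nat_lit 26821175391) (nat_lit 28) (nat_lit 5) (nat_lit 30) (nat_lit 4) (nat_lit 28) (nat_lit 4) (nat_lit 518) (nat_lit 445) (nat_lit 237))) (XT.nd (nat_lit 78) (nat_lit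 76) (nat_lit 0) (XT.lf (nat_lit 0) (nat_lit 71135124427) (nat_lit 76) (nat_lit 241047083792) (nat_lit 76) (nat_lit 46141159458) (nat_lit 27) (nat_lit 4) (nat_lit 28) (nat_lit 5) (nat_lit 28) (nat_lit 4) (nat_lit 519) (nat_lit 445) (nat_lit 236)) (XT.lf (nat_lit 0) (nat_lit 35917832547) (nat_lit 152) (nat_lit 121274713596) (nat_lit 76) (nat_lit 214475249488) (nat_lit 26) (nat_lit 5) (nat_lit 28) (nat_lit 5) (nat_lit 27) (nat_lit 4) (nat_lit 520) (nat_lit 445) (nat_lit 235))))) (XT.nd (nat_lit 312) (nat_lit 228) (nat_lit 0) (XT.nd (nat_lit 156) (nat_lit 76) (nat_lit 0) (XT.nd (nat_lit 78) (nat_lit 0) (nat_lit 0) (XT.lf (nat_lit 0) (nat_lit 53902680944) (nat_lit 76) (nat_lit 67467699921) (nat_lit 152) (nat_lit 264229180901) (nat_lit 25) (nat_lit 5) (nat_lit 26) (nat_lit 5) (nat_lit 27) (nat_lit 4) (nat_lit 521) (nat_lit 445) (nat_lit 234)) (XT.lf (nat_lit 0) (nat_lit 213600292757) (nat_lit 152)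 (nat_lit 158527725948) (nat_lit 0) (nat_lit 27974660710) (nat_lit 25) (nat_lit 5) (nat_lit 27) (nat_lit 4) (nat_lit 25) (nat_lit 4) (nat_lit 522) (nat_lit 445) (nat_lit 233))) (XT.nd (nat_lit 78) (nat_lit 0) (nat_lit 0) (XT.lf (nat_lit 0) (nat_lit 22927075437) (nat_lit 76) (nat_lit 288978305100) (nat_lit 76) (nat_lit 103352388410) (nat_lit 24) (nat_lit 4) (nat_lit 25) (nat_lit 5) (nat_lit 25) (nat_lit 4) (nat_lit 523) (nat_lit 445) (nat_lit 232)) (XT.lf (nat_lit 0) (nat_lit 218957758173) (nat_lit 76) (nat_lit 198852410147) (nat_lit 76) (nat_lit 13226222368) (nat_lit 24) (nat_lit 4) (nat_lit 25) (nat_lit 5) (nat_lit 25) (nat_lit 4) (nat_lit 524) (nat_lit 445) (nat_lit 231)))) (XT.nd (nat_lit 156) (nat_lit 76) (nat_lit 0) (XT.nd (nat_lit 78) (nat_lit 76) (nat_lit 0) (XT.lf (nat_lit 0) (nat_lit 78800454917) (nat_lit 152) (nat_lit 24085513378) (nat_lit 76) (nat_lit 344654440677) (nat_lit 23) (nat_lit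 5) (nat_lit 25) (nat_lit 5) (nat_lit 24) (nat_lit 4) (nat_lit 525) (nat_lit 445) (nat_lit 230)) (XT.lf (nat_lit 0) (nat_lit 177791675177) (nat_lit 152) (nat_lit 285922377385) (nat_lit 0) (nat_lit 1004349610) (nat_lit 22) (nat_lit 5) (nat_lit 24) (nat_lit 4) (nat_lit 22) (nat_lit 4) (nat_lit 526) (nat_lit 445) (nat_lit 229))) (XT.nd (nat_lit 78) (nat_lit 76) (nat_lit 0) (XT.lf (nat_lit 0) (nat_lit 283833424282) (nat_lit 152) (nat_lit 91770946681) (nat_lit 0) (nat_lit 107045875689) (nat_lit 22) (nat_lit 5) (nat_lit 24) (nat_lit 4) (nat_lit 22) (nat_lit 4) (nat_lit 527) (nat_lit 445) (nat_lit 228)) (XT.lf (nat_lit 0) (nat_lit 115793662534) (nat_lit 76) (nat_lit 281191200852) (nat_lit 76) (nat_lit 104403439854) (nat_lit 21) (nat_lit 4) (nat_lit 22) (nat_lit 5) (nat_lit 22) (nat_lit 4) (nat_lit 528) (nat_lit 445) (nat_lit 227))))))))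
noncomputable def xc191 : XT := (XT.nd (nat_lit 57330) (nat_lit 0) (nat_lit 3040) (XT.nd (nat_lit 56238) (nat_lit 0) (nat_lit 7144) (XT.nd (nat_lit 546) (nat_lit 152) (nat_lit 0) (XT.nd (nat_lit 234) (nat_lit 152) (nat_lit 0) (XT.nd (nat_lit 78) (nat_lit 152) (nat_lit 0) (XT.lf (nat_lit 0) (nat_lit 336922077163) (nat_lit 76) (nat_lit 180425726174) (nat_lit 76) (nat_lit 3637762885) (nat_lit 21) (nat_lit 4) (nat_lit 22) (nat_lit 5) (nat_lit 22) (nat_lit 4) (nat_lit 529) (nat_lit 445) (nat_lit 226)) (XT.nd (nat_lit 78) (nat_lit 0) (nat_lit 0) (XT.lf (nat_lit 0) (nat_lit 26806609144) (nat_lit 76) (nat_lit 72507910412) (nat_lit 152) (nat_lit 442147503874) (nat_lit 19) (nat_lit 5) (nat_lit 20) (nat_lit 5) (nat_lit 21) (nat_lit 4) (nat_lit 530) (nat_lit 445) (nat_lit 225)) (XT.lf (nat_lit 0) (nat_lit 211097314535) (nat_lit 152) (nat_lit 308944282186) (nat_lit 0) (nat_lit 42727467459) (nat_lit 19)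 (nat_lit 5) (nat_lit 21) (nat_lit 4) (nat_lit 19) (nat_lit 4) (nat_lit 531) (nat_lit 445) (nat_lit 224)))) (XT.nd (nat_lit 156) (nat_lit 76) (nat_lit 0) (XT.nd (nat_lit 78) (nat_lit 76) (nat_lit 0) (XT.lf (nat_lit 0) (nat_lit 329657667634) (nat_lit 152) (nat_lit 94136714291) (nat_lit 0) (nat_lit 161287654132) (nat_lit 19) (nat_lit 5) (nat_lit 21) (nat_lit 4) (nat_lit 19) (nat_lit 4) (nat_lit 532) (nat_lit 445) (nat_lit 223)) (XT.lf (nat_lit 0) (nat_lit 135755821781) (nat_lit 76) (nat_lit 320509520774) (nat_lit 76) (nat_lit 152139348772) (nat_lit 18) (nat_lit 4) (nat_lit 19) (nat_lit 5) (nat_lit 19) (nat_lit 4) (nat_lit 533) (nat_lit 445) (nat_lit 222))) (XT.nd (nat_lit 78) (nat_lit 76) (nat_lit 0) (XT.lf (nat_lit 0) (nat_lit 380410761652) (nat_lit 76) (nat_lit 210386669586) (nat_lit 76) (nat_lit 42016346631) (nat_lit 18) (nat_lit 4) (nat_lit 19) (nat_lit 5) (nat_lit 19) (nat_lit 4) (nat_lit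 534) (nat_lit 445) (nat_lit 221)) (XT.lf (nat_lit 0) (nat_lit 71256522382) (nat_lit 152) (nat_lit 22294595833) (nat_lit 76) (nat_lit 564834746106) (nat_lit 17) (nat_lit 5) (nat_lit 19) (nat_lit 5) (nat_lit 18) (nat_lit 4) (nat_lit 535) (nat_lit 445) (nat_lit 220))))) (XT.nd (nat_lit 234) (nat_lit 0) (nat_lit 0) (XT.nd (nat_lit 78) (nat_lit 76) (nat_lit 0) (XT.lf (nat_lit 0) (nat_lit 192830936044) (nat_lit 152) (nat_lit 459690702934) (nat_lit 0) (nat_lit 32477980200) (nat_lit 16) (nat_lit 5) (nat_lit 18) (nat_lit 4) (nat_lit 16) (nat_lit 4) (nat_lit 536) (nat_lit 445) (nat_lit 219)) (XT.nd (nat_lit 78) (nat_lit 76) (nat_lit 0) (XT.lf (nat_lit 0) (nat_lit 322401251588) (nat_lit 152) (nat_lit 228398779581) (nat_lit 0) (nat_lit 162048171554) (nat_lit 16) (nat_lit 5) (nat_lit 18) (nat_lit 4) (nat_lit 16) (nat_lit 4) (nat_lit 537) (nat_lit 445) (nat_lit 218)) (XT.lf (nat_lit 0) (nat_lit 14935380938)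 (nat_lit 76) (nat_lit 443747691669) (nat_lit 76) (nat_lit 283394493360) (nat_lit 15) (nat_lit 4) (nat_lit 16) (nat_lit 5) (nat_lit 16) (nat_lit 4) (nat_lit 538) (nat_lit 445) (nat_lit 217)))) (XT.nd (nat_lit 55302) (nat_lit 0) (nat_lit 8360) (XT.nd (nat_lit 55224) (nat_lit 0) (nat_lit 8360) (XT.lf (nat_lit 0) (nat_lit 278365361108) (nat_lit 76) (nat_lit 327281477268) (nat_lit 76) (nat_lit 166928166316) (nat_lit 15) (nat_lit 4) (nat_lit 16) (nat_lit 5) (nat_lit 16) (nat_lit 4) (nat_lit 539) (nat_lit 445) (nat_lit 216)) (XT.lf (nat_lit 0) (nat_lit 6112570394) (nat_lit 836) (nat_lit 6536776383) (nat_lit 836) (nat_lit 6536776383) (nat_lit 125) (nat_lit 3) (nat_lit 136) (nat_lit 3) (nat_lit 136) (nat_lit 5) (nat_lit 446) (nat_lit 446) (nat_lit 308))) (XT.nd (nat_lit 78) (nat_lit 0) (nat_lit 76) (XT.lf (nat_lit 76) (nat_lit 5913880054) (nat_lit 0) (nat_lit 6752764698) (nat_lit 836) (nat_lit 26658097014)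 (nat_lit 126) (nat_lit 5) (nat_lit 125) (nat_lit 3) (nat_lit 136) (nat_lit 5) (nat_lit 447) (nat_lit 446) (nat_lit 307)) (XT.lf (nat_lit 0) (nat_lit 13551071873) (nat_lit 760) (nat_lit 14213128738) (nat_lit 836) (nat_lit 12539620058) (nat_lit 126) (nat_lit 5) (nat_lit 136) (nat_lit 5) (nat_lit 137) (nat_lit 5) (nat_lit 448) (nat_lit 446) (nat_lit 306)))))) (XT.nd (nat_lit 546) (nat_lit 1292) (nat_lit 0) (XT.nd (nat_lit 234) (nat_lit 0) (nat_lit 152) (XT.nd (nat_lit 78) (nat_lit 0) (nat_lit 76) (XT.lf (nat_lit 76) (nat_lit 6025034078) (nat_lit 0) (nat_lit 8656797243) (nat_lit 836) (nat_lit 26639917681) (nat_lit 127) (nat_lit 5) (nat_lit 126) (nat_lit 5) (nat_lit 137) (nat_lit 5) (nat_lit 449) (nat_lit 446) (nat_lit 305)) (XT.nd (nat_lit 78) (nat_lit 0) (nat_lit 0) (XT.lf (nat_lit 0) (nat_lit 16289319932) (nat_lit 760) (nat_lit 14793723853) (nat_lit 836) (nat_lit 11286521390) (nat_lit 127) (nat_lit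 5) (nat_lit 137) (nat_lit 5) (nat_lit 138) (nat_lit 5) (nat_lit 450) (nat_lit 446) (nat_lit 304)) (XT.lf (nat_lit 76) (nat_lit 6808794656) (nat_lit 0) (nat_lit 11414188077) (nat_lit 836) (nat_lit 25234500372) (nat_lit 128) (nat_lit 5) (nat_lit 127) (nat_lit 5) (nat_lit 138) (nat_lit 5) (nat_lit 451) (nat_lit 446) (nat_lit 303)))) (XT.nd (nat_lit 156) (nat_lit 0) (nat_lit 76) (XT.nd (nat_lit 78) (nat_lit 0) (nat_lit 0) (XT.lf (nat_lit 0) (nat_lit 20649889673) (nat_lit 760) (nat_lit 14732299899) (nat_lit 836) (nat_lit 9197780203) (nat_lit 128) (nat_lit 5) (nat_lit 138) (nat_lit 5) (nat_lit 139) (nat_lit 5) (nat_lit 452) (nat_lit 446) (nat_lit 302)) (XT.lf (nat_lit 76) (nat_lit 8358668697) (nat_lit 0) (nat_lit 15154885855) (nat_lit 836) (nat_lit 22229256447) (nat_lit 129) (nat_lit 5) (nat_lit 128) (nat_lit 5) (nat_lit 139) (nat_lit 5) (nat_lit 453) (nat_lit 446) (nat_lit 301))) (XT.nd (nat_lit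 78) (nat_lit 0) (nat_lit 0) (XT.lf (nat_lit 0) (nat_lit 26866856470) (nat_lit 760) (nat_lit 13936476052) (nat_lit 836) (nat_lit 6143139881) (nat_lit 129) (nat_lit 5) (nat_lit 139) (nat_lit 5) (nat_lit 140) (nat_lit 5) (nat_lit 454) (nat_lit 446) (nat_lit 300)) (XT.lf (nat_lit 76) (nat_lit 10778453867) (nat_lit 0) (nat_lit 20024073310) (nat_lit 836) (nat_lit 17387055285) (nat_lit 130) (nat_lit 5) (nat_lit 129) (nat_lit 5) (nat_lit 140) (nat_lit 5) (nat_lit 455) (nat_lit 446) (nat_lit 299))))) (XT.nd (nat_lit 234) (nat_lit 836) (nat_lit 0) (XT.nd (nat_lit 78) (nat_lit 760) (nat_lit 0) (XT.lf (nat_lit 0) (nat_lit 35200940002) (nat_lit 760) (nat_lit 12303687725) (nat_lit 76) (nat_lit 1976923103) (nat_lit 130) (nat_lit 5) (nat_lit 140) (nat_lit 5) (nat_lit 131) (nat_lit 5) (nat_lit 456) (nat_lit 446) (nat_lit 298)) (XT.nd (nat_lit 78) (nat_lit 0) (nat_lit 0) (XT.lf (nat_lit 0) (nat_lit 14183160821)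 (nat_lit 760) (nat_lit 26183964298) (nat_lit 836) (nat_lit 10443600613) (nat_lit 120) (nat_lit 5) (nat_lit 130) (nat_lit 5) (nat_lit 131) (nat_lit 5) (nat_lit 457) (nat_lit 446) (nat_lit 297)) (XT.lf (nat_lit 0) (nat_lit 42419884082) (nat_lit 760) (nat_lit 3578316358) (nat_lit 836) (nat_lit 6197830559) (nat_lit 120) (nat_lit 5) (nat_lit 130) (nat_lit 5) (nat_lit 131) (nat_lit 5) (nat_lit 458) (nat_lit 446) (nat_lit 296)))) (XT.nd (nat_lit 156) (nat_lit 380) (nat_lit 0) (XT.nd (nat_lit 78) (nat_lit 76) (nat_lit 0) (XT.lf (nat_lit 0) (nat_lit 18700007296) (nat_lit 380) (nat_lit 33815798217) (nat_lit 456) (nat_lit 1104547851) (nat_lit 115) (nat_lit 5) (nat_lit 120) (nat_lit 5) (nat_lit 121) (nat_lit 5) (nat_lit 459) (nat_lit 446) (nat_lit 295)) (XT.lf (nat_lit 0) (nat_lit 4332850521) (nat_lit 456) (nat_lit 6297529468) (nat_lit 76) (nat_lit 44470936525) (nat_lit 114) (nat_lit 5) (nat_lit 120) (nat_lit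 5) (nat_lit 115) (nat_lit 5) (nat_lit 460) (nat_lit 446) (nat_lit 294))) (XT.nd (nat_lit 78) (nat_lit 0) (nat_lit 0) (XT.lf (nat_lit 0) (nat_lit 10606948887) (nat_lit 456) (nat_lit 32335472887) (nat_lit 76) (nat_lit 13682903722) (nat_lit 109) (nat_lit 5) (nat_lit 115) (nat_lit 5) (nat_lit 110) (nat_lit 5) (nat_lit 461) (nat_lit 446) (nat_lit 293)) (XT.lf (nat_lit 0) (nat_lit 17475879542) (nat_lit 456) (nat_lit 1772616264) (nat_lit 76) (nat_lit 38962983275) (nat_lit 109) (nat_lit 5) (nat_lit 115) (nat_lit 5) (nat_lit 110) (nat_lit 5) (nat_lit 462) (nat_lit 446) (nat_lit 292))))))) (XT.nd (nat_lit 1092) (nat_lit 1748) (nat_lit 0) (XT.nd (nat_lit 546) (nat_lit 1064) (nat_lit 0) (XT.nd (nat_lit 234) (nat_lit 608) (nat_lit 0) (XT.nd (nat_lit 78) (nat_lit 304) (nat_lit 0) (XT.lf (nat_lit 0) (nat_lit 25271686623) (nat_lit 456) (nat_lit 28629246440) (nat_lit 76) (nat_lit 5946836284) (nat_lit 104) (nat_lit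 5) (nat_lit 110) (nat_lit 5) (nat_lit 105) (nat_lit 5) (nat_lit 463) (nat_lit 446) (nat_lit 291)) (XT.nd (nat_lit 78) (nat_lit 0) (nat_lit 0) (XT.lf (nat_lit 0) (nat_lit 4172281428) (nat_lit 304) (nat_lit 29694781343) (nat_lit 380) (nat_lit 27678322892) (nat_lit 100) (nat_lit 5) (nat_lit 104) (nat_lit 5) (nat_lit 105) (nat_lit 5) (nat_lit 464) (nat_lit 446) (nat_lit 290)) (XT.lf (nat_lit 0) (nat_lit 39606250804) (nat_lit 304) (nat_lit 3769426573) (nat_lit 380) (nat_lit 19928032387) (nat_lit 100) (nat_lit 5) (nat_lit 104) (nat_lit 5) (nat_lit 105) (nat_lit 5) (nat_lit 465) (nat_lit 446) (nat_lit 289)))) (XT.nd (nat_lit 156) (nat_lit 304) (nat_lit 0) (XT.nd (nat_lit 78) (nat_lit 0) (nat_lit 0) (XT.lf (nat_lit 0) (nat_lit 11667687146) (nat_lit 304) (nat_lit 42239037681) (nat_lit 380) (nat_lit 11215875566) (nat_lit 96) (nat_lit 5) (nat_lit 100) (nat_lit 5) (nat_lit 101) (nat_lit 5) (nat_lit 466)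 (nat_lit 446) (nat_lit 288)) (XT.lf (nat_lit 0) (nat_lit 49558435231) (nat_lit 304) (nat_lit 15866735565) (nat_lit 380) (nat_lit 1584222859) (nat_lit 96) (nat_lit 5) (nat_lit 100) (nat_lit 5) (nat_lit 101) (nat_lit 5) (nat_lit 467) (nat_lit 446) (nat_lit 287))) (XT.nd (nat_lit 78) (nat_lit 0) (nat_lit 0) (XT.lf (nat_lit 0) (nat_lit 8773030975) (nat_lit 304) (nat_lit 48272719315) (nat_lit 76) (nat_lit 11912268563) (nat_lit 92) (nat_lit 5) (nat_lit 96) (nat_lit 5) (nat_lit 93) (nat_lit 5) (nat_lit 468) (nat_lit 446) (nat_lit 286)) (XT.lf (nat_lit 0) (nat_lit 20154195968) (nat_lit 304) (nat_lit 9947536478) (nat_lit 76) (nat_lit 40873080238) (nat_lit 92) (nat_lit 5) (nat_lit 96) (nat_lit 5) (nat_lit 93) (nat_lit 5) (nat_lit 469) (nat_lit 446) (nat_lit 285))))) (XT.nd (nat_lit 234) (nat_lit 532) (nat_lit 0) (XT.nd (nat_lit 78) (nat_lit 228) (nat_lit 0) (XT.lf (nat_lit 0) (nat_lit 31294043422) (nat_lit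 304) (nat_lit 1297813960) (nat_lit 380) (nat_lit 40476217253) (nat_lit 88) (nat_lit 5) (nat_lit 92) (nat_lit 5) (nat_lit 93) (nat_lit 5) (nat_lit 470) (nat_lit 446) (nat_lit 284)) (XT.nd (nat_lit 78) (nat_lit 228) (nat_lit 0) (XT.lf (nat_lit 0) (nat_lit 46273440397) (nat_lit 380) (nat_lit 770707001) (nat_lit 76) (nat_lit 28190750678) (nat_lit 88) (nat_lit 5) (nat_lit 93) (nat_lit 5) (nat_lit 89) (nat_lit 5) (nat_lit 471) (nat_lit 446) (nat_lit 283)) (XT.lf (nat_lit 0) (nat_lit 43657393848) (nat_lit 228) (nat_lit 17683529640) (nat_lit 304) (nat_lit 16134048460) (nat_lit 85) (nat_lit 5) (nat_lit 88) (nat_lit 5) (nat_lit 89) (nat_lit 5) (nat_lit 472) (nat_lit 446) (nat_lit 282)))) (XT.nd (nat_lit 156) (nat_lit 228) (nat_lit 0) (XT.nd (nat_lit 78) (nat_lit 76) (nat_lit 0) (XT.lf (nat_lit 0) (nat_lit 10640943688) (nat_lit 228) (nat_lit 66904424850) (nat_lit 304) (nat_lit 2262501876) (nat_lit 82)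 (nat_lit 5) (nat_lit 85) (nat_lit 5) (nat_lit 86) (nat_lit 5) (nat_lit 473) (nat_lit 446) (nat_lit 281)) (XT.lf (nat_lit 0) (nat_lit 12779826125) (nat_lit 304) (nat_lit 24225135613) (nat_lit 76) (nat_lit 45199300169) (nat_lit 81) (nat_lit 5) (nat_lit 85) (nat_lit 5) (nat_lit 82) (nat_lit 5) (nat_lit 474) (nat_lit 446) (nat_lit 280))) (XT.nd (nat_lit 78) (nat_lit 0) (nat_lit 0) (XT.lf (nat_lit 0) (nat_lit 23683279090) (nat_lit 228) (nat_lit 5183733223) (nat_lit 304) (nat_lit 55833167566) (nat_lit 78) (nat_lit 5) (nat_lit 81) (nat_lit 5) (nat_lit 82) (nat_lit 5) (nat_lit 475) (nat_lit 446) (nat_lit 279)) (XT.lf (nat_lit 0) (nat_lit 46615308325) (nat_lit 304) (nat_lit 12921084634) (nat_lit 76) (nat_lit 27741663505) (nat_lit 78) (nat_lit 5) (nat_lit 82) (nat_lit 5) (nat_lit 79) (nat_lit 5) (nat_lit 476) (nat_lit 446) (nat_lit 278)))))) (XT.nd (nat_lit 546) (nat_lit 912) (nat_lit 0) (XT.nd (nat_lit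 234) (nat_lit 380) (nat_lit 0) (XT.nd (nat_lit 78) (nat_lit 228) (nat_lit 0) (XT.lf (nat_lit 0) (nat_lit 38732896621) (nat_lit 228) (nat_lit 27206910426) (nat_lit 304) (nat_lit 24010580663) (nat_lit 75) (nat_lit 5) (nat_lit 78) (nat_lit 5) (nat_lit 79) (nat_lit 5) (nat_lit 477) (nat_lit 446) (nat_lit 277)) (XT.nd (nat_lit 78) (nat_lit 76) (nat_lit 0) (XT.lf (nat_lit 0) (nat_lit 581215466) (nat_lit 152) (nat_lit 85985113400) (nat_lit 228) (nat_lit 6173216961) (nat_lit 73) (nat_lit 5) (nat_lit 75) (nat_lit 5) (nat_lit 76) (nat_lit 5) (nat_lit 478) (nat_lit 446) (nat_lit 276)) (XT.lf (nat_lit 0) (nat_lit 13480875282) (nat_lit 228) (nat_lit 39534414114) (nat_lit 76) (nat_lit 42576734359) (nat_lit 72) (nat_lit 5) (nat_lit 75) (nat_lit 5) (nat_lit 73) (nat_lit 5) (nat_lit 479) (nat_lit 446) (nat_lit 275)))) (XT.nd (nat_lit 156) (nat_lit 152) (nat_lit 0) (XT.nd (nat_lit 78) (nat_lit 0) (nat_lit 0)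 (XT.lf (nat_lit 0) (nat_lit 16134604990) (nat_lit 228) (nat_lit 18026659429) (nat_lit 304) (nat_lit 64408248692) (nat_lit 69) (nat_lit 5) (nat_lit 72) (nat_lit 5) (nat_lit 73) (nat_lit 5) (nat_lit 480) (nat_lit 446) (nat_lit 274)) (XT.lf (nat_lit 0) (nat_lit 56847480981) (nat_lit 304) (nat_lit 26007207636) (nat_lit 76) (nat_lit 18792598096) (nat_lit 69) (nat_lit 5) (nat_lit 73) (nat_lit 5) (nat_lit 70) (nat_lit 5) (nat_lit 481) (nat_lit 446) (nat_lit 273))) (XT.nd (nat_lit 78) (nat_lit 0) (nat_lit 0) (XT.lf (nat_lit 0) (nat_lit 34034420820) (nat_lit 152) (nat_lit 47459679378) (nat_lit 228) (nat_lit 23343544378) (nat_lit 67) (nat_lit 5) (nat_lit 69) (nat_lit 5) (nat_lit 70) (nat_lit 5) (nat_lit 482) (nat_lit 446) (nat_lit 272)) (XT.lf (nat_lit 0) (nat_lit 97979810357) (nat_lit 152) (nat_lit 9832903649) (nat_lit 228) (nat_lit 352823304) (nat_lit 67) (nat_lit 5) (nat_lit 69) (nat_lit 5) (nat_lit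 70) (nat_lit 5) (nat_lit 483) (nat_lit 446) (nat_lit 271))))) (XT.nd (nat_lit 312) (nat_lit 380) (nat_lit 0) (XT.nd (nat_lit 156) (nat_lit 152) (nat_lit 0) (XT.nd (nat_lit 78) (nat_lit 152) (nat_lit 0) (XT.lf (nat_lit 0) (nat_lit 24365054674) (nat_lit 228) (nat_lit 57236455948) (nat_lit 76) (nat_lit 29972796417) (nat_lit 64) (nat_lit 5) (nat_lit 67) (nat_lit 5) (nat_lit 65) (nat_lit 5) (nat_lit 484) (nat_lit 446) (nat_lit 270)) (XT.lf (nat_lit 0) (nat_lit 7360922504) (nat_lit 152) (nat_lit 43396749285) (nat_lit 228) (nat_lit 64373019284) (nat_lit 62) (nat_lit 5) (nat_lit 64) (nat_lit 5) (nat_lit 65) (nat_lit 5) (nat_lit 485) (nat_lit 446) (nat_lit 269))) (XT.nd (nat_lit 78) (nat_lit 152) (nat_lit 0) (XT.lf (nat_lit 0) (nat_lit 77174100674) (nat_lit 152) (nat_lit 2264417644) (nat_lit 228) (nat_lit 39377946198) (nat_lit 62) (nat_lit 5) (nat_lit 64) (nat_lit 5) (nat_lit 65) (nat_lit 5) (nat_lit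 486) (nat_lit 446) (nat_lit 268)) (XT.lf (nat_lit 0) (nat_lit 28049048199) (nat_lit 152) (nat_lit 82580529149) (nat_lit 228) (nat_lit 12003140898) (nat_lit 60) (nat_lit 5) (nat_lit 62) (nat_lit 5) (nat_lit 63) (nat_lit 5) (nat_lit 487) (nat_lit 446) (nat_lit 267)))) (XT.nd (nat_lit 156) (nat_lit 152) (nat_lit 0) (XT.nd (nat_lit 78) (nat_lit 152) (nat_lit 0) (XT.lf (nat_lit 0) (nat_lit 16957827054) (nat_lit 228) (nat_lit 24244976179) (nat_lit 76) (nat_lit 85386252321) (nat_lit 59) (nat_lit 5) (nat_lit 62) (nat_lit 5) (nat_lit 60) (nat_lit 5) (nat_lit 488) (nat_lit 446) (nat_lit 266)) (XT.lf (nat_lit 0) (nat_lit 47811092186) (nat_lit 228) (nat_lit 79698292605) (nat_lit 76) (nat_lit 3181604754) (nat_lit 57) (nat_lit 5) (nat_lit 60) (nat_lit 5) (nat_lit 58) (nat_lit 5) (nat_lit 489) (nat_lit 446) (nat_lit 265))) (XT.nd (nat_lit 78) (nat_lit 152) (nat_lit 0) (XT.lf (nat_lit 0) (nat_lit 81299152203)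 (nat_lit 228) (nat_lit 4826810281) (nat_lit 76) (nat_lit 48817451275) (nat_lit 57) (nat_lit 5) (nat_lit 60) (nat_lit 5) (nat_lit 58) (nat_lit 5) (nat_lit 490) (nat_lit 446) (nat_lit 264)) (XT.lf (nat_lit 0) (nat_lit 76226919176) (nat_lit 152) (nat_lit 41424187383) (nat_lit 228) (nat_lit 21697878156) (nat_lit 55) (nat_lit 5) (nat_lit 57) (nat_lit 5) (nat_lit 58) (nat_lit 5) (nat_lit 491) (nat_lit 446) (nat_lit 263))))))))
noncomputable def xc192 : XT := (XT.nd (nat_lit 2184) (nat_lit 988) (nat_lit 0) (XT.nd (nat_lit 1092) (nat_lit 760) (nat_lit 0) (XT.nd (nat_lit 546) (nat_lit 608) (nat_lit 0) (XT.nd (nat_lit 234) (nat_lit 304) (nat_lit 0) (XT.nd (nat_lit 78) (nat_lit 152) (nat_lit 0) (XT.lf (nat_lit 0) (nat_lit 11923910935) (nat_lit 228) (nat_lit 126126277436) (nat_lit 76) (nat_lit 5892537269) (nat_lit 52) (nat_lit 5) (nat_lit 55) (nat_lit 5) (nat_lit 53) (nat_lit 5) (nat_lit 492) (nat_lit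 446) (nat_lit 262)) (XT.nd (nat_lit 78) (nat_lit 152) (nat_lit 0) (XT.lf (nat_lit 0) (nat_lit 48262595939) (nat_lit 228) (nat_lit 44772747108) (nat_lit 76) (nat_lit 55624775629) (nat_lit 52) (nat_lit 5) (nat_lit 55) (nat_lit 5) (nat_lit 53) (nat_lit 5) (nat_lit 493) (nat_lit 446) (nat_lit 261)) (XT.lf (nat_lit 0) (nat_lit 41991424457) (nat_lit 152) (nat_lit 45081808886) (nat_lit 228) (nat_lit 66507397198) (nat_lit 50) (nat_lit 5) (nat_lit 52) (nat_lit 5) (nat_lit 53) (nat_lit 5) (nat_lit 494) (nat_lit 446) (nat_lit 260)))) (XT.nd (nat_lit 156) (nat_lit 152) (nat_lit 0) (XT.nd (nat_lit 78) (nat_lit 152) (nat_lit 0) (XT.lf (nat_lit 0) (nat_lit 128676770927) (nat_lit 228) (nat_lit 24156771331) (nat_lit 76) (nat_lit 5871007403) (nat_lit 50) (nat_lit 5) (nat_lit 53) (nat_lit 5) (nat_lit 51) (nat_lit 4) (nat_lit 495) (nat_lit 446) (nat_lit 259)) (XT.lf (nat_lit 0) (nat_lit 9858382829) (nat_lit 152)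 (nat_lit 95033273183) (nat_lit 76) (nat_lit 59094176351) (nat_lit 48) (nat_lit 5) (nat_lit 50) (nat_lit 5) (nat_lit 49) (nat_lit 5) (nat_lit 496) (nat_lit 446) (nat_lit 258))) (XT.nd (nat_lit 78) (nat_lit 152) (nat_lit 0) (XT.lf (nat_lit 0) (nat_lit 51144985178) (nat_lit 152) (nat_lit 2454646505) (nat_lit 76) (nat_lit 115886171503) (nat_lit 48) (nat_lit 5) (nat_lit 50) (nat_lit 5) (nat_lit 49) (nat_lit 5) (nat_lit 497) (nat_lit 446) (nat_lit 257)) (XT.lf (nat_lit 0) (nat_lit 96052710608) (nat_lit 228) (nat_lit 77328540869) (nat_lit 76) (nat_lit 1801681488) (nat_lit 46) (nat_lit 5) (nat_lit 49) (nat_lit 5) (nat_lit 47) (nat_lit 4) (nat_lit 498) (nat_lit 446) (nat_lit 256))))) (XT.nd (nat_lit 234) (nat_lit 304) (nat_lit 0) (XT.nd (nat_lit 78) (nat_lit 228) (nat_lit 0) (XT.lf (nat_lit 0) (nat_lit 21922618842) (nat_lit 76) (nat_lit 122545891729) (nat_lit 152) (nat_lit 36633274310) (nat_lit 45)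 (nat_lit 5) (nat_lit 46) (nat_lit 5) (nat_lit 47) (nat_lit 4) (nat_lit 499) (nat_lit 446) (nat_lit 255)) (XT.nd (nat_lit 78) (nat_lit 152) (nat_lit 0) (XT.lf (nat_lit 0) (nat_lit 9063385677) (nat_lit 152) (nat_lit 58577224343) (nat_lit 76) (nat_lit 119603205914) (nat_lit 44) (nat_lit 5) (nat_lit 46) (nat_lit 5) (nat_lit 45) (nat_lit 5) (nat_lit 500) (nat_lit 446) (nat_lit 254)) (XT.lf (nat_lit 0) (nat_lit 47989330436) (nat_lit 152) (nat_lit 8573184651) (nat_lit 228) (nat_lit 137062968497) (nat_lit 42) (nat_lit 5) (nat_lit 44) (nat_lit 5) (nat_lit 45) (nat_lit 5) (nat_lit 501) (nat_lit 446) (nat_lit 253)))) (XT.nd (nat_lit 156) (nat_lit 228) (nat_lit 0) (XT.nd (nat_lit 78) (nat_lit 76) (nat_lit 0) (XT.lf (nat_lit 0) (nat_lit 108278874672) (nat_lit 228) (nat_lit 39210381210) (nat_lit 76) (nat_lit 52744865099) (nat_lit 42) (nat_lit 5) (nat_lit 45) (nat_lit 5) (nat_lit 43) (nat_lit 4) (nat_lit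 502) (nat_lit 446) (nat_lit 252)) (XT.lf (nat_lit 0) (nat_lit 74788992686) (nat_lit 76) (nat_lit 89099802864) (nat_lit 152) (nat_lit 43219007581) (nat_lit 41) (nat_lit 5) (nat_lit 42) (nat_lit 5) (nat_lit 43) (nat_lit 4) (nat_lit 503) (nat_lit 446) (nat_lit 251))) (XT.nd (nat_lit 78) (nat_lit 152) (nat_lit 0) (XT.lf (nat_lit 0) (nat_lit 8373931852) (nat_lit 152) (nat_lit 18578265839) (nat_lit 76) (nat_lit 187333039105) (nat_lit 40) (nat_lit 5) (nat_lit 42) (nat_lit 5) (nat_lit 41) (nat_lit 5) (nat_lit 504) (nat_lit 446) (nat_lit 250)) (XT.lf (nat_lit 0) (nat_lit 63344895272) (nat_lit 228) (nat_lit 118890422297) (nat_lit 76) (nat_lit 39438258246) (nat_lit 38) (nat_lit 5) (nat_lit 41) (nat_lit 5) (nat_lit 39) (nat_lit 4) (nat_lit 505) (nat_lit 446) (nat_lit 249)))))) (XT.nd (nat_lit 546) (nat_lit 304) (nat_lit 0) (XT.nd (nat_lit 234) (nat_lit 228) (nat_lit 0) (XT.nd (nat_lit 78) (nat_lit 152)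 (nat_lit 0) (XT.lf (nat_lit 0) (nat_lit 1027094411) (nat_lit 76) (nat_lit 120814537307) (nat_lit 152) (nat_lit 107550838864) (nat_lit 37) (nat_lit 5) (nat_lit 38) (nat_lit 5) (nat_lit 39) (nat_lit 4) (nat_lit 506) (nat_lit 446) (nat_lit 248)) (XT.nd (nat_lit 78) (nat_lit 152) (nat_lit 0) (XT.lf (nat_lit 0) (nat_lit 131067286284) (nat_lit 76) (nat_lit 54208953784) (nat_lit 152) (nat_lit 52120418303) (nat_lit 37) (nat_lit 5) (nat_lit 38) (nat_lit 5) (nat_lit 39) (nat_lit 4) (nat_lit 507) (nat_lit 446) (nat_lit 247)) (XT.lf (nat_lit 0) (nat_lit 6489496464) (nat_lit 152) (nat_lit 223601032377) (nat_lit 76) (nat_lit 15675648265) (nat_lit 35) (nat_lit 5) (nat_lit 37) (nat_lit 5) (nat_lit 36) (nat_lit 4) (nat_lit 508) (nat_lit 446) (nat_lit 246)))) (XT.nd (nat_lit 156) (nat_lit 152) (nat_lit 0) (XT.nd (nat_lit 78) (nat_lit 76) (nat_lit 0) (XT.lf (nat_lit 0) (nat_lit 68996834484) (nat_lit 152) (nat_lit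 95461641845) (nat_lit 76) (nat_lit 89917048061) (nat_lit 35) (nat_lit 5) (nat_lit 37) (nat_lit 5) (nat_lit 36) (nat_lit 4) (nat_lit 509) (nat_lit 446) (nat_lit 245)) (XT.lf (nat_lit 0) (nat_lit 40376262830) (nat_lit 76) (nat_lit 94883267271) (nat_lit 152) (nat_lit 128124309432) (nat_lit 34) (nat_lit 5) (nat_lit 35) (nat_lit 5) (nat_lit 36) (nat_lit 4) (nat_lit 510) (nat_lit 446) (nat_lit 244))) (XT.nd (nat_lit 78) (nat_lit 152) (nat_lit 0) (XT.lf (nat_lit 0) (nat_lit 186319539502) (nat_lit 76) (nat_lit 20132121538) (nat_lit 152) (nat_lit 66310094395) (nat_lit 34) (nat_lit 5) (nat_lit 35) (nat_lit 5) (nat_lit 36) (nat_lit 4) (nat_lit 511) (nat_lit 446) (nat_lit 243)) (XT.lf (nat_lit 0) (nat_lit 484151959) (nat_lit 152) (nat_lit 224633135345) (nat_lit 76) (nat_lit 57400159466) (nat_lit 32) (nat_lit 5) (nat_lit 34) (nat_lit 5) (nat_lit 33) (nat_lit 4) (nat_lit 512) (nat_lit 446) (nat_lit 242)))))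 (XT.nd (nat_lit 234) (nat_lit 228) (nat_lit 0) (XT.nd (nat_lit 78) (nat_lit 76) (nat_lit 0) (XT.lf (nat_lit 0) (nat_lit 70207256818) (nat_lit 152) (nat_lit 81701281564) (nat_lit 76) (nat_lit 140707151771) (nat_lit 32) (nat_lit 5) (nat_lit 34) (nat_lit 5) (nat_lit 33) (nat_lit 4) (nat_lit 513) (nat_lit 446) (nat_lit 241)) (XT.nd (nat_lit 78) (nat_lit 0) (nat_lit 0) (XT.lf (nat_lit 0) (nat_lit 70637319218) (nat_lit 76) (nat_lit 73881687658) (nat_lit 152) (nat_lit 158644714356) (nat_lit 31) (nat_lit 5) (nat_lit 32) (nat_lit 5) (nat_lit 33) (nat_lit 4) (nat_lit 514) (nat_lit 446) (nat_lit 240)) (XT.lf (nat_lit 0) (nat_lit 224077951440) (nat_lit 152) (nat_lit 80889631164) (nat_lit 0) (nat_lit 9194990932) (nat_lit 31) (nat_lit 5) (nat_lit 33) (nat_lit 4) (nat_lit 31) (nat_lit 4) (nat_lit 515) (nat_lit 446) (nat_lit 239)))) (XT.nd (nat_lit 156) (nat_lit 76) (nat_lit 0) (XT.nd (nat_lit 78) (nat_lit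 76) (nat_lit 0) (XT.lf (nat_lit 0) (nat_lit 79666994287) (nat_lit 76) (nat_lit 230402511071) (nat_lit 76) (nat_lit 15519130015) (nat_lit 30) (nat_lit 4) (nat_lit 31) (nat_lit 5) (nat_lit 31) (nat_lit 4) (nat_lit 516) (nat_lit 446) (nat_lit 238)) (XT.lf (nat_lit 0) (nat_lit 62157481289) (nat_lit 152) (nat_lit 87460944934) (nat_lit 76) (nat_lit 187848968444) (nat_lit 29) (nat_lit 5) (nat_lit 31) (nat_lit 5) (nat_lit 30) (nat_lit 4) (nat_lit 517) (nat_lit 446) (nat_lit 237))) (XT.nd (nat_lit 78) (nat_lit 0) (nat_lit 0) (XT.lf (nat_lit 0) (nat_lit 81268865501) (nat_lit 76) (nat_lit 63196026463) (nat_lit 152) (nat_lit 205399053717) (nat_lit 28) (nat_lit 5) (nat_lit 29) (nat_lit 5) (nat_lit 30) (nat_lit 4) (nat_lit 518) (nat_lit 446) (nat_lit 236)) (XT.lf (nat_lit 0) (nat_lit 232822921814) (nat_lit 152) (nat_lit 101789648025) (nat_lit 0) (nat_lit 28170991992) (nat_lit 28) (nat_lit 5) (nat_lit 30)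 (nat_lit 4) (nat_lit 28) (nat_lit 4) (nat_lit 519) (nat_lit 446) (nat_lit 235))))))) (XT.nd (nat_lit 1092) (nat_lit 304) (nat_lit 0) (XT.nd (nat_lit 546) (nat_lit 304) (nat_lit 0) (XT.nd (nat_lit 234) (nat_lit 152) (nat_lit 0) (XT.nd (nat_lit 78) (nat_lit 152) (nat_lit 0) (XT.lf (nat_lit 0) (nat_lit 74710671959) (nat_lit 76) (nat_lit 253090319629) (nat_lit 76) (nat_lit 48438060297) (nat_lit 27) (nat_lit 4) (nat_lit 28) (nat_lit 5) (nat_lit 28) (nat_lit 4) (nat_lit 520) (nat_lit 446) (nat_lit 234)) (XT.nd (nat_lit 78) (nat_lit 76) (nat_lit 0) (XT.lf (nat_lit 0) (nat_lit 37723088024) (nat_lit 152) (nat_lit 127320242700) (nat_lit 76) (nat_lit 225207386018) (nat_lit 26) (nat_lit 5) (nat_lit 28) (nat_lit 5) (nat_lit 27) (nat_lit 4) (nat_lit 521) (nat_lit 446) (nat_lit 233)) (XT.lf (nat_lit 0) (nat_lit 56615727913) (nat_lit 76) (nat_lit 70832369618) (nat_lit 152) (nat_lit 277430981987) (nat_lit 25)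 (nat_lit 5) (nat_lit 26) (nat_lit 5) (nat_lit 27) (nat_lit 4) (nat_lit 522) (nat_lit 446) (nat_lit 232)))) (XT.nd (nat_lit 156) (nat_lit 76) (nat_lit 0) (XT.nd (nat_lit 78) (nat_lit 76) (nat_lit 0) (XT.lf (nat_lit 0) (nat_lit 224289196626) (nat_lit 152) (nat_lit 166436743495) (nat_lit 0) (nat_lit 29381428369) (nat_lit 25) (nat_lit 5) (nat_lit 27) (nat_lit 4) (nat_lit 25) (nat_lit 4) (nat_lit 523) (nat_lit 446) (nat_lit 231)) (XT.lf (nat_lit 0) (nat_lit 24090517817) (nat_lit 76) (nat_lit 303418864482) (nat_lit 76) (nat_lit 108510838044) (nat_lit 24) (nat_lit 4) (nat_lit 25) (nat_lit 5) (nat_lit 25) (nat_lit 4) (nat_lit 524) (nat_lit 446) (nat_lit 230))) (XT.nd (nat_lit 78) (nat_lit 76) (nat_lit 0) (XT.lf (nat_lit 0) (nat_lit 229921920947) (nat_lit 76) (nat_lit 208787072680) (nat_lit 76) (nat_lit 13878800357) (nat_lit 24) (nat_lit 4) (nat_lit 25) (nat_lit 5) (nat_lit 25) (nat_lit 4) (nat_lit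 525) (nat_lit 446) (nat_lit 229)) (XT.lf (nat_lit 0) (nat_lit 82748528725) (nat_lit 152) (nat_lit 25274022613) (nat_lit 76) (nat_lit 361894475173) (nat_lit 23) (nat_lit 5) (nat_lit 25) (nat_lit 5) (nat_lit 24) (nat_lit 4) (nat_lit 526) (nat_lit 446) (nat_lit 228))))) (XT.nd (nat_lit 234) (nat_lit 152) (nat_lit 0) (XT.nd (nat_lit 78) (nat_lit 76) (nat_lit 0) (XT.lf (nat_lit 0) (nat_lit 186689287494) (nat_lit 152) (nat_lit 300202706978) (nat_lit 0) (nat_lit 1061926041) (nat_lit 22) (nat_lit 5) (nat_lit 24) (nat_lit 4) (nat_lit 22) (nat_lit 4) (nat_lit 527) (nat_lit 446) (nat_lit 227)) (XT.nd (nat_lit 78) (nat_lit 76) (nat_lit 0) (XT.lf (nat_lit 0) (nat_lit 298032741742) (nat_lit 152) (nat_lit 96344456609) (nat_lit 0) (nat_lit 112405177998) (nat_lit 22) (nat_lit 5) (nat_lit 24) (nat_lit 4) (nat_lit 22) (nat_lit 4) (nat_lit 528) (nat_lit 446) (nat_lit 226)) (XT.lf (nat_lit 0) (nat_lit 121598140528)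 (nat_lit 76) (nat_lit 295243479156) (nat_lit 76) (nat_lit 109615722753) (nat_lit 21) (nat_lit 4) (nat_lit 22) (nat_lit 5) (nat_lit 22) (nat_lit 4) (nat_lit 529) (nat_lit 446) (nat_lit 225)))) (XT.nd (nat_lit 156) (nat_lit 0) (nat_lit 0) (XT.nd (nat_lit 78) (nat_lit 152) (nat_lit 0) (XT.lf (nat_lit 0) (nat_lit 353782271372) (nat_lit 76) (nat_lit 189440077493) (nat_lit 76) (nat_lit 3812137607) (nat_lit 21) (nat_lit 4) (nat_lit 22) (nat_lit 5) (nat_lit 22) (nat_lit 4) (nat_lit 530) (nat_lit 446) (nat_lit 224)) (XT.lf (nat_lit 0) (nat_lit 28161039561) (nat_lit 76) (nat_lit 76126352728) (nat_lit 152) (nat_lit 464247374709) (nat_lit 19) (nat_lit 5) (nat_lit 20) (nat_lit 5) (nat_lit 21) (nat_lit 4) (nat_lit 531) (nat_lit 446) (nat_lit 223))) (XT.nd (nat_lit 78) (nat_lit 0) (nat_lit 0) (XT.lf (nat_lit 0) (nat_lit 221659090085) (nat_lit 152) (nat_lit 324377830577) (nat_lit 0) (nat_lit 44870250983) (nat_lit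 19) (nat_lit 5) (nat_lit 21) (nat_lit 4) (nat_lit 19) (nat_lit 4) (nat_lit 532) (nat_lit 446) (nat_lit 222)) (XT.lf (nat_lit 0) (nat_lit 346147131799) (nat_lit 152) (nat_lit 98830535036) (nat_lit 0) (nat_lit 169358141745) (nat_lit 19) (nat_lit 5) (nat_lit 21) (nat_lit 4) (nat_lit 19) (nat_lit 4) (nat_lit 533) (nat_lit 446) (nat_lit 221)))))) (XT.nd (nat_lit 55770) (nat_lit 0) (nat_lit 8360) (XT.nd (nat_lit 234) (nat_lit 152) (nat_lit 0) (XT.nd (nat_lit 78) (nat_lit 76) (nat_lit 0) (XT.lf (nat_lit 0) (nat_lit 142556417921) (nat_lit 76) (nat_lit 336528659098) (nat_lit 76) (nat_lit 159739525279) (nat_lit 18) (nat_lit 4) (nat_lit 19) (nat_lit 5) (nat_lit 19) (nat_lit 4) (nat_lit 534) (nat_lit 446) (nat_lit 220)) (XT.nd (nat_lit 78) (nat_lit 76) (nat_lit 0) (XT.lf (nat_lit 0) (nat_lit 399443495021) (nat_lit 76) (nat_lit 220899967146) (nat_lit 76) (nat_lit 44110696408) (nat_lit 18) (nat_lit 4) (nat_lit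 19) (nat_lit 5) (nat_lit 19) (nat_lit 4) (nat_lit 535) (nat_lit 446) (nat_lit 219)) (XT.lf (nat_lit 0) (nat_lit 74825310932) (nat_lit 152) (nat_lit 23397513723) (nat_lit 76) (nat_lit 593082034563) (nat_lit 17) (nat_lit 5) (nat_lit 19) (nat_lit 5) (nat_lit 18) (nat_lit 4) (nat_lit 536) (nat_lit 446) (nat_lit 218)))) (XT.nd (nat_lit 156) (nat_lit 76) (nat_lit 0) (XT.nd (nat_lit 78) (nat_lit 0) (nat_lit 0) (XT.lf (nat_lit 0) (nat_lit 202478432747) (nat_lit 152) (nat_lit 482663413458) (nat_lit 0) (nat_lit 34107456247) (nat_lit 16) (nat_lit 5) (nat_lit 18) (nat_lit 4) (nat_lit 16) (nat_lit 4) (nat_lit 537) (nat_lit 446) (nat_lit 217)) (XT.lf (nat_lit 0) (nat_lit 338526980739) (nat_lit 152) (nat_lit 239807457015) (nat_lit 0) (nat_lit 170155891596) (nat_lit 16) (nat_lit 5) (nat_lit 18) (nat_lit 4) (nat_lit 16) (nat_lit 4) (nat_lit 538) (nat_lit 446) (nat_lit 216))) (XT.nd (nat_lit 55302) (nat_lit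 0) (nat_lit 8360) (XT.lf (nat_lit 0) (nat_lit 15693229892) (nat_lit 76) (nat_lit 465929566068) (nat_lit 76) (nat_lit 297558369646) (nat_lit 15) (nat_lit 4) (nat_lit 16) (nat_lit 5) (nat_lit 16) (nat_lit 4) (nat_lit 539) (nat_lit 446) (nat_lit 215)) (XT.lf (nat_lit 0) (nat_lit 6461062285) (nat_lit 836) (nat_lit 6841103594) (nat_lit 836) (nat_lit 6841103594) (nat_lit 125) (nat_lit 3) (nat_lit 136) (nat_lit 3) (nat_lit 136) (nat_lit 5) (nat_lit 447) (nat_lit 447) (nat_lit 306))))) (XT.nd (nat_lit 234) (nat_lit 0) (nat_lit 152) (XT.nd (nat_lit 78) (nat_lit 0) (nat_lit 76) (XT.lf (nat_lit 76) (nat_lit 6253871092) (nat_lit 0) (nat_lit 7128442015) (nat_lit 836) (nat_lit 27904517175) (nat_lit 126) (nat_lit 5) (nat_lit 125) (nat_lit 3) (nat_lit 136) (nat_lit 5) (nat_lit 448) (nat_lit 447) (nat_lit 305)) (XT.nd (nat_lit 78) (nat_lit 0) (nat_lit 0) (XT.lf (nat_lit 0) (nat_lit 14306475201) (nat_lit 760)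 (nat_lit 14877080885) (nat_lit 836) (nat_lit 13131532877) (nat_lit 126) (nat_lit 5) (nat_lit 136) (nat_lit 5) (nat_lit 137) (nat_lit 5) (nat_lit 449) (nat_lit 447) (nat_lit 304)) (XT.lf (nat_lit 76) (nat_lit 6372236777) (nat_lit 0) (nat_lit 9118546138) (nat_lit 836) (nat_lit 27893281723) (nat_lit 127) (nat_lit 5) (nat_lit 126) (nat_lit 5) (nat_lit 137) (nat_lit 5) (nat_lit 450) (nat_lit 447) (nat_lit 303)))) (XT.nd (nat_lit 156) (nat_lit 0) (nat_lit 76) (XT.nd (nat_lit 78) (nat_lit 0) (nat_lit 0) (XT.lf (nat_lit 0) (nat_lit 17174651335) (nat_lit 760) (nat_lit 15485625131) (nat_lit 836) (nat_lit 11824196256) (nat_lit 127) (nat_lit 5) (nat_lit 137) (nat_lit 5) (nat_lit 138) (nat_lit 5) (nat_lit 451) (nat_lit 447) (nat_lit 302)) (XT.lf (nat_lit 76) (nat_lit 7196248579) (nat_lit 0) (nat_lit 12006108178) (nat_lit 836) (nat_lit 26424563126) (nat_lit 128) (nat_lit 5) (nat_lit 127) (nat_lit 5) (nat_lit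 138) (nat_lit 5) (nat_lit 452) (nat_lit 447) (nat_lit 301))) (XT.nd (nat_lit 78) (nat_lit 0) (nat_lit 0) (XT.lf (nat_lit 0) (nat_lit 21747044851) (nat_lit 760) (nat_lit 15420550393) (nat_lit 836) (nat_lit 9638115097) (nat_lit 128) (nat_lit 5) (nat_lit 138) (nat_lit 5) (nat_lit 139) (nat_lit 5) (nat_lit 453) (nat_lit 447) (nat_lit 300)) (XT.lf (nat_lit 76) (nat_lit 8824186560) (nat_lit 0) (nat_lit 15927370258) (nat_lit 836) (nat_lit 23275254799) (nat_lit 129) (nat_lit 5) (nat_lit 128) (nat_lit 5) (nat_lit 139) (nat_lit 5) (nat_lit 454) (nat_lit 447) (nat_lit 299))))))))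
noncomputable def xc193 : XT := (XT.nd (nat_lit 2184) (nat_lit 2660) (nat_lit 0) (XT.nd (nat_lit 1092) (nat_lit 2052) (nat_lit 0) (XT.nd (nat_lit 546) (nat_lit 1368) (nat_lit 0) (XT.nd (nat_lit 234) (nat_lit 1140) (nat_lit 0) (XT.nd (nat_lit 78) (nat_lit 0) (nat_lit 0) (XT.lf (nat_lit 0) (nat_lit 28269336822) (nat_lit 760) (nat_lit 14584771765) (nat_lit 836) (nat_lit 6436707984) (nat_lit 129) (nat_lit 5) (nat_lit 139) (nat_lit 5) (nat_lit 140) (nat_lit 5) (nat_lit 455) (nat_lit 447) (nat_lit 298)) (XT.nd (nat_lit 78) (nat_lit 0) (nat_lit 76) (XT.lf (nat_lit 76) (nat_lit 11365121939) (nat_lit 0) (nat_lit 21034598492) (nat_lit 836) (nat_lit 18196466310) (nat_lit 130) (nat_lit 5) (nat_lit 129) (nat_lit 5) (nat_lit 140) (nat_lit 5) (nat_lit 456) (nat_lit 447) (nat_lit 297)) (XT.lf (nat_lit 0) (nat_lit 37015197821) (nat_lit 760) (nat_lit 12870523770) (nat_lit 76) (nat_lit 2067175763) (nat_lit 130)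 (nat_lit 5) (nat_lit 140) (nat_lit 5) (nat_lit 131) (nat_lit 5) (nat_lit 457) (nat_lit 447) (nat_lit 296)))) (XT.nd (nat_lit 156) (nat_lit 456) (nat_lit 0) (XT.nd (nat_lit 78) (nat_lit 0) (nat_lit 0) (XT.lf (nat_lit 0) (nat_lit 14939887392) (nat_lit 760) (nat_lit 27497966013) (nat_lit 836) (nat_lit 10910770512) (nat_lit 120) (nat_lit 5) (nat_lit 130) (nat_lit 5) (nat_lit 131) (nat_lit 5) (nat_lit 458) (nat_lit 447) (nat_lit 295)) (XT.lf (nat_lit 0) (nat_lit 44586181648) (nat_lit 760) (nat_lit 3761806937) (nat_lit 836) (nat_lit 6455331485) (nat_lit 120) (nat_lit 5) (nat_lit 130) (nat_lit 5) (nat_lit 131) (nat_lit 5) (nat_lit 459) (nat_lit 447) (nat_lit 294))) (XT.nd (nat_lit 78) (nat_lit 76) (nat_lit 0) (XT.lf (nat_lit 0) (nat_lit 19682122551) (nat_lit 380) (nat_lit 35507643784) (nat_lit 456) (nat_lit 1109178481) (nat_lit 115) (nat_lit 5) (nat_lit 120) (nat_lit 5) (nat_lit 121) (nat_lit 5) (nat_lit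 460) (nat_lit 447) (nat_lit 293)) (XT.lf (nat_lit 0) (nat_lit 4596138142) (nat_lit 456) (nat_lit 6565976276) (nat_lit 76) (nat_lit 46691919622) (nat_lit 114) (nat_lit 5) (nat_lit 120) (nat_lit 5) (nat_lit 115) (nat_lit 5) (nat_lit 461) (nat_lit 447) (nat_lit 292))))) (XT.nd (nat_lit 234) (nat_lit 608) (nat_lit 0) (XT.nd (nat_lit 78) (nat_lit 380) (nat_lit 0) (XT.lf (nat_lit 0) (nat_lit 11182441925) (nat_lit 456) (nat_lit 33904302085) (nat_lit 76) (nat_lit 14367575201) (nat_lit 109) (nat_lit 5) (nat_lit 115) (nat_lit 5) (nat_lit 110) (nat_lit 5) (nat_lit 462) (nat_lit 447) (nat_lit 291)) (XT.nd (nat_lit 78) (nat_lit 380) (nat_lit 0) (XT.lf (nat_lit 0) (nat_lit 18392669323) (nat_lit 456) (nat_lit 1815585699) (nat_lit 76) (nat_lit 40911633670) (nat_lit 109) (nat_lit 5) (nat_lit 115) (nat_lit 5) (nat_lit 110) (nat_lit 5) (nat_lit 463) (nat_lit 447) (nat_lit 290)) (XT.lf (nat_lit 0) (nat_lit 26576971876)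 (nat_lit 456) (nat_lit 30013738643) (nat_lit 76) (nat_lit 6247348389) (nat_lit 104) (nat_lit 5) (nat_lit 110) (nat_lit 5) (nat_lit 105) (nat_lit 5) (nat_lit 464) (nat_lit 447) (nat_lit 289)))) (XT.nd (nat_lit 156) (nat_lit 304) (nat_lit 0) (XT.nd (nat_lit 78) (nat_lit 0) (nat_lit 0) (XT.lf (nat_lit 0) (nat_lit 4427108035) (nat_lit 304) (nat_lit 31173744545) (nat_lit 380) (nat_lit 29019767333) (nat_lit 100) (nat_lit 5) (nat_lit 104) (nat_lit 5) (nat_lit 105) (nat_lit 5) (nat_lit 465) (nat_lit 447) (nat_lit 288)) (XT.lf (nat_lit 0) (nat_lit 41630575283) (nat_lit 304) (nat_lit 3952397078) (nat_lit 380) (nat_lit 20883984765) (nat_lit 100) (nat_lit 5) (nat_lit 104) (nat_lit 5) (nat_lit 105) (nat_lit 5) (nat_lit 466) (nat_lit 447) (nat_lit 287))) (XT.nd (nat_lit 78) (nat_lit 0) (nat_lit 0) (XT.lf (nat_lit 0) (nat_lit 12296195940) (nat_lit 304) (nat_lit 44343328693) (nat_lit 380) (nat_lit 11737320629)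 (nat_lit 96) (nat_lit 5) (nat_lit 100) (nat_lit 5) (nat_lit 101) (nat_lit 5) (nat_lit 467) (nat_lit 447) (nat_lit 286)) (XT.lf (nat_lit 0) (nat_lit 52079332647) (nat_lit 304) (nat_lit 16652776275) (nat_lit 380) (nat_lit 1625959035) (nat_lit 96) (nat_lit 5) (nat_lit 100) (nat_lit 5) (nat_lit 101) (nat_lit 5) (nat_lit 468) (nat_lit 447) (nat_lit 285)))))) (XT.nd (nat_lit 546) (nat_lit 912) (nat_lit 0) (XT.nd (nat_lit 234) (nat_lit 532) (nat_lit 0) (XT.nd (nat_lit 78) (nat_lit 304) (nat_lit 0) (XT.lf (nat_lit 0) (nat_lit 9247038140) (nat_lit 304) (nat_lit 50641239075) (nat_lit 76) (nat_lit 12515864458) (nat_lit 92) (nat_lit 5) (nat_lit 96) (nat_lit 5) (nat_lit 93) (nat_lit 5) (nat_lit 469) (nat_lit 447) (nat_lit 284)) (XT.nd (nat_lit 78) (nat_lit 304) (nat_lit 0) (XT.lf (nat_lit 0) (nat_lit 21195577783) (nat_lit 304) (nat_lit 10401945487) (nat_lit 76) (nat_lit 42924336599) (nat_lit 92) (nat_lit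 5) (nat_lit 96) (nat_lit 5) (nat_lit 93) (nat_lit 5) (nat_lit 470) (nat_lit 447) (nat_lit 283)) (XT.lf (nat_lit 0) (nat_lit 32901020379) (nat_lit 304) (nat_lit 1353158487) (nat_lit 380) (nat_lit 42465653690) (nat_lit 88) (nat_lit 5) (nat_lit 92) (nat_lit 5) (nat_lit 93) (nat_lit 5) (nat_lit 471) (nat_lit 447) (nat_lit 282)))) (XT.nd (nat_lit 156) (nat_lit 304) (nat_lit 0) (XT.nd (nat_lit 78) (nat_lit 228) (nat_lit 0) (XT.lf (nat_lit 0) (nat_lit 48618424471) (nat_lit 380) (nat_lit 767555156) (nat_lit 76) (nat_lit 29609088816) (nat_lit 88) (nat_lit 5) (nat_lit 93) (nat_lit 5) (nat_lit 89) (nat_lit 5) (nat_lit 472) (nat_lit 447) (nat_lit 281)) (XT.lf (nat_lit 0) (nat_lit 45881278361) (nat_lit 228) (nat_lit 18557152662) (nat_lit 304) (nat_lit 16908757947) (nat_lit 85) (nat_lit 5) (nat_lit 88) (nat_lit 5) (nat_lit 89) (nat_lit 5) (nat_lit 473) (nat_lit 447) (nat_lit 280))) (XT.nd (nat_lit 78) (nat_lit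 76) (nat_lit 0) (XT.lf (nat_lit 0) (nat_lit 11214688926) (nat_lit 228) (nat_lit 70237766805) (nat_lit 304) (nat_lit 2344309163) (nat_lit 82) (nat_lit 5) (nat_lit 85) (nat_lit 5) (nat_lit 86) (nat_lit 5) (nat_lit 474) (nat_lit 447) (nat_lit 279)) (XT.lf (nat_lit 0) (nat_lit 13447689280) (nat_lit 304) (nat_lit 25395717978) (nat_lit 76) (nat_lit 47469616801) (nat_lit 81) (nat_lit 5) (nat_lit 85) (nat_lit 5) (nat_lit 82) (nat_lit 5) (nat_lit 475) (nat_lit 447) (nat_lit 278))))) (XT.nd (nat_lit 234) (nat_lit 456) (nat_lit 0) (XT.nd (nat_lit 78) (nat_lit 228) (nat_lit 0) (XT.lf (nat_lit 0) (nat_lit 24907461421) (nat_lit 228) (nat_lit 5431023306) (nat_lit 304) (nat_lit 58595291056) (nat_lit 78) (nat_lit 5) (nat_lit 81) (nat_lit 5) (nat_lit 82) (nat_lit 5) (nat_lit 476) (nat_lit 447) (nat_lit 277)) (XT.nd (nat_lit 78) (nat_lit 228) (nat_lit 0) (XT.lf (nat_lit 0) (nat_lit 48973033301) (nat_lit 304)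 (nat_lit 13527857220) (nat_lit 76) (nat_lit 29139714122) (nat_lit 78) (nat_lit 5) (nat_lit 82) (nat_lit 5) (nat_lit 79) (nat_lit 5) (nat_lit 477) (nat_lit 447) (nat_lit 276)) (XT.lf (nat_lit 0) (nat_lit 40708189522) (nat_lit 228) (nat_lit 28554887053) (nat_lit 304) (nat_lit 25183510213) (nat_lit 75) (nat_lit 5) (nat_lit 78) (nat_lit 5) (nat_lit 79) (nat_lit 5) (nat_lit 478) (nat_lit 447) (nat_lit 275)))) (XT.nd (nat_lit 156) (nat_lit 228) (nat_lit 0) (XT.nd (nat_lit 78) (nat_lit 76) (nat_lit 0) (XT.lf (nat_lit 0) (nat_lit 649409968) (nat_lit 152) (nat_lit 90271058032) (nat_lit 228) (nat_lit 6454757937) (nat_lit 73) (nat_lit 5) (nat_lit 75) (nat_lit 5) (nat_lit 76) (nat_lit 5) (nat_lit 479) (nat_lit 447) (nat_lit 274)) (XT.lf (nat_lit 0) (nat_lit 14179920824) (nat_lit 228) (nat_lit 41473032446) (nat_lit 76) (nat_lit 44717416100) (nat_lit 72) (nat_lit 5) (nat_lit 75) (nat_lit 5) (nat_lit 73)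 (nat_lit 5) (nat_lit 480) (nat_lit 447) (nat_lit 273))) (XT.nd (nat_lit 78) (nat_lit 0) (nat_lit 0) (XT.lf (nat_lit 0) (nat_lit 16978823059) (nat_lit 228) (nat_lit 18914901088) (nat_lit 304) (nat_lit 67603039570) (nat_lit 69) (nat_lit 5) (nat_lit 72) (nat_lit 5) (nat_lit 73) (nat_lit 5) (nat_lit 481) (nat_lit 447) (nat_lit 272)) (XT.lf (nat_lit 0) (nat_lit 59713284458) (nat_lit 304) (nat_lit 27270893279) (nat_lit 76) (nat_lit 19744296866) (nat_lit 69) (nat_lit 5) (nat_lit 73) (nat_lit 5) (nat_lit 70) (nat_lit 5) (nat_lit 482) (nat_lit 447) (nat_lit 271))))))) (XT.nd (nat_lit 1092) (nat_lit 1216) (nat_lit 0) (XT.nd (nat_lit 546) (nat_lit 684) (nat_lit 0) (XT.nd (nat_lit 234) (nat_lit 380) (nat_lit 0) (XT.nd (nat_lit 78) (nat_lit 228) (nat_lit 0) (XT.lf (nat_lit 0) (nat_lit 35772225072) (nat_lit 152) (nat_lit 49819457236) (nat_lit 228) (nat_lit 24486695903) (nat_lit 67) (nat_lit 5) (nat_lit 69)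 (nat_lit 5) (nat_lit 70) (nat_lit 5) (nat_lit 483) (nat_lit 447) (nat_lit 270)) (XT.nd (nat_lit 78) (nat_lit 228) (nat_lit 0) (XT.lf (nat_lit 0) (nat_lit 102913165838) (nat_lit 152) (nat_lit 10311971583) (nat_lit 228) (nat_lit 347582857) (nat_lit 67) (nat_lit 5) (nat_lit 69) (nat_lit 5) (nat_lit 70) (nat_lit 5) (nat_lit 484) (nat_lit 447) (nat_lit 269)) (XT.lf (nat_lit 0) (nat_lit 25605142567) (nat_lit 228) (nat_lit 60062858939) (nat_lit 76) (nat_lit 31483925034) (nat_lit 64) (nat_lit 5) (nat_lit 67) (nat_lit 5) (nat_lit 65) (nat_lit 5) (nat_lit 485) (nat_lit 447) (nat_lit 268)))) (XT.nd (nat_lit 156) (nat_lit 228) (nat_lit 0) (XT.nd (nat_lit 78) (nat_lit 0) (nat_lit 0) (XT.lf (nat_lit 0) (nat_lit 7763817149) (nat_lit 152) (nat_lit 45553077703) (nat_lit 228) (nat_lit 67569259904) (nat_lit 62) (nat_lit 5) (nat_lit 64) (nat_lit 5) (nat_lit 65) (nat_lit 5) (nat_lit 486) (nat_lit 447) (nat_lit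 267)) (XT.lf (nat_lit 0) (nat_lit 81065994774) (nat_lit 152) (nat_lit 2364772767) (nat_lit 228) (nat_lit 41325500323) (nat_lit 62) (nat_lit 5) (nat_lit 64) (nat_lit 5) (nat_lit 65) (nat_lit 5) (nat_lit 487) (nat_lit 447) (nat_lit 266))) (XT.nd (nat_lit 78) (nat_lit 76) (nat_lit 0) (XT.lf (nat_lit 0) (nat_lit 29484960165) (nat_lit 152) (nat_lit 86696165284) (nat_lit 228) (nat_lit 12582221713) (nat_lit 60) (nat_lit 5) (nat_lit 62) (nat_lit 5) (nat_lit 63) (nat_lit 5) (nat_lit 488) (nat_lit 447) (nat_lit 265)) (XT.lf (nat_lit 0) (nat_lit 17825148559) (nat_lit 228) (nat_lit 25424713089) (nat_lit 76) (nat_lit 89667671969) (nat_lit 59) (nat_lit 5) (nat_lit 62) (nat_lit 5) (nat_lit 60) (nat_lit 5) (nat_lit 489) (nat_lit 447) (nat_lit 264))))) (XT.nd (nat_lit 234) (nat_lit 380) (nat_lit 0) (XT.nd (nat_lit 78) (nat_lit 152) (nat_lit 0) (XT.lf (nat_lit 0) (nat_lit 50220853821) (nat_lit 228) (nat_lit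 83650469156) (nat_lit 76) (nat_lit 3353252641) (nat_lit 57) (nat_lit 5) (nat_lit 60) (nat_lit 5) (nat_lit 58) (nat_lit 5) (nat_lit 490) (nat_lit 447) (nat_lit 263)) (XT.nd (nat_lit 78) (nat_lit 152) (nat_lit 0) (XT.lf (nat_lit 0) (nat_lit 85382402218) (nat_lit 228) (nat_lit 5036971672) (nat_lit 76) (nat_lit 51270293028) (nat_lit 57) (nat_lit 5) (nat_lit 60) (nat_lit 5) (nat_lit 58) (nat_lit 5) (nat_lit 491) (nat_lit 447) (nat_lit 262)) (XT.lf (nat_lit 0) (nat_lit 80068941369) (nat_lit 152) (nat_lit 43482620798) (nat_lit 228) (nat_lit 22763973999) (nat_lit 55) (nat_lit 5) (nat_lit 57) (nat_lit 5) (nat_lit 58) (nat_lit 5) (nat_lit 492) (nat_lit 447) (nat_lit 261)))) (XT.nd (nat_lit 156) (nat_lit 152) (nat_lit 0) (XT.nd (nat_lit 78) (nat_lit 0) (nat_lit 0) (XT.lf (nat_lit 0) (nat_lit 12538119323) (nat_lit 228) (nat_lit 132401124700) (nat_lit 76) (nat_lit 6199714742) (nat_lit 52) (nat_lit 5) (nat_lit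 55) (nat_lit 5) (nat_lit 53) (nat_lit 5) (nat_lit 493) (nat_lit 447) (nat_lit 260)) (XT.lf (nat_lit 0) (nat_lit 50692880824) (nat_lit 228) (nat_lit 46981416267) (nat_lit 76) (nat_lit 58417967373) (nat_lit 52) (nat_lit 5) (nat_lit 55) (nat_lit 5) (nat_lit 53) (nat_lit 5) (nat_lit 494) (nat_lit 447) (nat_lit 259))) (XT.nd (nat_lit 78) (nat_lit 0) (nat_lit 0) (XT.lf (nat_lit 0) (nat_lit 44120480519) (nat_lit 152) (nat_lit 47323213010) (nat_lit 228) (nat_lit 69815126334) (nat_lit 50) (nat_lit 5) (nat_lit 52) (nat_lit 5) (nat_lit 53) (nat_lit 5) (nat_lit 495) (nat_lit 447) (nat_lit 258)) (XT.lf (nat_lit 0) (nat_lit 135126796701) (nat_lit 228) (nat_lit 25335915635) (nat_lit 76) (nat_lit 6176253276) (nat_lit 50) (nat_lit 5) (nat_lit 53) (nat_lit 5) (nat_lit 51) (nat_lit 4) (nat_lit 496) (nat_lit 447) (nat_lit 257)))))) (XT.nd (nat_lit 546) (nat_lit 608) (nat_lit 0) (XT.nd (nat_lit 234) (nat_lit 304)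 (nat_lit 0) (XT.nd (nat_lit 78) (nat_lit 152) (nat_lit 0) (XT.lf (nat_lit 0) (nat_lit 10367421104) (nat_lit 152) (nat_lit 99756170450) (nat_lit 76) (nat_lit 62060724501) (nat_lit 48) (nat_lit 5) (nat_lit 50) (nat_lit 5) (nat_lit 49) (nat_lit 5) (nat_lit 497) (nat_lit 447) (nat_lit 256)) (XT.nd (nat_lit 78) (nat_lit 152) (nat_lit 0) (XT.lf (nat_lit 0) (nat_lit 53717585993) (nat_lit 152) (nat_lit 2549982267) (nat_lit 76) (nat_lit 121691755632) (nat_lit 48) (nat_lit 5) (nat_lit 50) (nat_lit 5) (nat_lit 49) (nat_lit 5) (nat_lit 498) (nat_lit 447) (nat_lit 255)) (XT.lf (nat_lit 0) (nat_lit 100870573507) (nat_lit 228) (nat_lit 81167445375) (nat_lit 76) (nat_lit 1903297577) (nat_lit 46) (nat_lit 5) (nat_lit 49) (nat_lit 5) (nat_lit 47) (nat_lit 4) (nat_lit 499) (nat_lit 447) (nat_lit 254)))) (XT.nd (nat_lit 156) (nat_lit 152) (nat_lit 0) (XT.nd (nat_lit 78) (nat_lit 76) (nat_lit 0) (XT.lf (nat_lit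 0) (nat_lit 23045828409) (nat_lit 76) (nat_lit 128661032719) (nat_lit 152) (nat_lit 38449265045) (nat_lit 45) (nat_lit 5) (nat_lit 46) (nat_lit 5) (nat_lit 47) (nat_lit 4) (nat_lit 500) (nat_lit 447) (nat_lit 253)) (XT.lf (nat_lit 0) (nat_lit 9531003862) (nat_lit 152) (nat_lit 61479817105) (nat_lit 76) (nat_lit 125594461775) (nat_lit 44) (nat_lit 5) (nat_lit 46) (nat_lit 5) (nat_lit 45) (nat_lit 5) (nat_lit 501) (nat_lit 447) (nat_lit 252))) (XT.nd (nat_lit 78) (nat_lit 0) (nat_lit 0) (XT.lf (nat_lit 0) (nat_lit 50414641728) (nat_lit 152) (nat_lit 8990163481) (nat_lit 228) (nat_lit 143901242866) (nat_lit 42) (nat_lit 5) (nat_lit 44) (nat_lit 5) (nat_lit 45) (nat_lit 5) (nat_lit 502) (nat_lit 447) (nat_lit 251)) (XT.lf (nat_lit 0) (nat_lit 113706481960) (nat_lit 228) (nat_lit 41145783991) (nat_lit 76) (nat_lit 55392876503) (nat_lit 42) (nat_lit 5) (nat_lit 45) (nat_lit 5) (nat_lit 43) (nat_lit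 4) (nat_lit 503) (nat_lit 447) (nat_lit 250))))) (XT.nd (nat_lit 312) (nat_lit 228) (nat_lit 0) (XT.nd (nat_lit 156) (nat_lit 228) (nat_lit 0) (XT.nd (nat_lit 78) (nat_lit 76) (nat_lit 0) (XT.lf (nat_lit 0) (nat_lit 78553153499) (nat_lit 76) (nat_lit 93543480549) (nat_lit 152) (nat_lit 45365887972) (nat_lit 41) (nat_lit 5) (nat_lit 42) (nat_lit 5) (nat_lit 43) (nat_lit 4) (nat_lit 504) (nat_lit 447) (nat_lit 249)) (XT.lf (nat_lit 0) (nat_lit 8805599550) (nat_lit 152) (nat_lit 19483214583) (nat_lit 76) (nat_lit 196710034738) (nat_lit 40) (nat_lit 5) (nat_lit 42) (nat_lit 5) (nat_lit 41) (nat_lit 5) (nat_lit 505) (nat_lit 447) (nat_lit 248))) (XT.nd (nat_lit 78) (nat_lit 76) (nat_lit 0) (XT.lf (nat_lit 0) (nat_lit 66525031089) (nat_lit 228) (nat_lit 124810897660) (nat_lit 76) (nat_lit 41420680154) (nat_lit 38) (nat_lit 5) (nat_lit 41) (nat_lit 5) (nat_lit 39) (nat_lit 4) (nat_lit 506) (nat_lit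 447) (nat_lit 247)) (XT.lf (nat_lit 0) (nat_lit 1102107049) (nat_lit 76) (nat_lit 126844252815) (nat_lit 152) (nat_lit 112915100824) (nat_lit 37) (nat_lit 5) (nat_lit 38) (nat_lit 5) (nat_lit 39) (nat_lit 4) (nat_lit 507) (nat_lit 447) (nat_lit 246)))) (XT.nd (nat_lit 156) (nat_lit 76) (nat_lit 0) (XT.nd (nat_lit 78) (nat_lit 152) (nat_lit 0) (XT.lf (nat_lit 0) (nat_lit 137643181948) (nat_lit 76) (nat_lit 56908914466) (nat_lit 152) (nat_lit 54713791614) (nat_lit 37) (nat_lit 5) (nat_lit 38) (nat_lit 5) (nat_lit 39) (nat_lit 4) (nat_lit 508) (nat_lit 447) (nat_lit 245)) (XT.lf (nat_lit 0) (nat_lit 6826148229) (nat_lit 152) (nat_lit 234758080043) (nat_lit 76) (nat_lit 16469647896) (nat_lit 35) (nat_lit 5) (nat_lit 37) (nat_lit 5) (nat_lit 36) (nat_lit 4) (nat_lit 509) (nat_lit 447) (nat_lit 244))) (XT.nd (nat_lit 78) (nat_lit 76) (nat_lit 0) (XT.lf (nat_lit 0) (nat_lit 72458273295) (nat_lit 152)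 (nat_lit 100212815411) (nat_lit 76) (nat_lit 94422631147) (nat_lit 35) (nat_lit 5) (nat_lit 37) (nat_lit 5) (nat_lit 36) (nat_lit 4) (nat_lit 510) (nat_lit 447) (nat_lit 243)) (XT.lf (nat_lit 0) (nat_lit 42416631134) (nat_lit 76) (nat_lit 99617256853) (nat_lit 152) (nat_lit 134518573594) (nat_lit 34) (nat_lit 5) (nat_lit 35) (nat_lit 5) (nat_lit 36) (nat_lit 4) (nat_lit 511) (nat_lit 447) (nat_lit 242))))))))
noncomputable def xc194 : XT := (XT.nd (nat_lit 57486) (nat_lit 0) (nat_lit 4940) (XT.nd (nat_lit 1092) (nat_lit 608) (nat_lit 0) (XT.nd (nat_lit 546) (nat_lit 380) (nat_lit 0) (XT.nd (nat_lit 234) (nat_lit 228) (nat_lit 0) (XT.nd (nat_lit 78) (nat_lit 152) (nat_lit 0) (XT.lf (nat_lit 0) (nat_lit 195656045203) (nat_lit 76) (nat_lit 21129038300) (nat_lit 152) (nat_lit 69614216916) (nat_lit 34) (nat_lit 5) (nat_lit 35) (nat_lit 5) (nat_lit 36) (nat_lit 4) (nat_lit 512) (nat_lit 447) (nat_lit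 241)) (XT.nd (nat_lit 78) (nat_lit 0) (nat_lit 0) (XT.lf (nat_lit 0) (nat_lit 519325853) (nat_lit 152) (nat_lit 235843845961) (nat_lit 76) (nat_lit 60279598239) (nat_lit 32) (nat_lit 5) (nat_lit 34) (nat_lit 5) (nat_lit 33) (nat_lit 4) (nat_lit 513) (nat_lit 447) (nat_lit 240)) (XT.lf (nat_lit 0) (nat_lit 73728063749) (nat_lit 152) (nat_lit 85766396926) (nat_lit 76) (nat_lit 147751491074) (nat_lit 32) (nat_lit 5) (nat_lit 34) (nat_lit 5) (nat_lit 33) (nat_lit 4) (nat_lit 514) (nat_lit 447) (nat_lit 239)))) (XT.nd (nat_lit 156) (nat_lit 152) (nat_lit 0) (XT.nd (nat_lit 78) (nat_lit 0) (nat_lit 0) (XT.lf (nat_lit 0) (nat_lit 74188812141) (nat_lit 76) (nat_lit 77566398263) (nat_lit 152) (nat_lit 166566183556) (nat_lit 31) (nat_lit 5) (nat_lit 32) (nat_lit 5) (nat_lit 33) (nat_lit 4) (nat_lit 515) (nat_lit 447) (nat_lit 238)) (XT.lf (nat_lit 0) (nat_lit 235291753332) (nat_lit 152) (nat_lit 84915070871)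 (nat_lit 0) (nat_lit 9663382153) (nat_lit 31) (nat_lit 5) (nat_lit 33) (nat_lit 4) (nat_lit 31) (nat_lit 4) (nat_lit 516) (nat_lit 447) (nat_lit 237))) (XT.nd (nat_lit 78) (nat_lit 76) (nat_lit 0) (XT.lf (nat_lit 0) (nat_lit 83669078726) (nat_lit 76) (nat_lit 241913627087) (nat_lit 76) (nat_lit 16284874458) (nat_lit 30) (nat_lit 4) (nat_lit 31) (nat_lit 5) (nat_lit 31) (nat_lit 4) (nat_lit 517) (nat_lit 447) (nat_lit 236)) (XT.lf (nat_lit 0) (nat_lit 65274769837) (nat_lit 152) (nat_lit 91815837747) (nat_lit 76) (nat_lit 197249685539) (nat_lit 29) (nat_lit 5) (nat_lit 31) (nat_lit 5) (nat_lit 30) (nat_lit 4) (nat_lit 518) (nat_lit 447) (nat_lit 235))))) (XT.nd (nat_lit 234) (nat_lit 228) (nat_lit 0) (XT.nd (nat_lit 78) (nat_lit 76) (nat_lit 0) (XT.lf (nat_lit 0) (nat_lit 85350170397) (nat_lit 76) (nat_lit 66347211210) (nat_lit 152) (nat_lit 215659298579) (nat_lit 28) (nat_lit 5) (nat_lit 29)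 (nat_lit 5) (nat_lit 30) (nat_lit 4) (nat_lit 519) (nat_lit 447) (nat_lit 234)) (XT.nd (nat_lit 78) (nat_lit 76) (nat_lit 0) (XT.lf (nat_lit 0) (nat_lit 244473000832) (nat_lit 152) (nat_lit 106861806740) (nat_lit 0) (nat_lit 29587485203) (nat_lit 28) (nat_lit 5) (nat_lit 30) (nat_lit 4) (nat_lit 28) (nat_lit 4) (nat_lit 520) (nat_lit 447) (nat_lit 233)) (XT.lf (nat_lit 0) (nat_lit 78463249830) (nat_lit 76) (nat_lit 265736564997) (nat_lit 76) (nat_lit 50850750493) (nat_lit 27) (nat_lit 4) (nat_lit 28) (nat_lit 5) (nat_lit 28) (nat_lit 4) (nat_lit 521) (nat_lit 447) (nat_lit 232)))) (XT.nd (nat_lit 156) (nat_lit 76) (nat_lit 0) (XT.nd (nat_lit 78) (nat_lit 76) (nat_lit 0) (XT.lf (nat_lit 0) (nat_lit 39617735713) (nat_lit 152) (nat_lit 133669740934) (nat_lit 76) (nat_lit 236475350834) (nat_lit 26) (nat_lit 5) (nat_lit 28) (nat_lit 5) (nat_lit 27) (nat_lit 4) (nat_lit 522) (nat_lit 447) (nat_lit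 231)) (XT.lf (nat_lit 0) (nat_lit 59462761856) (nat_lit 76) (nat_lit 74366083067) (nat_lit 152) (nat_lit 291293771032) (nat_lit 25) (nat_lit 5) (nat_lit 26) (nat_lit 5) (nat_lit 27) (nat_lit 4) (nat_lit 523) (nat_lit 447) (nat_lit 230))) (XT.nd (nat_lit 78) (nat_lit 76) (nat_lit 0) (XT.lf (nat_lit 0) (nat_lit 235511719253) (nat_lit 152) (nat_lit 174742826702) (nat_lit 0) (nat_lit 30857787427) (nat_lit 25) (nat_lit 5) (nat_lit 27) (nat_lit 4) (nat_lit 25) (nat_lit 4) (nat_lit 524) (nat_lit 447) (nat_lit 229)) (XT.lf (nat_lit 0) (nat_lit 25310543580) (nat_lit 76) (nat_lit 318582228683) (nat_lit 76) (nat_lit 113928062681) (nat_lit 24) (nat_lit 4) (nat_lit 25) (nat_lit 5) (nat_lit 25) (nat_lit 4) (nat_lit 525) (nat_lit 447) (nat_lit 228)))))) (XT.nd (nat_lit 546) (nat_lit 228) (nat_lit 0) (XT.nd (nat_lit 234) (nat_lit 228) (nat_lit 0) (XT.nd (nat_lit 78) (nat_lit 152) (nat_lit 0) (XT.lf (nat_lit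 0) (nat_lit 241432778777) (nat_lit 76) (nat_lit 219219208197) (nat_lit 76) (nat_lit 14564819169) (nat_lit 24) (nat_lit 4) (nat_lit 25) (nat_lit 5) (nat_lit 25) (nat_lit 4) (nat_lit 526) (nat_lit 447) (nat_lit 227)) (XT.nd (nat_lit 78) (nat_lit 76) (nat_lit 0) (XT.lf (nat_lit 0) (nat_lit 86893257711) (nat_lit 152) (nat_lit 26523423124) (nat_lit 76) (nat_lit 379995831550) (nat_lit 23) (nat_lit 5) (nat_lit 25) (nat_lit 5) (nat_lit 24) (nat_lit 4) (nat_lit 527) (nat_lit 447) (nat_lit 226)) (XT.lf (nat_lit 0) (nat_lit 196031034008) (nat_lit 152) (nat_lit 315198520988) (nat_lit 0) (nat_lit 1121697128) (nat_lit 22) (nat_lit 5) (nat_lit 24) (nat_lit 4) (nat_lit 22) (nat_lit 4) (nat_lit 528) (nat_lit 447) (nat_lit 225)))) (XT.nd (nat_lit 156) (nat_lit 152) (nat_lit 0) (XT.nd (nat_lit 78) (nat_lit 76) (nat_lit 0) (XT.lf (nat_lit 0) (nat_lit 312941314200) (nat_lit 152) (nat_lit 101148040069) (nat_lit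 0) (nat_lit 118031793836) (nat_lit 22) (nat_lit 5) (nat_lit 24) (nat_lit 4) (nat_lit 22) (nat_lit 4) (nat_lit 529) (nat_lit 447) (nat_lit 224)) (XT.lf (nat_lit 0) (nat_lit 127691466935) (nat_lit 76) (nat_lit 309999048361) (nat_lit 76) (nat_lit 115089353251) (nat_lit 21) (nat_lit 4) (nat_lit 22) (nat_lit 5) (nat_lit 22) (nat_lit 4) (nat_lit 530) (nat_lit 447) (nat_lit 223))) (XT.nd (nat_lit 78) (nat_lit 152) (nat_lit 0) (XT.lf (nat_lit 0) (nat_lit 371484165303) (nat_lit 76) (nat_lit 198905791128) (nat_lit 76) (nat_lit 3995929592) (nat_lit 21) (nat_lit 4) (nat_lit 22) (nat_lit 5) (nat_lit 22) (nat_lit 4) (nat_lit 531) (nat_lit 447) (nat_lit 222)) (XT.lf (nat_lit 0) (nat_lit 29581880617) (nat_lit 76) (nat_lit 79926363603) (nat_lit 152) (nat_lit 487452936770) (nat_lit 19) (nat_lit 5) (nat_lit 20) (nat_lit 5) (nat_lit 21) (nat_lit 4) (nat_lit 532) (nat_lit 447) (nat_lit 221))))) (XT.nd (nat_lit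 234) (nat_lit 152) (nat_lit 0) (XT.nd (nat_lit 78) (nat_lit 76) (nat_lit 0) (XT.lf (nat_lit 0) (nat_lit 232748312002) (nat_lit 152) (nat_lit 340584326896) (nat_lit 0) (nat_lit 47119577728) (nat_lit 19) (nat_lit 5) (nat_lit 21) (nat_lit 4) (nat_lit 19) (nat_lit 4) (nat_lit 533) (nat_lit 447) (nat_lit 220)) (XT.nd (nat_lit 78) (nat_lit 76) (nat_lit 0) (XT.lf (nat_lit 0) (nat_lit 363460457354) (nat_lit 152) (nat_lit 103760256826) (nat_lit 0) (nat_lit 177831586161) (nat_lit 19) (nat_lit 5) (nat_lit 21) (nat_lit 4) (nat_lit 19) (nat_lit 4) (nat_lit 534) (nat_lit 447) (nat_lit 219)) (XT.lf (nat_lit 0) (nat_lit 149695853376) (nat_lit 76) (nat_lit 353349343558) (nat_lit 76) (nat_lit 167720341967) (nat_lit 18) (nat_lit 4) (nat_lit 19) (nat_lit 5) (nat_lit 19) (nat_lit 4) (nat_lit 535) (nat_lit 447) (nat_lit 218)))) (XT.nd (nat_lit 156) (nat_lit 76) (nat_lit 0) (XT.nd (nat_lit 78) (nat_lit 76) (nat_lit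 0) (XT.lf (nat_lit 0) (nat_lit 419426731257) (nat_lit 76) (nat_lit 231939490746) (nat_lit 76) (nat_lit 46310364966) (nat_lit 18) (nat_lit 4) (nat_lit 19) (nat_lit 5) (nat_lit 19) (nat_lit 4) (nat_lit 536) (nat_lit 447) (nat_lit 217)) (XT.lf (nat_lit 0) (nat_lit 78571984580) (nat_lit 152) (nat_lit 24556675666) (nat_lit 76) (nat_lit 622741171348) (nat_lit 17) (nat_lit 5) (nat_lit 19) (nat_lit 5) (nat_lit 18) (nat_lit 4) (nat_lit 537) (nat_lit 447) (nat_lit 216))) (XT.nd (nat_lit 78) (nat_lit 0) (nat_lit 0) (XT.lf (nat_lit 0) (nat_lit 212607751119) (nat_lit 152) (nat_lit 506785858850) (nat_lit 0) (nat_lit 35817887597) (nat_lit 16) (nat_lit 5) (nat_lit 18) (nat_lit 4) (nat_lit 16) (nat_lit 4) (nat_lit 538) (nat_lit 447) (nat_lit 215)) (XT.lf (nat_lit 0) (nat_lit 355458469524) (nat_lit 152) (nat_lit 251787615312) (nat_lit 0) (nat_lit 178668503831) (nat_lit 16) (nat_lit 5) (nat_lit 18) (nat_lit 4)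 (nat_lit 16) (nat_lit 4) (nat_lit 539) (nat_lit 447) (nat_lit 214))))))) (XT.nd (nat_lit 1092) (nat_lit 2584) (nat_lit 0) (XT.nd (nat_lit 546) (nat_lit 760) (nat_lit 0) (XT.nd (nat_lit 234) (nat_lit 0) (nat_lit 76) (XT.nd (nat_lit 78) (nat_lit 0) (nat_lit 0) (XT.lf (nat_lit 0) (nat_lit 6822993741) (nat_lit 836) (nat_lit 7162740081) (nat_lit 836) (nat_lit 7162740081) (nat_lit 125) (nat_lit 3) (nat_lit 136) (nat_lit 3) (nat_lit 136) (nat_lit 5) (nat_lit 448) (nat_lit 448) (nat_lit 304)) (XT.nd (nat_lit 78) (nat_lit 0) (nat_lit 76) (XT.lf (nat_lit 76) (nat_lit 6606743365) (nat_lit 0) (nat_lit 7519366684) (nat_lit 836) (nat_lit 29221298871) (nat_lit 126) (nat_lit 5) (nat_lit 125) (nat_lit 3) (nat_lit 136) (nat_lit 5) (nat_lit 449) (nat_lit 448) (nat_lit 303)) (XT.lf (nat_lit 0) (nat_lit 15092410965) (nat_lit 760) (nat_lit 15578572761) (nat_lit 836) (nat_lit 13756301644) (nat_lit 126) (nat_lit 5)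 (nat_lit 136) (nat_lit 5) (nat_lit 137) (nat_lit 5) (nat_lit 450) (nat_lit 448) (nat_lit 302)))) (XT.nd (nat_lit 156) (nat_lit 0) (nat_lit 76) (XT.nd (nat_lit 78) (nat_lit 0) (nat_lit 76) (XT.lf (nat_lit 76) (nat_lit 6732527523) (nat_lit 0) (nat_lit 9600694790) (nat_lit 836) (nat_lit 29216624411) (nat_lit 127) (nat_lit 5) (nat_lit 126) (nat_lit 5) (nat_lit 137) (nat_lit 5) (nat_lit 451) (nat_lit 448) (nat_lit 301)) (XT.lf (nat_lit 0) (nat_lit 18097660915) (nat_lit 760) (nat_lit 16216564062) (nat_lit 836) (nat_lit 12391232642) (nat_lit 127) (nat_lit 5) (nat_lit 137) (nat_lit 5) (nat_lit 138) (nat_lit 5) (nat_lit 452) (nat_lit 448) (nat_lit 300))) (XT.nd (nat_lit 78) (nat_lit 0) (nat_lit 76) (XT.lf (nat_lit 76) (nat_lit 7598704264) (nat_lit 0) (nat_lit 12625652315) (nat_lit 836) (nat_lit 27680791495) (nat_lit 128) (nat_lit 5) (nat_lit 127) (nat_lit 5) (nat_lit 138) (nat_lit 5) (nat_lit 453) (nat_lit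 448) (nat_lit 299)) (XT.lf (nat_lit 0) (nat_lit 22893046249) (nat_lit 760) (nat_lit 16147709884) (nat_lit 836) (nat_lit 10102284691) (nat_lit 128) (nat_lit 5) (nat_lit 138) (nat_lit 5) (nat_lit 139) (nat_lit 5) (nat_lit 454) (nat_lit 448) (nat_lit 298))))) (XT.nd (nat_lit 234) (nat_lit 988) (nat_lit 0) (XT.nd (nat_lit 78) (nat_lit 0) (nat_lit 76) (XT.lf (nat_lit 76) (nat_lit 9308556368) (nat_lit 0) (nat_lit 16737108486) (nat_lit 836) (nat_lit 24379639334) (nat_lit 129) (nat_lit 5) (nat_lit 128) (nat_lit 5) (nat_lit 139) (nat_lit 5) (nat_lit 455) (nat_lit 448) (nat_lit 297)) (XT.nd (nat_lit 78) (nat_lit 0) (nat_lit 0) (XT.lf (nat_lit 0) (nat_lit 29736443145) (nat_lit 760) (nat_lit 15269993945) (nat_lit 836) (nat_lit 6746217859) (nat_lit 129) (nat_lit 5) (nat_lit 139) (nat_lit 5) (nat_lit 140) (nat_lit 5) (nat_lit 456) (nat_lit 448) (nat_lit 296)) (XT.lf (nat_lit 76) (nat_lit 11976684502) (nat_lit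 0) (nat_lit 22094783306) (nat_lit 836) (nat_lit 19051920700) (nat_lit 130) (nat_lit 5) (nat_lit 129) (nat_lit 5) (nat_lit 140) (nat_lit 5) (nat_lit 457) (nat_lit 448) (nat_lit 295)))) (XT.nd (nat_lit 156) (nat_lit 380) (nat_lit 0) (XT.nd (nat_lit 78) (nat_lit 760) (nat_lit 0) (XT.lf (nat_lit 0) (nat_lit 38915128523) (nat_lit 760) (nat_lit 13470196587) (nat_lit 76) (nat_lit 2162739998) (nat_lit 130) (nat_lit 5) (nat_lit 140) (nat_lit 5) (nat_lit 131) (nat_lit 5) (nat_lit 458) (nat_lit 448) (nat_lit 294)) (XT.lf (nat_lit 0) (nat_lit 15730027820) (nat_lit 760) (nat_lit 28877221230) (nat_lit 836) (nat_lit 11406413225) (nat_lit 120) (nat_lit 5) (nat_lit 130) (nat_lit 5) (nat_lit 131) (nat_lit 5) (nat_lit 459) (nat_lit 448) (nat_lit 293))) (XT.nd (nat_lit 78) (nat_lit 380) (nat_lit 0) (XT.lf (nat_lit 0) (nat_lit 46856582214) (nat_lit 760) (nat_lit 3954046728) (nat_lit 836) (nat_lit 6730578239) (nat_lit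 120) (nat_lit 5) (nat_lit 130) (nat_lit 5) (nat_lit 131) (nat_lit 5) (nat_lit 460) (nat_lit 448) (nat_lit 292)) (XT.lf (nat_lit 0) (nat_lit 20708963273) (nat_lit 380) (nat_lit 37283983485) (nat_lit 456) (nat_lit 1118744650) (nat_lit 115) (nat_lit 5) (nat_lit 120) (nat_lit 5) (nat_lit 121) (nat_lit 5) (nat_lit 461) (nat_lit 448) (nat_lit 291)))))) (XT.nd (nat_lit 546) (nat_lit 1140) (nat_lit 0) (XT.nd (nat_lit 234) (nat_lit 988) (nat_lit 0) (XT.nd (nat_lit 78) (nat_lit 380) (nat_lit 0) (XT.lf (nat_lit 0) (nat_lit 4868253526) (nat_lit 456) (nat_lit 6852162015) (nat_lit 76) (nat_lit 49024190226) (nat_lit 114) (nat_lit 5) (nat_lit 120) (nat_lit 5) (nat_lit 115) (nat_lit 5) (nat_lit 462) (nat_lit 448) (nat_lit 290)) (XT.nd (nat_lit 78) (nat_lit 0) (nat_lit 0) (XT.lf (nat_lit 0) (nat_lit 11782512406) (nat_lit 456) (nat_lit 35556030164) (nat_lit 76) (nat_lit 15086431324) (nat_lit 109) (nat_lit 5)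 (nat_lit 115) (nat_lit 5) (nat_lit 110) (nat_lit 5) (nat_lit 463) (nat_lit 448) (nat_lit 289)) (XT.lf (nat_lit 0) (nat_lit 19351301250) (nat_lit 456) (nat_lit 1864948769) (nat_lit 76) (nat_lit 42957669985) (nat_lit 109) (nat_lit 5) (nat_lit 115) (nat_lit 5) (nat_lit 110) (nat_lit 5) (nat_lit 464) (nat_lit 448) (nat_lit 288)))) (XT.nd (nat_lit 156) (nat_lit 304) (nat_lit 0) (XT.nd (nat_lit 78) (nat_lit 304) (nat_lit 0) (XT.lf (nat_lit 0) (nat_lit 27943644435) (nat_lit 456) (nat_lit 31471822293) (nat_lit 76) (nat_lit 6562591356) (nat_lit 104) (nat_lit 5) (nat_lit 110) (nat_lit 5) (nat_lit 105) (nat_lit 5) (nat_lit 465) (nat_lit 448) (nat_lit 287)) (XT.lf (nat_lit 0) (nat_lit 4690379570) (nat_lit 304) (nat_lit 32727192892) (nat_lit 380) (nat_lit 30432232613) (nat_lit 100) (nat_lit 5) (nat_lit 104) (nat_lit 5) (nat_lit 105) (nat_lit 5) (nat_lit 466) (nat_lit 448) (nat_lit 286))) (XT.nd (nat_lit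 78) (nat_lit 304) (nat_lit 0) (XT.lf (nat_lit 0) (nat_lit 43752024173) (nat_lit 304) (nat_lit 4145027522) (nat_lit 380) (nat_lit 21891495348) (nat_lit 100) (nat_lit 5) (nat_lit 104) (nat_lit 5) (nat_lit 105) (nat_lit 5) (nat_lit 467) (nat_lit 448) (nat_lit 285)) (XT.lf (nat_lit 0) (nat_lit 12951934932) (nat_lit 304) (nat_lit 46553546491) (nat_lit 380) (nat_lit 12288496216) (nat_lit 96) (nat_lit 5) (nat_lit 100) (nat_lit 5) (nat_lit 101) (nat_lit 5) (nat_lit 468) (nat_lit 448) (nat_lit 284))))) (XT.nd (nat_lit 312) (nat_lit 532) (nat_lit 0) (XT.nd (nat_lit 156) (nat_lit 304) (nat_lit 0) (XT.nd (nat_lit 78) (nat_lit 304) (nat_lit 0) (XT.lf (nat_lit 0) (nat_lit 54722279465) (nat_lit 304) (nat_lit 17478797339) (nat_lit 380) (nat_lit 1673266087) (nat_lit 96) (nat_lit 5) (nat_lit 100) (nat_lit 5) (nat_lit 101) (nat_lit 5) (nat_lit 469) (nat_lit 448) (nat_lit 283)) (XT.lf (nat_lit 0) (nat_lit 9741458634)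 (nat_lit 304) (nat_lit 53132379300) (nat_lit 76) (nat_lit 13148898013) (nat_lit 92) (nat_lit 5) (nat_lit 96) (nat_lit 5) (nat_lit 93) (nat_lit 5) (nat_lit 470) (nat_lit 448) (nat_lit 282))) (XT.nd (nat_lit 78) (nat_lit 304) (nat_lit 0) (XT.lf (nat_lit 0) (nat_lit 22285898183) (nat_lit 304) (nat_lit 10883069686) (nat_lit 76) (nat_lit 45077448984) (nat_lit 92) (nat_lit 5) (nat_lit 96) (nat_lit 5) (nat_lit 93) (nat_lit 5) (nat_lit 471) (nat_lit 448) (nat_lit 281)) (XT.lf (nat_lit 0) (nat_lit 34584415875) (nat_lit 304) (nat_lit 1412157752) (nat_lit 380) (nat_lit 44557757757) (nat_lit 88) (nat_lit 5) (nat_lit 92) (nat_lit 5) (nat_lit 93) (nat_lit 5) (nat_lit 472) (nat_lit 448) (nat_lit 280)))) (XT.nd (nat_lit 156) (nat_lit 304) (nat_lit 0) (XT.nd (nat_lit 78) (nat_lit 228) (nat_lit 0) (XT.lf (nat_lit 0) (nat_lit 51077746651) (nat_lit 380) (nat_lit 768121399) (nat_lit 76) (nat_lit 31097525665) (nat_lit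 88) (nat_lit 5) (nat_lit 93) (nat_lit 5) (nat_lit 89) (nat_lit 5) (nat_lit 473) (nat_lit 448) (nat_lit 279)) (XT.lf (nat_lit 0) (nat_lit 48212543931) (nat_lit 228) (nat_lit 19475437995) (nat_lit 304) (nat_lit 17725177307) (nat_lit 85) (nat_lit 5) (nat_lit 88) (nat_lit 5) (nat_lit 89) (nat_lit 5) (nat_lit 474) (nat_lit 448) (nat_lit 278))) (XT.nd (nat_lit 78) (nat_lit 76) (nat_lit 0) (XT.lf (nat_lit 0) (nat_lit 11813244736) (nat_lit 228) (nat_lit 73738880281) (nat_lit 304) (nat_lit 2433118446) (nat_lit 82) (nat_lit 5) (nat_lit 85) (nat_lit 5) (nat_lit 86) (nat_lit 5) (nat_lit 475) (nat_lit 448) (nat_lit 277)) (XT.lf (nat_lit 0) (nat_lit 14146261363) (nat_lit 304) (nat_lit 26628610983) (nat_lit 76) (nat_lit 49852486869) (nat_lit 81) (nat_lit 5) (nat_lit 85) (nat_lit 5) (nat_lit 82) (nat_lit 5) (nat_lit 476) (nat_lit 448) (nat_lit 276))))))))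
noncomputable def xc195 : XT := (XT.nd (nat_lit 2184) (nat_lit 1748) (nat_lit 0) (XT.nd (nat_lit 1092) (nat_lit 1292) (nat_lit 0) (XT.nd (nat_lit 546) (nat_lit 760) (nat_lit 0) (XT.nd (nat_lit 234) (nat_lit 456) (nat_lit 0) (XT.nd (nat_lit 78) (nat_lit 228) (nat_lit 0) (XT.lf (nat_lit 0) (nat_lit 26189132340) (nat_lit 228) (nat_lit 5691783924) (nat_lit 304) (nat_lit 61498266595) (nat_lit 78) (nat_lit 5) (nat_lit 81) (nat_lit 5) (nat_lit 82) (nat_lit 5) (nat_lit 477) (nat_lit 448) (nat_lit 275)) (XT.nd (nat_lit 78) (nat_lit 228) (nat_lit 0) (XT.lf (nat_lit 0) (nat_lit 51446138081) (nat_lit 304) (nat_lit 14168620471) (nat_lit 76) (nat_lit 30606647620) (nat_lit 78) (nat_lit 5) (nat_lit 82) (nat_lit 5) (nat_lit 79) (nat_lit 5) (nat_lit 478) (nat_lit 448) (nat_lit 274)) (XT.lf (nat_lit 0) (nat_lit 42778653937) (nat_lit 228) (nat_lit 29971412454) (nat_lit 304) (nat_lit 26417652178) (nat_lit 75) (nat_lit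 5) (nat_lit 78) (nat_lit 5) (nat_lit 79) (nat_lit 5) (nat_lit 479) (nat_lit 448) (nat_lit 273)))) (XT.nd (nat_lit 156) (nat_lit 228) (nat_lit 0) (XT.nd (nat_lit 78) (nat_lit 76) (nat_lit 0) (XT.lf (nat_lit 0) (nat_lit 717375912) (nat_lit 152) (nat_lit 94772537430) (nat_lit 228) (nat_lit 6752897311) (nat_lit 73) (nat_lit 5) (nat_lit 75) (nat_lit 5) (nat_lit 76) (nat_lit 5) (nat_lit 480) (nat_lit 448) (nat_lit 272)) (XT.lf (nat_lit 0) (nat_lit 14911594215) (nat_lit 228) (nat_lit 43512124092) (nat_lit 76) (nat_lit 46964030690) (nat_lit 72) (nat_lit 5) (nat_lit 75) (nat_lit 5) (nat_lit 73) (nat_lit 5) (nat_lit 481) (nat_lit 448) (nat_lit 271))) (XT.nd (nat_lit 78) (nat_lit 0) (nat_lit 0) (XT.lf (nat_lit 0) (nat_lit 17861766770) (nat_lit 228) (nat_lit 19848771936) (nat_lit 304) (nat_lit 70959952043) (nat_lit 69) (nat_lit 5) (nat_lit 72) (nat_lit 5) (nat_lit 73) (nat_lit 5) (nat_lit 482) (nat_lit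 448) (nat_lit 270)) (XT.lf (nat_lit 0) (nat_lit 62720199862) (nat_lit 304) (nat_lit 28601172874) (nat_lit 76) (nat_lit 20742458526) (nat_lit 69) (nat_lit 5) (nat_lit 73) (nat_lit 5) (nat_lit 70) (nat_lit 5) (nat_lit 483) (nat_lit 448) (nat_lit 269))))) (XT.nd (nat_lit 234) (nat_lit 380) (nat_lit 0) (XT.nd (nat_lit 78) (nat_lit 228) (nat_lit 0) (XT.lf (nat_lit 0) (nat_lit 37593564862) (nat_lit 152) (nat_lit 52298451767) (nat_lit 228) (nat_lit 25689238686) (nat_lit 67) (nat_lit 5) (nat_lit 69) (nat_lit 5) (nat_lit 70) (nat_lit 5) (nat_lit 484) (nat_lit 448) (nat_lit 268)) (XT.nd (nat_lit 78) (nat_lit 228) (nat_lit 0) (XT.lf (nat_lit 0) (nat_lit 108089994165) (nat_lit 152) (nat_lit 10816162227) (nat_lit 228) (nat_lit 344207702) (nat_lit 67) (nat_lit 5) (nat_lit 69) (nat_lit 5) (nat_lit 70) (nat_lit 5) (nat_lit 485) (nat_lit 448) (nat_lit 267)) (XT.lf (nat_lit 0) (nat_lit 26905204828) (nat_lit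 228) (nat_lit 63033875078) (nat_lit 76) (nat_lit 33069448993) (nat_lit 64) (nat_lit 5) (nat_lit 67) (nat_lit 5) (nat_lit 65) (nat_lit 5) (nat_lit 486) (nat_lit 448) (nat_lit 266)))) (XT.nd (nat_lit 156) (nat_lit 228) (nat_lit 0) (XT.nd (nat_lit 78) (nat_lit 0) (nat_lit 0) (XT.lf (nat_lit 0) (nat_lit 8183616641) (nat_lit 152) (nat_lit 47818478485) (nat_lit 228) (nat_lit 70927396057) (nat_lit 62) (nat_lit 5) (nat_lit 64) (nat_lit 5) (nat_lit 65) (nat_lit 5) (nat_lit 487) (nat_lit 448) (nat_lit 265)) (XT.lf (nat_lit 0) (nat_lit 85149397974) (nat_lit 152) (nat_lit 2471341783) (nat_lit 228) (nat_lit 43372416441) (nat_lit 62) (nat_lit 5) (nat_lit 64) (nat_lit 5) (nat_lit 65) (nat_lit 5) (nat_lit 488) (nat_lit 448) (nat_lit 264))) (XT.nd (nat_lit 78) (nat_lit 76) (nat_lit 0) (XT.lf (nat_lit 0) (nat_lit 30989556977) (nat_lit 152) (nat_lit 91018828131) (nat_lit 228) (nat_lit 13192216036) (nat_lit 60)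 (nat_lit 5) (nat_lit 62) (nat_lit 5) (nat_lit 63) (nat_lit 5) (nat_lit 489) (nat_lit 448) (nat_lit 263)) (XT.lf (nat_lit 0) (nat_lit 18734029707) (nat_lit 228) (nat_lit 26666459493) (nat_lit 76) (nat_lit 94162037003) (nat_lit 59) (nat_lit 5) (nat_lit 62) (nat_lit 5) (nat_lit 60) (nat_lit 5) (nat_lit 490) (nat_lit 448) (nat_lit 262)))))) (XT.nd (nat_lit 546) (nat_lit 608) (nat_lit 0) (XT.nd (nat_lit 234) (nat_lit 380) (nat_lit 0) (XT.nd (nat_lit 78) (nat_lit 152) (nat_lit 0) (XT.lf (nat_lit 0) (nat_lit 52749317850) (nat_lit 228) (nat_lit 87803298210) (nat_lit 76) (nat_lit 3532314501) (nat_lit 57) (nat_lit 5) (nat_lit 60) (nat_lit 5) (nat_lit 58) (nat_lit 5) (nat_lit 491) (nat_lit 448) (nat_lit 261)) (XT.nd (nat_lit 78) (nat_lit 152) (nat_lit 0) (XT.lf (nat_lit 0) (nat_lit 89668114080) (nat_lit 228) (nat_lit 5260539871) (nat_lit 76) (nat_lit 53844664087) (nat_lit 57) (nat_lit 5) (nat_lit 60)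 (nat_lit 5) (nat_lit 58) (nat_lit 5) (nat_lit 492) (nat_lit 448) (nat_lit 260)) (XT.lf (nat_lit 0) (nat_lit 84100212687) (nat_lit 152) (nat_lit 45645163671) (nat_lit 228) (nat_lit 23885122300) (nat_lit 55) (nat_lit 5) (nat_lit 57) (nat_lit 5) (nat_lit 58) (nat_lit 5) (nat_lit 493) (nat_lit 448) (nat_lit 259)))) (XT.nd (nat_lit 156) (nat_lit 152) (nat_lit 0) (XT.nd (nat_lit 78) (nat_lit 0) (nat_lit 0) (XT.lf (nat_lit 0) (nat_lit 13181363468) (nat_lit 228) (nat_lit 138992639795) (nat_lit 76) (nat_lit 6521084253) (nat_lit 52) (nat_lit 5) (nat_lit 55) (nat_lit 5) (nat_lit 53) (nat_lit 5) (nat_lit 494) (nat_lit 448) (nat_lit 258)) (XT.lf (nat_lit 0) (nat_lit 53243085035) (nat_lit 228) (nat_lit 49303305041) (nat_lit 76) (nat_lit 61349707431) (nat_lit 52) (nat_lit 5) (nat_lit 55) (nat_lit 5) (nat_lit 53) (nat_lit 5) (nat_lit 495) (nat_lit 448) (nat_lit 257))) (XT.nd (nat_lit 78) (nat_lit 0) (nat_lit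 0) (XT.lf (nat_lit 0) (nat_lit 46353248163) (nat_lit 152) (nat_lit 49677866795) (nat_lit 228) (nat_lit 73289881993) (nat_lit 50) (nat_lit 5) (nat_lit 52) (nat_lit 5) (nat_lit 53) (nat_lit 5) (nat_lit 496) (nat_lit 448) (nat_lit 256)) (XT.lf (nat_lit 0) (nat_lit 141897818828) (nat_lit 228) (nat_lit 26576684875) (nat_lit 76) (nat_lit 6495674106) (nat_lit 50) (nat_lit 5) (nat_lit 53) (nat_lit 5) (nat_lit 51) (nat_lit 4) (nat_lit 497) (nat_lit 448) (nat_lit 255))))) (XT.nd (nat_lit 234) (nat_lit 304) (nat_lit 0) (XT.nd (nat_lit 78) (nat_lit 152) (nat_lit 0) (XT.lf (nat_lit 0) (nat_lit 10900412689) (nat_lit 152) (nat_lit 104717887008) (nat_lit 76) (nat_lit 65174499350) (nat_lit 48) (nat_lit 5) (nat_lit 50) (nat_lit 5) (nat_lit 49) (nat_lit 5) (nat_lit 498) (nat_lit 448) (nat_lit 254)) (XT.nd (nat_lit 78) (nat_lit 152) (nat_lit 0) (XT.lf (nat_lit 0) (nat_lit 56417389606) (nat_lit 152) (nat_lit 2652631890)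 (nat_lit 76) (nat_lit 127786570675) (nat_lit 48) (nat_lit 5) (nat_lit 50) (nat_lit 5) (nat_lit 49) (nat_lit 5) (nat_lit 499) (nat_lit 448) (nat_lit 253)) (XT.lf (nat_lit 0) (nat_lit 105927913854) (nat_lit 228) (nat_lit 85200853892) (nat_lit 76) (nat_lit 2008922334) (nat_lit 46) (nat_lit 5) (nat_lit 49) (nat_lit 5) (nat_lit 47) (nat_lit 4) (nat_lit 500) (nat_lit 448) (nat_lit 252)))) (XT.nd (nat_lit 156) (nat_lit 152) (nat_lit 0) (XT.nd (nat_lit 78) (nat_lit 76) (nat_lit 0) (XT.lf (nat_lit 0) (nat_lit 24222680941) (nat_lit 76) (nat_lit 135083060684) (nat_lit 152) (nat_lit 40357512442) (nat_lit 45) (nat_lit 5) (nat_lit 46) (nat_lit 5) (nat_lit 47) (nat_lit 4) (nat_lit 501) (nat_lit 448) (nat_lit 251)) (XT.lf (nat_lit 0) (nat_lit 10020659636) (nat_lit 152) (nat_lit 64529981697) (nat_lit 76) (nat_lit 131884248869) (nat_lit 44) (nat_lit 5) (nat_lit 46) (nat_lit 5) (nat_lit 45) (nat_lit 5) (nat_lit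 502) (nat_lit 448) (nat_lit 250))) (XT.nd (nat_lit 78) (nat_lit 0) (nat_lit 0) (XT.lf (nat_lit 0) (nat_lit 52958815784) (nat_lit 152) (nat_lit 9429077186) (nat_lit 228) (nat_lit 151082813802) (nat_lit 42) (nat_lit 5) (nat_lit 44) (nat_lit 5) (nat_lit 45) (nat_lit 5) (nat_lit 503) (nat_lit 448) (nat_lit 249)) (XT.lf (nat_lit 0) (nat_lit 119404199305) (nat_lit 228) (nat_lit 43180291984) (nat_lit 76) (nat_lit 58172287357) (nat_lit 42) (nat_lit 5) (nat_lit 45) (nat_lit 5) (nat_lit 43) (nat_lit 4) (nat_lit 504) (nat_lit 448) (nat_lit 248))))))) (XT.nd (nat_lit 1092) (nat_lit 836) (nat_lit 0) (XT.nd (nat_lit 546) (nat_lit 380) (nat_lit 0) (XT.nd (nat_lit 234) (nat_lit 228) (nat_lit 0) (XT.nd (nat_lit 78) (nat_lit 228) (nat_lit 0) (XT.lf (nat_lit 0) (nat_lit 82503224942) (nat_lit 76) (nat_lit 98210393842) (nat_lit 152) (nat_lit 47621420477) (nat_lit 41) (nat_lit 5) (nat_lit 42) (nat_lit 5) (nat_lit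 43) (nat_lit 4) (nat_lit 505) (nat_lit 448) (nat_lit 247)) (XT.nd (nat_lit 78) (nat_lit 152) (nat_lit 0) (XT.lf (nat_lit 0) (nat_lit 9257644703) (nat_lit 152) (nat_lit 20435638761) (nat_lit 76) (nat_lit 206554918497) (nat_lit 40) (nat_lit 5) (nat_lit 42) (nat_lit 5) (nat_lit 41) (nat_lit 5) (nat_lit 506) (nat_lit 448) (nat_lit 246)) (XT.lf (nat_lit 0) (nat_lit 69862975208) (nat_lit 228) (nat_lit 131029632337) (nat_lit 76) (nat_lit 43501246130) (nat_lit 38) (nat_lit 5) (nat_lit 41) (nat_lit 5) (nat_lit 39) (nat_lit 4) (nat_lit 507) (nat_lit 448) (nat_lit 245)))) (XT.nd (nat_lit 156) (nat_lit 152) (nat_lit 0) (XT.nd (nat_lit 78) (nat_lit 0) (nat_lit 0) (XT.lf (nat_lit 0) (nat_lit 1178670829) (nat_lit 76) (nat_lit 133176477830) (nat_lit 152) (nat_lit 118548810528) (nat_lit 37) (nat_lit 5) (nat_lit 38) (nat_lit 5) (nat_lit 39) (nat_lit 4) (nat_lit 508) (nat_lit 448) (nat_lit 244)) (XT.lf (nat_lit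 0) (nat_lit 144545777644) (nat_lit 76) (nat_lit 59744848164) (nat_lit 152) (nat_lit 57438009446) (nat_lit 37) (nat_lit 5) (nat_lit 38) (nat_lit 5) (nat_lit 39) (nat_lit 4) (nat_lit 509) (nat_lit 448) (nat_lit 243))) (XT.nd (nat_lit 78) (nat_lit 0) (nat_lit 0) (XT.lf (nat_lit 0) (nat_lit 7178500485) (nat_lit 152) (nat_lit 246475118782) (nat_lit 76) (nat_lit 17302397607) (nat_lit 35) (nat_lit 5) (nat_lit 37) (nat_lit 5) (nat_lit 36) (nat_lit 4) (nat_lit 510) (nat_lit 448) (nat_lit 242)) (XT.lf (nat_lit 0) (nat_lit 76091705860) (nat_lit 152) (nat_lit 105203584502) (nat_lit 76) (nat_lit 99152588720) (nat_lit 35) (nat_lit 5) (nat_lit 37) (nat_lit 5) (nat_lit 36) (nat_lit 4) (nat_lit 511) (nat_lit 448) (nat_lit 241))))) (XT.nd (nat_lit 234) (nat_lit 152) (nat_lit 0) (XT.nd (nat_lit 78) (nat_lit 152) (nat_lit 0) (XT.lf (nat_lit 0) (nat_lit 44557013859) (nat_lit 76) (nat_lit 104588891776) (nat_lit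 152) (nat_lit 141233662083) (nat_lit 34) (nat_lit 5) (nat_lit 35) (nat_lit 5) (nat_lit 36) (nat_lit 4) (nat_lit 512) (nat_lit 448) (nat_lit 240)) (XT.nd (nat_lit 78) (nat_lit 152) (nat_lit 0) (XT.lf (nat_lit 0) (nat_lit 205457467624) (nat_lit 76) (nat_lit 22176701720) (nat_lit 152) (nat_lit 73084603771) (nat_lit 34) (nat_lit 5) (nat_lit 35) (nat_lit 5) (nat_lit 36) (nat_lit 4) (nat_lit 513) (nat_lit 448) (nat_lit 239)) (XT.lf (nat_lit 0) (nat_lit 555238898) (nat_lit 152) (nat_lit 247617039482) (nat_lit 76) (nat_lit 63302132165) (nat_lit 32) (nat_lit 5) (nat_lit 34) (nat_lit 5) (nat_lit 33) (nat_lit 4) (nat_lit 514) (nat_lit 448) (nat_lit 238)))) (XT.nd (nat_lit 156) (nat_lit 76) (nat_lit 0) (XT.nd (nat_lit 78) (nat_lit 76) (nat_lit 0) (XT.lf (nat_lit 0) (nat_lit 77423940035) (nat_lit 152) (nat_lit 90036622699) (nat_lit 76) (nat_lit 155147212307) (nat_lit 32) (nat_lit 5) (nat_lit 34) (nat_lit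 5) (nat_lit 33) (nat_lit 4) (nat_lit 515) (nat_lit 448) (nat_lit 237)) (XT.lf (nat_lit 0) (nat_lit 77916054982) (nat_lit 76) (nat_lit 81436215884) (nat_lit 152) (nat_lit 174884727185) (nat_lit 31) (nat_lit 5) (nat_lit 32) (nat_lit 5) (nat_lit 33) (nat_lit 4) (nat_lit 516) (nat_lit 448) (nat_lit 236))) (XT.nd (nat_lit 78) (nat_lit 76) (nat_lit 0) (XT.lf (nat_lit 0) (nat_lit 247065324509) (nat_lit 152) (nat_lit 89143552894) (nat_lit 0) (nat_lit 10154389514) (nat_lit 31) (nat_lit 5) (nat_lit 33) (nat_lit 4) (nat_lit 31) (nat_lit 4) (nat_lit 517) (nat_lit 448) (nat_lit 235)) (XT.lf (nat_lit 0) (nat_lit 87869525610) (nat_lit 76) (nat_lit 254001136525) (nat_lit 76) (nat_lit 17089855544) (nat_lit 30) (nat_lit 4) (nat_lit 31) (nat_lit 5) (nat_lit 31) (nat_lit 4) (nat_lit 518) (nat_lit 448) (nat_lit 234)))))) (XT.nd (nat_lit 546) (nat_lit 456) (nat_lit 0) (XT.nd (nat_lit 234) (nat_lit 228) (nat_lit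 0) (XT.nd (nat_lit 78) (nat_lit 76) (nat_lit 0) (XT.lf (nat_lit 0) (nat_lit 68547047542) (nat_lit 152) (nat_lit 96390163028) (nat_lit 76) (nat_lit 207119669746) (nat_lit 29) (nat_lit 5) (nat_lit 31) (nat_lit 5) (nat_lit 30) (nat_lit 4) (nat_lit 519) (nat_lit 448) (nat_lit 233)) (XT.nd (nat_lit 78) (nat_lit 0) (nat_lit 0) (XT.lf (nat_lit 0) (nat_lit 89633879933) (nat_lit 76) (nat_lit 69656756282) (nat_lit 152) (nat_lit 226433458225) (nat_lit 28) (nat_lit 5) (nat_lit 29) (nat_lit 5) (nat_lit 30) (nat_lit 4) (nat_lit 520) (nat_lit 448) (nat_lit 232)) (XT.lf (nat_lit 0) (nat_lit 256704753302) (nat_lit 152) (nat_lit 112189183982) (nat_lit 0) (nat_lit 31074064553) (nat_lit 28) (nat_lit 5) (nat_lit 30) (nat_lit 4) (nat_lit 28) (nat_lit 4) (nat_lit 521) (nat_lit 448) (nat_lit 231)))) (XT.nd (nat_lit 156) (nat_lit 76) (nat_lit 0) (XT.nd (nat_lit 78) (nat_lit 76) (nat_lit 0) (XT.lf (nat_lit 0) (nat_lit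 82401871979) (nat_lit 76) (nat_lit 279015891556) (nat_lit 76) (nat_lit 53384931718) (nat_lit 27) (nat_lit 4) (nat_lit 28) (nat_lit 5) (nat_lit 28) (nat_lit 4) (nat_lit 522) (nat_lit 448) (nat_lit 230)) (XT.lf (nat_lit 0) (nat_lit 41606326161) (nat_lit 152) (nat_lit 140338249386) (nat_lit 76) (nat_lit 248306007732) (nat_lit 26) (nat_lit 5) (nat_lit 28) (nat_lit 5) (nat_lit 27) (nat_lit 4) (nat_lit 523) (nat_lit 448) (nat_lit 229))) (XT.nd (nat_lit 78) (nat_lit 0) (nat_lit 0) (XT.lf (nat_lit 0) (nat_lit 62450636953) (nat_lit 76) (nat_lit 78077217122) (nat_lit 152) (nat_lit 305850513957) (nat_lit 25) (nat_lit 5) (nat_lit 26) (nat_lit 5) (nat_lit 27) (nat_lit 4) (nat_lit 524) (nat_lit 448) (nat_lit 228)) (XT.lf (nat_lit 0) (nat_lit 247294618408) (nat_lit 152) (nat_lit 183465678723) (nat_lit 0) (nat_lit 32407286903) (nat_lit 25) (nat_lit 5) (nat_lit 27) (nat_lit 4) (nat_lit 25) (nat_lit 4) (nat_lit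 525) (nat_lit 448) (nat_lit 227))))) (XT.nd (nat_lit 312) (nat_lit 228) (nat_lit 0) (XT.nd (nat_lit 156) (nat_lit 152) (nat_lit 0) (XT.nd (nat_lit 78) (nat_lit 0) (nat_lit 0) (XT.lf (nat_lit 0) (nat_lit 26590129600) (nat_lit 76) (nat_lit 334504465720) (nat_lit 76) (nat_lit 119616921809) (nat_lit 24) (nat_lit 4) (nat_lit 25) (nat_lit 5) (nat_lit 25) (nat_lit 4) (nat_lit 526) (nat_lit 448) (nat_lit 226)) (XT.lf (nat_lit 0) (nat_lit 253517807088) (nat_lit 76) (nat_lit 230173621562) (nat_lit 76) (nat_lit 15285875361) (nat_lit 24) (nat_lit 4) (nat_lit 25) (nat_lit 5) (nat_lit 25) (nat_lit 4) (nat_lit 527) (nat_lit 448) (nat_lit 225))) (XT.nd (nat_lit 78) (nat_lit 76) (nat_lit 0) (XT.lf (nat_lit 0) (nat_lit 91244544225) (nat_lit 152) (nat_lit 27836623197) (nat_lit 76) (nat_lit 399001639108) (nat_lit 23) (nat_lit 5) (nat_lit 25) (nat_lit 5) (nat_lit 24) (nat_lit 4) (nat_lit 528) (nat_lit 448) (nat_lit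 224)) (XT.lf (nat_lit 0) (nat_lit 205839190823) (nat_lit 152) (nat_lit 330945457160) (nat_lit 0) (nat_lit 1183836211) (nat_lit 22) (nat_lit 5) (nat_lit 24) (nat_lit 4) (nat_lit 22) (nat_lit 4) (nat_lit 529) (nat_lit 448) (nat_lit 223)))) (XT.nd (nat_lit 156) (nat_lit 152) (nat_lit 0) (XT.nd (nat_lit 78) (nat_lit 76) (nat_lit 0) (XT.lf (nat_lit 0) (nat_lit 328594670495) (nat_lit 152) (nat_lit 106193070761) (nat_lit 0) (nat_lit 123939149458) (nat_lit 22) (nat_lit 5) (nat_lit 24) (nat_lit 4) (nat_lit 22) (nat_lit 4) (nat_lit 530) (nat_lit 448) (nat_lit 222)) (XT.lf (nat_lit 0) (nat_lit 134088212056) (nat_lit 76) (nat_lit 325493010075) (nat_lit 76) (nat_lit 120837330537) (nat_lit 21) (nat_lit 4) (nat_lit 22) (nat_lit 5) (nat_lit 22) (nat_lit 4) (nat_lit 531) (nat_lit 448) (nat_lit 221))) (XT.nd (nat_lit 78) (nat_lit 152) (nat_lit 0) (XT.lf (nat_lit 0) (nat_lit 390069965734) (nat_lit 76) (nat_lit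 208845375251) (nat_lit 76) (nat_lit 4189544761) (nat_lit 21) (nat_lit 4) (nat_lit 22) (nat_lit 5) (nat_lit 22) (nat_lit 4) (nat_lit 532) (nat_lit 448) (nat_lit 220)) (XT.lf (nat_lit 0) (nat_lit 31072574719) (nat_lit 76) (nat_lit 83916961365) (nat_lit 152) (nat_lit 511819409754) (nat_lit 19) (nat_lit 5) (nat_lit 20) (nat_lit 5) (nat_lit 21) (nat_lit 4) (nat_lit 533) (nat_lit 448) (nat_lit 219))))))))
noncomputable def xc196 : XT := (XT.nd (nat_lit 57564) (nat_lit 0) (nat_lit 2584) (XT.nd (nat_lit 56472) (nat_lit 0) (nat_lit 6080) (XT.nd (nat_lit 55926) (nat_lit 0) (nat_lit 8284) (XT.nd (nat_lit 234) (nat_lit 152) (nat_lit 0) (XT.nd (nat_lit 78) (nat_lit 76) (nat_lit 0) (XT.lf (nat_lit 0) (nat_lit 244391412330) (nat_lit 152) (nat_lit 357602300421) (nat_lit 0) (nat_lit 49480830261) (nat_lit 19) (nat_lit 5) (nat_lit 21) (nat_lit 4) (nat_lit 19) (nat_lit 4) (nat_lit 534) (nat_lit 448) (nat_lit 218))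 (XT.nd (nat_lit 78) (nat_lit 76) (nat_lit 0) (XT.lf (nat_lit 0) (nat_lit 381638894248) (nat_lit 152) (nat_lit 108937562220) (nat_lit 0) (nat_lit 186728187990) (nat_lit 19) (nat_lit 5) (nat_lit 21) (nat_lit 4) (nat_lit 19) (nat_lit 4) (nat_lit 535) (nat_lit 448) (nat_lit 217)) (XT.lf (nat_lit 0) (nat_lit 157191180792) (nat_lit 76) (nat_lit 371011596682) (nat_lit 76) (nat_lit 176100772148) (nat_lit 18) (nat_lit 4) (nat_lit 19) (nat_lit 5) (nat_lit 19) (nat_lit 4) (nat_lit 536) (nat_lit 448) (nat_lit 216)))) (XT.nd (nat_lit 156) (nat_lit 76) (nat_lit 0) (XT.nd (nat_lit 78) (nat_lit 76) (nat_lit 0) (XT.lf (nat_lit 0) (nat_lit 440408100912) (nat_lit 76) (nat_lit 243531499518) (nat_lit 76) (nat_lit 48620562341) (nat_lit 18) (nat_lit 4) (nat_lit 19) (nat_lit 5) (nat_lit 19) (nat_lit 4) (nat_lit 537) (nat_lit 448) (nat_lit 215)) (XT.lf (nat_lit 0) (nat_lit 82505489115) (nat_lit 152) (nat_lit 25774791768)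 (nat_lit 76) (nat_lit 653882796862) (nat_lit 17) (nat_lit 5) (nat_lit 19) (nat_lit 5) (nat_lit 18) (nat_lit 4) (nat_lit 538) (nat_lit 448) (nat_lit 214))) (XT.nd (nat_lit 55458) (nat_lit 0) (nat_lit 8284) (XT.lf (nat_lit 0) (nat_lit 223243033673) (nat_lit 152) (nat_lit 532115423647) (nat_lit 0) (nat_lit 37613370219) (nat_lit 16) (nat_lit 5) (nat_lit 18) (nat_lit 4) (nat_lit 16) (nat_lit 4) (nat_lit 539) (nat_lit 448) (nat_lit 213)) (XT.lf (nat_lit 0) (nat_lit 7199407230) (nat_lit 836) (nat_lit 7502356729) (nat_lit 836) (nat_lit 7502356729) (nat_lit 125) (nat_lit 3) (nat_lit 136) (nat_lit 3) (nat_lit 136) (nat_lit 5) (nat_lit 449) (nat_lit 449) (nat_lit 302))))) (XT.nd (nat_lit 234) (nat_lit 0) (nat_lit 152) (XT.nd (nat_lit 78) (nat_lit 0) (nat_lit 76) (XT.lf (nat_lit 76) (nat_lit 6973523814) (nat_lit 0) (nat_lit 7926629865) (nat_lit 836) (nat_lit 30611212647) (nat_lit 126) (nat_lit 5) (nat_lit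 125) (nat_lit 3) (nat_lit 136) (nat_lit 5) (nat_lit 450) (nat_lit 449) (nat_lit 301)) (XT.nd (nat_lit 78) (nat_lit 0) (nat_lit 0) (XT.lf (nat_lit 0) (nat_lit 15911078683) (nat_lit 760) (nat_lit 16319077664) (nat_lit 836) (nat_lit 14415266044) (nat_lit 126) (nat_lit 5) (nat_lit 136) (nat_lit 5) (nat_lit 137) (nat_lit 5) (nat_lit 451) (nat_lit 449) (nat_lit 300)) (XT.lf (nat_lit 76) (nat_lit 7106957896) (nat_lit 0) (nat_lit 10104513063) (nat_lit 836) (nat_lit 30612765020) (nat_lit 127) (nat_lit 5) (nat_lit 126) (nat_lit 5) (nat_lit 137) (nat_lit 5) (nat_lit 452) (nat_lit 449) (nat_lit 299)))) (XT.nd (nat_lit 156) (nat_lit 0) (nat_lit 76) (XT.nd (nat_lit 78) (nat_lit 0) (nat_lit 0) (XT.lf (nat_lit 0) (nat_lit 19060845106) (nat_lit 760) (nat_lit 16988079498) (nat_lit 836) (nat_lit 12988868263) (nat_lit 127) (nat_lit 5) (nat_lit 137) (nat_lit 5) (nat_lit 138) (nat_lit 5) (nat_lit 453) (nat_lit 449)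 (nat_lit 298)) (XT.lf (nat_lit 76) (nat_lit 8017318167) (nat_lit 0) (nat_lit 13274385023) (nat_lit 836) (nat_lit 29005874347) (nat_lit 128) (nat_lit 5) (nat_lit 127) (nat_lit 5) (nat_lit 138) (nat_lit 5) (nat_lit 454) (nat_lit 449) (nat_lit 297))) (XT.nd (nat_lit 78) (nat_lit 0) (nat_lit 0) (XT.lf (nat_lit 0) (nat_lit 24090895074) (nat_lit 760) (nat_lit 16915305783) (nat_lit 836) (nat_lit 10591311706) (nat_lit 128) (nat_lit 5) (nat_lit 138) (nat_lit 5) (nat_lit 139) (nat_lit 5) (nat_lit 455) (nat_lit 449) (nat_lit 296)) (XT.lf (nat_lit 76) (nat_lit 9813132013) (nat_lit 0) (nat_lit 17586090636) (nat_lit 836) (nat_lit 25544763519) (nat_lit 129) (nat_lit 5) (nat_lit 128) (nat_lit 5) (nat_lit 139) (nat_lit 5) (nat_lit 456) (nat_lit 449) (nat_lit 295)))))) (XT.nd (nat_lit 546) (nat_lit 1368) (nat_lit 0) (XT.nd (nat_lit 234) (nat_lit 1140) (nat_lit 0) (XT.nd (nat_lit 78) (nat_lit 0) (nat_lit 0) (XT.lf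 (nat_lit 0) (nat_lit 31271917893) (nat_lit 760) (nat_lit 15993569463) (nat_lit 836) (nat_lit 7072349138) (nat_lit 129) (nat_lit 5) (nat_lit 139) (nat_lit 5) (nat_lit 140) (nat_lit 5) (nat_lit 457) (nat_lit 449) (nat_lit 294)) (XT.nd (nat_lit 78) (nat_lit 0) (nat_lit 76) (XT.lf (nat_lit 76) (nat_lit 12614798968) (nat_lit 0) (nat_lit 23207191306) (nat_lit 836) (nat_lit 19955202517) (nat_lit 130) (nat_lit 5) (nat_lit 129) (nat_lit 5) (nat_lit 140) (nat_lit 5) (nat_lit 458) (nat_lit 449) (nat_lit 293)) (XT.lf (nat_lit 0) (nat_lit 40905484324) (nat_lit 760) (nat_lit 14103930117) (nat_lit 76) (nat_lit 2263807108) (nat_lit 130) (nat_lit 5) (nat_lit 140) (nat_lit 5) (nat_lit 131) (nat_lit 5) (nat_lit 459) (nat_lit 449) (nat_lit 292)))) (XT.nd (nat_lit 156) (nat_lit 456) (nat_lit 0) (XT.nd (nat_lit 78) (nat_lit 0) (nat_lit 0) (XT.lf (nat_lit 0) (nat_lit 16555663958) (nat_lit 760) (nat_lit 30325034143)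 (nat_lit 836) (nat_lit 11931476915) (nat_lit 120) (nat_lit 5) (nat_lit 130) (nat_lit 5) (nat_lit 131) (nat_lit 5) (nat_lit 460) (nat_lit 449) (nat_lit 291)) (XT.lf (nat_lit 0) (nat_lit 49236682513) (nat_lit 760) (nat_lit 4155512732) (nat_lit 836) (nat_lit 7024005273) (nat_lit 120) (nat_lit 5) (nat_lit 130) (nat_lit 5) (nat_lit 131) (nat_lit 5) (nat_lit 461) (nat_lit 449) (nat_lit 290))) (XT.nd (nat_lit 78) (nat_lit 76) (nat_lit 0) (XT.lf (nat_lit 0) (nat_lit 21783172973) (nat_lit 380) (nat_lit 39149051150) (nat_lit 456) (nat_lit 1133055802) (nat_lit 115) (nat_lit 5) (nat_lit 120) (nat_lit 5) (nat_lit 121) (nat_lit 5) (nat_lit 462) (nat_lit 449) (nat_lit 289)) (XT.lf (nat_lit 0) (nat_lit 5150041237) (nat_lit 456) (nat_lit 7156572315) (nat_lit 76) (nat_lit 51473290552) (nat_lit 114) (nat_lit 5) (nat_lit 120) (nat_lit 5) (nat_lit 115) (nat_lit 5) (nat_lit 463) (nat_lit 449) (nat_lit 288))))) (XT.nd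 (nat_lit 234) (nat_lit 608) (nat_lit 0) (XT.nd (nat_lit 78) (nat_lit 380) (nat_lit 0) (XT.lf (nat_lit 0) (nat_lit 12408779418) (nat_lit 456) (nat_lit 37294387657) (nat_lit 76) (nat_lit 15841185872) (nat_lit 109) (nat_lit 5) (nat_lit 115) (nat_lit 5) (nat_lit 110) (nat_lit 5) (nat_lit 464) (nat_lit 449) (nat_lit 287)) (XT.nd (nat_lit 78) (nat_lit 380) (nat_lit 0) (XT.lf (nat_lit 0) (nat_lit 20354239067) (nat_lit 456) (nat_lit 1920630480) (nat_lit 76) (nat_lit 45105965848) (nat_lit 109) (nat_lit 5) (nat_lit 115) (nat_lit 5) (nat_lit 110) (nat_lit 5) (nat_lit 465) (nat_lit 449) (nat_lit 286)) (XT.lf (nat_lit 0) (nat_lit 29375134109) (nat_lit 456) (nat_lit 33006770976) (nat_lit 76) (nat_lit 6893329131) (nat_lit 104) (nat_lit 5) (nat_lit 110) (nat_lit 5) (nat_lit 105) (nat_lit 5) (nat_lit 466) (nat_lit 449) (nat_lit 285)))) (XT.nd (nat_lit 156) (nat_lit 304) (nat_lit 0) (XT.nd (nat_lit 78) (nat_lit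 0) (nat_lit 0) (XT.lf (nat_lit 0) (nat_lit 4962917716) (nat_lit 304) (nat_lit 34358800718) (nat_lit 380) (nat_lit 31918902668) (nat_lit 100) (nat_lit 5) (nat_lit 104) (nat_lit 5) (nat_lit 105) (nat_lit 5) (nat_lit 467) (nat_lit 449) (nat_lit 284)) (XT.lf (nat_lit 0) (nat_lit 45975834113) (nat_lit 304) (nat_lit 4347753357) (nat_lit 380) (nat_lit 22952792425) (nat_lit 100) (nat_lit 5) (nat_lit 104) (nat_lit 5) (nat_lit 105) (nat_lit 5) (nat_lit 468) (nat_lit 449) (nat_lit 283))) (XT.nd (nat_lit 78) (nat_lit 0) (nat_lit 0) (XT.lf (nat_lit 0) (nat_lit 13636655665) (nat_lit 304) (nat_lit 48874921196) (nat_lit 380) (nat_lit 12870548741) (nat_lit 96) (nat_lit 5) (nat_lit 100) (nat_lit 5) (nat_lit 101) (nat_lit 5) (nat_lit 469) (nat_lit 449) (nat_lit 282)) (XT.lf (nat_lit 0) (nat_lit 57493749615) (nat_lit 304) (nat_lit 18346734712) (nat_lit 380) (nat_lit 1726098643) (nat_lit 96) (nat_lit 5) (nat_lit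 100) (nat_lit 5) (nat_lit 101) (nat_lit 5) (nat_lit 470) (nat_lit 449) (nat_lit 281))))))) (XT.nd (nat_lit 1092) (nat_lit 1444) (nat_lit 0) (XT.nd (nat_lit 546) (nat_lit 912) (nat_lit 0) (XT.nd (nat_lit 234) (nat_lit 532) (nat_lit 0) (XT.nd (nat_lit 78) (nat_lit 304) (nat_lit 0) (XT.lf (nat_lit 0) (nat_lit 10257618719) (nat_lit 304) (nat_lit 55751881051) (nat_lit 76) (nat_lit 13812910109) (nat_lit 92) (nat_lit 5) (nat_lit 96) (nat_lit 5) (nat_lit 93) (nat_lit 5) (nat_lit 471) (nat_lit 449) (nat_lit 280)) (XT.nd (nat_lit 78) (nat_lit 304) (nat_lit 0) (XT.lf (nat_lit 0) (nat_lit 23427895143) (nat_lit 304) (nat_lit 11391873442) (nat_lit 76) (nat_lit 47337575904) (nat_lit 92) (nat_lit 5) (nat_lit 96) (nat_lit 5) (nat_lit 93) (nat_lit 5) (nat_lit 472) (nat_lit 449) (nat_lit 279)) (XT.lf (nat_lit 0) (nat_lit 36348416240) (nat_lit 304) (nat_lit 1474911981) (nat_lit 380) (nat_lit 46757365720) (nat_lit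 88) (nat_lit 5) (nat_lit 92) (nat_lit 5) (nat_lit 93) (nat_lit 5) (nat_lit 473) (nat_lit 449) (nat_lit 278)))) (XT.nd (nat_lit 156) (nat_lit 304) (nat_lit 0) (XT.nd (nat_lit 78) (nat_lit 228) (nat_lit 0) (XT.lf (nat_lit 0) (nat_lit 53657394488) (nat_lit 380) (nat_lit 772231311) (nat_lit 76) (nat_lit 32659642227) (nat_lit 88) (nat_lit 5) (nat_lit 93) (nat_lit 5) (nat_lit 89) (nat_lit 5) (nat_lit 474) (nat_lit 449) (nat_lit 277)) (XT.lf (nat_lit 0) (nat_lit 50656914122) (nat_lit 228) (nat_lit 20440527537) (nat_lit 304) (nat_lit 18585115505) (nat_lit 85) (nat_lit 5) (nat_lit 88) (nat_lit 5) (nat_lit 89) (nat_lit 5) (nat_lit 475) (nat_lit 449) (nat_lit 276))) (XT.nd (nat_lit 78) (nat_lit 76) (nat_lit 0) (XT.lf (nat_lit 0) (nat_lit 12438212065) (nat_lit 228) (nat_lit 77416051176) (nat_lit 304) (nat_lit 2529009131) (nat_lit 82) (nat_lit 5) (nat_lit 85) (nat_lit 5) (nat_lit 86) (nat_lit 5) (nat_lit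 476) (nat_lit 449) (nat_lit 275)) (XT.lf (nat_lit 0) (nat_lit 14877327373) (nat_lit 304) (nat_lit 27926578590) (nat_lit 76) (nat_lit 52353627519) (nat_lit 81) (nat_lit 5) (nat_lit 85) (nat_lit 5) (nat_lit 82) (nat_lit 5) (nat_lit 477) (nat_lit 449) (nat_lit 274))))) (XT.nd (nat_lit 234) (nat_lit 456) (nat_lit 0) (XT.nd (nat_lit 78) (nat_lit 228) (nat_lit 0) (XT.lf (nat_lit 0) (nat_lit 27531512174) (nat_lit 228) (nat_lit 5966585776) (nat_lit 304) (nat_lit 64548881499) (nat_lit 78) (nat_lit 5) (nat_lit 81) (nat_lit 5) (nat_lit 82) (nat_lit 5) (nat_lit 478) (nat_lit 449) (nat_lit 273)) (XT.nd (nat_lit 78) (nat_lit 228) (nat_lit 0) (XT.lf (nat_lit 0) (nat_lit 54040624681) (nat_lit 304) (nat_lit 14844734388) (nat_lit 76) (nat_lit 32146002942) (nat_lit 78) (nat_lit 5) (nat_lit 82) (nat_lit 5) (nat_lit 79) (nat_lit 5) (nat_lit 479) (nat_lit 449) (nat_lit 272)) (XT.lf (nat_lit 0) (nat_lit 44949382497)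 (nat_lit 228) (nat_lit 31459807156) (nat_lit 304) (nat_lit 27715828624) (nat_lit 75) (nat_lit 5) (nat_lit 78) (nat_lit 5) (nat_lit 79) (nat_lit 5) (nat_lit 480) (nat_lit 449) (nat_lit 271)))) (XT.nd (nat_lit 156) (nat_lit 228) (nat_lit 0) (XT.nd (nat_lit 78) (nat_lit 76) (nat_lit 0) (XT.lf (nat_lit 0) (nat_lit 785440123) (nat_lit 152) (nat_lit 99500213278) (nat_lit 228) (nat_lit 7068230591) (nat_lit 73) (nat_lit 5) (nat_lit 75) (nat_lit 5) (nat_lit 76) (nat_lit 5) (nat_lit 481) (nat_lit 449) (nat_lit 270)) (XT.lf (nat_lit 0) (nat_lit 15677742950) (nat_lit 228) (nat_lit 45656383379) (nat_lit 76) (nat_lit 49321977154) (nat_lit 72) (nat_lit 5) (nat_lit 75) (nat_lit 5) (nat_lit 73) (nat_lit 5) (nat_lit 482) (nat_lit 449) (nat_lit 269))) (XT.nd (nat_lit 78) (nat_lit 0) (nat_lit 0) (XT.lf (nat_lit 0) (nat_lit 18785696430) (nat_lit 228) (nat_lit 20830440277) (nat_lit 304) (nat_lit 74486870728) (nat_lit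 69) (nat_lit 5) (nat_lit 72) (nat_lit 5) (nat_lit 73) (nat_lit 5) (nat_lit 483) (nat_lit 449) (nat_lit 268)) (XT.lf (nat_lit 0) (nat_lit 65875485304) (nat_lit 304) (nat_lit 30001059118) (nat_lit 76) (nat_lit 21789510538) (nat_lit 69) (nat_lit 5) (nat_lit 73) (nat_lit 5) (nat_lit 70) (nat_lit 5) (nat_lit 484) (nat_lit 449) (nat_lit 267)))))) (XT.nd (nat_lit 546) (nat_lit 684) (nat_lit 0) (XT.nd (nat_lit 234) (nat_lit 380) (nat_lit 0) (XT.nd (nat_lit 78) (nat_lit 228) (nat_lit 0) (XT.lf (nat_lit 0) (nat_lit 39502928852) (nat_lit 152) (nat_lit 54902509655) (nat_lit 228) (nat_lit 26953934623) (nat_lit 67) (nat_lit 5) (nat_lit 69) (nat_lit 5) (nat_lit 70) (nat_lit 5) (nat_lit 485) (nat_lit 449) (nat_lit 266)) (XT.nd (nat_lit 78) (nat_lit 228) (nat_lit 0) (XT.lf (nat_lit 0) (nat_lit 113522766013) (nat_lit 152) (nat_lit 11346623006) (nat_lit 228) (nat_lit 342593328) (nat_lit 67) (nat_lit 5) (nat_lit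 69) (nat_lit 5) (nat_lit 70) (nat_lit 5) (nat_lit 486) (nat_lit 449) (nat_lit 265)) (XT.lf (nat_lit 0) (nat_lit 28268428909) (nat_lit 228) (nat_lit 66156428869) (nat_lit 76) (nat_lit 34733196007) (nat_lit 64) (nat_lit 5) (nat_lit 67) (nat_lit 5) (nat_lit 65) (nat_lit 5) (nat_lit 487) (nat_lit 449) (nat_lit 264)))) (XT.nd (nat_lit 156) (nat_lit 228) (nat_lit 0) (XT.nd (nat_lit 78) (nat_lit 0) (nat_lit 0) (XT.lf (nat_lit 0) (nat_lit 8621467436) (nat_lit 152) (nat_lit 50198288483) (nat_lit 228) (nat_lit 74455328814) (nat_lit 62) (nat_lit 5) (nat_lit 64) (nat_lit 5) (nat_lit 65) (nat_lit 5) (nat_lit 488) (nat_lit 449) (nat_lit 263)) (XT.lf (nat_lit 0) (nat_lit 89434172599) (nat_lit 152) (nat_lit 2584324181) (nat_lit 228) (nat_lit 45523478172) (nat_lit 62) (nat_lit 5) (nat_lit 64) (nat_lit 5) (nat_lit 65) (nat_lit 5) (nat_lit 489) (nat_lit 449) (nat_lit 262))) (XT.nd (nat_lit 78) (nat_lit 76) (nat_lit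 0) (XT.lf (nat_lit 0) (nat_lit 32566562085) (nat_lit 152) (nat_lit 95558753287) (nat_lit 228) (nat_lit 13834487371) (nat_lit 60) (nat_lit 5) (nat_lit 62) (nat_lit 5) (nat_lit 63) (nat_lit 5) (nat_lit 490) (nat_lit 449) (nat_lit 261)) (XT.lf (nat_lit 0) (nat_lit 19686716427) (nat_lit 228) (nat_lit 27973034848) (nat_lit 76) (nat_lit 98880099339) (nat_lit 59) (nat_lit 5) (nat_lit 62) (nat_lit 5) (nat_lit 60) (nat_lit 5) (nat_lit 491) (nat_lit 449) (nat_lit 260))))) (XT.nd (nat_lit 234) (nat_lit 380) (nat_lit 0) (XT.nd (nat_lit 78) (nat_lit 152) (nat_lit 0) (XT.lf (nat_lit 0) (nat_lit 55402585410) (nat_lit 228) (nat_lit 92166529422) (nat_lit 76) (nat_lit 3719269661) (nat_lit 57) (nat_lit 5) (nat_lit 60) (nat_lit 5) (nat_lit 58) (nat_lit 5) (nat_lit 492) (nat_lit 449) (nat_lit 259)) (XT.nd (nat_lit 78) (nat_lit 152) (nat_lit 0) (XT.lf (nat_lit 0) (nat_lit 94166568991) (nat_lit 228) (nat_lit 5497915723)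 (nat_lit 76) (nat_lit 56546744373) (nat_lit 57) (nat_lit 5) (nat_lit 60) (nat_lit 5) (nat_lit 58) (nat_lit 5) (nat_lit 493) (nat_lit 449) (nat_lit 258)) (XT.lf (nat_lit 0) (nat_lit 88330460735) (nat_lit 152) (nat_lit 47916911046) (nat_lit 228) (nat_lit 25063913201) (nat_lit 55) (nat_lit 5) (nat_lit 57) (nat_lit 5) (nat_lit 58) (nat_lit 5) (nat_lit 494) (nat_lit 449) (nat_lit 257)))) (XT.nd (nat_lit 156) (nat_lit 152) (nat_lit 0) (XT.nd (nat_lit 78) (nat_lit 0) (nat_lit 0) (XT.lf (nat_lit 0) (nat_lit 13855250852) (nat_lit 228) (nat_lit 145916384129) (nat_lit 76) (nat_lit 6857463884) (nat_lit 52) (nat_lit 5) (nat_lit 55) (nat_lit 5) (nat_lit 53) (nat_lit 5) (nat_lit 495) (nat_lit 449) (nat_lit 256)) (XT.lf (nat_lit 0) (nat_lit 55919352820) (nat_lit 228) (nat_lit 51743815383) (nat_lit 76) (nat_lit 64427026534) (nat_lit 52) (nat_lit 5) (nat_lit 55) (nat_lit 5) (nat_lit 53) (nat_lit 5) (nat_lit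 496) (nat_lit 449) (nat_lit 255))) (XT.nd (nat_lit 78) (nat_lit 0) (nat_lit 0) (XT.lf (nat_lit 0) (nat_lit 48695167822) (nat_lit 152) (nat_lit 52151323068) (nat_lit 228) (nat_lit 76939863025) (nat_lit 50) (nat_lit 5) (nat_lit 52) (nat_lit 5) (nat_lit 53) (nat_lit 5) (nat_lit 497) (nat_lit 449) (nat_lit 254)) (XT.lf (nat_lit 0) (nat_lit 149006027042) (nat_lit 228) (nat_lit 27881912278) (nat_lit 76) (nat_lit 6830079730) (nat_lit 50) (nat_lit 5) (nat_lit 53) (nat_lit 5) (nat_lit 51) (nat_lit 4) (nat_lit 498) (nat_lit 449) (nat_lit 253))))))))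
noncomputable def xc197 : XT := (XT.nd (nat_lit 2184) (nat_lit 608) (nat_lit 0) (XT.nd (nat_lit 1092) (nat_lit 760) (nat_lit 0) (XT.nd (nat_lit 546) (nat_lit 532) (nat_lit 0) (XT.nd (nat_lit 234) (nat_lit 304) (nat_lit 0) (XT.nd (nat_lit 78) (nat_lit 152) (nat_lit 0) (XT.lf (nat_lit 0) (nat_lit 11458694574) (nat_lit 152) (nat_lit 109930115177) (nat_lit 76) (nat_lit 68442964566) (nat_lit 48) (nat_lit 5) (nat_lit 50) (nat_lit 5) (nat_lit 49) (nat_lit 5) (nat_lit 499) (nat_lit 449) (nat_lit 252)) (XT.nd (nat_lit 78) (nat_lit 152) (nat_lit 0) (XT.lf (nat_lit 0) (nat_lit 59250888850) (nat_lit 152) (nat_lit 2762724264) (nat_lit 76) (nat_lit 134185175635) (nat_lit 48) (nat_lit 5) (nat_lit 50) (nat_lit 5) (nat_lit 49) (nat_lit 5) (nat_lit 500) (nat_lit 449) (nat_lit 251)) (XT.lf (nat_lit 0) (nat_lit 111236837140) (nat_lit 228) (nat_lit 89438253727) (nat_lit 76) (nat_lit 2118855868) (nat_lit 46) (nat_lit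 5) (nat_lit 49) (nat_lit 5) (nat_lit 47) (nat_lit 4) (nat_lit 501) (nat_lit 449) (nat_lit 250)))) (XT.nd (nat_lit 156) (nat_lit 152) (nat_lit 0) (XT.nd (nat_lit 78) (nat_lit 76) (nat_lit 0) (XT.lf (nat_lit 0) (nat_lit 25456092640) (nat_lit 76) (nat_lit 141827214924) (nat_lit 152) (nat_lit 42362493865) (nat_lit 45) (nat_lit 5) (nat_lit 46) (nat_lit 5) (nat_lit 47) (nat_lit 4) (nat_lit 502) (nat_lit 449) (nat_lit 249)) (XT.lf (nat_lit 0) (nat_lit 10533579765) (nat_lit 152) (nat_lit 67734869659) (nat_lit 76) (nat_lit 138487589662) (nat_lit 44) (nat_lit 5) (nat_lit 46) (nat_lit 5) (nat_lit 45) (nat_lit 5) (nat_lit 503) (nat_lit 449) (nat_lit 248))) (XT.nd (nat_lit 78) (nat_lit 0) (nat_lit 0) (XT.lf (nat_lit 0) (nat_lit 55628019130) (nat_lit 152) (nat_lit 9890921550) (nat_lit 228) (nat_lit 158624717569) (nat_lit 42) (nat_lit 5) (nat_lit 44) (nat_lit 5) (nat_lit 45) (nat_lit 5) (nat_lit 504) (nat_lit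 449) (nat_lit 247)) (XT.lf (nat_lit 0) (nat_lit 125385650311) (nat_lit 228) (nat_lit 45318643357) (nat_lit 76) (nat_lit 61089760707) (nat_lit 42) (nat_lit 5) (nat_lit 45) (nat_lit 5) (nat_lit 43) (nat_lit 4) (nat_lit 505) (nat_lit 449) (nat_lit 246))))) (XT.nd (nat_lit 234) (nat_lit 228) (nat_lit 0) (XT.nd (nat_lit 78) (nat_lit 228) (nat_lit 0) (XT.lf (nat_lit 0) (nat_lit 86648716137) (nat_lit 76) (nat_lit 103111606746) (nat_lit 152) (nat_lit 49990916086) (nat_lit 41) (nat_lit 5) (nat_lit 42) (nat_lit 5) (nat_lit 43) (nat_lit 4) (nat_lit 506) (nat_lit 449) (nat_lit 245)) (XT.nd (nat_lit 78) (nat_lit 152) (nat_lit 0) (XT.lf (nat_lit 0) (nat_lit 9731198299) (nat_lit 152) (nat_lit 21437705006) (nat_lit 76) (nat_lit 216891174192) (nat_lit 40) (nat_lit 5) (nat_lit 42) (nat_lit 5) (nat_lit 41) (nat_lit 5) (nat_lit 507) (nat_lit 449) (nat_lit 244)) (XT.lf (nat_lit 0) (nat_lit 73366729469) (nat_lit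 228) (nat_lit 137561331455) (nat_lit 76) (nat_lit 45684954213) (nat_lit 38) (nat_lit 5) (nat_lit 41) (nat_lit 5) (nat_lit 39) (nat_lit 4) (nat_lit 508) (nat_lit 449) (nat_lit 243)))) (XT.nd (nat_lit 156) (nat_lit 152) (nat_lit 0) (XT.nd (nat_lit 78) (nat_lit 0) (nat_lit 0) (XT.lf (nat_lit 0) (nat_lit 1257067798) (nat_lit 76) (nat_lit 139826242650) (nat_lit 152) (nat_lit 124465325579) (nat_lit 37) (nat_lit 5) (nat_lit 38) (nat_lit 5) (nat_lit 39) (nat_lit 4) (nat_lit 509) (nat_lit 449) (nat_lit 242)) (XT.lf (nat_lit 0) (nat_lit 151791603123) (nat_lit 76) (nat_lit 62723462886) (nat_lit 152) (nat_lit 60299504704) (nat_lit 37) (nat_lit 5) (nat_lit 38) (nat_lit 5) (nat_lit 39) (nat_lit 4) (nat_lit 510) (nat_lit 449) (nat_lit 241))) (XT.nd (nat_lit 78) (nat_lit 0) (nat_lit 0) (XT.lf (nat_lit 0) (nat_lit 7547443510) (nat_lit 152) (nat_lit 258779949312) (nat_lit 76) (nat_lit 18175923218) (nat_lit 35)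 (nat_lit 5) (nat_lit 37) (nat_lit 5) (nat_lit 36) (nat_lit 4) (nat_lit 511) (nat_lit 449) (nat_lit 240)) (XT.lf (nat_lit 0) (nat_lit 79905832105) (nat_lit 152) (nat_lit 110445739528) (nat_lit 76) (nat_lit 104118223613) (nat_lit 35) (nat_lit 5) (nat_lit 37) (nat_lit 5) (nat_lit 36) (nat_lit 4) (nat_lit 512) (nat_lit 449) (nat_lit 239)))))) (XT.nd (nat_lit 546) (nat_lit 380) (nat_lit 0) (XT.nd (nat_lit 234) (nat_lit 152) (nat_lit 0) (XT.nd (nat_lit 78) (nat_lit 152) (nat_lit 0) (XT.lf (nat_lit 0) (nat_lit 46802598038) (nat_lit 76) (nat_lit 109809966370) (nat_lit 152) (nat_lit 148285512816) (nat_lit 34) (nat_lit 5) (nat_lit 35) (nat_lit 5) (nat_lit 36) (nat_lit 4) (nat_lit 513) (nat_lit 449) (nat_lit 238)) (XT.nd (nat_lit 78) (nat_lit 152) (nat_lit 0) (XT.lf (nat_lit 0) (nat_lit 215747230039) (nat_lit 76) (nat_lit 23277565381) (nat_lit 152) (nat_lit 76729469796) (nat_lit 34) (nat_lit 5) (nat_lit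 35) (nat_lit 5) (nat_lit 36) (nat_lit 4) (nat_lit 514) (nat_lit 449) (nat_lit 237)) (XT.lf (nat_lit 0) (nat_lit 592022842) (nat_lit 152) (nat_lit 259980659005) (nat_lit 76) (nat_lit 66474997516) (nat_lit 32) (nat_lit 5) (nat_lit 34) (nat_lit 5) (nat_lit 33) (nat_lit 4) (nat_lit 515) (nat_lit 449) (nat_lit 236)))) (XT.nd (nat_lit 156) (nat_lit 76) (nat_lit 0) (XT.nd (nat_lit 78) (nat_lit 76) (nat_lit 0) (XT.lf (nat_lit 0) (nat_lit 81303729416) (nat_lit 152) (nat_lit 94522041976) (nat_lit 76) (nat_lit 162911962201) (nat_lit 32) (nat_lit 5) (nat_lit 34) (nat_lit 5) (nat_lit 33) (nat_lit 4) (nat_lit 516) (nat_lit 449) (nat_lit 235)) (XT.lf (nat_lit 0) (nat_lit 81828004882) (nat_lit 76) (nat_lit 85500314848) (nat_lit 152) (nat_lit 183620105904) (nat_lit 31) (nat_lit 5) (nat_lit 32) (nat_lit 5) (nat_lit 33) (nat_lit 4) (nat_lit 517) (nat_lit 449) (nat_lit 234))) (XT.nd (nat_lit 78) (nat_lit 76) (nat_lit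 0) (XT.lf (nat_lit 0) (nat_lit 259426739043) (nat_lit 152) (nat_lit 93585064760) (nat_lit 0) (nat_lit 10669218517) (nat_lit 31) (nat_lit 5) (nat_lit 33) (nat_lit 4) (nat_lit 31) (nat_lit 4) (nat_lit 518) (nat_lit 449) (nat_lit 233)) (XT.lf (nat_lit 0) (nat_lit 92278414994) (nat_lit 76) (nat_lit 266693781182) (nat_lit 76) (nat_lit 17935946837) (nat_lit 30) (nat_lit 4) (nat_lit 31) (nat_lit 5) (nat_lit 31) (nat_lit 4) (nat_lit 519) (nat_lit 449) (nat_lit 232))))) (XT.nd (nat_lit 234) (nat_lit 228) (nat_lit 0) (XT.nd (nat_lit 78) (nat_lit 76) (nat_lit 0) (XT.lf (nat_lit 0) (nat_lit 71982145238) (nat_lit 152) (nat_lit 101194735481) (nat_lit 76) (nat_lit 217482455891) (nat_lit 29) (nat_lit 5) (nat_lit 31) (nat_lit 5) (nat_lit 30) (nat_lit 4) (nat_lit 520) (nat_lit 449) (nat_lit 231)) (XT.nd (nat_lit 78) (nat_lit 0) (nat_lit 0) (XT.lf (nat_lit 0) (nat_lit 94130268729) (nat_lit 76) (nat_lit 73132505218)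 (nat_lit 152) (nat_lit 237747144485) (nat_lit 28) (nat_lit 5) (nat_lit 29) (nat_lit 5) (nat_lit 30) (nat_lit 4) (nat_lit 521) (nat_lit 449) (nat_lit 230)) (XT.lf (nat_lit 0) (nat_lit 269547340108) (nat_lit 152) (nat_lit 117784390941) (nat_lit 0) (nat_lit 32634303009) (nat_lit 28) (nat_lit 5) (nat_lit 30) (nat_lit 4) (nat_lit 28) (nat_lit 4) (nat_lit 522) (nat_lit 449) (nat_lit 229)))) (XT.nd (nat_lit 156) (nat_lit 76) (nat_lit 0) (XT.nd (nat_lit 78) (nat_lit 76) (nat_lit 0) (XT.lf (nat_lit 0) (nat_lit 86535987943) (nat_lit 76) (nat_lit 292959881879) (nat_lit 76) (nat_lit 56046598895) (nat_lit 27) (nat_lit 4) (nat_lit 28) (nat_lit 5) (nat_lit 28) (nat_lit 4) (nat_lit 523) (nat_lit 449) (nat_lit 228)) (XT.lf (nat_lit 0) (nat_lit 43693629917) (nat_lit 152) (nat_lit 147341575829) (nat_lit 76) (nat_lit 260727556967) (nat_lit 26) (nat_lit 5) (nat_lit 28) (nat_lit 5) (nat_lit 27) (nat_lit 4) (nat_lit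 524) (nat_lit 449) (nat_lit 227))) (XT.nd (nat_lit 78) (nat_lit 0) (nat_lit 0) (XT.lf (nat_lit 0) (nat_lit 65586535698) (nat_lit 76) (nat_lit 81974574489) (nat_lit 152) (nat_lit 321135832737) (nat_lit 25) (nat_lit 5) (nat_lit 26) (nat_lit 5) (nat_lit 27) (nat_lit 4) (nat_lit 525) (nat_lit 449) (nat_lit 226)) (XT.lf (nat_lit 0) (nat_lit 259665982610) (nat_lit 152) (nat_lit 192626001831) (nat_lit 0) (nat_lit 34033646808) (nat_lit 25) (nat_lit 5) (nat_lit 27) (nat_lit 4) (nat_lit 25) (nat_lit 4) (nat_lit 526) (nat_lit 449) (nat_lit 225))))))) (XT.nd (nat_lit 56550) (nat_lit 0) (nat_lit 6992) (XT.nd (nat_lit 546) (nat_lit 304) (nat_lit 0) (XT.nd (nat_lit 234) (nat_lit 152) (nat_lit 0) (XT.nd (nat_lit 78) (nat_lit 76) (nat_lit 0) (XT.lf (nat_lit 0) (nat_lit 27932387863) (nat_lit 76) (nat_lit 351223453724) (nat_lit 76) (nat_lit 125590925265) (nat_lit 24) (nat_lit 4) (nat_lit 25) (nat_lit 5) (nat_lit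 25) (nat_lit 4) (nat_lit 527) (nat_lit 449) (nat_lit 224)) (XT.nd (nat_lit 78) (nat_lit 76) (nat_lit 0) (XT.lf (nat_lit 0) (nat_lit 266205841998) (nat_lit 76) (nat_lit 241676364277) (nat_lit 76) (nat_lit 16043652333) (nat_lit 24) (nat_lit 4) (nat_lit 25) (nat_lit 5) (nat_lit 25) (nat_lit 4) (nat_lit 528) (nat_lit 449) (nat_lit 223)) (XT.lf (nat_lit 0) (nat_lit 95812779262) (nat_lit 152) (nat_lit 29216689201) (nat_lit 76) (nat_lit 418957177735) (nat_lit 23) (nat_lit 5) (nat_lit 25) (nat_lit 5) (nat_lit 24) (nat_lit 4) (nat_lit 529) (nat_lit 449) (nat_lit 222)))) (XT.nd (nat_lit 156) (nat_lit 76) (nat_lit 0) (XT.nd (nat_lit 78) (nat_lit 0) (nat_lit 0) (XT.lf (nat_lit 0) (nat_lit 216137141398) (nat_lit 152) (nat_lit 347480947817) (nat_lit 0) (nat_lit 1248519384) (nat_lit 22) (nat_lit 5) (nat_lit 24) (nat_lit 4) (nat_lit 22) (nat_lit 4) (nat_lit 530) (nat_lit 449) (nat_lit 221)) (XT.lf (nat_lit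 0) (nat_lit 345030109766) (nat_lit 152) (nat_lit 111491503155) (nat_lit 0) (nat_lit 130141336799) (nat_lit 22) (nat_lit 5) (nat_lit 24) (nat_lit 4) (nat_lit 22) (nat_lit 4) (nat_lit 531) (nat_lit 449) (nat_lit 220))) (XT.nd (nat_lit 78) (nat_lit 0) (nat_lit 0) (XT.lf (nat_lit 0) (nat_lit 140803662816) (nat_lit 76) (nat_lit 341762226833) (nat_lit 76) (nat_lit 126873310102) (nat_lit 21) (nat_lit 4) (nat_lit 22) (nat_lit 5) (nat_lit 22) (nat_lit 4) (nat_lit 532) (nat_lit 449) (nat_lit 219)) (XT.lf (nat_lit 0) (nat_lit 409583978457) (nat_lit 76) (nat_lit 219282469018) (nat_lit 76) (nat_lit 4393415368) (nat_lit 21) (nat_lit 4) (nat_lit 22) (nat_lit 5) (nat_lit 22) (nat_lit 4) (nat_lit 533) (nat_lit 449) (nat_lit 218))))) (XT.nd (nat_lit 234) (nat_lit 152) (nat_lit 0) (XT.nd (nat_lit 78) (nat_lit 0) (nat_lit 0) (XT.lf (nat_lit 0) (nat_lit 32636725062) (nat_lit 76) (nat_lit 88107620845) (nat_lit 152)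 (nat_lit 537404780374) (nat_lit 19) (nat_lit 5) (nat_lit 20) (nat_lit 5) (nat_lit 21) (nat_lit 4) (nat_lit 534) (nat_lit 449) (nat_lit 217)) (XT.nd (nat_lit 78) (nat_lit 0) (nat_lit 0) (XT.lf (nat_lit 0) (nat_lit 256616139163) (nat_lit 152) (nat_lit 375472217873) (nat_lit 0) (nat_lit 51959655127) (nat_lit 19) (nat_lit 5) (nat_lit 21) (nat_lit 4) (nat_lit 19) (nat_lit 4) (nat_lit 535) (nat_lit 449) (nat_lit 216)) (XT.lf (nat_lit 0) (nat_lit 400725749643) (nat_lit 152) (nat_lit 114374728360) (nat_lit 0) (nat_lit 196069152964) (nat_lit 19) (nat_lit 5) (nat_lit 21) (nat_lit 4) (nat_lit 19) (nat_lit 4) (nat_lit 536) (nat_lit 449) (nat_lit 215)))) (XT.nd (nat_lit 156) (nat_lit 76) (nat_lit 0) (XT.nd (nat_lit 78) (nat_lit 0) (nat_lit 0) (XT.lf (nat_lit 0) (nat_lit 165060295157) (nat_lit 76) (nat_lit 389557447215) (nat_lit 76) (nat_lit 184900743258) (nat_lit 18) (nat_lit 4) (nat_lit 19) (nat_lit 5)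 (nat_lit 19) (nat_lit 4) (nat_lit 537) (nat_lit 449) (nat_lit 214)) (XT.lf (nat_lit 0) (nat_lit 462437606268) (nat_lit 76) (nat_lit 255703570398) (nat_lit 76) (nat_lit 51046764270) (nat_lit 18) (nat_lit 4) (nat_lit 19) (nat_lit 5) (nat_lit 19) (nat_lit 4) (nat_lit 538) (nat_lit 449) (nat_lit 213))) (XT.nd (nat_lit 55536) (nat_lit 0) (nat_lit 8208) (XT.lf (nat_lit 0) (nat_lit 86635212829) (nat_lit 152) (nat_lit 27054717133) (nat_lit 76) (nat_lit 686581079059) (nat_lit 17) (nat_lit 5) (nat_lit 19) (nat_lit 5) (nat_lit 18) (nat_lit 4) (nat_lit 539) (nat_lit 449) (nat_lit 212)) (XT.lf (nat_lit 0) (nat_lit 7591362899) (nat_lit 836) (nat_lit 7860676056) (nat_lit 836) (nat_lit 7860676056) (nat_lit 125) (nat_lit 3) (nat_lit 136) (nat_lit 3) (nat_lit 136) (nat_lit 5) (nat_lit 450) (nat_lit 450) (nat_lit 300)))))) (XT.nd (nat_lit 546) (nat_lit 1216) (nat_lit 0) (XT.nd (nat_lit 234) (nat_lit 0) (nat_lit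 152) (XT.nd (nat_lit 78) (nat_lit 0) (nat_lit 76) (XT.lf (nat_lit 76) (nat_lit 7355255135) (nat_lit 0) (nat_lit 8351346707) (nat_lit 836) (nat_lit 32077237072) (nat_lit 126) (nat_lit 5) (nat_lit 125) (nat_lit 3) (nat_lit 136) (nat_lit 5) (nat_lit 451) (nat_lit 450) (nat_lit 299)) (XT.nd (nat_lit 78) (nat_lit 0) (nat_lit 0) (XT.lf (nat_lit 0) (nat_lit 16764725288) (nat_lit 760) (nat_lit 17100180087) (nat_lit 836) (nat_lit 15109860927) (nat_lit 126) (nat_lit 5) (nat_lit 136) (nat_lit 5) (nat_lit 137) (nat_lit 5) (nat_lit 452) (nat_lit 450) (nat_lit 298)) (XT.lf (nat_lit 76) (nat_lit 7496595131) (nat_lit 0) (nat_lit 10631311082) (nat_lit 836) (nat_lit 32084726980) (nat_lit 127) (nat_lit 5) (nat_lit 126) (nat_lit 5) (nat_lit 137) (nat_lit 5) (nat_lit 453) (nat_lit 450) (nat_lit 297)))) (XT.nd (nat_lit 156) (nat_lit 0) (nat_lit 76) (XT.nd (nat_lit 78) (nat_lit 0) (nat_lit 0) (XT.lf (nat_lit 0) (nat_lit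 20066768219) (nat_lit 760) (nat_lit 17801825634) (nat_lit 836) (nat_lit 13618424138) (nat_lit 127) (nat_lit 5) (nat_lit 137) (nat_lit 5) (nat_lit 138) (nat_lit 5) (nat_lit 454) (nat_lit 450) (nat_lit 296)) (XT.lf (nat_lit 76) (nat_lit 8453266788) (nat_lit 0) (nat_lit 13953932023) (nat_lit 836) (nat_lit 30402692579) (nat_lit 128) (nat_lit 5) (nat_lit 127) (nat_lit 5) (nat_lit 138) (nat_lit 5) (nat_lit 455) (nat_lit 450) (nat_lit 295))) (XT.nd (nat_lit 78) (nat_lit 0) (nat_lit 0) (XT.lf (nat_lit 0) (nat_lit 25343690633) (nat_lit 760) (nat_lit 17724980737) (nat_lit 836) (nat_lit 11106285708) (nat_lit 128) (nat_lit 5) (nat_lit 138) (nat_lit 5) (nat_lit 139) (nat_lit 5) (nat_lit 456) (nat_lit 450) (nat_lit 294)) (XT.lf (nat_lit 76) (nat_lit 10339296847) (nat_lit 0) (nat_lit 18476394465) (nat_lit 836) (nat_lit 26773151099) (nat_lit 129) (nat_lit 5) (nat_lit 128) (nat_lit 5) (nat_lit 139) (nat_lit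 5) (nat_lit 457) (nat_lit 450) (nat_lit 293))))) (XT.nd (nat_lit 312) (nat_lit 836) (nat_lit 0) (XT.nd (nat_lit 156) (nat_lit 684) (nat_lit 0) (XT.nd (nat_lit 78) (nat_lit 0) (nat_lit 0) (XT.lf (nat_lit 0) (nat_lit 32879643122) (nat_lit 760) (nat_lit 16757035528) (nat_lit 836) (nat_lit 7415826355) (nat_lit 129) (nat_lit 5) (nat_lit 139) (nat_lit 5) (nat_lit 140) (nat_lit 5) (nat_lit 458) (nat_lit 450) (nat_lit 292)) (XT.lf (nat_lit 76) (nat_lit 13281167253) (nat_lit 0) (nat_lit 24374506731) (nat_lit 836) (nat_lit 20908233194) (nat_lit 130) (nat_lit 5) (nat_lit 129) (nat_lit 5) (nat_lit 140) (nat_lit 5) (nat_lit 459) (nat_lit 450) (nat_lit 291))) (XT.nd (nat_lit 78) (nat_lit 760) (nat_lit 0) (XT.lf (nat_lit 0) (nat_lit 42991211488) (nat_lit 760) (nat_lit 14773048346) (nat_lit 76) (nat_lit 2370584865) (nat_lit 130) (nat_lit 5) (nat_lit 140) (nat_lit 5) (nat_lit 131) (nat_lit 5) (nat_lit 460)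 (nat_lit 450) (nat_lit 290)) (XT.lf (nat_lit 0) (nat_lit 17418943525) (nat_lit 760) (nat_lit 31844870295) (nat_lit 836) (nat_lit 12487001353) (nat_lit 120) (nat_lit 5) (nat_lit 130) (nat_lit 5) (nat_lit 131) (nat_lit 5) (nat_lit 461) (nat_lit 450) (nat_lit 289)))) (XT.nd (nat_lit 156) (nat_lit 456) (nat_lit 0) (XT.nd (nat_lit 78) (nat_lit 380) (nat_lit 0) (XT.lf (nat_lit 0) (nat_lit 51732322704) (nat_lit 760) (nat_lit 4366702127) (nat_lit 836) (nat_lit 7336110862) (nat_lit 120) (nat_lit 5) (nat_lit 130) (nat_lit 5) (nat_lit 131) (nat_lit 5) (nat_lit 462) (nat_lit 450) (nat_lit 288)) (XT.lf (nat_lit 0) (nat_lit 22907489478) (nat_lit 380) (nat_lit 41107291454) (nat_lit 456) (nat_lit 1151952509) (nat_lit 115) (nat_lit 5) (nat_lit 120) (nat_lit 5) (nat_lit 121) (nat_lit 5) (nat_lit 463) (nat_lit 450) (nat_lit 287))) (XT.nd (nat_lit 78) (nat_lit 380) (nat_lit 0) (XT.lf (nat_lit 0) (nat_lit 5442350587)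 (nat_lit 456) (nat_lit 7479754400) (nat_lit 76) (nat_lit 54045041986) (nat_lit 114) (nat_lit 5) (nat_lit 120) (nat_lit 5) (nat_lit 115) (nat_lit 5) (nat_lit 464) (nat_lit 450) (nat_lit 286)) (XT.lf (nat_lit 0) (nat_lit 13062906726) (nat_lit 456) (nat_lit 39123330156) (nat_lit 76) (nat_lit 16633637894) (nat_lit 109) (nat_lit 5) (nat_lit 115) (nat_lit 5) (nat_lit 110) (nat_lit 5) (nat_lit 465) (nat_lit 450) (nat_lit 285))))))))
noncomputable def xc198 : XT := (XT.nd (nat_lit 2184) (nat_lit 2204) (nat_lit 0) (XT.nd (nat_lit 1092) (nat_lit 1596) (nat_lit 0) (XT.nd (nat_lit 546) (nat_lit 1064) (nat_lit 0) (XT.nd (nat_lit 234) (nat_lit 608) (nat_lit 0) (XT.nd (nat_lit 78) (nat_lit 684) (nat_lit 0) (XT.lf (nat_lit 0) (nat_lit 21404035151) (nat_lit 456) (nat_lit 1982588781) (nat_lit 76) (nat_lit 47361638167) (nat_lit 109) (nat_lit 5) (nat_lit 115) (nat_lit 5) (nat_lit 110) (nat_lit 5) (nat_lit 466)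 (nat_lit 450) (nat_lit 284)) (XT.nd (nat_lit 78) (nat_lit 304) (nat_lit 0) (XT.lf (nat_lit 0) (nat_lit 30875008684) (nat_lit 456) (nat_lit 34622059699) (nat_lit 76) (nat_lit 7240361307) (nat_lit 104) (nat_lit 5) (nat_lit 110) (nat_lit 5) (nat_lit 105) (nat_lit 5) (nat_lit 467) (nat_lit 450) (nat_lit 283)) (XT.lf (nat_lit 0) (nat_lit 5245548107) (nat_lit 304) (nat_lit 36072430715) (nat_lit 380) (nat_lit 33483154762) (nat_lit 100) (nat_lit 5) (nat_lit 104) (nat_lit 5) (nat_lit 105) (nat_lit 5) (nat_lit 468) (nat_lit 450) (nat_lit 282)))) (XT.nd (nat_lit 156) (nat_lit 304) (nat_lit 0) (XT.nd (nat_lit 78) (nat_lit 304) (nat_lit 0) (XT.lf (nat_lit 0) (nat_lit 48307468205) (nat_lit 304) (nat_lit 4561036226) (nat_lit 380) (nat_lit 24070248199) (nat_lit 100) (nat_lit 5) (nat_lit 104) (nat_lit 5) (nat_lit 105) (nat_lit 5) (nat_lit 469) (nat_lit 450) (nat_lit 281)) (XT.lf (nat_lit 0) (nat_lit 14352160998)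 (nat_lit 304) (nat_lit 51312950595) (nat_lit 380) (nat_lit 13484713561) (nat_lit 96) (nat_lit 5) (nat_lit 100) (nat_lit 5) (nat_lit 101) (nat_lit 5) (nat_lit 470) (nat_lit 450) (nat_lit 280))) (XT.nd (nat_lit 78) (nat_lit 304) (nat_lit 0) (XT.lf (nat_lit 0) (nat_lit 60400506191) (nat_lit 304) (nat_lit 19258627008) (nat_lit 380) (nat_lit 1784439178) (nat_lit 96) (nat_lit 5) (nat_lit 100) (nat_lit 5) (nat_lit 101) (nat_lit 5) (nat_lit 471) (nat_lit 450) (nat_lit 279)) (XT.lf (nat_lit 0) (nat_lit 10796882560) (nat_lit 304) (nat_lit 58505808696) (nat_lit 76) (nat_lit 14509512254) (nat_lit 92) (nat_lit 5) (nat_lit 96) (nat_lit 5) (nat_lit 93) (nat_lit 5) (nat_lit 472) (nat_lit 450) (nat_lit 278))))) (XT.nd (nat_lit 234) (nat_lit 760) (nat_lit 0) (XT.nd (nat_lit 78) (nat_lit 304) (nat_lit 0) (XT.lf (nat_lit 0) (nat_lit 24624416477) (nat_lit 304) (nat_lit 11929403869) (nat_lit 76) (nat_lit 49710127689)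 (nat_lit 92) (nat_lit 5) (nat_lit 96) (nat_lit 5) (nat_lit 93) (nat_lit 5) (nat_lit 473) (nat_lit 450) (nat_lit 277)) (XT.nd (nat_lit 78) (nat_lit 0) (nat_lit 0) (XT.lf (nat_lit 0) (nat_lit 38197383148) (nat_lit 304) (nat_lit 1541534079) (nat_lit 380) (nat_lit 49069583280) (nat_lit 88) (nat_lit 5) (nat_lit 92) (nat_lit 5) (nat_lit 93) (nat_lit 5) (nat_lit 474) (nat_lit 450) (nat_lit 276)) (XT.lf (nat_lit 0) (nat_lit 56363629749) (nat_lit 380) (nat_lit 779735250) (nat_lit 76) (nat_lit 34299191484) (nat_lit 88) (nat_lit 5) (nat_lit 93) (nat_lit 5) (nat_lit 89) (nat_lit 5) (nat_lit 475) (nat_lit 450) (nat_lit 275)))) (XT.nd (nat_lit 156) (nat_lit 304) (nat_lit 0) (XT.nd (nat_lit 78) (nat_lit 228) (nat_lit 0) (XT.lf (nat_lit 0) (nat_lit 53220365719) (nat_lit 228) (nat_lit 21454678759) (nat_lit 304) (nat_lit 19490497658) (nat_lit 85) (nat_lit 5) (nat_lit 88) (nat_lit 5) (nat_lit 89) (nat_lit 5)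 (nat_lit 476) (nat_lit 450) (nat_lit 274)) (XT.lf (nat_lit 0) (nat_lit 13091238398) (nat_lit 228) (nat_lit 81277989227) (nat_lit 304) (nat_lit 2632089758) (nat_lit 82) (nat_lit 5) (nat_lit 85) (nat_lit 5) (nat_lit 86) (nat_lit 5) (nat_lit 477) (nat_lit 450) (nat_lit 273))) (XT.nd (nat_lit 78) (nat_lit 228) (nat_lit 0) (XT.lf (nat_lit 0) (nat_lit 15642738360) (nat_lit 304) (nat_lit 29292555644) (nat_lit 76) (nat_lit 54979033436) (nat_lit 81) (nat_lit 5) (nat_lit 85) (nat_lit 5) (nat_lit 82) (nat_lit 5) (nat_lit 478) (nat_lit 450) (nat_lit 272)) (XT.lf (nat_lit 0) (nat_lit 28937950112) (nat_lit 228) (nat_lit 6256037655) (nat_lit 304) (nat_lit 67754286185) (nat_lit 78) (nat_lit 5) (nat_lit 81) (nat_lit 5) (nat_lit 82) (nat_lit 5) (nat_lit 479) (nat_lit 450) (nat_lit 271)))))) (XT.nd (nat_lit 546) (nat_lit 760) (nat_lit 0) (XT.nd (nat_lit 234) (nat_lit 456) (nat_lit 0) (XT.nd (nat_lit 78) (nat_lit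 380) (nat_lit 0) (XT.lf (nat_lit 0) (nat_lit 56762773554) (nat_lit 304) (nat_lit 15557658539) (nat_lit 76) (nat_lit 33761487163) (nat_lit 78) (nat_lit 5) (nat_lit 82) (nat_lit 5) (nat_lit 79) (nat_lit 5) (nat_lit 480) (nat_lit 450) (nat_lit 270)) (XT.nd (nat_lit 78) (nat_lit 152) (nat_lit 0) (XT.lf (nat_lit 0) (nat_lit 47225691407) (nat_lit 228) (nat_lit 33023567654) (nat_lit 304) (nat_lit 29081024896) (nat_lit 75) (nat_lit 5) (nat_lit 78) (nat_lit 5) (nat_lit 79) (nat_lit 5) (nat_lit 481) (nat_lit 450) (nat_lit 269)) (XT.lf (nat_lit 0) (nat_lit 853914320) (nat_lit 152) (nat_lit 104465291040) (nat_lit 228) (nat_lit 7401404854) (nat_lit 73) (nat_lit 5) (nat_lit 75) (nat_lit 5) (nat_lit 76) (nat_lit 5) (nat_lit 482) (nat_lit 450) (nat_lit 268)))) (XT.nd (nat_lit 156) (nat_lit 152) (nat_lit 0) (XT.nd (nat_lit 78) (nat_lit 228) (nat_lit 0) (XT.lf (nat_lit 0) (nat_lit 16480286809) (nat_lit 228)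 (nat_lit 47910769970) (nat_lit 76) (nat_lit 51796914950) (nat_lit 72) (nat_lit 5) (nat_lit 75) (nat_lit 5) (nat_lit 73) (nat_lit 5) (nat_lit 483) (nat_lit 450) (nat_lit 267)) (XT.lf (nat_lit 0) (nat_lit 19752955240) (nat_lit 228) (nat_lit 21862193352) (nat_lit 304) (nat_lit 78192095065) (nat_lit 69) (nat_lit 5) (nat_lit 72) (nat_lit 5) (nat_lit 73) (nat_lit 5) (nat_lit 484) (nat_lit 450) (nat_lit 266))) (XT.nd (nat_lit 78) (nat_lit 152) (nat_lit 0) (XT.lf (nat_lit 0) (nat_lit 69186742968) (nat_lit 304) (nat_lit 31473744819) (nat_lit 76) (nat_lit 22887992039) (nat_lit 69) (nat_lit 5) (nat_lit 73) (nat_lit 5) (nat_lit 70) (nat_lit 5) (nat_lit 485) (nat_lit 450) (nat_lit 265)) (XT.lf (nat_lit 0) (nat_lit 41505001142) (nat_lit 152) (nat_lit 57637780535) (nat_lit 228) (nat_lit 28283703012) (nat_lit 67) (nat_lit 5) (nat_lit 69) (nat_lit 5) (nat_lit 70) (nat_lit 5) (nat_lit 486) (nat_lit 450) (nat_lit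 264))))) (XT.nd (nat_lit 234) (nat_lit 380) (nat_lit 0) (XT.nd (nat_lit 78) (nat_lit 380) (nat_lit 0) (XT.lf (nat_lit 0) (nat_lit 119224547978) (nat_lit 152) (nat_lit 11904568820) (nat_lit 228) (nat_lit 342648383) (nat_lit 67) (nat_lit 5) (nat_lit 69) (nat_lit 5) (nat_lit 70) (nat_lit 5) (nat_lit 487) (nat_lit 450) (nat_lit 263)) (XT.nd (nat_lit 78) (nat_lit 152) (nat_lit 0) (XT.lf (nat_lit 0) (nat_lit 29698144086) (nat_lit 228) (nat_lit 69437819507) (nat_lit 76) (nat_lit 36479175139) (nat_lit 64) (nat_lit 5) (nat_lit 67) (nat_lit 5) (nat_lit 65) (nat_lit 5) (nat_lit 488) (nat_lit 450) (nat_lit 262)) (XT.lf (nat_lit 0) (nat_lit 9078545309) (nat_lit 152) (nat_lit 52698122248) (nat_lit 228) (nat_lit 78161372311) (nat_lit 62) (nat_lit 5) (nat_lit 64) (nat_lit 5) (nat_lit 65) (nat_lit 5) (nat_lit 489) (nat_lit 450) (nat_lit 261)))) (XT.nd (nat_lit 156) (nat_lit 228) (nat_lit 0) (XT.nd (nat_lit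 78) (nat_lit 152) (nat_lit 0) (XT.lf (nat_lit 0) (nat_lit 93930647421) (nat_lit 152) (nat_lit 2703939763) (nat_lit 228) (nat_lit 47783725467) (nat_lit 62) (nat_lit 5) (nat_lit 64) (nat_lit 5) (nat_lit 65) (nat_lit 5) (nat_lit 490) (nat_lit 450) (nat_lit 260)) (XT.lf (nat_lit 0) (nat_lit 34219858225) (nat_lit 152) (nat_lit 100326698887) (nat_lit 228) (nat_lit 14510484331) (nat_lit 60) (nat_lit 5) (nat_lit 62) (nat_lit 5) (nat_lit 63) (nat_lit 5) (nat_lit 491) (nat_lit 450) (nat_lit 259))) (XT.nd (nat_lit 78) (nat_lit 152) (nat_lit 0) (XT.lf (nat_lit 0) (nat_lit 20685551327) (nat_lit 228) (nat_lit 29347425711) (nat_lit 76) (nat_lit 103833138760) (nat_lit 59) (nat_lit 5) (nat_lit 62) (nat_lit 5) (nat_lit 60) (nat_lit 5) (nat_lit 492) (nat_lit 450) (nat_lit 258)) (XT.lf (nat_lit 0) (nat_lit 58187047259) (nat_lit 228) (nat_lit 96750426234) (nat_lit 76) (nat_lit 3914611318) (nat_lit 57) (nat_lit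 5) (nat_lit 60) (nat_lit 5) (nat_lit 58) (nat_lit 5) (nat_lit 493) (nat_lit 450) (nat_lit 257))))))) (XT.nd (nat_lit 1092) (nat_lit 988) (nat_lit 0) (XT.nd (nat_lit 546) (nat_lit 532) (nat_lit 0) (XT.nd (nat_lit 234) (nat_lit 304) (nat_lit 0) (XT.nd (nat_lit 78) (nat_lit 380) (nat_lit 0) (XT.lf (nat_lit 0) (nat_lit 98888547515) (nat_lit 228) (nat_lit 5749545167) (nat_lit 76) (nat_lit 59383013185) (nat_lit 57) (nat_lit 5) (nat_lit 60) (nat_lit 5) (nat_lit 58) (nat_lit 5) (nat_lit 494) (nat_lit 450) (nat_lit 256)) (XT.nd (nat_lit 78) (nat_lit 228) (nat_lit 0) (XT.lf (nat_lit 0) (nat_lit 92769874850) (nat_lit 152) (nat_lit 50303222984) (nat_lit 228) (nat_lit 26303081456) (nat_lit 55) (nat_lit 5) (nat_lit 57) (nat_lit 5) (nat_lit 58) (nat_lit 5) (nat_lit 495) (nat_lit 450) (nat_lit 255)) (XT.lf (nat_lit 0) (nat_lit 14561454854) (nat_lit 228) (nat_lit 153188722469) (nat_lit 76) (nat_lit 7209702537)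 (nat_lit 52) (nat_lit 5) (nat_lit 55) (nat_lit 5) (nat_lit 53) (nat_lit 5) (nat_lit 496) (nat_lit 450) (nat_lit 254)))) (XT.nd (nat_lit 156) (nat_lit 152) (nat_lit 0) (XT.nd (nat_lit 78) (nat_lit 152) (nat_lit 0) (XT.lf (nat_lit 0) (nat_lit 58728121852) (nat_lit 228) (nat_lit 54308643422) (nat_lit 76) (nat_lit 67657297346) (nat_lit 52) (nat_lit 5) (nat_lit 55) (nat_lit 5) (nat_lit 53) (nat_lit 5) (nat_lit 497) (nat_lit 450) (nat_lit 253)) (XT.lf (nat_lit 0) (nat_lit 51151928254) (nat_lit 152) (nat_lit 54749422495) (nat_lit 228) (nat_lit 80773692396) (nat_lit 50) (nat_lit 5) (nat_lit 52) (nat_lit 5) (nat_lit 53) (nat_lit 5) (nat_lit 498) (nat_lit 450) (nat_lit 252))) (XT.nd (nat_lit 78) (nat_lit 152) (nat_lit 0) (XT.lf (nat_lit 0) (nat_lit 156468407552) (nat_lit 228) (nat_lit 29254595792) (nat_lit 76) (nat_lit 7180311081) (nat_lit 50) (nat_lit 5) (nat_lit 53) (nat_lit 5) (nat_lit 51) (nat_lit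 4) (nat_lit 499) (nat_lit 450) (nat_lit 251)) (XT.lf (nat_lit 0) (nat_lit 12043657649) (nat_lit 152) (nat_lit 115405155011) (nat_lit 76) (nat_lit 71873947486) (nat_lit 48) (nat_lit 5) (nat_lit 50) (nat_lit 5) (nat_lit 49) (nat_lit 5) (nat_lit 500) (nat_lit 450) (nat_lit 250))))) (XT.nd (nat_lit 234) (nat_lit 304) (nat_lit 0) (XT.nd (nat_lit 78) (nat_lit 228) (nat_lit 0) (XT.lf (nat_lit 0) (nat_lit 62224888860) (nat_lit 152) (nat_lit 2880416739) (nat_lit 76) (nat_lit 140902848409) (nat_lit 48) (nat_lit 5) (nat_lit 50) (nat_lit 5) (nat_lit 49) (nat_lit 5) (nat_lit 501) (nat_lit 450) (nat_lit 249)) (XT.nd (nat_lit 78) (nat_lit 76) (nat_lit 0) (XT.lf (nat_lit 0) (nat_lit 116810041893) (nat_lit 228) (nat_lit 93889628672) (nat_lit 76) (nat_lit 2233404028) (nat_lit 46) (nat_lit 5) (nat_lit 49) (nat_lit 5) (nat_lit 47) (nat_lit 4) (nat_lit 502) (nat_lit 450) (nat_lit 248)) (XT.lf (nat_lit 0) (nat_lit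 26749103759) (nat_lit 76) (nat_lit 148909506469) (nat_lit 152) (nat_lit 44468923139) (nat_lit 45) (nat_lit 5) (nat_lit 46) (nat_lit 5) (nat_lit 47) (nat_lit 4) (nat_lit 503) (nat_lit 450) (nat_lit 247)))) (XT.nd (nat_lit 156) (nat_lit 76) (nat_lit 0) (XT.nd (nat_lit 78) (nat_lit 152) (nat_lit 0) (XT.lf (nat_lit 0) (nat_lit 11071040746) (nat_lit 152) (nat_lit 71102011216) (nat_lit 76) (nat_lit 145420248827) (nat_lit 44) (nat_lit 5) (nat_lit 46) (nat_lit 5) (nat_lit 45) (nat_lit 5) (nat_lit 504) (nat_lit 450) (nat_lit 246)) (XT.lf (nat_lit 0) (nat_lit 58428705852) (nat_lit 152) (nat_lit 10376751532) (nat_lit 228) (nat_lit 166544854198) (nat_lit 42) (nat_lit 5) (nat_lit 44) (nat_lit 5) (nat_lit 45) (nat_lit 5) (nat_lit 505) (nat_lit 450) (nat_lit 245))) (XT.nd (nat_lit 78) (nat_lit 76) (nat_lit 0) (XT.lf (nat_lit 0) (nat_lit 131665128781) (nat_lit 228) (nat_lit 47565833370) (nat_lit 76) (nat_lit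 64152284101) (nat_lit 42) (nat_lit 5) (nat_lit 45) (nat_lit 5) (nat_lit 43) (nat_lit 4) (nat_lit 506) (nat_lit 450) (nat_lit 244)) (XT.lf (nat_lit 0) (nat_lit 90999591806) (nat_lit 76) (nat_lit 108258745552) (nat_lit 152) (nat_lit 52479962649) (nat_lit 41) (nat_lit 5) (nat_lit 42) (nat_lit 5) (nat_lit 43) (nat_lit 4) (nat_lit 507) (nat_lit 450) (nat_lit 243)))))) (XT.nd (nat_lit 546) (nat_lit 456) (nat_lit 0) (XT.nd (nat_lit 234) (nat_lit 228) (nat_lit 0) (XT.nd (nat_lit 78) (nat_lit 228) (nat_lit 0) (XT.lf (nat_lit 0) (nat_lit 10227437452) (nat_lit 152) (nat_lit 22491707542) (nat_lit 76) (nat_lit 227743451514) (nat_lit 40) (nat_lit 5) (nat_lit 42) (nat_lit 5) (nat_lit 41) (nat_lit 5) (nat_lit 508) (nat_lit 450) (nat_lit 242)) (XT.nd (nat_lit 78) (nat_lit 76) (nat_lit 0) (XT.lf (nat_lit 0) (nat_lit 77044685445) (nat_lit 228) (nat_lit 144421454717) (nat_lit 76) (nat_lit 47977043898) (nat_lit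 38) (nat_lit 5) (nat_lit 41) (nat_lit 5) (nat_lit 39) (nat_lit 4) (nat_lit 509) (nat_lit 450) (nat_lit 241)) (XT.lf (nat_lit 0) (nat_lit 1337575090) (nat_lit 76) (nat_lit 146809337938) (nat_lit 152) (nat_lit 130678682130) (nat_lit 37) (nat_lit 5) (nat_lit 38) (nat_lit 5) (nat_lit 39) (nat_lit 4) (nat_lit 510) (nat_lit 450) (nat_lit 240)))) (XT.nd (nat_lit 156) (nat_lit 76) (nat_lit 0) (XT.nd (nat_lit 78) (nat_lit 152) (nat_lit 0) (XT.lf (nat_lit 0) (nat_lit 159397996519) (nat_lit 76) (nat_lit 65851810464) (nat_lit 152) (nat_lit 63305042102) (nat_lit 37) (nat_lit 5) (nat_lit 38) (nat_lit 5) (nat_lit 39) (nat_lit 4) (nat_lit 511) (nat_lit 450) (nat_lit 239)) (XT.lf (nat_lit 0) (nat_lit 7933902307) (nat_lit 152) (nat_lit 271701780874) (nat_lit 76) (nat_lit 19092343623) (nat_lit 35) (nat_lit 5) (nat_lit 37) (nat_lit 5) (nat_lit 36) (nat_lit 4) (nat_lit 512) (nat_lit 450) (nat_lit 238))) (XT.nd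 (nat_lit 78) (nat_lit 76) (nat_lit 0) (XT.lf (nat_lit 0) (nat_lit 83909777635) (nat_lit 152) (nat_lit 115951678025) (nat_lit 76) (nat_lit 109331395979) (nat_lit 35) (nat_lit 5) (nat_lit 37) (nat_lit 5) (nat_lit 36) (nat_lit 4) (nat_lit 513) (nat_lit 450) (nat_lit 237)) (XT.lf (nat_lit 0) (nat_lit 49158812735) (nat_lit 76) (nat_lit 115292872856) (nat_lit 152) (nat_lit 155690870205) (nat_lit 34) (nat_lit 5) (nat_lit 35) (nat_lit 5) (nat_lit 36) (nat_lit 4) (nat_lit 514) (nat_lit 450) (nat_lit 236))))) (XT.nd (nat_lit 312) (nat_lit 228) (nat_lit 0) (XT.nd (nat_lit 156) (nat_lit 76) (nat_lit 0) (XT.nd (nat_lit 78) (nat_lit 152) (nat_lit 0) (XT.lf (nat_lit 0) (nat_lit 226549910393) (nat_lit 76) (nat_lit 24434213334) (nat_lit 152) (nat_lit 80557449713) (nat_lit 34) (nat_lit 5) (nat_lit 35) (nat_lit 5) (nat_lit 36) (nat_lit 4) (nat_lit 515) (nat_lit 450) (nat_lit 235)) (XT.lf (nat_lit 0) (nat_lit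 629807202) (nat_lit 152) (nat_lit 272964061614) (nat_lit 76) (nat_lit 69805784800) (nat_lit 32) (nat_lit 5) (nat_lit 34) (nat_lit 5) (nat_lit 33) (nat_lit 4) (nat_lit 516) (nat_lit 450) (nat_lit 234))) (XT.nd (nat_lit 78) (nat_lit 76) (nat_lit 0) (XT.lf (nat_lit 0) (nat_lit 85376709429) (nat_lit 152) (nat_lit 99233258036) (nat_lit 76) (nat_lit 171064262605) (nat_lit 32) (nat_lit 5) (nat_lit 34) (nat_lit 5) (nat_lit 33) (nat_lit 4) (nat_lit 517) (nat_lit 450) (nat_lit 233)) (XT.lf (nat_lit 0) (nat_lit 85934051068) (nat_lit 76) (nat_lit 89768335733) (nat_lit 152) (nat_lit 192793077059) (nat_lit 31) (nat_lit 5) (nat_lit 32) (nat_lit 5) (nat_lit 33) (nat_lit 4) (nat_lit 518) (nat_lit 450) (nat_lit 232)))) (XT.nd (nat_lit 156) (nat_lit 152) (nat_lit 0) (XT.nd (nat_lit 78) (nat_lit 76) (nat_lit 0) (XT.lf (nat_lit 0) (nat_lit 272405466751) (nat_lit 152) (nat_lit 98250108676) (nat_lit 0) (nat_lit 11209127994)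 (nat_lit 31) (nat_lit 5) (nat_lit 33) (nat_lit 4) (nat_lit 31) (nat_lit 4) (nat_lit 519) (nat_lit 450) (nat_lit 231)) (XT.lf (nat_lit 0) (nat_lit 96906315884) (nat_lit 76) (nat_lit 280021747186) (nat_lit 76) (nat_lit 18825123785) (nat_lit 30) (nat_lit 4) (nat_lit 31) (nat_lit 5) (nat_lit 31) (nat_lit 4) (nat_lit 520) (nat_lit 450) (nat_lit 230))) (XT.nd (nat_lit 78) (nat_lit 76) (nat_lit 0) (XT.lf (nat_lit 0) (nat_lit 75588277732) (nat_lit 152) (nat_lit 106240925137) (nat_lit 76) (nat_lit 228362748897) (nat_lit 29) (nat_lit 5) (nat_lit 31) (nat_lit 5) (nat_lit 30) (nat_lit 4) (nat_lit 521) (nat_lit 450) (nat_lit 229)) (XT.lf (nat_lit 0) (nat_lit 98850110782) (nat_lit 76) (nat_lit 76782700657) (nat_lit 152) (nat_lit 249627257582) (nat_lit 28) (nat_lit 5) (nat_lit 29) (nat_lit 5) (nat_lit 30) (nat_lit 4) (nat_lit 522) (nat_lit 450) (nat_lit 228))))))))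
noncomputable def xc199 : XT := (XT.nd (nat_lit 57720) (nat_lit 0) (nat_lit 3344) (XT.nd (nat_lit 1092) (nat_lit 76) (nat_lit 0) (XT.nd (nat_lit 546) (nat_lit 380) (nat_lit 0) (XT.nd (nat_lit 234) (nat_lit 152) (nat_lit 0) (XT.nd (nat_lit 78) (nat_lit 152) (nat_lit 0) (XT.lf (nat_lit 0) (nat_lit 283031373001) (nat_lit 152) (nat_lit 123660683287) (nat_lit 0) (nat_lit 34271945805) (nat_lit 28) (nat_lit 5) (nat_lit 30) (nat_lit 4) (nat_lit 28) (nat_lit 4) (nat_lit 523) (nat_lit 450) (nat_lit 227)) (XT.nd (nat_lit 78) (nat_lit 76) (nat_lit 0) (XT.lf (nat_lit 0) (nat_lit 90875506039) (nat_lit 76) (nat_lit 307601704313) (nat_lit 76) (nat_lit 58842054092) (nat_lit 27) (nat_lit 4) (nat_lit 28) (nat_lit 5) (nat_lit 28) (nat_lit 4) (nat_lit 524) (nat_lit 450) (nat_lit 226)) (XT.lf (nat_lit 0) (nat_lit 45884649235) (nat_lit 152) (nat_lit 154696331693) (nat_lit 76) (nat_lit 273769602706) (nat_lit 26) (nat_lit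 5) (nat_lit 28) (nat_lit 5) (nat_lit 27) (nat_lit 4) (nat_lit 525) (nat_lit 450) (nat_lit 225)))) (XT.nd (nat_lit 156) (nat_lit 76) (nat_lit 0) (XT.nd (nat_lit 78) (nat_lit 0) (nat_lit 0) (XT.lf (nat_lit 0) (nat_lit 68877986653) (nat_lit 76) (nat_lit 86067404356) (nat_lit 152) (nat_lit 337186087487) (nat_lit 25) (nat_lit 5) (nat_lit 26) (nat_lit 5) (nat_lit 27) (nat_lit 4) (nat_lit 526) (nat_lit 450) (nat_lit 224)) (XT.lf (nat_lit 0) (nat_lit 272655298322) (nat_lit 152) (nat_lit 202245546068) (nat_lit 0) (nat_lit 35740767298) (nat_lit 25) (nat_lit 5) (nat_lit 27) (nat_lit 4) (nat_lit 25) (nat_lit 4) (nat_lit 527) (nat_lit 450) (nat_lit 223))) (XT.nd (nat_lit 78) (nat_lit 0) (nat_lit 0) (XT.lf (nat_lit 0) (nat_lit 29340573500) (nat_lit 76) (nat_lit 368778970827) (nat_lit 76) (nat_lit 131864265056) (nat_lit 24) (nat_lit 4) (nat_lit 25) (nat_lit 5) (nat_lit 25) (nat_lit 4) (nat_lit 528) (nat_lit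 450) (nat_lit 222)) (XT.lf (nat_lit 0) (nat_lit 279527149567) (nat_lit 76) (nat_lit 253754796220) (nat_lit 76) (nat_lit 16839924024) (nat_lit 24) (nat_lit 4) (nat_lit 25) (nat_lit 5) (nat_lit 25) (nat_lit 4) (nat_lit 529) (nat_lit 450) (nat_lit 221))))) (XT.nd (nat_lit 234) (nat_lit 228) (nat_lit 0) (XT.nd (nat_lit 78) (nat_lit 76) (nat_lit 0) (XT.lf (nat_lit 0) (nat_lit 100608867500) (nat_lit 152) (nat_lit 30666852319) (nat_lit 76) (nat_lit 439909985984) (nat_lit 23) (nat_lit 5) (nat_lit 25) (nat_lit 5) (nat_lit 24) (nat_lit 4) (nat_lit 530) (nat_lit 450) (nat_lit 220)) (XT.nd (nat_lit 78) (nat_lit 0) (nat_lit 0) (XT.lf (nat_lit 0) (nat_lit 226949432512) (nat_lit 152) (nat_lit 364844308404) (nat_lit 0) (nat_lit 1315926180) (nat_lit 22) (nat_lit 5) (nat_lit 24) (nat_lit 4) (nat_lit 22) (nat_lit 4) (nat_lit 531) (nat_lit 450) (nat_lit 219)) (XT.lf (nat_lit 0) (nat_lit 362286790535) (nat_lit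 152) (nat_lit 117055900404) (nat_lit 0) (nat_lit 136653147284) (nat_lit 22) (nat_lit 5) (nat_lit 24) (nat_lit 4) (nat_lit 22) (nat_lit 4) (nat_lit 532) (nat_lit 450) (nat_lit 218)))) (XT.nd (nat_lit 156) (nat_lit 152) (nat_lit 0) (XT.nd (nat_lit 78) (nat_lit 0) (nat_lit 0) (XT.lf (nat_lit 0) (nat_lit 147853859706) (nat_lit 76) (nat_lit 358845409607) (nat_lit 76) (nat_lit 133211635958) (nat_lit 21) (nat_lit 4) (nat_lit 22) (nat_lit 5) (nat_lit 22) (nat_lit 4) (nat_lit 533) (nat_lit 450) (nat_lit 217)) (XT.lf (nat_lit 0) (nat_lit 430072714283) (nat_lit 76) (nat_lit 230241898595) (nat_lit 76) (nat_lit 4608000757) (nat_lit 21) (nat_lit 4) (nat_lit 22) (nat_lit 5) (nat_lit 22) (nat_lit 4) (nat_lit 534) (nat_lit 450) (nat_lit 216))) (XT.nd (nat_lit 78) (nat_lit 0) (nat_lit 0) (XT.lf (nat_lit 0) (nat_lit 34278104722) (nat_lit 76) (nat_lit 92508295685) (nat_lit 152) (nat_lit 564269940147) (nat_lit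 19) (nat_lit 5) (nat_lit 20) (nat_lit 5) (nat_lit 21) (nat_lit 4) (nat_lit 535) (nat_lit 450) (nat_lit 215)) (XT.lf (nat_lit 0) (nat_lit 269451622961) (nat_lit 152) (nat_lit 394236579270) (nat_lit 0) (nat_lit 54561976526) (nat_lit 19) (nat_lit 5) (nat_lit 21) (nat_lit 4) (nat_lit 19) (nat_lit 4) (nat_lit 536) (nat_lit 450) (nat_lit 214)))))) (XT.nd (nat_lit 56082) (nat_lit 0) (nat_lit 8284) (XT.nd (nat_lit 55770) (nat_lit 0) (nat_lit 8132) (XT.nd (nat_lit 78) (nat_lit 76) (nat_lit 0) (XT.lf (nat_lit 0) (nat_lit 420766491258) (nat_lit 152) (nat_lit 120084655734) (nat_lit 0) (nat_lit 205876742653) (nat_lit 19) (nat_lit 5) (nat_lit 21) (nat_lit 4) (nat_lit 19) (nat_lit 4) (nat_lit 537) (nat_lit 450) (nat_lit 213)) (XT.nd (nat_lit 78) (nat_lit 0) (nat_lit 0) (XT.lf (nat_lit 0) (nat_lit 173321976878) (nat_lit 76) (nat_lit 409031029961) (nat_lit 76) (nat_lit 194141184050) (nat_lit 18) (nat_lit 4)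 (nat_lit 19) (nat_lit 5) (nat_lit 19) (nat_lit 4) (nat_lit 538) (nat_lit 450) (nat_lit 212)) (XT.lf (nat_lit 0) (nat_lit 485567740832) (nat_lit 76) (nat_lit 268484663570) (nat_lit 76) (nat_lit 53594724988) (nat_lit 18) (nat_lit 4) (nat_lit 19) (nat_lit 5) (nat_lit 19) (nat_lit 4) (nat_lit 539) (nat_lit 450) (nat_lit 211)))) (XT.nd (nat_lit 156) (nat_lit 0) (nat_lit 76) (XT.nd (nat_lit 78) (nat_lit 0) (nat_lit 0) (XT.lf (nat_lit 0) (nat_lit 7999942661) (nat_lit 836) (nat_lit 8238473117) (nat_lit 836) (nat_lit 8238473117) (nat_lit 125) (nat_lit 3) (nat_lit 136) (nat_lit 3) (nat_lit 136) (nat_lit 5) (nat_lit 451) (nat_lit 451) (nat_lit 298)) (XT.lf (nat_lit 76) (nat_lit 7752999870) (nat_lit 0) (nat_lit 8794660390) (nat_lit 836) (nat_lit 33622562684) (nat_lit 126) (nat_lit 5) (nat_lit 125) (nat_lit 3) (nat_lit 136) (nat_lit 5) (nat_lit 452) (nat_lit 451) (nat_lit 297))) (XT.nd (nat_lit 78) (nat_lit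 0) (nat_lit 0) (XT.lf (nat_lit 0) (nat_lit 17655653317) (nat_lit 760) (nat_lit 17923577790) (nat_lit 836) (nat_lit 15841618446) (nat_lit 126) (nat_lit 5) (nat_lit 136) (nat_lit 5) (nat_lit 137) (nat_lit 5) (nat_lit 453) (nat_lit 451) (nat_lit 296)) (XT.lf (nat_lit 76) (nat_lit 7902526329) (nat_lit 0) (nat_lit 11182443407) (nat_lit 836) (nat_lit 33635742203) (nat_lit 127) (nat_lit 5) (nat_lit 126) (nat_lit 5) (nat_lit 137) (nat_lit 5) (nat_lit 454) (nat_lit 451) (nat_lit 295))))) (XT.nd (nat_lit 234) (nat_lit 0) (nat_lit 76) (XT.nd (nat_lit 78) (nat_lit 0) (nat_lit 0) (XT.lf (nat_lit 0) (nat_lit 21118071127) (nat_lit 760) (nat_lit 18659574205) (nat_lit 836) (nat_lit 14281306761) (nat_lit 127) (nat_lit 5) (nat_lit 137) (nat_lit 5) (nat_lit 138) (nat_lit 5) (nat_lit 455) (nat_lit 451) (nat_lit 294)) (XT.nd (nat_lit 78) (nat_lit 0) (nat_lit 76) (XT.lf (nat_lit 76) (nat_lit 8907751182) (nat_lit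 0) (nat_lit 14665984859) (nat_lit 836) (nat_lit 31874323366) (nat_lit 128) (nat_lit 5) (nat_lit 127) (nat_lit 5) (nat_lit 138) (nat_lit 5) (nat_lit 456) (nat_lit 451) (nat_lit 293)) (XT.lf (nat_lit 0) (nat_lit 26654640067) (nat_lit 760) (nat_lit 18578494776) (nat_lit 836) (nat_lit 11648364998) (nat_lit 128) (nat_lit 5) (nat_lit 138) (nat_lit 5) (nat_lit 139) (nat_lit 5) (nat_lit 457) (nat_lit 451) (nat_lit 292)))) (XT.nd (nat_lit 156) (nat_lit 0) (nat_lit 76) (XT.nd (nat_lit 78) (nat_lit 0) (nat_lit 76) (XT.lf (nat_lit 76) (nat_lit 10888468704) (nat_lit 0) (nat_lit 19410190876) (nat_lit 836) (nat_lit 28067499724) (nat_lit 129) (nat_lit 5) (nat_lit 128) (nat_lit 5) (nat_lit 139) (nat_lit 5) (nat_lit 458) (nat_lit 451) (nat_lit 291)) (XT.lf (nat_lit 0) (nat_lit 34563651885) (nat_lit 760) (nat_lit 17562041584) (nat_lit 836) (nat_lit 7777420177) (nat_lit 129) (nat_lit 5) (nat_lit 139) (nat_lit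 5) (nat_lit 140) (nat_lit 5) (nat_lit 459) (nat_lit 451) (nat_lit 290))) (XT.nd (nat_lit 78) (nat_lit 0) (nat_lit 76) (XT.lf (nat_lit 76) (nat_lit 13977541567) (nat_lit 0) (nat_lit 25599541236) (nat_lit 836) (nat_lit 21913073925) (nat_lit 130) (nat_lit 5) (nat_lit 129) (nat_lit 5) (nat_lit 140) (nat_lit 5) (nat_lit 460) (nat_lit 451) (nat_lit 289)) (XT.lf (nat_lit 0) (nat_lit 45177464079) (nat_lit 760) (nat_lit 15478976702) (nat_lit 76) (nat_lit 2483297693) (nat_lit 130) (nat_lit 5) (nat_lit 140) (nat_lit 5) (nat_lit 131) (nat_lit 5) (nat_lit 461) (nat_lit 451) (nat_lit 288))))))) (XT.nd (nat_lit 1092) (nat_lit 1976) (nat_lit 0) (XT.nd (nat_lit 546) (nat_lit 1216) (nat_lit 0) (XT.nd (nat_lit 234) (nat_lit 836) (nat_lit 0) (XT.nd (nat_lit 78) (nat_lit 380) (nat_lit 0) (XT.lf (nat_lit 0) (nat_lit 18322086954) (nat_lit 760) (nat_lit 33440365008) (nat_lit 836) (nat_lit 13074118398) (nat_lit 120)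 (nat_lit 5) (nat_lit 130) (nat_lit 5) (nat_lit 131) (nat_lit 5) (nat_lit 462) (nat_lit 451) (nat_lit 287)) (XT.nd (nat_lit 78) (nat_lit 380) (nat_lit 0) (XT.lf (nat_lit 0) (nat_lit 54349601938) (nat_lit 760) (nat_lit 4588133612) (nat_lit 836) (nat_lit 7667456384) (nat_lit 120) (nat_lit 5) (nat_lit 130) (nat_lit 5) (nat_lit 131) (nat_lit 5) (nat_lit 463) (nat_lit 451) (nat_lit 286)) (XT.lf (nat_lit 0) (nat_lit 24084753164) (nat_lit 380) (nat_lit 43163370537) (nat_lit 456) (nat_lit 1175304254) (nat_lit 115) (nat_lit 5) (nat_lit 120) (nat_lit 5) (nat_lit 121) (nat_lit 5) (nat_lit 464) (nat_lit 451) (nat_lit 285)))) (XT.nd (nat_lit 156) (nat_lit 380) (nat_lit 0) (XT.nd (nat_lit 78) (nat_lit 380) (nat_lit 0) (XT.lf (nat_lit 0) (nat_lit 5746039352) (nat_lit 456) (nat_lit 7822316695) (nat_lit 76) (nat_lit 56745558853) (nat_lit 114) (nat_lit 5) (nat_lit 120) (nat_lit 5) (nat_lit 115) (nat_lit 5) (nat_lit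 465) (nat_lit 451) (nat_lit 284)) (XT.lf (nat_lit 0) (nat_lit 13746608378) (nat_lit 456) (nat_lit 41047045976) (nat_lit 76) (nat_lit 17465676004) (nat_lit 109) (nat_lit 5) (nat_lit 115) (nat_lit 5) (nat_lit 110) (nat_lit 5) (nat_lit 466) (nat_lit 451) (nat_lit 283))) (XT.nd (nat_lit 78) (nat_lit 380) (nat_lit 0) (XT.lf (nat_lit 0) (nat_lit 22503338161) (nat_lit 456) (nat_lit 2050812803) (nat_lit 76) (nat_lit 49730059329) (nat_lit 109) (nat_lit 5) (nat_lit 115) (nat_lit 5) (nat_lit 110) (nat_lit 5) (nat_lit 467) (nat_lit 451) (nat_lit 282)) (XT.lf (nat_lit 0) (nat_lit 32446983943) (nat_lit 456) (nat_lit 36321371459) (nat_lit 76) (nat_lit 7604525151) (nat_lit 104) (nat_lit 5) (nat_lit 110) (nat_lit 5) (nat_lit 105) (nat_lit 5) (nat_lit 468) (nat_lit 451) (nat_lit 281))))) (XT.nd (nat_lit 234) (nat_lit 608) (nat_lit 0) (XT.nd (nat_lit 78) (nat_lit 304) (nat_lit 0) (XT.lf (nat_lit 0) (nat_lit 5539103976)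 (nat_lit 304) (nat_lit 37872142918) (nat_lit 380) (nat_lit 35128565979) (nat_lit 100) (nat_lit 5) (nat_lit 104) (nat_lit 5) (nat_lit 105) (nat_lit 5) (nat_lit 469) (nat_lit 451) (nat_lit 280)) (XT.nd (nat_lit 78) (nat_lit 304) (nat_lit 0) (XT.lf (nat_lit 0) (nat_lit 50752630628) (nat_lit 304) (nat_lit 4785364863) (nat_lit 380) (nat_lit 25246382970) (nat_lit 100) (nat_lit 5) (nat_lit 104) (nat_lit 5) (nat_lit 105) (nat_lit 5) (nat_lit 470) (nat_lit 451) (nat_lit 279)) (XT.lf (nat_lit 0) (nat_lit 15100311043) (nat_lit 304) (nat_lit 53873412945) (nat_lit 380) (nat_lit 14132316479) (nat_lit 96) (nat_lit 5) (nat_lit 100) (nat_lit 5) (nat_lit 101) (nat_lit 5) (nat_lit 471) (nat_lit 451) (nat_lit 278)))) (XT.nd (nat_lit 156) (nat_lit 304) (nat_lit 0) (XT.nd (nat_lit 78) (nat_lit 304) (nat_lit 0) (XT.lf (nat_lit 0) (nat_lit 63449619116) (nat_lit 304) (nat_lit 20216620092) (nat_lit 380) (nat_lit 1848296604)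 (nat_lit 96) (nat_lit 5) (nat_lit 100) (nat_lit 5) (nat_lit 101) (nat_lit 5) (nat_lit 472) (nat_lit 451) (nat_lit 277)) (XT.lf (nat_lit 0) (nat_lit 11360656762) (nat_lit 304) (nat_lit 61400562707) (nat_lit 76) (nat_lit 15240390714) (nat_lit 92) (nat_lit 5) (nat_lit 96) (nat_lit 5) (nat_lit 93) (nat_lit 5) (nat_lit 473) (nat_lit 451) (nat_lit 276))) (XT.nd (nat_lit 78) (nat_lit 304) (nat_lit 0) (XT.lf (nat_lit 0) (nat_lit 25878427846) (nat_lit 304) (nat_lit 12496791754) (nat_lit 76) (nat_lit 52200779643) (nat_lit 92) (nat_lit 5) (nat_lit 96) (nat_lit 5) (nat_lit 93) (nat_lit 5) (nat_lit 474) (nat_lit 451) (nat_lit 275)) (XT.lf (nat_lit 0) (nat_lit 40135865545) (nat_lit 304) (nat_lit 1612149559) (nat_lit 380) (nat_lit 51499796480) (nat_lit 88) (nat_lit 5) (nat_lit 92) (nat_lit 5) (nat_lit 93) (nat_lit 5) (nat_lit 475) (nat_lit 451) (nat_lit 274)))))) (XT.nd (nat_lit 546) (nat_lit 988) (nat_lit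 0) (XT.nd (nat_lit 234) (nat_lit 532) (nat_lit 0) (XT.nd (nat_lit 78) (nat_lit 456) (nat_lit 0) (XT.lf (nat_lit 0) (nat_lit 59203004468) (nat_lit 380) (nat_lit 790506478) (nat_lit 76) (nat_lit 36020107654) (nat_lit 88) (nat_lit 5) (nat_lit 93) (nat_lit 5) (nat_lit 89) (nat_lit 5) (nat_lit 476) (nat_lit 451) (nat_lit 273)) (XT.nd (nat_lit 78) (nat_lit 228) (nat_lit 0) (XT.lf (nat_lit 0) (nat_lit 55909144450) (nat_lit 228) (nat_lit 22520269699) (nat_lit 304) (nat_lit 20443368462) (nat_lit 85) (nat_lit 5) (nat_lit 88) (nat_lit 5) (nat_lit 89) (nat_lit 5) (nat_lit 477) (nat_lit 451) (nat_lit 272)) (XT.lf (nat_lit 0) (nat_lit 13774023202) (nat_lit 228) (nat_lit 85333848319) (nat_lit 304) (nat_lit 2742497121) (nat_lit 82) (nat_lit 5) (nat_lit 85) (nat_lit 5) (nat_lit 86) (nat_lit 5) (nat_lit 478) (nat_lit 451) (nat_lit 271)))) (XT.nd (nat_lit 156) (nat_lit 228) (nat_lit 0) (XT.nd (nat_lit 78) (nat_lit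 228) (nat_lit 0) (XT.lf (nat_lit 0) (nat_lit 16444416882) (nat_lit 304) (nat_lit 30729653381) (nat_lit 76) (nat_lit 57734991494) (nat_lit 81) (nat_lit 5) (nat_lit 85) (nat_lit 5) (nat_lit 82) (nat_lit 5) (nat_lit 479) (nat_lit 451) (nat_lit 270)) (XT.lf (nat_lit 0) (nat_lit 30411933630) (nat_lit 228) (nat_lit 6560787466) (nat_lit 304) (nat_lit 71122010120) (nat_lit 78) (nat_lit 5) (nat_lit 81) (nat_lit 5) (nat_lit 82) (nat_lit 5) (nat_lit 480) (nat_lit 451) (nat_lit 269))) (XT.nd (nat_lit 78) (nat_lit 228) (nat_lit 0) (XT.lf (nat_lit 0) (nat_lit 59619159523) (nat_lit 304) (nat_lit 16308954102) (nat_lit 76) (nat_lit 35456984717) (nat_lit 78) (nat_lit 5) (nat_lit 82) (nat_lit 5) (nat_lit 79) (nat_lit 5) (nat_lit 481) (nat_lit 451) (nat_lit 268)) (XT.lf (nat_lit 0) (nat_lit 49613134513) (nat_lit 228) (nat_lit 34666374282) (nat_lit 304) (nat_lit 30516395724) (nat_lit 75) (nat_lit 5) (nat_lit 78)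 (nat_lit 5) (nat_lit 79) (nat_lit 5) (nat_lit 482) (nat_lit 451) (nat_lit 267))))) (XT.nd (nat_lit 312) (nat_lit 532) (nat_lit 0) (XT.nd (nat_lit 156) (nat_lit 228) (nat_lit 0) (XT.nd (nat_lit 78) (nat_lit 76) (nat_lit 0) (XT.lf (nat_lit 0) (nat_lit 923097283) (nat_lit 152) (nat_lit 109679546158) (nat_lit 228) (nat_lit 7753119300) (nat_lit 73) (nat_lit 5) (nat_lit 75) (nat_lit 5) (nat_lit 76) (nat_lit 5) (nat_lit 483) (nat_lit 451) (nat_lit 266)) (XT.lf (nat_lit 0) (nat_lit 17321223337) (nat_lit 228) (nat_lit 50280519282) (nat_lit 76) (nat_lit 54394777875) (nat_lit 72) (nat_lit 5) (nat_lit 75) (nat_lit 5) (nat_lit 73) (nat_lit 5) (nat_lit 484) (nat_lit 451) (nat_lit 265))) (XT.nd (nat_lit 78) (nat_lit 0) (nat_lit 0) (XT.lf (nat_lit 0) (nat_lit 20765976234) (nat_lit 228) (nat_lit 22946442304) (nat_lit 304) (nat_lit 82084358141) (nat_lit 69) (nat_lit 5) (nat_lit 72) (nat_lit 5) (nat_lit 73) (nat_lit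 5) (nat_lit 485) (nat_lit 451) (nat_lit 264)) (XT.lf (nat_lit 0) (nat_lit 72661938076) (nat_lit 304) (nat_lit 33022609153) (nat_lit 76) (nat_lit 24040560324) (nat_lit 69) (nat_lit 5) (nat_lit 73) (nat_lit 5) (nat_lit 70) (nat_lit 5) (nat_lit 486) (nat_lit 451) (nat_lit 263)))) (XT.nd (nat_lit 156) (nat_lit 380) (nat_lit 0) (XT.nd (nat_lit 78) (nat_lit 0) (nat_lit 0) (XT.lf (nat_lit 0) (nat_lit 43604673737) (nat_lit 152) (nat_lit 60510731146) (nat_lit 228) (nat_lit 29681626628) (nat_lit 67) (nat_lit 5) (nat_lit 69) (nat_lit 5) (nat_lit 70) (nat_lit 5) (nat_lit 487) (nat_lit 451) (nat_lit 262)) (XT.lf (nat_lit 0) (nat_lit 125209034937) (nat_lit 152) (nat_lit 12491284484) (nat_lit 228) (nat_lit 344293626) (nat_lit 67) (nat_lit 5) (nat_lit 69) (nat_lit 5) (nat_lit 70) (nat_lit 5) (nat_lit 488) (nat_lit 451) (nat_lit 261))) (XT.nd (nat_lit 78) (nat_lit 152) (nat_lit 0) (XT.lf (nat_lit 0) (nat_lit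 31197830186) (nat_lit 228) (nat_lit 72885736964) (nat_lit 76) (nat_lit 38311586806) (nat_lit 64) (nat_lit 5) (nat_lit 67) (nat_lit 5) (nat_lit 65) (nat_lit 5) (nat_lit 489) (nat_lit 451) (nat_lit 260)) (XT.lf (nat_lit 0) (nat_lit 9556059424) (nat_lit 152) (nat_lit 55323884906) (nat_lit 228) (nat_lit 82054272723) (nat_lit 62) (nat_lit 5) (nat_lit 64) (nat_lit 5) (nat_lit 65) (nat_lit 5) (nat_lit 490) (nat_lit 451) (nat_lit 259))))))))
noncomputable def xc200 : XT := (XT.nd (nat_lit 2184) (nat_lit 988) (nat_lit 0) (XT.nd (nat_lit 1092) (nat_lit 988) (nat_lit 0) (XT.nd (nat_lit 546) (nat_lit 532) (nat_lit 0) (XT.nd (nat_lit 234) (nat_lit 532) (nat_lit 0) (XT.nd (nat_lit 78) (nat_lit 228) (nat_lit 0) (XT.lf (nat_lit 0) (nat_lit 98649643459) (nat_lit 152) (nat_lit 2830428699) (nat_lit 228) (nat_lit 50158465833) (nat_lit 62) (nat_lit 5) (nat_lit 64) (nat_lit 5) (nat_lit 65) (nat_lit 5) (nat_lit 491)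 (nat_lit 451) (nat_lit 258)) (XT.nd (nat_lit 78) (nat_lit 76) (nat_lit 0) (XT.lf (nat_lit 0) (nat_lit 35953497881) (nat_lit 152) (nat_lit 105333970734) (nat_lit 228) (nat_lit 15221743325) (nat_lit 60) (nat_lit 5) (nat_lit 62) (nat_lit 5) (nat_lit 63) (nat_lit 5) (nat_lit 492) (nat_lit 451) (nat_lit 257)) (XT.lf (nat_lit 0) (nat_lit 21732979985) (nat_lit 228) (nat_lit 30792791664) (nat_lit 76) (nat_lit 109032990214) (nat_lit 59) (nat_lit 5) (nat_lit 62) (nat_lit 5) (nat_lit 60) (nat_lit 5) (nat_lit 493) (nat_lit 451) (nat_lit 256)))) (XT.nd (nat_lit 156) (nat_lit 380) (nat_lit 0) (XT.nd (nat_lit 78) (nat_lit 0) (nat_lit 0) (XT.lf (nat_lit 0) (nat_lit 61109399692) (nat_lit 228) (nat_lit 101565789125) (nat_lit 76) (nat_lit 4118848163) (nat_lit 57) (nat_lit 5) (nat_lit 60) (nat_lit 5) (nat_lit 58) (nat_lit 5) (nat_lit 494) (nat_lit 451) (nat_lit 255)) (XT.lf (nat_lit 0) (nat_lit 103845355910) (nat_lit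 228) (nat_lit 6015919168) (nat_lit 76) (nat_lit 62360265062) (nat_lit 57) (nat_lit 5) (nat_lit 60) (nat_lit 5) (nat_lit 58) (nat_lit 5) (nat_lit 495) (nat_lit 451) (nat_lit 254))) (XT.nd (nat_lit 78) (nat_lit 228) (nat_lit 0) (XT.lf (nat_lit 0) (nat_lit 97429131475) (nat_lit 152) (nat_lit 52809736865) (nat_lit 228) (nat_lit 27605512259) (nat_lit 55) (nat_lit 5) (nat_lit 57) (nat_lit 5) (nat_lit 58) (nat_lit 5) (nat_lit 496) (nat_lit 451) (nat_lit 253)) (XT.lf (nat_lit 0) (nat_lit 15301719398) (nat_lit 228) (nat_lit 160826860754) (nat_lit 76) (nat_lit 7578682411) (nat_lit 52) (nat_lit 5) (nat_lit 55) (nat_lit 5) (nat_lit 53) (nat_lit 5) (nat_lit 497) (nat_lit 451) (nat_lit 252))))) (XT.nd (nat_lit 234) (nat_lit 380) (nat_lit 0) (XT.nd (nat_lit 78) (nat_lit 152) (nat_lit 0) (XT.lf (nat_lit 0) (nat_lit 61676139183) (nat_lit 228) (nat_lit 57003791938) (nat_lit 76) (nat_lit 71048252448) (nat_lit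 52) (nat_lit 5) (nat_lit 55) (nat_lit 5) (nat_lit 53) (nat_lit 5) (nat_lit 498) (nat_lit 451) (nat_lit 251)) (XT.nd (nat_lit 78) (nat_lit 0) (nat_lit 0) (XT.lf (nat_lit 0) (nat_lit 53729481167) (nat_lit 152) (nat_lit 57478307019) (nat_lit 228) (nat_lit 84800437078) (nat_lit 50) (nat_lit 5) (nat_lit 52) (nat_lit 5) (nat_lit 53) (nat_lit 5) (nat_lit 499) (nat_lit 451) (nat_lit 250)) (XT.lf (nat_lit 0) (nat_lit 164302784083) (nat_lit 228) (nat_lit 30697904175) (nat_lit 76) (nat_lit 7547242612) (nat_lit 50) (nat_lit 5) (nat_lit 53) (nat_lit 5) (nat_lit 51) (nat_lit 4) (nat_lit 500) (nat_lit 451) (nat_lit 249)))) (XT.nd (nat_lit 156) (nat_lit 228) (nat_lit 0) (XT.nd (nat_lit 78) (nat_lit 0) (nat_lit 0) (XT.lf (nat_lit 0) (nat_lit 12656750596) (nat_lit 152) (nat_lit 121155942536) (nat_lit 76) (nat_lit 75475658186) (nat_lit 48) (nat_lit 5) (nat_lit 50) (nat_lit 5) (nat_lit 49) (nat_lit 5) (nat_lit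 501) (nat_lit 451) (nat_lit 248)) (XT.lf (nat_lit 0) (nat_lit 65346523840) (nat_lit 152) (nat_lit 3005894504) (nat_lit 76) (nat_lit 147955622569) (nat_lit 48) (nat_lit 5) (nat_lit 50) (nat_lit 5) (nat_lit 49) (nat_lit 5) (nat_lit 502) (nat_lit 451) (nat_lit 247))) (XT.nd (nat_lit 78) (nat_lit 76) (nat_lit 0) (XT.lf (nat_lit 0) (nat_lit 122660850470) (nat_lit 228) (nat_lit 98565481769) (nat_lit 76) (nat_lit 2352879552) (nat_lit 46) (nat_lit 5) (nat_lit 49) (nat_lit 5) (nat_lit 47) (nat_lit 4) (nat_lit 503) (nat_lit 451) (nat_lit 246)) (XT.lf (nat_lit 0) (nat_lit 28104886826) (nat_lit 76) (nat_lit 156346755760) (nat_lit 152) (nat_lit 46681761206) (nat_lit 45) (nat_lit 5) (nat_lit 46) (nat_lit 5) (nat_lit 47) (nat_lit 4) (nat_lit 504) (nat_lit 451) (nat_lit 245)))))) (XT.nd (nat_lit 546) (nat_lit 380) (nat_lit 0) (XT.nd (nat_lit 234) (nat_lit 380) (nat_lit 0) (XT.nd (nat_lit 78) (nat_lit 152)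 (nat_lit 0) (XT.lf (nat_lit 0) (nat_lit 11634372369) (nat_lit 152) (nat_lit 74639332252) (nat_lit 76) (nat_lit 152698771184) (nat_lit 44) (nat_lit 5) (nat_lit 46) (nat_lit 5) (nat_lit 45) (nat_lit 5) (nat_lit 505) (nat_lit 451) (nat_lit 244)) (XT.nd (nat_lit 78) (nat_lit 0) (nat_lit 0) (XT.lf (nat_lit 0) (nat_lit 61367633902) (nat_lit 152) (nat_lit 10887683352) (nat_lit 228) (nat_lit 174862029562) (nat_lit 42) (nat_lit 5) (nat_lit 44) (nat_lit 5) (nat_lit 45) (nat_lit 5) (nat_lit 506) (nat_lit 451) (nat_lit 243)) (XT.lf (nat_lit 0) (nat_lit 138257633251) (nat_lit 228) (nat_lit 49927125351) (nat_lit 76) (nat_lit 67367186613) (nat_lit 42) (nat_lit 5) (nat_lit 45) (nat_lit 5) (nat_lit 43) (nat_lit 4) (nat_lit 507) (nat_lit 451) (nat_lit 242)))) (XT.nd (nat_lit 156) (nat_lit 228) (nat_lit 0) (XT.nd (nat_lit 78) (nat_lit 76) (nat_lit 0) (XT.lf (nat_lit 0) (nat_lit 95566296895) (nat_lit 76) (nat_lit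 113664026112) (nat_lit 152) (nat_lit 55094437659) (nat_lit 41) (nat_lit 5) (nat_lit 42) (nat_lit 5) (nat_lit 43) (nat_lit 4) (nat_lit 508) (nat_lit 451) (nat_lit 241)) (XT.lf (nat_lit 0) (nat_lit 10747588680) (nat_lit 152) (nat_lit 23600072769) (nat_lit 76) (nat_lit 239137625098) (nat_lit 40) (nat_lit 5) (nat_lit 42) (nat_lit 5) (nat_lit 41) (nat_lit 5) (nat_lit 509) (nat_lit 451) (nat_lit 240))) (XT.nd (nat_lit 78) (nat_lit 76) (nat_lit 0) (XT.lf (nat_lit 0) (nat_lit 80905644889) (nat_lit 228) (nat_lit 151626252342) (nat_lit 76) (nat_lit 50383008995) (nat_lit 38) (nat_lit 5) (nat_lit 41) (nat_lit 5) (nat_lit 39) (nat_lit 4) (nat_lit 510) (nat_lit 451) (nat_lit 239)) (XT.lf (nat_lit 0) (nat_lit 1420466454) (nat_lit 76) (nat_lit 154142351914) (nat_lit 152) (nat_lit 137203627821) (nat_lit 37) (nat_lit 5) (nat_lit 38) (nat_lit 5) (nat_lit 39) (nat_lit 4) (nat_lit 511) (nat_lit 451) (nat_lit 238)))))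 (XT.nd (nat_lit 234) (nat_lit 228) (nat_lit 0) (XT.nd (nat_lit 78) (nat_lit 152) (nat_lit 0) (XT.lf (nat_lit 0) (nat_lit 167383146449) (nat_lit 76) (nat_lit 69137302968) (nat_lit 152) (nat_lit 66461733812) (nat_lit 37) (nat_lit 5) (nat_lit 38) (nat_lit 5) (nat_lit 39) (nat_lit 4) (nat_lit 512) (nat_lit 451) (nat_lit 237)) (XT.nd (nat_lit 78) (nat_lit 0) (nat_lit 0) (XT.lf (nat_lit 0) (nat_lit 8338839255) (nat_lit 152) (nat_lit 285271299937) (nat_lit 76) (nat_lit 20053876219) (nat_lit 35) (nat_lit 5) (nat_lit 37) (nat_lit 5) (nat_lit 36) (nat_lit 4) (nat_lit 513) (nat_lit 451) (nat_lit 236)) (XT.lf (nat_lit 0) (nat_lit 88113115882) (nat_lit 152) (nat_lit 121734433373) (nat_lit 76) (nat_lit 114804551888) (nat_lit 35) (nat_lit 5) (nat_lit 37) (nat_lit 5) (nat_lit 36) (nat_lit 4) (nat_lit 514) (nat_lit 451) (nat_lit 235)))) (XT.nd (nat_lit 156) (nat_lit 152) (nat_lit 0) (XT.nd (nat_lit 78) (nat_lit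 0) (nat_lit 0) (XT.lf (nat_lit 0) (nat_lit 51631342755) (nat_lit 76) (nat_lit 121050630483) (nat_lit 152) (nat_lit 163467324599) (nat_lit 34) (nat_lit 5) (nat_lit 35) (nat_lit 5) (nat_lit 36) (nat_lit 4) (nat_lit 515) (nat_lit 451) (nat_lit 234)) (XT.lf (nat_lit 0) (nat_lit 237891300563) (nat_lit 76) (nat_lit 25649365890) (nat_lit 152) (nat_lit 84577618278) (nat_lit 34) (nat_lit 5) (nat_lit 35) (nat_lit 5) (nat_lit 36) (nat_lit 4) (nat_lit 516) (nat_lit 451) (nat_lit 233))) (XT.nd (nat_lit 78) (nat_lit 0) (nat_lit 0) (XT.lf (nat_lit 0) (nat_lit 668719983) (nat_lit 152) (nat_lit 286598087514) (nat_lit 76) (nat_lit 73302457176) (nat_lit 32) (nat_lit 5) (nat_lit 34) (nat_lit 5) (nat_lit 33) (nat_lit 4) (nat_lit 517) (nat_lit 451) (nat_lit 232)) (XT.lf (nat_lit 0) (nat_lit 89652613872) (nat_lit 152) (nat_lit 104181418861) (nat_lit 76) (nat_lit 179623554913) (nat_lit 32) (nat_lit 5) (nat_lit 34)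 (nat_lit 5) (nat_lit 33) (nat_lit 4) (nat_lit 518) (nat_lit 451) (nat_lit 231))))))) (XT.nd (nat_lit 1092) (nat_lit 228) (nat_lit 0) (XT.nd (nat_lit 546) (nat_lit 380) (nat_lit 0) (XT.nd (nat_lit 234) (nat_lit 228) (nat_lit 0) (XT.nd (nat_lit 78) (nat_lit 76) (nat_lit 0) (XT.lf (nat_lit 0) (nat_lit 90244037922) (nat_lit 76) (nat_lit 94250407978) (nat_lit 152) (nat_lit 202425443709) (nat_lit 31) (nat_lit 5) (nat_lit 32) (nat_lit 5) (nat_lit 33) (nat_lit 4) (nat_lit 519) (nat_lit 451) (nat_lit 230)) (XT.nd (nat_lit 78) (nat_lit 76) (nat_lit 0) (XT.lf (nat_lit 0) (nat_lit 286032443722) (nat_lit 152) (nat_lit 103149725835) (nat_lit 0) (nat_lit 11775433419) (nat_lit 31) (nat_lit 5) (nat_lit 33) (nat_lit 4) (nat_lit 31) (nat_lit 4) (nat_lit 520) (nat_lit 451) (nat_lit 229)) (XT.lf (nat_lit 0) (nat_lit 101764312078) (nat_lit 76) (nat_lit 294016736536) (nat_lit 76) (nat_lit 19759468052) (nat_lit 30)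 (nat_lit 4) (nat_lit 31) (nat_lit 5) (nat_lit 31) (nat_lit 4) (nat_lit 521) (nat_lit 451) (nat_lit 228)))) (XT.nd (nat_lit 156) (nat_lit 76) (nat_lit 0) (XT.nd (nat_lit 78) (nat_lit 76) (nat_lit 0) (XT.lf (nat_lit 0) (nat_lit 79374063712) (nat_lit 152) (nat_lit 111540683759) (nat_lit 76) (nat_lit 239786482905) (nat_lit 29) (nat_lit 5) (nat_lit 31) (nat_lit 5) (nat_lit 30) (nat_lit 4) (nat_lit 522) (nat_lit 451) (nat_lit 227)) (XT.lf (nat_lit 0) (nat_lit 103804705769) (nat_lit 76) (nat_lit 80616003652) (nat_lit 152) (nat_lit 262102049824) (nat_lit 28) (nat_lit 5) (nat_lit 29) (nat_lit 5) (nat_lit 30) (nat_lit 4) (nat_lit 523) (nat_lit 451) (nat_lit 226))) (XT.nd (nat_lit 78) (nat_lit 76) (nat_lit 0) (XT.lf (nat_lit 0) (nat_lit 297188987808) (nat_lit 152) (nat_lit 129831992098) (nat_lit 0) (nat_lit 35990919644) (nat_lit 28) (nat_lit 5) (nat_lit 30) (nat_lit 4) (nat_lit 28) (nat_lit 4) (nat_lit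 524) (nat_lit 451) (nat_lit 225)) (XT.lf (nat_lit 0) (nat_lit 95430817575) (nat_lit 76) (nat_lit 322976191652) (nat_lit 76) (nat_lit 61777921197) (nat_lit 27) (nat_lit 4) (nat_lit 28) (nat_lit 5) (nat_lit 28) (nat_lit 4) (nat_lit 525) (nat_lit 451) (nat_lit 224))))) (XT.nd (nat_lit 234) (nat_lit 228) (nat_lit 0) (XT.nd (nat_lit 78) (nat_lit 76) (nat_lit 0) (XT.lf (nat_lit 0) (nat_lit 48184630288) (nat_lit 152) (nat_lit 162419971020) (nat_lit 76) (nat_lit 287463223785) (nat_lit 26) (nat_lit 5) (nat_lit 28) (nat_lit 5) (nat_lit 27) (nat_lit 4) (nat_lit 526) (nat_lit 451) (nat_lit 223)) (XT.nd (nat_lit 78) (nat_lit 0) (nat_lit 0) (XT.lf (nat_lit 0) (nat_lit 72332882966) (nat_lit 76) (nat_lit 90365424137) (nat_lit 152) (nat_lit 354039462712) (nat_lit 25) (nat_lit 5) (nat_lit 26) (nat_lit 5) (nat_lit 27) (nat_lit 4) (nat_lit 527) (nat_lit 451) (nat_lit 222)) (XT.lf (nat_lit 0) (nat_lit 286293520455)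 (nat_lit 152) (nat_lit 212347160466) (nat_lit 0) (nat_lit 37532738224) (nat_lit 25) (nat_lit 5) (nat_lit 27) (nat_lit 4) (nat_lit 25) (nat_lit 4) (nat_lit 528) (nat_lit 451) (nat_lit 221)))) (XT.nd (nat_lit 156) (nat_lit 152) (nat_lit 0) (XT.nd (nat_lit 78) (nat_lit 0) (nat_lit 0) (XT.lf (nat_lit 0) (nat_lit 30818093098) (nat_lit 76) (nat_lit 387212789587) (nat_lit 76) (nat_lit 138451848856) (nat_lit 24) (nat_lit 4) (nat_lit 25) (nat_lit 5) (nat_lit 25) (nat_lit 4) (nat_lit 529) (nat_lit 451) (nat_lit 220)) (XT.lf (nat_lit 0) (nat_lit 293513498402) (nat_lit 76) (nat_lit 266437650525) (nat_lit 76) (nat_lit 17676558842) (nat_lit 24) (nat_lit 4) (nat_lit 25) (nat_lit 5) (nat_lit 25) (nat_lit 4) (nat_lit 530) (nat_lit 451) (nat_lit 219))) (XT.nd (nat_lit 78) (nat_lit 76) (nat_lit 0) (XT.lf (nat_lit 0) (nat_lit 105644253529) (nat_lit 152) (nat_lit 32190515712) (nat_lit 76) (nat_lit 461909974501)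 (nat_lit 23) (nat_lit 5) (nat_lit 25) (nat_lit 5) (nat_lit 24) (nat_lit 4) (nat_lit 531) (nat_lit 451) (nat_lit 218)) (XT.lf (nat_lit 0) (nat_lit 238301832976) (nat_lit 152) (nat_lit 383076830578) (nat_lit 0) (nat_lit 1386240246) (nat_lit 22) (nat_lit 5) (nat_lit 24) (nat_lit 4) (nat_lit 22) (nat_lit 4) (nat_lit 532) (nat_lit 451) (nat_lit 217)))))) (XT.nd (nat_lit 56238) (nat_lit 0) (nat_lit 8056) (XT.nd (nat_lit 234) (nat_lit 152) (nat_lit 0) (XT.nd (nat_lit 78) (nat_lit 76) (nat_lit 0) (XT.lf (nat_lit 0) (nat_lit 380405824193) (nat_lit 152) (nat_lit 122899463761) (nat_lit 0) (nat_lit 143490107275) (nat_lit 22) (nat_lit 5) (nat_lit 24) (nat_lit 4) (nat_lit 22) (nat_lit 4) (nat_lit 533) (nat_lit 451) (nat_lit 216)) (XT.nd (nat_lit 78) (nat_lit 0) (nat_lit 0) (XT.lf (nat_lit 0) (nat_lit 155255635456) (nat_lit 76) (nat_lit 376783209731) (nat_lit 76) (nat_lit 139867374537) (nat_lit 21) (nat_lit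 4) (nat_lit 22) (nat_lit 5) (nat_lit 22) (nat_lit 4) (nat_lit 534) (nat_lit 451) (nat_lit 215)) (XT.lf (nat_lit 0) (nat_lit 451585000249) (nat_lit 76) (nat_lit 241749736042) (nat_lit 76) (nat_lit 4833788205) (nat_lit 21) (nat_lit 4) (nat_lit 22) (nat_lit 5) (nat_lit 22) (nat_lit 4) (nat_lit 535) (nat_lit 451) (nat_lit 214)))) (XT.nd (nat_lit 156) (nat_lit 0) (nat_lit 0) (XT.nd (nat_lit 78) (nat_lit 0) (nat_lit 0) (XT.lf (nat_lit 0) (nat_lit 36000666110) (nat_lit 76) (nat_lit 97129441804) (nat_lit 152) (nat_lit 592478830129) (nat_lit 19) (nat_lit 5) (nat_lit 20) (nat_lit 5) (nat_lit 21) (nat_lit 4) (nat_lit 536) (nat_lit 451) (nat_lit 213)) (XT.lf (nat_lit 0) (nat_lit 282928446140) (nat_lit 152) (nat_lit 413940018668) (nat_lit 0) (nat_lit 57294010629) (nat_lit 19) (nat_lit 5) (nat_lit 21) (nat_lit 4) (nat_lit 19) (nat_lit 4) (nat_lit 537) (nat_lit 451) (nat_lit 212))) (XT.nd (nat_lit 55770)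 (nat_lit 0) (nat_lit 8056) (XT.lf (nat_lit 0) (nat_lit 441808855851) (nat_lit 152) (nat_lit 126080898458) (nat_lit 0) (nat_lit 216174327668) (nat_lit 19) (nat_lit 5) (nat_lit 21) (nat_lit 4) (nat_lit 19) (nat_lit 4) (nat_lit 538) (nat_lit 451) (nat_lit 211)) (XT.lf (nat_lit 0) (nat_lit 8426254186) (nat_lit 836) (nat_lit 8636576598) (nat_lit 836) (nat_lit 8636576598) (nat_lit 125) (nat_lit 3) (nat_lit 136) (nat_lit 3) (nat_lit 136) (nat_lit 5) (nat_lit 452) (nat_lit 452) (nat_lit 296))))) (XT.nd (nat_lit 234) (nat_lit 0) (nat_lit 152) (XT.nd (nat_lit 78) (nat_lit 0) (nat_lit 76) (XT.lf (nat_lit 76) (nat_lit 8167844401) (nat_lit 0) (nat_lit 9257746106) (nat_lit 836) (nat_lit 35250596721) (nat_lit 126) (nat_lit 5) (nat_lit 125) (nat_lit 3) (nat_lit 136) (nat_lit 5) (nat_lit 453) (nat_lit 452) (nat_lit 295)) (XT.nd (nat_lit 78) (nat_lit 0) (nat_lit 0) (XT.lf (nat_lit 0) (nat_lit 18586228966) (nat_lit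 760) (nat_lit 18791084297) (nat_lit 836) (nat_lit 16612170545) (nat_lit 126) (nat_lit 5) (nat_lit 136) (nat_lit 5) (nat_lit 137) (nat_lit 5) (nat_lit 454) (nat_lit 452) (nat_lit 294)) (XT.lf (nat_lit 76) (nat_lit 8325862571) (nat_lit 0) (nat_lit 11759313216) (nat_lit 836) (nat_lit 35269256184) (nat_lit 127) (nat_lit 5) (nat_lit 126) (nat_lit 5) (nat_lit 137) (nat_lit 5) (nat_lit 455) (nat_lit 452) (nat_lit 293)))) (XT.nd (nat_lit 156) (nat_lit 0) (nat_lit 76) (XT.nd (nat_lit 78) (nat_lit 0) (nat_lit 0) (XT.lf (nat_lit 0) (nat_lit 22217479896) (nat_lit 760) (nat_lit 19563217124) (nat_lit 836) (nat_lit 14979010572) (nat_lit 127) (nat_lit 5) (nat_lit 137) (nat_lit 5) (nat_lit 138) (nat_lit 5) (nat_lit 456) (nat_lit 452) (nat_lit 292)) (XT.lf (nat_lit 76) (nat_lit 9382001375) (nat_lit 0) (nat_lit 15412305630) (nat_lit 836) (nat_lit 33424045120) (nat_lit 128) (nat_lit 5) (nat_lit 127) (nat_lit 5)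 (nat_lit 138) (nat_lit 5) (nat_lit 457) (nat_lit 452) (nat_lit 291))) (XT.nd (nat_lit 78) (nat_lit 0) (nat_lit 0) (XT.lf (nat_lit 0) (nat_lit 28027068127) (nat_lit 760) (nat_lit 19477727906) (nat_lit 836) (nat_lit 12218778717) (nat_lit 128) (nat_lit 5) (nat_lit 138) (nat_lit 5) (nat_lit 139) (nat_lit 5) (nat_lit 458) (nat_lit 452) (nat_lit 290)) (XT.lf (nat_lit 76) (nat_lit 11462104851) (nat_lit 0) (nat_lit 20389749569) (nat_lit 836) (nat_lit 29430685204) (nat_lit 129) (nat_lit 5) (nat_lit 128) (nat_lit 5) (nat_lit 139) (nat_lit 5) (nat_lit 459) (nat_lit 452) (nat_lit 289))))))))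
noncomputable def xc201 : XT := (XT.nd (nat_lit 2184) (nat_lit 2660) (nat_lit 0) (XT.nd (nat_lit 1092) (nat_lit 2052) (nat_lit 0) (XT.nd (nat_lit 546) (nat_lit 1368) (nat_lit 0) (XT.nd (nat_lit 234) (nat_lit 1140) (nat_lit 0) (XT.nd (nat_lit 78) (nat_lit 0) (nat_lit 0) (XT.lf (nat_lit 0) (nat_lit 36328139792) (nat_lit 760) (nat_lit 18410351625) (nat_lit 836) (nat_lit 8157948786) (nat_lit 129) (nat_lit 5) (nat_lit 139) (nat_lit 5) (nat_lit 140) (nat_lit 5) (nat_lit 460) (nat_lit 452) (nat_lit 288)) (XT.nd (nat_lit 78) (nat_lit 0) (nat_lit 76) (XT.lf (nat_lit 76) (nat_lit 14705730166) (nat_lit 0) (nat_lit 26885240901) (nat_lit 836) (nat_lit 22971928593) (nat_lit 130) (nat_lit 5) (nat_lit 129) (nat_lit 5) (nat_lit 140) (nat_lit 5) (nat_lit 461) (nat_lit 452) (nat_lit 287)) (XT.lf (nat_lit 0) (nat_lit 47469618023) (nat_lit 760) (nat_lit 16223243850) (nat_lit 76) (nat_lit 2602186917) (nat_lit 130)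 (nat_lit 5) (nat_lit 140) (nat_lit 5) (nat_lit 131) (nat_lit 5) (nat_lit 462) (nat_lit 452) (nat_lit 286)))) (XT.nd (nat_lit 156) (nat_lit 456) (nat_lit 0) (XT.nd (nat_lit 78) (nat_lit 0) (nat_lit 0) (XT.lf (nat_lit 0) (nat_lit 19267394253) (nat_lit 760) (nat_lit 35115332191) (nat_lit 836) (nat_lit 13694052868) (nat_lit 120) (nat_lit 5) (nat_lit 130) (nat_lit 5) (nat_lit 131) (nat_lit 5) (nat_lit 463) (nat_lit 452) (nat_lit 285)) (XT.lf (nat_lit 0) (nat_lit 57094894369) (nat_lit 760) (nat_lit 4820348800) (nat_lit 836) (nat_lit 8018665918) (nat_lit 120) (nat_lit 5) (nat_lit 130) (nat_lit 5) (nat_lit 131) (nat_lit 5) (nat_lit 464) (nat_lit 452) (nat_lit 284))) (XT.nd (nat_lit 78) (nat_lit 76) (nat_lit 0) (XT.lf (nat_lit 0) (nat_lit 25317915278) (nat_lit 380) (nat_lit 45322187145) (nat_lit 456) (nat_lit 1203007444) (nat_lit 115) (nat_lit 5) (nat_lit 120) (nat_lit 5) (nat_lit 121) (nat_lit 5) (nat_lit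 465) (nat_lit 452) (nat_lit 283)) (XT.lf (nat_lit 0) (nat_lit 6061977362) (nat_lit 456) (nat_lit 8184928743) (nat_lit 76) (nat_lit 59581262889) (nat_lit 114) (nat_lit 5) (nat_lit 120) (nat_lit 5) (nat_lit 115) (nat_lit 5) (nat_lit 466) (nat_lit 452) (nat_lit 282))))) (XT.nd (nat_lit 234) (nat_lit 608) (nat_lit 0) (XT.nd (nat_lit 78) (nat_lit 380) (nat_lit 0) (XT.lf (nat_lit 0) (nat_lit 14461654275) (nat_lit 456) (nat_lit 43069964544) (nat_lit 76) (nat_lit 18339282903) (nat_lit 109) (nat_lit 5) (nat_lit 115) (nat_lit 5) (nat_lit 110) (nat_lit 5) (nat_lit 467) (nat_lit 452) (nat_lit 281)) (XT.nd (nat_lit 78) (nat_lit 380) (nat_lit 0) (XT.lf (nat_lit 0) (nat_lit 23654900763) (nat_lit 456) (nat_lit 2125321318) (nat_lit 76) (nat_lit 52216870008) (nat_lit 109) (nat_lit 5) (nat_lit 115) (nat_lit 5) (nat_lit 110) (nat_lit 5) (nat_lit 468) (nat_lit 452) (nat_lit 280)) (XT.lf (nat_lit 0) (nat_lit 34094933889)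 (nat_lit 456) (nat_lit 38108604454) (nat_lit 76) (nat_lit 7986697692) (nat_lit 104) (nat_lit 5) (nat_lit 110) (nat_lit 5) (nat_lit 105) (nat_lit 5) (nat_lit 469) (nat_lit 452) (nat_lit 279)))) (XT.nd (nat_lit 156) (nat_lit 304) (nat_lit 0) (XT.nd (nat_lit 78) (nat_lit 0) (nat_lit 0) (XT.lf (nat_lit 0) (nat_lit 5844429663) (nat_lit 304) (nat_lit 39762204183) (nat_lit 380) (nat_lit 36858920337) (nat_lit 100) (nat_lit 5) (nat_lit 104) (nat_lit 5) (nat_lit 105) (nat_lit 5) (nat_lit 470) (nat_lit 452) (nat_lit 278)) (XT.lf (nat_lit 0) (nat_lit 53317281672) (nat_lit 304) (nat_lit 5021256077) (nat_lit 380) (nat_lit 26483869793) (nat_lit 100) (nat_lit 5) (nat_lit 104) (nat_lit 5) (nat_lit 105) (nat_lit 5) (nat_lit 471) (nat_lit 452) (nat_lit 277))) (XT.nd (nat_lit 78) (nat_lit 0) (nat_lit 0) (XT.lf (nat_lit 0) (nat_lit 15883029086) (nat_lit 304) (nat_lit 56562380481) (nat_lit 380) (nat_lit 14814775606)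 (nat_lit 96) (nat_lit 5) (nat_lit 100) (nat_lit 5) (nat_lit 101) (nat_lit 5) (nat_lit 472) (nat_lit 452) (nat_lit 276)) (XT.lf (nat_lit 0) (nat_lit 66648483395) (nat_lit 304) (nat_lit 21222971943) (nat_lit 380) (nat_lit 1917705055) (nat_lit 96) (nat_lit 5) (nat_lit 100) (nat_lit 5) (nat_lit 101) (nat_lit 5) (nat_lit 473) (nat_lit 452) (nat_lit 275)))))) (XT.nd (nat_lit 546) (nat_lit 912) (nat_lit 0) (XT.nd (nat_lit 234) (nat_lit 532) (nat_lit 0) (XT.nd (nat_lit 78) (nat_lit 304) (nat_lit 0) (XT.lf (nat_lit 0) (nat_lit 11950394881) (nat_lit 304) (nat_lit 64442893405) (nat_lit 76) (nat_lit 16007310791) (nat_lit 92) (nat_lit 5) (nat_lit 96) (nat_lit 5) (nat_lit 93) (nat_lit 5) (nat_lit 474) (nat_lit 452) (nat_lit 274)) (XT.nd (nat_lit 78) (nat_lit 304) (nat_lit 0) (XT.lf (nat_lit 0) (nat_lit 27193020935) (nat_lit 304) (nat_lit 13095252831) (nat_lit 76) (nat_lit 54815485808) (nat_lit 92) (nat_lit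 5) (nat_lit 96) (nat_lit 5) (nat_lit 93) (nat_lit 5) (nat_lit 475) (nat_lit 452) (nat_lit 273)) (XT.lf (nat_lit 0) (nat_lit 42168611873) (nat_lit 304) (nat_lit 1686896516) (nat_lit 380) (nat_lit 54053683388) (nat_lit 88) (nat_lit 5) (nat_lit 92) (nat_lit 5) (nat_lit 93) (nat_lit 5) (nat_lit 476) (nat_lit 452) (nat_lit 272)))) (XT.nd (nat_lit 156) (nat_lit 304) (nat_lit 0) (XT.nd (nat_lit 78) (nat_lit 228) (nat_lit 0) (XT.lf (nat_lit 0) (nat_lit 62182377576) (nat_lit 380) (nat_lit 804439480) (nat_lit 76) (nat_lit 37826515844) (nat_lit 88) (nat_lit 5) (nat_lit 93) (nat_lit 5) (nat_lit 89) (nat_lit 5) (nat_lit 477) (nat_lit 452) (nat_lit 271)) (XT.lf (nat_lit 0) (nat_lit 58729781215) (nat_lit 228) (nat_lit 23639804275) (nat_lit 304) (nat_lit 21445895997) (nat_lit 85) (nat_lit 5) (nat_lit 88) (nat_lit 5) (nat_lit 89) (nat_lit 5) (nat_lit 478) (nat_lit 452) (nat_lit 270))) (XT.nd (nat_lit 78) (nat_lit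 76) (nat_lit 0) (XT.lf (nat_lit 0) (nat_lit 14488323350) (nat_lit 228) (nat_lit 89593247883) (nat_lit 304) (nat_lit 2860395560) (nat_lit 82) (nat_lit 5) (nat_lit 85) (nat_lit 5) (nat_lit 86) (nat_lit 5) (nat_lit 479) (nat_lit 452) (nat_lit 269)) (XT.lf (nat_lit 0) (nat_lit 17284362538) (nat_lit 304) (nat_lit 32241165487) (nat_lit 76) (nat_lit 60628096068) (nat_lit 81) (nat_lit 5) (nat_lit 85) (nat_lit 5) (nat_lit 82) (nat_lit 5) (nat_lit 480) (nat_lit 452) (nat_lit 268))))) (XT.nd (nat_lit 234) (nat_lit 456) (nat_lit 0) (XT.nd (nat_lit 78) (nat_lit 228) (nat_lit 0) (XT.lf (nat_lit 0) (nat_lit 31957098123) (nat_lit 228) (nat_lit 6881523372) (nat_lit 304) (nat_lit 74659978766) (nat_lit 78) (nat_lit 5) (nat_lit 81) (nat_lit 5) (nat_lit 82) (nat_lit 5) (nat_lit 481) (nat_lit 452) (nat_lit 267)) (XT.nd (nat_lit 78) (nat_lit 228) (nat_lit 0) (XT.lf (nat_lit 0) (nat_lit 62616668330) (nat_lit 304)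 (nat_lit 17100286285) (nat_lit 76) (nat_lit 37236567011) (nat_lit 78) (nat_lit 5) (nat_lit 82) (nat_lit 5) (nat_lit 79) (nat_lit 5) (nat_lit 482) (nat_lit 452) (nat_lit 266)) (XT.lf (nat_lit 0) (nat_lit 52117517801) (nat_lit 228) (nat_lit 36392099568) (nat_lit 304) (nat_lit 32025271821) (nat_lit 75) (nat_lit 5) (nat_lit 78) (nat_lit 5) (nat_lit 79) (nat_lit 5) (nat_lit 483) (nat_lit 452) (nat_lit 265)))) (XT.nd (nat_lit 156) (nat_lit 228) (nat_lit 0) (XT.nd (nat_lit 78) (nat_lit 76) (nat_lit 0) (XT.lf (nat_lit 0) (nat_lit 993276862) (nat_lit 152) (nat_lit 115155351643) (nat_lit 228) (nat_lit 8124126016) (nat_lit 73) (nat_lit 5) (nat_lit 75) (nat_lit 5) (nat_lit 76) (nat_lit 5) (nat_lit 484) (nat_lit 452) (nat_lit 264)) (XT.lf (nat_lit 0) (nat_lit 18202633426) (nat_lit 228) (nat_lit 52771153694) (nat_lit 76) (nat_lit 57121788585) (nat_lit 72) (nat_lit 5) (nat_lit 75) (nat_lit 5) (nat_lit 73)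 (nat_lit 5) (nat_lit 485) (nat_lit 452) (nat_lit 263))) (XT.nd (nat_lit 78) (nat_lit 0) (nat_lit 0) (XT.lf (nat_lit 0) (nat_lit 21827289315) (nat_lit 228) (nat_lit 24085727489) (nat_lit 304) (nat_lit 86172846635) (nat_lit 69) (nat_lit 5) (nat_lit 72) (nat_lit 5) (nat_lit 73) (nat_lit 5) (nat_lit 486) (nat_lit 452) (nat_lit 262)) (XT.lf (nat_lit 0) (nat_lit 76309418616) (nat_lit 304) (nat_lit 34651224502) (nat_lit 76) (nat_lit 25249997577) (nat_lit 69) (nat_lit 5) (nat_lit 73) (nat_lit 5) (nat_lit 70) (nat_lit 5) (nat_lit 487) (nat_lit 452) (nat_lit 261))))))) (XT.nd (nat_lit 1092) (nat_lit 1216) (nat_lit 0) (XT.nd (nat_lit 546) (nat_lit 684) (nat_lit 0) (XT.nd (nat_lit 234) (nat_lit 380) (nat_lit 0) (XT.nd (nat_lit 78) (nat_lit 228) (nat_lit 0) (XT.lf (nat_lit 0) (nat_lit 45807059385) (nat_lit 152) (nat_lit 63528160297) (nat_lit 228) (nat_lit 31150958268) (nat_lit 67) (nat_lit 5) (nat_lit 69)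 (nat_lit 5) (nat_lit 70) (nat_lit 5) (nat_lit 488) (nat_lit 452) (nat_lit 260)) (XT.nd (nat_lit 78) (nat_lit 228) (nat_lit 0) (XT.lf (nat_lit 0) (nat_lit 131490583790) (nat_lit 152) (nat_lit 13108127369) (nat_lit 228) (nat_lit 347460982) (nat_lit 67) (nat_lit 5) (nat_lit 69) (nat_lit 5) (nat_lit 70) (nat_lit 5) (nat_lit 489) (nat_lit 452) (nat_lit 259)) (XT.lf (nat_lit 0) (nat_lit 32771126589) (nat_lit 228) (nat_lit 76508279123) (nat_lit 76) (nat_lit 40234833184) (nat_lit 64) (nat_lit 5) (nat_lit 67) (nat_lit 5) (nat_lit 65) (nat_lit 5) (nat_lit 490) (nat_lit 452) (nat_lit 258)))) (XT.nd (nat_lit 156) (nat_lit 228) (nat_lit 0) (XT.nd (nat_lit 78) (nat_lit 0) (nat_lit 0) (XT.lf (nat_lit 0) (nat_lit 10055256364) (nat_lit 152) (nat_lit 58081785769) (nat_lit 228) (nat_lit 86143228352) (nat_lit 62) (nat_lit 5) (nat_lit 64) (nat_lit 5) (nat_lit 65) (nat_lit 5) (nat_lit 491) (nat_lit 452) (nat_lit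 257)) (XT.lf (nat_lit 0) (nat_lit 103602500839) (nat_lit 152) (nat_lit 2964051674) (nat_lit 228) (nat_lit 52653286261) (nat_lit 62) (nat_lit 5) (nat_lit 64) (nat_lit 5) (nat_lit 65) (nat_lit 5) (nat_lit 492) (nat_lit 452) (nat_lit 256))) (XT.nd (nat_lit 78) (nat_lit 76) (nat_lit 0) (XT.lf (nat_lit 0) (nat_lit 37771714040) (nat_lit 152) (nat_lit 110592448774) (nat_lit 228) (nat_lit 15969891514) (nat_lit 60) (nat_lit 5) (nat_lit 62) (nat_lit 5) (nat_lit 63) (nat_lit 5) (nat_lit 493) (nat_lit 452) (nat_lit 255)) (XT.lf (nat_lit 0) (nat_lit 22831557412) (nat_lit 228) (nat_lit 32312471761) (nat_lit 76) (nat_lit 114492072393) (nat_lit 59) (nat_lit 5) (nat_lit 62) (nat_lit 5) (nat_lit 60) (nat_lit 5) (nat_lit 494) (nat_lit 452) (nat_lit 254))))) (XT.nd (nat_lit 234) (nat_lit 380) (nat_lit 0) (XT.nd (nat_lit 78) (nat_lit 152) (nat_lit 0) (XT.lf (nat_lit 0) (nat_lit 64176661125) (nat_lit 228) (nat_lit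 106623980240) (nat_lit 76) (nat_lit 4332506017) (nat_lit 57) (nat_lit 5) (nat_lit 60) (nat_lit 5) (nat_lit 58) (nat_lit 5) (nat_lit 495) (nat_lit 452) (nat_lit 253)) (XT.nd (nat_lit 78) (nat_lit 152) (nat_lit 0) (XT.lf (nat_lit 0) (nat_lit 109048853656) (nat_lit 228) (nat_lit 6297573849) (nat_lit 76) (nat_lit 65485626359) (nat_lit 57) (nat_lit 5) (nat_lit 60) (nat_lit 5) (nat_lit 58) (nat_lit 5) (nat_lit 496) (nat_lit 452) (nat_lit 252)) (XT.lf (nat_lit 0) (nat_lit 102319420596) (nat_lit 152) (nat_lit 55442380381) (nat_lit 228) (nat_lit 28974247491) (nat_lit 55) (nat_lit 5) (nat_lit 57) (nat_lit 5) (nat_lit 58) (nat_lit 5) (nat_lit 497) (nat_lit 452) (nat_lit 251)))) (XT.nd (nat_lit 156) (nat_lit 152) (nat_lit 0) (XT.nd (nat_lit 78) (nat_lit 0) (nat_lit 0) (XT.lf (nat_lit 0) (nat_lit 16077863690) (nat_lit 228) (nat_lit 168848886024) (nat_lit 76) (nat_lit 7965321518) (nat_lit 52) (nat_lit 5)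 (nat_lit 55) (nat_lit 5) (nat_lit 53) (nat_lit 5) (nat_lit 498) (nat_lit 452) (nat_lit 250)) (XT.lf (nat_lit 0) (nat_lit 64770477878) (nat_lit 228) (nat_lit 59835583661) (nat_lit 76) (nat_lit 74608003153) (nat_lit 52) (nat_lit 5) (nat_lit 55) (nat_lit 5) (nat_lit 53) (nat_lit 5) (nat_lit 499) (nat_lit 452) (nat_lit 249))) (XT.nd (nat_lit 78) (nat_lit 0) (nat_lit 0) (XT.lf (nat_lit 0) (nat_lit 56434056359) (nat_lit 152) (nat_lit 60344434070) (nat_lit 228) (nat_lit 89029629058) (nat_lit 50) (nat_lit 5) (nat_lit 52) (nat_lit 5) (nat_lit 53) (nat_lit 5) (nat_lit 500) (nat_lit 452) (nat_lit 248)) (XT.lf (nat_lit 0) (nat_lit 172527860840) (nat_lit 228) (nat_lit 32215183596) (nat_lit 76) (nat_lit 7931784767) (nat_lit 50) (nat_lit 5) (nat_lit 53) (nat_lit 5) (nat_lit 51) (nat_lit 4) (nat_lit 501) (nat_lit 452) (nat_lit 247)))))) (XT.nd (nat_lit 546) (nat_lit 608) (nat_lit 0) (XT.nd (nat_lit 234) (nat_lit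 304) (nat_lit 0) (XT.nd (nat_lit 78) (nat_lit 152) (nat_lit 0) (XT.lf (nat_lit 0) (nat_lit 13299483875) (nat_lit 152) (nat_lit 127196079594) (nat_lit 76) (nat_lit 79256709419) (nat_lit 48) (nat_lit 5) (nat_lit 50) (nat_lit 5) (nat_lit 49) (nat_lit 5) (nat_lit 502) (nat_lit 452) (nat_lit 246)) (XT.nd (nat_lit 78) (nat_lit 152) (nat_lit 0) (XT.lf (nat_lit 0) (nat_lit 68623274556) (nat_lit 152) (nat_lit 3139370116) (nat_lit 76) (nat_lit 155360325910) (nat_lit 48) (nat_lit 5) (nat_lit 50) (nat_lit 5) (nat_lit 49) (nat_lit 5) (nat_lit 503) (nat_lit 452) (nat_lit 245)) (XT.lf (nat_lit 0) (nat_lit 128803241276) (nat_lit 228) (nat_lit 103476859408) (nat_lit 76) (nat_lit 2477603186) (nat_lit 46) (nat_lit 5) (nat_lit 49) (nat_lit 5) (nat_lit 47) (nat_lit 4) (nat_lit 504) (nat_lit 452) (nat_lit 244)))) (XT.nd (nat_lit 156) (nat_lit 152) (nat_lit 0) (XT.nd (nat_lit 78) (nat_lit 76) (nat_lit 0) (XT.lf (nat_lit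 0) (nat_lit 29526755095) (nat_lit 76) (nat_lit 164156632294) (nat_lit 152) (nat_lit 49006227416) (nat_lit 45) (nat_lit 5) (nat_lit 46) (nat_lit 5) (nat_lit 47) (nat_lit 4) (nat_lit 505) (nat_lit 452) (nat_lit 243)) (XT.lf (nat_lit 0) (nat_lit 12224961360) (nat_lit 152) (nat_lit 78355172312) (nat_lit 76) (nat_lit 160340521458) (nat_lit 44) (nat_lit 5) (nat_lit 46) (nat_lit 5) (nat_lit 45) (nat_lit 5) (nat_lit 506) (nat_lit 452) (nat_lit 242))) (XT.nd (nat_lit 78) (nat_lit 0) (nat_lit 0) (XT.lf (nat_lit 0) (nat_lit 64451882045) (nat_lit 152) (nat_lit 11424896766) (nat_lit 228) (nat_lit 183595999660) (nat_lit 42) (nat_lit 5) (nat_lit 44) (nat_lit 5) (nat_lit 45) (nat_lit 5) (nat_lit 507) (nat_lit 452) (nat_lit 241)) (XT.lf (nat_lit 0) (nat_lit 145178903151) (nat_lit 228) (nat_lit 52408062402) (nat_lit 76) (nat_lit 70742156653) (nat_lit 42) (nat_lit 5) (nat_lit 45) (nat_lit 5) (nat_lit 43) (nat_lit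 4) (nat_lit 508) (nat_lit 452) (nat_lit 240))))) (XT.nd (nat_lit 312) (nat_lit 228) (nat_lit 0) (XT.nd (nat_lit 156) (nat_lit 228) (nat_lit 0) (XT.nd (nat_lit 78) (nat_lit 76) (nat_lit 0) (XT.lf (nat_lit 0) (nat_lit 100359782260) (nat_lit 76) (nat_lit 119340282549) (nat_lit 152) (nat_lit 57840521790) (nat_lit 41) (nat_lit 5) (nat_lit 42) (nat_lit 5) (nat_lit 43) (nat_lit 4) (nat_lit 509) (nat_lit 452) (nat_lit 239)) (XT.lf (nat_lit 0) (nat_lit 11292931247) (nat_lit 152) (nat_lit 24765364254) (nat_lit 76) (nat_lit 251100856475) (nat_lit 40) (nat_lit 5) (nat_lit 42) (nat_lit 5) (nat_lit 41) (nat_lit 5) (nat_lit 510) (nat_lit 452) (nat_lit 238))) (XT.nd (nat_lit 78) (nat_lit 76) (nat_lit 0) (XT.lf (nat_lit 0) (nat_lit 84958841122) (nat_lit 228) (nat_lit 159192802953) (nat_lit 76) (nat_lit 52908611056) (nat_lit 38) (nat_lit 5) (nat_lit 41) (nat_lit 5) (nat_lit 39) (nat_lit 4) (nat_lit 511) (nat_lit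 452) (nat_lit 237)) (XT.lf (nat_lit 0) (nat_lit 1506013685) (nat_lit 76) (nat_lit 161842709492) (nat_lit 152) (nat_lit 144055656454) (nat_lit 37) (nat_lit 5) (nat_lit 38) (nat_lit 5) (nat_lit 39) (nat_lit 4) (nat_lit 512) (nat_lit 452) (nat_lit 236)))) (XT.nd (nat_lit 156) (nat_lit 76) (nat_lit 0) (XT.nd (nat_lit 78) (nat_lit 152) (nat_lit 0) (XT.lf (nat_lit 0) (nat_lit 175766136066) (nat_lit 76) (nat_lit 72587730003) (nat_lit 152) (nat_lit 69777055971) (nat_lit 37) (nat_lit 5) (nat_lit 38) (nat_lit 5) (nat_lit 39) (nat_lit 4) (nat_lit 513) (nat_lit 452) (nat_lit 235)) (XT.lf (nat_lit 0) (nat_lit 8763256804) (nat_lit 152) (nat_lit 299520742502) (nat_lit 76) (nat_lit 21062842515) (nat_lit 35) (nat_lit 5) (nat_lit 37) (nat_lit 5) (nat_lit 36) (nat_lit 4) (nat_lit 514) (nat_lit 452) (nat_lit 234))) (XT.nd (nat_lit 78) (nat_lit 76) (nat_lit 0) (XT.lf (nat_lit 0) (nat_lit 92525891282) (nat_lit 152)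 (nat_lit 127807705107) (nat_lit 76) (nat_lit 120550753277) (nat_lit 35) (nat_lit 5) (nat_lit 37) (nat_lit 5) (nat_lit 36) (nat_lit 4) (nat_lit 515) (nat_lit 452) (nat_lit 233)) (XT.lf (nat_lit 0) (nat_lit 54226142893) (nat_lit 76) (nat_lit 127096916187) (nat_lit 152) (nat_lit 171633353762) (nat_lit 34) (nat_lit 5) (nat_lit 35) (nat_lit 5) (nat_lit 36) (nat_lit 4) (nat_lit 516) (nat_lit 452) (nat_lit 232))))))))
noncomputable def xc202 : XT := (XT.nd (nat_lit 57954) (nat_lit 0) (nat_lit 3800) (XT.nd (nat_lit 1092) (nat_lit 380) (nat_lit 0) (XT.nd (nat_lit 546) (nat_lit 380) (nat_lit 0) (XT.nd (nat_lit 234) (nat_lit 228) (nat_lit 0) (XT.nd (nat_lit 78) (nat_lit 152) (nat_lit 0) (XT.lf (nat_lit 0) (nat_lit 249798468449) (nat_lit 76) (nat_lit 26925885785) (nat_lit 152) (nat_lit 88799511509) (nat_lit 34) (nat_lit 5) (nat_lit 35) (nat_lit 5) (nat_lit 36) (nat_lit 4) (nat_lit 517) (nat_lit 452) (nat_lit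 231)) (XT.nd (nat_lit 78) (nat_lit 0) (nat_lit 0) (XT.lf (nat_lit 0) (nat_lit 708888336) (nat_lit 152) (nat_lit 300915132770) (nat_lit 76) (nat_lit 76973369728) (nat_lit 32) (nat_lit 5) (nat_lit 34) (nat_lit 5) (nat_lit 33) (nat_lit 4) (nat_lit 518) (nat_lit 452) (nat_lit 230)) (XT.lf (nat_lit 0) (nat_lit 94141656331) (nat_lit 152) (nat_lit 109378243023) (nat_lit 76) (nat_lit 188610246652) (nat_lit 32) (nat_lit 5) (nat_lit 34) (nat_lit 5) (nat_lit 33) (nat_lit 4) (nat_lit 519) (nat_lit 452) (nat_lit 229)))) (XT.nd (nat_lit 156) (nat_lit 152) (nat_lit 0) (XT.nd (nat_lit 78) (nat_lit 0) (nat_lit 0) (XT.lf (nat_lit 0) (nat_lit 94768289071) (nat_lit 76) (nat_lit 98957173691) (nat_lit 152) (nat_lit 212540106187) (nat_lit 31) (nat_lit 5) (nat_lit 32) (nat_lit 5) (nat_lit 33) (nat_lit 4) (nat_lit 520) (nat_lit 452) (nat_lit 228)) (XT.lf (nat_lit 0) (nat_lit 300340146302) (nat_lit 152) (nat_lit 108295522082)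 (nat_lit 0) (nat_lit 12369510328) (nat_lit 31) (nat_lit 5) (nat_lit 33) (nat_lit 4) (nat_lit 31) (nat_lit 4) (nat_lit 521) (nat_lit 452) (nat_lit 227))) (XT.nd (nat_lit 78) (nat_lit 76) (nat_lit 0) (XT.lf (nat_lit 0) (nat_lit 106864029177) (nat_lit 76) (nat_lit 308712042288) (nat_lit 76) (nat_lit 20741172137) (nat_lit 30) (nat_lit 4) (nat_lit 31) (nat_lit 5) (nat_lit 31) (nat_lit 4) (nat_lit 522) (nat_lit 452) (nat_lit 226)) (XT.lf (nat_lit 0) (nat_lit 83348546573) (nat_lit 152) (nat_lit 117106572699) (nat_lit 76) (nat_lit 251780883298) (nat_lit 29) (nat_lit 5) (nat_lit 31) (nat_lit 5) (nat_lit 30) (nat_lit 4) (nat_lit 523) (nat_lit 452) (nat_lit 225))))) (XT.nd (nat_lit 234) (nat_lit 228) (nat_lit 0) (XT.nd (nat_lit 78) (nat_lit 76) (nat_lit 0) (XT.lf (nat_lit 0) (nat_lit 109005906543) (nat_lit 76) (nat_lit 84641514005) (nat_lit 152) (nat_lit 275201192553) (nat_lit 28) (nat_lit 5) (nat_lit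 29) (nat_lit 5) (nat_lit 30) (nat_lit 4) (nat_lit 524) (nat_lit 452) (nat_lit 224)) (XT.nd (nat_lit 78) (nat_lit 76) (nat_lit 0) (XT.lf (nat_lit 0) (nat_lit 312053921240) (nat_lit 152) (nat_lit 136312956462) (nat_lit 0) (nat_lit 37795342314) (nat_lit 28) (nat_lit 5) (nat_lit 30) (nat_lit 4) (nat_lit 28) (nat_lit 4) (nat_lit 525) (nat_lit 452) (nat_lit 223)) (XT.lf (nat_lit 0) (nat_lit 100212822159) (nat_lit 76) (nat_lit 339119923795) (nat_lit 76) (nat_lit 64861161385) (nat_lit 27) (nat_lit 4) (nat_lit 28) (nat_lit 5) (nat_lit 28) (nat_lit 4) (nat_lit 526) (nat_lit 452) (nat_lit 222)))) (XT.nd (nat_lit 156) (nat_lit 76) (nat_lit 0) (XT.nd (nat_lit 78) (nat_lit 76) (nat_lit 0) (XT.lf (nat_lit 0) (nat_lit 50599075944) (nat_lit 152) (nat_lit 170530831468) (nat_lit 76) (nat_lit 301841047962) (nat_lit 26) (nat_lit 5) (nat_lit 28) (nat_lit 5) (nat_lit 27) (nat_lit 4) (nat_lit 527) (nat_lit 452) (nat_lit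 221)) (XT.lf (nat_lit 0) (nat_lit 75959501699) (nat_lit 76) (nat_lit 94878842339) (nat_lit 152) (nat_lit 371736057934) (nat_lit 25) (nat_lit 5) (nat_lit 26) (nat_lit 5) (nat_lit 27) (nat_lit 4) (nat_lit 528) (nat_lit 452) (nat_lit 220))) (XT.nd (nat_lit 78) (nat_lit 76) (nat_lit 0) (XT.lf (nat_lit 0) (nat_lit 300613146335) (nat_lit 152) (nat_lit 222954846919) (nat_lit 0) (nat_lit 39413849114) (nat_lit 25) (nat_lit 5) (nat_lit 27) (nat_lit 4) (nat_lit 25) (nat_lit 4) (nat_lit 529) (nat_lit 452) (nat_lit 219)) (XT.lf (nat_lit 0) (nat_lit 32368513330) (nat_lit 76) (nat_lit 406568776203) (nat_lit 76) (nat_lit 145369335219) (nat_lit 24) (nat_lit 4) (nat_lit 25) (nat_lit 5) (nat_lit 25) (nat_lit 4) (nat_lit 530) (nat_lit 452) (nat_lit 218)))))) (XT.nd (nat_lit 546) (nat_lit 0) (nat_lit 0) (XT.nd (nat_lit 234) (nat_lit 228) (nat_lit 0) (XT.nd (nat_lit 78) (nat_lit 152) (nat_lit 0) (XT.lf (nat_lit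 0) (nat_lit 308198235776) (nat_lit 76) (nat_lit 279755101754) (nat_lit 76) (nat_lit 18555523851) (nat_lit 24) (nat_lit 4) (nat_lit 25) (nat_lit 5) (nat_lit 25) (nat_lit 4) (nat_lit 531) (nat_lit 452) (nat_lit 217)) (XT.nd (nat_lit 78) (nat_lit 76) (nat_lit 0) (XT.lf (nat_lit 0) (nat_lit 110930949338) (nat_lit 152) (nat_lit 33791262158) (nat_lit 76) (nat_lit 485009545078) (nat_lit 23) (nat_lit 5) (nat_lit 25) (nat_lit 5) (nat_lit 24) (nat_lit 4) (nat_lit 532) (nat_lit 452) (nat_lit 216)) (XT.lf (nat_lit 0) (nat_lit 250221395227) (nat_lit 152) (nat_lit 402221880047) (nat_lit 0) (nat_lit 1459649998) (nat_lit 22) (nat_lit 5) (nat_lit 24) (nat_lit 4) (nat_lit 22) (nat_lit 4) (nat_lit 533) (nat_lit 452) (nat_lit 215)))) (XT.nd (nat_lit 156) (nat_lit 152) (nat_lit 0) (XT.nd (nat_lit 78) (nat_lit 76) (nat_lit 0) (XT.lf (nat_lit 0) (nat_lit 399430373119) (nat_lit 152) (nat_lit 129036063559) (nat_lit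 0) (nat_lit 150668515247) (nat_lit 22) (nat_lit 5) (nat_lit 24) (nat_lit 4) (nat_lit 22) (nat_lit 4) (nat_lit 534) (nat_lit 452) (nat_lit 214)) (XT.lf (nat_lit 0) (nat_lit 163026655565) (nat_lit 76) (nat_lit 395618315473) (nat_lit 76) (nat_lit 146856350322) (nat_lit 21) (nat_lit 4) (nat_lit 22) (nat_lit 5) (nat_lit 22) (nat_lit 4) (nat_lit 535) (nat_lit 452) (nat_lit 213))) (XT.nd (nat_lit 78) (nat_lit 152) (nat_lit 0) (XT.lf (nat_lit 0) (nat_lit 474172096296) (nat_lit 76) (nat_lit 253833361183) (nat_lit 76) (nat_lit 5071293861) (nat_lit 21) (nat_lit 4) (nat_lit 22) (nat_lit 5) (nat_lit 22) (nat_lit 4) (nat_lit 536) (nat_lit 452) (nat_lit 212)) (XT.lf (nat_lit 0) (nat_lit 37808550800) (nat_lit 76) (nat_lit 101982042090) (nat_lit 152) (nat_lit 622098592928) (nat_lit 19) (nat_lit 5) (nat_lit 20) (nat_lit 5) (nat_lit 21) (nat_lit 4) (nat_lit 537) (nat_lit 452) (nat_lit 211))))) (XT.nd (nat_lit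 56004) (nat_lit 0) (nat_lit 8132) (XT.nd (nat_lit 55848) (nat_lit 0) (nat_lit 8056) (XT.lf (nat_lit 0) (nat_lit 297078716095) (nat_lit 152) (nat_lit 434629410019) (nat_lit 0) (nat_lit 60162280572) (nat_lit 19) (nat_lit 5) (nat_lit 21) (nat_lit 4) (nat_lit 19) (nat_lit 4) (nat_lit 538) (nat_lit 452) (nat_lit 210)) (XT.nd (nat_lit 78) (nat_lit 0) (nat_lit 0) (XT.lf (nat_lit 0) (nat_lit 8871434824) (nat_lit 836) (nat_lit 9055870122) (nat_lit 836) (nat_lit 9055870122) (nat_lit 125) (nat_lit 3) (nat_lit 136) (nat_lit 3) (nat_lit 136) (nat_lit 5) (nat_lit 453) (nat_lit 453) (nat_lit 294)) (XT.lf (nat_lit 76) (nat_lit 8600902868) (nat_lit 0) (nat_lit 9741814996) (nat_lit 836) (nat_lit 36964968645) (nat_lit 126) (nat_lit 5) (nat_lit 125) (nat_lit 3) (nat_lit 136) (nat_lit 5) (nat_lit 454) (nat_lit 453) (nat_lit 293)))) (XT.nd (nat_lit 156) (nat_lit 0) (nat_lit 76) (XT.nd (nat_lit 78) (nat_lit 0) (nat_lit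 0) (XT.lf (nat_lit 0) (nat_lit 19558890060) (nat_lit 760) (nat_lit 19704631815) (nat_lit 836) (nat_lit 17423251795) (nat_lit 126) (nat_lit 5) (nat_lit 136) (nat_lit 5) (nat_lit 137) (nat_lit 5) (nat_lit 455) (nat_lit 453) (nat_lit 292)) (XT.lf (nat_lit 76) (nat_lit 8767742933) (nat_lit 0) (nat_lit 12363376509) (nat_lit 836) (nat_lit 36988933841) (nat_lit 127) (nat_lit 5) (nat_lit 126) (nat_lit 5) (nat_lit 137) (nat_lit 5) (nat_lit 456) (nat_lit 453) (nat_lit 291))) (XT.nd (nat_lit 78) (nat_lit 0) (nat_lit 0) (XT.lf (nat_lit 0) (nat_lit 23367814401) (nat_lit 760) (nat_lit 20514769552) (nat_lit 836) (nat_lit 15713120714) (nat_lit 127) (nat_lit 5) (nat_lit 137) (nat_lit 5) (nat_lit 138) (nat_lit 5) (nat_lit 457) (nat_lit 453) (nat_lit 290)) (XT.lf (nat_lit 76) (nat_lit 9877280704) (nat_lit 0) (nat_lit 16194731822) (nat_lit 836) (nat_lit 35055343146) (nat_lit 128) (nat_lit 5) (nat_lit 127) (nat_lit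 5) (nat_lit 138) (nat_lit 5) (nat_lit 458) (nat_lit 453) (nat_lit 289))))))) (XT.nd (nat_lit 1092) (nat_lit 2356) (nat_lit 0) (XT.nd (nat_lit 546) (nat_lit 1520) (nat_lit 0) (XT.nd (nat_lit 234) (nat_lit 608) (nat_lit 0) (XT.nd (nat_lit 78) (nat_lit 0) (nat_lit 0) (XT.lf (nat_lit 0) (nat_lit 29464427027) (nat_lit 760) (nat_lit 20424683138) (nat_lit 836) (nat_lit 12818829189) (nat_lit 128) (nat_lit 5) (nat_lit 138) (nat_lit 5) (nat_lit 139) (nat_lit 5) (nat_lit 459) (nat_lit 453) (nat_lit 288)) (XT.nd (nat_lit 78) (nat_lit 0) (nat_lit 76) (XT.lf (nat_lit 76) (nat_lit 12061706883) (nat_lit 0) (nat_lit 21417444893) (nat_lit 836) (nat_lit 30865766398) (nat_lit 129) (nat_lit 5) (nat_lit 128) (nat_lit 5) (nat_lit 139) (nat_lit 5) (nat_lit 460) (nat_lit 453) (nat_lit 287)) (XT.lf (nat_lit 0) (nat_lit 38177476770) (nat_lit 760) (nat_lit 19303846951) (nat_lit 836) (nat_lit 8558279422) (nat_lit 129)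 (nat_lit 5) (nat_lit 139) (nat_lit 5) (nat_lit 140) (nat_lit 5) (nat_lit 461) (nat_lit 453) (nat_lit 286)))) (XT.nd (nat_lit 156) (nat_lit 684) (nat_lit 0) (XT.nd (nat_lit 78) (nat_lit 0) (nat_lit 76) (XT.lf (nat_lit 76) (nat_lit 15467603087) (nat_lit 0) (nat_lit 28234693515) (nat_lit 836) (nat_lit 24087147218) (nat_lit 130) (nat_lit 5) (nat_lit 129) (nat_lit 5) (nat_lit 140) (nat_lit 5) (nat_lit 462) (nat_lit 453) (nat_lit 285)) (XT.lf (nat_lit 0) (nat_lit 49873285537) (nat_lit 760) (nat_lit 17007483877) (nat_lit 76) (nat_lit 2727511084) (nat_lit 130) (nat_lit 5) (nat_lit 140) (nat_lit 5) (nat_lit 131) (nat_lit 5) (nat_lit 463) (nat_lit 453) (nat_lit 284))) (XT.nd (nat_lit 78) (nat_lit 0) (nat_lit 0) (XT.lf (nat_lit 0) (nat_lit 20257251903) (nat_lit 760) (nat_lit 36873773569) (nat_lit 836) (nat_lit 14348123812) (nat_lit 120) (nat_lit 5) (nat_lit 130) (nat_lit 5) (nat_lit 131) (nat_lit 5) (nat_lit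 464) (nat_lit 453) (nat_lit 283)) (XT.lf (nat_lit 0) (nat_lit 59974865694) (nat_lit 760) (nat_lit 5063913638) (nat_lit 836) (nat_lit 8390426166) (nat_lit 120) (nat_lit 5) (nat_lit 130) (nat_lit 5) (nat_lit 131) (nat_lit 5) (nat_lit 465) (nat_lit 453) (nat_lit 282))))) (XT.nd (nat_lit 234) (nat_lit 684) (nat_lit 0) (XT.nd (nat_lit 78) (nat_lit 456) (nat_lit 0) (XT.lf (nat_lit 0) (nat_lit 26610046375) (nat_lit 380) (nat_lit 47588884332) (nat_lit 456) (nat_lit 1234983646) (nat_lit 115) (nat_lit 5) (nat_lit 120) (nat_lit 5) (nat_lit 121) (nat_lit 5) (nat_lit 466) (nat_lit 453) (nat_lit 281)) (XT.nd (nat_lit 78) (nat_lit 380) (nat_lit 0) (XT.lf (nat_lit 0) (nat_lit 6391049964) (nat_lit 456) (nat_lit 8568321406) (nat_lit 76) (nat_lit 62558898454) (nat_lit 114) (nat_lit 5) (nat_lit 120) (nat_lit 5) (nat_lit 115) (nat_lit 5) (nat_lit 467) (nat_lit 453) (nat_lit 280)) (XT.lf (nat_lit 0) (nat_lit 15209875745)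 (nat_lit 456) (nat_lit 45196765509) (nat_lit 76) (nat_lit 19256540107) (nat_lit 109) (nat_lit 5) (nat_lit 115) (nat_lit 5) (nat_lit 110) (nat_lit 5) (nat_lit 468) (nat_lit 453) (nat_lit 279)))) (XT.nd (nat_lit 156) (nat_lit 304) (nat_lit 0) (XT.nd (nat_lit 78) (nat_lit 380) (nat_lit 0) (XT.lf (nat_lit 0) (nat_lit 24861587473) (nat_lit 456) (nat_lit 2206161421) (nat_lit 76) (nat_lit 54827992612) (nat_lit 109) (nat_lit 5) (nat_lit 115) (nat_lit 5) (nat_lit 110) (nat_lit 5) (nat_lit 469) (nat_lit 453) (nat_lit 278)) (XT.lf (nat_lit 0) (nat_lit 35822901217) (nat_lit 456) (nat_lit 39987879957) (nat_lit 76) (nat_lit 8387797913) (nat_lit 104) (nat_lit 5) (nat_lit 110) (nat_lit 5) (nat_lit 105) (nat_lit 5) (nat_lit 470) (nat_lit 453) (nat_lit 277))) (XT.nd (nat_lit 78) (nat_lit 0) (nat_lit 0) (XT.lf (nat_lit 0) (nat_lit 6162384015) (nat_lit 304) (nat_lit 41747098175) (nat_lit 380) (nat_lit 38678216520)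 (nat_lit 100) (nat_lit 5) (nat_lit 104) (nat_lit 5) (nat_lit 105) (nat_lit 5) (nat_lit 471) (nat_lit 453) (nat_lit 276)) (XT.lf (nat_lit 0) (nat_lit 56007653250) (nat_lit 304) (nat_lit 5269255817) (nat_lit 380) (nat_lit 27785539632) (nat_lit 100) (nat_lit 5) (nat_lit 104) (nat_lit 5) (nat_lit 105) (nat_lit 5) (nat_lit 472) (nat_lit 453) (nat_lit 275)))))) (XT.nd (nat_lit 546) (nat_lit 1216) (nat_lit 0) (XT.nd (nat_lit 234) (nat_lit 532) (nat_lit 0) (XT.nd (nat_lit 78) (nat_lit 304) (nat_lit 0) (XT.lf (nat_lit 0) (nat_lit 16702307515) (nat_lit 304) (nat_lit 59386233645) (nat_lit 380) (nat_lit 15533603549) (nat_lit 96) (nat_lit 5) (nat_lit 100) (nat_lit 5) (nat_lit 101) (nat_lit 5) (nat_lit 473) (nat_lit 453) (nat_lit 274)) (XT.nd (nat_lit 78) (nat_lit 304) (nat_lit 0) (XT.lf (nat_lit 0) (nat_lit 70004838018) (nat_lit 304) (nat_lit 22280057816) (nat_lit 380) (nat_lit 1992722844) (nat_lit 96)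 (nat_lit 5) (nat_lit 100) (nat_lit 5) (nat_lit 101) (nat_lit 5) (nat_lit 474) (nat_lit 453) (nat_lit 273)) (XT.lf (nat_lit 0) (nat_lit 12567601956) (nat_lit 304) (nat_lit 67639915684) (nat_lit 76) (nat_lit 16812121267) (nat_lit 92) (nat_lit 5) (nat_lit 96) (nat_lit 5) (nat_lit 93) (nat_lit 5) (nat_lit 475) (nat_lit 453) (nat_lit 272)))) (XT.nd (nat_lit 156) (nat_lit 228) (nat_lit 0) (XT.nd (nat_lit 78) (nat_lit 304) (nat_lit 0) (XT.lf (nat_lit 0) (nat_lit 28571421820) (nat_lit 304) (nat_lit 13726089385) (nat_lit 76) (nat_lit 57560493371) (nat_lit 92) (nat_lit 5) (nat_lit 96) (nat_lit 5) (nat_lit 93) (nat_lit 5) (nat_lit 476) (nat_lit 453) (nat_lit 271)) (XT.lf (nat_lit 0) (nat_lit 44300582650) (nat_lit 304) (nat_lit 1765925676) (nat_lit 380) (nat_lit 56737226591) (nat_lit 88) (nat_lit 5) (nat_lit 92) (nat_lit 5) (nat_lit 93) (nat_lit 5) (nat_lit 477) (nat_lit 453) (nat_lit 270))) (XT.nd (nat_lit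 78) (nat_lit 228) (nat_lit 0) (XT.lf (nat_lit 0) (nat_lit 65308932179) (nat_lit 380) (nat_lit 821448464) (nat_lit 76) (nat_lit 39722742142) (nat_lit 88) (nat_lit 5) (nat_lit 93) (nat_lit 5) (nat_lit 89) (nat_lit 5) (nat_lit 478) (nat_lit 453) (nat_lit 269)) (XT.lf (nat_lit 0) (nat_lit 61689108863) (nat_lit 228) (nat_lit 24815917927) (nat_lit 304) (nat_lit 22500375933) (nat_lit 85) (nat_lit 5) (nat_lit 88) (nat_lit 5) (nat_lit 89) (nat_lit 5) (nat_lit 479) (nat_lit 453) (nat_lit 268))))) (XT.nd (nat_lit 312) (nat_lit 684) (nat_lit 0) (XT.nd (nat_lit 156) (nat_lit 228) (nat_lit 0) (XT.nd (nat_lit 78) (nat_lit 76) (nat_lit 0) (XT.lf (nat_lit 0) (nat_lit 15235958554) (nat_lit 228) (nat_lit 94066295445) (nat_lit 304) (nat_lit 2985976411) (nat_lit 82) (nat_lit 5) (nat_lit 85) (nat_lit 5) (nat_lit 86) (nat_lit 5) (nat_lit 480) (nat_lit 453) (nat_lit 267)) (XT.lf (nat_lit 0) (nat_lit 18164657591) (nat_lit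 304) (nat_lit 33830574725) (nat_lit 76) (nat_lit 63665265043) (nat_lit 81) (nat_lit 5) (nat_lit 85) (nat_lit 5) (nat_lit 82) (nat_lit 5) (nat_lit 481) (nat_lit 453) (nat_lit 266))) (XT.nd (nat_lit 78) (nat_lit 0) (nat_lit 0) (XT.lf (nat_lit 0) (nat_lit 33577236759) (nat_lit 228) (nat_lit 7218975081) (nat_lit 304) (nat_lit 78376531574) (nat_lit 78) (nat_lit 5) (nat_lit 81) (nat_lit 5) (nat_lit 82) (nat_lit 5) (nat_lit 482) (nat_lit 453) (nat_lit 265)) (XT.lf (nat_lit 0) (nat_lit 65762513837) (nat_lit 304) (nat_lit 17933427109) (nat_lit 76) (nat_lit 39104502443) (nat_lit 78) (nat_lit 5) (nat_lit 82) (nat_lit 5) (nat_lit 79) (nat_lit 5) (nat_lit 483) (nat_lit 453) (nat_lit 264)))) (XT.nd (nat_lit 156) (nat_lit 304) (nat_lit 0) (XT.nd (nat_lit 78) (nat_lit 152) (nat_lit 0) (XT.lf (nat_lit 0) (nat_lit 54744914383) (nat_lit 228) (nat_lit 38204817083) (nat_lit 304) (nat_lit 33611166987) (nat_lit 75)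 (nat_lit 5) (nat_lit 78) (nat_lit 5) (nat_lit 79) (nat_lit 5) (nat_lit 484) (nat_lit 453) (nat_lit 263)) (XT.lf (nat_lit 0) (nat_lit 1064731830) (nat_lit 152) (nat_lit 120905707141) (nat_lit 228) (nat_lit 8515230958) (nat_lit 73) (nat_lit 5) (nat_lit 75) (nat_lit 5) (nat_lit 76) (nat_lit 5) (nat_lit 485) (nat_lit 453) (nat_lit 262))) (XT.nd (nat_lit 78) (nat_lit 228) (nat_lit 0) (XT.lf (nat_lit 0) (nat_lit 19126687023) (nat_lit 228) (nat_lit 55388494551) (nat_lit 76) (nat_lit 59984473766) (nat_lit 72) (nat_lit 5) (nat_lit 75) (nat_lit 5) (nat_lit 73) (nat_lit 5) (nat_lit 486) (nat_lit 453) (nat_lit 261)) (XT.lf (nat_lit 0) (nat_lit 22939528401) (nat_lit 228) (nat_lit 25282724131) (nat_lit 304) (nat_lit 90467221926) (nat_lit 69) (nat_lit 5) (nat_lit 72) (nat_lit 5) (nat_lit 73) (nat_lit 5) (nat_lit 487) (nat_lit 453) (nat_lit 260))))))))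
noncomputable def xc203 : XT := (XT.nd (nat_lit 2184) (nat_lit 1216) (nat_lit 0) (XT.nd (nat_lit 1092) (nat_lit 1140) (nat_lit 0) (XT.nd (nat_lit 546) (nat_lit 760) (nat_lit 0) (XT.nd (nat_lit 234) (nat_lit 532) (nat_lit 0) (XT.nd (nat_lit 78) (nat_lit 152) (nat_lit 0) (XT.lf (nat_lit 0) (nat_lit 80137935928) (nat_lit 304) (nat_lit 36363363861) (nat_lit 76) (nat_lit 26519217851) (nat_lit 69) (nat_lit 5) (nat_lit 73) (nat_lit 5) (nat_lit 70) (nat_lit 5) (nat_lit 488) (nat_lit 453) (nat_lit 259)) (XT.nd (nat_lit 78) (nat_lit 0) (nat_lit 0) (XT.lf (nat_lit 0) (nat_lit 48117504837) (nat_lit 152) (nat_lit 66697214656) (nat_lit 228) (nat_lit 32695127776) (nat_lit 67) (nat_lit 5) (nat_lit 69) (nat_lit 5) (nat_lit 70) (nat_lit 5) (nat_lit 489) (nat_lit 453) (nat_lit 258)) (XT.lf (nat_lit 0) (nat_lit 138084248677) (nat_lit 152) (nat_lit 13756530255) (nat_lit 228) (nat_lit 352092692) (nat_lit 67) (nat_lit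 5) (nat_lit 69) (nat_lit 5) (nat_lit 70) (nat_lit 5) (nat_lit 490) (nat_lit 453) (nat_lit 257)))) (XT.nd (nat_lit 156) (nat_lit 152) (nat_lit 0) (XT.nd (nat_lit 78) (nat_lit 152) (nat_lit 0) (XT.lf (nat_lit 0) (nat_lit 34421841552) (nat_lit 228) (nat_lit 80313970006) (nat_lit 76) (nat_lit 42253529072) (nat_lit 64) (nat_lit 5) (nat_lit 67) (nat_lit 5) (nat_lit 65) (nat_lit 5) (nat_lit 491) (nat_lit 453) (nat_lit 256)) (XT.lf (nat_lit 0) (nat_lit 10577424141) (nat_lit 152) (nat_lit 60978352715) (nat_lit 228) (nat_lit 90437910852) (nat_lit 62) (nat_lit 5) (nat_lit 64) (nat_lit 5) (nat_lit 65) (nat_lit 5) (nat_lit 492) (nat_lit 453) (nat_lit 255))) (XT.nd (nat_lit 78) (nat_lit 152) (nat_lit 0) (XT.lf (nat_lit 0) (nat_lit 108801106795) (nat_lit 152) (nat_lit 3105090122) (nat_lit 228) (nat_lit 55274065890) (nat_lit 62) (nat_lit 5) (nat_lit 64) (nat_lit 5) (nat_lit 65) (nat_lit 5) (nat_lit 493) (nat_lit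 453) (nat_lit 254)) (XT.lf (nat_lit 0) (nat_lit 39678931274) (nat_lit 152) (nat_lit 116114614981) (nat_lit 228) (nat_lit 16756650056) (nat_lit 60) (nat_lit 5) (nat_lit 62) (nat_lit 5) (nat_lit 63) (nat_lit 5) (nat_lit 494) (nat_lit 453) (nat_lit 253))))) (XT.nd (nat_lit 234) (nat_lit 532) (nat_lit 0) (XT.nd (nat_lit 78) (nat_lit 152) (nat_lit 0) (XT.lf (nat_lit 0) (nat_lit 23983954719) (nat_lit 228) (nat_lit 33909991507) (nat_lit 76) (nat_lit 120223417661) (nat_lit 59) (nat_lit 5) (nat_lit 62) (nat_lit 5) (nat_lit 60) (nat_lit 5) (nat_lit 495) (nat_lit 453) (nat_lit 252)) (XT.nd (nat_lit 78) (nat_lit 0) (nat_lit 0) (XT.lf (nat_lit 0) (nat_lit 67396189371) (nat_lit 228) (nat_lit 111936949464) (nat_lit 76) (nat_lit 4556129455) (nat_lit 57) (nat_lit 5) (nat_lit 60) (nat_lit 5) (nat_lit 58) (nat_lit 5) (nat_lit 496) (nat_lit 453) (nat_lit 251)) (XT.lf (nat_lit 0) (nat_lit 114511482234) (nat_lit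 228) (nat_lit 6595090839) (nat_lit 76) (nat_lit 68766572570) (nat_lit 57) (nat_lit 5) (nat_lit 60) (nat_lit 5) (nat_lit 58) (nat_lit 5) (nat_lit 497) (nat_lit 453) (nat_lit 250)))) (XT.nd (nat_lit 156) (nat_lit 152) (nat_lit 0) (XT.nd (nat_lit 78) (nat_lit 228) (nat_lit 0) (XT.lf (nat_lit 0) (nat_lit 107452473301) (nat_lit 152) (nat_lit 58207385271) (nat_lit 228) (nat_lit 30412492400) (nat_lit 55) (nat_lit 5) (nat_lit 57) (nat_lit 5) (nat_lit 58) (nat_lit 5) (nat_lit 498) (nat_lit 453) (nat_lit 249)) (XT.lf (nat_lit 0) (nat_lit 16891787099) (nat_lit 228) (nat_lit 177273808541) (nat_lit 76) (nat_lit 8370576244) (nat_lit 52) (nat_lit 5) (nat_lit 55) (nat_lit 5) (nat_lit 53) (nat_lit 5) (nat_lit 499) (nat_lit 453) (nat_lit 248))) (XT.nd (nat_lit 78) (nat_lit 152) (nat_lit 0) (XT.lf (nat_lit 0) (nat_lit 68018554367) (nat_lit 228) (nat_lit 62810675430) (nat_lit 76) (nat_lit 78345059167) (nat_lit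 52) (nat_lit 5) (nat_lit 55) (nat_lit 5) (nat_lit 53) (nat_lit 5) (nat_lit 500) (nat_lit 453) (nat_lit 247)) (XT.lf (nat_lit 0) (nat_lit 59272177439) (nat_lit 152) (nat_lit 63354591556) (nat_lit 228) (nat_lit 93471287495) (nat_lit 50) (nat_lit 5) (nat_lit 52) (nat_lit 5) (nat_lit 53) (nat_lit 5) (nat_lit 501) (nat_lit 453) (nat_lit 246)))))) (XT.nd (nat_lit 546) (nat_lit 532) (nat_lit 0) (XT.nd (nat_lit 234) (nat_lit 456) (nat_lit 0) (XT.nd (nat_lit 78) (nat_lit 152) (nat_lit 0) (XT.lf (nat_lit 0) (nat_lit 181163267536) (nat_lit 228) (nat_lit 33809964737) (nat_lit 76) (nat_lit 8334886499) (nat_lit 50) (nat_lit 5) (nat_lit 53) (nat_lit 5) (nat_lit 51) (nat_lit 4) (nat_lit 502) (nat_lit 453) (nat_lit 245)) (XT.nd (nat_lit 78) (nat_lit 0) (nat_lit 0) (XT.lf (nat_lit 0) (nat_lit 13973433806) (nat_lit 152) (nat_lit 133539865370) (nat_lit 76) (nat_lit 83226137473) (nat_lit 48) (nat_lit 5) (nat_lit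 50) (nat_lit 5) (nat_lit 49) (nat_lit 5) (nat_lit 503) (nat_lit 453) (nat_lit 244)) (XT.lf (nat_lit 0) (nat_lit 72062986604) (nat_lit 152) (nat_lit 3281083190) (nat_lit 76) (nat_lit 163134620856) (nat_lit 48) (nat_lit 5) (nat_lit 50) (nat_lit 5) (nat_lit 49) (nat_lit 5) (nat_lit 504) (nat_lit 453) (nat_lit 243)))) (XT.nd (nat_lit 156) (nat_lit 228) (nat_lit 0) (XT.nd (nat_lit 78) (nat_lit 76) (nat_lit 0) (XT.lf (nat_lit 0) (nat_lit 135251882508) (nat_lit 228) (nat_lit 108635376800) (nat_lit 76) (nat_lit 2607904803) (nat_lit 46) (nat_lit 5) (nat_lit 49) (nat_lit 5) (nat_lit 47) (nat_lit 4) (nat_lit 505) (nat_lit 453) (nat_lit 242)) (XT.lf (nat_lit 0) (nat_lit 31018171241) (nat_lit 76) (nat_lit 172357696331) (nat_lit 152) (nat_lit 51447811484) (nat_lit 45) (nat_lit 5) (nat_lit 46) (nat_lit 5) (nat_lit 47) (nat_lit 4) (nat_lit 506) (nat_lit 453) (nat_lit 241))) (XT.nd (nat_lit 78) (nat_lit 152)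 (nat_lit 0) (XT.lf (nat_lit 0) (nat_lit 12844255118) (nat_lit 152) (nat_lit 82258303669) (nat_lit 76) (nat_lit 168363725957) (nat_lit 44) (nat_lit 5) (nat_lit 46) (nat_lit 5) (nat_lit 45) (nat_lit 5) (nat_lit 507) (nat_lit 453) (nat_lit 240)) (XT.lf (nat_lit 0) (nat_lit 67688867482) (nat_lit 152) (nat_lit 11989637520) (nat_lit 228) (nat_lit 192767517212) (nat_lit 42) (nat_lit 5) (nat_lit 44) (nat_lit 5) (nat_lit 45) (nat_lit 5) (nat_lit 508) (nat_lit 453) (nat_lit 239))))) (XT.nd (nat_lit 234) (nat_lit 380) (nat_lit 0) (XT.nd (nat_lit 78) (nat_lit 152) (nat_lit 0) (XT.lf (nat_lit 0) (nat_lit 152445456687) (nat_lit 228) (nat_lit 55014479837) (nat_lit 76) (nat_lit 74285260594) (nat_lit 42) (nat_lit 5) (nat_lit 45) (nat_lit 5) (nat_lit 43) (nat_lit 4) (nat_lit 509) (nat_lit 453) (nat_lit 238)) (XT.nd (nat_lit 78) (nat_lit 76) (nat_lit 0) (XT.lf (nat_lit 0) (nat_lit 105391531482) (nat_lit 76) (nat_lit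 125300997476) (nat_lit 152) (nat_lit 60724713184) (nat_lit 41) (nat_lit 5) (nat_lit 42) (nat_lit 5) (nat_lit 43) (nat_lit 4) (nat_lit 510) (nat_lit 453) (nat_lit 237)) (XT.lf (nat_lit 0) (nat_lit 11864800607) (nat_lit 152) (nat_lit 25990288110) (nat_lit 76) (nat_lit 263661659046) (nat_lit 40) (nat_lit 5) (nat_lit 42) (nat_lit 5) (nat_lit 41) (nat_lit 5) (nat_lit 511) (nat_lit 453) (nat_lit 236)))) (XT.nd (nat_lit 156) (nat_lit 152) (nat_lit 0) (XT.nd (nat_lit 78) (nat_lit 76) (nat_lit 0) (XT.lf (nat_lit 0) (nat_lit 89213961398) (nat_lit 228) (nat_lit 167139053527) (nat_lit 76) (nat_lit 55559893411) (nat_lit 38) (nat_lit 5) (nat_lit 41) (nat_lit 5) (nat_lit 39) (nat_lit 4) (nat_lit 512) (nat_lit 453) (nat_lit 235)) (XT.lf (nat_lit 0) (nat_lit 1594487983) (nat_lit 76) (nat_lit 169928713431) (nat_lit 152) (nat_lit 151251044485) (nat_lit 37) (nat_lit 5) (nat_lit 38) (nat_lit 5) (nat_lit 39) (nat_lit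 4) (nat_lit 513) (nat_lit 453) (nat_lit 234))) (XT.nd (nat_lit 78) (nat_lit 152) (nat_lit 0) (XT.lf (nat_lit 0) (nat_lit 184566989168) (nat_lit 76) (nat_lit 76211276945) (nat_lit 152) (nat_lit 73258866110) (nat_lit 37) (nat_lit 5) (nat_lit 38) (nat_lit 5) (nat_lit 39) (nat_lit 4) (nat_lit 514) (nat_lit 453) (nat_lit 233)) (XT.lf (nat_lit 0) (nat_lit 9208200221) (nat_lit 152) (nat_lit 314483970166) (nat_lit 76) (nat_lit 22121673970) (nat_lit 35) (nat_lit 5) (nat_lit 37) (nat_lit 5) (nat_lit 36) (nat_lit 4) (nat_lit 515) (nat_lit 453) (nat_lit 232))))))) (XT.nd (nat_lit 1092) (nat_lit 456) (nat_lit 0) (XT.nd (nat_lit 546) (nat_lit 456) (nat_lit 0) (XT.nd (nat_lit 234) (nat_lit 228) (nat_lit 0) (XT.nd (nat_lit 78) (nat_lit 76) (nat_lit 0) (XT.lf (nat_lit 0) (nat_lit 97158643538) (nat_lit 152) (nat_lit 134185890875) (nat_lit 76) (nat_lit 126583709350) (nat_lit 35) (nat_lit 5) (nat_lit 37) (nat_lit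 5) (nat_lit 36) (nat_lit 4) (nat_lit 516) (nat_lit 453) (nat_lit 231)) (XT.nd (nat_lit 78) (nat_lit 0) (nat_lit 0) (XT.lf (nat_lit 0) (nat_lit 56949452759) (nat_lit 76) (nat_lit 133446096854) (nat_lit 152) (nat_lit 180208366513) (nat_lit 34) (nat_lit 5) (nat_lit 35) (nat_lit 5) (nat_lit 36) (nat_lit 4) (nat_lit 517) (nat_lit 453) (nat_lit 230)) (XT.lf (nat_lit 0) (nat_lit 262299823035) (nat_lit 76) (nat_lit 28266784701) (nat_lit 152) (nat_lit 93233149050) (nat_lit 34) (nat_lit 5) (nat_lit 35) (nat_lit 5) (nat_lit 36) (nat_lit 4) (nat_lit 518) (nat_lit 453) (nat_lit 229)))) (XT.nd (nat_lit 156) (nat_lit 76) (nat_lit 0) (XT.nd (nat_lit 78) (nat_lit 0) (nat_lit 0) (XT.lf (nat_lit 0) (nat_lit 750439196) (nat_lit 152) (nat_lit 315949225807) (nat_lit 76) (nat_lit 80827289637) (nat_lit 32) (nat_lit 5) (nat_lit 34) (nat_lit 5) (nat_lit 33) (nat_lit 4) (nat_lit 519) (nat_lit 453) (nat_lit 228)) (XT.lf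 (nat_lit 0) (nat_lit 98854554808) (nat_lit 152) (nat_lit 114836046983) (nat_lit 76) (nat_lit 198045760339) (nat_lit 32) (nat_lit 5) (nat_lit 34) (nat_lit 5) (nat_lit 33) (nat_lit 4) (nat_lit 520) (nat_lit 453) (nat_lit 227))) (XT.nd (nat_lit 78) (nat_lit 0) (nat_lit 0) (XT.lf (nat_lit 0) (nat_lit 99517632552) (nat_lit 76) (nat_lit 103899812705) (nat_lit 152) (nat_lit 223161116296) (nat_lit 31) (nat_lit 5) (nat_lit 32) (nat_lit 5) (nat_lit 33) (nat_lit 4) (nat_lit 521) (nat_lit 453) (nat_lit 226)) (XT.lf (nat_lit 0) (nat_lit 315362668713) (nat_lit 152) (nat_lit 113699694971) (nat_lit 0) (nat_lit 12992797852) (nat_lit 31) (nat_lit 5) (nat_lit 33) (nat_lit 4) (nat_lit 31) (nat_lit 4) (nat_lit 522) (nat_lit 453) (nat_lit 225))))) (XT.nd (nat_lit 234) (nat_lit 228) (nat_lit 0) (XT.nd (nat_lit 78) (nat_lit 152) (nat_lit 0) (XT.lf (nat_lit 0) (nat_lit 112217662832) (nat_lit 76) (nat_lit 324142627555)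 (nat_lit 76) (nat_lit 21772544289) (nat_lit 30) (nat_lit 4) (nat_lit 31) (nat_lit 5) (nat_lit 31) (nat_lit 4) (nat_lit 523) (nat_lit 453) (nat_lit 224)) (XT.nd (nat_lit 78) (nat_lit 76) (nat_lit 0) (XT.lf (nat_lit 0) (nat_lit 87521216239) (nat_lit 152) (nat_lit 122951792266) (nat_lit 76) (nat_lit 264374531770) (nat_lit 29) (nat_lit 5) (nat_lit 31) (nat_lit 5) (nat_lit 30) (nat_lit 4) (nat_lit 524) (nat_lit 453) (nat_lit 223)) (XT.lf (nat_lit 0) (nat_lit 114466147889) (nat_lit 76) (nat_lit 88868791673) (nat_lit 152) (nat_lit 288955846501) (nat_lit 28) (nat_lit 5) (nat_lit 29) (nat_lit 5) (nat_lit 30) (nat_lit 4) (nat_lit 525) (nat_lit 453) (nat_lit 222)))) (XT.nd (nat_lit 156) (nat_lit 152) (nat_lit 0) (XT.nd (nat_lit 78) (nat_lit 76) (nat_lit 0) (XT.lf (nat_lit 0) (nat_lit 327661591490) (nat_lit 152) (nat_lit 143118957808) (nat_lit 0) (nat_lit 39689532730) (nat_lit 28) (nat_lit 5) (nat_lit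 30) (nat_lit 4) (nat_lit 28) (nat_lit 4) (nat_lit 526) (nat_lit 453) (nat_lit 221)) (XT.lf (nat_lit 0) (nat_lit 105232954155) (nat_lit 76) (nat_lit 356071314597) (nat_lit 76) (nat_lit 68099089412) (nat_lit 27) (nat_lit 4) (nat_lit 28) (nat_lit 5) (nat_lit 28) (nat_lit 4) (nat_lit 527) (nat_lit 453) (nat_lit 220))) (XT.nd (nat_lit 78) (nat_lit 76) (nat_lit 0) (XT.lf (nat_lit 0) (nat_lit 53133759122) (nat_lit 152) (nat_lit 179048177484) (nat_lit 76) (nat_lit 316937329827) (nat_lit 26) (nat_lit 5) (nat_lit 28) (nat_lit 5) (nat_lit 27) (nat_lit 4) (nat_lit 528) (nat_lit 453) (nat_lit 219)) (XT.lf (nat_lit 0) (nat_lit 79766524026) (nat_lit 76) (nat_lit 99618382639) (nat_lit 152) (nat_lit 390317982905) (nat_lit 25) (nat_lit 5) (nat_lit 26) (nat_lit 5) (nat_lit 27) (nat_lit 4) (nat_lit 529) (nat_lit 453) (nat_lit 218)))))) (XT.nd (nat_lit 546) (nat_lit 152) (nat_lit 0) (XT.nd (nat_lit 234) (nat_lit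 228) (nat_lit 0) (XT.nd (nat_lit 78) (nat_lit 76) (nat_lit 0) (XT.lf (nat_lit 0) (nat_lit 315648293317) (nat_lit 152) (nat_lit 234093816866) (nat_lit 0) (nat_lit 41388599601) (nat_lit 25) (nat_lit 5) (nat_lit 27) (nat_lit 4) (nat_lit 25) (nat_lit 4) (nat_lit 530) (nat_lit 453) (nat_lit 217)) (XT.nd (nat_lit 78) (nat_lit 0) (nat_lit 0) (XT.lf (nat_lit 0) (nat_lit 33995569905) (nat_lit 76) (nat_lit 426892994730) (nat_lit 76) (nat_lit 152633170615) (nat_lit 24) (nat_lit 4) (nat_lit 25) (nat_lit 5) (nat_lit 25) (nat_lit 4) (nat_lit 531) (nat_lit 453) (nat_lit 216)) (XT.lf (nat_lit 0) (nat_lit 323616367478) (nat_lit 76) (nat_lit 293738837523) (nat_lit 76) (nat_lit 19478889220) (nat_lit 24) (nat_lit 4) (nat_lit 25) (nat_lit 5) (nat_lit 25) (nat_lit 4) (nat_lit 532) (nat_lit 453) (nat_lit 215)))) (XT.nd (nat_lit 156) (nat_lit 76) (nat_lit 0) (XT.nd (nat_lit 78) (nat_lit 76) (nat_lit 0) (XT.lf (nat_lit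 0) (nat_lit 116481563138) (nat_lit 152) (nat_lit 35472862145) (nat_lit 76) (nat_lit 509263715623) (nat_lit 23) (nat_lit 5) (nat_lit 25) (nat_lit 5) (nat_lit 24) (nat_lit 4) (nat_lit 533) (nat_lit 453) (nat_lit 214)) (XT.lf (nat_lit 0) (nat_lit 262736519955) (nat_lit 152) (nat_lit 422324999392) (nat_lit 0) (nat_lit 1536349268) (nat_lit 22) (nat_lit 5) (nat_lit 24) (nat_lit 4) (nat_lit 22) (nat_lit 4) (nat_lit 534) (nat_lit 453) (nat_lit 213))) (XT.nd (nat_lit 78) (nat_lit 76) (nat_lit 0) (XT.lf (nat_lit 0) (nat_lit 419405753649) (nat_lit 152) (nat_lit 135480271825) (nat_lit 0) (nat_lit 158205480790) (nat_lit 22) (nat_lit 5) (nat_lit 24) (nat_lit 4) (nat_lit 22) (nat_lit 4) (nat_lit 535) (nat_lit 453) (nat_lit 212)) (XT.lf (nat_lit 0) (nat_lit 171185460756) (nat_lit 76) (nat_lit 415395553474) (nat_lit 76) (nat_lit 154195183310) (nat_lit 21) (nat_lit 4) (nat_lit 22) (nat_lit 5) (nat_lit 22) (nat_lit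 4) (nat_lit 536) (nat_lit 453) (nat_lit 211))))) (XT.nd (nat_lit 56160) (nat_lit 0) (nat_lit 8132) (XT.nd (nat_lit 56004) (nat_lit 0) (nat_lit 8056) (XT.nd (nat_lit 78) (nat_lit 152) (nat_lit 0) (XT.lf (nat_lit 0) (nat_lit 497887817695) (nat_lit 76) (nat_lit 266521526601) (nat_lit 76) (nat_lit 5321063766) (nat_lit 21) (nat_lit 4) (nat_lit 22) (nat_lit 5) (nat_lit 22) (nat_lit 4) (nat_lit 537) (nat_lit 453) (nat_lit 210)) (XT.lf (nat_lit 0) (nat_lit 39706099778) (nat_lit 76) (nat_lit 107077632354) (nat_lit 152) (nat_lit 653199732364) (nat_lit 19) (nat_lit 5) (nat_lit 20) (nat_lit 5) (nat_lit 21) (nat_lit 4) (nat_lit 538) (nat_lit 453) (nat_lit 209))) (XT.nd (nat_lit 78) (nat_lit 0) (nat_lit 0) (XT.lf (nat_lit 0) (nat_lit 9336655481) (nat_lit 836) (nat_lit 9497293736) (nat_lit 836) (nat_lit 9497293736) (nat_lit 125) (nat_lit 3) (nat_lit 136) (nat_lit 3) (nat_lit 136) (nat_lit 5) (nat_lit 454)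 (nat_lit 454) (nat_lit 292)) (XT.lf (nat_lit 76) (nat_lit 9053321025) (nat_lit 0) (nat_lit 10248118067) (nat_lit 836) (nat_lit 38769536433) (nat_lit 126) (nat_lit 5) (nat_lit 125) (nat_lit 3) (nat_lit 136) (nat_lit 5) (nat_lit 455) (nat_lit 454) (nat_lit 291)))) (XT.nd (nat_lit 156) (nat_lit 0) (nat_lit 76) (XT.nd (nat_lit 78) (nat_lit 0) (nat_lit 0) (XT.lf (nat_lit 0) (nat_lit 20576153969) (nat_lit 760) (nat_lit 20666274566) (nat_lit 836) (nat_lit 18276702569) (nat_lit 126) (nat_lit 5) (nat_lit 136) (nat_lit 5) (nat_lit 137) (nat_lit 5) (nat_lit 456) (nat_lit 454) (nat_lit 290)) (XT.lf (nat_lit 76) (nat_lit 9229338454) (nat_lit 0) (nat_lit 12996146360) (nat_lit 836) (nat_lit 38798666110) (nat_lit 127) (nat_lit 5) (nat_lit 126) (nat_lit 5) (nat_lit 137) (nat_lit 5) (nat_lit 457) (nat_lit 454) (nat_lit 289))) (XT.nd (nat_lit 78) (nat_lit 0) (nat_lit 0) (XT.lf (nat_lit 0) (nat_lit 24571996967)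 (nat_lit 760) (nat_lit 21516373400) (nat_lit 836) (nat_lit 16485316081) (nat_lit 127) (nat_lit 5) (nat_lit 137) (nat_lit 5) (nat_lit 138) (nat_lit 5) (nat_lit 458) (nat_lit 454) (nat_lit 288)) (XT.lf (nat_lit 76) (nat_lit 10394890100) (nat_lit 0) (nat_lit 17015181256) (nat_lit 836) (nat_lit 36771915990) (nat_lit 128) (nat_lit 5) (nat_lit 127) (nat_lit 5) (nat_lit 138) (nat_lit 5) (nat_lit 459) (nat_lit 454) (nat_lit 287))))))))
noncomputable def xc204 : XT := (XT.nd (nat_lit 2184) (nat_lit 2660) (nat_lit 0) (XT.nd (nat_lit 1092) (nat_lit 2128) (nat_lit 0) (XT.nd (nat_lit 546) (nat_lit 1520) (nat_lit 0) (XT.nd (nat_lit 234) (nat_lit 608) (nat_lit 0) (XT.nd (nat_lit 78) (nat_lit 0) (nat_lit 0) (XT.lf (nat_lit 0) (nat_lit 30970306423) (nat_lit 760) (nat_lit 21421489935) (nat_lit 836) (nat_lit 13449894491) (nat_lit 128) (nat_lit 5) (nat_lit 138) (nat_lit 5) (nat_lit 139) (nat_lit 5) (nat_lit 460)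 (nat_lit 454) (nat_lit 286)) (XT.nd (nat_lit 78) (nat_lit 0) (nat_lit 76) (XT.lf (nat_lit 76) (nat_lit 12688825598) (nat_lit 0) (nat_lit 22495761895) (nat_lit 836) (nat_lit 32375990712) (nat_lit 129) (nat_lit 5) (nat_lit 128) (nat_lit 5) (nat_lit 139) (nat_lit 5) (nat_lit 461) (nat_lit 454) (nat_lit 285)) (XT.lf (nat_lit 0) (nat_lit 40116219079) (nat_lit 760) (nat_lit 20244529315) (nat_lit 836) (nat_lit 8979330080) (nat_lit 129) (nat_lit 5) (nat_lit 139) (nat_lit 5) (nat_lit 140) (nat_lit 5) (nat_lit 462) (nat_lit 454) (nat_lit 284)))) (XT.nd (nat_lit 156) (nat_lit 684) (nat_lit 0) (XT.nd (nat_lit 78) (nat_lit 0) (nat_lit 76) (XT.lf (nat_lit 76) (nat_lit 16265097902) (nat_lit 0) (nat_lit 29651136190) (nat_lit 836) (nat_lit 25261229928) (nat_lit 130) (nat_lit 5) (nat_lit 129) (nat_lit 5) (nat_lit 140) (nat_lit 5) (nat_lit 463) (nat_lit 454) (nat_lit 283)) (XT.lf (nat_lit 0) (nat_lit 52394329961)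 (nat_lit 760) (nat_lit 17833438873) (nat_lit 76) (nat_lit 2859546339) (nat_lit 130) (nat_lit 5) (nat_lit 140) (nat_lit 5) (nat_lit 131) (nat_lit 5) (nat_lit 464) (nat_lit 454) (nat_lit 282))) (XT.nd (nat_lit 78) (nat_lit 0) (nat_lit 0) (XT.lf (nat_lit 0) (nat_lit 21294139838) (nat_lit 760) (nat_lit 38719888341) (nat_lit 836) (nat_lit 15037746147) (nat_lit 120) (nat_lit 5) (nat_lit 130) (nat_lit 5) (nat_lit 131) (nat_lit 5) (nat_lit 465) (nat_lit 454) (nat_lit 281)) (XT.lf (nat_lit 0) (nat_lit 62996490255) (nat_lit 760) (nat_lit 5319419886) (nat_lit 836) (nat_lit 8783486660) (nat_lit 120) (nat_lit 5) (nat_lit 130) (nat_lit 5) (nat_lit 131) (nat_lit 5) (nat_lit 466) (nat_lit 454) (nat_lit 280))))) (XT.nd (nat_lit 234) (nat_lit 684) (nat_lit 0) (XT.nd (nat_lit 78) (nat_lit 456) (nat_lit 0) (XT.lf (nat_lit 0) (nat_lit 27964344915) (nat_lit 380) (nat_lit 49968861726) (nat_lit 456) (nat_lit 1271178025)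 (nat_lit 115) (nat_lit 5) (nat_lit 120) (nat_lit 5) (nat_lit 121) (nat_lit 5) (nat_lit 467) (nat_lit 454) (nat_lit 279)) (XT.nd (nat_lit 78) (nat_lit 380) (nat_lit 0) (XT.lf (nat_lit 0) (nat_lit 6734161405) (nat_lit 456) (nat_lit 8973287340) (nat_lit 76) (nat_lit 65685548519) (nat_lit 114) (nat_lit 5) (nat_lit 120) (nat_lit 5) (nat_lit 115) (nat_lit 5) (nat_lit 468) (nat_lit 454) (nat_lit 278)) (XT.lf (nat_lit 0) (nat_lit 15993171124) (nat_lit 456) (nat_lit 47432388582) (nat_lit 76) (nat_lit 20219632926) (nat_lit 109) (nat_lit 5) (nat_lit 115) (nat_lit 5) (nat_lit 110) (nat_lit 5) (nat_lit 469) (nat_lit 454) (nat_lit 277)))) (XT.nd (nat_lit 156) (nat_lit 304) (nat_lit 0) (XT.nd (nat_lit 78) (nat_lit 380) (nat_lit 0) (XT.lf (nat_lit 0) (nat_lit 26126382649) (nat_lit 456) (nat_lit 2293407393) (nat_lit 76) (nat_lit 57569645399) (nat_lit 109) (nat_lit 5) (nat_lit 115) (nat_lit 5) (nat_lit 110)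 (nat_lit 5) (nat_lit 470) (nat_lit 454) (nat_lit 276)) (XT.lf (nat_lit 0) (nat_lit 37635108077) (nat_lit 456) (nat_lit 41963550853) (nat_lit 76) (nat_lit 8808789022) (nat_lit 104) (nat_lit 5) (nat_lit 110) (nat_lit 5) (nat_lit 105) (nat_lit 5) (nat_lit 471) (nat_lit 454) (nat_lit 275))) (XT.nd (nat_lit 78) (nat_lit 0) (nat_lit 0) (XT.lf (nat_lit 0) (nat_lit 6493843687) (nat_lit 304) (nat_lit 43831535879) (nat_lit 380) (nat_lit 40590676249) (nat_lit 100) (nat_lit 5) (nat_lit 104) (nat_lit 5) (nat_lit 105) (nat_lit 5) (nat_lit 472) (nat_lit 454) (nat_lit 274)) (XT.lf (nat_lit 0) (nat_lit 58830264932) (nat_lit 304) (nat_lit 5529940318) (nat_lit 380) (nat_lit 29154386998) (nat_lit 100) (nat_lit 5) (nat_lit 104) (nat_lit 5) (nat_lit 105) (nat_lit 5) (nat_lit 473) (nat_lit 454) (nat_lit 273)))))) (XT.nd (nat_lit 546) (nat_lit 988) (nat_lit 0) (XT.nd (nat_lit 234) (nat_lit 532) (nat_lit 0) (XT.nd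 (nat_lit 78) (nat_lit 304) (nat_lit 0) (XT.lf (nat_lit 0) (nat_lit 17560213798) (nat_lit 304) (nat_lit 62351676066) (nat_lit 380) (nat_lit 16290409951) (nat_lit 96) (nat_lit 5) (nat_lit 100) (nat_lit 5) (nat_lit 101) (nat_lit 5) (nat_lit 474) (nat_lit 454) (nat_lit 272)) (XT.nd (nat_lit 78) (nat_lit 304) (nat_lit 0) (XT.lf (nat_lit 0) (nat_lit 73526785544) (nat_lit 304) (nat_lit 23390375697) (nat_lit 380) (nat_lit 2073431582) (nat_lit 96) (nat_lit 5) (nat_lit 100) (nat_lit 5) (nat_lit 101) (nat_lit 5) (nat_lit 475) (nat_lit 454) (nat_lit 271)) (XT.lf (nat_lit 0) (nat_lit 13213839042) (nat_lit 304) (nat_lit 70999124718) (nat_lit 76) (nat_lit 17656759018) (nat_lit 92) (nat_lit 5) (nat_lit 96) (nat_lit 5) (nat_lit 93) (nat_lit 5) (nat_lit 476) (nat_lit 454) (nat_lit 270)))) (XT.nd (nat_lit 156) (nat_lit 228) (nat_lit 0) (XT.nd (nat_lit 78) (nat_lit 304) (nat_lit 0) (XT.lf (nat_lit 0) (nat_lit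 30016999568) (nat_lit 304) (nat_lit 14390692188) (nat_lit 76) (nat_lit 60442357742) (nat_lit 92) (nat_lit 5) (nat_lit 96) (nat_lit 5) (nat_lit 93) (nat_lit 5) (nat_lit 477) (nat_lit 454) (nat_lit 269)) (XT.lf (nat_lit 0) (nat_lit 46536963422) (nat_lit 304) (nat_lit 1849400494) (nat_lit 380) (nat_lit 59556726500) (nat_lit 88) (nat_lit 5) (nat_lit 92) (nat_lit 5) (nat_lit 93) (nat_lit 5) (nat_lit 478) (nat_lit 454) (nat_lit 268))) (XT.nd (nat_lit 78) (nat_lit 228) (nat_lit 0) (XT.lf (nat_lit 0) (nat_lit 68590193503) (nat_lit 380) (nat_lit 841466021) (nat_lit 76) (nat_lit 41713324153) (nat_lit 88) (nat_lit 5) (nat_lit 93) (nat_lit 5) (nat_lit 89) (nat_lit 5) (nat_lit 479) (nat_lit 454) (nat_lit 267)) (XT.lf (nat_lit 0) (nat_lit 64794279577) (nat_lit 228) (nat_lit 26051383609) (nat_lit 304) (nat_lit 23609236122) (nat_lit 85) (nat_lit 5) (nat_lit 88) (nat_lit 5) (nat_lit 89) (nat_lit 5) (nat_lit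 480) (nat_lit 454) (nat_lit 266))))) (XT.nd (nat_lit 234) (nat_lit 456) (nat_lit 0) (XT.nd (nat_lit 78) (nat_lit 304) (nat_lit 0) (XT.lf (nat_lit 0) (nat_lit 16018816832) (nat_lit 228) (nat_lit 98763610370) (nat_lit 304) (nat_lit 3119457611) (nat_lit 82) (nat_lit 5) (nat_lit 85) (nat_lit 5) (nat_lit 86) (nat_lit 5) (nat_lit 481) (nat_lit 454) (nat_lit 265)) (XT.nd (nat_lit 78) (nat_lit 228) (nat_lit 0) (XT.lf (nat_lit 0) (nat_lit 19087472716) (nat_lit 304) (nat_lit 35501560118) (nat_lit 76) (nat_lit 66853756569) (nat_lit 81) (nat_lit 5) (nat_lit 85) (nat_lit 5) (nat_lit 82) (nat_lit 5) (nat_lit 482) (nat_lit 454) (nat_lit 264)) (XT.lf (nat_lit 0) (nat_lit 35276310596) (nat_lit 228) (nat_lit 7573915255) (nat_lit 304) (nat_lit 82280441027) (nat_lit 78) (nat_lit 5) (nat_lit 81) (nat_lit 5) (nat_lit 82) (nat_lit 5) (nat_lit 483) (nat_lit 454) (nat_lit 263)))) (XT.nd (nat_lit 156) (nat_lit 228)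 (nat_lit 0) (XT.nd (nat_lit 78) (nat_lit 228) (nat_lit 0) (XT.lf (nat_lit 0) (nat_lit 69064255939) (nat_lit 304) (nat_lit 18810258564) (nat_lit 76) (nat_lit 41065266868) (nat_lit 78) (nat_lit 5) (nat_lit 82) (nat_lit 5) (nat_lit 79) (nat_lit 5) (nat_lit 484) (nat_lit 454) (nat_lit 262)) (XT.lf (nat_lit 0) (nat_lit 57501680004) (nat_lit 228) (nat_lit 40108810805) (nat_lit 304) (nat_lit 35277785722) (nat_lit 75) (nat_lit 5) (nat_lit 78) (nat_lit 5) (nat_lit 79) (nat_lit 5) (nat_lit 485) (nat_lit 454) (nat_lit 261))) (XT.nd (nat_lit 78) (nat_lit 76) (nat_lit 0) (XT.lf (nat_lit 0) (nat_lit 1137733613) (nat_lit 152) (nat_lit 126944269520) (nat_lit 228) (nat_lit 8927295128) (nat_lit 73) (nat_lit 5) (nat_lit 75) (nat_lit 5) (nat_lit 76) (nat_lit 5) (nat_lit 486) (nat_lit 454) (nat_lit 260)) (XT.lf (nat_lit 0) (nat_lit 20095648971) (nat_lit 228) (nat_lit 58138674991) (nat_lit 76) (nat_lit 62989679995)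 (nat_lit 72) (nat_lit 5) (nat_lit 75) (nat_lit 5) (nat_lit 73) (nat_lit 5) (nat_lit 487) (nat_lit 454) (nat_lit 259))))))) (XT.nd (nat_lit 1092) (nat_lit 1140) (nat_lit 0) (XT.nd (nat_lit 546) (nat_lit 760) (nat_lit 0) (XT.nd (nat_lit 234) (nat_lit 380) (nat_lit 0) (XT.nd (nat_lit 78) (nat_lit 152) (nat_lit 0) (XT.lf (nat_lit 0) (nat_lit 24105438717) (nat_lit 228) (nat_lit 26540248335) (nat_lit 304) (nat_lit 94977642396) (nat_lit 69) (nat_lit 5) (nat_lit 72) (nat_lit 5) (nat_lit 73) (nat_lit 5) (nat_lit 488) (nat_lit 454) (nat_lit 258)) (XT.nd (nat_lit 78) (nat_lit 152) (nat_lit 0) (XT.lf (nat_lit 0) (nat_lit 84156666178) (nat_lit 304) (nat_lit 38163008818) (nat_lit 76) (nat_lit 27851274341) (nat_lit 69) (nat_lit 5) (nat_lit 73) (nat_lit 5) (nat_lit 70) (nat_lit 5) (nat_lit 489) (nat_lit 454) (nat_lit 257)) (XT.lf (nat_lit 0) (nat_lit 50541604552) (nat_lit 152) (nat_lit 70025405405) (nat_lit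 228) (nat_lit 34317749557) (nat_lit 67) (nat_lit 5) (nat_lit 69) (nat_lit 5) (nat_lit 70) (nat_lit 5) (nat_lit 490) (nat_lit 454) (nat_lit 256)))) (XT.nd (nat_lit 156) (nat_lit 152) (nat_lit 0) (XT.nd (nat_lit 78) (nat_lit 228) (nat_lit 0) (XT.lf (nat_lit 0) (nat_lit 145005817752) (nat_lit 152) (nat_lit 14438004403) (nat_lit 228) (nat_lit 358140558) (nat_lit 67) (nat_lit 5) (nat_lit 69) (nat_lit 5) (nat_lit 70) (nat_lit 5) (nat_lit 491) (nat_lit 454) (nat_lit 255)) (XT.lf (nat_lit 0) (nat_lit 36153961869) (nat_lit 228) (nat_lit 84311779097) (nat_lit 76) (nat_lit 44372513217) (nat_lit 64) (nat_lit 5) (nat_lit 67) (nat_lit 5) (nat_lit 65) (nat_lit 5) (nat_lit 492) (nat_lit 454) (nat_lit 254))) (XT.nd (nat_lit 78) (nat_lit 0) (nat_lit 0) (XT.lf (nat_lit 0) (nat_lit 11123896219) (nat_lit 152) (nat_lit 64020447364) (nat_lit 228) (nat_lit 94948487647) (nat_lit 62) (nat_lit 5) (nat_lit 64) (nat_lit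 5) (nat_lit 65) (nat_lit 5) (nat_lit 493) (nat_lit 454) (nat_lit 253)) (XT.lf (nat_lit 0) (nat_lit 114257924868) (nat_lit 152) (nat_lit 3253846546) (nat_lit 228) (nat_lit 58026989425) (nat_lit 62) (nat_lit 5) (nat_lit 64) (nat_lit 5) (nat_lit 65) (nat_lit 5) (nat_lit 494) (nat_lit 454) (nat_lit 252))))) (XT.nd (nat_lit 234) (nat_lit 380) (nat_lit 0) (XT.nd (nat_lit 78) (nat_lit 228) (nat_lit 0) (XT.lf (nat_lit 0) (nat_lit 41679777187) (nat_lit 152) (nat_lit 121913582707) (nat_lit 228) (nat_lit 17583837630) (nat_lit 60) (nat_lit 5) (nat_lit 62) (nat_lit 5) (nat_lit 63) (nat_lit 5) (nat_lit 495) (nat_lit 454) (nat_lit 251)) (XT.nd (nat_lit 78) (nat_lit 152) (nat_lit 0) (XT.lf (nat_lit 0) (nat_lit 25192966002) (nat_lit 228) (nat_lit 35589070365) (nat_lit 76) (nat_lit 126240703418) (nat_lit 59) (nat_lit 5) (nat_lit 62) (nat_lit 5) (nat_lit 60) (nat_lit 5) (nat_lit 496) (nat_lit 454) (nat_lit 250))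 (XT.lf (nat_lit 0) (nat_lit 70775699693) (nat_lit 228) (nat_lit 117517261983) (nat_lit 76) (nat_lit 4790283444) (nat_lit 57) (nat_lit 5) (nat_lit 60) (nat_lit 5) (nat_lit 58) (nat_lit 5) (nat_lit 497) (nat_lit 454) (nat_lit 249)))) (XT.nd (nat_lit 156) (nat_lit 228) (nat_lit 0) (XT.nd (nat_lit 78) (nat_lit 152) (nat_lit 0) (XT.lf (nat_lit 0) (nat_lit 120246295254) (nat_lit 228) (nat_lit 6909097805) (nat_lit 76) (nat_lit 72210946452) (nat_lit 57) (nat_lit 5) (nat_lit 60) (nat_lit 5) (nat_lit 58) (nat_lit 5) (nat_lit 498) (nat_lit 454) (nat_lit 248)) (XT.lf (nat_lit 0) (nat_lit 112840590549) (nat_lit 152) (nat_lit 61111301809) (nat_lit 228) (nat_lit 31923622720) (nat_lit 55) (nat_lit 5) (nat_lit 57) (nat_lit 5) (nat_lit 58) (nat_lit 5) (nat_lit 499) (nat_lit 454) (nat_lit 247))) (XT.nd (nat_lit 78) (nat_lit 0) (nat_lit 0) (XT.lf (nat_lit 0) (nat_lit 17745474164) (nat_lit 228) (nat_lit 186121606193)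 (nat_lit 76) (nat_lit 8795443967) (nat_lit 52) (nat_lit 5) (nat_lit 55) (nat_lit 5) (nat_lit 53) (nat_lit 5) (nat_lit 500) (nat_lit 454) (nat_lit 246)) (XT.lf (nat_lit 0) (nat_lit 71428146570) (nat_lit 228) (nat_lit 65936073226) (nat_lit 76) (nat_lit 82268349184) (nat_lit 52) (nat_lit 5) (nat_lit 55) (nat_lit 5) (nat_lit 53) (nat_lit 5) (nat_lit 501) (nat_lit 454) (nat_lit 245)))))) (XT.nd (nat_lit 546) (nat_lit 532) (nat_lit 0) (XT.nd (nat_lit 234) (nat_lit 304) (nat_lit 0) (XT.nd (nat_lit 78) (nat_lit 152) (nat_lit 0) (XT.lf (nat_lit 0) (nat_lit 62250678158) (nat_lit 152) (nat_lit 66515913681) (nat_lit 228) (nat_lit 98135942105) (nat_lit 50) (nat_lit 5) (nat_lit 52) (nat_lit 5) (nat_lit 53) (nat_lit 5) (nat_lit 502) (nat_lit 454) (nat_lit 244)) (XT.nd (nat_lit 78) (nat_lit 152) (nat_lit 0) (XT.lf (nat_lit 0) (nat_lit 190229606563) (nat_lit 228) (nat_lit 35485970422) (nat_lit 76) (nat_lit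 8757537848) (nat_lit 50) (nat_lit 5) (nat_lit 53) (nat_lit 5) (nat_lit 51) (nat_lit 4) (nat_lit 503) (nat_lit 454) (nat_lit 243)) (XT.lf (nat_lit 0) (nat_lit 14680246754) (nat_lit 152) (nat_lit 140202329656) (nat_lit 76) (nat_lit 87393424014) (nat_lit 48) (nat_lit 5) (nat_lit 50) (nat_lit 5) (nat_lit 49) (nat_lit 5) (nat_lit 504) (nat_lit 454) (nat_lit 242)))) (XT.nd (nat_lit 156) (nat_lit 152) (nat_lit 0) (XT.nd (nat_lit 78) (nat_lit 152) (nat_lit 0) (XT.lf (nat_lit 0) (nat_lit 75673889514) (nat_lit 152) (nat_lit 3431300223) (nat_lit 76) (nat_lit 171297046820) (nat_lit 48) (nat_lit 5) (nat_lit 50) (nat_lit 5) (nat_lit 49) (nat_lit 5) (nat_lit 505) (nat_lit 454) (nat_lit 241)) (XT.lf (nat_lit 0) (nat_lit 142022167489) (nat_lit 228) (nat_lit 114053244888) (nat_lit 76) (nat_lit 2744124495) (nat_lit 46) (nat_lit 5) (nat_lit 49) (nat_lit 5) (nat_lit 47) (nat_lit 4) (nat_lit 506) (nat_lit 454) (nat_lit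 240))) (XT.nd (nat_lit 78) (nat_lit 76) (nat_lit 0) (XT.lf (nat_lit 0) (nat_lit 32582756349) (nat_lit 76) (nat_lit 180969442756) (nat_lit 152) (nat_lit 54012286139) (nat_lit 45) (nat_lit 5) (nat_lit 46) (nat_lit 5) (nat_lit 47) (nat_lit 4) (nat_lit 507) (nat_lit 454) (nat_lit 239)) (XT.lf (nat_lit 0) (nat_lit 13493765551) (nat_lit 152) (nat_lit 86357951497) (nat_lit 76) (nat_lit 176787516269) (nat_lit 44) (nat_lit 5) (nat_lit 46) (nat_lit 5) (nat_lit 45) (nat_lit 5) (nat_lit 508) (nat_lit 454) (nat_lit 238))))) (XT.nd (nat_lit 234) (nat_lit 304) (nat_lit 0) (XT.nd (nat_lit 78) (nat_lit 76) (nat_lit 0) (XT.lf (nat_lit 0) (nat_lit 71086364222) (nat_lit 152) (nat_lit 12583219999) (nat_lit 228) (nat_lit 202398380664) (nat_lit 42) (nat_lit 5) (nat_lit 44) (nat_lit 5) (nat_lit 45) (nat_lit 5) (nat_lit 509) (nat_lit 454) (nat_lit 237)) (XT.nd (nat_lit 78) (nat_lit 76) (nat_lit 0) (XT.lf (nat_lit 0)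 (nat_lit 160074630545) (nat_lit 228) (nat_lit 57752518401) (nat_lit 76) (nat_lit 78004962271) (nat_lit 42) (nat_lit 5) (nat_lit 45) (nat_lit 5) (nat_lit 43) (nat_lit 4) (nat_lit 510) (nat_lit 454) (nat_lit 236)) (XT.lf (nat_lit 0) (nat_lit 110673588881) (nat_lit 76) (nat_lit 131560333790) (nat_lit 152) (nat_lit 63753842543) (nat_lit 41) (nat_lit 5) (nat_lit 42) (nat_lit 5) (nat_lit 43) (nat_lit 4) (nat_lit 511) (nat_lit 454) (nat_lit 235)))) (XT.nd (nat_lit 156) (nat_lit 76) (nat_lit 0) (XT.nd (nat_lit 78) (nat_lit 152) (nat_lit 0) (XT.lf (nat_lit 0) (nat_lit 12464591927) (nat_lit 152) (nat_lit 27277698790) (nat_lit 76) (nat_lit 276849966259) (nat_lit 40) (nat_lit 5) (nat_lit 42) (nat_lit 5) (nat_lit 41) (nat_lit 5) (nat_lit 512) (nat_lit 454) (nat_lit 234)) (XT.lf (nat_lit 0) (nat_lit 93681170326) (nat_lit 228) (nat_lit 175483861464) (nat_lit 76) (nat_lit 58343195838) (nat_lit 38) (nat_lit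 5) (nat_lit 41) (nat_lit 5) (nat_lit 39) (nat_lit 4) (nat_lit 513) (nat_lit 454) (nat_lit 233))) (XT.nd (nat_lit 78) (nat_lit 0) (nat_lit 0) (XT.lf (nat_lit 0) (nat_lit 1686161238) (nat_lit 76) (nat_lit 178419587618) (nat_lit 152) (nat_lit 158806889415) (nat_lit 37) (nat_lit 5) (nat_lit 38) (nat_lit 5) (nat_lit 39) (nat_lit 4) (nat_lit 514) (nat_lit 454) (nat_lit 232)) (XT.lf (nat_lit 0) (nat_lit 193806718489) (nat_lit 76) (nat_lit 80016544141) (nat_lit 152) (nat_lit 76915421517) (nat_lit 37) (nat_lit 5) (nat_lit 38) (nat_lit 5) (nat_lit 39) (nat_lit 4) (nat_lit 515) (nat_lit 454) (nat_lit 231))))))))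
noncomputable def xc205 : XT := (XT.nd (nat_lit 58110) (nat_lit 0) (nat_lit 3876) (XT.nd (nat_lit 1092) (nat_lit 380) (nat_lit 0) (XT.nd (nat_lit 546) (nat_lit 380) (nat_lit 0) (XT.nd (nat_lit 234) (nat_lit 228) (nat_lit 0) (XT.nd (nat_lit 78) (nat_lit 76) (nat_lit 0) (XT.lf (nat_lit 0) (nat_lit 9674760415) (nat_lit 152) (nat_lit 330196550115) (nat_lit 76) (nat_lit 23232918057) (nat_lit 35) (nat_lit 5) (nat_lit 37) (nat_lit 5) (nat_lit 36) (nat_lit 4) (nat_lit 516) (nat_lit 454) (nat_lit 230)) (XT.nd (nat_lit 78) (nat_lit 76) (nat_lit 0) (XT.lf (nat_lit 0) (nat_lit 102022433032) (nat_lit 152) (nat_lit 140884120125) (nat_lit 76) (nat_lit 132917809473) (nat_lit 35) (nat_lit 5) (nat_lit 37) (nat_lit 5) (nat_lit 36) (nat_lit 4) (nat_lit 517) (nat_lit 454) (nat_lit 229)) (XT.lf (nat_lit 0) (nat_lit 59807812219) (nat_lit 76) (nat_lit 140113263246) (nat_lit 152) (nat_lit 189212748616) (nat_lit 34)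 (nat_lit 5) (nat_lit 35) (nat_lit 5) (nat_lit 36) (nat_lit 4) (nat_lit 518) (nat_lit 454) (nat_lit 228)))) (XT.nd (nat_lit 156) (nat_lit 76) (nat_lit 0) (XT.nd (nat_lit 78) (nat_lit 152) (nat_lit 0) (XT.lf (nat_lit 0) (nat_lit 275425182589) (nat_lit 76) (nat_lit 29675230173) (nat_lit 152) (nat_lit 97889057718) (nat_lit 34) (nat_lit 5) (nat_lit 35) (nat_lit 5) (nat_lit 36) (nat_lit 4) (nat_lit 519) (nat_lit 454) (nat_lit 227)) (XT.lf (nat_lit 0) (nat_lit 793499880) (nat_lit 152) (nat_lit 331736107867) (nat_lit 76) (nat_lit 84873417313) (nat_lit 32) (nat_lit 5) (nat_lit 34) (nat_lit 5) (nat_lit 33) (nat_lit 4) (nat_lit 520) (nat_lit 454) (nat_lit 226))) (XT.nd (nat_lit 78) (nat_lit 76) (nat_lit 0) (XT.lf (nat_lit 0) (nat_lit 103802557524) (nat_lit 152) (nat_lit 120567773874) (nat_lit 76) (nat_lit 207952584732) (nat_lit 32) (nat_lit 5) (nat_lit 34) (nat_lit 5) (nat_lit 33) (nat_lit 4) (nat_lit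 521) (nat_lit 454) (nat_lit 225)) (XT.lf (nat_lit 0) (nat_lit 104503427129) (nat_lit 76) (nat_lit 109090068946) (nat_lit 152) (nat_lit 234313734288) (nat_lit 31) (nat_lit 5) (nat_lit 32) (nat_lit 5) (nat_lit 33) (nat_lit 4) (nat_lit 522) (nat_lit 454) (nat_lit 224))))) (XT.nd (nat_lit 234) (nat_lit 228) (nat_lit 0) (XT.nd (nat_lit 78) (nat_lit 152) (nat_lit 0) (XT.lf (nat_lit 0) (nat_lit 331135804503) (nat_lit 152) (nat_lit 119375062290) (nat_lit 0) (nat_lit 13646802378) (nat_lit 31) (nat_lit 5) (nat_lit 33) (nat_lit 4) (nat_lit 31) (nat_lit 4) (nat_lit 523) (nat_lit 454) (nat_lit 223)) (XT.nd (nat_lit 78) (nat_lit 76) (nat_lit 0) (XT.lf (nat_lit 0) (nat_lit 117838008283) (nat_lit 76) (nat_lit 340345208504) (nat_lit 76) (nat_lit 22856013721) (nat_lit 30) (nat_lit 4) (nat_lit 31) (nat_lit 5) (nat_lit 31) (nat_lit 4) (nat_lit 524) (nat_lit 454) (nat_lit 222)) (XT.lf (nat_lit 0) (nat_lit 91902032004)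 (nat_lit 152) (nat_lit 129090212656) (nat_lit 76) (nat_lit 277597434600) (nat_lit 29) (nat_lit 5) (nat_lit 31) (nat_lit 5) (nat_lit 30) (nat_lit 4) (nat_lit 525) (nat_lit 454) (nat_lit 221)))) (XT.nd (nat_lit 156) (nat_lit 152) (nat_lit 0) (XT.nd (nat_lit 78) (nat_lit 0) (nat_lit 0) (XT.lf (nat_lit 0) (nat_lit 120198476616) (nat_lit 76) (nat_lit 93307879300) (nat_lit 152) (nat_lit 303398735715) (nat_lit 28) (nat_lit 5) (nat_lit 29) (nat_lit 5) (nat_lit 30) (nat_lit 4) (nat_lit 526) (nat_lit 454) (nat_lit 220)) (XT.lf (nat_lit 0) (nat_lit 344049182800) (nat_lit 152) (nat_lit 150266156059) (nat_lit 0) (nat_lit 41678021430) (nat_lit 28) (nat_lit 5) (nat_lit 30) (nat_lit 4) (nat_lit 28) (nat_lit 4) (nat_lit 527) (nat_lit 454) (nat_lit 219))) (XT.nd (nat_lit 78) (nat_lit 76) (nat_lit 0) (XT.lf (nat_lit 0) (nat_lit 110503210379) (nat_lit 76) (nat_lit 373870703105) (nat_lit 76) (nat_lit 71499390782)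 (nat_lit 27) (nat_lit 4) (nat_lit 28) (nat_lit 5) (nat_lit 28) (nat_lit 4) (nat_lit 528) (nat_lit 454) (nat_lit 218)) (XT.lf (nat_lit 0) (nat_lit 55794736765) (nat_lit 152) (nat_lit 187992245716) (nat_lit 76) (nat_lit 332788032570) (nat_lit 26) (nat_lit 5) (nat_lit 28) (nat_lit 5) (nat_lit 27) (nat_lit 4) (nat_lit 529) (nat_lit 454) (nat_lit 217)))))) (XT.nd (nat_lit 546) (nat_lit 76) (nat_lit 0) (XT.nd (nat_lit 234) (nat_lit 152) (nat_lit 0) (XT.nd (nat_lit 78) (nat_lit 76) (nat_lit 0) (XT.lf (nat_lit 0) (nat_lit 83763056343) (nat_lit 76) (nat_lit 104595309192) (nat_lit 152) (nat_lit 409829457628) (nat_lit 25) (nat_lit 5) (nat_lit 26) (nat_lit 5) (nat_lit 27) (nat_lit 4) (nat_lit 530) (nat_lit 454) (nat_lit 216)) (XT.nd (nat_lit 78) (nat_lit 76) (nat_lit 0) (XT.lf (nat_lit 0) (nat_lit 331434780242) (nat_lit 152) (nat_lit 245790550885) (nat_lit 0) (nat_lit 43461710334) (nat_lit 25) (nat_lit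 5) (nat_lit 27) (nat_lit 4) (nat_lit 25) (nat_lit 4) (nat_lit 531) (nat_lit 454) (nat_lit 215)) (XT.lf (nat_lit 0) (nat_lit 35703176889) (nat_lit 76) (nat_lit 448233816545) (nat_lit 76) (nat_lit 160260628361) (nat_lit 24) (nat_lit 4) (nat_lit 25) (nat_lit 5) (nat_lit 25) (nat_lit 4) (nat_lit 532) (nat_lit 454) (nat_lit 214)))) (XT.nd (nat_lit 156) (nat_lit 76) (nat_lit 0) (XT.nd (nat_lit 78) (nat_lit 76) (nat_lit 0) (XT.lf (nat_lit 0) (nat_lit 339804641555) (nat_lit 76) (nat_lit 308422133760) (nat_lit 76) (nat_lit 20448832933) (nat_lit 24) (nat_lit 4) (nat_lit 25) (nat_lit 5) (nat_lit 25) (nat_lit 4) (nat_lit 533) (nat_lit 454) (nat_lit 213)) (XT.lf (nat_lit 0) (nat_lit 122309329579) (nat_lit 152) (nat_lit 37239282468) (nat_lit 76) (nat_lit 534730251327) (nat_lit 23) (nat_lit 5) (nat_lit 25) (nat_lit 5) (nat_lit 24) (nat_lit 4) (nat_lit 534) (nat_lit 454) (nat_lit 212))) (XT.nd (nat_lit 78)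 (nat_lit 0) (nat_lit 0) (XT.lf (nat_lit 0) (nat_lit 275877023928) (nat_lit 152) (nat_lit 443434016112) (nat_lit 0) (nat_lit 1616537951) (nat_lit 22) (nat_lit 5) (nat_lit 24) (nat_lit 4) (nat_lit 22) (nat_lit 4) (nat_lit 535) (nat_lit 454) (nat_lit 211)) (XT.lf (nat_lit 0) (nat_lit 440379544164) (nat_lit 152) (nat_lit 142247396607) (nat_lit 0) (nat_lit 166118965515) (nat_lit 22) (nat_lit 5) (nat_lit 24) (nat_lit 4) (nat_lit 22) (nat_lit 4) (nat_lit 536) (nat_lit 454) (nat_lit 210))))) (XT.nd (nat_lit 56160) (nat_lit 0) (nat_lit 7904) (XT.nd (nat_lit 78) (nat_lit 0) (nat_lit 0) (XT.lf (nat_lit 0) (nat_lit 179751511494) (nat_lit 76) (nat_lit 436161995299) (nat_lit 76) (nat_lit 161901328391) (nat_lit 21) (nat_lit 4) (nat_lit 22) (nat_lit 5) (nat_lit 22) (nat_lit 4) (nat_lit 537) (nat_lit 454) (nat_lit 209)) (XT.nd (nat_lit 56004) (nat_lit 0) (nat_lit 7904) (XT.lf (nat_lit 0) (nat_lit 522788663531)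 (nat_lit 76) (nat_lit 279844425933) (nat_lit 76) (nat_lit 5583674969) (nat_lit 21) (nat_lit 4) (nat_lit 22) (nat_lit 5) (nat_lit 22) (nat_lit 4) (nat_lit 538) (nat_lit 454) (nat_lit 208)) (XT.lf (nat_lit 0) (nat_lit 9823124459) (nat_lit 836) (nat_lit 9961845595) (nat_lit 836) (nat_lit 9961845595) (nat_lit 125) (nat_lit 3) (nat_lit 136) (nat_lit 3) (nat_lit 136) (nat_lit 5) (nat_lit 455) (nat_lit 455) (nat_lit 290)))) (XT.nd (nat_lit 156) (nat_lit 0) (nat_lit 76) (XT.nd (nat_lit 78) (nat_lit 0) (nat_lit 76) (XT.lf (nat_lit 76) (nat_lit 9526280059) (nat_lit 0) (nat_lit 10777950112) (nat_lit 836) (nat_lit 40668393621) (nat_lit 126) (nat_lit 5) (nat_lit 125) (nat_lit 3) (nat_lit 136) (nat_lit 5) (nat_lit 456) (nat_lit 455) (nat_lit 289)) (XT.lf (nat_lit 0) (nat_lit 21640625528) (nat_lit 760) (nat_lit 21678192521) (nat_lit 836) (nat_lit 19174472558) (nat_lit 126) (nat_lit 5) (nat_lit 136) (nat_lit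 5) (nat_lit 137) (nat_lit 5) (nat_lit 457) (nat_lit 455) (nat_lit 288))) (XT.nd (nat_lit 78) (nat_lit 0) (nat_lit 76) (XT.lf (nat_lit 76) (nat_lit 9711856057) (nat_lit 0) (nat_lit 13659197239) (nat_lit 836) (nat_lit 40702577262) (nat_lit 127) (nat_lit 5) (nat_lit 126) (nat_lit 5) (nat_lit 137) (nat_lit 5) (nat_lit 458) (nat_lit 455) (nat_lit 287)) (XT.lf (nat_lit 0) (nat_lit 25833061075) (nat_lit 760) (nat_lit 22570301251) (nat_lit 836) (nat_lit 17297372661) (nat_lit 127) (nat_lit 5) (nat_lit 137) (nat_lit 5) (nat_lit 138) (nat_lit 5) (nat_lit 459) (nat_lit 455) (nat_lit 286))))))) (XT.nd (nat_lit 1092) (nat_lit 2128) (nat_lit 0) (XT.nd (nat_lit 546) (nat_lit 1520) (nat_lit 0) (XT.nd (nat_lit 234) (nat_lit 532) (nat_lit 0) (XT.nd (nat_lit 78) (nat_lit 0) (nat_lit 76) (XT.lf (nat_lit 76) (nat_lit 10936172347) (nat_lit 0) (nat_lit 17875657184) (nat_lit 836) (nat_lit 38577682480) (nat_lit 128)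 (nat_lit 5) (nat_lit 127) (nat_lit 5) (nat_lit 138) (nat_lit 5) (nat_lit 460) (nat_lit 455) (nat_lit 285)) (XT.nd (nat_lit 78) (nat_lit 0) (nat_lit 0) (XT.lf (nat_lit 0) (nat_lit 32548443553) (nat_lit 760) (nat_lit 22470408097) (nat_lit 836) (nat_lit 14113431249) (nat_lit 128) (nat_lit 5) (nat_lit 138) (nat_lit 5) (nat_lit 139) (nat_lit 5) (nat_lit 461) (nat_lit 455) (nat_lit 284)) (XT.lf (nat_lit 76) (nat_lit 13345065853) (nat_lit 0) (nat_lit 23627302604) (nat_lit 836) (nat_lit 33964800219) (nat_lit 129) (nat_lit 5) (nat_lit 128) (nat_lit 5) (nat_lit 139) (nat_lit 5) (nat_lit 462) (nat_lit 455) (nat_lit 283)))) (XT.nd (nat_lit 156) (nat_lit 684) (nat_lit 0) (XT.nd (nat_lit 78) (nat_lit 0) (nat_lit 0) (XT.lf (nat_lit 0) (nat_lit 42149121616) (nat_lit 760) (nat_lit 21234524504) (nat_lit 836) (nat_lit 9422071357) (nat_lit 129) (nat_lit 5) (nat_lit 139) (nat_lit 5) (nat_lit 140) (nat_lit 5) (nat_lit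 463) (nat_lit 455) (nat_lit 282)) (XT.lf (nat_lit 76) (nat_lit 17100225506) (nat_lit 0) (nat_lit 31137963293) (nat_lit 836) (nat_lit 26496831422) (nat_lit 130) (nat_lit 5) (nat_lit 129) (nat_lit 5) (nat_lit 140) (nat_lit 5) (nat_lit 464) (nat_lit 455) (nat_lit 281))) (XT.nd (nat_lit 78) (nat_lit 760) (nat_lit 0) (XT.lf (nat_lit 0) (nat_lit 55038881060) (nat_lit 760) (nat_lit 18702961884) (nat_lit 76) (nat_lit 2998586877) (nat_lit 130) (nat_lit 5) (nat_lit 140) (nat_lit 5) (nat_lit 131) (nat_lit 5) (nat_lit 465) (nat_lit 455) (nat_lit 280)) (XT.lf (nat_lit 0) (nat_lit 22380638521) (nat_lit 760) (nat_lit 40658083297) (nat_lit 836) (nat_lit 15764432679) (nat_lit 120) (nat_lit 5) (nat_lit 130) (nat_lit 5) (nat_lit 131) (nat_lit 5) (nat_lit 466) (nat_lit 455) (nat_lit 279))))) (XT.nd (nat_lit 234) (nat_lit 1064) (nat_lit 0) (XT.nd (nat_lit 78) (nat_lit 456) (nat_lit 0) (XT.lf (nat_lit 0) (nat_lit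 66167068759) (nat_lit 760) (nat_lit 5587486631) (nat_lit 836) (nat_lit 9198660255) (nat_lit 120) (nat_lit 5) (nat_lit 130) (nat_lit 5) (nat_lit 131) (nat_lit 5) (nat_lit 467) (nat_lit 455) (nat_lit 278)) (XT.nd (nat_lit 78) (nat_lit 76) (nat_lit 0) (XT.lf (nat_lit 0) (nat_lit 29384146035) (nat_lit 380) (nat_lit 52467788421) (nat_lit 456) (nat_lit 1311557967) (nat_lit 115) (nat_lit 5) (nat_lit 120) (nat_lit 5) (nat_lit 121) (nat_lit 5) (nat_lit 468) (nat_lit 455) (nat_lit 277)) (XT.lf (nat_lit 0) (nat_lit 7092238131) (nat_lit 456) (nat_lit 9400681742) (nat_lit 76) (nat_lit 68968651472) (nat_lit 114) (nat_lit 5) (nat_lit 120) (nat_lit 5) (nat_lit 115) (nat_lit 5) (nat_lit 469) (nat_lit 455) (nat_lit 276)))) (XT.nd (nat_lit 156) (nat_lit 684) (nat_lit 0) (XT.nd (nat_lit 78) (nat_lit 0) (nat_lit 0) (XT.lf (nat_lit 0) (nat_lit 16813511397) (nat_lit 456) (nat_lit 49782044108) (nat_lit 76) (nat_lit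 21230855673) (nat_lit 109) (nat_lit 5) (nat_lit 115) (nat_lit 5) (nat_lit 110) (nat_lit 5) (nat_lit 470) (nat_lit 455) (nat_lit 275)) (XT.lf (nat_lit 0) (nat_lit 27452398655) (nat_lit 456) (nat_lit 2387159760) (nat_lit 76) (nat_lit 60448357289) (nat_lit 109) (nat_lit 5) (nat_lit 115) (nat_lit 5) (nat_lit 110) (nat_lit 5) (nat_lit 471) (nat_lit 455) (nat_lit 274))) (XT.nd (nat_lit 78) (nat_lit 304) (nat_lit 0) (XT.lf (nat_lit 0) (nat_lit 39535967154) (nat_lit 456) (nat_lit 44040210843) (nat_lit 76) (nat_lit 9250680820) (nat_lit 104) (nat_lit 5) (nat_lit 110) (nat_lit 5) (nat_lit 105) (nat_lit 5) (nat_lit 472) (nat_lit 455) (nat_lit 273)) (XT.lf (nat_lit 0) (nat_lit 6839706366) (nat_lit 304) (nat_lit 46020466683) (nat_lit 380) (nat_lit 42600753285) (nat_lit 100) (nat_lit 5) (nat_lit 104) (nat_lit 5) (nat_lit 105) (nat_lit 5) (nat_lit 473) (nat_lit 455) (nat_lit 272)))))) (XT.nd (nat_lit 546)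 (nat_lit 1216) (nat_lit 0) (XT.nd (nat_lit 234) (nat_lit 608) (nat_lit 0) (XT.nd (nat_lit 78) (nat_lit 304) (nat_lit 0) (XT.lf (nat_lit 0) (nat_lit 61791940555) (nat_lit 304) (nat_lit 5803917343) (nat_lit 380) (nat_lit 30593576084) (nat_lit 100) (nat_lit 5) (nat_lit 104) (nat_lit 5) (nat_lit 105) (nat_lit 5) (nat_lit 474) (nat_lit 455) (nat_lit 271)) (XT.nd (nat_lit 78) (nat_lit 0) (nat_lit 0) (XT.lf (nat_lit 0) (nat_lit 18458896513) (nat_lit 304) (nat_lit 65465750336) (nat_lit 380) (nat_lit 17086904349) (nat_lit 96) (nat_lit 5) (nat_lit 100) (nat_lit 5) (nat_lit 101) (nat_lit 5) (nat_lit 475) (nat_lit 455) (nat_lit 270)) (XT.lf (nat_lit 0) (nat_lit 77222812464) (nat_lit 304) (nat_lit 24556552068) (nat_lit 380) (nat_lit 2159935447) (nat_lit 96) (nat_lit 5) (nat_lit 100) (nat_lit 5) (nat_lit 101) (nat_lit 5) (nat_lit 476) (nat_lit 455) (nat_lit 269)))) (XT.nd (nat_lit 156) (nat_lit 304) (nat_lit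 0) (XT.nd (nat_lit 78) (nat_lit 0) (nat_lit 0) (XT.lf (nat_lit 0) (nat_lit 13890727810) (nat_lit 304) (nat_lit 74528412700) (nat_lit 76) (nat_lit 18543253829) (nat_lit 92) (nat_lit 5) (nat_lit 96) (nat_lit 5) (nat_lit 93) (nat_lit 5) (nat_lit 477) (nat_lit 455) (nat_lit 268)) (XT.lf (nat_lit 0) (nat_lit 31533275085) (nat_lit 304) (nat_lit 15090542746) (nat_lit 76) (nat_lit 63467958353) (nat_lit 92) (nat_lit 5) (nat_lit 96) (nat_lit 5) (nat_lit 93) (nat_lit 5) (nat_lit 478) (nat_lit 455) (nat_lit 267))) (XT.nd (nat_lit 78) (nat_lit 0) (nat_lit 0) (XT.lf (nat_lit 0) (nat_lit 48883178159) (nat_lit 304) (nat_lit 1937497308) (nat_lit 380) (nat_lit 62518815505) (nat_lit 88) (nat_lit 5) (nat_lit 92) (nat_lit 5) (nat_lit 93) (nat_lit 5) (nat_lit 479) (nat_lit 455) (nat_lit 266)) (XT.lf (nat_lit 0) (nat_lit 72034047591) (nat_lit 380) (nat_lit 864441938) (nat_lit 76) (nat_lit 43803022018) (nat_lit 88)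 (nat_lit 5) (nat_lit 93) (nat_lit 5) (nat_lit 89) (nat_lit 5) (nat_lit 480) (nat_lit 455) (nat_lit 265))))) (XT.nd (nat_lit 312) (nat_lit 456) (nat_lit 0) (XT.nd (nat_lit 156) (nat_lit 304) (nat_lit 0) (XT.nd (nat_lit 78) (nat_lit 228) (nat_lit 0) (XT.lf (nat_lit 0) (nat_lit 68052782918) (nat_lit 228) (nat_lit 27349118128) (nat_lit 304) (nat_lit 24775041595) (nat_lit 85) (nat_lit 5) (nat_lit 88) (nat_lit 5) (nat_lit 89) (nat_lit 5) (nat_lit 481) (nat_lit 455) (nat_lit 264)) (XT.lf (nat_lit 0) (nat_lit 16838860032) (nat_lit 228) (nat_lit 103696348850) (nat_lit 304) (nat_lit 3261083443) (nat_lit 82) (nat_lit 5) (nat_lit 85) (nat_lit 5) (nat_lit 86) (nat_lit 5) (nat_lit 482) (nat_lit 455) (nat_lit 263))) (XT.nd (nat_lit 78) (nat_lit 228) (nat_lit 0) (XT.lf (nat_lit 0) (nat_lit 20055072879) (nat_lit 304) (nat_lit 37258004705) (nat_lit 76) (nat_lit 70201186595) (nat_lit 81) (nat_lit 5) (nat_lit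 85) (nat_lit 5) (nat_lit 82) (nat_lit 5) (nat_lit 483) (nat_lit 455) (nat_lit 262)) (XT.lf (nat_lit 0) (nat_lit 37058459005) (nat_lit 228) (nat_lit 7947161058) (nat_lit 304) (nat_lit 86380932806) (nat_lit 78) (nat_lit 5) (nat_lit 81) (nat_lit 5) (nat_lit 82) (nat_lit 5) (nat_lit 484) (nat_lit 455) (nat_lit 261)))) (XT.nd (nat_lit 156) (nat_lit 228) (nat_lit 0) (XT.nd (nat_lit 78) (nat_lit 228) (nat_lit 0) (XT.lf (nat_lit 0) (nat_lit 72529819221) (nat_lit 304) (nat_lit 19732776118) (nat_lit 76) (nat_lit 43123554523) (nat_lit 78) (nat_lit 5) (nat_lit 82) (nat_lit 5) (nat_lit 79) (nat_lit 5) (nat_lit 485) (nat_lit 455) (nat_lit 260)) (XT.lf (nat_lit 0) (nat_lit 60394469130) (nat_lit 228) (nat_lit 42108585012) (nat_lit 304) (nat_lit 37029031367) (nat_lit 75) (nat_lit 5) (nat_lit 78) (nat_lit 5) (nat_lit 79) (nat_lit 5) (nat_lit 486) (nat_lit 455) (nat_lit 259))) (XT.nd (nat_lit 78) (nat_lit 76)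 (nat_lit 0) (XT.lf (nat_lit 0) (nat_lit 1212547906) (nat_lit 152) (nat_lit 133285385056) (nat_lit 228) (nat_lit 9361235958) (nat_lit 73) (nat_lit 5) (nat_lit 75) (nat_lit 5) (nat_lit 76) (nat_lit 5) (nat_lit 487) (nat_lit 455) (nat_lit 258)) (XT.lf (nat_lit 0) (nat_lit 21111885022) (nat_lit 228) (nat_lit 61028153604) (nat_lit 76) (nat_lit 66144590337) (nat_lit 72) (nat_lit 5) (nat_lit 75) (nat_lit 5) (nat_lit 73) (nat_lit 5) (nat_lit 488) (nat_lit 455) (nat_lit 257))))))))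
noncomputable def xc206 : XT := (XT.nd (nat_lit 2184) (nat_lit 1216) (nat_lit 0) (XT.nd (nat_lit 1092) (nat_lit 1140) (nat_lit 0) (XT.nd (nat_lit 546) (nat_lit 760) (nat_lit 0) (XT.nd (nat_lit 234) (nat_lit 380) (nat_lit 0) (XT.nd (nat_lit 78) (nat_lit 152) (nat_lit 0) (XT.lf (nat_lit 0) (nat_lit 25327884255) (nat_lit 228) (nat_lit 27861263470) (nat_lit 304) (nat_lit 99714786986) (nat_lit 69) (nat_lit 5) (nat_lit 72) (nat_lit 5) (nat_lit 73) (nat_lit 5) (nat_lit 489) (nat_lit 455) (nat_lit 256)) (XT.nd (nat_lit 78) (nat_lit 152) (nat_lit 0) (XT.lf (nat_lit 0) (nat_lit 88375232778) (nat_lit 304) (nat_lit 40054358138) (nat_lit 76) (nat_lit 29249366945) (nat_lit 69) (nat_lit 5) (nat_lit 73) (nat_lit 5) (nat_lit 70) (nat_lit 5) (nat_lit 490) (nat_lit 455) (nat_lit 255)) (XT.lf (nat_lit 0) (nat_lit 53085214915) (nat_lit 152) (nat_lit 73520625804) (nat_lit 228) (nat_lit 36022630588) (nat_lit 67)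 (nat_lit 5) (nat_lit 69) (nat_lit 5) (nat_lit 70) (nat_lit 5) (nat_lit 491) (nat_lit 455) (nat_lit 254)))) (XT.nd (nat_lit 156) (nat_lit 152) (nat_lit 0) (XT.nd (nat_lit 78) (nat_lit 228) (nat_lit 0) (XT.lf (nat_lit 0) (nat_lit 152271851625) (nat_lit 152) (nat_lit 15154142841) (nat_lit 228) (nat_lit 365565255) (nat_lit 67) (nat_lit 5) (nat_lit 69) (nat_lit 5) (nat_lit 70) (nat_lit 5) (nat_lit 492) (nat_lit 455) (nat_lit 253)) (XT.lf (nat_lit 0) (nat_lit 37971662900) (nat_lit 228) (nat_lit 88511141830) (nat_lit 76) (nat_lit 46596860140) (nat_lit 64) (nat_lit 5) (nat_lit 67) (nat_lit 5) (nat_lit 65) (nat_lit 5) (nat_lit 493) (nat_lit 455) (nat_lit 252))) (XT.nd (nat_lit 78) (nat_lit 0) (nat_lit 0) (XT.lf (nat_lit 0) (nat_lit 11696055538) (nat_lit 152) (nat_lit 67215281082) (nat_lit 228) (nat_lit 99685645593) (nat_lit 62) (nat_lit 5) (nat_lit 64) (nat_lit 5) (nat_lit 65) (nat_lit 5) (nat_lit 494)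 (nat_lit 455) (nat_lit 251)) (XT.lf (nat_lit 0) (nat_lit 119986025406) (nat_lit 152) (nat_lit 3410644921) (nat_lit 228) (nat_lit 60918561338) (nat_lit 62) (nat_lit 5) (nat_lit 64) (nat_lit 5) (nat_lit 65) (nat_lit 5) (nat_lit 495) (nat_lit 455) (nat_lit 250))))) (XT.nd (nat_lit 234) (nat_lit 380) (nat_lit 0) (XT.nd (nat_lit 78) (nat_lit 228) (nat_lit 0) (XT.lf (nat_lit 0) (nat_lit 43779094255) (nat_lit 152) (nat_lit 128003127581) (nat_lit 228) (nat_lit 18453374248) (nat_lit 60) (nat_lit 5) (nat_lit 62) (nat_lit 5) (nat_lit 63) (nat_lit 5) (nat_lit 496) (nat_lit 455) (nat_lit 249)) (XT.nd (nat_lit 78) (nat_lit 152) (nat_lit 0) (XT.lf (nat_lit 0) (nat_lit 26461515478) (nat_lit 228) (nat_lit 37353629807) (nat_lit 76) (nat_lit 132558284960) (nat_lit 59) (nat_lit 5) (nat_lit 62) (nat_lit 5) (nat_lit 60) (nat_lit 5) (nat_lit 497) (nat_lit 455) (nat_lit 248)) (XT.lf (nat_lit 0) (nat_lit 74323283637)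 (nat_lit 228) (nat_lit 123378127391) (nat_lit 76) (nat_lit 5035555001) (nat_lit 57) (nat_lit 5) (nat_lit 60) (nat_lit 5) (nat_lit 58) (nat_lit 5) (nat_lit 498) (nat_lit 455) (nat_lit 247)))) (XT.nd (nat_lit 156) (nat_lit 228) (nat_lit 0) (XT.nd (nat_lit 78) (nat_lit 152) (nat_lit 0) (XT.lf (nat_lit 0) (nat_lit 126266989978) (nat_lit 228) (nat_lit 7240269179) (nat_lit 76) (nat_lit 75826976998) (nat_lit 57) (nat_lit 5) (nat_lit 60) (nat_lit 5) (nat_lit 58) (nat_lit 5) (nat_lit 499) (nat_lit 455) (nat_lit 246)) (XT.lf (nat_lit 0) (nat_lit 118496673212) (nat_lit 152) (nat_lit 64161014088) (nat_lit 228) (nat_lit 33511192247) (nat_lit 55) (nat_lit 5) (nat_lit 57) (nat_lit 5) (nat_lit 58) (nat_lit 5) (nat_lit 500) (nat_lit 455) (nat_lit 245))) (XT.nd (nat_lit 78) (nat_lit 0) (nat_lit 0) (XT.lf (nat_lit 0) (nat_lit 18640999762) (nat_lit 228) (nat_lit 195413271287) (nat_lit 76) (nat_lit 9240965745)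 (nat_lit 52) (nat_lit 5) (nat_lit 55) (nat_lit 5) (nat_lit 53) (nat_lit 5) (nat_lit 501) (nat_lit 455) (nat_lit 244)) (XT.lf (nat_lit 0) (nat_lit 75007412842) (nat_lit 228) (nat_lit 69219148111) (nat_lit 76) (nat_lit 86387242433) (nat_lit 52) (nat_lit 5) (nat_lit 55) (nat_lit 5) (nat_lit 53) (nat_lit 5) (nat_lit 502) (nat_lit 455) (nat_lit 243)))))) (XT.nd (nat_lit 546) (nat_lit 532) (nat_lit 0) (XT.nd (nat_lit 234) (nat_lit 304) (nat_lit 0) (XT.nd (nat_lit 78) (nat_lit 152) (nat_lit 0) (XT.lf (nat_lit 0) (nat_lit 65376719411) (nat_lit 152) (nat_lit 69835897616) (nat_lit 228) (nat_lit 103034657791) (nat_lit 50) (nat_lit 5) (nat_lit 52) (nat_lit 5) (nat_lit 53) (nat_lit 5) (nat_lit 503) (nat_lit 455) (nat_lit 242)) (XT.nd (nat_lit 78) (nat_lit 152) (nat_lit 0) (XT.lf (nat_lit 0) (nat_lit 199748502446) (nat_lit 228) (nat_lit 37247123771) (nat_lit 76) (nat_lit 9200772585) (nat_lit 50) (nat_lit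 5) (nat_lit 53) (nat_lit 5) (nat_lit 51) (nat_lit 4) (nat_lit 504) (nat_lit 455) (nat_lit 241)) (XT.lf (nat_lit 0) (nat_lit 15421643453) (nat_lit 152) (nat_lit 147199267924) (nat_lit 76) (nat_lit 91768518949) (nat_lit 48) (nat_lit 5) (nat_lit 50) (nat_lit 5) (nat_lit 49) (nat_lit 5) (nat_lit 505) (nat_lit 455) (nat_lit 240)))) (XT.nd (nat_lit 156) (nat_lit 152) (nat_lit 0) (XT.nd (nat_lit 78) (nat_lit 152) (nat_lit 0) (XT.lf (nat_lit 0) (nat_lit 79464616714) (nat_lit 152) (nat_lit 3590314553) (nat_lit 76) (nat_lit 179867064623) (nat_lit 48) (nat_lit 5) (nat_lit 50) (nat_lit 5) (nat_lit 49) (nat_lit 5) (nat_lit 506) (nat_lit 455) (nat_lit 239)) (XT.lf (nat_lit 0) (nat_lit 149130251696) (nat_lit 228) (nat_lit 119743298741) (nat_lit 76) (nat_lit 2886613668) (nat_lit 46) (nat_lit 5) (nat_lit 49) (nat_lit 5) (nat_lit 47) (nat_lit 4) (nat_lit 507) (nat_lit 455) (nat_lit 238))) (XT.nd (nat_lit 78)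 (nat_lit 76) (nat_lit 0) (XT.lf (nat_lit 0) (nat_lit 34224299197) (nat_lit 76) (nat_lit 190012347191) (nat_lit 152) (nat_lit 56705720473) (nat_lit 45) (nat_lit 5) (nat_lit 46) (nat_lit 5) (nat_lit 47) (nat_lit 4) (nat_lit 508) (nat_lit 455) (nat_lit 237)) (XT.lf (nat_lit 0) (nat_lit 14175073037) (nat_lit 152) (nat_lit 90663815190) (nat_lit 76) (nat_lit 185631975089) (nat_lit 44) (nat_lit 5) (nat_lit 46) (nat_lit 5) (nat_lit 45) (nat_lit 5) (nat_lit 509) (nat_lit 455) (nat_lit 236))))) (XT.nd (nat_lit 234) (nat_lit 304) (nat_lit 0) (XT.nd (nat_lit 78) (nat_lit 76) (nat_lit 0) (XT.lf (nat_lit 0) (nat_lit 74652522220) (nat_lit 152) (nat_lit 13207030072) (nat_lit 228) (nat_lit 212511485721) (nat_lit 42) (nat_lit 5) (nat_lit 44) (nat_lit 5) (nat_lit 45) (nat_lit 5) (nat_lit 510) (nat_lit 455) (nat_lit 235)) (XT.nd (nat_lit 78) (nat_lit 76) (nat_lit 0) (XT.lf (nat_lit 0) (nat_lit 168084621504) (nat_lit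 228) (nat_lit 60628638264) (nat_lit 76) (nat_lit 81910143397) (nat_lit 42) (nat_lit 5) (nat_lit 45) (nat_lit 5) (nat_lit 43) (nat_lit 4) (nat_lit 511) (nat_lit 455) (nat_lit 234)) (XT.lf (nat_lit 0) (nat_lit 116218588801) (nat_lit 76) (nat_lit 138133168111) (nat_lit 152) (nat_lit 66935089046) (nat_lit 41) (nat_lit 5) (nat_lit 42) (nat_lit 5) (nat_lit 43) (nat_lit 4) (nat_lit 512) (nat_lit 455) (nat_lit 233)))) (XT.nd (nat_lit 156) (nat_lit 76) (nat_lit 0) (XT.nd (nat_lit 78) (nat_lit 152) (nat_lit 0) (XT.lf (nat_lit 0) (nat_lit 13093763736) (nat_lit 152) (nat_lit 28630605294) (nat_lit 76) (nat_lit 290697203130) (nat_lit 40) (nat_lit 5) (nat_lit 42) (nat_lit 5) (nat_lit 41) (nat_lit 5) (nat_lit 513) (nat_lit 455) (nat_lit 232)) (XT.lf (nat_lit 0) (nat_lit 98371134382) (nat_lit 228) (nat_lit 184247038902) (nat_lit 76) (nat_lit 61265169922) (nat_lit 38) (nat_lit 5) (nat_lit 41) (nat_lit 5) (nat_lit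 39) (nat_lit 4) (nat_lit 514) (nat_lit 455) (nat_lit 231))) (XT.nd (nat_lit 78) (nat_lit 0) (nat_lit 0) (XT.lf (nat_lit 0) (nat_lit 1781307264) (nat_lit 76) (nat_lit 187335522569) (nat_lit 152) (nat_lit 166741150172) (nat_lit 37) (nat_lit 5) (nat_lit 38) (nat_lit 5) (nat_lit 39) (nat_lit 4) (nat_lit 515) (nat_lit 455) (nat_lit 230)) (XT.lf (nat_lit 0) (nat_lit 203507376284) (nat_lit 76) (nat_lit 84012567130) (nat_lit 152) (nat_lit 80755398580) (nat_lit 37) (nat_lit 5) (nat_lit 38) (nat_lit 5) (nat_lit 39) (nat_lit 4) (nat_lit 516) (nat_lit 455) (nat_lit 229))))))) (XT.nd (nat_lit 1092) (nat_lit 380) (nat_lit 0) (XT.nd (nat_lit 546) (nat_lit 380) (nat_lit 0) (XT.nd (nat_lit 234) (nat_lit 228) (nat_lit 0) (XT.nd (nat_lit 78) (nat_lit 76) (nat_lit 0) (XT.lf (nat_lit 0) (nat_lit 10164076833) (nat_lit 152) (nat_lit 346695839245) (nat_lit 76) (nat_lit 24399244585) (nat_lit 35) (nat_lit 5) (nat_lit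 37) (nat_lit 5) (nat_lit 36) (nat_lit 4) (nat_lit 517) (nat_lit 455) (nat_lit 228)) (XT.nd (nat_lit 78) (nat_lit 76) (nat_lit 0) (XT.lf (nat_lit 0) (nat_lit 107128867443) (nat_lit 152) (nat_lit 147918289582) (nat_lit 76) (nat_lit 139568157685) (nat_lit 35) (nat_lit 5) (nat_lit 37) (nat_lit 5) (nat_lit 36) (nat_lit 4) (nat_lit 518) (nat_lit 455) (nat_lit 227)) (XT.lf (nat_lit 0) (nat_lit 62808077498) (nat_lit 76) (nat_lit 147114265682) (nat_lit 152) (nat_lit 198667911014) (nat_lit 34) (nat_lit 5) (nat_lit 35) (nat_lit 5) (nat_lit 36) (nat_lit 4) (nat_lit 519) (nat_lit 455) (nat_lit 226)))) (XT.nd (nat_lit 156) (nat_lit 76) (nat_lit 0) (XT.nd (nat_lit 78) (nat_lit 152) (nat_lit 0) (XT.lf (nat_lit 0) (nat_lit 289205846164) (nat_lit 76) (nat_lit 31154552895) (nat_lit 152) (nat_lit 102778296287) (nat_lit 34) (nat_lit 5) (nat_lit 35) (nat_lit 5) (nat_lit 36) (nat_lit 4) (nat_lit 520) (nat_lit 455)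 (nat_lit 225)) (XT.lf (nat_lit 0) (nat_lit 838198661) (nat_lit 152) (nat_lit 348313317587) (nat_lit 76) (nat_lit 89121408537) (nat_lit 32) (nat_lit 5) (nat_lit 34) (nat_lit 5) (nat_lit 33) (nat_lit 4) (nat_lit 521) (nat_lit 455) (nat_lit 224))) (XT.nd (nat_lit 78) (nat_lit 76) (nat_lit 0) (XT.lf (nat_lit 0) (nat_lit 108997469959) (nat_lit 152) (nat_lit 126587023832) (nat_lit 76) (nat_lit 218354328595) (nat_lit 32) (nat_lit 5) (nat_lit 34) (nat_lit 5) (nat_lit 33) (nat_lit 4) (nat_lit 522) (nat_lit 455) (nat_lit 223)) (XT.lf (nat_lit 0) (nat_lit 109737589823) (nat_lit 76) (nat_lit 114540278158) (nat_lit 152) (nat_lit 246024488737) (nat_lit 31) (nat_lit 5) (nat_lit 32) (nat_lit 5) (nat_lit 33) (nat_lit 4) (nat_lit 523) (nat_lit 455) (nat_lit 222))))) (XT.nd (nat_lit 234) (nat_lit 228) (nat_lit 0) (XT.nd (nat_lit 78) (nat_lit 152) (nat_lit 0) (XT.lf (nat_lit 0) (nat_lit 347697132011) (nat_lit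 152) (nat_lit 125335092113) (nat_lit 0) (nat_lit 14333101347) (nat_lit 31) (nat_lit 5) (nat_lit 33) (nat_lit 4) (nat_lit 31) (nat_lit 4) (nat_lit 524) (nat_lit 455) (nat_lit 221)) (XT.nd (nat_lit 78) (nat_lit 76) (nat_lit 0) (XT.lf (nat_lit 0) (nat_lit 123738491290) (nat_lit 76) (nat_lit 357358341556) (nat_lit 76) (nat_lit 23994136146) (nat_lit 30) (nat_lit 4) (nat_lit 31) (nat_lit 5) (nat_lit 31) (nat_lit 4) (nat_lit 525) (nat_lit 455) (nat_lit 220)) (XT.lf (nat_lit 0) (nat_lit 96501446488) (nat_lit 152) (nat_lit 135536406534) (nat_lit 76) (nat_lit 291481094304) (nat_lit 29) (nat_lit 5) (nat_lit 31) (nat_lit 5) (nat_lit 30) (nat_lit 4) (nat_lit 526) (nat_lit 455) (nat_lit 219)))) (XT.nd (nat_lit 156) (nat_lit 152) (nat_lit 0) (XT.nd (nat_lit 78) (nat_lit 0) (nat_lit 0) (XT.lf (nat_lit 0) (nat_lit 126216583061) (nat_lit 76) (nat_lit 97969325912) (nat_lit 152) (nat_lit 318564225235) (nat_lit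 28) (nat_lit 5) (nat_lit 29) (nat_lit 5) (nat_lit 30) (nat_lit 4) (nat_lit 527) (nat_lit 455) (nat_lit 218)) (XT.lf (nat_lit 0) (nat_lit 361255734217) (nat_lit 152) (nat_lit 157771527682) (nat_lit 0) (nat_lit 43765561562) (nat_lit 28) (nat_lit 5) (nat_lit 30) (nat_lit 4) (nat_lit 28) (nat_lit 4) (nat_lit 528) (nat_lit 455) (nat_lit 217))) (XT.nd (nat_lit 78) (nat_lit 76) (nat_lit 0) (XT.lf (nat_lit 0) (nat_lit 116036179076) (nat_lit 76) (nat_lit 392560449396) (nat_lit 76) (nat_lit 75070139823) (nat_lit 27) (nat_lit 4) (nat_lit 28) (nat_lit 5) (nat_lit 28) (nat_lit 4) (nat_lit 529) (nat_lit 455) (nat_lit 216)) (XT.lf (nat_lit 0) (nat_lit 58588364477) (nat_lit 152) (nat_lit 197384292794) (nat_lit 76) (nat_lit 349430913791) (nat_lit 26) (nat_lit 5) (nat_lit 28) (nat_lit 5) (nat_lit 27) (nat_lit 4) (nat_lit 530) (nat_lit 455) (nat_lit 215)))))) (XT.nd (nat_lit 546) (nat_lit 76) (nat_lit 0) (XT.nd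 (nat_lit 234) (nat_lit 152) (nat_lit 0) (XT.nd (nat_lit 78) (nat_lit 76) (nat_lit 0) (XT.lf (nat_lit 0) (nat_lit 87958652349) (nat_lit 76) (nat_lit 109821453265) (nat_lit 152) (nat_lit 430316917428) (nat_lit 25) (nat_lit 5) (nat_lit 26) (nat_lit 5) (nat_lit 27) (nat_lit 4) (nat_lit 531) (nat_lit 455) (nat_lit 214)) (XT.nd (nat_lit 78) (nat_lit 76) (nat_lit 0) (XT.lf (nat_lit 0) (nat_lit 348010212914) (nat_lit 152) (nat_lit 258072861355) (nat_lit 0) (nat_lit 45638134403) (nat_lit 25) (nat_lit 5) (nat_lit 27) (nat_lit 4) (nat_lit 25) (nat_lit 4) (nat_lit 532) (nat_lit 455) (nat_lit 213)) (XT.lf (nat_lit 0) (nat_lit 37495436404) (nat_lit 76) (nat_lit 470642035334) (nat_lit 76) (nat_lit 168269849544) (nat_lit 24) (nat_lit 4) (nat_lit 25) (nat_lit 5) (nat_lit 25) (nat_lit 4) (nat_lit 533) (nat_lit 455) (nat_lit 212)))) (XT.nd (nat_lit 156) (nat_lit 76) (nat_lit 0) (XT.nd (nat_lit 78) (nat_lit 76)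 (nat_lit 0) (XT.lf (nat_lit 0) (nat_lit 356801636176) (nat_lit 76) (nat_lit 323839933745) (nat_lit 76) (nat_lit 21467645785) (nat_lit 24) (nat_lit 4) (nat_lit 25) (nat_lit 5) (nat_lit 25) (nat_lit 4) (nat_lit 534) (nat_lit 455) (nat_lit 211)) (XT.lf (nat_lit 0) (nat_lit 128428141440) (nat_lit 152) (nat_lit 39094695313) (nat_lit 76) (nat_lit 561469802372) (nat_lit 23) (nat_lit 5) (nat_lit 25) (nat_lit 5) (nat_lit 24) (nat_lit 4) (nat_lit 535) (nat_lit 455) (nat_lit 210))) (XT.nd (nat_lit 78) (nat_lit 0) (nat_lit 0) (XT.lf (nat_lit 0) (nat_lit 289674211157) (nat_lit 152) (nat_lit 465599156147) (nat_lit 0) (nat_lit 1700422644) (nat_lit 22) (nat_lit 5) (nat_lit 24) (nat_lit 4) (nat_lit 22) (nat_lit 4) (nat_lit 536) (nat_lit 455) (nat_lit 209)) (XT.lf (nat_lit 0) (nat_lit 462401698546) (nat_lit 152) (nat_lit 149353518085) (nat_lit 0) (nat_lit 174427825978) (nat_lit 22) (nat_lit 5) (nat_lit 24) (nat_lit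 4) (nat_lit 22) (nat_lit 4) (nat_lit 537) (nat_lit 455) (nat_lit 208))))) (XT.nd (nat_lit 56316) (nat_lit 0) (nat_lit 7980) (XT.nd (nat_lit 56160) (nat_lit 0) (nat_lit 7904) (XT.nd (nat_lit 56082) (nat_lit 0) (nat_lit 7904) (XT.lf (nat_lit 0) (nat_lit 188745234641) (nat_lit 76) (nat_lit 457967069351) (nat_lit 76) (nat_lit 169993116729) (nat_lit 21) (nat_lit 4) (nat_lit 22) (nat_lit 5) (nat_lit 22) (nat_lit 4) (nat_lit 538) (nat_lit 455) (nat_lit 207)) (XT.lf (nat_lit 0) (nat_lit 10332091298) (nat_lit 836) (nat_lit 10450583837) (nat_lit 836) (nat_lit 10450583837) (nat_lit 125) (nat_lit 3) (nat_lit 136) (nat_lit 3) (nat_lit 136) (nat_lit 5) (nat_lit 456) (nat_lit 456) (nat_lit 288))) (XT.nd (nat_lit 78) (nat_lit 0) (nat_lit 76) (XT.lf (nat_lit 76) (nat_lit 10021000395) (nat_lit 0) (nat_lit 11332653641) (nat_lit 836) (nat_lit 42665877128) (nat_lit 126) (nat_lit 5) (nat_lit 125) (nat_lit 3) (nat_lit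 136) (nat_lit 5) (nat_lit 457) (nat_lit 456) (nat_lit 287)) (XT.lf (nat_lit 0) (nat_lit 22755004977) (nat_lit 760) (nat_lit 22742695550) (nat_lit 836) (nat_lit 20118624631) (nat_lit 126) (nat_lit 5) (nat_lit 136) (nat_lit 5) (nat_lit 137) (nat_lit 5) (nat_lit 458) (nat_lit 456) (nat_lit 286)))) (XT.nd (nat_lit 156) (nat_lit 0) (nat_lit 76) (XT.nd (nat_lit 78) (nat_lit 0) (nat_lit 76) (XT.lf (nat_lit 76) (nat_lit 10216542448) (nat_lit 0) (nat_lit 14354169402) (nat_lit 836) (nat_lit 42705032971) (nat_lit 127) (nat_lit 5) (nat_lit 126) (nat_lit 5) (nat_lit 137) (nat_lit 5) (nat_lit 459) (nat_lit 456) (nat_lit 285)) (XT.lf (nat_lit 0) (nat_lit 27154160169) (nat_lit 760) (nat_lit 23678960694) (nat_lit 836) (nat_lit 18151167169) (nat_lit 127) (nat_lit 5) (nat_lit 137) (nat_lit 5) (nat_lit 138) (nat_lit 5) (nat_lit 460) (nat_lit 456) (nat_lit 284))) (XT.nd (nat_lit 78) (nat_lit 0) (nat_lit 76) (XT.lf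 (nat_lit 76) (nat_lit 11502516331) (nat_lit 0) (nat_lit 18778253526) (nat_lit 836) (nat_lit 40476789453) (nat_lit 128) (nat_lit 5) (nat_lit 127) (nat_lit 5) (nat_lit 138) (nat_lit 5) (nat_lit 461) (nat_lit 456) (nat_lit 283)) (XT.lf (nat_lit 0) (nat_lit 34202733585) (nat_lit 760) (nat_lit 23573832052) (nat_lit 836) (nat_lit 14810977672) (nat_lit 128) (nat_lit 5) (nat_lit 138) (nat_lit 5) (nat_lit 139) (nat_lit 5) (nat_lit 462) (nat_lit 456) (nat_lit 282))))))))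
noncomputable def xc207 : XT := (XT.nd (nat_lit 2184) (nat_lit 2584) (nat_lit 0) (XT.nd (nat_lit 1092) (nat_lit 2052) (nat_lit 0) (XT.nd (nat_lit 546) (nat_lit 1444) (nat_lit 0) (XT.nd (nat_lit 234) (nat_lit 988) (nat_lit 0) (XT.nd (nat_lit 78) (nat_lit 0) (nat_lit 76) (XT.lf (nat_lit 76) (nat_lit 14032091458) (nat_lit 0) (nat_lit 24814792555) (nat_lit 836) (nat_lit 35635838390) (nat_lit 129) (nat_lit 5) (nat_lit 128) (nat_lit 5) (nat_lit 139) (nat_lit 5) (nat_lit 463) (nat_lit 456) (nat_lit 281)) (XT.nd (nat_lit 78) (nat_lit 0) (nat_lit 0) (XT.lf (nat_lit 0) (nat_lit 44281150562) (nat_lit 760) (nat_lit 22276086306) (nat_lit 836) (nat_lit 9887528460) (nat_lit 129) (nat_lit 5) (nat_lit 139) (nat_lit 5) (nat_lit 140) (nat_lit 5) (nat_lit 464) (nat_lit 456) (nat_lit 280)) (XT.lf (nat_lit 76) (nat_lit 17975075972) (nat_lit 0) (nat_lit 32698734741) (nat_lit 836) (nat_lit 27796765962) (nat_lit 130)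 (nat_lit 5) (nat_lit 129) (nat_lit 5) (nat_lit 140) (nat_lit 5) (nat_lit 465) (nat_lit 456) (nat_lit 279)))) (XT.nd (nat_lit 156) (nat_lit 380) (nat_lit 0) (XT.nd (nat_lit 78) (nat_lit 760) (nat_lit 0) (XT.lf (nat_lit 0) (nat_lit 57813350828) (nat_lit 760) (nat_lit 19618020244) (nat_lit 76) (nat_lit 3144945446) (nat_lit 130) (nat_lit 5) (nat_lit 140) (nat_lit 5) (nat_lit 131) (nat_lit 5) (nat_lit 466) (nat_lit 456) (nat_lit 278)) (XT.lf (nat_lit 0) (nat_lit 23519436154) (nat_lit 760) (nat_lit 42692983415) (nat_lit 836) (nat_lit 16529796467) (nat_lit 120) (nat_lit 5) (nat_lit 130) (nat_lit 5) (nat_lit 131) (nat_lit 5) (nat_lit 467) (nat_lit 456) (nat_lit 277))) (XT.nd (nat_lit 78) (nat_lit 380) (nat_lit 0) (XT.lf (nat_lit 0) (nat_lit 69494246680) (nat_lit 760) (nat_lit 5868761871) (nat_lit 836) (nat_lit 9636823890) (nat_lit 120) (nat_lit 5) (nat_lit 130) (nat_lit 5) (nat_lit 131) (nat_lit 5)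 (nat_lit 468) (nat_lit 456) (nat_lit 276)) (XT.lf (nat_lit 0) (nat_lit 30872930547) (nat_lit 380) (nat_lit 55091616489) (nat_lit 456) (nat_lit 1356111866) (nat_lit 115) (nat_lit 5) (nat_lit 120) (nat_lit 5) (nat_lit 121) (nat_lit 5) (nat_lit 469) (nat_lit 456) (nat_lit 275))))) (XT.nd (nat_lit 234) (nat_lit 988) (nat_lit 0) (XT.nd (nat_lit 78) (nat_lit 380) (nat_lit 0) (XT.lf (nat_lit 0) (nat_lit 7466232038) (nat_lit 456) (nat_lit 9851423345) (nat_lit 76) (nat_lit 72416018763) (nat_lit 114) (nat_lit 5) (nat_lit 120) (nat_lit 5) (nat_lit 115) (nat_lit 5) (nat_lit 470) (nat_lit 456) (nat_lit 274)) (XT.nd (nat_lit 78) (nat_lit 0) (nat_lit 0) (XT.lf (nat_lit 0) (nat_lit 17672945894) (nat_lit 456) (nat_lit 52251224405) (nat_lit 76) (nat_lit 22292617142) (nat_lit 109) (nat_lit 5) (nat_lit 115) (nat_lit 5) (nat_lit 110) (nat_lit 5) (nat_lit 471) (nat_lit 456) (nat_lit 273)) (XT.lf (nat_lit 0) (nat_lit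 28842884232) (nat_lit 456) (nat_lit 2487544503) (nat_lit 76) (nat_lit 63470983425) (nat_lit 109) (nat_lit 5) (nat_lit 115) (nat_lit 5) (nat_lit 110) (nat_lit 5) (nat_lit 472) (nat_lit 456) (nat_lit 272)))) (XT.nd (nat_lit 156) (nat_lit 304) (nat_lit 0) (XT.nd (nat_lit 78) (nat_lit 304) (nat_lit 0) (XT.lf (nat_lit 0) (nat_lit 41530093106) (nat_lit 456) (nat_lit 46222704331) (nat_lit 76) (nat_lit 9714532182) (nat_lit 104) (nat_lit 5) (nat_lit 110) (nat_lit 5) (nat_lit 105) (nat_lit 5) (nat_lit 473) (nat_lit 456) (nat_lit 271)) (XT.lf (nat_lit 0) (nat_lit 7200893948) (nat_lit 304) (nat_lit 48319090026) (nat_lit 380) (nat_lit 44713143079) (nat_lit 100) (nat_lit 5) (nat_lit 104) (nat_lit 5) (nat_lit 105) (nat_lit 5) (nat_lit 474) (nat_lit 456) (nat_lit 270))) (XT.nd (nat_lit 78) (nat_lit 304) (nat_lit 0) (XT.lf (nat_lit 0) (nat_lit 64899825453) (nat_lit 304) (nat_lit 6091827504) (nat_lit 380) (nat_lit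 32106447393) (nat_lit 100) (nat_lit 5) (nat_lit 104) (nat_lit 5) (nat_lit 105) (nat_lit 5) (nat_lit 475) (nat_lit 456) (nat_lit 269)) (XT.lf (nat_lit 0) (nat_lit 19400591474) (nat_lit 304) (nat_lit 68735854602) (nat_lit 380) (nat_lit 17924899362) (nat_lit 96) (nat_lit 5) (nat_lit 100) (nat_lit 5) (nat_lit 101) (nat_lit 5) (nat_lit 476) (nat_lit 456) (nat_lit 268)))))) (XT.nd (nat_lit 546) (nat_lit 988) (nat_lit 0) (XT.nd (nat_lit 234) (nat_lit 760) (nat_lit 0) (XT.nd (nat_lit 78) (nat_lit 304) (nat_lit 0) (XT.lf (nat_lit 0) (nat_lit 81101810359) (nat_lit 304) (nat_lit 25781348005) (nat_lit 380) (nat_lit 2252360596) (nat_lit 96) (nat_lit 5) (nat_lit 100) (nat_lit 5) (nat_lit 101) (nat_lit 5) (nat_lit 477) (nat_lit 456) (nat_lit 267)) (XT.nd (nat_lit 78) (nat_lit 0) (nat_lit 0) (XT.lf (nat_lit 0) (nat_lit 14599955190) (nat_lit 304) (nat_lit 78236086620) (nat_lit 76) (nat_lit 19473733400) (nat_lit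 92) (nat_lit 5) (nat_lit 96) (nat_lit 5) (nat_lit 93) (nat_lit 5) (nat_lit 478) (nat_lit 456) (nat_lit 266)) (XT.lf (nat_lit 0) (nat_lit 33123930257) (nat_lit 304) (nat_lit 15827215868) (nat_lit 76) (nat_lit 66644515204) (nat_lit 92) (nat_lit 5) (nat_lit 96) (nat_lit 5) (nat_lit 93) (nat_lit 5) (nat_lit 479) (nat_lit 456) (nat_lit 265)))) (XT.nd (nat_lit 156) (nat_lit 456) (nat_lit 0) (XT.nd (nat_lit 78) (nat_lit 0) (nat_lit 0) (XT.lf (nat_lit 0) (nat_lit 51344903114) (nat_lit 304) (nat_lit 2030405542) (nat_lit 380) (nat_lit 65630472996) (nat_lit 88) (nat_lit 5) (nat_lit 92) (nat_lit 5) (nat_lit 93) (nat_lit 5) (nat_lit 480) (nat_lit 456) (nat_lit 264)) (XT.lf (nat_lit 0) (nat_lit 75648760775) (nat_lit 380) (nat_lit 890342144) (nat_lit 76) (nat_lit 45996829952) (nat_lit 88) (nat_lit 5) (nat_lit 93) (nat_lit 5) (nat_lit 89) (nat_lit 5) (nat_lit 481) (nat_lit 456) (nat_lit 263))) (XT.nd (nat_lit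 78) (nat_lit 228) (nat_lit 0) (XT.lf (nat_lit 0) (nat_lit 71472464569) (nat_lit 228) (nat_lit 28712188853) (nat_lit 304) (nat_lit 26000499949) (nat_lit 85) (nat_lit 5) (nat_lit 88) (nat_lit 5) (nat_lit 89) (nat_lit 5) (nat_lit 482) (nat_lit 456) (nat_lit 262)) (XT.lf (nat_lit 0) (nat_lit 17698129436) (nat_lit 228) (nat_lit 108876230203) (nat_lit 304) (nat_lit 3411124420) (nat_lit 82) (nat_lit 5) (nat_lit 85) (nat_lit 5) (nat_lit 86) (nat_lit 5) (nat_lit 483) (nat_lit 456) (nat_lit 261))))) (XT.nd (nat_lit 234) (nat_lit 684) (nat_lit 0) (XT.nd (nat_lit 78) (nat_lit 228) (nat_lit 0) (XT.lf (nat_lit 0) (nat_lit 21069823372) (nat_lit 304) (nat_lit 39104003881) (nat_lit 76) (nat_lit 73715547239) (nat_lit 81) (nat_lit 5) (nat_lit 85) (nat_lit 5) (nat_lit 82) (nat_lit 5) (nat_lit 484) (nat_lit 456) (nat_lit 260)) (XT.nd (nat_lit 78) (nat_lit 0) (nat_lit 0) (XT.lf (nat_lit 0) (nat_lit 38928010418)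 (nat_lit 228) (nat_lit 8339575837) (nat_lit 304) (nat_lit 90687707090) (nat_lit 78) (nat_lit 5) (nat_lit 81) (nat_lit 5) (nat_lit 82) (nat_lit 5) (nat_lit 485) (nat_lit 456) (nat_lit 259)) (XT.lf (nat_lit 0) (nat_lit 76167512435) (nat_lit 304) (nat_lit 20703092589) (nat_lit 76) (nat_lit 45284289447) (nat_lit 78) (nat_lit 5) (nat_lit 82) (nat_lit 5) (nat_lit 79) (nat_lit 5) (nat_lit 486) (nat_lit 456) (nat_lit 258)))) (XT.nd (nat_lit 156) (nat_lit 304) (nat_lit 0) (XT.nd (nat_lit 78) (nat_lit 152) (nat_lit 0) (XT.lf (nat_lit 0) (nat_lit 63430251658) (nat_lit 228) (nat_lit 44208874731) (nat_lit 304) (nat_lit 38869014780) (nat_lit 75) (nat_lit 5) (nat_lit 78) (nat_lit 5) (nat_lit 79) (nat_lit 5) (nat_lit 487) (nat_lit 456) (nat_lit 257)) (XT.lf (nat_lit 0) (nat_lit 1289436174) (nat_lit 152) (nat_lit 139944123298) (nat_lit 228) (nat_lit 9818028889) (nat_lit 73) (nat_lit 5) (nat_lit 75) (nat_lit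 5) (nat_lit 76) (nat_lit 5) (nat_lit 488) (nat_lit 456) (nat_lit 256))) (XT.nd (nat_lit 78) (nat_lit 228) (nat_lit 0) (XT.lf (nat_lit 0) (nat_lit 22177868028) (nat_lit 228) (nat_lit 64063728961) (nat_lit 76) (nat_lit 69456741705) (nat_lit 72) (nat_lit 5) (nat_lit 75) (nat_lit 5) (nat_lit 73) (nat_lit 5) (nat_lit 489) (nat_lit 456) (nat_lit 255)) (XT.lf (nat_lit 0) (nat_lit 26609855431) (nat_lit 228) (nat_lit 29248886933) (nat_lit 304) (nat_lit 104689880049) (nat_lit 69) (nat_lit 5) (nat_lit 72) (nat_lit 5) (nat_lit 73) (nat_lit 5) (nat_lit 490) (nat_lit 456) (nat_lit 254))))))) (XT.nd (nat_lit 1092) (nat_lit 1140) (nat_lit 0) (XT.nd (nat_lit 546) (nat_lit 760) (nat_lit 0) (XT.nd (nat_lit 234) (nat_lit 532) (nat_lit 0) (XT.nd (nat_lit 78) (nat_lit 152) (nat_lit 0) (XT.lf (nat_lit 0) (nat_lit 92803729828) (nat_lit 304) (nat_lit 42041836934) (nat_lit 76) (nat_lit 30716850155) (nat_lit 69) (nat_lit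 5) (nat_lit 73) (nat_lit 5) (nat_lit 70) (nat_lit 5) (nat_lit 491) (nat_lit 456) (nat_lit 253)) (XT.nd (nat_lit 78) (nat_lit 0) (nat_lit 0) (XT.lf (nat_lit 0) (nat_lit 55754468980) (nat_lit 152) (nat_lit 77191169683) (nat_lit 228) (nat_lit 37813778945) (nat_lit 67) (nat_lit 5) (nat_lit 69) (nat_lit 5) (nat_lit 70) (nat_lit 5) (nat_lit 492) (nat_lit 456) (nat_lit 252)) (XT.lf (nat_lit 0) (nat_lit 159899723558) (nat_lit 152) (nat_lit 15906623877) (nat_lit 228) (nat_lit 374335735) (nat_lit 67) (nat_lit 5) (nat_lit 69) (nat_lit 5) (nat_lit 70) (nat_lit 5) (nat_lit 493) (nat_lit 456) (nat_lit 251)))) (XT.nd (nat_lit 156) (nat_lit 152) (nat_lit 0) (XT.nd (nat_lit 78) (nat_lit 152) (nat_lit 0) (XT.lf (nat_lit 0) (nat_lit 39879319005) (nat_lit 228) (nat_lit 92921981260) (nat_lit 76) (nat_lit 48931892500) (nat_lit 64) (nat_lit 5) (nat_lit 67) (nat_lit 5) (nat_lit 65) (nat_lit 5) (nat_lit 494) (nat_lit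 456) (nat_lit 250)) (XT.lf (nat_lit 0) (nat_lit 12295338595) (nat_lit 152) (nat_lit 70570431848) (nat_lit 228) (nat_lit 104660615912) (nat_lit 62) (nat_lit 5) (nat_lit 64) (nat_lit 5) (nat_lit 65) (nat_lit 5) (nat_lit 495) (nat_lit 456) (nat_lit 249))) (XT.nd (nat_lit 78) (nat_lit 152) (nat_lit 0) (XT.lf (nat_lit 0) (nat_lit 125999117418) (nat_lit 152) (nat_lit 3575831178) (nat_lit 228) (nat_lit 63955620870) (nat_lit 62) (nat_lit 5) (nat_lit 64) (nat_lit 5) (nat_lit 65) (nat_lit 5) (nat_lit 496) (nat_lit 456) (nat_lit 248)) (XT.lf (nat_lit 0) (nat_lit 45981952104) (nat_lit 152) (nat_lit 134397720005) (nat_lit 228) (nat_lit 19367285351) (nat_lit 60) (nat_lit 5) (nat_lit 62) (nat_lit 5) (nat_lit 63) (nat_lit 5) (nat_lit 497) (nat_lit 456) (nat_lit 247))))) (XT.nd (nat_lit 234) (nat_lit 532) (nat_lit 0) (XT.nd (nat_lit 78) (nat_lit 152) (nat_lit 0) (XT.lf (nat_lit 0) (nat_lit 27792664882) (nat_lit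 228) (nat_lit 39207801932) (nat_lit 76) (nat_lit 139191229931) (nat_lit 59) (nat_lit 5) (nat_lit 62) (nat_lit 5) (nat_lit 60) (nat_lit 5) (nat_lit 498) (nat_lit 456) (nat_lit 246)) (XT.nd (nat_lit 78) (nat_lit 0) (nat_lit 0) (XT.lf (nat_lit 0) (nat_lit 78047428735) (nat_lit 228) (nat_lit 129533430412) (nat_lit 76) (nat_lit 5292554869) (nat_lit 57) (nat_lit 5) (nat_lit 60) (nat_lit 5) (nat_lit 58) (nat_lit 5) (nat_lit 499) (nat_lit 456) (nat_lit 245)) (XT.lf (nat_lit 0) (nat_lit 132587940349) (nat_lit 228) (nat_lit 7589327069) (nat_lit 76) (nat_lit 79623299294) (nat_lit 57) (nat_lit 5) (nat_lit 60) (nat_lit 5) (nat_lit 58) (nat_lit 5) (nat_lit 500) (nat_lit 456) (nat_lit 244)))) (XT.nd (nat_lit 156) (nat_lit 152) (nat_lit 0) (XT.nd (nat_lit 78) (nat_lit 228) (nat_lit 0) (XT.lf (nat_lit 0) (nat_lit 124434253482) (nat_lit 152) (nat_lit 67363756120) (nat_lit 228) (nat_lit 35178940875) (nat_lit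 55) (nat_lit 5) (nat_lit 57) (nat_lit 5) (nat_lit 58) (nat_lit 5) (nat_lit 501) (nat_lit 456) (nat_lit 243)) (XT.lf (nat_lit 0) (nat_lit 19580534458) (nat_lit 228) (nat_lit 205170859827) (nat_lit 76) (nat_lit 9708229070) (nat_lit 52) (nat_lit 5) (nat_lit 55) (nat_lit 5) (nat_lit 53) (nat_lit 5) (nat_lit 502) (nat_lit 456) (nat_lit 242))) (XT.nd (nat_lit 78) (nat_lit 152) (nat_lit 0) (XT.lf (nat_lit 0) (nat_lit 78764911777) (nat_lit 228) (nat_lit 72667653111) (nat_lit 76) (nat_lit 90711571257) (nat_lit 52) (nat_lit 5) (nat_lit 55) (nat_lit 5) (nat_lit 53) (nat_lit 5) (nat_lit 503) (nat_lit 456) (nat_lit 241)) (XT.lf (nat_lit 0) (nat_lit 68657806941) (nat_lit 152) (nat_lit 73322421069) (nat_lit 228) (nat_lit 108179060595) (nat_lit 50) (nat_lit 5) (nat_lit 52) (nat_lit 5) (nat_lit 53) (nat_lit 5) (nat_lit 504) (nat_lit 456) (nat_lit 240)))))) (XT.nd (nat_lit 546) (nat_lit 532) (nat_lit 0) (XT.nd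 (nat_lit 234) (nat_lit 456) (nat_lit 0) (XT.nd (nat_lit 78) (nat_lit 152) (nat_lit 0) (XT.lf (nat_lit 0) (nat_lit 209742653696) (nat_lit 228) (nat_lit 39097556901) (nat_lit 76) (nat_lit 9665670937) (nat_lit 50) (nat_lit 5) (nat_lit 53) (nat_lit 5) (nat_lit 51) (nat_lit 4) (nat_lit 505) (nat_lit 456) (nat_lit 239)) (XT.nd (nat_lit 78) (nat_lit 0) (nat_lit 0) (XT.lf (nat_lit 0) (nat_lit 16199423459) (nat_lit 152) (nat_lit 154547278290) (nat_lit 76) (nat_lit 96361864384) (nat_lit 48) (nat_lit 5) (nat_lit 50) (nat_lit 5) (nat_lit 49) (nat_lit 5) (nat_lit 506) (nat_lit 456) (nat_lit 238)) (XT.lf (nat_lit 0) (nat_lit 83444226438) (nat_lit 152) (nat_lit 3758446443) (nat_lit 76) (nat_lit 188865103080) (nat_lit 48) (nat_lit 5) (nat_lit 50) (nat_lit 5) (nat_lit 49) (nat_lit 5) (nat_lit 507) (nat_lit 456) (nat_lit 237)))) (XT.nd (nat_lit 156) (nat_lit 228) (nat_lit 0) (XT.nd (nat_lit 78) (nat_lit 76)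 (nat_lit 0) (XT.lf (nat_lit 0) (nat_lit 156593091567) (nat_lit 228) (nat_lit 125719027496) (nat_lit 76) (nat_lit 3035736142) (nat_lit 46) (nat_lit 5) (nat_lit 49) (nat_lit 5) (nat_lit 47) (nat_lit 4) (nat_lit 508) (nat_lit 456) (nat_lit 236)) (XT.lf (nat_lit 0) (nat_lit 35946765885) (nat_lit 76) (nat_lit 199507914480) (nat_lit 152) (nat_lit 59534494049) (nat_lit 45) (nat_lit 5) (nat_lit 46) (nat_lit 5) (nat_lit 47) (nat_lit 4) (nat_lit 509) (nat_lit 456) (nat_lit 235))) (XT.nd (nat_lit 78) (nat_lit 152) (nat_lit 0) (XT.lf (nat_lit 0) (nat_lit 14889830506) (nat_lit 152) (nat_lit 95186090864) (nat_lit 76) (nat_lit 194918184280) (nat_lit 44) (nat_lit 5) (nat_lit 46) (nat_lit 5) (nat_lit 45) (nat_lit 5) (nat_lit 510) (nat_lit 456) (nat_lit 234)) (XT.lf (nat_lit 0) (nat_lit 78395887367) (nat_lit 152) (nat_lit 13862528127) (nat_lit 228) (nat_lit 223130879529) (nat_lit 42) (nat_lit 5) (nat_lit 44)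 (nat_lit 5) (nat_lit 45) (nat_lit 5) (nat_lit 511) (nat_lit 456) (nat_lit 233))))) (XT.nd (nat_lit 312) (nat_lit 228) (nat_lit 0) (XT.nd (nat_lit 156) (nat_lit 228) (nat_lit 0) (XT.nd (nat_lit 78) (nat_lit 76) (nat_lit 0) (XT.lf (nat_lit 0) (nat_lit 176494530068) (nat_lit 228) (nat_lit 63649633844) (nat_lit 76) (nat_lit 86010124956) (nat_lit 42) (nat_lit 5) (nat_lit 45) (nat_lit 5) (nat_lit 43) (nat_lit 4) (nat_lit 512) (nat_lit 456) (nat_lit 232)) (XT.lf (nat_lit 0) (nat_lit 122039786246) (nat_lit 76) (nat_lit 145035125956) (nat_lit 152) (nat_lit 70275997128) (nat_lit 41) (nat_lit 5) (nat_lit 42) (nat_lit 5) (nat_lit 43) (nat_lit 4) (nat_lit 513) (nat_lit 456) (nat_lit 231))) (XT.nd (nat_lit 78) (nat_lit 152) (nat_lit 0) (XT.lf (nat_lit 0) (nat_lit 13753841685) (nat_lit 152) (nat_lit 30052177794) (nat_lit 76) (nat_lit 305236361299) (nat_lit 40) (nat_lit 5) (nat_lit 42) (nat_lit 5) (nat_lit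 41) (nat_lit 5) (nat_lit 514) (nat_lit 456) (nat_lit 230)) (XT.lf (nat_lit 0) (nat_lit 103295047600) (nat_lit 228) (nat_lit 193449399340) (nat_lit 76) (nat_lit 64332795123) (nat_lit 38) (nat_lit 5) (nat_lit 41) (nat_lit 5) (nat_lit 39) (nat_lit 4) (nat_lit 515) (nat_lit 456) (nat_lit 229)))) (XT.nd (nat_lit 156) (nat_lit 152) (nat_lit 0) (XT.nd (nat_lit 78) (nat_lit 0) (nat_lit 0) (XT.lf (nat_lit 0) (nat_lit 1880202981) (nat_lit 76) (nat_lit 196697723251) (nat_lit 152) (nat_lit 175072689573) (nat_lit 37) (nat_lit 5) (nat_lit 38) (nat_lit 5) (nat_lit 39) (nat_lit 4) (nat_lit 516) (nat_lit 456) (nat_lit 228)) (XT.lf (nat_lit 0) (nat_lit 213692107340) (nat_lit 76) (nat_lit 88208837918) (nat_lit 152) (nat_lit 84787913168) (nat_lit 37) (nat_lit 5) (nat_lit 38) (nat_lit 5) (nat_lit 39) (nat_lit 4) (nat_lit 517) (nat_lit 456) (nat_lit 227))) (XT.nd (nat_lit 78) (nat_lit 0) (nat_lit 0) (XT.lf (nat_lit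 0) (nat_lit 10677340445) (nat_lit 152) (nat_lit 364021072590) (nat_lit 76) (nat_lit 25623452279) (nat_lit 35) (nat_lit 5) (nat_lit 37) (nat_lit 5) (nat_lit 36) (nat_lit 4) (nat_lit 518) (nat_lit 456) (nat_lit 226)) (XT.lf (nat_lit 0) (nat_lit 112490129645) (nat_lit 152) (nat_lit 155305100616) (nat_lit 76) (nat_lit 146550608869) (nat_lit 35) (nat_lit 5) (nat_lit 37) (nat_lit 5) (nat_lit 36) (nat_lit 4) (nat_lit 519) (nat_lit 456) (nat_lit 225))))))))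
noncomputable def xc208 : XT := (XT.nd (nat_lit 58266) (nat_lit 0) (nat_lit 3420) (XT.nd (nat_lit 1092) (nat_lit 228) (nat_lit 0) (XT.nd (nat_lit 546) (nat_lit 380) (nat_lit 0) (XT.nd (nat_lit 234) (nat_lit 152) (nat_lit 0) (XT.nd (nat_lit 78) (nat_lit 152) (nat_lit 0) (XT.lf (nat_lit 0) (nat_lit 65957437989) (nat_lit 76) (nat_lit 154465751550) (nat_lit 152) (nat_lit 208596340549) (nat_lit 34) (nat_lit 5) (nat_lit 35) (nat_lit 5) (nat_lit 36) (nat_lit 4) (nat_lit 520) (nat_lit 456) (nat_lit 224)) (XT.nd (nat_lit 78) (nat_lit 152) (nat_lit 0) (XT.lf (nat_lit 0) (nat_lit 303674668582) (nat_lit 76) (nat_lit 32708254429) (nat_lit 152) (nat_lit 107912481563) (nat_lit 34) (nat_lit 5) (nat_lit 35) (nat_lit 5) (nat_lit 36) (nat_lit 4) (nat_lit 521) (nat_lit 456) (nat_lit 223)) (XT.lf (nat_lit 0) (nat_lit 884665316) (nat_lit 152) (nat_lit 365720279908) (nat_lit 76) (nat_lit 93581397656) (nat_lit 32)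 (nat_lit 5) (nat_lit 34) (nat_lit 5) (nat_lit 33) (nat_lit 4) (nat_lit 522) (nat_lit 456) (nat_lit 222)))) (XT.nd (nat_lit 156) (nat_lit 76) (nat_lit 0) (XT.nd (nat_lit 78) (nat_lit 76) (nat_lit 0) (XT.lf (nat_lit 0) (nat_lit 114451683192) (nat_lit 152) (nat_lit 132908085920) (nat_lit 76) (nat_lit 229275777113) (nat_lit 32) (nat_lit 5) (nat_lit 34) (nat_lit 5) (nat_lit 33) (nat_lit 4) (nat_lit 523) (nat_lit 456) (nat_lit 221)) (XT.lf (nat_lit 0) (nat_lit 115232624723) (nat_lit 76) (nat_lit 120263397067) (nat_lit 152) (nat_lit 258321239464) (nat_lit 31) (nat_lit 5) (nat_lit 32) (nat_lit 5) (nat_lit 33) (nat_lit 4) (nat_lit 524) (nat_lit 456) (nat_lit 220))) (XT.nd (nat_lit 78) (nat_lit 76) (nat_lit 0) (XT.lf (nat_lit 0) (nat_lit 365086104061) (nat_lit 152) (nat_lit 131593934436) (nat_lit 0) (nat_lit 15053347209) (nat_lit 31) (nat_lit 5) (nat_lit 33) (nat_lit 4) (nat_lit 31) (nat_lit 4) (nat_lit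 525) (nat_lit 456) (nat_lit 219)) (XT.lf (nat_lit 0) (nat_lit 129933200520) (nat_lit 76) (nat_lit 375222514985) (nat_lit 76) (nat_lit 25189599632) (nat_lit 30) (nat_lit 4) (nat_lit 31) (nat_lit 5) (nat_lit 31) (nat_lit 4) (nat_lit 526) (nat_lit 456) (nat_lit 218))))) (XT.nd (nat_lit 234) (nat_lit 228) (nat_lit 0) (XT.nd (nat_lit 78) (nat_lit 76) (nat_lit 0) (XT.lf (nat_lit 0) (nat_lit 101330430725) (nat_lit 152) (nat_lit 142305683318) (nat_lit 76) (nat_lit 306058584824) (nat_lit 29) (nat_lit 5) (nat_lit 31) (nat_lit 5) (nat_lit 30) (nat_lit 4) (nat_lit 527) (nat_lit 456) (nat_lit 217)) (XT.nd (nat_lit 78) (nat_lit 0) (nat_lit 0) (XT.lf (nat_lit 0) (nat_lit 132534834086) (nat_lit 76) (nat_lit 102864211843) (nat_lit 152) (nat_lit 334488402696) (nat_lit 28) (nat_lit 5) (nat_lit 29) (nat_lit 5) (nat_lit 30) (nat_lit 4) (nat_lit 528) (nat_lit 456) (nat_lit 216)) (XT.lf (nat_lit 0) (nat_lit 379322232743)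 (nat_lit 152) (nat_lit 165652905716) (nat_lit 0) (nat_lit 45957140374) (nat_lit 28) (nat_lit 5) (nat_lit 30) (nat_lit 4) (nat_lit 28) (nat_lit 4) (nat_lit 529) (nat_lit 456) (nat_lit 215)))) (XT.nd (nat_lit 156) (nat_lit 76) (nat_lit 0) (XT.nd (nat_lit 78) (nat_lit 76) (nat_lit 0) (XT.lf (nat_lit 0) (nat_lit 121845070277) (nat_lit 76) (nat_lit 412185035255) (nat_lit 76) (nat_lit 78819818697) (nat_lit 27) (nat_lit 4) (nat_lit 28) (nat_lit 5) (nat_lit 28) (nat_lit 4) (nat_lit 530) (nat_lit 456) (nat_lit 214)) (XT.lf (nat_lit 0) (nat_lit 61521311837) (nat_lit 152) (nat_lit 207246645567) (nat_lit 76) (nat_lit 366905615574) (nat_lit 26) (nat_lit 5) (nat_lit 28) (nat_lit 5) (nat_lit 27) (nat_lit 4) (nat_lit 531) (nat_lit 456) (nat_lit 213))) (XT.nd (nat_lit 78) (nat_lit 0) (nat_lit 0) (XT.lf (nat_lit 0) (nat_lit 92363336158) (nat_lit 76) (nat_lit 115309241224) (nat_lit 152) (nat_lit 451829123316)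 (nat_lit 25) (nat_lit 5) (nat_lit 26) (nat_lit 5) (nat_lit 27) (nat_lit 4) (nat_lit 532) (nat_lit 456) (nat_lit 212)) (XT.lf (nat_lit 0) (nat_lit 365414073817) (nat_lit 152) (nat_lit 270969958324) (nat_lit 0) (nat_lit 47923069288) (nat_lit 25) (nat_lit 5) (nat_lit 27) (nat_lit 4) (nat_lit 25) (nat_lit 4) (nat_lit 533) (nat_lit 456) (nat_lit 211)))))) (XT.nd (nat_lit 56628) (nat_lit 0) (nat_lit 7904) (XT.nd (nat_lit 234) (nat_lit 76) (nat_lit 0) (XT.nd (nat_lit 78) (nat_lit 76) (nat_lit 0) (XT.lf (nat_lit 0) (nat_lit 39376648741) (nat_lit 76) (nat_lit 494170987860) (nat_lit 76) (nat_lit 176679886025) (nat_lit 24) (nat_lit 4) (nat_lit 25) (nat_lit 5) (nat_lit 25) (nat_lit 4) (nat_lit 534) (nat_lit 456) (nat_lit 210)) (XT.nd (nat_lit 78) (nat_lit 76) (nat_lit 0) (XT.lf (nat_lit 0) (nat_lit 374647851810) (nat_lit 76) (nat_lit 340028931156) (nat_lit 76) (nat_lit 22537736649) (nat_lit 24) (nat_lit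 4) (nat_lit 25) (nat_lit 5) (nat_lit 25) (nat_lit 4) (nat_lit 535) (nat_lit 456) (nat_lit 209)) (XT.lf (nat_lit 0) (nat_lit 134852582872) (nat_lit 152) (nat_lit 41043487875) (nat_lit 76) (nat_lit 589546048481) (nat_lit 23) (nat_lit 5) (nat_lit 25) (nat_lit 5) (nat_lit 24) (nat_lit 4) (nat_lit 536) (nat_lit 456) (nat_lit 208)))) (XT.nd (nat_lit 56238) (nat_lit 0) (nat_lit 7828) (XT.nd (nat_lit 78) (nat_lit 0) (nat_lit 0) (XT.lf (nat_lit 0) (nat_lit 304160947594) (nat_lit 152) (nat_lit 488873163143) (nat_lit 0) (nat_lit 1788217288) (nat_lit 22) (nat_lit 5) (nat_lit 24) (nat_lit 4) (nat_lit 22) (nat_lit 4) (nat_lit 537) (nat_lit 456) (nat_lit 207)) (XT.lf (nat_lit 0) (nat_lit 485524665263) (nat_lit 152) (nat_lit 156815526549) (nat_lit 0) (nat_lit 183151858716) (nat_lit 22) (nat_lit 5) (nat_lit 24) (nat_lit 4) (nat_lit 22) (nat_lit 4) (nat_lit 538) (nat_lit 456) (nat_lit 206))) (XT.nd (nat_lit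 78) (nat_lit 0) (nat_lit 0) (XT.lf (nat_lit 0) (nat_lit 10864850617) (nat_lit 836) (nat_lit 10964628640) (nat_lit 836) (nat_lit 10964628640) (nat_lit 125) (nat_lit 3) (nat_lit 136) (nat_lit 3) (nat_lit 136) (nat_lit 5) (nat_lit 457) (nat_lit 457) (nat_lit 286)) (XT.lf (nat_lit 76) (nat_lit 10538745502) (nat_lit 0) (nat_lit 11913622853) (nat_lit 836) (nat_lit 44766575814) (nat_lit 126) (nat_lit 5) (nat_lit 125) (nat_lit 3) (nat_lit 136) (nat_lit 5) (nat_lit 458) (nat_lit 457) (nat_lit 285))))) (XT.nd (nat_lit 234) (nat_lit 0) (nat_lit 76) (XT.nd (nat_lit 78) (nat_lit 0) (nat_lit 0) (XT.lf (nat_lit 0) (nat_lit 23922095972) (nat_lit 760) (nat_lit 23862227972) (nat_lit 836) (nat_lit 21111339032) (nat_lit 126) (nat_lit 5) (nat_lit 136) (nat_lit 5) (nat_lit 137) (nat_lit 5) (nat_lit 459) (nat_lit 457) (nat_lit 284)) (XT.nd (nat_lit 78) (nat_lit 0) (nat_lit 76) (XT.lf (nat_lit 76) (nat_lit 10744688017)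 (nat_lit 0) (nat_lit 15082773383) (nat_lit 836) (nat_lit 44810649105) (nat_lit 127) (nat_lit 5) (nat_lit 126) (nat_lit 5) (nat_lit 137) (nat_lit 5) (nat_lit 460) (nat_lit 457) (nat_lit 283)) (XT.lf (nat_lit 0) (nat_lit 28538576604) (nat_lit 760) (nat_lit 24844899098) (nat_lit 836) (nat_lit 19048680969) (nat_lit 127) (nat_lit 5) (nat_lit 137) (nat_lit 5) (nat_lit 138) (nat_lit 5) (nat_lit 461) (nat_lit 457) (nat_lit 282)))) (XT.nd (nat_lit 156) (nat_lit 0) (nat_lit 76) (XT.nd (nat_lit 78) (nat_lit 0) (nat_lit 76) (XT.lf (nat_lit 76) (nat_lit 12095361301) (nat_lit 0) (nat_lit 19725160291) (nat_lit 836) (nat_lit 42473620171) (nat_lit 128) (nat_lit 5) (nat_lit 127) (nat_lit 5) (nat_lit 138) (nat_lit 5) (nat_lit 462) (nat_lit 457) (nat_lit 281)) (XT.lf (nat_lit 0) (nat_lit 35937240199) (nat_lit 760) (nat_lit 24734295583) (nat_lit 836) (nat_lit 15544156815) (nat_lit 128) (nat_lit 5) (nat_lit 138)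 (nat_lit 5) (nat_lit 139) (nat_lit 5) (nat_lit 463) (nat_lit 457) (nat_lit 280))) (XT.nd (nat_lit 78) (nat_lit 0) (nat_lit 76) (XT.lf (nat_lit 76) (nat_lit 14751630102) (nat_lit 0) (nat_lit 26061087575) (nat_lit 836) (nat_lit 37392957440) (nat_lit 129) (nat_lit 5) (nat_lit 128) (nat_lit 5) (nat_lit 139) (nat_lit 5) (nat_lit 464) (nat_lit 457) (nat_lit 279)) (XT.lf (nat_lit 0) (nat_lit 46517496402) (nat_lit 760) (nat_lit 23371600894) (nat_lit 836) (nat_lit 10376783373) (nat_lit 129) (nat_lit 5) (nat_lit 139) (nat_lit 5) (nat_lit 140) (nat_lit 5) (nat_lit 465) (nat_lit 457) (nat_lit 278))))))) (XT.nd (nat_lit 1092) (nat_lit 1900) (nat_lit 0) (XT.nd (nat_lit 546) (nat_lit 1292) (nat_lit 0) (XT.nd (nat_lit 234) (nat_lit 836) (nat_lit 0) (XT.nd (nat_lit 78) (nat_lit 684) (nat_lit 0) (XT.lf (nat_lit 76) (nat_lit 18891824501) (nat_lit 0) (nat_lit 34337184659) (nat_lit 836) (nat_lit 29164012849) (nat_lit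 130) (nat_lit 5) (nat_lit 129) (nat_lit 5) (nat_lit 140) (nat_lit 5) (nat_lit 466) (nat_lit 457) (nat_lit 277)) (XT.nd (nat_lit 78) (nat_lit 760) (nat_lit 0) (XT.lf (nat_lit 0) (nat_lit 60724449857) (nat_lit 760) (nat_lit 20580699275) (nat_lit 76) (nat_lit 3298953921) (nat_lit 130) (nat_lit 5) (nat_lit 140) (nat_lit 5) (nat_lit 131) (nat_lit 5) (nat_lit 467) (nat_lit 457) (nat_lit 276)) (XT.lf (nat_lit 0) (nat_lit 24713336040) (nat_lit 760) (nat_lit 44829442975) (nat_lit 836) (nat_lit 17335553550) (nat_lit 120) (nat_lit 5) (nat_lit 130) (nat_lit 5) (nat_lit 131) (nat_lit 5) (nat_lit 468) (nat_lit 457) (nat_lit 275)))) (XT.nd (nat_lit 156) (nat_lit 456) (nat_lit 0) (XT.nd (nat_lit 78) (nat_lit 380) (nat_lit 0) (XT.lf (nat_lit 0) (nat_lit 72986033374) (nat_lit 760) (nat_lit 6163924144) (nat_lit 836) (nat_lit 10098919618) (nat_lit 120) (nat_lit 5) (nat_lit 130) (nat_lit 5) (nat_lit 131) (nat_lit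 5) (nat_lit 469) (nat_lit 457) (nat_lit 274)) (XT.lf (nat_lit 0) (nat_lit 32434334180) (nat_lit 380) (nat_lit 57846595179) (nat_lit 456) (nat_lit 1404848072) (nat_lit 115) (nat_lit 5) (nat_lit 120) (nat_lit 5) (nat_lit 121) (nat_lit 5) (nat_lit 470) (nat_lit 457) (nat_lit 273))) (XT.nd (nat_lit 78) (nat_lit 380) (nat_lit 0) (XT.lf (nat_lit 0) (nat_lit 7857123686) (nat_lit 456) (nat_lit 10326495660) (nat_lit 76) (nat_lit 76035853459) (nat_lit 114) (nat_lit 5) (nat_lit 120) (nat_lit 5) (nat_lit 115) (nat_lit 5) (nat_lit 471) (nat_lit 457) (nat_lit 272)) (XT.lf (nat_lit 0) (nat_lit 18573608088) (nat_lit 456) (nat_lit 54845715868) (nat_lit 76) (nat_lit 23407446354) (nat_lit 109) (nat_lit 5) (nat_lit 115) (nat_lit 5) (nat_lit 110) (nat_lit 5) (nat_lit 472) (nat_lit 457) (nat_lit 271))))) (XT.nd (nat_lit 234) (nat_lit 608) (nat_lit 0) (XT.nd (nat_lit 78) (nat_lit 684) (nat_lit 0) (XT.lf (nat_lit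 0) (nat_lit 30301233110) (nat_lit 456) (nat_lit 2594712435) (nat_lit 76) (nat_lit 66644721505) (nat_lit 109) (nat_lit 5) (nat_lit 115) (nat_lit 5) (nat_lit 110) (nat_lit 5) (nat_lit 473) (nat_lit 457) (nat_lit 270)) (XT.nd (nat_lit 78) (nat_lit 304) (nat_lit 0) (XT.lf (nat_lit 0) (nat_lit 43622314400) (nat_lit 456) (nat_lit 48516137004) (nat_lit 76) (nat_lit 10201453641) (nat_lit 104) (nat_lit 5) (nat_lit 110) (nat_lit 5) (nat_lit 105) (nat_lit 5) (nat_lit 474) (nat_lit 457) (nat_lit 269)) (XT.lf (nat_lit 0) (nat_lit 7578355664) (nat_lit 304) (nat_lit 50732867664) (nat_lit 380) (nat_lit 46932793095) (nat_lit 100) (nat_lit 5) (nat_lit 104) (nat_lit 5) (nat_lit 105) (nat_lit 5) (nat_lit 475) (nat_lit 457) (nat_lit 268)))) (XT.nd (nat_lit 156) (nat_lit 304) (nat_lit 0) (XT.nd (nat_lit 78) (nat_lit 304) (nat_lit 0) (XT.lf (nat_lit 0) (nat_lit 68161404362) (nat_lit 304) (nat_lit 6394345676) (nat_lit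 380) (nat_lit 33696524869) (nat_lit 100) (nat_lit 5) (nat_lit 104) (nat_lit 5) (nat_lit 105) (nat_lit 5) (nat_lit 476) (nat_lit 457) (nat_lit 267)) (XT.lf (nat_lit 0) (nat_lit 20387627974) (nat_lit 304) (nat_lit 72169760030) (nat_lit 380) (nat_lit 18806314214) (nat_lit 96) (nat_lit 5) (nat_lit 100) (nat_lit 5) (nat_lit 101) (nat_lit 5) (nat_lit 477) (nat_lit 457) (nat_lit 266))) (XT.nd (nat_lit 78) (nat_lit 304) (nat_lit 0) (XT.lf (nat_lit 0) (nat_lit 85173097950) (nat_lit 304) (nat_lit 27067665593) (nat_lit 380) (nat_lit 2350854705) (nat_lit 96) (nat_lit 5) (nat_lit 100) (nat_lit 5) (nat_lit 101) (nat_lit 5) (nat_lit 478) (nat_lit 457) (nat_lit 265)) (XT.lf (nat_lit 0) (nat_lit 15343278109) (nat_lit 304) (nat_lit 82130887127) (nat_lit 76) (nat_lit 20450428578) (nat_lit 92) (nat_lit 5) (nat_lit 96) (nat_lit 5) (nat_lit 93) (nat_lit 5) (nat_lit 479) (nat_lit 457) (nat_lit 264)))))) (XT.nd (nat_lit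 546) (nat_lit 836) (nat_lit 0) (XT.nd (nat_lit 234) (nat_lit 760) (nat_lit 0) (XT.nd (nat_lit 78) (nat_lit 304) (nat_lit 0) (XT.lf (nat_lit 0) (nat_lit 34792817398) (nat_lit 304) (nat_lit 16602382544) (nat_lit 76) (nat_lit 69979606209) (nat_lit 92) (nat_lit 5) (nat_lit 96) (nat_lit 5) (nat_lit 93) (nat_lit 5) (nat_lit 480) (nat_lit 457) (nat_lit 263)) (XT.nd (nat_lit 78) (nat_lit 0) (nat_lit 0) (XT.lf (nat_lit 0) (nat_lit 53928081192) (nat_lit 304) (nat_lit 2128327967) (nat_lit 380) (nat_lit 68899041286) (nat_lit 88) (nat_lit 5) (nat_lit 92) (nat_lit 5) (nat_lit 93) (nat_lit 5) (nat_lit 481) (nat_lit 457) (nat_lit 262)) (XT.lf (nat_lit 0) (nat_lit 79442999998) (nat_lit 380) (nat_lit 919147786) (nat_lit 76) (nat_lit 48299988305) (nat_lit 88) (nat_lit 5) (nat_lit 93) (nat_lit 5) (nat_lit 89) (nat_lit 5) (nat_lit 482) (nat_lit 457) (nat_lit 261)))) (XT.nd (nat_lit 156) (nat_lit 304) (nat_lit 0)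 (XT.nd (nat_lit 78) (nat_lit 228) (nat_lit 0) (XT.lf (nat_lit 0) (nat_lit 75061545853) (nat_lit 228) (nat_lit 30143820808) (nat_lit 304) (nat_lit 27288467145) (nat_lit 85) (nat_lit 5) (nat_lit 88) (nat_lit 5) (nat_lit 89) (nat_lit 5) (nat_lit 483) (nat_lit 457) (nat_lit 260)) (XT.lf (nat_lit 0) (nat_lit 18598751466) (nat_lit 228) (nat_lit 114315564535) (nat_lit 304) (nat_lit 3569877288) (nat_lit 82) (nat_lit 5) (nat_lit 85) (nat_lit 5) (nat_lit 86) (nat_lit 5) (nat_lit 484) (nat_lit 457) (nat_lit 259))) (XT.nd (nat_lit 78) (nat_lit 228) (nat_lit 0) (XT.lf (nat_lit 0) (nat_lit 22134196037) (nat_lit 304) (nat_lit 41043874315) (nat_lit 76) (nat_lit 77405226019) (nat_lit 81) (nat_lit 5) (nat_lit 85) (nat_lit 5) (nat_lit 82) (nat_lit 5) (nat_lit 485) (nat_lit 457) (nat_lit 258)) (XT.lf (nat_lit 0) (nat_lit 40889493444) (nat_lit 228) (nat_lit 8752070934) (nat_lit 304) (nat_lit 95210961056) (nat_lit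 78) (nat_lit 5) (nat_lit 81) (nat_lit 5) (nat_lit 82) (nat_lit 5) (nat_lit 486) (nat_lit 457) (nat_lit 257))))) (XT.nd (nat_lit 234) (nat_lit 456) (nat_lit 0) (XT.nd (nat_lit 78) (nat_lit 380) (nat_lit 0) (XT.lf (nat_lit 0) (nat_lit 79986048832) (nat_lit 304) (nat_lit 21723442380) (nat_lit 76) (nat_lit 47552637433) (nat_lit 78) (nat_lit 5) (nat_lit 82) (nat_lit 5) (nat_lit 79) (nat_lit 5) (nat_lit 487) (nat_lit 457) (nat_lit 256)) (XT.nd (nat_lit 78) (nat_lit 152) (nat_lit 0) (XT.lf (nat_lit 0) (nat_lit 66616330293) (nat_lit 228) (nat_lit 46414656761) (nat_lit 304) (nat_lit 40802063564) (nat_lit 75) (nat_lit 5) (nat_lit 78) (nat_lit 5) (nat_lit 79) (nat_lit 5) (nat_lit 488) (nat_lit 457) (nat_lit 255)) (XT.lf (nat_lit 0) (nat_lit 1368657073) (nat_lit 152) (nat_lit 146936312673) (nat_lit 228) (nat_lit 10298709139) (nat_lit 73) (nat_lit 5) (nat_lit 75) (nat_lit 5) (nat_lit 76) (nat_lit 5) (nat_lit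 489) (nat_lit 457) (nat_lit 254)))) (XT.nd (nat_lit 156) (nat_lit 152) (nat_lit 0) (XT.nd (nat_lit 78) (nat_lit 228) (nat_lit 0) (XT.lf (nat_lit 0) (nat_lit 23296184337) (nat_lit 228) (nat_lit 67252555025) (nat_lit 76) (nat_lit 72934043055) (nat_lit 72) (nat_lit 5) (nat_lit 75) (nat_lit 5) (nat_lit 73) (nat_lit 5) (nat_lit 490) (nat_lit 457) (nat_lit 253)) (XT.lf (nat_lit 0) (nat_lit 27954476968) (nat_lit 228) (nat_lit 30706397302) (nat_lit 304) (nat_lit 109914717557) (nat_lit 69) (nat_lit 5) (nat_lit 72) (nat_lit 5) (nat_lit 73) (nat_lit 5) (nat_lit 491) (nat_lit 457) (nat_lit 252))) (XT.nd (nat_lit 78) (nat_lit 152) (nat_lit 0) (XT.lf (nat_lit 0) (nat_lit 97452746624) (nat_lit 304) (nat_lit 44130106457) (nat_lit 76) (nat_lit 32257241291) (nat_lit 69) (nat_lit 5) (nat_lit 73) (nat_lit 5) (nat_lit 70) (nat_lit 5) (nat_lit 492) (nat_lit 457) (nat_lit 251)) (XT.lf (nat_lit 0) (nat_lit 58555791812)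 (nat_lit 152) (nat_lit 81045750923) (nat_lit 228) (nat_lit 39695412861) (nat_lit 67) (nat_lit 5) (nat_lit 69) (nat_lit 5) (nat_lit 70) (nat_lit 5) (nat_lit 493) (nat_lit 457) (nat_lit 250))))))))
noncomputable def xc209 : XT := (XT.nd (nat_lit 2184) (nat_lit 912) (nat_lit 0) (XT.nd (nat_lit 1092) (nat_lit 1064) (nat_lit 0) (XT.nd (nat_lit 546) (nat_lit 684) (nat_lit 0) (XT.nd (nat_lit 234) (nat_lit 380) (nat_lit 0) (XT.nd (nat_lit 78) (nat_lit 380) (nat_lit 0) (XT.lf (nat_lit 0) (nat_lit 167907661529) (nat_lit 152) (nat_lit 16697214838) (nat_lit 228) (nat_lit 384428683) (nat_lit 67) (nat_lit 5) (nat_lit 69) (nat_lit 5) (nat_lit 70) (nat_lit 5) (nat_lit 494) (nat_lit 457) (nat_lit 249)) (XT.nd (nat_lit 78) (nat_lit 152) (nat_lit 0) (XT.lf (nat_lit 0) (nat_lit 41881514397) (nat_lit 228) (nat_lit 97554730971) (nat_lit 76) (nat_lit 51383194021) (nat_lit 64) (nat_lit 5) (nat_lit 67) (nat_lit 5)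 (nat_lit 65) (nat_lit 5) (nat_lit 495) (nat_lit 457) (nat_lit 248)) (XT.lf (nat_lit 0) (nat_lit 12923239565) (nat_lit 152) (nat_lit 74093862023) (nat_lit 228) (nat_lit 109885200484) (nat_lit 62) (nat_lit 5) (nat_lit 64) (nat_lit 5) (nat_lit 65) (nat_lit 5) (nat_lit 496) (nat_lit 457) (nat_lit 247)))) (XT.nd (nat_lit 156) (nat_lit 228) (nat_lit 0) (XT.nd (nat_lit 78) (nat_lit 152) (nat_lit 0) (XT.lf (nat_lit 0) (nat_lit 132311581899) (nat_lit 152) (nat_lit 3749773768) (nat_lit 228) (nat_lit 67145357892) (nat_lit 62) (nat_lit 5) (nat_lit 64) (nat_lit 5) (nat_lit 65) (nat_lit 5) (nat_lit 497) (nat_lit 457) (nat_lit 246)) (XT.lf (nat_lit 0) (nat_lit 48293660264) (nat_lit 152) (nat_lit 141112559334) (nat_lit 228) (nat_lit 20327706209) (nat_lit 60) (nat_lit 5) (nat_lit 62) (nat_lit 5) (nat_lit 63) (nat_lit 5) (nat_lit 498) (nat_lit 457) (nat_lit 245))) (XT.nd (nat_lit 78) (nat_lit 152) (nat_lit 0)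 (XT.lf (nat_lit 0) (nat_lit 29189621146) (nat_lit 228) (nat_lit 41155938636) (nat_lit 76) (nat_lit 146155354440) (nat_lit 59) (nat_lit 5) (nat_lit 62) (nat_lit 5) (nat_lit 60) (nat_lit 5) (nat_lit 499) (nat_lit 457) (nat_lit 244)) (XT.lf (nat_lit 0) (nat_lit 81957039098) (nat_lit 228) (nat_lit 135997763295) (nat_lit 76) (nat_lit 5561919227) (nat_lit 57) (nat_lit 5) (nat_lit 60) (nat_lit 5) (nat_lit 58) (nat_lit 5) (nat_lit 500) (nat_lit 457) (nat_lit 243))))) (XT.nd (nat_lit 234) (nat_lit 304) (nat_lit 0) (XT.nd (nat_lit 78) (nat_lit 380) (nat_lit 0) (XT.lf (nat_lit 0) (nat_lit 139224231582) (nat_lit 228) (nat_lit 7957042338) (nat_lit 76) (nat_lit 83608975320) (nat_lit 57) (nat_lit 5) (nat_lit 60) (nat_lit 5) (nat_lit 58) (nat_lit 5) (nat_lit 501) (nat_lit 457) (nat_lit 242)) (XT.nd (nat_lit 78) (nat_lit 228) (nat_lit 0) (XT.lf (nat_lit 0) (nat_lit 130667527706) (nat_lit 152) (nat_lit 70727128803)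 (nat_lit 228) (nat_lit 36930803126) (nat_lit 55) (nat_lit 5) (nat_lit 57) (nat_lit 5) (nat_lit 58) (nat_lit 5) (nat_lit 502) (nat_lit 457) (nat_lit 241)) (XT.lf (nat_lit 0) (nat_lit 20566350032) (nat_lit 228) (nat_lit 215417543385) (nat_lit 76) (nat_lit 10198370716) (nat_lit 52) (nat_lit 5) (nat_lit 55) (nat_lit 5) (nat_lit 53) (nat_lit 5) (nat_lit 503) (nat_lit 457) (nat_lit 240)))) (XT.nd (nat_lit 156) (nat_lit 152) (nat_lit 0) (XT.nd (nat_lit 78) (nat_lit 152) (nat_lit 0) (XT.lf (nat_lit 0) (nat_lit 82709622938) (nat_lit 228) (nat_lit 76289741068) (nat_lit 76) (nat_lit 95251654766) (nat_lit 52) (nat_lit 5) (nat_lit 55) (nat_lit 5) (nat_lit 53) (nat_lit 5) (nat_lit 504) (nat_lit 457) (nat_lit 239)) (XT.lf (nat_lit 0) (nat_lit 72101809814) (nat_lit 152) (nat_lit 76983760782) (nat_lit 228) (nat_lit 113581365021) (nat_lit 50) (nat_lit 5) (nat_lit 52) (nat_lit 5) (nat_lit 53) (nat_lit 5) (nat_lit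 505) (nat_lit 457) (nat_lit 238))) (XT.nd (nat_lit 78) (nat_lit 152) (nat_lit 0) (XT.lf (nat_lit 0) (nat_lit 220235887177) (nat_lit 228) (nat_lit 41041620180) (nat_lit 76) (nat_lit 10153362396) (nat_lit 50) (nat_lit 5) (nat_lit 53) (nat_lit 5) (nat_lit 51) (nat_lit 4) (nat_lit 506) (nat_lit 457) (nat_lit 237)) (XT.lf (nat_lit 0) (nat_lit 17015469764) (nat_lit 152) (nat_lit 162263800454) (nat_lit 76) (nat_lit 101184419723) (nat_lit 48) (nat_lit 5) (nat_lit 50) (nat_lit 5) (nat_lit 49) (nat_lit 5) (nat_lit 507) (nat_lit 457) (nat_lit 236)))))) (XT.nd (nat_lit 546) (nat_lit 532) (nat_lit 0) (XT.nd (nat_lit 234) (nat_lit 304) (nat_lit 0) (XT.nd (nat_lit 78) (nat_lit 228) (nat_lit 0) (XT.lf (nat_lit 0) (nat_lit 87622223600) (nat_lit 152) (nat_lit 3936043288) (nat_lit 76) (nat_lit 198312607872) (nat_lit 48) (nat_lit 5) (nat_lit 50) (nat_lit 5) (nat_lit 49) (nat_lit 5) (nat_lit 508) (nat_lit 457)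 (nat_lit 235)) (XT.nd (nat_lit 78) (nat_lit 76) (nat_lit 0) (XT.lf (nat_lit 0) (nat_lit 164428485180) (nat_lit 228) (nat_lit 131994605916) (nat_lit 76) (nat_lit 3191869245) (nat_lit 46) (nat_lit 5) (nat_lit 49) (nat_lit 5) (nat_lit 47) (nat_lit 4) (nat_lit 509) (nat_lit 457) (nat_lit 234)) (XT.lf (nat_lit 0) (nat_lit 37754309828) (nat_lit 76) (nat_lit 209478729641) (nat_lit 152) (nat_lit 62505311770) (nat_lit 45) (nat_lit 5) (nat_lit 46) (nat_lit 5) (nat_lit 47) (nat_lit 4) (nat_lit 510) (nat_lit 457) (nat_lit 233)))) (XT.nd (nat_lit 156) (nat_lit 76) (nat_lit 0) (XT.nd (nat_lit 78) (nat_lit 152) (nat_lit 0) (XT.lf (nat_lit 0) (nat_lit 15639767671) (nat_lit 152) (nat_lit 99935495103) (nat_lit 76) (nat_lit 204668275296) (nat_lit 44) (nat_lit 5) (nat_lit 46) (nat_lit 5) (nat_lit 45) (nat_lit 5) (nat_lit 511) (nat_lit 457) (nat_lit 232)) (XT.lf (nat_lit 0) (nat_lit 82325422358) (nat_lit 152) (nat_lit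 14551252313) (nat_lit 228) (nat_lit 234281817631) (nat_lit 42) (nat_lit 5) (nat_lit 44) (nat_lit 5) (nat_lit 45) (nat_lit 5) (nat_lit 512) (nat_lit 457) (nat_lit 231))) (XT.nd (nat_lit 78) (nat_lit 76) (nat_lit 0) (XT.lf (nat_lit 0) (nat_lit 185324406222) (nat_lit 228) (nat_lit 66822649474) (nat_lit 76) (nat_lit 90314689605) (nat_lit 42) (nat_lit 5) (nat_lit 45) (nat_lit 5) (nat_lit 43) (nat_lit 4) (nat_lit 513) (nat_lit 457) (nat_lit 230)) (XT.lf (nat_lit 0) (nat_lit 128151088942) (nat_lit 76) (nat_lit 152282618707) (nat_lit 152) (nat_lit 73784494154) (nat_lit 41) (nat_lit 5) (nat_lit 42) (nat_lit 5) (nat_lit 43) (nat_lit 4) (nat_lit 514) (nat_lit 457) (nat_lit 229))))) (XT.nd (nat_lit 234) (nat_lit 228) (nat_lit 0) (XT.nd (nat_lit 78) (nat_lit 228) (nat_lit 0) (XT.lf (nat_lit 0) (nat_lit 14446422442) (nat_lit 152) (nat_lit 31545754698) (nat_lit 76) (nat_lit 320502077787) (nat_lit 40) (nat_lit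 5) (nat_lit 42) (nat_lit 5) (nat_lit 41) (nat_lit 5) (nat_lit 515) (nat_lit 457) (nat_lit 228)) (XT.nd (nat_lit 78) (nat_lit 76) (nat_lit 0) (XT.lf (nat_lit 0) (nat_lit 108464658482) (nat_lit 228) (nat_lit 203112806716) (nat_lit 76) (nat_lit 67553395609) (nat_lit 38) (nat_lit 5) (nat_lit 41) (nat_lit 5) (nat_lit 39) (nat_lit 4) (nat_lit 516) (nat_lit 457) (nat_lit 227)) (XT.lf (nat_lit 0) (nat_lit 1983129550) (nat_lit 76) (nat_lit 206528459349) (nat_lit 152) (nat_lit 183821318966) (nat_lit 37) (nat_lit 5) (nat_lit 38) (nat_lit 5) (nat_lit 39) (nat_lit 4) (nat_lit 517) (nat_lit 457) (nat_lit 226)))) (XT.nd (nat_lit 156) (nat_lit 76) (nat_lit 0) (XT.nd (nat_lit 78) (nat_lit 152) (nat_lit 0) (XT.lf (nat_lit 0) (nat_lit 224385204535) (nat_lit 76) (nat_lit 92615327371) (nat_lit 152) (nat_lit 89022542078) (nat_lit 37) (nat_lit 5) (nat_lit 38) (nat_lit 5) (nat_lit 39) (nat_lit 4) (nat_lit 518) (nat_lit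 457) (nat_lit 225)) (XT.lf (nat_lit 0) (nat_lit 11215796829) (nat_lit 152) (nat_lit 382213456271) (nat_lit 76) (nat_lit 26908475655) (nat_lit 35) (nat_lit 5) (nat_lit 37) (nat_lit 5) (nat_lit 36) (nat_lit 4) (nat_lit 519) (nat_lit 457) (nat_lit 224))) (XT.nd (nat_lit 78) (nat_lit 76) (nat_lit 0) (XT.lf (nat_lit 0) (nat_lit 118119006947) (nat_lit 152) (nat_lit 163062098554) (nat_lit 76) (nat_lit 153881806704) (nat_lit 35) (nat_lit 5) (nat_lit 37) (nat_lit 5) (nat_lit 36) (nat_lit 4) (nat_lit 520) (nat_lit 457) (nat_lit 223)) (XT.lf (nat_lit 0) (nat_lit 69263433802) (nat_lit 76) (nat_lit 162185204736) (nat_lit 152) (nat_lit 219021653253) (nat_lit 34) (nat_lit 5) (nat_lit 35) (nat_lit 5) (nat_lit 36) (nat_lit 4) (nat_lit 521) (nat_lit 457) (nat_lit 222))))))) (XT.nd (nat_lit 1092) (nat_lit 152) (nat_lit 0) (XT.nd (nat_lit 546) (nat_lit 380) (nat_lit 0) (XT.nd (nat_lit 234) (nat_lit 228) (nat_lit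 0) (XT.nd (nat_lit 78) (nat_lit 152) (nat_lit 0) (XT.lf (nat_lit 0) (nat_lit 318866139073) (nat_lit 76) (nat_lit 34340015349) (nat_lit 152) (nat_lit 113303815809) (nat_lit 34) (nat_lit 5) (nat_lit 35) (nat_lit 5) (nat_lit 36) (nat_lit 4) (nat_lit 522) (nat_lit 457) (nat_lit 221)) (XT.nd (nat_lit 78) (nat_lit 0) (nat_lit 0) (XT.lf (nat_lit 0) (nat_lit 933031663) (nat_lit 152) (nat_lit 383998399519) (nat_lit 76) (nat_lit 98264021908) (nat_lit 32) (nat_lit 5) (nat_lit 34) (nat_lit 5) (nat_lit 33) (nat_lit 4) (nat_lit 523) (nat_lit 457) (nat_lit 220)) (XT.lf (nat_lit 0) (nat_lit 120178203620) (nat_lit 152) (nat_lit 139545971754) (nat_lit 76) (nat_lit 240742951082) (nat_lit 32) (nat_lit 5) (nat_lit 34) (nat_lit 5) (nat_lit 33) (nat_lit 4) (nat_lit 524) (nat_lit 457) (nat_lit 219)))) (XT.nd (nat_lit 156) (nat_lit 152) (nat_lit 0) (XT.nd (nat_lit 78) (nat_lit 0) (nat_lit 0) (XT.lf (nat_lit 0) (nat_lit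 121001653155) (nat_lit 76) (nat_lit 126273034042) (nat_lit 152) (nat_lit 271233243650) (nat_lit 31) (nat_lit 5) (nat_lit 32) (nat_lit 5) (nat_lit 33) (nat_lit 4) (nat_lit 525) (nat_lit 457) (nat_lit 218)) (XT.lf (nat_lit 0) (nat_lit 383344142099) (nat_lit 152) (nat_lit 138166454485) (nat_lit 0) (nat_lit 15809271526) (nat_lit 31) (nat_lit 5) (nat_lit 33) (nat_lit 4) (nat_lit 31) (nat_lit 4) (nat_lit 526) (nat_lit 457) (nat_lit 217))) (XT.nd (nat_lit 78) (nat_lit 76) (nat_lit 0) (XT.lf (nat_lit 0) (nat_lit 136436921467) (nat_lit 76) (nat_lit 393980245134) (nat_lit 76) (nat_lit 26445230797) (nat_lit 30) (nat_lit 4) (nat_lit 31) (nat_lit 5) (nat_lit 31) (nat_lit 4) (nat_lit 527) (nat_lit 457) (nat_lit 216)) (XT.lf (nat_lit 0) (nat_lit 106400500481) (nat_lit 152) (nat_lit 149414125269) (nat_lit 76) (nat_lit 321364630441) (nat_lit 29) (nat_lit 5) (nat_lit 31) (nat_lit 5) (nat_lit 30) (nat_lit 4)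 (nat_lit 528) (nat_lit 457) (nat_lit 215))))) (XT.nd (nat_lit 234) (nat_lit 228) (nat_lit 0) (XT.nd (nat_lit 78) (nat_lit 76) (nat_lit 0) (XT.lf (nat_lit 0) (nat_lit 139168307647) (nat_lit 76) (nat_lit 108004174938) (nat_lit 152) (nat_lit 351209164054) (nat_lit 28) (nat_lit 5) (nat_lit 29) (nat_lit 5) (nat_lit 30) (nat_lit 4) (nat_lit 529) (nat_lit 457) (nat_lit 214)) (XT.nd (nat_lit 78) (nat_lit 76) (nat_lit 0) (XT.lf (nat_lit 0) (nat_lit 398291711107) (nat_lit 152) (nat_lit 173929021887) (nat_lit 0) (nat_lit 48257991256) (nat_lit 28) (nat_lit 5) (nat_lit 30) (nat_lit 4) (nat_lit 28) (nat_lit 4) (nat_lit 530) (nat_lit 457) (nat_lit 213)) (XT.lf (nat_lit 0) (nat_lit 127943747598) (nat_lit 76) (nat_lit 432791169911) (nat_lit 76) (nat_lit 82757337417) (nat_lit 27) (nat_lit 4) (nat_lit 28) (nat_lit 5) (nat_lit 28) (nat_lit 4) (nat_lit 531) (nat_lit 457) (nat_lit 212)))) (XT.nd (nat_lit 156) (nat_lit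 76) (nat_lit 0) (XT.nd (nat_lit 78) (nat_lit 76) (nat_lit 0) (XT.lf (nat_lit 0) (nat_lit 64600578459) (nat_lit 152) (nat_lit 217602753929) (nat_lit 76) (nat_lit 385253759023) (nat_lit 26) (nat_lit 5) (nat_lit 28) (nat_lit 5) (nat_lit 27) (nat_lit 4) (nat_lit 532) (nat_lit 457) (nat_lit 211)) (XT.lf (nat_lit 0) (nat_lit 96987626496) (nat_lit 76) (nat_lit 121071723962) (nat_lit 152) (nat_lit 474417277910) (nat_lit 25) (nat_lit 5) (nat_lit 26) (nat_lit 5) (nat_lit 27) (nat_lit 4) (nat_lit 533) (nat_lit 457) (nat_lit 210))) (XT.nd (nat_lit 78) (nat_lit 76) (nat_lit 0) (XT.lf (nat_lit 0) (nat_lit 383687816291) (nat_lit 152) (nat_lit 284512518735) (nat_lit 0) (nat_lit 50321969388) (nat_lit 25) (nat_lit 5) (nat_lit 27) (nat_lit 4) (nat_lit 25) (nat_lit 4) (nat_lit 534) (nat_lit 457) (nat_lit 209)) (XT.lf (nat_lit 0) (nat_lit 41351322917) (nat_lit 76) (nat_lit 518876680799) (nat_lit 76) (nat_lit 185510745637)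 (nat_lit 24) (nat_lit 4) (nat_lit 25) (nat_lit 5) (nat_lit 25) (nat_lit 4) (nat_lit 535) (nat_lit 457) (nat_lit 208)))))) (XT.nd (nat_lit 56706) (nat_lit 0) (nat_lit 7448) (XT.nd (nat_lit 56394) (nat_lit 0) (nat_lit 7828) (XT.nd (nat_lit 78) (nat_lit 152) (nat_lit 0) (XT.lf (nat_lit 0) (nat_lit 393385807962) (nat_lit 76) (nat_lit 357027657281) (nat_lit 76) (nat_lit 23661638063) (nat_lit 24) (nat_lit 4) (nat_lit 25) (nat_lit 5) (nat_lit 25) (nat_lit 4) (nat_lit 536) (nat_lit 457) (nat_lit 207)) (XT.nd (nat_lit 78) (nat_lit 76) (nat_lit 0) (XT.lf (nat_lit 0) (nat_lit 141597964270) (nat_lit 152) (nat_lit 43090272516) (nat_lit 76) (nat_lit 619025850669) (nat_lit 23) (nat_lit 5) (nat_lit 25) (nat_lit 5) (nat_lit 24) (nat_lit 4) (nat_lit 537) (nat_lit 457) (nat_lit 206)) (XT.lf (nat_lit 0) (nat_lit 319371739535) (nat_lit 152) (nat_lit 513311423738) (nat_lit 0) (nat_lit 1880143808) (nat_lit 22) (nat_lit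 5) (nat_lit 24) (nat_lit 4) (nat_lit 22) (nat_lit 4) (nat_lit 538) (nat_lit 457) (nat_lit 205)))) (XT.nd (nat_lit 156) (nat_lit 0) (nat_lit 76) (XT.nd (nat_lit 78) (nat_lit 0) (nat_lit 0) (XT.lf (nat_lit 0) (nat_lit 11422745986) (nat_lit 836) (nat_lit 11505164482) (nat_lit 836) (nat_lit 11505164482) (nat_lit 125) (nat_lit 3) (nat_lit 136) (nat_lit 3) (nat_lit 136) (nat_lit 5) (nat_lit 458) (nat_lit 458) (nat_lit 284)) (XT.lf (nat_lit 76) (nat_lit 11080825713) (nat_lit 0) (nat_lit 12522307651) (nat_lit 836) (nat_lit 46975339825) (nat_lit 126) (nat_lit 5) (nat_lit 125) (nat_lit 3) (nat_lit 136) (nat_lit 5) (nat_lit 459) (nat_lit 458) (nat_lit 283))) (XT.nd (nat_lit 78) (nat_lit 0) (nat_lit 0) (XT.lf (nat_lit 0) (nat_lit 25144813692) (nat_lit 760) (nat_lit 25039373515) (nat_lit 836) (nat_lit 22154917930) (nat_lit 126) (nat_lit 5) (nat_lit 136) (nat_lit 5) (nat_lit 137) (nat_lit 5) (nat_lit 460)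 (nat_lit 458) (nat_lit 282)) (XT.lf (nat_lit 76) (nat_lit 11297630759) (nat_lit 0) (nat_lit 15846794601) (nat_lit 836) (nat_lit 47024301275) (nat_lit 127) (nat_lit 5) (nat_lit 126) (nat_lit 5) (nat_lit 137) (nat_lit 5) (nat_lit 461) (nat_lit 458) (nat_lit 281))))) (XT.nd (nat_lit 312) (nat_lit 532) (nat_lit 0) (XT.nd (nat_lit 156) (nat_lit 0) (nat_lit 76) (XT.nd (nat_lit 78) (nat_lit 0) (nat_lit 0) (XT.lf (nat_lit 0) (nat_lit 29989730764) (nat_lit 760) (nat_lit 26070808786) (nat_lit 836) (nat_lit 19992004307) (nat_lit 127) (nat_lit 5) (nat_lit 137) (nat_lit 5) (nat_lit 138) (nat_lit 5) (nat_lit 462) (nat_lit 458) (nat_lit 280)) (XT.lf (nat_lit 76) (nat_lit 12716201161) (nat_lit 0) (nat_lit 20718669179) (nat_lit 836) (nat_lit 44572803444) (nat_lit 128) (nat_lit 5) (nat_lit 127) (nat_lit 5) (nat_lit 138) (nat_lit 5) (nat_lit 463) (nat_lit 458) (nat_lit 279))) (XT.nd (nat_lit 78) (nat_lit 0) (nat_lit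 0) (XT.lf (nat_lit 0) (nat_lit 37756206459) (nat_lit 760) (nat_lit 25954476964) (nat_lit 836) (nat_lit 16314680084) (nat_lit 128) (nat_lit 5) (nat_lit 138) (nat_lit 5) (nat_lit 139) (nat_lit 5) (nat_lit 464) (nat_lit 458) (nat_lit 278)) (XT.lf (nat_lit 76) (nat_lit 15505478338) (nat_lit 0) (nat_lit 27369180859) (nat_lit 836) (nat_lit 39240226291) (nat_lit 129) (nat_lit 5) (nat_lit 128) (nat_lit 5) (nat_lit 139) (nat_lit 5) (nat_lit 465) (nat_lit 458) (nat_lit 277)))) (XT.nd (nat_lit 156) (nat_lit 684) (nat_lit 0) (XT.nd (nat_lit 78) (nat_lit 0) (nat_lit 0) (XT.lf (nat_lit 0) (nat_lit 48863587379) (nat_lit 760) (nat_lit 24523591618) (nat_lit 836) (nat_lit 10890977181) (nat_lit 129) (nat_lit 5) (nat_lit 139) (nat_lit 5) (nat_lit 140) (nat_lit 5) (nat_lit 466) (nat_lit 458) (nat_lit 276)) (XT.lf (nat_lit 76) (nat_lit 19852737478) (nat_lit 0) (nat_lit 36057230451) (nat_lit 836) (nat_lit 30601722416)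 (nat_lit 130) (nat_lit 5) (nat_lit 129) (nat_lit 5) (nat_lit 140) (nat_lit 5) (nat_lit 467) (nat_lit 458) (nat_lit 275))) (XT.nd (nat_lit 78) (nat_lit 760) (nat_lit 0) (XT.lf (nat_lit 0) (nat_lit 63779204311) (nat_lit 760) (nat_lit 21593206364) (nat_lit 76) (nat_lit 3460963932) (nat_lit 130) (nat_lit 5) (nat_lit 140) (nat_lit 5) (nat_lit 131) (nat_lit 5) (nat_lit 468) (nat_lit 458) (nat_lit 274)) (XT.lf (nat_lit 0) (nat_lit 25965264138) (nat_lit 760) (nat_lit 47072557199) (nat_lit 836) (nat_lit 18183526021) (nat_lit 120) (nat_lit 5) (nat_lit 130) (nat_lit 5) (nat_lit 131) (nat_lit 5) (nat_lit 469) (nat_lit 458) (nat_lit 273))))))))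
noncomputable def xc210 : XT := (XT.nd (nat_lit 2184) (nat_lit 2356) (nat_lit 0) (XT.nd (nat_lit 1092) (nat_lit 1976) (nat_lit 0) (XT.nd (nat_lit 546) (nat_lit 912) (nat_lit 0) (XT.nd (nat_lit 234) (nat_lit 1064) (nat_lit 0) (XT.nd (nat_lit 78) (nat_lit 456) (nat_lit 0) (XT.lf (nat_lit 0) (nat_lit 76650821991) (nat_lit 760) (nat_lit 6473684233) (nat_lit 836) (nat_lit 10585955878) (nat_lit 120) (nat_lit 5) (nat_lit 130) (nat_lit 5) (nat_lit 131) (nat_lit 5) (nat_lit 470) (nat_lit 458) (nat_lit 272)) (XT.nd (nat_lit 78) (nat_lit 76) (nat_lit 0) (XT.lf (nat_lit 0) (nat_lit 34072157109) (nat_lit 380) (nat_lit 60739285814) (nat_lit 456) (nat_lit 1457793979) (nat_lit 115) (nat_lit 5) (nat_lit 120) (nat_lit 5) (nat_lit 121) (nat_lit 5) (nat_lit 471) (nat_lit 458) (nat_lit 271)) (XT.lf (nat_lit 0) (nat_lit 8265925490) (nat_lit 456) (nat_lit 10826948467) (nat_lit 76) (nat_lit 79836769722) (nat_lit 114)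 (nat_lit 5) (nat_lit 120) (nat_lit 5) (nat_lit 115) (nat_lit 5) (nat_lit 472) (nat_lit 458) (nat_lit 270)))) (XT.nd (nat_lit 156) (nat_lit 684) (nat_lit 0) (XT.nd (nat_lit 78) (nat_lit 0) (nat_lit 0) (XT.lf (nat_lit 0) (nat_lit 19517721508) (nat_lit 456) (nat_lit 57571611859) (nat_lit 76) (nat_lit 24577998585) (nat_lit 109) (nat_lit 5) (nat_lit 115) (nat_lit 5) (nat_lit 110) (nat_lit 5) (nat_lit 473) (nat_lit 458) (nat_lit 269)) (XT.lf (nat_lit 0) (nat_lit 31830992875) (nat_lit 456) (nat_lit 2708838721) (nat_lit 76) (nat_lit 69977128926) (nat_lit 109) (nat_lit 5) (nat_lit 115) (nat_lit 5) (nat_lit 110) (nat_lit 5) (nat_lit 474) (nat_lit 458) (nat_lit 268))) (XT.nd (nat_lit 78) (nat_lit 304) (nat_lit 0) (XT.lf (nat_lit 0) (nat_lit 45817685575) (nat_lit 456) (nat_lit 50925887126) (nat_lit 76) (nat_lit 10712610086) (nat_lit 104) (nat_lit 5) (nat_lit 110) (nat_lit 5) (nat_lit 105) (nat_lit 5) (nat_lit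 475) (nat_lit 458) (nat_lit 267)) (XT.lf (nat_lit 0) (nat_lit 7973071197) (nat_lit 304) (nat_lit 53267536569) (nat_lit 380) (nat_lit 49264913803) (nat_lit 100) (nat_lit 5) (nat_lit 104) (nat_lit 5) (nat_lit 105) (nat_lit 5) (nat_lit 476) (nat_lit 458) (nat_lit 266))))) (XT.nd (nat_lit 234) (nat_lit 608) (nat_lit 0) (XT.nd (nat_lit 78) (nat_lit 304) (nat_lit 0) (XT.lf (nat_lit 0) (nat_lit 71584520056) (nat_lit 304) (nat_lit 6712182504) (nat_lit 380) (nat_lit 35367523544) (nat_lit 100) (nat_lit 5) (nat_lit 104) (nat_lit 5) (nat_lit 105) (nat_lit 5) (nat_lit 477) (nat_lit 458) (nat_lit 265)) (XT.nd (nat_lit 78) (nat_lit 0) (nat_lit 0) (XT.lf (nat_lit 0) (nat_lit 21422435155) (nat_lit 304) (nat_lit 75775629163) (nat_lit 380) (nat_lit 19733178571) (nat_lit 96) (nat_lit 5) (nat_lit 100) (nat_lit 5) (nat_lit 101) (nat_lit 5) (nat_lit 478) (nat_lit 458) (nat_lit 264)) (XT.lf (nat_lit 0) (nat_lit 89446444069)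 (nat_lit 304) (nat_lit 28418554713) (nat_lit 380) (nat_lit 2455586628) (nat_lit 96) (nat_lit 5) (nat_lit 100) (nat_lit 5) (nat_lit 101) (nat_lit 5) (nat_lit 479) (nat_lit 458) (nat_lit 263)))) (XT.nd (nat_lit 156) (nat_lit 304) (nat_lit 0) (XT.nd (nat_lit 78) (nat_lit 0) (nat_lit 0) (XT.lf (nat_lit 0) (nat_lit 16122528328) (nat_lit 304) (nat_lit 86222008515) (nat_lit 76) (nat_lit 21475678812) (nat_lit 92) (nat_lit 5) (nat_lit 96) (nat_lit 5) (nat_lit 93) (nat_lit 5) (nat_lit 480) (nat_lit 458) (nat_lit 262)) (XT.lf (nat_lit 0) (nat_lit 36543969043) (nat_lit 304) (nat_lit 17417813129) (nat_lit 76) (nat_lit 73481185382) (nat_lit 92) (nat_lit 5) (nat_lit 96) (nat_lit 5) (nat_lit 93) (nat_lit 5) (nat_lit 481) (nat_lit 458) (nat_lit 261))) (XT.nd (nat_lit 78) (nat_lit 0) (nat_lit 0) (XT.lf (nat_lit 0) (nat_lit 56638936882) (nat_lit 304) (nat_lit 2231481008) (nat_lit 380) (nat_lit 72332242458) (nat_lit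 88) (nat_lit 5) (nat_lit 92) (nat_lit 5) (nat_lit 93) (nat_lit 5) (nat_lit 482) (nat_lit 458) (nat_lit 260)) (XT.lf (nat_lit 0) (nat_lit 83425854020) (nat_lit 380) (nat_lit 950854413) (nat_lit 76) (nat_lit 50717996206) (nat_lit 88) (nat_lit 5) (nat_lit 93) (nat_lit 5) (nat_lit 89) (nat_lit 5) (nat_lit 483) (nat_lit 458) (nat_lit 259)))))) (XT.nd (nat_lit 546) (nat_lit 836) (nat_lit 0) (XT.nd (nat_lit 234) (nat_lit 608) (nat_lit 0) (XT.nd (nat_lit 78) (nat_lit 304) (nat_lit 0) (XT.lf (nat_lit 0) (nat_lit 78828644056) (nat_lit 228) (nat_lit 31647404149) (nat_lit 304) (nat_lit 28641953721) (nat_lit 85) (nat_lit 5) (nat_lit 88) (nat_lit 5) (nat_lit 89) (nat_lit 5) (nat_lit 484) (nat_lit 458) (nat_lit 258)) (XT.nd (nat_lit 78) (nat_lit 76) (nat_lit 0) (XT.lf (nat_lit 0) (nat_lit 19542943514) (nat_lit 228) (nat_lit 120027281828) (nat_lit 304) (nat_lit 3737665164) (nat_lit 82) (nat_lit 5) (nat_lit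 85) (nat_lit 5) (nat_lit 86) (nat_lit 5) (nat_lit 485) (nat_lit 458) (nat_lit 257)) (XT.lf (nat_lit 0) (nat_lit 23250775677) (nat_lit 304) (nat_lit 43082163487) (nat_lit 76) (nat_lit 81279026021) (nat_lit 81) (nat_lit 5) (nat_lit 85) (nat_lit 5) (nat_lit 82) (nat_lit 5) (nat_lit 486) (nat_lit 458) (nat_lit 256)))) (XT.nd (nat_lit 156) (nat_lit 380) (nat_lit 0) (XT.nd (nat_lit 78) (nat_lit 0) (nat_lit 0) (XT.lf (nat_lit 0) (nat_lit 42947648393) (nat_lit 228) (nat_lit 9185607637) (nat_lit 304) (nat_lit 99961412611) (nat_lit 78) (nat_lit 5) (nat_lit 81) (nat_lit 5) (nat_lit 82) (nat_lit 5) (nat_lit 487) (nat_lit 458) (nat_lit 255)) (XT.lf (nat_lit 0) (nat_lit 83994567395) (nat_lit 304) (nat_lit 22796186074) (nat_lit 76) (nat_lit 49934018523) (nat_lit 78) (nat_lit 5) (nat_lit 82) (nat_lit 5) (nat_lit 79) (nat_lit 5) (nat_lit 488) (nat_lit 458) (nat_lit 254))) (XT.nd (nat_lit 78) (nat_lit 152) (nat_lit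 0) (XT.lf (nat_lit 0) (nat_lit 69960358645) (nat_lit 228) (nat_lit 48731161294) (nat_lit 304) (nat_lit 42832731862) (nat_lit 75) (nat_lit 5) (nat_lit 78) (nat_lit 5) (nat_lit 79) (nat_lit 5) (nat_lit 489) (nat_lit 458) (nat_lit 253)) (XT.lf (nat_lit 0) (nat_lit 1450467787) (nat_lit 152) (nat_lit 154278577930) (nat_lit 228) (nat_lit 10804373671) (nat_lit 73) (nat_lit 5) (nat_lit 75) (nat_lit 5) (nat_lit 76) (nat_lit 5) (nat_lit 490) (nat_lit 458) (nat_lit 252))))) (XT.nd (nat_lit 234) (nat_lit 532) (nat_lit 0) (XT.nd (nat_lit 78) (nat_lit 228) (nat_lit 0) (XT.lf (nat_lit 0) (nat_lit 24469540408) (nat_lit 228) (nat_lit 70602157484) (nat_lit 76) (nat_lit 76584794427) (nat_lit 72) (nat_lit 5) (nat_lit 75) (nat_lit 5) (nat_lit 73) (nat_lit 5) (nat_lit 491) (nat_lit 458) (nat_lit 251)) (XT.nd (nat_lit 78) (nat_lit 0) (nat_lit 0) (XT.lf (nat_lit 0) (nat_lit 29365016022) (nat_lit 228) (nat_lit 32237241903)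 (nat_lit 304) (nat_lit 115401694709) (nat_lit 69) (nat_lit 5) (nat_lit 72) (nat_lit 5) (nat_lit 73) (nat_lit 5) (nat_lit 492) (nat_lit 458) (nat_lit 250)) (XT.lf (nat_lit 0) (nat_lit 102333393302) (nat_lit 304) (nat_lit 46324074525) (nat_lit 76) (nat_lit 33874229096) (nat_lit 69) (nat_lit 5) (nat_lit 73) (nat_lit 5) (nat_lit 70) (nat_lit 5) (nat_lit 493) (nat_lit 458) (nat_lit 249)))) (XT.nd (nat_lit 156) (nat_lit 380) (nat_lit 0) (XT.nd (nat_lit 78) (nat_lit 0) (nat_lit 0) (XT.lf (nat_lit 0) (nat_lit 61495916443) (nat_lit 152) (nat_lit 85093523961) (nat_lit 228) (nat_lit 41671970324) (nat_lit 67) (nat_lit 5) (nat_lit 69) (nat_lit 5) (nat_lit 70) (nat_lit 5) (nat_lit 494) (nat_lit 458) (nat_lit 248)) (XT.lf (nat_lit 0) (nat_lit 176314792264) (nat_lit 152) (nat_lit 17527776049) (nat_lit 228) (nat_lit 395828041) (nat_lit 67) (nat_lit 5) (nat_lit 69) (nat_lit 5) (nat_lit 70) (nat_lit 5) (nat_lit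 495) (nat_lit 458) (nat_lit 247))) (XT.nd (nat_lit 78) (nat_lit 152) (nat_lit 0) (XT.lf (nat_lit 0) (nat_lit 43983054463) (nat_lit 228) (nat_lit 102420359263) (nat_lit 76) (nat_lit 53956623015) (nat_lit 64) (nat_lit 5) (nat_lit 67) (nat_lit 5) (nat_lit 65) (nat_lit 5) (nat_lit 496) (nat_lit 458) (nat_lit 246)) (XT.lf (nat_lit 0) (nat_lit 13581314505) (nat_lit 152) (nat_lit 77793937059) (nat_lit 228) (nat_lit 115371799535) (nat_lit 62) (nat_lit 5) (nat_lit 64) (nat_lit 5) (nat_lit 65) (nat_lit 5) (nat_lit 497) (nat_lit 458) (nat_lit 245))))))) (XT.nd (nat_lit 1092) (nat_lit 1064) (nat_lit 0) (XT.nd (nat_lit 546) (nat_lit 532) (nat_lit 0) (XT.nd (nat_lit 234) (nat_lit 532) (nat_lit 0) (XT.nd (nat_lit 78) (nat_lit 228) (nat_lit 0) (XT.lf (nat_lit 0) (nat_lit 138938506672) (nat_lit 152) (nat_lit 3932864299) (nat_lit 228) (nat_lit 70495329622) (nat_lit 62) (nat_lit 5) (nat_lit 64) (nat_lit 5) (nat_lit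 65) (nat_lit 5) (nat_lit 498) (nat_lit 458) (nat_lit 244)) (XT.nd (nat_lit 78) (nat_lit 76) (nat_lit 0) (XT.lf (nat_lit 0) (nat_lit 50719781422) (nat_lit 152) (nat_lit 148163609821) (nat_lit 228) (nat_lit 21336886612) (nat_lit 60) (nat_lit 5) (nat_lit 62) (nat_lit 5) (nat_lit 63) (nat_lit 5) (nat_lit 499) (nat_lit 458) (nat_lit 243)) (XT.lf (nat_lit 0) (nat_lit 30655744398) (nat_lit 228) (nat_lit 43202621379) (nat_lit 76) (nat_lit 153467260950) (nat_lit 59) (nat_lit 5) (nat_lit 62) (nat_lit 5) (nat_lit 60) (nat_lit 5) (nat_lit 500) (nat_lit 458) (nat_lit 242)))) (XT.nd (nat_lit 156) (nat_lit 380) (nat_lit 0) (XT.nd (nat_lit 78) (nat_lit 0) (nat_lit 0) (XT.lf (nat_lit 0) (nat_lit 86061456972) (nat_lit 228) (nat_lit 142786459951) (nat_lit 76) (nat_lit 5844311438) (nat_lit 57) (nat_lit 5) (nat_lit 60) (nat_lit 5) (nat_lit 58) (nat_lit 5) (nat_lit 501) (nat_lit 458) (nat_lit 241)) (XT.lf (nat_lit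 0) (nat_lit 146191696417) (nat_lit 228) (nat_lit 8344235876) (nat_lit 76) (nat_lit 87793515752) (nat_lit 57) (nat_lit 5) (nat_lit 60) (nat_lit 5) (nat_lit 58) (nat_lit 5) (nat_lit 502) (nat_lit 458) (nat_lit 240))) (XT.nd (nat_lit 78) (nat_lit 228) (nat_lit 0) (XT.lf (nat_lit 0) (nat_lit 137211390758) (nat_lit 152) (nat_lit 74259117785) (nat_lit 228) (nat_lit 38770917166) (nat_lit 55) (nat_lit 5) (nat_lit 57) (nat_lit 5) (nat_lit 58) (nat_lit 5) (nat_lit 503) (nat_lit 458) (nat_lit 239)) (XT.lf (nat_lit 0) (nat_lit 21600825221) (nat_lit 228) (nat_lit 226177663698) (nat_lit 76) (nat_lit 10712579677) (nat_lit 52) (nat_lit 5) (nat_lit 55) (nat_lit 5) (nat_lit 53) (nat_lit 5) (nat_lit 504) (nat_lit 458) (nat_lit 238))))) (XT.nd (nat_lit 234) (nat_lit 380) (nat_lit 0) (XT.nd (nat_lit 78) (nat_lit 152) (nat_lit 0) (XT.lf (nat_lit 0) (nat_lit 86850968550) (nat_lit 228) (nat_lit 80093983497) (nat_lit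 76) (nat_lit 100018323623) (nat_lit 52) (nat_lit 5) (nat_lit 55) (nat_lit 5) (nat_lit 53) (nat_lit 5) (nat_lit 505) (nat_lit 458) (nat_lit 237)) (XT.nd (nat_lit 78) (nat_lit 0) (nat_lit 0) (XT.lf (nat_lit 0) (nat_lit 75716979693) (nat_lit 152) (nat_lit 80828612004) (nat_lit 228) (nat_lit 119254402793) (nat_lit 50) (nat_lit 5) (nat_lit 52) (nat_lit 5) (nat_lit 53) (nat_lit 5) (nat_lit 506) (nat_lit 458) (nat_lit 236)) (XT.lf (nat_lit 0) (nat_lit 231253215137) (nat_lit 228) (nat_lit 43083892059) (nat_lit 76) (nat_lit 10665028622) (nat_lit 50) (nat_lit 5) (nat_lit 53) (nat_lit 5) (nat_lit 51) (nat_lit 4) (nat_lit 507) (nat_lit 458) (nat_lit 235)))) (XT.nd (nat_lit 156) (nat_lit 228) (nat_lit 0) (XT.nd (nat_lit 78) (nat_lit 0) (nat_lit 0) (XT.lf (nat_lit 0) (nat_lit 17871753576) (nat_lit 152) (nat_lit 170367156689) (nat_lit 76) (nat_lit 106247687984) (nat_lit 48) (nat_lit 5) (nat_lit 50) (nat_lit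 5) (nat_lit 49) (nat_lit 5) (nat_lit 508) (nat_lit 458) (nat_lit 234)) (XT.lf (nat_lit 0) (nat_lit 92008582708) (nat_lit 152) (nat_lit 4123479941) (nat_lit 76) (nat_lit 208232092812) (nat_lit 48) (nat_lit 5) (nat_lit 50) (nat_lit 5) (nat_lit 49) (nat_lit 5) (nat_lit 509) (nat_lit 458) (nat_lit 233))) (XT.nd (nat_lit 78) (nat_lit 76) (nat_lit 0) (XT.lf (nat_lit 0) (nat_lit 172655114913) (nat_lit 228) (nat_lit 138584927636) (nat_lit 76) (nat_lit 3355404925) (nat_lit 46) (nat_lit 5) (nat_lit 49) (nat_lit 5) (nat_lit 47) (nat_lit 4) (nat_lit 510) (nat_lit 458) (nat_lit 232)) (XT.lf (nat_lit 0) (nat_lit 39651282144) (nat_lit 76) (nat_lit 219948511418) (nat_lit 152) (nat_lit 65625219552) (nat_lit 45) (nat_lit 5) (nat_lit 46) (nat_lit 5) (nat_lit 47) (nat_lit 4) (nat_lit 511) (nat_lit 458) (nat_lit 231)))))) (XT.nd (nat_lit 546) (nat_lit 456) (nat_lit 0) (XT.nd (nat_lit 234) (nat_lit 380) (nat_lit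 0) (XT.nd (nat_lit 78) (nat_lit 152) (nat_lit 0) (XT.lf (nat_lit 0) (nat_lit 16426695410) (nat_lit 152) (nat_lit 104923289990) (nat_lit 76) (nat_lit 214905482079) (nat_lit 44) (nat_lit 5) (nat_lit 46) (nat_lit 5) (nat_lit 45) (nat_lit 5) (nat_lit 512) (nat_lit 458) (nat_lit 230)) (XT.nd (nat_lit 78) (nat_lit 0) (nat_lit 0) (XT.lf (nat_lit 0) (nat_lit 86450528507) (nat_lit 152) (nat_lit 15274821985) (nat_lit 228) (nat_lit 245990823818) (nat_lit 42) (nat_lit 5) (nat_lit 44) (nat_lit 5) (nat_lit 45) (nat_lit 5) (nat_lit 513) (nat_lit 458) (nat_lit 229)) (XT.lf (nat_lit 0) (nat_lit 194595297417) (nat_lit 228) (nat_lit 70155195951) (nat_lit 76) (nat_lit 94834105176) (nat_lit 42) (nat_lit 5) (nat_lit 45) (nat_lit 5) (nat_lit 43) (nat_lit 4) (nat_lit 514) (nat_lit 458) (nat_lit 228)))) (XT.nd (nat_lit 156) (nat_lit 228) (nat_lit 0) (XT.nd (nat_lit 78) (nat_lit 76) (nat_lit 0) (XT.lf (nat_lit 0) (nat_lit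 134567090902) (nat_lit 76) (nat_lit 159892882480) (nat_lit 152) (nat_lit 77468909038) (nat_lit 41) (nat_lit 5) (nat_lit 42) (nat_lit 5) (nat_lit 43) (nat_lit 4) (nat_lit 515) (nat_lit 458) (nat_lit 227)) (XT.lf (nat_lit 0) (nat_lit 15173177735) (nat_lit 152) (nat_lit 33114850155) (nat_lit 76) (nat_lit 336530717662) (nat_lit 40) (nat_lit 5) (nat_lit 42) (nat_lit 5) (nat_lit 41) (nat_lit 5) (nat_lit 516) (nat_lit 458) (nat_lit 226))) (XT.nd (nat_lit 78) (nat_lit 76) (nat_lit 0) (XT.lf (nat_lit 0) (nat_lit 113892298211) (nat_lit 228) (nat_lit 213260227015) (nat_lit 76) (nat_lit 70934657888) (nat_lit 38) (nat_lit 5) (nat_lit 41) (nat_lit 5) (nat_lit 39) (nat_lit 4) (nat_lit 517) (nat_lit 458) (nat_lit 225)) (XT.lf (nat_lit 0) (nat_lit 2090373483) (nat_lit 76) (nat_lit 216851118085) (nat_lit 152) (nat_lit 193007845153) (nat_lit 37) (nat_lit 5) (nat_lit 38) (nat_lit 5) (nat_lit 39) (nat_lit 4) (nat_lit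 518) (nat_lit 458) (nat_lit 224))))) (XT.nd (nat_lit 312) (nat_lit 228) (nat_lit 0) (XT.nd (nat_lit 156) (nat_lit 76) (nat_lit 0) (XT.nd (nat_lit 78) (nat_lit 152) (nat_lit 0) (XT.lf (nat_lit 0) (nat_lit 235612167101) (nat_lit 76) (nat_lit 97242508758) (nat_lit 152) (nat_lit 93469345600) (nat_lit 37) (nat_lit 5) (nat_lit 38) (nat_lit 5) (nat_lit 39) (nat_lit 4) (nat_lit 519) (nat_lit 458) (nat_lit 223)) (XT.lf (nat_lit 0) (nat_lit 11780749356) (nat_lit 152) (nat_lit 401316265186) (nat_lit 76) (nat_lit 28257392192) (nat_lit 35) (nat_lit 5) (nat_lit 37) (nat_lit 5) (nat_lit 36) (nat_lit 4) (nat_lit 520) (nat_lit 458) (nat_lit 222))) (XT.nd (nat_lit 78) (nat_lit 76) (nat_lit 0) (XT.lf (nat_lit 0) (nat_lit 124028921757) (nat_lit 152) (nat_lit 171207714055) (nat_lit 76) (nat_lit 161579223472) (nat_lit 35) (nat_lit 5) (nat_lit 37) (nat_lit 5) (nat_lit 36) (nat_lit 4) (nat_lit 521) (nat_lit 458) (nat_lit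 221)) (XT.lf (nat_lit 0) (nat_lit 72733974122) (nat_lit 76) (nat_lit 170290987067) (nat_lit 152) (nat_lit 229968650362) (nat_lit 34) (nat_lit 5) (nat_lit 35) (nat_lit 5) (nat_lit 36) (nat_lit 4) (nat_lit 522) (nat_lit 458) (nat_lit 220)))) (XT.nd (nat_lit 156) (nat_lit 76) (nat_lit 0) (XT.nd (nat_lit 78) (nat_lit 152) (nat_lit 0) (XT.lf (nat_lit 0) (nat_lit 334816463769) (nat_lit 76) (nat_lit 36053703825) (nat_lit 152) (nat_lit 118965115597) (nat_lit 34) (nat_lit 5) (nat_lit 35) (nat_lit 5) (nat_lit 36) (nat_lit 4) (nat_lit 523) (nat_lit 458) (nat_lit 219)) (XT.lf (nat_lit 0) (nat_lit 983432073) (nat_lit 152) (nat_lit 403191159056) (nat_lit 76) (nat_lit 103180446922) (nat_lit 32) (nat_lit 5) (nat_lit 34) (nat_lit 5) (nat_lit 33) (nat_lit 4) (nat_lit 524) (nat_lit 458) (nat_lit 218))) (XT.nd (nat_lit 78) (nat_lit 76) (nat_lit 0) (XT.lf (nat_lit 0) (nat_lit 126190684112) (nat_lit 152) (nat_lit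 146516450876) (nat_lit 76) (nat_lit 252783169034) (nat_lit 32) (nat_lit 5) (nat_lit 34) (nat_lit 5) (nat_lit 33) (nat_lit 4) (nat_lit 525) (nat_lit 458) (nat_lit 217)) (XT.lf (nat_lit 0) (nat_lit 127058445287) (nat_lit 76) (nat_lit 132583481320) (nat_lit 152) (nat_lit 284791225300) (nat_lit 31) (nat_lit 5) (nat_lit 32) (nat_lit 5) (nat_lit 33) (nat_lit 4) (nat_lit 526) (nat_lit 458) (nat_lit 216))))))))
noncomputable def xc211 : XT := (XT.nd (nat_lit 58500) (nat_lit 0) (nat_lit 2356) (XT.nd (nat_lit 57408) (nat_lit 0) (nat_lit 6460) (XT.nd (nat_lit 546) (nat_lit 152) (nat_lit 0) (XT.nd (nat_lit 234) (nat_lit 228) (nat_lit 0) (XT.nd (nat_lit 78) (nat_lit 152) (nat_lit 0) (XT.lf (nat_lit 0) (nat_lit 402514734994) (nat_lit 152) (nat_lit 145068267755) (nat_lit 0) (nat_lit 16602689257) (nat_lit 31) (nat_lit 5) (nat_lit 33) (nat_lit 4) (nat_lit 31) (nat_lit 4) (nat_lit 527) (nat_lit 458) (nat_lit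 215)) (XT.nd (nat_lit 78) (nat_lit 76) (nat_lit 0) (XT.lf (nat_lit 0) (nat_lit 143265172003) (nat_lit 76) (nat_lit 413676177482) (nat_lit 76) (nat_lit 27764001347) (nat_lit 30) (nat_lit 4) (nat_lit 31) (nat_lit 5) (nat_lit 31) (nat_lit 4) (nat_lit 528) (nat_lit 458) (nat_lit 214)) (XT.lf (nat_lit 0) (nat_lit 111723743845) (nat_lit 152) (nat_lit 156878625441) (nat_lit 76) (nat_lit 337435688608) (nat_lit 29) (nat_lit 5) (nat_lit 31) (nat_lit 5) (nat_lit 30) (nat_lit 4) (nat_lit 529) (nat_lit 458) (nat_lit 213)))) (XT.nd (nat_lit 156) (nat_lit 152) (nat_lit 0) (XT.nd (nat_lit 78) (nat_lit 0) (nat_lit 0) (XT.lf (nat_lit 0) (nat_lit 146132829022) (nat_lit 76) (nat_lit 113401438110) (nat_lit 152) (nat_lit 368766303638) (nat_lit 28) (nat_lit 5) (nat_lit 29) (nat_lit 5) (nat_lit 30) (nat_lit 4) (nat_lit 530) (nat_lit 458) (nat_lit 212)) (XT.lf (nat_lit 0) (nat_lit 418209350382) (nat_lit 152) (nat_lit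 182619550881) (nat_lit 0) (nat_lit 50673606342) (nat_lit 28) (nat_lit 5) (nat_lit 30) (nat_lit 4) (nat_lit 28) (nat_lit 4) (nat_lit 531) (nat_lit 458) (nat_lit 211))) (XT.nd (nat_lit 78) (nat_lit 76) (nat_lit 0) (XT.lf (nat_lit 0) (nat_lit 134346761560) (nat_lit 76) (nat_lit 454427901098) (nat_lit 76) (nat_lit 86892054887) (nat_lit 27) (nat_lit 4) (nat_lit 28) (nat_lit 5) (nat_lit 28) (nat_lit 4) (nat_lit 532) (nat_lit 458) (nat_lit 210)) (XT.lf (nat_lit 0) (nat_lit 67833510812) (nat_lit 152) (nat_lit 228477246351) (nat_lit 76) (nat_lit 404519043500) (nat_lit 26) (nat_lit 5) (nat_lit 28) (nat_lit 5) (nat_lit 27) (nat_lit 4) (nat_lit 533) (nat_lit 458) (nat_lit 209))))) (XT.nd (nat_lit 234) (nat_lit 0) (nat_lit 0) (XT.nd (nat_lit 78) (nat_lit 76) (nat_lit 0) (XT.lf (nat_lit 0) (nat_lit 101842562043) (nat_lit 76) (nat_lit 127122607825) (nat_lit 152) (nat_lit 498135147182) (nat_lit 25) (nat_lit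 5) (nat_lit 26) (nat_lit 5) (nat_lit 27) (nat_lit 4) (nat_lit 534) (nat_lit 458) (nat_lit 208)) (XT.nd (nat_lit 78) (nat_lit 76) (nat_lit 0) (XT.lf (nat_lit 0) (nat_lit 402874963371) (nat_lit 152) (nat_lit 298732759180) (nat_lit 0) (nat_lit 52840559136) (nat_lit 25) (nat_lit 5) (nat_lit 27) (nat_lit 4) (nat_lit 25) (nat_lit 4) (nat_lit 535) (nat_lit 458) (nat_lit 207)) (XT.lf (nat_lit 0) (nat_lit 43424187692) (nat_lit 76) (nat_lit 544817923951) (nat_lit 76) (nat_lit 194783439662) (nat_lit 24) (nat_lit 4) (nat_lit 25) (nat_lit 5) (nat_lit 25) (nat_lit 4) (nat_lit 536) (nat_lit 458) (nat_lit 206)))) (XT.nd (nat_lit 56472) (nat_lit 0) (nat_lit 7676) (XT.nd (nat_lit 56394) (nat_lit 0) (nat_lit 7676) (XT.lf (nat_lit 0) (nat_lit 413060144673) (nat_lit 76) (nat_lit 374876572632) (nat_lit 76) (nat_lit 24842012103) (nat_lit 24) (nat_lit 4) (nat_lit 25) (nat_lit 5) (nat_lit 25) (nat_lit 4) (nat_lit 537)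 (nat_lit 458) (nat_lit 205)) (XT.lf (nat_lit 0) (nat_lit 12007173841) (nat_lit 836) (nat_lit 12073442578) (nat_lit 836) (nat_lit 12073442578) (nat_lit 125) (nat_lit 3) (nat_lit 136) (nat_lit 3) (nat_lit 136) (nat_lit 5) (nat_lit 459) (nat_lit 459) (nat_lit 282))) (XT.nd (nat_lit 78) (nat_lit 0) (nat_lit 76) (XT.lf (nat_lit 76) (nat_lit 11648602088) (nat_lit 0) (nat_lit 13160217733) (nat_lit 836) (nat_lit 49297290689) (nat_lit 126) (nat_lit 5) (nat_lit 125) (nat_lit 3) (nat_lit 136) (nat_lit 5) (nat_lit 460) (nat_lit 459) (nat_lit 281)) (XT.lf (nat_lit 0) (nat_lit 26426193082) (nat_lit 760) (nat_lit 26276860689) (nat_lit 836) (nat_lit 23251790308) (nat_lit 126) (nat_lit 5) (nat_lit 136) (nat_lit 5) (nat_lit 137) (nat_lit 5) (nat_lit 461) (nat_lit 459) (nat_lit 280)))))) (XT.nd (nat_lit 546) (nat_lit 1292) (nat_lit 0) (XT.nd (nat_lit 234) (nat_lit 0) (nat_lit 152) (XT.nd (nat_lit 78) (nat_lit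 0) (nat_lit 76) (XT.lf (nat_lit 76) (nat_lit 11876760226) (nat_lit 0) (nat_lit 16648098095) (nat_lit 836) (nat_lit 49351135128) (nat_lit 127) (nat_lit 5) (nat_lit 126) (nat_lit 5) (nat_lit 137) (nat_lit 5) (nat_lit 462) (nat_lit 459) (nat_lit 279)) (XT.nd (nat_lit 78) (nat_lit 0) (nat_lit 0) (XT.lf (nat_lit 0) (nat_lit 31511190391) (nat_lit 760) (nat_lit 27359532657) (nat_lit 836) (nat_lit 20983340839) (nat_lit 127) (nat_lit 5) (nat_lit 137) (nat_lit 5) (nat_lit 138) (nat_lit 5) (nat_lit 463) (nat_lit 459) (nat_lit 278)) (XT.lf (nat_lit 76) (nat_lit 13366588810) (nat_lit 0) (nat_lit 21761179395) (nat_lit 836) (nat_lit 46779223447) (nat_lit 128) (nat_lit 5) (nat_lit 127) (nat_lit 5) (nat_lit 138) (nat_lit 5) (nat_lit 464) (nat_lit 459) (nat_lit 277)))) (XT.nd (nat_lit 156) (nat_lit 0) (nat_lit 76) (XT.nd (nat_lit 78) (nat_lit 0) (nat_lit 0) (XT.lf (nat_lit 0) (nat_lit 39664065988) (nat_lit 760)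 (nat_lit 27237204532) (nat_lit 836) (nat_lit 17124350984) (nat_lit 128) (nat_lit 5) (nat_lit 138) (nat_lit 5) (nat_lit 139) (nat_lit 5) (nat_lit 465) (nat_lit 459) (nat_lit 276)) (XT.lf (nat_lit 76) (nat_lit 16295506659) (nat_lit 0) (nat_lit 28742210338) (nat_lit 836) (nat_lit 41181939174) (nat_lit 129) (nat_lit 5) (nat_lit 128) (nat_lit 5) (nat_lit 139) (nat_lit 5) (nat_lit 466) (nat_lit 459) (nat_lit 275))) (XT.nd (nat_lit 78) (nat_lit 0) (nat_lit 0) (XT.lf (nat_lit 0) (nat_lit 51325103398) (nat_lit 760) (nat_lit 25734724196) (nat_lit 836) (nat_lit 11431312562) (nat_lit 129) (nat_lit 5) (nat_lit 139) (nat_lit 5) (nat_lit 140) (nat_lit 5) (nat_lit 467) (nat_lit 459) (nat_lit 274)) (XT.lf (nat_lit 76) (nat_lit 20860178662) (nat_lit 0) (nat_lit 37862982277) (nat_lit 836) (nat_lit 32113222526) (nat_lit 130) (nat_lit 5) (nat_lit 129) (nat_lit 5) (nat_lit 140) (nat_lit 5) (nat_lit 468) (nat_lit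 459) (nat_lit 273))))) (XT.nd (nat_lit 234) (nat_lit 836) (nat_lit 0) (XT.nd (nat_lit 78) (nat_lit 760) (nat_lit 0) (XT.lf (nat_lit 0) (nat_lit 66984973562) (nat_lit 760) (nat_lit 22657875413) (nat_lit 76) (nat_lit 3631347561) (nat_lit 130) (nat_lit 5) (nat_lit 140) (nat_lit 5) (nat_lit 131) (nat_lit 5) (nat_lit 469) (nat_lit 459) (nat_lit 272)) (XT.nd (nat_lit 78) (nat_lit 0) (nat_lit 0) (XT.lf (nat_lit 0) (nat_lit 27278276819) (nat_lit 760) (nat_lit 49427674470) (nat_lit 836) (nat_lit 19075645445) (nat_lit 120) (nat_lit 5) (nat_lit 130) (nat_lit 5) (nat_lit 131) (nat_lit 5) (nat_lit 470) (nat_lit 459) (nat_lit 271)) (XT.lf (nat_lit 0) (nat_lit 80497410209) (nat_lit 760) (nat_lit 6798786931) (nat_lit 836) (nat_lit 11099009028) (nat_lit 120) (nat_lit 5) (nat_lit 130) (nat_lit 5) (nat_lit 131) (nat_lit 5) (nat_lit 471) (nat_lit 459) (nat_lit 270)))) (XT.nd (nat_lit 156) (nat_lit 380) (nat_lit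 0) (XT.nd (nat_lit 78) (nat_lit 76) (nat_lit 0) (XT.lf (nat_lit 0) (nat_lit 35790373779) (nat_lit 380) (nat_lit 63776577430) (nat_lit 456) (nat_lit 1514995245) (nat_lit 115) (nat_lit 5) (nat_lit 120) (nat_lit 5) (nat_lit 121) (nat_lit 5) (nat_lit 472) (nat_lit 459) (nat_lit 269)) (XT.lf (nat_lit 0) (nat_lit 8693684911) (nat_lit 456) (nat_lit 11353899542) (nat_lit 76) (nat_lit 83827813278) (nat_lit 114) (nat_lit 5) (nat_lit 120) (nat_lit 5) (nat_lit 115) (nat_lit 5) (nat_lit 473) (nat_lit 459) (nat_lit 268))) (XT.nd (nat_lit 78) (nat_lit 0) (nat_lit 0) (XT.lf (nat_lit 0) (nat_lit 20507605783) (nat_lit 456) (nat_lit 60435326418) (nat_lit 76) (nat_lit 25807061700) (nat_lit 109) (nat_lit 5) (nat_lit 115) (nat_lit 5) (nat_lit 110) (nat_lit 5) (nat_lit 474) (nat_lit 459) (nat_lit 267)) (XT.lf (nat_lit 0) (nat_lit 33435874138) (nat_lit 456) (nat_lit 2830122529) (nat_lit 76) (nat_lit 73476140788) (nat_lit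 109) (nat_lit 5) (nat_lit 115) (nat_lit 5) (nat_lit 110) (nat_lit 5) (nat_lit 475) (nat_lit 459) (nat_lit 266))))))) (XT.nd (nat_lit 1092) (nat_lit 1748) (nat_lit 0) (XT.nd (nat_lit 546) (nat_lit 1064) (nat_lit 0) (XT.nd (nat_lit 234) (nat_lit 608) (nat_lit 0) (XT.nd (nat_lit 78) (nat_lit 304) (nat_lit 0) (XT.lf (nat_lit 0) (nat_lit 48121499971) (nat_lit 456) (nat_lit 53457617555) (nat_lit 76) (nat_lit 11249223596) (nat_lit 104) (nat_lit 5) (nat_lit 110) (nat_lit 5) (nat_lit 105) (nat_lit 5) (nat_lit 476) (nat_lit 459) (nat_lit 265)) (XT.nd (nat_lit 78) (nat_lit 0) (nat_lit 0) (XT.lf (nat_lit 0) (nat_lit 8386053781) (nat_lit 304) (nat_lit 55929122487) (nat_lit 380) (nat_lit 51714990381) (nat_lit 100) (nat_lit 5) (nat_lit 104) (nat_lit 5) (nat_lit 105) (nat_lit 5) (nat_lit 477) (nat_lit 459) (nat_lit 264)) (XT.lf (nat_lit 0) (nat_lit 75177392749) (nat_lit 304) (nat_lit 7046086001) (nat_lit 380)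 (nat_lit 37123357710) (nat_lit 100) (nat_lit 5) (nat_lit 104) (nat_lit 5) (nat_lit 105) (nat_lit 5) (nat_lit 478) (nat_lit 459) (nat_lit 263)))) (XT.nd (nat_lit 156) (nat_lit 304) (nat_lit 0) (XT.nd (nat_lit 78) (nat_lit 0) (nat_lit 0) (XT.lf (nat_lit 0) (nat_lit 22507548553) (nat_lit 304) (nat_lit 79562035231) (nat_lit 380) (nat_lit 20707636726) (nat_lit 96) (nat_lit 5) (nat_lit 100) (nat_lit 5) (nat_lit 101) (nat_lit 5) (nat_lit 479) (nat_lit 459) (nat_lit 262)) (XT.lf (nat_lit 0) (nat_lit 93932091644) (nat_lit 304) (nat_lit 29837220171) (nat_lit 380) (nat_lit 2566746174) (nat_lit 96) (nat_lit 5) (nat_lit 100) (nat_lit 5) (nat_lit 101) (nat_lit 5) (nat_lit 480) (nat_lit 459) (nat_lit 261))) (XT.nd (nat_lit 78) (nat_lit 0) (nat_lit 0) (XT.lf (nat_lit 0) (nat_lit 16939617386) (nat_lit 304) (nat_lit 90519119853) (nat_lit 76) (nat_lit 22551937859) (nat_lit 92) (nat_lit 5) (nat_lit 96) (nat_lit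 5) (nat_lit 93) (nat_lit 5) (nat_lit 481) (nat_lit 459) (nat_lit 260)) (XT.lf (nat_lit 0) (nat_lit 38381608106) (nat_lit 304) (nat_lit 18275380845) (nat_lit 76) (nat_lit 77157601895) (nat_lit 92) (nat_lit 5) (nat_lit 96) (nat_lit 5) (nat_lit 93) (nat_lit 5) (nat_lit 482) (nat_lit 459) (nat_lit 259))))) (XT.nd (nat_lit 234) (nat_lit 532) (nat_lit 0) (XT.nd (nat_lit 78) (nat_lit 228) (nat_lit 0) (XT.lf (nat_lit 0) (nat_lit 59483991781) (nat_lit 304) (nat_lit 2340095097) (nat_lit 380) (nat_lit 75938196174) (nat_lit 88) (nat_lit 5) (nat_lit 92) (nat_lit 5) (nat_lit 93) (nat_lit 5) (nat_lit 483) (nat_lit 459) (nat_lit 258)) (XT.nd (nat_lit 78) (nat_lit 228) (nat_lit 0) (XT.lf (nat_lit 0) (nat_lit 87606855584) (nat_lit 380) (nat_lit 985471273) (nat_lit 76) (nat_lit 53256624801) (nat_lit 88) (nat_lit 5) (nat_lit 93) (nat_lit 5) (nat_lit 89) (nat_lit 5) (nat_lit 484) (nat_lit 459) (nat_lit 257)) (XT.lf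 (nat_lit 0) (nat_lit 82782793639) (nat_lit 228) (nat_lit 33226502067) (nat_lit 304) (nat_lit 30064131424) (nat_lit 85) (nat_lit 5) (nat_lit 88) (nat_lit 5) (nat_lit 89) (nat_lit 5) (nat_lit 485) (nat_lit 459) (nat_lit 256)))) (XT.nd (nat_lit 156) (nat_lit 228) (nat_lit 0) (XT.nd (nat_lit 78) (nat_lit 76) (nat_lit 0) (XT.lf (nat_lit 0) (nat_lit 20533019918) (nat_lit 228) (nat_lit 126024962534) (nat_lit 304) (nat_lit 3914837776) (nat_lit 82) (nat_lit 5) (nat_lit 85) (nat_lit 5) (nat_lit 86) (nat_lit 5) (nat_lit 486) (nat_lit 459) (nat_lit 255)) (XT.lf (nat_lit 0) (nat_lit 24422266695) (nat_lit 304) (nat_lit 45223659831) (nat_lit 76) (nat_lit 85346187028) (nat_lit 81) (nat_lit 5) (nat_lit 85) (nat_lit 5) (nat_lit 82) (nat_lit 5) (nat_lit 487) (nat_lit 459) (nat_lit 254))) (XT.nd (nat_lit 78) (nat_lit 0) (nat_lit 0) (XT.lf (nat_lit 0) (nat_lit 45107439227) (nat_lit 228) (nat_lit 9641199271) (nat_lit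 304) (nat_lit 104950325420) (nat_lit 78) (nat_lit 5) (nat_lit 81) (nat_lit 5) (nat_lit 82) (nat_lit 5) (nat_lit 488) (nat_lit 459) (nat_lit 253)) (XT.lf (nat_lit 0) (nat_lit 88202655059) (nat_lit 304) (nat_lit 23923815400) (nat_lit 76) (nat_lit 52434120101) (nat_lit 78) (nat_lit 5) (nat_lit 82) (nat_lit 5) (nat_lit 79) (nat_lit 5) (nat_lit 489) (nat_lit 459) (nat_lit 252)))))) (XT.nd (nat_lit 546) (nat_lit 912) (nat_lit 0) (XT.nd (nat_lit 234) (nat_lit 380) (nat_lit 0) (XT.nd (nat_lit 78) (nat_lit 228) (nat_lit 0) (XT.lf (nat_lit 0) (nat_lit 73470360104) (nat_lit 228) (nat_lit 51163884162) (nat_lit 304) (nat_lit 44965810741) (nat_lit 75) (nat_lit 5) (nat_lit 78) (nat_lit 5) (nat_lit 79) (nat_lit 5) (nat_lit 490) (nat_lit 459) (nat_lit 251)) (XT.nd (nat_lit 78) (nat_lit 76) (nat_lit 0) (XT.lf (nat_lit 0) (nat_lit 1535125290) (nat_lit 152) (nat_lit 161988379500) (nat_lit 228) (nat_lit 11336183353)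 (nat_lit 73) (nat_lit 5) (nat_lit 75) (nat_lit 5) (nat_lit 76) (nat_lit 5) (nat_lit 491) (nat_lit 459) (nat_lit 250)) (XT.lf (nat_lit 0) (nat_lit 25700769678) (nat_lit 228) (nat_lit 74120451035) (nat_lit 76) (nat_lit 80417706910) (nat_lit 72) (nat_lit 5) (nat_lit 75) (nat_lit 5) (nat_lit 73) (nat_lit 5) (nat_lit 492) (nat_lit 459) (nat_lit 249)))) (XT.nd (nat_lit 156) (nat_lit 152) (nat_lit 0) (XT.nd (nat_lit 78) (nat_lit 0) (nat_lit 0) (XT.lf (nat_lit 0) (nat_lit 30844890593) (nat_lit 228) (nat_lit 33845044803) (nat_lit 304) (nat_lit 121163835023) (nat_lit 69) (nat_lit 5) (nat_lit 72) (nat_lit 5) (nat_lit 73) (nat_lit 5) (nat_lit 493) (nat_lit 459) (nat_lit 248)) (XT.lf (nat_lit 0) (nat_lit 107457327681) (nat_lit 304) (nat_lit 48628906591) (nat_lit 76) (nat_lit 35571682719) (nat_lit 69) (nat_lit 5) (nat_lit 73) (nat_lit 5) (nat_lit 70) (nat_lit 5) (nat_lit 494) (nat_lit 459) (nat_lit 247)))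 (XT.nd (nat_lit 78) (nat_lit 0) (nat_lit 0) (XT.lf (nat_lit 0) (nat_lit 64581900511) (nat_lit 152) (nat_lit 89344105368) (nat_lit 228) (nat_lit 43748119244) (nat_lit 67) (nat_lit 5) (nat_lit 69) (nat_lit 5) (nat_lit 70) (nat_lit 5) (nat_lit 495) (nat_lit 459) (nat_lit 246)) (XT.lf (nat_lit 0) (nat_lit 185141187350) (nat_lit 152) (nat_lit 18400265050) (nat_lit 228) (nat_lit 408524589) (nat_lit 67) (nat_lit 5) (nat_lit 69) (nat_lit 5) (nat_lit 70) (nat_lit 5) (nat_lit 496) (nat_lit 459) (nat_lit 245))))) (XT.nd (nat_lit 312) (nat_lit 380) (nat_lit 0) (XT.nd (nat_lit 156) (nat_lit 152) (nat_lit 0) (XT.nd (nat_lit 78) (nat_lit 152) (nat_lit 0) (XT.lf (nat_lit 0) (nat_lit 46188977569) (nat_lit 228) (nat_lit 107530394681) (nat_lit 76) (nat_lit 56658326541) (nat_lit 64) (nat_lit 5) (nat_lit 67) (nat_lit 5) (nat_lit 65) (nat_lit 5) (nat_lit 497) (nat_lit 459) (nat_lit 244)) (XT.lf (nat_lit 0) (nat_lit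 14271185638) (nat_lit 152) (nat_lit 81679445190) (nat_lit 228) (nat_lit 121133440783) (nat_lit 62) (nat_lit 5) (nat_lit 64) (nat_lit 5) (nat_lit 65) (nat_lit 5) (nat_lit 498) (nat_lit 459) (nat_lit 243))) (XT.nd (nat_lit 78) (nat_lit 152) (nat_lit 0) (XT.lf (nat_lit 0) (nat_lit 145895722870) (nat_lit 152) (nat_lit 4125518255) (nat_lit 228) (nat_lit 74013478266) (nat_lit 62) (nat_lit 5) (nat_lit 64) (nat_lit 5) (nat_lit 65) (nat_lit 5) (nat_lit 499) (nat_lit 459) (nat_lit 242)) (XT.lf (nat_lit 0) (nat_lit 53266145228) (nat_lit 152) (nat_lit 155567638402) (nat_lit 228) (nat_lit 22397195880) (nat_lit 60) (nat_lit 5) (nat_lit 62) (nat_lit 5) (nat_lit 63) (nat_lit 5) (nat_lit 500) (nat_lit 459) (nat_lit 241)))) (XT.nd (nat_lit 156) (nat_lit 152) (nat_lit 0) (XT.nd (nat_lit 78) (nat_lit 152) (nat_lit 0) (XT.lf (nat_lit 0) (nat_lit 32194556285) (nat_lit 228) (nat_lit 45352671552) (nat_lit 76) (nat_lit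 161144378000) (nat_lit 59) (nat_lit 5) (nat_lit 62) (nat_lit 5) (nat_lit 60) (nat_lit 5) (nat_lit 501) (nat_lit 459) (nat_lit 240)) (XT.lf (nat_lit 0) (nat_lit 90370485303) (nat_lit 228) (nat_lit 149915631921) (nat_lit 76) (nat_lit 6140423834) (nat_lit 57) (nat_lit 5) (nat_lit 60) (nat_lit 5) (nat_lit 58) (nat_lit 5) (nat_lit 502) (nat_lit 459) (nat_lit 239))) (XT.nd (nat_lit 78) (nat_lit 152) (nat_lit 0) (XT.lf (nat_lit 0) (nat_lit 153506953126) (nat_lit 228) (nat_lit 8751780024) (nat_lit 76) (nat_lit 92186902801) (nat_lit 57) (nat_lit 5) (nat_lit 60) (nat_lit 5) (nat_lit 58) (nat_lit 5) (nat_lit 503) (nat_lit 459) (nat_lit 238)) (XT.lf (nat_lit 0) (nat_lit 144081472012) (nat_lit 152) (nat_lit 77968112261) (nat_lit 228) (nat_lit 40703634348) (nat_lit 55) (nat_lit 5) (nat_lit 57) (nat_lit 5) (nat_lit 58) (nat_lit 5) (nat_lit 504) (nat_lit 459) (nat_lit 237))))))))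
noncomputable def xc212 : XT := (XT.nd (nat_lit 2184) (nat_lit 304) (nat_lit 0) (XT.nd (nat_lit 1092) (nat_lit 760) (nat_lit 0) (XT.nd (nat_lit 546) (nat_lit 608) (nat_lit 0) (XT.nd (nat_lit 234) (nat_lit 304) (nat_lit 0) (XT.nd (nat_lit 78) (nat_lit 152) (nat_lit 0) (XT.lf (nat_lit 0) (nat_lit 22686451687) (nat_lit 228) (nat_lit 237476790098) (nat_lit 76) (nat_lit 11252100202) (nat_lit 52) (nat_lit 5) (nat_lit 55) (nat_lit 5) (nat_lit 53) (nat_lit 5) (nat_lit 505) (nat_lit 459) (nat_lit 236)) (XT.nd (nat_lit 78) (nat_lit 152) (nat_lit 0) (XT.lf (nat_lit 0) (nat_lit 91198836220) (nat_lit 228) (nat_lit 84089390496) (nat_lit 76) (nat_lit 105022946034) (nat_lit 52) (nat_lit 5) (nat_lit 55) (nat_lit 5) (nat_lit 53) (nat_lit 5) (nat_lit 506) (nat_lit 459) (nat_lit 235)) (XT.lf (nat_lit 0) (nat_lit 79511970980) (nat_lit 152) (nat_lit 84866108984) (nat_lit 228) (nat_lit 125211653110) (nat_lit 50)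 (nat_lit 5) (nat_lit 52) (nat_lit 5) (nat_lit 53) (nat_lit 5) (nat_lit 507) (nat_lit 459) (nat_lit 234)))) (XT.nd (nat_lit 156) (nat_lit 152) (nat_lit 0) (XT.nd (nat_lit 78) (nat_lit 152) (nat_lit 0) (XT.lf (nat_lit 0) (nat_lit 242820895034) (nat_lit 228) (nat_lit 45229189492) (nat_lit 76) (nat_lit 11201906453) (nat_lit 50) (nat_lit 5) (nat_lit 53) (nat_lit 5) (nat_lit 51) (nat_lit 4) (nat_lit 508) (nat_lit 459) (nat_lit 233)) (XT.lf (nat_lit 0) (nat_lit 18770339281) (nat_lit 152) (nat_lit 178876594989) (nat_lit 76) (nat_lit 111563743380) (nat_lit 48) (nat_lit 5) (nat_lit 50) (nat_lit 5) (nat_lit 49) (nat_lit 5) (nat_lit 509) (nat_lit 459) (nat_lit 232))) (XT.nd (nat_lit 78) (nat_lit 152) (nat_lit 0) (XT.lf (nat_lit 0) (nat_lit 96613771868) (nat_lit 152) (nat_lit 4321159143) (nat_lit 76) (nat_lit 218647193641) (nat_lit 48) (nat_lit 5) (nat_lit 50) (nat_lit 5) (nat_lit 49) (nat_lit 5) (nat_lit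 510) (nat_lit 459) (nat_lit 231)) (XT.lf (nat_lit 0) (nat_lit 181292592177) (nat_lit 228) (nat_lit 145505640162) (nat_lit 76) (nat_lit 3526750879) (nat_lit 46) (nat_lit 5) (nat_lit 49) (nat_lit 5) (nat_lit 47) (nat_lit 4) (nat_lit 511) (nat_lit 459) (nat_lit 230))))) (XT.nd (nat_lit 234) (nat_lit 304) (nat_lit 0) (XT.nd (nat_lit 78) (nat_lit 228) (nat_lit 0) (XT.lf (nat_lit 0) (nat_lit 41642242464) (nat_lit 76) (nat_lit 230942168548) (nat_lit 152) (nat_lit 68901620842) (nat_lit 45) (nat_lit 5) (nat_lit 46) (nat_lit 5) (nat_lit 47) (nat_lit 4) (nat_lit 512) (nat_lit 459) (nat_lit 229)) (XT.nd (nat_lit 78) (nat_lit 152) (nat_lit 0) (XT.lf (nat_lit 0) (nat_lit 17252510321) (nat_lit 152) (nat_lit 110161309484) (nat_lit 76) (nat_lit 225654196562) (nat_lit 44) (nat_lit 5) (nat_lit 46) (nat_lit 5) (nat_lit 45) (nat_lit 5) (nat_lit 513) (nat_lit 459) (nat_lit 228)) (XT.lf (nat_lit 0) (nat_lit 90781068566)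 (nat_lit 152) (nat_lit 16034941366) (nat_lit 228) (nat_lit 258285753042) (nat_lit 42) (nat_lit 5) (nat_lit 44) (nat_lit 5) (nat_lit 45) (nat_lit 5) (nat_lit 514) (nat_lit 459) (nat_lit 227)))) (XT.nd (nat_lit 156) (nat_lit 228) (nat_lit 0) (XT.nd (nat_lit 78) (nat_lit 76) (nat_lit 0) (XT.lf (nat_lit 0) (nat_lit 204329298918) (nat_lit 228) (nat_lit 73655167996) (nat_lit 76) (nat_lit 99579149292) (nat_lit 42) (nat_lit 5) (nat_lit 45) (nat_lit 5) (nat_lit 43) (nat_lit 4) (nat_lit 515) (nat_lit 459) (nat_lit 226)) (XT.lf (nat_lit 0) (nat_lit 141303107591) (nat_lit 76) (nat_lit 167884018974) (nat_lit 152) (nat_lit 81337991838) (nat_lit 41) (nat_lit 5) (nat_lit 42) (nat_lit 5) (nat_lit 43) (nat_lit 4) (nat_lit 516) (nat_lit 459) (nat_lit 225))) (XT.nd (nat_lit 78) (nat_lit 152) (nat_lit 0) (XT.lf (nat_lit 0) (nat_lit 15935858546) (nat_lit 152) (nat_lit 34763162026) (nat_lit 76) (nat_lit 353360460788)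 (nat_lit 40) (nat_lit 5) (nat_lit 42) (nat_lit 5) (nat_lit 41) (nat_lit 5) (nat_lit 517) (nat_lit 459) (nat_lit 224)) (XT.lf (nat_lit 0) (nat_lit 119590910223) (nat_lit 228) (nat_lit 223915782550) (nat_lit 76) (nat_lit 74484649284) (nat_lit 38) (nat_lit 5) (nat_lit 41) (nat_lit 5) (nat_lit 39) (nat_lit 4) (nat_lit 518) (nat_lit 459) (nat_lit 223)))))) (XT.nd (nat_lit 546) (nat_lit 304) (nat_lit 0) (XT.nd (nat_lit 234) (nat_lit 228) (nat_lit 0) (XT.nd (nat_lit 78) (nat_lit 152) (nat_lit 0) (XT.lf (nat_lit 0) (nat_lit 2202227718) (nat_lit 76) (nat_lit 227690259721) (nat_lit 152) (nat_lit 202654119714) (nat_lit 37) (nat_lit 5) (nat_lit 38) (nat_lit 5) (nat_lit 39) (nat_lit 4) (nat_lit 519) (nat_lit 459) (nat_lit 222)) (XT.nd (nat_lit 78) (nat_lit 152) (nat_lit 0) (XT.lf (nat_lit 0) (nat_lit 247399761705) (nat_lit 76) (nat_lit 102101382511) (nat_lit 152) (nat_lit 98138891264) (nat_lit 37) (nat_lit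 5) (nat_lit 38) (nat_lit 5) (nat_lit 39) (nat_lit 4) (nat_lit 520) (nat_lit 459) (nat_lit 221)) (XT.lf (nat_lit 0) (nat_lit 12373562503) (nat_lit 152) (nat_lit 421374945658) (nat_lit 76) (nat_lit 29673429832) (nat_lit 35) (nat_lit 5) (nat_lit 37) (nat_lit 5) (nat_lit 36) (nat_lit 4) (nat_lit 521) (nat_lit 459) (nat_lit 220)))) (XT.nd (nat_lit 156) (nat_lit 152) (nat_lit 0) (XT.nd (nat_lit 78) (nat_lit 76) (nat_lit 0) (XT.lf (nat_lit 0) (nat_lit 130233963730) (nat_lit 152) (nat_lit 179761306627) (nat_lit 76) (nat_lit 169661201819) (nat_lit 35) (nat_lit 5) (nat_lit 37) (nat_lit 5) (nat_lit 36) (nat_lit 4) (nat_lit 522) (nat_lit 459) (nat_lit 219)) (XT.lf (nat_lit 0) (nat_lit 76377356393) (nat_lit 76) (nat_lit 178802381857) (nat_lit 152) (nat_lit 241463377163) (nat_lit 34) (nat_lit 5) (nat_lit 35) (nat_lit 5) (nat_lit 36) (nat_lit 4) (nat_lit 523) (nat_lit 459) (nat_lit 218))) (XT.nd (nat_lit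 78) (nat_lit 152) (nat_lit 0) (XT.lf (nat_lit 0) (nat_lit 351563652257) (nat_lit 76) (nat_lit 37853384670) (nat_lit 152) (nat_lit 124909842122) (nat_lit 34) (nat_lit 5) (nat_lit 35) (nat_lit 5) (nat_lit 36) (nat_lit 4) (nat_lit 524) (nat_lit 459) (nat_lit 217)) (XT.lf (nat_lit 0) (nat_lit 1036003973) (nat_lit 152) (nat_lit 423344222279) (nat_lit 76) (nat_lit 108342393456) (nat_lit 32) (nat_lit 5) (nat_lit 34) (nat_lit 5) (nat_lit 33) (nat_lit 4) (nat_lit 525) (nat_lit 459) (nat_lit 216))))) (XT.nd (nat_lit 234) (nat_lit 228) (nat_lit 0) (XT.nd (nat_lit 78) (nat_lit 76) (nat_lit 0) (XT.lf (nat_lit 0) (nat_lit 132503456695) (nat_lit 152) (nat_lit 153836087963) (nat_lit 76) (nat_lit 265425112427) (nat_lit 32) (nat_lit 5) (nat_lit 34) (nat_lit 5) (nat_lit 33) (nat_lit 4) (nat_lit 526) (nat_lit 459) (nat_lit 215)) (XT.nd (nat_lit 78) (nat_lit 0) (nat_lit 0) (XT.lf (nat_lit 0) (nat_lit 133417453243)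 (nat_lit 76) (nat_lit 139209748878) (nat_lit 152) (nat_lit 299027448214) (nat_lit 31) (nat_lit 5) (nat_lit 32) (nat_lit 5) (nat_lit 33) (nat_lit 4) (nat_lit 527) (nat_lit 459) (nat_lit 214)) (XT.lf (nat_lit 0) (nat_lit 422643542756) (nat_lit 152) (nat_lit 152315776875) (nat_lit 0) (nat_lit 17435503226) (nat_lit 31) (nat_lit 5) (nat_lit 33) (nat_lit 4) (nat_lit 31) (nat_lit 4) (nat_lit 528) (nat_lit 459) (nat_lit 213)))) (XT.nd (nat_lit 156) (nat_lit 76) (nat_lit 0) (XT.nd (nat_lit 78) (nat_lit 76) (nat_lit 0) (XT.lf (nat_lit 0) (nat_lit 150434239640) (nat_lit 76) (nat_lit 434357192787) (nat_lit 76) (nat_lit 29149034983) (nat_lit 30) (nat_lit 4) (nat_lit 31) (nat_lit 5) (nat_lit 31) (nat_lit 4) (nat_lit 529) (nat_lit 459) (nat_lit 212)) (XT.lf (nat_lit 0) (nat_lit 117312850166) (nat_lit 152) (nat_lit 164716927606) (nat_lit 76) (nat_lit 354310036888) (nat_lit 29) (nat_lit 5) (nat_lit 31) (nat_lit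 5) (nat_lit 30) (nat_lit 4) (nat_lit 530) (nat_lit 459) (nat_lit 211))) (XT.nd (nat_lit 78) (nat_lit 0) (nat_lit 0) (XT.lf (nat_lit 0) (nat_lit 153445008789) (nat_lit 76) (nat_lit 119068838291) (nat_lit 152) (nat_lit 387201608735) (nat_lit 28) (nat_lit 5) (nat_lit 29) (nat_lit 5) (nat_lit 30) (nat_lit 4) (nat_lit 531) (nat_lit 459) (nat_lit 210)) (XT.lf (nat_lit 0) (nat_lit 439122587715) (nat_lit 152) (nat_lit 191745156906) (nat_lit 0) (nat_lit 53209749718) (nat_lit 28) (nat_lit 5) (nat_lit 30) (nat_lit 4) (nat_lit 28) (nat_lit 4) (nat_lit 532) (nat_lit 459) (nat_lit 209))))))) (XT.nd (nat_lit 57486) (nat_lit 0) (nat_lit 5168) (XT.nd (nat_lit 56940) (nat_lit 0) (nat_lit 7752) (XT.nd (nat_lit 234) (nat_lit 76) (nat_lit 0) (XT.nd (nat_lit 78) (nat_lit 152) (nat_lit 0) (XT.lf (nat_lit 0) (nat_lit 141069384520) (nat_lit 76) (nat_lit 477146731701) (nat_lit 76) (nat_lit 91233801031) (nat_lit 27)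 (nat_lit 4) (nat_lit 28) (nat_lit 5) (nat_lit 28) (nat_lit 4) (nat_lit 533) (nat_lit 459) (nat_lit 208)) (XT.nd (nat_lit 78) (nat_lit 76) (nat_lit 0) (XT.lf (nat_lit 0) (nat_lit 71227819848) (nat_lit 152) (nat_lit 239895988238) (nat_lit 76) (nat_lit 424747350800) (nat_lit 26) (nat_lit 5) (nat_lit 28) (nat_lit 5) (nat_lit 27) (nat_lit 4) (nat_lit 534) (nat_lit 459) (nat_lit 207)) (XT.lf (nat_lit 0) (nat_lit 106939727988) (nat_lit 76) (nat_lit 133476287120) (nat_lit 152) (nat_lit 523039188329) (nat_lit 25) (nat_lit 5) (nat_lit 26) (nat_lit 5) (nat_lit 27) (nat_lit 4) (nat_lit 535) (nat_lit 459) (nat_lit 206)))) (XT.nd (nat_lit 56550) (nat_lit 0) (nat_lit 7676) (XT.nd (nat_lit 78) (nat_lit 76) (nat_lit 0) (XT.lf (nat_lit 0) (nat_lit 423021211553) (nat_lit 152) (nat_lit 313664512339) (nat_lit 0) (nat_lit 55484846756) (nat_lit 25) (nat_lit 5) (nat_lit 27) (nat_lit 4) (nat_lit 25) (nat_lit 4) (nat_lit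 536) (nat_lit 459) (nat_lit 205)) (XT.lf (nat_lit 0) (nat_lit 45600203089) (nat_lit 76) (nat_lit 572056470136) (nat_lit 76) (nat_lit 204520032728) (nat_lit 24) (nat_lit 4) (nat_lit 25) (nat_lit 5) (nat_lit 25) (nat_lit 4) (nat_lit 537) (nat_lit 459) (nat_lit 204))) (XT.nd (nat_lit 78) (nat_lit 0) (nat_lit 0) (XT.lf (nat_lit 0) (nat_lit 12619587460) (nat_lit 836) (nat_lit 12670783526) (nat_lit 836) (nat_lit 12670783526) (nat_lit 125) (nat_lit 3) (nat_lit 136) (nat_lit 3) (nat_lit 136) (nat_lit 5) (nat_lit 460) (nat_lit 460) (nat_lit 280)) (XT.lf (nat_lit 76) (nat_lit 12243490324) (nat_lit 0) (nat_lit 13828926759) (nat_lit 836) (nat_lit 51737832206) (nat_lit 126) (nat_lit 5) (nat_lit 125) (nat_lit 3) (nat_lit 136) (nat_lit 5) (nat_lit 461) (nat_lit 460) (nat_lit 279))))) (XT.nd (nat_lit 234) (nat_lit 0) (nat_lit 76) (XT.nd (nat_lit 78) (nat_lit 0) (nat_lit 0) (XT.lf (nat_lit 0) (nat_lit 27769397252)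 (nat_lit 760) (nat_lit 27577568575) (nat_lit 836) (nat_lit 24404517221) (nat_lit 126) (nat_lit 5) (nat_lit 136) (nat_lit 5) (nat_lit 137) (nat_lit 5) (nat_lit 462) (nat_lit 460) (nat_lit 278)) (XT.nd (nat_lit 78) (nat_lit 0) (nat_lit 76) (XT.lf (nat_lit 76) (nat_lit 12483521529) (nat_lit 0) (nat_lit 17488633397) (nat_lit 836) (nat_lit 51796577408) (nat_lit 127) (nat_lit 5) (nat_lit 126) (nat_lit 5) (nat_lit 137) (nat_lit 5) (nat_lit 463) (nat_lit 460) (nat_lit 277)) (XT.lf (nat_lit 0) (nat_lit 33106680149) (nat_lit 760) (nat_lit 28714070225) (nat_lit 836) (nat_lit 22025012477) (nat_lit 127) (nat_lit 5) (nat_lit 137) (nat_lit 5) (nat_lit 138) (nat_lit 5) (nat_lit 464) (nat_lit 460) (nat_lit 276)))) (XT.nd (nat_lit 156) (nat_lit 0) (nat_lit 76) (XT.nd (nat_lit 78) (nat_lit 0) (nat_lit 76) (XT.lf (nat_lit 76) (nat_lit 14048140556) (nat_lit 0) (nat_lit 22855203677) (nat_lit 836) (nat_lit 49098030272)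 (nat_lit 128) (nat_lit 5) (nat_lit 127) (nat_lit 5) (nat_lit 138) (nat_lit 5) (nat_lit 465) (nat_lit 460) (nat_lit 275)) (XT.lf (nat_lit 0) (nat_lit 41665454509) (nat_lit 760) (nat_lit 28585462691) (nat_lit 836) (nat_lit 17975069119) (nat_lit 128) (nat_lit 5) (nat_lit 138) (nat_lit 5) (nat_lit 139) (nat_lit 5) (nat_lit 466) (nat_lit 460) (nat_lit 274))) (XT.nd (nat_lit 78) (nat_lit 0) (nat_lit 76) (XT.lf (nat_lit 76) (nat_lit 17123664671) (nat_lit 0) (nat_lit 30183466374) (nat_lit 836) (nat_lit 43222624857) (nat_lit 129) (nat_lit 5) (nat_lit 128) (nat_lit 5) (nat_lit 139) (nat_lit 5) (nat_lit 467) (nat_lit 460) (nat_lit 273)) (XT.lf (nat_lit 0) (nat_lit 53907990450) (nat_lit 760) (nat_lit 27007812330) (nat_lit 836) (nat_lit 11999056440) (nat_lit 129) (nat_lit 5) (nat_lit 139) (nat_lit 5) (nat_lit 140) (nat_lit 5) (nat_lit 468) (nat_lit 460) (nat_lit 272)))))) (XT.nd (nat_lit 546) (nat_lit 1292)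 (nat_lit 0) (XT.nd (nat_lit 234) (nat_lit 836) (nat_lit 0) (XT.nd (nat_lit 78) (nat_lit 684) (nat_lit 0) (XT.lf (nat_lit 76) (nat_lit 21916615540) (nat_lit 0) (nat_lit 39758752981) (nat_lit 836) (nat_lit 33702025594) (nat_lit 130) (nat_lit 5) (nat_lit 129) (nat_lit 5) (nat_lit 140) (nat_lit 5) (nat_lit 469) (nat_lit 460) (nat_lit 271)) (XT.nd (nat_lit 78) (nat_lit 760) (nat_lit 0) (XT.lf (nat_lit 0) (nat_lit 70349468531) (nat_lit 760) (nat_lit 23777171661) (nat_lit 76) (nat_lit 3810498099) (nat_lit 130) (nat_lit 5) (nat_lit 140) (nat_lit 5) (nat_lit 131) (nat_lit 5) (nat_lit 470) (nat_lit 460) (nat_lit 270)) (XT.lf (nat_lit 0) (nat_lit 28655568868) (nat_lit 760) (nat_lit 51900409134) (nat_lit 836) (nat_lit 20013956628) (nat_lit 120) (nat_lit 5) (nat_lit 130) (nat_lit 5) (nat_lit 131) (nat_lit 5) (nat_lit 471) (nat_lit 460) (nat_lit 269)))) (XT.nd (nat_lit 156) (nat_lit 456) (nat_lit 0) (XT.nd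 (nat_lit 78) (nat_lit 380) (nat_lit 0) (XT.lf (nat_lit 0) (nat_lit 84535021870) (nat_lit 760) (nat_lit 7140012887) (nat_lit 836) (nat_lit 11639225108) (nat_lit 120) (nat_lit 5) (nat_lit 130) (nat_lit 5) (nat_lit 131) (nat_lit 5) (nat_lit 472) (nat_lit 460) (nat_lit 268)) (XT.lf (nat_lit 0) (nat_lit 37593143095) (nat_lit 380) (nat_lit 66965703195) (nat_lit 456) (nat_lit 1576515137) (nat_lit 115) (nat_lit 5) (nat_lit 120) (nat_lit 5) (nat_lit 121) (nat_lit 5) (nat_lit 473) (nat_lit 460) (nat_lit 267))) (XT.nd (nat_lit 78) (nat_lit 380) (nat_lit 0) (XT.lf (nat_lit 0) (nat_lit 9141487658) (nat_lit 456) (nat_lit 11908536606) (nat_lit 76) (nat_lit 88018482917) (nat_lit 114) (nat_lit 5) (nat_lit 120) (nat_lit 5) (nat_lit 115) (nat_lit 5) (nat_lit 474) (nat_lit 460) (nat_lit 266)) (XT.lf (nat_lit 0) (nat_lit 21545682853) (nat_lit 456) (nat_lit 63443608807) (nat_lit 76) (nat_lit 27097562800) (nat_lit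 109) (nat_lit 5) (nat_lit 115) (nat_lit 5) (nat_lit 110) (nat_lit 5) (nat_lit 475) (nat_lit 460) (nat_lit 265))))) (XT.nd (nat_lit 234) (nat_lit 608) (nat_lit 0) (XT.nd (nat_lit 78) (nat_lit 684) (nat_lit 0) (XT.lf (nat_lit 0) (nat_lit 35119760016) (nat_lit 456) (nat_lit 2958786816) (nat_lit 76) (nat_lit 77150088794) (nat_lit 109) (nat_lit 5) (nat_lit 115) (nat_lit 5) (nat_lit 110) (nat_lit 5) (nat_lit 476) (nat_lit 460) (nat_lit 264)) (XT.nd (nat_lit 78) (nat_lit 304) (nat_lit 0) (XT.lf (nat_lit 0) (nat_lit 50539302968) (nat_lit 456) (nat_lit 56117288523) (nat_lit 76) (nat_lit 11812576391) (nat_lit 104) (nat_lit 5) (nat_lit 110) (nat_lit 5) (nat_lit 105) (nat_lit 5) (nat_lit 477) (nat_lit 460) (nat_lit 263)) (XT.lf (nat_lit 0) (nat_lit 8818353317) (nat_lit 304) (nat_lit 58723954203) (nat_lit 380) (nat_lit 54288795127) (nat_lit 100) (nat_lit 5) (nat_lit 104) (nat_lit 5) (nat_lit 105) (nat_lit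 5) (nat_lit 478) (nat_lit 460) (nat_lit 262)))) (XT.nd (nat_lit 156) (nat_lit 304) (nat_lit 0) (XT.nd (nat_lit 78) (nat_lit 304) (nat_lit 0) (XT.lf (nat_lit 0) (nat_lit 78948640336) (nat_lit 304) (nat_lit 7396843245) (nat_lit 380) (nat_lit 38968149621) (nat_lit 100) (nat_lit 5) (nat_lit 104) (nat_lit 5) (nat_lit 105) (nat_lit 5) (nat_lit 479) (nat_lit 460) (nat_lit 261)) (XT.lf (nat_lit 0) (nat_lit 23645616811) (nat_lit 304) (nat_lit 83537982443) (nat_lit 380) (nat_lit 21731952100) (nat_lit 96) (nat_lit 5) (nat_lit 100) (nat_lit 5) (nat_lit 101) (nat_lit 5) (nat_lit 480) (nat_lit 460) (nat_lit 260))) (XT.nd (nat_lit 78) (nat_lit 304) (nat_lit 0) (XT.lf (nat_lit 0) (nat_lit 98640782731) (nat_lit 304) (nat_lit 31327029228) (nat_lit 380) (nat_lit 2684543996) (nat_lit 96) (nat_lit 5) (nat_lit 100) (nat_lit 5) (nat_lit 101) (nat_lit 5) (nat_lit 481) (nat_lit 460) (nat_lit 259)) (XT.lf (nat_lit 0)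 (nat_lit 17796541695) (nat_lit 304) (nat_lit 95032387330) (nat_lit 76) (nat_lit 23681779747) (nat_lit 92) (nat_lit 5) (nat_lit 96) (nat_lit 5) (nat_lit 93) (nat_lit 5) (nat_lit 482) (nat_lit 460) (nat_lit 258))))))))
noncomputable def xc213 : XT := (XT.nd (nat_lit 2184) (nat_lit 1748) (nat_lit 0) (XT.nd (nat_lit 1092) (nat_lit 1444) (nat_lit 0) (XT.nd (nat_lit 546) (nat_lit 836) (nat_lit 0) (XT.nd (nat_lit 234) (nat_lit 760) (nat_lit 0) (XT.nd (nat_lit 78) (nat_lit 304) (nat_lit 0) (XT.lf (nat_lit 0) (nat_lit 40310158454) (nat_lit 304) (nat_lit 19177065588) (nat_lit 76) (nat_lit 81017620080) (nat_lit 92) (nat_lit 5) (nat_lit 96) (nat_lit 5) (nat_lit 93) (nat_lit 5) (nat_lit 483) (nat_lit 460) (nat_lit 257)) (XT.nd (nat_lit 78) (nat_lit 0) (nat_lit 0) (XT.lf (nat_lit 0) (nat_lit 62470080761) (nat_lit 304) (nat_lit 2454415080) (nat_lit 380) (nat_lit 79725438494) (nat_lit 88) (nat_lit 5) (nat_lit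 92) (nat_lit 5) (nat_lit 93) (nat_lit 5) (nat_lit 484) (nat_lit 460) (nat_lit 256)) (XT.lf (nat_lit 0) (nat_lit 91996004588) (nat_lit 380) (nat_lit 1023020699) (nat_lit 76) (nat_lit 55921931129) (nat_lit 88) (nat_lit 5) (nat_lit 93) (nat_lit 5) (nat_lit 89) (nat_lit 5) (nat_lit 485) (nat_lit 460) (nat_lit 255)))) (XT.nd (nat_lit 156) (nat_lit 304) (nat_lit 0) (XT.nd (nat_lit 78) (nat_lit 228) (nat_lit 0) (XT.lf (nat_lit 0) (nat_lit 86933468359) (nat_lit 228) (nat_lit 34884859107) (nat_lit 304) (nat_lit 31558340279) (nat_lit 85) (nat_lit 5) (nat_lit 88) (nat_lit 5) (nat_lit 89) (nat_lit 5) (nat_lit 486) (nat_lit 460) (nat_lit 254)) (XT.lf (nat_lit 0) (nat_lit 21571398105) (nat_lit 228) (nat_lit 132322869721) (nat_lit 304) (nat_lit 4101771821) (nat_lit 82) (nat_lit 5) (nat_lit 85) (nat_lit 5) (nat_lit 86) (nat_lit 5) (nat_lit 487) (nat_lit 460) (nat_lit 253))) (XT.nd (nat_lit 78) (nat_lit 228)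 (nat_lit 0) (XT.lf (nat_lit 0) (nat_lit 25651499970) (nat_lit 304) (nat_lit 47473403520) (nat_lit 76) (nat_lit 89616407678) (nat_lit 81) (nat_lit 5) (nat_lit 85) (nat_lit 5) (nat_lit 82) (nat_lit 5) (nat_lit 488) (nat_lit 460) (nat_lit 252)) (XT.lf (nat_lit 0) (nat_lit 47374065986) (nat_lit 228) (nat_lit 10119913433) (nat_lit 304) (nat_lit 110189535277) (nat_lit 78) (nat_lit 5) (nat_lit 81) (nat_lit 5) (nat_lit 82) (nat_lit 5) (nat_lit 489) (nat_lit 460) (nat_lit 251))))) (XT.nd (nat_lit 234) (nat_lit 456) (nat_lit 0) (XT.nd (nat_lit 78) (nat_lit 380) (nat_lit 0) (XT.lf (nat_lit 0) (nat_lit 92620369939) (nat_lit 304) (nat_lit 25108958571) (nat_lit 76) (nat_lit 55058910597) (nat_lit 78) (nat_lit 5) (nat_lit 82) (nat_lit 5) (nat_lit 79) (nat_lit 5) (nat_lit 490) (nat_lit 460) (nat_lit 250)) (XT.nd (nat_lit 78) (nat_lit 152) (nat_lit 0) (XT.lf (nat_lit 0) (nat_lit 77154747521) (nat_lit 228) (nat_lit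 53718599733) (nat_lit 304) (nat_lit 47206339179) (nat_lit 75) (nat_lit 5) (nat_lit 78) (nat_lit 5) (nat_lit 79) (nat_lit 5) (nat_lit 491) (nat_lit 460) (nat_lit 249)) (XT.lf (nat_lit 0) (nat_lit 1622887553) (nat_lit 152) (nat_lit 170084054869) (nat_lit 228) (nat_lit 11895365308) (nat_lit 73) (nat_lit 5) (nat_lit 75) (nat_lit 5) (nat_lit 76) (nat_lit 5) (nat_lit 492) (nat_lit 460) (nat_lit 248)))) (XT.nd (nat_lit 156) (nat_lit 152) (nat_lit 0) (XT.nd (nat_lit 78) (nat_lit 228) (nat_lit 0) (XT.lf (nat_lit 0) (nat_lit 26992839680) (nat_lit 228) (nat_lit 77815757647) (nat_lit 76) (nat_lit 84441923558) (nat_lit 72) (nat_lit 5) (nat_lit 75) (nat_lit 5) (nat_lit 73) (nat_lit 5) (nat_lit 493) (nat_lit 460) (nat_lit 247)) (XT.lf (nat_lit 0) (nat_lit 32397678225) (nat_lit 228) (nat_lit 35533615232) (nat_lit 304) (nat_lit 127214820949) (nat_lit 69) (nat_lit 5) (nat_lit 72) (nat_lit 5) (nat_lit 73) (nat_lit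 5) (nat_lit 494) (nat_lit 460) (nat_lit 246))) (XT.nd (nat_lit 78) (nat_lit 152) (nat_lit 0) (XT.lf (nat_lit 0) (nat_lit 112836783374) (nat_lit 304) (nat_lit 51050037490) (nat_lit 76) (nat_lit 37353661111) (nat_lit 69) (nat_lit 5) (nat_lit 73) (nat_lit 5) (nat_lit 70) (nat_lit 5) (nat_lit 495) (nat_lit 460) (nat_lit 245)) (XT.lf (nat_lit 0) (nat_lit 67821143606) (nat_lit 152) (nat_lit 93807596541) (nat_lit 228) (nat_lit 45928768203) (nat_lit 67) (nat_lit 5) (nat_lit 69) (nat_lit 5) (nat_lit 70) (nat_lit 5) (nat_lit 496) (nat_lit 460) (nat_lit 244)))))) (XT.nd (nat_lit 546) (nat_lit 684) (nat_lit 0) (XT.nd (nat_lit 234) (nat_lit 380) (nat_lit 0) (XT.nd (nat_lit 78) (nat_lit 380) (nat_lit 0) (XT.lf (nat_lit 0) (nat_lit 194407911544) (nat_lit 152) (nat_lit 19316741069) (nat_lit 228) (nat_lit 422515577) (nat_lit 67) (nat_lit 5) (nat_lit 69) (nat_lit 5) (nat_lit 70) (nat_lit 5) (nat_lit 497) (nat_lit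 460) (nat_lit 243)) (XT.nd (nat_lit 78) (nat_lit 152) (nat_lit 0) (XT.lf (nat_lit 0) (nat_lit 48504567383) (nat_lit 228) (nat_lit 112896952922) (nat_lit 76) (nat_lit 59494755227) (nat_lit 64) (nat_lit 5) (nat_lit 67) (nat_lit 5) (nat_lit 65) (nat_lit 5) (nat_lit 498) (nat_lit 460) (nat_lit 242)) (XT.lf (nat_lit 0) (nat_lit 14994545743) (nat_lit 152) (nat_lit 85759618155) (nat_lit 228) (nat_lit 127183810121) (nat_lit 62) (nat_lit 5) (nat_lit 64) (nat_lit 5) (nat_lit 65) (nat_lit 5) (nat_lit 499) (nat_lit 460) (nat_lit 241)))) (XT.nd (nat_lit 156) (nat_lit 228) (nat_lit 0) (XT.nd (nat_lit 78) (nat_lit 152) (nat_lit 0) (XT.lf (nat_lit 0) (nat_lit 153199843131) (nat_lit 152) (nat_lit 4328175792) (nat_lit 228) (nat_lit 77708149606) (nat_lit 62) (nat_lit 5) (nat_lit 64) (nat_lit 5) (nat_lit 65) (nat_lit 5) (nat_lit 500) (nat_lit 460) (nat_lit 240)) (XT.lf (nat_lit 0) (nat_lit 55938862679) (nat_lit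 152) (nat_lit 163342254418) (nat_lit 228) (nat_lit 23511128180) (nat_lit 60) (nat_lit 5) (nat_lit 62) (nat_lit 5) (nat_lit 63) (nat_lit 5) (nat_lit 501) (nat_lit 460) (nat_lit 239))) (XT.nd (nat_lit 78) (nat_lit 152) (nat_lit 0) (XT.lf (nat_lit 0) (nat_lit 33809748649) (nat_lit 228) (nat_lit 47611161459) (nat_lit 76) (nat_lit 169205001890) (nat_lit 59) (nat_lit 5) (nat_lit 62) (nat_lit 5) (nat_lit 60) (nat_lit 5) (nat_lit 502) (nat_lit 460) (nat_lit 238)) (XT.lf (nat_lit 0) (nat_lit 94894411366) (nat_lit 228) (nat_lit 157402206235) (nat_lit 76) (nat_lit 6450979561) (nat_lit 57) (nat_lit 5) (nat_lit 60) (nat_lit 5) (nat_lit 58) (nat_lit 5) (nat_lit 503) (nat_lit 460) (nat_lit 237))))) (XT.nd (nat_lit 234) (nat_lit 304) (nat_lit 0) (XT.nd (nat_lit 78) (nat_lit 380) (nat_lit 0) (XT.lf (nat_lit 0) (nat_lit 161187445352) (nat_lit 228) (nat_lit 9180600186) (nat_lit 76) (nat_lit 96799614165) (nat_lit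 57) (nat_lit 5) (nat_lit 60) (nat_lit 5) (nat_lit 58) (nat_lit 5) (nat_lit 504) (nat_lit 460) (nat_lit 236)) (XT.nd (nat_lit 78) (nat_lit 228) (nat_lit 0) (XT.lf (nat_lit 0) (nat_lit 151294173019) (nat_lit 152) (nat_lit 81862924755) (nat_lit 228) (nat_lit 42733529284) (nat_lit 55) (nat_lit 5) (nat_lit 57) (nat_lit 5) (nat_lit 58) (nat_lit 5) (nat_lit 505) (nat_lit 460) (nat_lit 235)) (XT.lf (nat_lit 0) (nat_lit 23825840216) (nat_lit 228) (nat_lit 249341779911) (nat_lit 76) (nat_lit 11818234955) (nat_lit 52) (nat_lit 5) (nat_lit 55) (nat_lit 5) (nat_lit 53) (nat_lit 5) (nat_lit 506) (nat_lit 460) (nat_lit 234)))) (XT.nd (nat_lit 156) (nat_lit 152) (nat_lit 0) (XT.nd (nat_lit 78) (nat_lit 152) (nat_lit 0) (XT.lf (nat_lit 0) (nat_lit 95763602740) (nat_lit 228) (nat_lit 88285431743) (nat_lit 76) (nat_lit 110277454996) (nat_lit 52) (nat_lit 5) (nat_lit 55) (nat_lit 5) (nat_lit 53) (nat_lit 5) (nat_lit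 507) (nat_lit 460) (nat_lit 233)) (XT.lf (nat_lit 0) (nat_lit 83495861867) (nat_lit 152) (nat_lit 89105846523) (nat_lit 228) (nat_lit 131467274475) (nat_lit 50) (nat_lit 5) (nat_lit 52) (nat_lit 5) (nat_lit 53) (nat_lit 5) (nat_lit 508) (nat_lit 460) (nat_lit 232))) (XT.nd (nat_lit 78) (nat_lit 152) (nat_lit 0) (XT.lf (nat_lit 0) (nat_lit 254966492293) (nat_lit 228) (nat_lit 47482578972) (nat_lit 76) (nat_lit 11765291028) (nat_lit 50) (nat_lit 5) (nat_lit 53) (nat_lit 5) (nat_lit 51) (nat_lit 4) (nat_lit 509) (nat_lit 460) (nat_lit 231)) (XT.lf (nat_lit 0) (nat_lit 19713389602) (nat_lit 152) (nat_lit 187812334457) (nat_lit 76) (nat_lit 117145260251) (nat_lit 48) (nat_lit 5) (nat_lit 50) (nat_lit 5) (nat_lit 49) (nat_lit 5) (nat_lit 510) (nat_lit 460) (nat_lit 230))))))) (XT.nd (nat_lit 1092) (nat_lit 684) (nat_lit 0) (XT.nd (nat_lit 546) (nat_lit 532) (nat_lit 0) (XT.nd (nat_lit 234) (nat_lit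 304) (nat_lit 0) (XT.nd (nat_lit 78) (nat_lit 228) (nat_lit 0) (XT.lf (nat_lit 0) (nat_lit 101448777944) (nat_lit 152) (nat_lit 4529512071) (nat_lit 76) (nat_lit 229582724468) (nat_lit 48) (nat_lit 5) (nat_lit 50) (nat_lit 5) (nat_lit 49) (nat_lit 5) (nat_lit 511) (nat_lit 460) (nat_lit 229)) (XT.nd (nat_lit 78) (nat_lit 76) (nat_lit 0) (XT.lf (nat_lit 0) (nat_lit 190361504342) (nat_lit 228) (nat_lit 152773181711) (nat_lit 76) (nat_lit 3706331695) (nat_lit 46) (nat_lit 5) (nat_lit 49) (nat_lit 5) (nat_lit 47) (nat_lit 4) (nat_lit 512) (nat_lit 460) (nat_lit 228)) (XT.lf (nat_lit 0) (nat_lit 43731970200) (nat_lit 76) (nat_lit 242485858889) (nat_lit 152) (nat_lit 72342294003) (nat_lit 45) (nat_lit 5) (nat_lit 46) (nat_lit 5) (nat_lit 47) (nat_lit 4) (nat_lit 513) (nat_lit 460) (nat_lit 227)))) (XT.nd (nat_lit 156) (nat_lit 76) (nat_lit 0) (XT.nd (nat_lit 78) (nat_lit 152) (nat_lit 0) (XT.lf (nat_lit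 0) (nat_lit 18119199457) (nat_lit 152) (nat_lit 115661987199) (nat_lit 76) (nat_lit 236940026915) (nat_lit 44) (nat_lit 5) (nat_lit 46) (nat_lit 5) (nat_lit 45) (nat_lit 5) (nat_lit 514) (nat_lit 460) (nat_lit 226)) (XT.lf (nat_lit 0) (nat_lit 95327390597) (nat_lit 152) (nat_lit 16833403429) (nat_lit 228) (nat_lit 271195857503) (nat_lit 42) (nat_lit 5) (nat_lit 44) (nat_lit 5) (nat_lit 45) (nat_lit 5) (nat_lit 515) (nat_lit 460) (nat_lit 225))) (XT.nd (nat_lit 78) (nat_lit 76) (nat_lit 0) (XT.lf (nat_lit 0) (nat_lit 214549606612) (nat_lit 228) (nat_lit 77330862674) (nat_lit 76) (nat_lit 104561135199) (nat_lit 42) (nat_lit 5) (nat_lit 45) (nat_lit 5) (nat_lit 43) (nat_lit 4) (nat_lit 516) (nat_lit 460) (nat_lit 224)) (XT.lf (nat_lit 0) (nat_lit 148375212760) (nat_lit 76) (nat_lit 176275038398) (nat_lit 152) (nat_lit 85400934376) (nat_lit 41) (nat_lit 5) (nat_lit 42) (nat_lit 5) (nat_lit 43)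 (nat_lit 4) (nat_lit 517) (nat_lit 460) (nat_lit 223))))) (XT.nd (nat_lit 234) (nat_lit 228) (nat_lit 0) (XT.nd (nat_lit 78) (nat_lit 228) (nat_lit 0) (XT.lf (nat_lit 0) (nat_lit 16736299476) (nat_lit 152) (nat_lit 36494580320) (nat_lit 76) (nat_lit 371031392891) (nat_lit 40) (nat_lit 5) (nat_lit 42) (nat_lit 5) (nat_lit 41) (nat_lit 5) (nat_lit 518) (nat_lit 460) (nat_lit 222)) (XT.nd (nat_lit 78) (nat_lit 76) (nat_lit 0) (XT.lf (nat_lit 0) (nat_lit 125574081223) (nat_lit 228) (nat_lit 235104809032) (nat_lit 76) (nat_lit 78211837306) (nat_lit 38) (nat_lit 5) (nat_lit 41) (nat_lit 5) (nat_lit 39) (nat_lit 4) (nat_lit 519) (nat_lit 460) (nat_lit 221)) (XT.lf (nat_lit 0) (nat_lit 2318992674) (nat_lit 76) (nat_lit 239071675865) (nat_lit 152) (nat_lit 212783090827) (nat_lit 37) (nat_lit 5) (nat_lit 38) (nat_lit 5) (nat_lit 39) (nat_lit 4) (nat_lit 520) (nat_lit 460) (nat_lit 220)))) (XT.nd (nat_lit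 156) (nat_lit 76) (nat_lit 0) (XT.nd (nat_lit 78) (nat_lit 152) (nat_lit 0) (XT.lf (nat_lit 0) (nat_lit 259776086523) (nat_lit 76) (nat_lit 107203502263) (nat_lit 152) (nat_lit 103042278806) (nat_lit 37) (nat_lit 5) (nat_lit 38) (nat_lit 5) (nat_lit 39) (nat_lit 4) (nat_lit 521) (nat_lit 460) (nat_lit 219)) (XT.lf (nat_lit 0) (nat_lit 12995665280) (nat_lit 152) (nat_lit 442437223293) (nat_lit 76) (nat_lit 31159974822) (nat_lit 35) (nat_lit 5) (nat_lit 37) (nat_lit 5) (nat_lit 36) (nat_lit 4) (nat_lit 522) (nat_lit 460) (nat_lit 218))) (XT.nd (nat_lit 78) (nat_lit 76) (nat_lit 0) (XT.lf (nat_lit 0) (nat_lit 136748923490) (nat_lit 152) (nat_lit 188743210388) (nat_lit 76) (nat_lit 178146998574) (nat_lit 35) (nat_lit 5) (nat_lit 37) (nat_lit 5) (nat_lit 36) (nat_lit 4) (nat_lit 523) (nat_lit 460) (nat_lit 217)) (XT.lf (nat_lit 0) (nat_lit 80202286402) (nat_lit 76) (nat_lit 187739639668) (nat_lit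 152) (nat_lit 253533184826) (nat_lit 34) (nat_lit 5) (nat_lit 35) (nat_lit 5) (nat_lit 36) (nat_lit 4) (nat_lit 524) (nat_lit 460) (nat_lit 216)))))) (XT.nd (nat_lit 546) (nat_lit 304) (nat_lit 0) (XT.nd (nat_lit 234) (nat_lit 228) (nat_lit 0) (XT.nd (nat_lit 78) (nat_lit 152) (nat_lit 0) (XT.lf (nat_lit 0) (nat_lit 369147608384) (nat_lit 76) (nat_lit 39743328874) (nat_lit 152) (nat_lit 131152133089) (nat_lit 34) (nat_lit 5) (nat_lit 35) (nat_lit 5) (nat_lit 36) (nat_lit 4) (nat_lit 525) (nat_lit 460) (nat_lit 215)) (XT.nd (nat_lit 78) (nat_lit 0) (nat_lit 0) (XT.lf (nat_lit 0) (nat_lit 1090888341) (nat_lit 152) (nat_lit 444505542482) (nat_lit 76) (nat_lit 113762165454) (nat_lit 32) (nat_lit 5) (nat_lit 34) (nat_lit 5) (nat_lit 33) (nat_lit 4) (nat_lit 526) (nat_lit 460) (nat_lit 214)) (XT.lf (nat_lit 0) (nat_lit 139131566833) (nat_lit 152) (nat_lit 161522281970) (nat_lit 76) (nat_lit 278698894073)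 (nat_lit 32) (nat_lit 5) (nat_lit 34) (nat_lit 5) (nat_lit 33) (nat_lit 4) (nat_lit 527) (nat_lit 460) (nat_lit 213)))) (XT.nd (nat_lit 156) (nat_lit 152) (nat_lit 0) (XT.nd (nat_lit 78) (nat_lit 0) (nat_lit 0) (XT.lf (nat_lit 0) (nat_lit 140093845807) (nat_lit 76) (nat_lit 146167600034) (nat_lit 152) (nat_lit 313975792641) (nat_lit 31) (nat_lit 5) (nat_lit 32) (nat_lit 5) (nat_lit 33) (nat_lit 4) (nat_lit 528) (nat_lit 460) (nat_lit 212)) (XT.lf (nat_lit 0) (nat_lit 443778505392) (nat_lit 152) (nat_lit 159926210375) (nat_lit 0) (nat_lit 18309708778) (nat_lit 31) (nat_lit 5) (nat_lit 33) (nat_lit 4) (nat_lit 31) (nat_lit 4) (nat_lit 529) (nat_lit 460) (nat_lit 211))) (XT.nd (nat_lit 78) (nat_lit 76) (nat_lit 0) (XT.lf (nat_lit 0) (nat_lit 157961220590) (nat_lit 76) (nat_lit 456072518578) (nat_lit 76) (nat_lit 30603614686) (nat_lit 30) (nat_lit 4) (nat_lit 31) (nat_lit 5) (nat_lit 31) (nat_lit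 4) (nat_lit 530) (nat_lit 460) (nat_lit 210)) (XT.lf (nat_lit 0) (nat_lit 123181140410) (nat_lit 152) (nat_lit 172947668220) (nat_lit 76) (nat_lit 372027864221) (nat_lit 29) (nat_lit 5) (nat_lit 31) (nat_lit 5) (nat_lit 30) (nat_lit 4) (nat_lit 531) (nat_lit 460) (nat_lit 209))))) (XT.nd (nat_lit 312) (nat_lit 76) (nat_lit 0) (XT.nd (nat_lit 156) (nat_lit 152) (nat_lit 0) (XT.nd (nat_lit 78) (nat_lit 0) (nat_lit 0) (XT.lf (nat_lit 0) (nat_lit 161122282643) (nat_lit 76) (nat_lit 125019856874) (nat_lit 152) (nat_lit 406558958936) (nat_lit 28) (nat_lit 5) (nat_lit 29) (nat_lit 5) (nat_lit 30) (nat_lit 4) (nat_lit 532) (nat_lit 460) (nat_lit 208)) (XT.lf (nat_lit 0) (nat_lit 461081229404) (nat_lit 152) (nat_lit 201327542624) (nat_lit 0) (nat_lit 55872471271) (nat_lit 28) (nat_lit 5) (nat_lit 30) (nat_lit 4) (nat_lit 28) (nat_lit 4) (nat_lit 533) (nat_lit 460) (nat_lit 207))) (XT.nd (nat_lit 78)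 (nat_lit 76) (nat_lit 0) (XT.lf (nat_lit 0) (nat_lit 148127647290) (nat_lit 76) (nat_lit 501001742252) (nat_lit 76) (nat_lit 95792900063) (nat_lit 27) (nat_lit 4) (nat_lit 28) (nat_lit 5) (nat_lit 28) (nat_lit 4) (nat_lit 534) (nat_lit 460) (nat_lit 206)) (XT.lf (nat_lit 0) (nat_lit 74791599499) (nat_lit 152) (nat_lit 251886143268) (nat_lit 76) (nat_lit 445986854508) (nat_lit 26) (nat_lit 5) (nat_lit 28) (nat_lit 5) (nat_lit 27) (nat_lit 4) (nat_lit 535) (nat_lit 460) (nat_lit 205)))) (XT.nd (nat_lit 56628) (nat_lit 0) (nat_lit 7600) (XT.nd (nat_lit 78) (nat_lit 0) (nat_lit 0) (XT.lf (nat_lit 0) (nat_lit 112291283860) (nat_lit 76) (nat_lit 140147878258) (nat_lit 152) (nat_lit 549188684062) (nat_lit 25) (nat_lit 5) (nat_lit 26) (nat_lit 5) (nat_lit 27) (nat_lit 4) (nat_lit 536) (nat_lit 460) (nat_lit 204)) (XT.lf (nat_lit 0) (nat_lit 444174539718) (nat_lit 152) (nat_lit 329343307298) (nat_lit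 0) (nat_lit 58261138675) (nat_lit 25) (nat_lit 5) (nat_lit 27) (nat_lit 4) (nat_lit 25) (nat_lit 4) (nat_lit 537) (nat_lit 460) (nat_lit 203))) (XT.nd (nat_lit 78) (nat_lit 0) (nat_lit 0) (XT.lf (nat_lit 0) (nat_lit 13261501006) (nat_lit 836) (nat_lit 13298580134) (nat_lit 836) (nat_lit 13298580134) (nat_lit 125) (nat_lit 3) (nat_lit 136) (nat_lit 3) (nat_lit 136) (nat_lit 5) (nat_lit 461) (nat_lit 461) (nat_lit 278)) (XT.lf (nat_lit 76) (nat_lit 12866964732) (nat_lit 0) (nat_lit 14530076624) (nat_lit 836) (nat_lit 54302662122) (nat_lit 126) (nat_lit 5) (nat_lit 125) (nat_lit 3) (nat_lit 136) (nat_lit 5) (nat_lit 462) (nat_lit 461) (nat_lit 277))))))))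
noncomputable def xc214 : XT := (XT.nd (nat_lit 2184) (nat_lit 2888) (nat_lit 0) (XT.nd (nat_lit 1092) (nat_lit 2356) (nat_lit 0) (XT.nd (nat_lit 546) (nat_lit 1292) (nat_lit 0) (XT.nd (nat_lit 234) (nat_lit 0) (nat_lit 76) (XT.nd (nat_lit 78) (nat_lit 0) (nat_lit 0) (XT.lf (nat_lit 0) (nat_lit 29177726087) (nat_lit 760) (nat_lit 28944533036) (nat_lit 836) (nat_lit 25615797411) (nat_lit 126) (nat_lit 5) (nat_lit 136) (nat_lit 5) (nat_lit 137) (nat_lit 5) (nat_lit 463) (nat_lit 461) (nat_lit 276)) (XT.nd (nat_lit 78) (nat_lit 0) (nat_lit 76) (XT.lf (nat_lit 76) (nat_lit 13119419412) (nat_lit 0) (nat_lit 18370439577) (nat_lit 836) (nat_lit 54366347796) (nat_lit 127) (nat_lit 5) (nat_lit 126) (nat_lit 5) (nat_lit 137) (nat_lit 5) (nat_lit 464) (nat_lit 461) (nat_lit 275)) (XT.lf (nat_lit 0) (nat_lit 34780091471) (nat_lit 760) (nat_lit 30137584109) (nat_lit 836) (nat_lit 23119464549) (nat_lit 127)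 (nat_lit 5) (nat_lit 137) (nat_lit 5) (nat_lit 138) (nat_lit 5) (nat_lit 465) (nat_lit 461) (nat_lit 274)))) (XT.nd (nat_lit 156) (nat_lit 0) (nat_lit 76) (XT.nd (nat_lit 78) (nat_lit 0) (nat_lit 76) (XT.lf (nat_lit 76) (nat_lit 14762540605) (nat_lit 0) (nat_lit 24003374574) (nat_lit 836) (nat_lit 51534651198) (nat_lit 128) (nat_lit 5) (nat_lit 127) (nat_lit 5) (nat_lit 138) (nat_lit 5) (nat_lit 466) (nat_lit 461) (nat_lit 273)) (XT.lf (nat_lit 0) (nat_lit 43765221766) (nat_lit 760) (nat_lit 30002398349) (nat_lit 836) (nat_lit 18868834444) (nat_lit 128) (nat_lit 5) (nat_lit 138) (nat_lit 5) (nat_lit 139) (nat_lit 5) (nat_lit 467) (nat_lit 461) (nat_lit 272))) (XT.nd (nat_lit 78) (nat_lit 0) (nat_lit 76) (XT.lf (nat_lit 76) (nat_lit 17991986390) (nat_lit 0) (nat_lit 31696399801) (nat_lit 836) (nat_lit 45367056530) (nat_lit 129) (nat_lit 5) (nat_lit 128) (nat_lit 5) (nat_lit 139) (nat_lit 5)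 (nat_lit 468) (nat_lit 461) (nat_lit 271)) (XT.lf (nat_lit 0) (nat_lit 56618475580) (nat_lit 760) (nat_lit 28345823739) (nat_lit 836) (nat_lit 12595542823) (nat_lit 129) (nat_lit 5) (nat_lit 139) (nat_lit 5) (nat_lit 140) (nat_lit 5) (nat_lit 469) (nat_lit 461) (nat_lit 270))))) (XT.nd (nat_lit 234) (nat_lit 836) (nat_lit 0) (XT.nd (nat_lit 78) (nat_lit 684) (nat_lit 0) (XT.lf (nat_lit 76) (nat_lit 23024625859) (nat_lit 0) (nat_lit 41749068490) (nat_lit 836) (nat_lit 35371836117) (nat_lit 130) (nat_lit 5) (nat_lit 129) (nat_lit 5) (nat_lit 140) (nat_lit 5) (nat_lit 470) (nat_lit 461) (nat_lit 269)) (XT.nd (nat_lit 78) (nat_lit 760) (nat_lit 0) (XT.lf (nat_lit 0) (nat_lit 73880770792) (nat_lit 760) (nat_lit 24953696890) (nat_lit 76) (nat_lit 3998830858) (nat_lit 130) (nat_lit 5) (nat_lit 140) (nat_lit 5) (nat_lit 131) (nat_lit 5) (nat_lit 471) (nat_lit 461) (nat_lit 268)) (XT.lf (nat_lit 0)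 (nat_lit 30100481741) (nat_lit 760) (nat_lit 54496654933) (nat_lit 836) (nat_lit 21000621724) (nat_lit 120) (nat_lit 5) (nat_lit 130) (nat_lit 5) (nat_lit 131) (nat_lit 5) (nat_lit 472) (nat_lit 461) (nat_lit 267)))) (XT.nd (nat_lit 156) (nat_lit 456) (nat_lit 0) (XT.nd (nat_lit 78) (nat_lit 380) (nat_lit 0) (XT.lf (nat_lit 0) (nat_lit 88773329563) (nat_lit 760) (nat_lit 7498180524) (nat_lit 836) (nat_lit 12207821854) (nat_lit 120) (nat_lit 5) (nat_lit 130) (nat_lit 5) (nat_lit 131) (nat_lit 5) (nat_lit 473) (nat_lit 461) (nat_lit 266)) (XT.lf (nat_lit 0) (nat_lit 39484818958) (nat_lit 380) (nat_lit 70314257646) (nat_lit 456) (nat_lit 1642433982) (nat_lit 115) (nat_lit 5) (nat_lit 120) (nat_lit 5) (nat_lit 121) (nat_lit 5) (nat_lit 474) (nat_lit 461) (nat_lit 265))) (XT.nd (nat_lit 78) (nat_lit 380) (nat_lit 0) (XT.lf (nat_lit 0) (nat_lit 9610460907) (nat_lit 456) (nat_lit 12492119524) (nat_lit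 76) (nat_lit 92418753072) (nat_lit 114) (nat_lit 5) (nat_lit 120) (nat_lit 5) (nat_lit 115) (nat_lit 5) (nat_lit 475) (nat_lit 461) (nat_lit 264)) (XT.lf (nat_lit 0) (nat_lit 22634483349) (nat_lit 456) (nat_lit 66603558924) (nat_lit 76) (nat_lit 28452575194) (nat_lit 109) (nat_lit 5) (nat_lit 115) (nat_lit 5) (nat_lit 110) (nat_lit 5) (nat_lit 476) (nat_lit 461) (nat_lit 263)))))) (XT.nd (nat_lit 546) (nat_lit 1064) (nat_lit 0) (XT.nd (nat_lit 234) (nat_lit 608) (nat_lit 0) (XT.nd (nat_lit 78) (nat_lit 684) (nat_lit 0) (XT.lf (nat_lit 0) (nat_lit 36886715973) (nat_lit 456) (nat_lit 3095078230) (nat_lit 76) (nat_lit 81007721095) (nat_lit 109) (nat_lit 5) (nat_lit 115) (nat_lit 5) (nat_lit 110) (nat_lit 5) (nat_lit 477) (nat_lit 461) (nat_lit 262)) (XT.nd (nat_lit 78) (nat_lit 304) (nat_lit 0) (XT.lf (nat_lit 0) (nat_lit 53076905756) (nat_lit 456) (nat_lit 58911171170) (nat_lit 76) (nat_lit 12404013932)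 (nat_lit 104) (nat_lit 5) (nat_lit 110) (nat_lit 5) (nat_lit 105) (nat_lit 5) (nat_lit 478) (nat_lit 461) (nat_lit 261)) (XT.lf (nat_lit 0) (nat_lit 9271059507) (nat_lit 304) (nat_lit 61658678527) (nat_lit 380) (nat_lit 56992400622) (nat_lit 100) (nat_lit 5) (nat_lit 104) (nat_lit 5) (nat_lit 105) (nat_lit 5) (nat_lit 479) (nat_lit 461) (nat_lit 260)))) (XT.nd (nat_lit 156) (nat_lit 304) (nat_lit 0) (XT.nd (nat_lit 78) (nat_lit 304) (nat_lit 0) (XT.lf (nat_lit 0) (nat_lit 82907299519) (nat_lit 304) (nat_lit 7765282182) (nat_lit 380) (nat_lit 40906238758) (nat_lit 100) (nat_lit 5) (nat_lit 104) (nat_lit 5) (nat_lit 105) (nat_lit 5) (nat_lit 480) (nat_lit 461) (nat_lit 259)) (XT.lf (nat_lit 0) (nat_lit 24839408608) (nat_lit 304) (nat_lit 87712927325) (nat_lit 380) (nat_lit 22808512098) (nat_lit 96) (nat_lit 5) (nat_lit 100) (nat_lit 5) (nat_lit 101) (nat_lit 5) (nat_lit 481) (nat_lit 461) (nat_lit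 258))) (XT.nd (nat_lit 78) (nat_lit 304) (nat_lit 0) (XT.lf (nat_lit 0) (nat_lit 103583784684) (nat_lit 304) (nat_lit 32891519509) (nat_lit 380) (nat_lit 2809211570) (nat_lit 96) (nat_lit 5) (nat_lit 100) (nat_lit 5) (nat_lit 101) (nat_lit 5) (nat_lit 482) (nat_lit 461) (nat_lit 257)) (XT.lf (nat_lit 0) (nat_lit 18695387773) (nat_lit 304) (nat_lit 99772497840) (nat_lit 76) (nat_lit 24867905011) (nat_lit 92) (nat_lit 5) (nat_lit 96) (nat_lit 5) (nat_lit 93) (nat_lit 5) (nat_lit 483) (nat_lit 461) (nat_lit 256))))) (XT.nd (nat_lit 234) (nat_lit 760) (nat_lit 0) (XT.nd (nat_lit 78) (nat_lit 304) (nat_lit 0) (XT.lf (nat_lit 0) (nat_lit 42334255894) (nat_lit 304) (nat_lit 20124958051) (nat_lit 76) (nat_lit 85070440395) (nat_lit 92) (nat_lit 5) (nat_lit 96) (nat_lit 5) (nat_lit 93) (nat_lit 5) (nat_lit 484) (nat_lit 461) (nat_lit 255)) (XT.nd (nat_lit 78) (nat_lit 0) (nat_lit 0) (XT.lf (nat_lit 0)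 (nat_lit 65604368828) (nat_lit 304) (nat_lit 2574700666) (nat_lit 380) (nat_lit 83702941722) (nat_lit 88) (nat_lit 5) (nat_lit 92) (nat_lit 5) (nat_lit 93) (nat_lit 5) (nat_lit 485) (nat_lit 461) (nat_lit 254)) (XT.lf (nat_lit 0) (nat_lit 96603792324) (nat_lit 380) (nat_lit 1063537596) (nat_lit 76) (nat_lit 58720272664) (nat_lit 88) (nat_lit 5) (nat_lit 93) (nat_lit 5) (nat_lit 89) (nat_lit 5) (nat_lit 486) (nat_lit 461) (nat_lit 253)))) (XT.nd (nat_lit 156) (nat_lit 304) (nat_lit 0) (XT.nd (nat_lit 78) (nat_lit 228) (nat_lit 0) (XT.lf (nat_lit 0) (nat_lit 91290604397) (nat_lit 228) (nat_lit 36626409942) (nat_lit 304) (nat_lit 33128096098) (nat_lit 85) (nat_lit 5) (nat_lit 88) (nat_lit 5) (nat_lit 89) (nat_lit 5) (nat_lit 487) (nat_lit 461) (nat_lit 252)) (XT.lf (nat_lit 0) (nat_lit 22660604918) (nat_lit 228) (nat_lit 138935982876) (nat_lit 304) (nat_lit 4298871439) (nat_lit 82) (nat_lit 5)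 (nat_lit 85) (nat_lit 5) (nat_lit 86) (nat_lit 5) (nat_lit 488) (nat_lit 461) (nat_lit 251))) (XT.nd (nat_lit 78) (nat_lit 228) (nat_lit 0) (XT.lf (nat_lit 0) (nat_lit 26941439994) (nat_lit 304) (nat_lit 49836697911) (nat_lit 76) (nat_lit 94099868695) (nat_lit 81) (nat_lit 5) (nat_lit 85) (nat_lit 5) (nat_lit 82) (nat_lit 5) (nat_lit 489) (nat_lit 461) (nat_lit 250)) (XT.lf (nat_lit 0) (nat_lit 49752977719) (nat_lit 228) (nat_lit 10622874363) (nat_lit 304) (nat_lit 115691477879) (nat_lit 78) (nat_lit 5) (nat_lit 81) (nat_lit 5) (nat_lit 82) (nat_lit 5) (nat_lit 490) (nat_lit 461) (nat_lit 249))))))) (XT.nd (nat_lit 1092) (nat_lit 1292) (nat_lit 0) (XT.nd (nat_lit 546) (nat_lit 760) (nat_lit 0) (XT.nd (nat_lit 234) (nat_lit 456) (nat_lit 0) (XT.nd (nat_lit 78) (nat_lit 380) (nat_lit 0) (XT.lf (nat_lit 0) (nat_lit 97258265648) (nat_lit 304) (nat_lit 26354386002) (nat_lit 76) (nat_lit 57814653852)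 (nat_lit 78) (nat_lit 5) (nat_lit 82) (nat_lit 5) (nat_lit 79) (nat_lit 5) (nat_lit 491) (nat_lit 461) (nat_lit 248)) (XT.nd (nat_lit 78) (nat_lit 152) (nat_lit 0) (XT.lf (nat_lit 0) (nat_lit 81022343774) (nat_lit 228) (nat_lit 56401374493) (nat_lit 304) (nat_lit 49559615685) (nat_lit 75) (nat_lit 5) (nat_lit 78) (nat_lit 5) (nat_lit 79) (nat_lit 5) (nat_lit 492) (nat_lit 461) (nat_lit 247)) (XT.lf (nat_lit 0) (nat_lit 1714014696) (nat_lit 152) (nat_lit 178584862052) (nat_lit 228) (nat_lit 12483215466) (nat_lit 73) (nat_lit 5) (nat_lit 75) (nat_lit 5) (nat_lit 76) (nat_lit 5) (nat_lit 493) (nat_lit 461) (nat_lit 246)))) (XT.nd (nat_lit 156) (nat_lit 152) (nat_lit 0) (XT.nd (nat_lit 78) (nat_lit 228) (nat_lit 0) (XT.lf (nat_lit 0) (nat_lit 28348859458) (nat_lit 228) (nat_lit 81696825857) (nat_lit 76) (nat_lit 88667041326) (nat_lit 72) (nat_lit 5) (nat_lit 75) (nat_lit 5) (nat_lit 73) (nat_lit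 5) (nat_lit 494) (nat_lit 461) (nat_lit 245)) (XT.lf (nat_lit 0) (nat_lit 34027125040) (nat_lit 228) (nat_lit 37306956483) (nat_lit 304) (nat_lit 133569026100) (nat_lit 69) (nat_lit 5) (nat_lit 72) (nat_lit 5) (nat_lit 73) (nat_lit 5) (nat_lit 495) (nat_lit 461) (nat_lit 244))) (XT.nd (nat_lit 78) (nat_lit 152) (nat_lit 0) (XT.lf (nat_lit 0) (nat_lit 118484599241) (nat_lit 304) (nat_lit 53593183872) (nat_lit 76) (nat_lit 39224422858) (nat_lit 69) (nat_lit 5) (nat_lit 73) (nat_lit 5) (nat_lit 70) (nat_lit 5) (nat_lit 496) (nat_lit 461) (nat_lit 243)) (XT.lf (nat_lit 0) (nat_lit 71221405384) (nat_lit 152) (nat_lit 98494607573) (nat_lit 228) (nat_lit 48219077811) (nat_lit 67) (nat_lit 5) (nat_lit 69) (nat_lit 5) (nat_lit 70) (nat_lit 5) (nat_lit 497) (nat_lit 461) (nat_lit 242))))) (XT.nd (nat_lit 234) (nat_lit 380) (nat_lit 0) (XT.nd (nat_lit 78) (nat_lit 380) (nat_lit 0) (XT.lf (nat_lit 0) (nat_lit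 204137073405) (nat_lit 152) (nat_lit 20279369746) (nat_lit 228) (nat_lit 437804402) (nat_lit 67) (nat_lit 5) (nat_lit 69) (nat_lit 5) (nat_lit 70) (nat_lit 5) (nat_lit 498) (nat_lit 461) (nat_lit 241)) (XT.nd (nat_lit 78) (nat_lit 152) (nat_lit 0) (XT.lf (nat_lit 0) (nat_lit 50935365763) (nat_lit 228) (nat_lit 118532765201) (nat_lit 76) (nat_lit 62472678801) (nat_lit 64) (nat_lit 5) (nat_lit 67) (nat_lit 5) (nat_lit 65) (nat_lit 5) (nat_lit 499) (nat_lit 461) (nat_lit 240)) (XT.lf (nat_lit 0) (nat_lit 15753162666) (nat_lit 152) (nat_lit 90044152991) (nat_lit 228) (nat_lit 133537283891) (nat_lit 62) (nat_lit 5) (nat_lit 64) (nat_lit 5) (nat_lit 65) (nat_lit 5) (nat_lit 500) (nat_lit 461) (nat_lit 239)))) (XT.nd (nat_lit 156) (nat_lit 228) (nat_lit 0) (XT.nd (nat_lit 78) (nat_lit 152) (nat_lit 0) (XT.lf (nat_lit 0) (nat_lit 160868301607) (nat_lit 152) (nat_lit 4541302608) (nat_lit 228) (nat_lit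 81588112576) (nat_lit 62) (nat_lit 5) (nat_lit 64) (nat_lit 5) (nat_lit 65) (nat_lit 5) (nat_lit 501) (nat_lit 461) (nat_lit 238)) (XT.lf (nat_lit 0) (nat_lit 58744341133) (nat_lit 152) (nat_lit 171505951353) (nat_lit 228) (nat_lit 24681308176) (nat_lit 60) (nat_lit 5) (nat_lit 62) (nat_lit 5) (nat_lit 63) (nat_lit 5) (nat_lit 502) (nat_lit 461) (nat_lit 237))) (XT.nd (nat_lit 78) (nat_lit 152) (nat_lit 0) (XT.lf (nat_lit 0) (nat_lit 35505192590) (nat_lit 228) (nat_lit 49983425954) (nat_lit 76) (nat_lit 177668340412) (nat_lit 59) (nat_lit 5) (nat_lit 62) (nat_lit 5) (nat_lit 60) (nat_lit 5) (nat_lit 503) (nat_lit 461) (nat_lit 236)) (XT.lf (nat_lit 0) (nat_lit 99644031524) (nat_lit 228) (nat_lit 165263965271) (nat_lit 76) (nat_lit 6776734466) (nat_lit 57) (nat_lit 5) (nat_lit 60) (nat_lit 5) (nat_lit 58) (nat_lit 5) (nat_lit 504) (nat_lit 461) (nat_lit 235)))))) (XT.nd (nat_lit 546) (nat_lit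 608) (nat_lit 0) (XT.nd (nat_lit 234) (nat_lit 304) (nat_lit 0) (XT.nd (nat_lit 78) (nat_lit 380) (nat_lit 0) (XT.lf (nat_lit 0) (nat_lit 169251483896) (nat_lit 228) (nat_lit 9631676599) (nat_lit 76) (nat_lit 101642648137) (nat_lit 57) (nat_lit 5) (nat_lit 60) (nat_lit 5) (nat_lit 58) (nat_lit 5) (nat_lit 505) (nat_lit 461) (nat_lit 234)) (XT.nd (nat_lit 78) (nat_lit 228) (nat_lit 0) (XT.lf (nat_lit 0) (nat_lit 158866706983) (nat_lit 152) (nat_lit 85952811929) (nat_lit 228) (nat_lit 44865410482) (nat_lit 55) (nat_lit 5) (nat_lit 57) (nat_lit 5) (nat_lit 58) (nat_lit 5) (nat_lit 506) (nat_lit 461) (nat_lit 233)) (XT.lf (nat_lit 0) (nat_lit 25021727188) (nat_lit 228) (nat_lit 261800841975) (nat_lit 76) (nat_lit 12412348284) (nat_lit 52) (nat_lit 5) (nat_lit 55) (nat_lit 5) (nat_lit 53) (nat_lit 5) (nat_lit 507) (nat_lit 461) (nat_lit 232)))) (XT.nd (nat_lit 156) (nat_lit 152) (nat_lit 0) (XT.nd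 (nat_lit 78) (nat_lit 152) (nat_lit 0) (XT.lf (nat_lit 0) (nat_lit 100556159031) (nat_lit 228) (nat_lit 92692058634) (nat_lit 76) (nat_lit 115794376870) (nat_lit 52) (nat_lit 5) (nat_lit 55) (nat_lit 5) (nat_lit 53) (nat_lit 5) (nat_lit 508) (nat_lit 461) (nat_lit 231)) (XT.lf (nat_lit 0) (nat_lit 87678176356) (nat_lit 152) (nat_lit 93557902650) (nat_lit 228) (nat_lit 138036138162) (nat_lit 50) (nat_lit 5) (nat_lit 52) (nat_lit 5) (nat_lit 53) (nat_lit 5) (nat_lit 509) (nat_lit 461) (nat_lit 230))) (XT.nd (nat_lit 78) (nat_lit 152) (nat_lit 0) (XT.lf (nat_lit 0) (nat_lit 267718946167) (nat_lit 228) (nat_lit 49849388197) (nat_lit 76) (nat_lit 12356539028) (nat_lit 50) (nat_lit 5) (nat_lit 53) (nat_lit 5) (nat_lit 51) (nat_lit 4) (nat_lit 510) (nat_lit 461) (nat_lit 229)) (XT.lf (nat_lit 0) (nat_lit 20703170970) (nat_lit 152) (nat_lit 197195613057) (nat_lit 76) (nat_lit 123005543402) (nat_lit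 48) (nat_lit 5) (nat_lit 50) (nat_lit 5) (nat_lit 49) (nat_lit 5) (nat_lit 511) (nat_lit 461) (nat_lit 228))))) (XT.nd (nat_lit 312) (nat_lit 304) (nat_lit 0) (XT.nd (nat_lit 156) (nat_lit 152) (nat_lit 0) (XT.nd (nat_lit 78) (nat_lit 152) (nat_lit 0) (XT.lf (nat_lit 0) (nat_lit 106525132926) (nat_lit 152) (nat_lit 4748998985) (nat_lit 76) (nat_lit 241064737014) (nat_lit 48) (nat_lit 5) (nat_lit 50) (nat_lit 5) (nat_lit 49) (nat_lit 5) (nat_lit 512) (nat_lit 461) (nat_lit 227)) (XT.lf (nat_lit 0) (nat_lit 199883463964) (nat_lit 228) (nat_lit 160404819973) (nat_lit 76) (nat_lit 3894590024) (nat_lit 46) (nat_lit 5) (nat_lit 49) (nat_lit 5) (nat_lit 47) (nat_lit 4) (nat_lit 513) (nat_lit 461) (nat_lit 226))) (XT.nd (nat_lit 78) (nat_lit 76) (nat_lit 0) (XT.lf (nat_lit 0) (nat_lit 45925476295) (nat_lit 76) (nat_lit 254607051528) (nat_lit 152) (nat_lit 75955410626) (nat_lit 45) (nat_lit 5) (nat_lit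 46) (nat_lit 5) (nat_lit 47) (nat_lit 4) (nat_lit 514) (nat_lit 461) (nat_lit 225)) (XT.lf (nat_lit 0) (nat_lit 19028845253) (nat_lit 152) (nat_lit 121438385643) (nat_lit 76) (nat_lit 248789858669) (nat_lit 44) (nat_lit 5) (nat_lit 46) (nat_lit 5) (nat_lit 45) (nat_lit 5) (nat_lit 515) (nat_lit 461) (nat_lit 224)))) (XT.nd (nat_lit 156) (nat_lit 152) (nat_lit 0) (XT.nd (nat_lit 78) (nat_lit 0) (nat_lit 0) (XT.lf (nat_lit 0) (nat_lit 100100352963) (nat_lit 152) (nat_lit 17672094005) (nat_lit 228) (nat_lit 284751856101) (nat_lit 42) (nat_lit 5) (nat_lit 44) (nat_lit 5) (nat_lit 45) (nat_lit 5) (nat_lit 516) (nat_lit 461) (nat_lit 223)) (XT.lf (nat_lit 0) (nat_lit 225280572428) (nat_lit 228) (nat_lit 81190998805) (nat_lit 76) (nat_lit 109791938845) (nat_lit 42) (nat_lit 5) (nat_lit 45) (nat_lit 5) (nat_lit 43) (nat_lit 4) (nat_lit 517) (nat_lit 461) (nat_lit 222))) (XT.nd (nat_lit 78) (nat_lit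 76) (nat_lit 0) (XT.lf (nat_lit 0) (nat_lit 155800277063) (nat_lit 76) (nat_lit 185085904582) (nat_lit 152) (nat_lit 89667391930) (nat_lit 41) (nat_lit 5) (nat_lit 42) (nat_lit 5) (nat_lit 43) (nat_lit 4) (nat_lit 518) (nat_lit 461) (nat_lit 221)) (XT.lf (nat_lit 0) (nat_lit 17576423297) (nat_lit 152) (nat_lit 38313196132) (nat_lit 76) (nat_lit 389585601142) (nat_lit 40) (nat_lit 5) (nat_lit 42) (nat_lit 5) (nat_lit 41) (nat_lit 5) (nat_lit 519) (nat_lit 461) (nat_lit 220))))))))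
noncomputable def xc215 : XT := (XT.nd (nat_lit 58734) (nat_lit 0) (nat_lit 2964) (XT.nd (nat_lit 1092) (nat_lit 228) (nat_lit 0) (XT.nd (nat_lit 546) (nat_lit 456) (nat_lit 0) (XT.nd (nat_lit 234) (nat_lit 228) (nat_lit 0) (XT.nd (nat_lit 78) (nat_lit 76) (nat_lit 0) (XT.lf (nat_lit 0) (nat_lit 131856073710) (nat_lit 228) (nat_lit 246853915566) (nat_lit 76) (nat_lit 82125109949) (nat_lit 38) (nat_lit 5) (nat_lit 41) (nat_lit 5) (nat_lit 39) (nat_lit 4) (nat_lit 520) (nat_lit 461) (nat_lit 219)) (XT.nd (nat_lit 78) (nat_lit 0) (nat_lit 0) (XT.lf (nat_lit 0) (nat_lit 2440977292) (nat_lit 76) (nat_lit 251022450731) (nat_lit 152) (nat_lit 223418857730) (nat_lit 37) (nat_lit 5) (nat_lit 38) (nat_lit 5) (nat_lit 39) (nat_lit 4) (nat_lit 521) (nat_lit 461) (nat_lit 218)) (XT.lf (nat_lit 0) (nat_lit 272770638453) (nat_lit 76) (nat_lit 112561002208) (nat_lit 152) (nat_lit 108191166423) (nat_lit 37)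 (nat_lit 5) (nat_lit 38) (nat_lit 5) (nat_lit 39) (nat_lit 4) (nat_lit 522) (nat_lit 461) (nat_lit 217)))) (XT.nd (nat_lit 156) (nat_lit 76) (nat_lit 0) (XT.nd (nat_lit 78) (nat_lit 0) (nat_lit 0) (XT.lf (nat_lit 0) (nat_lit 13648554804) (nat_lit 152) (nat_lit 464553216295) (nat_lit 76) (nat_lit 32720579910) (nat_lit 35) (nat_lit 5) (nat_lit 37) (nat_lit 5) (nat_lit 36) (nat_lit 4) (nat_lit 523) (nat_lit 461) (nat_lit 216)) (XT.lf (nat_lit 0) (nat_lit 143589328007) (nat_lit 152) (nat_lit 198174782182) (nat_lit 76) (nat_lit 187056830738) (nat_lit 35) (nat_lit 5) (nat_lit 37) (nat_lit 5) (nat_lit 36) (nat_lit 4) (nat_lit 524) (nat_lit 461) (nat_lit 215))) (XT.nd (nat_lit 78) (nat_lit 0) (nat_lit 0) (XT.lf (nat_lit 0) (nat_lit 84217899307) (nat_lit 76) (nat_lit 197124026384) (nat_lit 152) (nat_lit 266206795365) (nat_lit 34) (nat_lit 5) (nat_lit 35) (nat_lit 5) (nat_lit 36) (nat_lit 4) (nat_lit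 525) (nat_lit 461) (nat_lit 214)) (XT.lf (nat_lit 0) (nat_lit 387610225551) (nat_lit 76) (nat_lit 41728023635) (nat_lit 152) (nat_lit 137706836217) (nat_lit 34) (nat_lit 5) (nat_lit 35) (nat_lit 5) (nat_lit 36) (nat_lit 4) (nat_lit 526) (nat_lit 461) (nat_lit 213))))) (XT.nd (nat_lit 234) (nat_lit 228) (nat_lit 0) (XT.nd (nat_lit 78) (nat_lit 76) (nat_lit 0) (XT.lf (nat_lit 0) (nat_lit 1148230190) (nat_lit 152) (nat_lit 466725476376) (nat_lit 76) (nat_lit 119452679464) (nat_lit 32) (nat_lit 5) (nat_lit 34) (nat_lit 5) (nat_lit 33) (nat_lit 4) (nat_lit 527) (nat_lit 461) (nat_lit 212)) (XT.nd (nat_lit 78) (nat_lit 76) (nat_lit 0) (XT.lf (nat_lit 0) (nat_lit 146090809396) (nat_lit 152) (nat_lit 169593307278) (nat_lit 76) (nat_lit 292636129955) (nat_lit 32) (nat_lit 5) (nat_lit 34) (nat_lit 5) (nat_lit 33) (nat_lit 4) (nat_lit 528) (nat_lit 461) (nat_lit 211)) (XT.lf (nat_lit 0) (nat_lit 147103544810)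 (nat_lit 76) (nat_lit 153473588845) (nat_lit 152) (nat_lit 329671835803) (nat_lit 31) (nat_lit 5) (nat_lit 32) (nat_lit 5) (nat_lit 33) (nat_lit 4) (nat_lit 529) (nat_lit 461) (nat_lit 210)))) (XT.nd (nat_lit 156) (nat_lit 152) (nat_lit 0) (XT.nd (nat_lit 78) (nat_lit 76) (nat_lit 0) (XT.lf (nat_lit 0) (nat_lit 465969957190) (nat_lit 152) (nat_lit 167917663438) (nat_lit 0) (nat_lit 19227398653) (nat_lit 31) (nat_lit 5) (nat_lit 33) (nat_lit 4) (nat_lit 31) (nat_lit 4) (nat_lit 530) (nat_lit 461) (nat_lit 209)) (XT.lf (nat_lit 0) (nat_lit 165864060729) (nat_lit 76) (nat_lit 478873846231) (nat_lit 76) (nat_lit 32131190389) (nat_lit 30) (nat_lit 4) (nat_lit 31) (nat_lit 5) (nat_lit 31) (nat_lit 4) (nat_lit 531) (nat_lit 461) (nat_lit 208))) (XT.nd (nat_lit 78) (nat_lit 76) (nat_lit 0) (XT.lf (nat_lit 0) (nat_lit 129342599006) (nat_lit 152) (nat_lit 181590420550) (nat_lit 76) (nat_lit 390631366717)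 (nat_lit 29) (nat_lit 5) (nat_lit 31) (nat_lit 5) (nat_lit 30) (nat_lit 4) (nat_lit 532) (nat_lit 461) (nat_lit 207)) (XT.lf (nat_lit 0) (nat_lit 169182953161) (nat_lit 76) (nat_lit 131268651684) (nat_lit 152) (nat_lit 426884430479) (nat_lit 28) (nat_lit 5) (nat_lit 29) (nat_lit 5) (nat_lit 30) (nat_lit 4) (nat_lit 533) (nat_lit 461) (nat_lit 206)))))) (XT.nd (nat_lit 57096) (nat_lit 0) (nat_lit 7676) (XT.nd (nat_lit 234) (nat_lit 76) (nat_lit 0) (XT.nd (nat_lit 78) (nat_lit 152) (nat_lit 0) (XT.lf (nat_lit 0) (nat_lit 484137569607) (nat_lit 152) (nat_lit 211389500593) (nat_lit 0) (nat_lit 58668121199) (nat_lit 28) (nat_lit 5) (nat_lit 30) (nat_lit 4) (nat_lit 28) (nat_lit 4) (nat_lit 534) (nat_lit 461) (nat_lit 205)) (XT.nd (nat_lit 78) (nat_lit 76) (nat_lit 0) (XT.lf (nat_lit 0) (nat_lit 155538377540) (nat_lit 76) (nat_lit 526049719584) (nat_lit 76) (nat_lit 100580194934) (nat_lit 27) (nat_lit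 4) (nat_lit 28) (nat_lit 5) (nat_lit 28) (nat_lit 4) (nat_lit 535) (nat_lit 461) (nat_lit 204)) (XT.lf (nat_lit 0) (nat_lit 78533346058) (nat_lit 152) (nat_lit 264476237841) (nat_lit 76) (nat_lit 468288134801) (nat_lit 26) (nat_lit 5) (nat_lit 28) (nat_lit 5) (nat_lit 27) (nat_lit 4) (nat_lit 536) (nat_lit 461) (nat_lit 203)))) (XT.nd (nat_lit 56706) (nat_lit 0) (nat_lit 7600) (XT.nd (nat_lit 56628) (nat_lit 0) (nat_lit 7600) (XT.lf (nat_lit 0) (nat_lit 117909992699) (nat_lit 76) (nat_lit 147153255648) (nat_lit 152) (nat_lit 576645883631) (nat_lit 25) (nat_lit 5) (nat_lit 26) (nat_lit 5) (nat_lit 27) (nat_lit 4) (nat_lit 537) (nat_lit 461) (nat_lit 202)) (XT.lf (nat_lit 0) (nat_lit 13934493674) (nat_lit 836) (nat_lit 13958300462) (nat_lit 836) (nat_lit 13958300462) (nat_lit 125) (nat_lit 3) (nat_lit 136) (nat_lit 3) (nat_lit 136) (nat_lit 5) (nat_lit 462) (nat_lit 462) (nat_lit 276))) (XT.nd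 (nat_lit 78) (nat_lit 0) (nat_lit 76) (XT.lf (nat_lit 76) (nat_lit 13520562304) (nat_lit 0) (nat_lit 15265381841) (nat_lit 836) (nat_lit 56997784622) (nat_lit 126) (nat_lit 5) (nat_lit 125) (nat_lit 3) (nat_lit 136) (nat_lit 5) (nat_lit 463) (nat_lit 462) (nat_lit 275)) (XT.lf (nat_lit 0) (nat_lit 30654625064) (nat_lit 760) (nat_lit 30380953369) (nat_lit 836) (nat_lit 26888473295) (nat_lit 126) (nat_lit 5) (nat_lit 136) (nat_lit 5) (nat_lit 137) (nat_lit 5) (nat_lit 464) (nat_lit 462) (nat_lit 274))))) (XT.nd (nat_lit 234) (nat_lit 0) (nat_lit 152) (XT.nd (nat_lit 78) (nat_lit 0) (nat_lit 76) (XT.lf (nat_lit 76) (nat_lit 13786022407) (nat_lit 0) (nat_lit 19295650455) (nat_lit 836) (nat_lit 57066471550) (nat_lit 127) (nat_lit 5) (nat_lit 126) (nat_lit 5) (nat_lit 137) (nat_lit 5) (nat_lit 465) (nat_lit 462) (nat_lit 273)) (XT.nd (nat_lit 78) (nat_lit 0) (nat_lit 0) (XT.lf (nat_lit 0) (nat_lit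 36535492702) (nat_lit 760) (nat_lit 31633406963) (nat_lit 836) (nat_lit 24269271289) (nat_lit 127) (nat_lit 5) (nat_lit 137) (nat_lit 5) (nat_lit 138) (nat_lit 5) (nat_lit 466) (nat_lit 462) (nat_lit 272)) (XT.lf (nat_lit 76) (nat_lit 15511545658) (nat_lit 0) (nat_lit 25208450980) (nat_lit 836) (nat_lit 54094802725) (nat_lit 128) (nat_lit 5) (nat_lit 127) (nat_lit 5) (nat_lit 138) (nat_lit 5) (nat_lit 467) (nat_lit 462) (nat_lit 271)))) (XT.nd (nat_lit 156) (nat_lit 0) (nat_lit 76) (XT.nd (nat_lit 78) (nat_lit 0) (nat_lit 0) (XT.lf (nat_lit 0) (nat_lit 45968443880) (nat_lit 760) (nat_lit 31491327812) (nat_lit 836) (nat_lit 19807751785) (nat_lit 128) (nat_lit 5) (nat_lit 138) (nat_lit 5) (nat_lit 139) (nat_lit 5) (nat_lit 468) (nat_lit 462) (nat_lit 270)) (XT.lf (nat_lit 76) (nat_lit 18902595673) (nat_lit 0) (nat_lit 33284630321) (nat_lit 836) (nat_lit 47620262354) (nat_lit 129) (nat_lit 5)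 (nat_lit 128) (nat_lit 5) (nat_lit 139) (nat_lit 5) (nat_lit 469) (nat_lit 462) (nat_lit 269))) (XT.nd (nat_lit 78) (nat_lit 0) (nat_lit 0) (XT.lf (nat_lit 0) (nat_lit 59463082449) (nat_lit 760) (nat_lit 29751886621) (nat_lit 836) (nat_lit 13222175801) (nat_lit 129) (nat_lit 5) (nat_lit 139) (nat_lit 5) (nat_lit 140) (nat_lit 5) (nat_lit 470) (nat_lit 462) (nat_lit 268)) (XT.lf (nat_lit 76) (nat_lit 24186904356) (nat_lit 0) (nat_lit 43838678703) (nat_lit 836) (nat_lit 37126558756) (nat_lit 130) (nat_lit 5) (nat_lit 129) (nat_lit 5) (nat_lit 140) (nat_lit 5) (nat_lit 471) (nat_lit 462) (nat_lit 267))))))) (XT.nd (nat_lit 1092) (nat_lit 2128) (nat_lit 0) (XT.nd (nat_lit 546) (nat_lit 1292) (nat_lit 0) (XT.nd (nat_lit 234) (nat_lit 836) (nat_lit 0) (XT.nd (nat_lit 78) (nat_lit 760) (nat_lit 0) (XT.lf (nat_lit 0) (nat_lit 77587352493) (nat_lit 760) (nat_lit 26190195018) (nat_lit 76) (nat_lit 4196784060)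 (nat_lit 130) (nat_lit 5) (nat_lit 140) (nat_lit 5) (nat_lit 131) (nat_lit 5) (nat_lit 472) (nat_lit 462) (nat_lit 266)) (XT.nd (nat_lit 78) (nat_lit 0) (nat_lit 0) (XT.lf (nat_lit 0) (nat_lit 31616512113) (nat_lit 760) (nat_lit 57222599101) (nat_lit 836) (nat_lit 22037924706) (nat_lit 120) (nat_lit 5) (nat_lit 130) (nat_lit 5) (nat_lit 131) (nat_lit 5) (nat_lit 473) (nat_lit 462) (nat_lit 265)) (XT.lf (nat_lit 0) (nat_lit 93222478217) (nat_lit 760) (nat_lit 7874148047) (nat_lit 836) (nat_lit 12806090943) (nat_lit 120) (nat_lit 5) (nat_lit 130) (nat_lit 5) (nat_lit 131) (nat_lit 5) (nat_lit 474) (nat_lit 462) (nat_lit 264)))) (XT.nd (nat_lit 156) (nat_lit 380) (nat_lit 0) (XT.nd (nat_lit 78) (nat_lit 76) (nat_lit 0) (XT.lf (nat_lit 0) (nat_lit 41469961229) (nat_lit 380) (nat_lit 73830214784) (nat_lit 456) (nat_lit 1712848731) (nat_lit 115) (nat_lit 5) (nat_lit 120) (nat_lit 5) (nat_lit 121)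 (nat_lit 5) (nat_lit 475) (nat_lit 462) (nat_lit 263)) (XT.lf (nat_lit 0) (nat_lit 10101776576) (nat_lit 456) (nat_lit 13105982723) (nat_lit 76) (nat_lit 97039097537) (nat_lit 114) (nat_lit 5) (nat_lit 120) (nat_lit 5) (nat_lit 115) (nat_lit 5) (nat_lit 476) (nat_lit 462) (nat_lit 262))) (XT.nd (nat_lit 78) (nat_lit 0) (nat_lit 0) (XT.lf (nat_lit 0) (nat_lit 23776653189) (nat_lit 456) (nat_lit 69922643607) (nat_lit 76) (nat_lit 29875325726) (nat_lit 109) (nat_lit 5) (nat_lit 115) (nat_lit 5) (nat_lit 110) (nat_lit 5) (nat_lit 477) (nat_lit 462) (nat_lit 261)) (XT.lf (nat_lit 0) (nat_lit 38741000031) (nat_lit 456) (nat_lit 3239267129) (nat_lit 76) (nat_lit 85058223123) (nat_lit 109) (nat_lit 5) (nat_lit 115) (nat_lit 5) (nat_lit 110) (nat_lit 5) (nat_lit 478) (nat_lit 462) (nat_lit 260))))) (XT.nd (nat_lit 234) (nat_lit 608) (nat_lit 0) (XT.nd (nat_lit 78) (nat_lit 304) (nat_lit 0) (XT.lf (nat_lit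 0) (nat_lit 55740399697) (nat_lit 456) (nat_lit 61845861903) (nat_lit 76) (nat_lit 13024948162) (nat_lit 104) (nat_lit 5) (nat_lit 110) (nat_lit 5) (nat_lit 105) (nat_lit 5) (nat_lit 479) (nat_lit 462) (nat_lit 259)) (XT.nd (nat_lit 78) (nat_lit 0) (nat_lit 0) (XT.lf (nat_lit 0) (nat_lit 9745305021) (nat_lit 304) (nat_lit 64740276048) (nat_lit 380) (nat_lit 59832193658) (nat_lit 100) (nat_lit 5) (nat_lit 104) (nat_lit 5) (nat_lit 105) (nat_lit 5) (nat_lit 480) (nat_lit 462) (nat_lit 258)) (XT.lf (nat_lit 0) (nat_lit 87062847865) (nat_lit 304) (nat_lit 8152273525) (nat_lit 380) (nat_lit 42942191653) (nat_lit 100) (nat_lit 5) (nat_lit 104) (nat_lit 5) (nat_lit 105) (nat_lit 5) (nat_lit 481) (nat_lit 462) (nat_lit 257)))) (XT.nd (nat_lit 156) (nat_lit 304) (nat_lit 0) (XT.nd (nat_lit 78) (nat_lit 0) (nat_lit 0) (XT.lf (nat_lit 0) (nat_lit 26091819816) (nat_lit 304) (nat_lit 92096801138) (nat_lit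 380) (nat_lit 23939833298) (nat_lit 96) (nat_lit 5) (nat_lit 100) (nat_lit 5) (nat_lit 101) (nat_lit 5) (nat_lit 482) (nat_lit 462) (nat_lit 256)) (XT.lf (nat_lit 0) (nat_lit 108772917515) (nat_lit 304) (nat_lit 34534407339) (nat_lit 380) (nat_lit 2941001286) (nat_lit 96) (nat_lit 5) (nat_lit 100) (nat_lit 5) (nat_lit 101) (nat_lit 5) (nat_lit 483) (nat_lit 462) (nat_lit 255))) (XT.nd (nat_lit 78) (nat_lit 0) (nat_lit 0) (XT.lf (nat_lit 0) (nat_lit 19638337654) (nat_lit 304) (nat_lit 104750683859) (nat_lit 76) (nat_lit 26113147224) (nat_lit 92) (nat_lit 5) (nat_lit 96) (nat_lit 5) (nat_lit 93) (nat_lit 5) (nat_lit 484) (nat_lit 462) (nat_lit 254)) (XT.lf (nat_lit 0) (nat_lit 44458759634) (nat_lit 304) (nat_lit 21121264170) (nat_lit 76) (nat_lit 89325721427) (nat_lit 92) (nat_lit 5) (nat_lit 96) (nat_lit 5) (nat_lit 93) (nat_lit 5) (nat_lit 485) (nat_lit 462) (nat_lit 253)))))) (XT.nd (nat_lit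 546) (nat_lit 1064) (nat_lit 0) (XT.nd (nat_lit 234) (nat_lit 532) (nat_lit 0) (XT.nd (nat_lit 78) (nat_lit 228) (nat_lit 0) (XT.lf (nat_lit 0) (nat_lit 68894368702) (nat_lit 304) (nat_lit 2701226931) (nat_lit 380) (nat_lit 87880135341) (nat_lit 88) (nat_lit 5) (nat_lit 92) (nat_lit 5) (nat_lit 93) (nat_lit 5) (nat_lit 486) (nat_lit 462) (nat_lit 252)) (XT.nd (nat_lit 78) (nat_lit 228) (nat_lit 0) (XT.lf (nat_lit 0) (nat_lit 101441226843) (nat_lit 380) (nat_lit 1107068999) (nat_lit 76) (nat_lit 61658322559) (nat_lit 88) (nat_lit 5) (nat_lit 93) (nat_lit 5) (nat_lit 89) (nat_lit 5) (nat_lit 487) (nat_lit 462) (nat_lit 251)) (XT.lf (nat_lit 0) (nat_lit 95864624522) (nat_lit 228) (nat_lit 38455288606) (nat_lit 304) (nat_lit 34777098459) (nat_lit 85) (nat_lit 5) (nat_lit 88) (nat_lit 5) (nat_lit 89) (nat_lit 5) (nat_lit 488) (nat_lit 462) (nat_lit 250)))) (XT.nd (nat_lit 156) (nat_lit 228) (nat_lit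 0) (XT.nd (nat_lit 78) (nat_lit 76) (nat_lit 0) (XT.lf (nat_lit 0) (nat_lit 23803283153) (nat_lit 228) (nat_lit 145880033421) (nat_lit 304) (nat_lit 4506568777) (nat_lit 82) (nat_lit 5) (nat_lit 85) (nat_lit 5) (nat_lit 86) (nat_lit 5) (nat_lit 489) (nat_lit 462) (nat_lit 249)) (XT.lf (nat_lit 0) (nat_lit 28295192288) (nat_lit 304) (nat_lit 52319121664) (nat_lit 76) (nat_lit 98807257262) (nat_lit 81) (nat_lit 5) (nat_lit 85) (nat_lit 5) (nat_lit 82) (nat_lit 5) (nat_lit 490) (nat_lit 462) (nat_lit 248))) (XT.nd (nat_lit 78) (nat_lit 0) (nat_lit 0) (XT.lf (nat_lit 0) (nat_lit 52249885954) (nat_lit 228) (nat_lit 11151265481) (nat_lit 304) (nat_lit 121469218066) (nat_lit 78) (nat_lit 5) (nat_lit 81) (nat_lit 5) (nat_lit 82) (nat_lit 5) (nat_lit 491) (nat_lit 462) (nat_lit 247)) (XT.lf (nat_lit 0) (nat_lit 102127416764) (nat_lit 304) (nat_lit 27663016415) (nat_lit 76) (nat_lit 60707924163) (nat_lit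 78) (nat_lit 5) (nat_lit 82) (nat_lit 5) (nat_lit 79) (nat_lit 5) (nat_lit 492) (nat_lit 462) (nat_lit 246))))) (XT.nd (nat_lit 312) (nat_lit 380) (nat_lit 0) (XT.nd (nat_lit 156) (nat_lit 304) (nat_lit 0) (XT.nd (nat_lit 78) (nat_lit 152) (nat_lit 0) (XT.lf (nat_lit 0) (nat_lit 85082403254) (nat_lit 228) (nat_lit 59218581334) (nat_lit 304) (nat_lit 52031210572) (nat_lit 75) (nat_lit 5) (nat_lit 78) (nat_lit 5) (nat_lit 79) (nat_lit 5) (nat_lit 493) (nat_lit 462) (nat_lit 245)) (XT.lf (nat_lit 0) (nat_lit 1808770093) (nat_lit 152) (nat_lit 187511025280) (nat_lit 228) (nat_lit 13101101313) (nat_lit 73) (nat_lit 5) (nat_lit 75) (nat_lit 5) (nat_lit 76) (nat_lit 5) (nat_lit 494) (nat_lit 462) (nat_lit 244))) (XT.nd (nat_lit 78) (nat_lit 228) (nat_lit 0) (XT.lf (nat_lit 0) (nat_lit 29772087279) (nat_lit 228) (nat_lit 85772851119) (nat_lit 76) (nat_lit 93103134063) (nat_lit 72) (nat_lit 5) (nat_lit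 75) (nat_lit 5) (nat_lit 73) (nat_lit 5) (nat_lit 495) (nat_lit 462) (nat_lit 243)) (XT.lf (nat_lit 0) (nat_lit 35737155129) (nat_lit 228) (nat_lit 39169275273) (nat_lit 304) (nat_lit 140241549155) (nat_lit 69) (nat_lit 5) (nat_lit 72) (nat_lit 5) (nat_lit 73) (nat_lit 5) (nat_lit 496) (nat_lit 462) (nat_lit 242)))) (XT.nd (nat_lit 156) (nat_lit 228) (nat_lit 0) (XT.nd (nat_lit 78) (nat_lit 152) (nat_lit 0) (XT.lf (nat_lit 0) (nat_lit 124414250244) (nat_lit 304) (nat_lit 56264357358) (nat_lit 76) (nat_lit 41188436464) (nat_lit 69) (nat_lit 5) (nat_lit 73) (nat_lit 5) (nat_lit 70) (nat_lit 5) (nat_lit 497) (nat_lit 462) (nat_lit 241)) (XT.lf (nat_lit 0) (nat_lit 74790824494) (nat_lit 152) (nat_lit 103416282355) (nat_lit 228) (nat_lit 50624472698) (nat_lit 67) (nat_lit 5) (nat_lit 69) (nat_lit 5) (nat_lit 70) (nat_lit 5) (nat_lit 498) (nat_lit 462) (nat_lit 240))) (XT.nd (nat_lit 78) (nat_lit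 228) (nat_lit 0) (XT.lf (nat_lit 0) (nat_lit 214351878353) (nat_lit 152) (nat_lit 21290428142) (nat_lit 228) (nat_lit 454400333) (nat_lit 67) (nat_lit 5) (nat_lit 69) (nat_lit 5) (nat_lit 70) (nat_lit 5) (nat_lit 499) (nat_lit 462) (nat_lit 239)) (XT.lf (nat_lit 0) (nat_lit 53487186214) (nat_lit 228) (nat_lit 124451208117) (nat_lit 76) (nat_lit 65599202367) (nat_lit 64) (nat_lit 5) (nat_lit 67) (nat_lit 5) (nat_lit 65) (nat_lit 5) (nat_lit 500) (nat_lit 462) (nat_lit 238))))))))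
noncomputable def xc216 : XT := (XT.nd (nat_lit 2184) (nat_lit 456) (nat_lit 0) (XT.nd (nat_lit 1092) (nat_lit 1064) (nat_lit 0) (XT.nd (nat_lit 546) (nat_lit 684) (nat_lit 0) (XT.nd (nat_lit 234) (nat_lit 380) (nat_lit 0) (XT.nd (nat_lit 78) (nat_lit 152) (nat_lit 0) (XT.lf (nat_lit 0) (nat_lit 16548883960) (nat_lit 152) (nat_lit 94543234952) (nat_lit 228) (nat_lit 140208962837) (nat_lit 62) (nat_lit 5) (nat_lit 64) (nat_lit 5) (nat_lit 65) (nat_lit 5) (nat_lit 501) (nat_lit 462) (nat_lit 237)) (XT.nd (nat_lit 78) (nat_lit 152) (nat_lit 0) (XT.lf (nat_lit 0) (nat_lit 168919395889) (nat_lit 152) (nat_lit 4765390892) (nat_lit 228) (nat_lit 85662579873) (nat_lit 62) (nat_lit 5) (nat_lit 64) (nat_lit 5) (nat_lit 65) (nat_lit 5) (nat_lit 502) (nat_lit 462) (nat_lit 236)) (XT.lf (nat_lit 0) (nat_lit 61689299976) (nat_lit 152) (nat_lit 180078150703) (nat_lit 228) (nat_lit 25910497021) (nat_lit 60)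 (nat_lit 5) (nat_lit 62) (nat_lit 5) (nat_lit 63) (nat_lit 5) (nat_lit 503) (nat_lit 462) (nat_lit 235)))) (XT.nd (nat_lit 156) (nat_lit 152) (nat_lit 0) (XT.nd (nat_lit 78) (nat_lit 152) (nat_lit 0) (XT.lf (nat_lit 0) (nat_lit 37284947919) (nat_lit 228) (nat_lit 52475074731) (nat_lit 76) (nat_lit 186554558727) (nat_lit 59) (nat_lit 5) (nat_lit 62) (nat_lit 5) (nat_lit 60) (nat_lit 5) (nat_lit 504) (nat_lit 462) (nat_lit 234)) (XT.lf (nat_lit 0) (nat_lit 104630677173) (nat_lit 228) (nat_lit 173519588682) (nat_lit 76) (nat_lit 7118479060) (nat_lit 57) (nat_lit 5) (nat_lit 60) (nat_lit 5) (nat_lit 58) (nat_lit 5) (nat_lit 505) (nat_lit 462) (nat_lit 233))) (XT.nd (nat_lit 78) (nat_lit 152) (nat_lit 0) (XT.lf (nat_lit 0) (nat_lit 177718290541) (nat_lit 228) (nat_lit 10106046283) (nat_lit 76) (nat_lit 106727549944) (nat_lit 57) (nat_lit 5) (nat_lit 60) (nat_lit 5) (nat_lit 58) (nat_lit 5) (nat_lit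 506) (nat_lit 462) (nat_lit 232)) (XT.lf (nat_lit 0) (nat_lit 166817140121) (nat_lit 152) (nat_lit 90247496457) (nat_lit 228) (nat_lit 47104331558) (nat_lit 55) (nat_lit 5) (nat_lit 57) (nat_lit 5) (nat_lit 58) (nat_lit 5) (nat_lit 507) (nat_lit 462) (nat_lit 231))))) (XT.nd (nat_lit 234) (nat_lit 304) (nat_lit 0) (XT.nd (nat_lit 78) (nat_lit 152) (nat_lit 0) (XT.lf (nat_lit 0) (nat_lit 26276981313) (nat_lit 228) (nat_lit 274883603411) (nat_lit 76) (nat_lit 13035869626) (nat_lit 52) (nat_lit 5) (nat_lit 55) (nat_lit 5) (nat_lit 53) (nat_lit 5) (nat_lit 508) (nat_lit 462) (nat_lit 230)) (XT.nd (nat_lit 78) (nat_lit 152) (nat_lit 0) (XT.lf (nat_lit 0) (nat_lit 105587936283) (nat_lit 228) (nat_lit 97319727600) (nat_lit 76) (nat_lit 121586861360) (nat_lit 52) (nat_lit 5) (nat_lit 55) (nat_lit 5) (nat_lit 53) (nat_lit 5) (nat_lit 509) (nat_lit 462) (nat_lit 229)) (XT.lf (nat_lit 0) (nat_lit 92068907300)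 (nat_lit 152) (nat_lit 98232862454) (nat_lit 228) (nat_lit 144933863404) (nat_lit 50) (nat_lit 5) (nat_lit 52) (nat_lit 5) (nat_lit 53) (nat_lit 5) (nat_lit 510) (nat_lit 462) (nat_lit 228)))) (XT.nd (nat_lit 156) (nat_lit 152) (nat_lit 0) (XT.nd (nat_lit 78) (nat_lit 152) (nat_lit 0) (XT.lf (nat_lit 0) (nat_lit 281108638834) (nat_lit 228) (nat_lit 52335218401) (nat_lit 76) (nat_lit 12977072055) (nat_lit 50) (nat_lit 5) (nat_lit 53) (nat_lit 5) (nat_lit 51) (nat_lit 4) (nat_lit 511) (nat_lit 462) (nat_lit 227)) (XT.lf (nat_lit 0) (nat_lit 21742059123) (nat_lit 152) (nat_lit 207048737815) (nat_lit 76) (nat_lit 129158559927) (nat_lit 48) (nat_lit 5) (nat_lit 50) (nat_lit 5) (nat_lit 49) (nat_lit 5) (nat_lit 512) (nat_lit 462) (nat_lit 226))) (XT.nd (nat_lit 78) (nat_lit 152) (nat_lit 0) (XT.lf (nat_lit 0) (nat_lit 111854941576) (nat_lit 152) (nat_lit 4980109988) (nat_lit 76) (nat_lit 253120582774)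 (nat_lit 48) (nat_lit 5) (nat_lit 50) (nat_lit 5) (nat_lit 49) (nat_lit 5) (nat_lit 513) (nat_lit 462) (nat_lit 225)) (XT.lf (nat_lit 0) (nat_lit 209881160432) (nat_lit 228) (nat_lit 168418692877) (nat_lit 76) (nat_lit 4091987773) (nat_lit 46) (nat_lit 5) (nat_lit 49) (nat_lit 5) (nat_lit 47) (nat_lit 4) (nat_lit 514) (nat_lit 462) (nat_lit 224)))))) (XT.nd (nat_lit 546) (nat_lit 456) (nat_lit 0) (XT.nd (nat_lit 234) (nat_lit 304) (nat_lit 0) (XT.nd (nat_lit 78) (nat_lit 228) (nat_lit 0) (XT.lf (nat_lit 0) (nat_lit 48228015493) (nat_lit 76) (nat_lit 267334592037) (nat_lit 152) (nat_lit 79749554783) (nat_lit 45) (nat_lit 5) (nat_lit 46) (nat_lit 5) (nat_lit 47) (nat_lit 4) (nat_lit 515) (nat_lit 462) (nat_lit 223)) (XT.nd (nat_lit 78) (nat_lit 152) (nat_lit 0) (XT.lf (nat_lit 0) (nat_lit 19983630666) (nat_lit 152) (nat_lit 127504226997) (nat_lit 76) (nat_lit 261231918866) (nat_lit 44) (nat_lit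 5) (nat_lit 46) (nat_lit 5) (nat_lit 45) (nat_lit 5) (nat_lit 516) (nat_lit 462) (nat_lit 222)) (XT.lf (nat_lit 0) (nat_lit 105111350509) (nat_lit 152) (nat_lit 18552996123) (nat_lit 228) (nat_lit 298986007385) (nat_lit 42) (nat_lit 5) (nat_lit 44) (nat_lit 5) (nat_lit 45) (nat_lit 5) (nat_lit 517) (nat_lit 462) (nat_lit 221)))) (XT.nd (nat_lit 156) (nat_lit 228) (nat_lit 0) (XT.nd (nat_lit 78) (nat_lit 76) (nat_lit 0) (XT.lf (nat_lit 0) (nat_lit 236547762488) (nat_lit 228) (nat_lit 85244737404) (nat_lit 76) (nat_lit 115284027294) (nat_lit 42) (nat_lit 5) (nat_lit 45) (nat_lit 5) (nat_lit 43) (nat_lit 4) (nat_lit 518) (nat_lit 462) (nat_lit 220)) (XT.lf (nat_lit 0) (nat_lit 163596008526) (nat_lit 76) (nat_lit 194337582363) (nat_lit 152) (nat_lit 94147506049) (nat_lit 41) (nat_lit 5) (nat_lit 42) (nat_lit 5) (nat_lit 43) (nat_lit 4) (nat_lit 519) (nat_lit 462) (nat_lit 219))) (XT.nd (nat_lit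 78) (nat_lit 152) (nat_lit 0) (XT.lf (nat_lit 0) (nat_lit 18458245683) (nat_lit 152) (nat_lit 40223311083) (nat_lit 76) (nat_lit 409067274493) (nat_lit 40) (nat_lit 5) (nat_lit 42) (nat_lit 5) (nat_lit 41) (nat_lit 5) (nat_lit 520) (nat_lit 462) (nat_lit 218)) (XT.lf (nat_lit 0) (nat_lit 138451860094) (nat_lit 228) (nat_lit 259191047699) (nat_lit 76) (nat_lit 86233796992) (nat_lit 38) (nat_lit 5) (nat_lit 41) (nat_lit 5) (nat_lit 39) (nat_lit 4) (nat_lit 521) (nat_lit 462) (nat_lit 217))))) (XT.nd (nat_lit 234) (nat_lit 228) (nat_lit 0) (XT.nd (nat_lit 78) (nat_lit 152) (nat_lit 0) (XT.lf (nat_lit 0) (nat_lit 2568500065) (nat_lit 76) (nat_lit 263571025488) (nat_lit 152) (nat_lit 234586727927) (nat_lit 37) (nat_lit 5) (nat_lit 38) (nat_lit 5) (nat_lit 39) (nat_lit 4) (nat_lit 522) (nat_lit 462) (nat_lit 216)) (XT.nd (nat_lit 78) (nat_lit 152) (nat_lit 0) (XT.lf (nat_lit 0) (nat_lit 286414383622)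 (nat_lit 76) (nat_lit 118186625861) (nat_lit 152) (nat_lit 113597798374) (nat_lit 37) (nat_lit 5) (nat_lit 38) (nat_lit 5) (nat_lit 39) (nat_lit 4) (nat_lit 523) (nat_lit 462) (nat_lit 215)) (XT.lf (nat_lit 0) (nat_lit 14333800014) (nat_lit 152) (nat_lit 487775554514) (nat_lit 76) (nat_lit 34358972939) (nat_lit 35) (nat_lit 5) (nat_lit 37) (nat_lit 5) (nat_lit 36) (nat_lit 4) (nat_lit 524) (nat_lit 462) (nat_lit 214)))) (XT.nd (nat_lit 156) (nat_lit 152) (nat_lit 0) (XT.nd (nat_lit 78) (nat_lit 76) (nat_lit 0) (XT.lf (nat_lit 0) (nat_lit 150771477712) (nat_lit 152) (nat_lit 208078452152) (nat_lit 76) (nat_lit 196411923736) (nat_lit 35) (nat_lit 5) (nat_lit 37) (nat_lit 5) (nat_lit 36) (nat_lit 4) (nat_lit 525) (nat_lit 462) (nat_lit 213)) (XT.lf (nat_lit 0) (nat_lit 88433781651) (nat_lit 76) (nat_lit 206977873720) (nat_lit 152) (nat_lit 279514369869) (nat_lit 34) (nat_lit 5) (nat_lit 35) (nat_lit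 5) (nat_lit 36) (nat_lit 4) (nat_lit 526) (nat_lit 462) (nat_lit 212))) (XT.nd (nat_lit 78) (nat_lit 152) (nat_lit 0) (XT.lf (nat_lit 0) (nat_lit 406995486713) (nat_lit 76) (nat_lit 43812182927) (nat_lit 152) (nat_lit 144589544444) (nat_lit 34) (nat_lit 5) (nat_lit 35) (nat_lit 5) (nat_lit 36) (nat_lit 4) (nat_lit 527) (nat_lit 462) (nat_lit 211)) (XT.lf (nat_lit 0) (nat_lit 1208179053) (nat_lit 152) (nat_lit 490056903727) (nat_lit 76) (nat_lit 125427495511) (nat_lit 32) (nat_lit 5) (nat_lit 34) (nat_lit 5) (nat_lit 33) (nat_lit 4) (nat_lit 528) (nat_lit 462) (nat_lit 210))))))) (XT.nd (nat_lit 57720) (nat_lit 0) (nat_lit 5624) (XT.nd (nat_lit 546) (nat_lit 152) (nat_lit 0) (XT.nd (nat_lit 234) (nat_lit 228) (nat_lit 0) (XT.nd (nat_lit 78) (nat_lit 76) (nat_lit 0) (XT.lf (nat_lit 0) (nat_lit 153397766393) (nat_lit 152) (nat_lit 178068356958) (nat_lit 76) (nat_lit 307270014618) (nat_lit 32)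 (nat_lit 5) (nat_lit 34) (nat_lit 5) (nat_lit 33) (nat_lit 4) (nat_lit 529) (nat_lit 462) (nat_lit 209)) (XT.nd (nat_lit 78) (nat_lit 0) (nat_lit 0) (XT.lf (nat_lit 0) (nat_lit 154463263287) (nat_lit 76) (nat_lit 161145099406) (nat_lit 152) (nat_lit 346152936464) (nat_lit 31) (nat_lit 5) (nat_lit 32) (nat_lit 5) (nat_lit 33) (nat_lit 4) (nat_lit 530) (nat_lit 462) (nat_lit 208)) (XT.lf (nat_lit 0) (nat_lit 489270746686) (nat_lit 152) (nat_lit 176309140755) (nat_lit 0) (nat_lit 20190768075) (nat_lit 31) (nat_lit 5) (nat_lit 33) (nat_lit 4) (nat_lit 31) (nat_lit 4) (nat_lit 531) (nat_lit 462) (nat_lit 207)))) (XT.nd (nat_lit 156) (nat_lit 76) (nat_lit 0) (XT.nd (nat_lit 78) (nat_lit 76) (nat_lit 0) (XT.lf (nat_lit 0) (nat_lit 174161598558) (nat_lit 76) (nat_lit 502815453939) (nat_lit 76) (nat_lit 33735387069) (nat_lit 30) (nat_lit 4) (nat_lit 31) (nat_lit 5) (nat_lit 31) (nat_lit 4) (nat_lit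 532) (nat_lit 462) (nat_lit 206)) (XT.lf (nat_lit 0) (nat_lit 135811907255) (nat_lit 152) (nat_lit 190665741051) (nat_lit 76) (nat_lit 410164848238) (nat_lit 29) (nat_lit 5) (nat_lit 31) (nat_lit 5) (nat_lit 30) (nat_lit 4) (nat_lit 533) (nat_lit 462) (nat_lit 205))) (XT.nd (nat_lit 78) (nat_lit 0) (nat_lit 0) (XT.lf (nat_lit 0) (nat_lit 177646233596) (nat_lit 76) (nat_lit 137830090587) (nat_lit 152) (nat_lit 448226405832) (nat_lit 28) (nat_lit 5) (nat_lit 29) (nat_lit 5) (nat_lit 30) (nat_lit 4) (nat_lit 534) (nat_lit 462) (nat_lit 204)) (XT.lf (nat_lit 0) (nat_lit 508346514966) (nat_lit 152) (nat_lit 221954967313) (nat_lit 0) (nat_lit 61603365232) (nat_lit 28) (nat_lit 5) (nat_lit 30) (nat_lit 4) (nat_lit 28) (nat_lit 4) (nat_lit 535) (nat_lit 462) (nat_lit 203))))) (XT.nd (nat_lit 56862) (nat_lit 0) (nat_lit 7524) (XT.nd (nat_lit 78) (nat_lit 76) (nat_lit 0) (XT.lf (nat_lit 0) (nat_lit 163319240077)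 (nat_lit 76) (nat_lit 552350291929) (nat_lit 76) (nat_lit 105607073042) (nat_lit 27) (nat_lit 4) (nat_lit 28) (nat_lit 5) (nat_lit 28) (nat_lit 4) (nat_lit 536) (nat_lit 462) (nat_lit 202)) (XT.nd (nat_lit 56706) (nat_lit 0) (nat_lit 7524) (XT.lf (nat_lit 0) (nat_lit 82461978516) (nat_lit 152) (nat_lit 277696228788) (nat_lit 76) (nat_lit 491704298972) (nat_lit 26) (nat_lit 5) (nat_lit 28) (nat_lit 5) (nat_lit 27) (nat_lit 4) (nat_lit 537) (nat_lit 462) (nat_lit 201)) (XT.lf (nat_lit 0) (nat_lit 14640213929) (nat_lit 836) (nat_lit 14651491060) (nat_lit 836) (nat_lit 14651491060) (nat_lit 125) (nat_lit 3) (nat_lit 136) (nat_lit 3) (nat_lit 136) (nat_lit 5) (nat_lit 463) (nat_lit 463) (nat_lit 274)))) (XT.nd (nat_lit 156) (nat_lit 0) (nat_lit 76) (XT.nd (nat_lit 78) (nat_lit 0) (nat_lit 76) (XT.lf (nat_lit 76) (nat_lit 14205886868) (nat_lit 0) (nat_lit 16036634050) (nat_lit 836) (nat_lit 59829523643)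 (nat_lit 126) (nat_lit 5) (nat_lit 125) (nat_lit 3) (nat_lit 136) (nat_lit 5) (nat_lit 464) (nat_lit 463) (nat_lit 273)) (XT.lf (nat_lit 0) (nat_lit 32203694343) (nat_lit 760) (nat_lit 31890199387) (nat_lit 836) (nat_lit 28225537334) (nat_lit 126) (nat_lit 5) (nat_lit 136) (nat_lit 5) (nat_lit 137) (nat_lit 5) (nat_lit 465) (nat_lit 463) (nat_lit 272))) (XT.nd (nat_lit 78) (nat_lit 0) (nat_lit 76) (XT.lf (nat_lit 76) (nat_lit 14484967086) (nat_lit 0) (nat_lit 20266500005) (nat_lit 836) (nat_lit 59903292965) (nat_lit 127) (nat_lit 5) (nat_lit 126) (nat_lit 5) (nat_lit 137) (nat_lit 5) (nat_lit 466) (nat_lit 463) (nat_lit 271)) (XT.lf (nat_lit 0) (nat_lit 38377139588) (nat_lit 760) (nat_lit 33205048874) (nat_lit 836) (nat_lit 25477141668) (nat_lit 127) (nat_lit 5) (nat_lit 137) (nat_lit 5) (nat_lit 138) (nat_lit 5) (nat_lit 467) (nat_lit 463) (nat_lit 270)))))) (XT.nd (nat_lit 546) (nat_lit 1520)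 (nat_lit 0) (XT.nd (nat_lit 234) (nat_lit 532) (nat_lit 0) (XT.nd (nat_lit 78) (nat_lit 0) (nat_lit 76) (XT.lf (nat_lit 76) (nat_lit 16296989629) (nat_lit 0) (nat_lit 26473324937) (nat_lit 836) (nat_lit 56784503377) (nat_lit 128) (nat_lit 5) (nat_lit 127) (nat_lit 5) (nat_lit 138) (nat_lit 5) (nat_lit 468) (nat_lit 463) (nat_lit 269)) (XT.nd (nat_lit 78) (nat_lit 0) (nat_lit 0) (XT.lf (nat_lit 0) (nat_lit 48280436166) (nat_lit 760) (nat_lit 33055744130) (nat_lit 836) (nat_lit 20794035627) (nat_lit 128) (nat_lit 5) (nat_lit 138) (nat_lit 5) (nat_lit 139) (nat_lit 5) (nat_lit 469) (nat_lit 463) (nat_lit 268)) (XT.lf (nat_lit 76) (nat_lit 19857711819) (nat_lit 0) (nat_lit 34951955287) (nat_lit 836) (nat_lit 49987536694) (nat_lit 129) (nat_lit 5) (nat_lit 128) (nat_lit 5) (nat_lit 139) (nat_lit 5) (nat_lit 470) (nat_lit 463) (nat_lit 267)))) (XT.nd (nat_lit 156) (nat_lit 684) (nat_lit 0) (XT.nd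 (nat_lit 78) (nat_lit 0) (nat_lit 0) (XT.lf (nat_lit 0) (nat_lit 62448647538) (nat_lit 760) (nat_lit 31229296548) (nat_lit 836) (nat_lit 13880432743) (nat_lit 129) (nat_lit 5) (nat_lit 139) (nat_lit 5) (nat_lit 140) (nat_lit 5) (nat_lit 471) (nat_lit 463) (nat_lit 266)) (XT.lf (nat_lit 76) (nat_lit 25406269714) (nat_lit 0) (nat_lit 46032568909) (nat_lit 836) (nat_lit 38970306951) (nat_lit 130) (nat_lit 5) (nat_lit 129) (nat_lit 5) (nat_lit 140) (nat_lit 5) (nat_lit 472) (nat_lit 463) (nat_lit 265))) (XT.nd (nat_lit 78) (nat_lit 760) (nat_lit 0) (XT.lf (nat_lit 0) (nat_lit 81478097134) (nat_lit 760) (nat_lit 27489558088) (nat_lit 76) (nat_lit 4404819779) (nat_lit 130) (nat_lit 5) (nat_lit 140) (nat_lit 5) (nat_lit 131) (nat_lit 5) (nat_lit 473) (nat_lit 463) (nat_lit 264)) (XT.lf (nat_lit 0) (nat_lit 33207320744) (nat_lit 760) (nat_lit 60084737148) (nat_lit 836) (nat_lit 23128276176) (nat_lit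 120) (nat_lit 5) (nat_lit 130) (nat_lit 5) (nat_lit 131) (nat_lit 5) (nat_lit 474) (nat_lit 463) (nat_lit 263))))) (XT.nd (nat_lit 234) (nat_lit 1064) (nat_lit 0) (XT.nd (nat_lit 78) (nat_lit 456) (nat_lit 0) (XT.lf (nat_lit 0) (nat_lit 97893109771) (nat_lit 760) (nat_lit 8268815537) (nat_lit 836) (nat_lit 13435400475) (nat_lit 120) (nat_lit 5) (nat_lit 130) (nat_lit 5) (nat_lit 131) (nat_lit 5) (nat_lit 475) (nat_lit 463) (nat_lit 262)) (XT.nd (nat_lit 78) (nat_lit 76) (nat_lit 0) (XT.lf (nat_lit 0) (nat_lit 43553347112) (nat_lit 380) (nat_lit 77521947070) (nat_lit 456) (nat_lit 1787872620) (nat_lit 115) (nat_lit 5) (nat_lit 120) (nat_lit 5) (nat_lit 121) (nat_lit 5) (nat_lit 476) (nat_lit 463) (nat_lit 261)) (XT.lf (nat_lit 0) (nat_lit 10616654632) (nat_lit 456) (nat_lit 13751537843) (nat_lit 76) (nat_lit 101890514374) (nat_lit 114) (nat_lit 5) (nat_lit 120) (nat_lit 5) (nat_lit 115) (nat_lit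 5) (nat_lit 477) (nat_lit 463) (nat_lit 260)))) (XT.nd (nat_lit 156) (nat_lit 684) (nat_lit 0) (XT.nd (nat_lit 78) (nat_lit 0) (nat_lit 0) (XT.lf (nat_lit 0) (nat_lit 24974960381) (nat_lit 456) (nat_lit 73408713870) (nat_lit 76) (nat_lit 31369202464) (nat_lit 109) (nat_lit 5) (nat_lit 115) (nat_lit 5) (nat_lit 110) (nat_lit 5) (nat_lit 478) (nat_lit 463) (nat_lit 259)) (XT.lf (nat_lit 0) (nat_lit 40687073397) (nat_lit 456) (nat_lit 3391647707) (nat_lit 76) (nat_lit 89311239471) (nat_lit 109) (nat_lit 5) (nat_lit 115) (nat_lit 5) (nat_lit 110) (nat_lit 5) (nat_lit 479) (nat_lit 463) (nat_lit 258))) (XT.nd (nat_lit 78) (nat_lit 304) (nat_lit 0) (XT.lf (nat_lit 0) (nat_lit 58536171294) (nat_lit 456) (nat_lit 64928297559) (nat_lit 76) (nat_lit 13676860907) (nat_lit 104) (nat_lit 5) (nat_lit 110) (nat_lit 5) (nat_lit 105) (nat_lit 5) (nat_lit 480) (nat_lit 463) (nat_lit 257)) (XT.lf (nat_lit 0)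 (nat_lit 10242268720) (nat_lit 304) (nat_lit 67976077692) (nat_lit 380) (nat_lit 62814889968) (nat_lit 100) (nat_lit 5) (nat_lit 104) (nat_lit 5) (nat_lit 105) (nat_lit 5) (nat_lit 481) (nat_lit 463) (nat_lit 256))))))))
noncomputable def xc217 : XT := (XT.nd (nat_lit 2184) (nat_lit 1900) (nat_lit 0) (XT.nd (nat_lit 1092) (nat_lit 1596) (nat_lit 0) (XT.nd (nat_lit 546) (nat_lit 1140) (nat_lit 0) (XT.nd (nat_lit 234) (nat_lit 608) (nat_lit 0) (XT.nd (nat_lit 78) (nat_lit 304) (nat_lit 0) (XT.lf (nat_lit 0) (nat_lit 91425226875) (nat_lit 304) (nat_lit 8558732764) (nat_lit 380) (nat_lit 45080812308) (nat_lit 100) (nat_lit 5) (nat_lit 104) (nat_lit 5) (nat_lit 105) (nat_lit 5) (nat_lit 482) (nat_lit 463) (nat_lit 255)) (XT.nd (nat_lit 78) (nat_lit 0) (nat_lit 0) (XT.lf (nat_lit 0) (nat_lit 27405880899) (nat_lit 304) (nat_lit 96700033437) (nat_lit 380) (nat_lit 25128566999) (nat_lit 96) (nat_lit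 5) (nat_lit 100) (nat_lit 5) (nat_lit 101) (nat_lit 5) (nat_lit 483) (nat_lit 463) (nat_lit 254)) (XT.lf (nat_lit 0) (nat_lit 114220582527) (nat_lit 304) (nat_lit 36259596508) (nat_lit 380) (nat_lit 3080186623) (nat_lit 96) (nat_lit 5) (nat_lit 100) (nat_lit 5) (nat_lit 101) (nat_lit 5) (nat_lit 484) (nat_lit 463) (nat_lit 253)))) (XT.nd (nat_lit 156) (nat_lit 304) (nat_lit 0) (XT.nd (nat_lit 78) (nat_lit 0) (nat_lit 0) (XT.lf (nat_lit 0) (nat_lit 20627674484) (nat_lit 304) (nat_lit 109978749687) (nat_lit 76) (nat_lit 27420479835) (nat_lit 92) (nat_lit 5) (nat_lit 96) (nat_lit 5) (nat_lit 93) (nat_lit 5) (nat_lit 485) (nat_lit 463) (nat_lit 252)) (XT.lf (nat_lit 0) (nat_lit 46688764232) (nat_lit 304) (nat_lit 22168309888) (nat_lit 76) (nat_lit 93793602975) (nat_lit 92) (nat_lit 5) (nat_lit 96) (nat_lit 5) (nat_lit 93) (nat_lit 5) (nat_lit 486) (nat_lit 463) (nat_lit 251))) (XT.nd (nat_lit 78)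 (nat_lit 0) (nat_lit 0) (XT.lf (nat_lit 0) (nat_lit 72347959184) (nat_lit 304) (nat_lit 2834284859) (nat_lit 380) (nat_lit 92266928079) (nat_lit 88) (nat_lit 5) (nat_lit 92) (nat_lit 5) (nat_lit 93) (nat_lit 5) (nat_lit 487) (nat_lit 463) (nat_lit 250)) (XT.lf (nat_lit 0) (nat_lit 106519859526) (nat_lit 380) (nat_lit 1153673717) (nat_lit 76) (nat_lit 64743085636) (nat_lit 88) (nat_lit 5) (nat_lit 93) (nat_lit 5) (nat_lit 89) (nat_lit 5) (nat_lit 488) (nat_lit 463) (nat_lit 249))))) (XT.nd (nat_lit 234) (nat_lit 608) (nat_lit 0) (XT.nd (nat_lit 78) (nat_lit 304) (nat_lit 0) (XT.lf (nat_lit 0) (nat_lit 100666463371) (nat_lit 228) (nat_lit 40375838222) (nat_lit 304) (nat_lit 36509239147) (nat_lit 85) (nat_lit 5) (nat_lit 88) (nat_lit 5) (nat_lit 89) (nat_lit 5) (nat_lit 489) (nat_lit 463) (nat_lit 248)) (XT.nd (nat_lit 78) (nat_lit 76) (nat_lit 0) (XT.lf (nat_lit 0) (nat_lit 25002198322) (nat_lit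 228) (nat_lit 153171542031) (nat_lit 304) (nat_lit 4725324667) (nat_lit 82) (nat_lit 5) (nat_lit 85) (nat_lit 5) (nat_lit 86) (nat_lit 5) (nat_lit 490) (nat_lit 463) (nat_lit 247)) (XT.lf (nat_lit 0) (nat_lit 29716011127) (nat_lit 304) (nat_lit 54926541564) (nat_lit 76) (nat_lit 103749792581) (nat_lit 81) (nat_lit 5) (nat_lit 85) (nat_lit 5) (nat_lit 82) (nat_lit 5) (nat_lit 491) (nat_lit 463) (nat_lit 246)))) (XT.nd (nat_lit 156) (nat_lit 380) (nat_lit 0) (XT.nd (nat_lit 78) (nat_lit 0) (nat_lit 0) (XT.lf (nat_lit 0) (nat_lit 54870778755) (nat_lit 228) (nat_lit 11706332066) (nat_lit 304) (nat_lit 127536480596) (nat_lit 78) (nat_lit 5) (nat_lit 81) (nat_lit 5) (nat_lit 82) (nat_lit 5) (nat_lit 492) (nat_lit 463) (nat_lit 245)) (XT.lf (nat_lit 0) (nat_lit 107239445502) (nat_lit 304) (nat_lit 29037923347) (nat_lit 76) (nat_lit 63745622066) (nat_lit 78) (nat_lit 5) (nat_lit 82) (nat_lit 5) (nat_lit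 79) (nat_lit 5) (nat_lit 493) (nat_lit 463) (nat_lit 244))) (XT.nd (nat_lit 78) (nat_lit 152) (nat_lit 0) (XT.lf (nat_lit 0) (nat_lit 89344634339) (nat_lit 228) (nat_lit 62176914589) (nat_lit 304) (nat_lit 54626978902) (nat_lit 75) (nat_lit 5) (nat_lit 78) (nat_lit 5) (nat_lit 79) (nat_lit 5) (nat_lit 494) (nat_lit 463) (nat_lit 243)) (XT.lf (nat_lit 0) (nat_lit 1907421443) (nat_lit 152) (nat_lit 196883783008) (nat_lit 228) (nat_lit 13750464835) (nat_lit 73) (nat_lit 5) (nat_lit 75) (nat_lit 5) (nat_lit 76) (nat_lit 5) (nat_lit 495) (nat_lit 463) (nat_lit 242)))))) (XT.nd (nat_lit 546) (nat_lit 760) (nat_lit 0) (XT.nd (nat_lit 234) (nat_lit 532) (nat_lit 0) (XT.nd (nat_lit 78) (nat_lit 228) (nat_lit 0) (XT.lf (nat_lit 0) (nat_lit 31265938670) (nat_lit 228) (nat_lit 90053497276) (nat_lit 76) (nat_lit 97760776636) (nat_lit 72) (nat_lit 5) (nat_lit 75) (nat_lit 5) (nat_lit 73) (nat_lit 5) (nat_lit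 496) (nat_lit 463) (nat_lit 241)) (XT.nd (nat_lit 78) (nat_lit 0) (nat_lit 0) (XT.lf (nat_lit 0) (nat_lit 37531880310) (nat_lit 228) (nat_lit 41124991613) (nat_lit 304) (nat_lit 147248249515) (nat_lit 69) (nat_lit 5) (nat_lit 72) (nat_lit 5) (nat_lit 73) (nat_lit 5) (nat_lit 497) (nat_lit 463) (nat_lit 240)) (XT.lf (nat_lit 0) (nat_lit 130639879800) (nat_lit 304) (nat_lit 59069878439) (nat_lit 76) (nat_lit 43250391134) (nat_lit 69) (nat_lit 5) (nat_lit 73) (nat_lit 5) (nat_lit 70) (nat_lit 5) (nat_lit 498) (nat_lit 463) (nat_lit 239)))) (XT.nd (nat_lit 156) (nat_lit 380) (nat_lit 0) (XT.nd (nat_lit 78) (nat_lit 0) (nat_lit 0) (XT.lf (nat_lit 0) (nat_lit 78537938364) (nat_lit 152) (nat_lit 108584324957) (nat_lit 228) (nat_lit 53150654153) (nat_lit 67) (nat_lit 5) (nat_lit 69) (nat_lit 5) (nat_lit 70) (nat_lit 5) (nat_lit 499) (nat_lit 463) (nat_lit 238)) (XT.lf (nat_lit 0) (nat_lit 225076684314)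 (nat_lit 152) (nat_lit 22352310010) (nat_lit 228) (nat_lit 472318273) (nat_lit 67) (nat_lit 5) (nat_lit 69) (nat_lit 5) (nat_lit 70) (nat_lit 5) (nat_lit 500) (nat_lit 463) (nat_lit 237))) (XT.nd (nat_lit 78) (nat_lit 152) (nat_lit 0) (XT.lf (nat_lit 0) (nat_lit 56166127986) (nat_lit 228) (nat_lit 130666335104) (nat_lit 76) (nat_lit 68881783461) (nat_lit 64) (nat_lit 5) (nat_lit 67) (nat_lit 5) (nat_lit 65) (nat_lit 5) (nat_lit 501) (nat_lit 463) (nat_lit 236)) (XT.lf (nat_lit 0) (nat_lit 17383641684) (nat_lit 152) (nat_lit 99267561607) (nat_lit 228) (nat_lit 147214707806) (nat_lit 62) (nat_lit 5) (nat_lit 64) (nat_lit 5) (nat_lit 65) (nat_lit 5) (nat_lit 502) (nat_lit 463) (nat_lit 235))))) (XT.nd (nat_lit 234) (nat_lit 532) (nat_lit 0) (XT.nd (nat_lit 78) (nat_lit 228) (nat_lit 0) (XT.lf (nat_lit 0) (nat_lit 177372330946) (nat_lit 152) (nat_lit 5000960350) (nat_lit 228) (nat_lit 89941229654)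 (nat_lit 62) (nat_lit 5) (nat_lit 64) (nat_lit 5) (nat_lit 65) (nat_lit 5) (nat_lit 503) (nat_lit 463) (nat_lit 234)) (XT.nd (nat_lit 78) (nat_lit 76) (nat_lit 0) (XT.lf (nat_lit 0) (nat_lit 64780787004) (nat_lit 152) (nat_lit 189079248062) (nat_lit 228) (nat_lit 27201598684) (nat_lit 60) (nat_lit 5) (nat_lit 62) (nat_lit 5) (nat_lit 63) (nat_lit 5) (nat_lit 504) (nat_lit 463) (nat_lit 233)) (XT.lf (nat_lit 0) (nat_lit 39153273046) (nat_lit 228) (nat_lit 55092005320) (nat_lit 76) (nat_lit 195884827520) (nat_lit 59) (nat_lit 5) (nat_lit 62) (nat_lit 5) (nat_lit 60) (nat_lit 5) (nat_lit 505) (nat_lit 463) (nat_lit 232)))) (XT.nd (nat_lit 156) (nat_lit 380) (nat_lit 0) (XT.nd (nat_lit 78) (nat_lit 0) (nat_lit 0) (XT.lf (nat_lit 0) (nat_lit 109866241936) (nat_lit 228) (nat_lit 182188697500) (nat_lit 76) (nat_lit 7477040537) (nat_lit 57) (nat_lit 5) (nat_lit 60) (nat_lit 5) (nat_lit 58) (nat_lit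 5) (nat_lit 506) (nat_lit 463) (nat_lit 231)) (XT.lf (nat_lit 0) (nat_lit 186608044025) (nat_lit 228) (nat_lit 10604805154) (nat_lit 76) (nat_lit 112066439369) (nat_lit 57) (nat_lit 5) (nat_lit 60) (nat_lit 5) (nat_lit 58) (nat_lit 5) (nat_lit 507) (nat_lit 463) (nat_lit 230))) (XT.nd (nat_lit 78) (nat_lit 228) (nat_lit 0) (XT.lf (nat_lit 0) (nat_lit 175164435030) (nat_lit 152) (nat_lit 94757190040) (nat_lit 228) (nat_lit 49455603058) (nat_lit 55) (nat_lit 5) (nat_lit 57) (nat_lit 5) (nat_lit 58) (nat_lit 5) (nat_lit 508) (nat_lit 463) (nat_lit 229)) (XT.lf (nat_lit 0) (nat_lit 27594610665) (nat_lit 228) (nat_lit 288621179805) (nat_lit 76) (nat_lit 13690297056) (nat_lit 52) (nat_lit 5) (nat_lit 55) (nat_lit 5) (nat_lit 53) (nat_lit 5) (nat_lit 509) (nat_lit 463) (nat_lit 228))))))) (XT.nd (nat_lit 1092) (nat_lit 760) (nat_lit 0) (XT.nd (nat_lit 546) (nat_lit 608) (nat_lit 0) (XT.nd (nat_lit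 234) (nat_lit 380) (nat_lit 0) (XT.nd (nat_lit 78) (nat_lit 152) (nat_lit 0) (XT.lf (nat_lit 0) (nat_lit 110870933370) (nat_lit 228) (nat_lit 102179424670) (nat_lit 76) (nat_lit 127668712950) (nat_lit 52) (nat_lit 5) (nat_lit 55) (nat_lit 5) (nat_lit 53) (nat_lit 5) (nat_lit 510) (nat_lit 463) (nat_lit 227)) (XT.nd (nat_lit 78) (nat_lit 0) (nat_lit 0) (XT.lf (nat_lit 0) (nat_lit 96678540536) (nat_lit 152) (nat_lit 103141843147) (nat_lit 228) (nat_lit 152176854383) (nat_lit 50) (nat_lit 5) (nat_lit 52) (nat_lit 5) (nat_lit 53) (nat_lit 5) (nat_lit 511) (nat_lit 463) (nat_lit 226)) (XT.lf (nat_lit 0) (nat_lit 295167467928) (nat_lit 228) (nat_lit 54945957367) (nat_lit 76) (nat_lit 13628380148) (nat_lit 50) (nat_lit 5) (nat_lit 53) (nat_lit 5) (nat_lit 51) (nat_lit 4) (nat_lit 512) (nat_lit 463) (nat_lit 225)))) (XT.nd (nat_lit 156) (nat_lit 228) (nat_lit 0) (XT.nd (nat_lit 78) (nat_lit 0) (nat_lit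 0) (XT.lf (nat_lit 0) (nat_lit 22832544940) (nat_lit 152) (nat_lit 217395137614) (nat_lit 76) (nat_lit 135618972599) (nat_lit 48) (nat_lit 5) (nat_lit 50) (nat_lit 5) (nat_lit 49) (nat_lit 5) (nat_lit 513) (nat_lit 463) (nat_lit 224)) (XT.lf (nat_lit 0) (nat_lit 117450910427) (nat_lit 152) (nat_lit 5223365875) (nat_lit 76) (nat_lit 265778978270) (nat_lit 48) (nat_lit 5) (nat_lit 50) (nat_lit 5) (nat_lit 49) (nat_lit 5) (nat_lit 514) (nat_lit 463) (nat_lit 223))) (XT.nd (nat_lit 78) (nat_lit 76) (nat_lit 0) (XT.lf (nat_lit 0) (nat_lit 220378414163) (nat_lit 228) (nat_lit 176833851472) (nat_lit 76) (nat_lit 4299007342) (nat_lit 46) (nat_lit 5) (nat_lit 49) (nat_lit 5) (nat_lit 47) (nat_lit 4) (nat_lit 515) (nat_lit 463) (nat_lit 222)) (XT.lf (nat_lit 0) (nat_lit 50645099154) (nat_lit 76) (nat_lit 280698771010) (nat_lit 152) (nat_lit 83733743294) (nat_lit 45) (nat_lit 5) (nat_lit 46) (nat_lit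 5) (nat_lit 47) (nat_lit 4) (nat_lit 516) (nat_lit 463) (nat_lit 221))))) (XT.nd (nat_lit 234) (nat_lit 380) (nat_lit 0) (XT.nd (nat_lit 78) (nat_lit 152) (nat_lit 0) (XT.lf (nat_lit 0) (nat_lit 20985844535) (nat_lit 152) (nat_lit 133873925487) (nat_lit 76) (nat_lit 274295843393) (nat_lit 44) (nat_lit 5) (nat_lit 46) (nat_lit 5) (nat_lit 45) (nat_lit 5) (nat_lit 517) (nat_lit 463) (nat_lit 220)) (XT.nd (nat_lit 78) (nat_lit 0) (nat_lit 0) (XT.lf (nat_lit 0) (nat_lit 110372341977) (nat_lit 152) (nat_lit 19478194608) (nat_lit 228) (nat_lit 313932186194) (nat_lit 42) (nat_lit 5) (nat_lit 44) (nat_lit 5) (nat_lit 45) (nat_lit 5) (nat_lit 518) (nat_lit 463) (nat_lit 219)) (XT.lf (nat_lit 0) (nat_lit 248378018130) (nat_lit 228) (nat_lit 89501703217) (nat_lit 76) (nat_lit 121050488529) (nat_lit 42) (nat_lit 5) (nat_lit 45) (nat_lit 5) (nat_lit 43) (nat_lit 4) (nat_lit 519) (nat_lit 463) (nat_lit 218))))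 (XT.nd (nat_lit 156) (nat_lit 228) (nat_lit 0) (XT.nd (nat_lit 78) (nat_lit 76) (nat_lit 0) (XT.lf (nat_lit 0) (nat_lit 171780994992) (nat_lit 76) (nat_lit 204052087379) (nat_lit 152) (nat_lit 98851928537) (nat_lit 41) (nat_lit 5) (nat_lit 42) (nat_lit 5) (nat_lit 43) (nat_lit 4) (nat_lit 520) (nat_lit 463) (nat_lit 217)) (XT.lf (nat_lit 0) (nat_lit 19383880163) (nat_lit 152) (nat_lit 42229447289) (nat_lit 76) (nat_lit 429522809006) (nat_lit 40) (nat_lit 5) (nat_lit 42) (nat_lit 5) (nat_lit 41) (nat_lit 5) (nat_lit 521) (nat_lit 463) (nat_lit 216))) (XT.nd (nat_lit 78) (nat_lit 76) (nat_lit 0) (XT.lf (nat_lit 0) (nat_lit 145377158495) (nat_lit 228) (nat_lit 272145553695) (nat_lit 76) (nat_lit 90547692324) (nat_lit 38) (nat_lit 5) (nat_lit 41) (nat_lit 5) (nat_lit 39) (nat_lit 4) (nat_lit 522) (nat_lit 463) (nat_lit 215)) (XT.lf (nat_lit 0) (nat_lit 2701890065) (nat_lit 76) (nat_lit 276747265851)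 (nat_lit 152) (nat_lit 246313277304) (nat_lit 37) (nat_lit 5) (nat_lit 38) (nat_lit 5) (nat_lit 39) (nat_lit 4) (nat_lit 523) (nat_lit 463) (nat_lit 214)))))) (XT.nd (nat_lit 546) (nat_lit 380) (nat_lit 0) (XT.nd (nat_lit 234) (nat_lit 228) (nat_lit 0) (XT.nd (nat_lit 78) (nat_lit 152) (nat_lit 0) (XT.lf (nat_lit 0) (nat_lit 300739831371) (nat_lit 76) (nat_lit 124093756286) (nat_lit 152) (nat_lit 119275033989) (nat_lit 37) (nat_lit 5) (nat_lit 38) (nat_lit 5) (nat_lit 39) (nat_lit 4) (nat_lit 524) (nat_lit 463) (nat_lit 213)) (XT.nd (nat_lit 78) (nat_lit 0) (nat_lit 0) (XT.lf (nat_lit 0) (nat_lit 15053045543) (nat_lit 152) (nat_lit 512159504489) (nat_lit 76) (nat_lit 36079065834) (nat_lit 35) (nat_lit 5) (nat_lit 37) (nat_lit 5) (nat_lit 36) (nat_lit 4) (nat_lit 525) (nat_lit 463) (nat_lit 212)) (XT.lf (nat_lit 0) (nat_lit 158312485434) (nat_lit 152) (nat_lit 218477776901) (nat_lit 76) (nat_lit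 206234562064) (nat_lit 35) (nat_lit 5) (nat_lit 37) (nat_lit 5) (nat_lit 36) (nat_lit 4) (nat_lit 526) (nat_lit 463) (nat_lit 211)))) (XT.nd (nat_lit 156) (nat_lit 152) (nat_lit 0) (XT.nd (nat_lit 78) (nat_lit 0) (nat_lit 0) (XT.lf (nat_lit 0) (nat_lit 92859994433) (nat_lit 76) (nat_lit 217324632274) (nat_lit 152) (nat_lit 293487580187) (nat_lit 34) (nat_lit 5) (nat_lit 35) (nat_lit 5) (nat_lit 36) (nat_lit 4) (nat_lit 527) (nat_lit 463) (nat_lit 210)) (XT.lf (nat_lit 0) (nat_lit 427349569334) (nat_lit 76) (nat_lit 46000758614) (nat_lit 152) (nat_lit 151816632928) (nat_lit 34) (nat_lit 5) (nat_lit 35) (nat_lit 5) (nat_lit 36) (nat_lit 4) (nat_lit 528) (nat_lit 463) (nat_lit 209))) (XT.nd (nat_lit 78) (nat_lit 0) (nat_lit 0) (XT.lf (nat_lit 0) (nat_lit 1270889460) (nat_lit 152) (nat_lit 514555353025) (nat_lit 76) (nat_lit 131700849493) (nat_lit 32) (nat_lit 5) (nat_lit 34) (nat_lit 5) (nat_lit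 33) (nat_lit 4) (nat_lit 529) (nat_lit 463) (nat_lit 208)) (XT.lf (nat_lit 0) (nat_lit 161069846574) (nat_lit 152) (nat_lit 186967588246) (nat_lit 76) (nat_lit 322635400307) (nat_lit 32) (nat_lit 5) (nat_lit 34) (nat_lit 5) (nat_lit 33) (nat_lit 4) (nat_lit 530) (nat_lit 463) (nat_lit 207))))) (XT.nd (nat_lit 312) (nat_lit 152) (nat_lit 0) (XT.nd (nat_lit 156) (nat_lit 152) (nat_lit 0) (XT.nd (nat_lit 78) (nat_lit 0) (nat_lit 0) (XT.lf (nat_lit 0) (nat_lit 162190545487) (nat_lit 76) (nat_lit 169200387138) (nat_lit 152) (nat_lit 363458323759) (nat_lit 31) (nat_lit 5) (nat_lit 32) (nat_lit 5) (nat_lit 33) (nat_lit 4) (nat_lit 531) (nat_lit 463) (nat_lit 206)) (XT.lf (nat_lit 0) (nat_lit 513736362602) (nat_lit 152) (nat_lit 185120601553) (nat_lit 0) (nat_lit 21202120074) (nat_lit 31) (nat_lit 5) (nat_lit 33) (nat_lit 4) (nat_lit 31) (nat_lit 4) (nat_lit 532) (nat_lit 463) (nat_lit 205))) (XT.nd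 (nat_lit 78) (nat_lit 76) (nat_lit 0) (XT.lf (nat_lit 0) (nat_lit 182873610271) (nat_lit 76) (nat_lit 527954335839) (nat_lit 76) (nat_lit 35420013257) (nat_lit 30) (nat_lit 4) (nat_lit 31) (nat_lit 5) (nat_lit 31) (nat_lit 4) (nat_lit 533) (nat_lit 463) (nat_lit 204)) (XT.lf (nat_lit 0) (nat_lit 142604478399) (nat_lit 152) (nat_lit 200195218102) (nat_lit 76) (nat_lit 430674825964) (nat_lit 29) (nat_lit 5) (nat_lit 31) (nat_lit 5) (nat_lit 30) (nat_lit 4) (nat_lit 534) (nat_lit 463) (nat_lit 203)))) (XT.nd (nat_lit 156) (nat_lit 76) (nat_lit 0) (XT.nd (nat_lit 78) (nat_lit 0) (nat_lit 0) (XT.lf (nat_lit 0) (nat_lit 186532293825) (nat_lit 76) (nat_lit 144719786788) (nat_lit 152) (nat_lit 470635688779) (nat_lit 28) (nat_lit 5) (nat_lit 29) (nat_lit 5) (nat_lit 30) (nat_lit 4) (nat_lit 535) (nat_lit 463) (nat_lit 202)) (XT.lf (nat_lit 0) (nat_lit 533765715433) (nat_lit 152) (nat_lit 233049080023)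 (nat_lit 0) (nat_lit 64685200588) (nat_lit 28) (nat_lit 5) (nat_lit 30) (nat_lit 4) (nat_lit 28) (nat_lit 4) (nat_lit 536) (nat_lit 463) (nat_lit 201))) (XT.nd (nat_lit 56784) (nat_lit 0) (nat_lit 7448) (XT.lf (nat_lit 0) (nat_lit 171488779097) (nat_lit 76) (nat_lit 579966070804) (nat_lit 76) (nat_lit 110885493235) (nat_lit 27) (nat_lit 4) (nat_lit 28) (nat_lit 5) (nat_lit 28) (nat_lit 4) (nat_lit 537) (nat_lit 463) (nat_lit 200)) (XT.lf (nat_lit 0) (nat_lit 15380383874) (nat_lit 836) (nat_lit 15379780421) (nat_lit 836) (nat_lit 15379780421) (nat_lit 125) (nat_lit 3) (nat_lit 136) (nat_lit 3) (nat_lit 136) (nat_lit 5) (nat_lit 464) (nat_lit 464) (nat_lit 272))))))))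
noncomputable def xc218 : XT := (XT.nd (nat_lit 2184) (nat_lit 3040) (nat_lit 0) (XT.nd (nat_lit 1092) (nat_lit 2508) (nat_lit 0) (XT.nd (nat_lit 546) (nat_lit 836) (nat_lit 0) (XT.nd (nat_lit 234) (nat_lit 0) (nat_lit 152) (XT.nd (nat_lit 78) (nat_lit 0) (nat_lit 76) (XT.lf (nat_lit 76) (nat_lit 14924613365) (nat_lit 0) (nat_lit 16845706674) (nat_lit 836) (nat_lit 62804537049) (nat_lit 126) (nat_lit 5) (nat_lit 125) (nat_lit 3) (nat_lit 136) (nat_lit 5) (nat_lit 465) (nat_lit 464) (nat_lit 271)) (XT.nd (nat_lit 78) (nat_lit 0) (nat_lit 0) (XT.lf (nat_lit 0) (nat_lit 33828698130) (nat_lit 760) (nat_lit 33475818970) (nat_lit 836) (nat_lit 29630138804) (nat_lit 126) (nat_lit 5) (nat_lit 136) (nat_lit 5) (nat_lit 137) (nat_lit 5) (nat_lit 466) (nat_lit 464) (nat_lit 270)) (XT.lf (nat_lit 76) (nat_lit 15217962433) (nat_lit 0) (nat_lit 21285327979) (nat_lit 836) (nat_lit 62883489664) (nat_lit 127)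 (nat_lit 5) (nat_lit 126) (nat_lit 5) (nat_lit 137) (nat_lit 5) (nat_lit 467) (nat_lit 464) (nat_lit 269)))) (XT.nd (nat_lit 156) (nat_lit 0) (nat_lit 76) (XT.nd (nat_lit 78) (nat_lit 0) (nat_lit 0) (XT.lf (nat_lit 0) (nat_lit 40309486138) (nat_lit 760) (nat_lit 34856205230) (nat_lit 836) (nat_lit 26745925566) (nat_lit 127) (nat_lit 5) (nat_lit 137) (nat_lit 5) (nat_lit 138) (nat_lit 5) (nat_lit 468) (nat_lit 464) (nat_lit 268)) (XT.lf (nat_lit 76) (nat_lit 17120788487) (nat_lit 0) (nat_lit 27801028742) (nat_lit 836) (nat_lit 59610087290) (nat_lit 128) (nat_lit 5) (nat_lit 127) (nat_lit 5) (nat_lit 138) (nat_lit 5) (nat_lit 469) (nat_lit 464) (nat_lit 267))) (XT.nd (nat_lit 78) (nat_lit 0) (nat_lit 0) (XT.lf (nat_lit 0) (nat_lit 50706766448) (nat_lit 760) (nat_lit 34699324921) (nat_lit 836) (nat_lit 21830015188) (nat_lit 128) (nat_lit 5) (nat_lit 138) (nat_lit 5) (nat_lit 139) (nat_lit 5) (nat_lit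 470) (nat_lit 464) (nat_lit 266)) (XT.lf (nat_lit 76) (nat_lit 20859655334) (nat_lit 0) (nat_lit 36702358902) (nat_lit 836) (nat_lit 52474452053) (nat_lit 129) (nat_lit 5) (nat_lit 128) (nat_lit 5) (nat_lit 139) (nat_lit 5) (nat_lit 471) (nat_lit 464) (nat_lit 265))))) (XT.nd (nat_lit 234) (nat_lit 1140) (nat_lit 0) (XT.nd (nat_lit 78) (nat_lit 0) (nat_lit 0) (XT.lf (nat_lit 0) (nat_lit 65582337027) (nat_lit 760) (nat_lit 32781523820) (nat_lit 836) (nat_lit 14571867669) (nat_lit 129) (nat_lit 5) (nat_lit 139) (nat_lit 5) (nat_lit 140) (nat_lit 5) (nat_lit 472) (nat_lit 464) (nat_lit 264)) (XT.nd (nat_lit 78) (nat_lit 0) (nat_lit 76) (XT.lf (nat_lit 76) (nat_lit 26685671761) (nat_lit 0) (nat_lit 48335971750) (nat_lit 836) (nat_lit 40907412100) (nat_lit 130) (nat_lit 5) (nat_lit 129) (nat_lit 5) (nat_lit 140) (nat_lit 5) (nat_lit 473) (nat_lit 464) (nat_lit 263)) (XT.lf (nat_lit 0) (nat_lit 85562321280)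 (nat_lit 760) (nat_lit 28854832654) (nat_lit 76) (nat_lit 4623424955) (nat_lit 130) (nat_lit 5) (nat_lit 140) (nat_lit 5) (nat_lit 131) (nat_lit 5) (nat_lit 474) (nat_lit 464) (nat_lit 262)))) (XT.nd (nat_lit 156) (nat_lit 456) (nat_lit 0) (XT.nd (nat_lit 78) (nat_lit 0) (nat_lit 0) (XT.lf (nat_lit 0) (nat_lit 34876741679) (nat_lit 760) (nat_lit 63089888375) (nat_lit 836) (nat_lit 24274218542) (nat_lit 120) (nat_lit 5) (nat_lit 130) (nat_lit 5) (nat_lit 131) (nat_lit 5) (nat_lit 475) (nat_lit 464) (nat_lit 261)) (XT.lf (nat_lit 0) (nat_lit 102796388972) (nat_lit 760) (nat_lit 8683127142) (nat_lit 836) (nat_lit 14097197696) (nat_lit 120) (nat_lit 5) (nat_lit 130) (nat_lit 5) (nat_lit 131) (nat_lit 5) (nat_lit 476) (nat_lit 464) (nat_lit 260))) (XT.nd (nat_lit 78) (nat_lit 76) (nat_lit 0) (XT.lf (nat_lit 0) (nat_lit 45739983013) (nat_lit 380) (nat_lit 81398245372) (nat_lit 456) (nat_lit 1867634914)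 (nat_lit 115) (nat_lit 5) (nat_lit 120) (nat_lit 5) (nat_lit 121) (nat_lit 5) (nat_lit 477) (nat_lit 464) (nat_lit 259)) (XT.lf (nat_lit 0) (nat_lit 11156366481) (nat_lit 456) (nat_lit 14430276625) (nat_lit 76) (nat_lit 106984552075) (nat_lit 114) (nat_lit 5) (nat_lit 120) (nat_lit 5) (nat_lit 115) (nat_lit 5) (nat_lit 478) (nat_lit 464) (nat_lit 258)))))) (XT.nd (nat_lit 546) (nat_lit 1140) (nat_lit 0) (XT.nd (nat_lit 234) (nat_lit 608) (nat_lit 0) (XT.nd (nat_lit 78) (nat_lit 380) (nat_lit 0) (XT.lf (nat_lit 0) (nat_lit 26232302080) (nat_lit 456) (nat_lit 77070023108) (nat_lit 76) (nat_lit 32937762769) (nat_lit 109) (nat_lit 5) (nat_lit 115) (nat_lit 5) (nat_lit 110) (nat_lit 5) (nat_lit 479) (nat_lit 464) (nat_lit 257)) (XT.nd (nat_lit 78) (nat_lit 380) (nat_lit 0) (XT.lf (nat_lit 0) (nat_lit 42729611525) (nat_lit 456) (nat_lit 3552538230) (nat_lit 76) (nat_lit 93776896856) (nat_lit 109)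 (nat_lit 5) (nat_lit 115) (nat_lit 5) (nat_lit 110) (nat_lit 5) (nat_lit 480) (nat_lit 464) (nat_lit 256)) (XT.lf (nat_lit 0) (nat_lit 61470917830) (nat_lit 456) (nat_lit 68165771450) (nat_lit 76) (nat_lit 14361307433) (nat_lit 104) (nat_lit 5) (nat_lit 110) (nat_lit 5) (nat_lit 105) (nat_lit 5) (nat_lit 481) (nat_lit 464) (nat_lit 255)))) (XT.nd (nat_lit 156) (nat_lit 304) (nat_lit 0) (XT.nd (nat_lit 78) (nat_lit 0) (nat_lit 0) (XT.lf (nat_lit 0) (nat_lit 10763178934) (nat_lit 304) (nat_lit 71373782113) (nat_lit 380) (nat_lit 65947549774) (nat_lit 100) (nat_lit 5) (nat_lit 104) (nat_lit 5) (nat_lit 105) (nat_lit 5) (nat_lit 482) (nat_lit 464) (nat_lit 254)) (XT.lf (nat_lit 0) (nat_lit 96004866103) (nat_lit 304) (nat_lit 8985622294) (nat_lit 380) (nat_lit 47327153217) (nat_lit 100) (nat_lit 5) (nat_lit 104) (nat_lit 5) (nat_lit 105) (nat_lit 5) (nat_lit 483) (nat_lit 464) (nat_lit 253))) (XT.nd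 (nat_lit 78) (nat_lit 0) (nat_lit 0) (XT.lf (nat_lit 0) (nat_lit 28784764597) (nat_lit 304) (nat_lit 101533576826) (nat_lit 380) (nat_lit 26377505132) (nat_lit 96) (nat_lit 5) (nat_lit 100) (nat_lit 5) (nat_lit 101) (nat_lit 5) (nat_lit 484) (nat_lit 464) (nat_lit 252)) (XT.lf (nat_lit 0) (nat_lit 119939792275) (nat_lit 304) (nat_lit 38071187491) (nat_lit 380) (nat_lit 3227062414) (nat_lit 96) (nat_lit 5) (nat_lit 100) (nat_lit 5) (nat_lit 101) (nat_lit 5) (nat_lit 485) (nat_lit 464) (nat_lit 251))))) (XT.nd (nat_lit 234) (nat_lit 532) (nat_lit 0) (XT.nd (nat_lit 78) (nat_lit 304) (nat_lit 0) (XT.lf (nat_lit 0) (nat_lit 21665788320) (nat_lit 304) (nat_lit 115469099085) (nat_lit 76) (nat_lit 28793023328) (nat_lit 92) (nat_lit 5) (nat_lit 96) (nat_lit 5) (nat_lit 93) (nat_lit 5) (nat_lit 486) (nat_lit 464) (nat_lit 250)) (XT.nd (nat_lit 78) (nat_lit 304) (nat_lit 0) (XT.lf (nat_lit 0) (nat_lit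 49029612074) (nat_lit 304) (nat_lit 23268546252) (nat_lit 76) (nat_lit 98484730267) (nat_lit 92) (nat_lit 5) (nat_lit 96) (nat_lit 5) (nat_lit 93) (nat_lit 5) (nat_lit 487) (nat_lit 464) (nat_lit 249)) (XT.lf (nat_lit 0) (nat_lit 75973404352) (nat_lit 304) (nat_lit 2974181942) (nat_lit 380) (nat_lit 96873731146) (nat_lit 88) (nat_lit 5) (nat_lit 92) (nat_lit 5) (nat_lit 93) (nat_lit 5) (nat_lit 488) (nat_lit 464) (nat_lit 248)))) (XT.nd (nat_lit 156) (nat_lit 304) (nat_lit 0) (XT.nd (nat_lit 78) (nat_lit 228) (nat_lit 0) (XT.lf (nat_lit 0) (nat_lit 111851812902) (nat_lit 380) (nat_lit 1203422045) (nat_lit 76) (nat_lit 67981915155) (nat_lit 88) (nat_lit 5) (nat_lit 93) (nat_lit 5) (nat_lit 89) (nat_lit 5) (nat_lit 489) (nat_lit 464) (nat_lit 247)) (XT.lf (nat_lit 0) (nat_lit 105707593908) (nat_lit 228) (nat_lit 42392621232) (nat_lit 304) (nat_lit 38328611095) (nat_lit 85) (nat_lit 5) (nat_lit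 88) (nat_lit 5) (nat_lit 89) (nat_lit 5) (nat_lit 490) (nat_lit 464) (nat_lit 246))) (XT.nd (nat_lit 78) (nat_lit 76) (nat_lit 0) (XT.lf (nat_lit 0) (nat_lit 26260245662) (nat_lit 228) (nat_lit 160827857854) (nat_lit 304) (nat_lit 4955629406) (nat_lit 82) (nat_lit 5) (nat_lit 85) (nat_lit 5) (nat_lit 86) (nat_lit 5) (nat_lit 491) (nat_lit 464) (nat_lit 245)) (XT.lf (nat_lit 0) (nat_lit 31207307579) (nat_lit 304) (nat_lit 57665126072) (nat_lit 76) (nat_lit 108939252692) (nat_lit 81) (nat_lit 5) (nat_lit 85) (nat_lit 5) (nat_lit 82) (nat_lit 5) (nat_lit 492) (nat_lit 464) (nat_lit 244))))))) (XT.nd (nat_lit 1092) (nat_lit 1368) (nat_lit 0) (XT.nd (nat_lit 546) (nat_lit 760) (nat_lit 0) (XT.nd (nat_lit 234) (nat_lit 456) (nat_lit 0) (XT.nd (nat_lit 78) (nat_lit 228) (nat_lit 0) (XT.lf (nat_lit 0) (nat_lit 57621935383) (nat_lit 228) (nat_lit 12289384099) (nat_lit 304) (nat_lit 133907682518) (nat_lit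 78) (nat_lit 5) (nat_lit 81) (nat_lit 5) (nat_lit 82) (nat_lit 5) (nat_lit 493) (nat_lit 464) (nat_lit 243)) (XT.nd (nat_lit 78) (nat_lit 228) (nat_lit 0) (XT.lf (nat_lit 0) (nat_lit 112606549658) (nat_lit 304) (nat_lit 30482342065) (nat_lit 76) (nat_lit 66934990874) (nat_lit 78) (nat_lit 5) (nat_lit 82) (nat_lit 5) (nat_lit 79) (nat_lit 5) (nat_lit 494) (nat_lit 464) (nat_lit 242)) (XT.lf (nat_lit 0) (nat_lit 93819222902) (nat_lit 228) (nat_lit 65283405840) (nat_lit 304) (nat_lit 57353074153) (nat_lit 75) (nat_lit 5) (nat_lit 78) (nat_lit 5) (nat_lit 79) (nat_lit 5) (nat_lit 495) (nat_lit 464) (nat_lit 241)))) (XT.nd (nat_lit 156) (nat_lit 228) (nat_lit 0) (XT.nd (nat_lit 78) (nat_lit 76) (nat_lit 0) (XT.lf (nat_lit 0) (nat_lit 2010241808) (nat_lit 152) (nat_lit 206725438338) (nat_lit 228) (nat_lit 14432825679) (nat_lit 73) (nat_lit 5) (nat_lit 75) (nat_lit 5) (nat_lit 76) (nat_lit 5) (nat_lit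 496) (nat_lit 464) (nat_lit 240)) (XT.lf (nat_lit 0) (nat_lit 32833994812) (nat_lit 228) (nat_lit 94548919170) (nat_lit 76) (nat_lit 102651070225) (nat_lit 72) (nat_lit 5) (nat_lit 75) (nat_lit 5) (nat_lit 73) (nat_lit 5) (nat_lit 497) (nat_lit 464) (nat_lit 239))) (XT.nd (nat_lit 78) (nat_lit 0) (nat_lit 0) (XT.lf (nat_lit 0) (nat_lit 39415610312) (nat_lit 228) (nat_lit 43178749200) (nat_lit 304) (nat_lit 154605784805) (nat_lit 69) (nat_lit 5) (nat_lit 72) (nat_lit 5) (nat_lit 73) (nat_lit 5) (nat_lit 498) (nat_lit 464) (nat_lit 238)) (XT.lf (nat_lit 0) (nat_lit 137176333694) (nat_lit 304) (nat_lit 62016391149) (nat_lit 76) (nat_lit 45415208057) (nat_lit 69) (nat_lit 5) (nat_lit 73) (nat_lit 5) (nat_lit 70) (nat_lit 5) (nat_lit 499) (nat_lit 464) (nat_lit 237))))) (XT.nd (nat_lit 234) (nat_lit 380) (nat_lit 0) (XT.nd (nat_lit 78) (nat_lit 228) (nat_lit 0) (XT.lf (nat_lit 0) (nat_lit 82471703895)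 (nat_lit 152) (nat_lit 114011027359) (nat_lit 228) (nat_lit 55803613454) (nat_lit 67) (nat_lit 5) (nat_lit 69) (nat_lit 5) (nat_lit 70) (nat_lit 5) (nat_lit 500) (nat_lit 464) (nat_lit 236)) (XT.nd (nat_lit 78) (nat_lit 228) (nat_lit 0) (XT.lf (nat_lit 0) (nat_lit 236337060065) (nat_lit 152) (nat_lit 23467531371) (nat_lit 228) (nat_lit 491578562) (nat_lit 67) (nat_lit 5) (nat_lit 69) (nat_lit 5) (nat_lit 70) (nat_lit 5) (nat_lit 501) (nat_lit 464) (nat_lit 235)) (XT.lf (nat_lit 0) (nat_lit 58978590813) (nat_lit 228) (nat_lit 137192909529) (nat_lit 76) (nat_lit 72328249936) (nat_lit 64) (nat_lit 5) (nat_lit 67) (nat_lit 5) (nat_lit 65) (nat_lit 5) (nat_lit 502) (nat_lit 464) (nat_lit 234)))) (XT.nd (nat_lit 156) (nat_lit 228) (nat_lit 0) (XT.nd (nat_lit 78) (nat_lit 0) (nat_lit 0) (XT.lf (nat_lit 0) (nat_lit 18259457351) (nat_lit 152) (nat_lit 104228368176) (nat_lit 228) (nat_lit 154571177280)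 (nat_lit 62) (nat_lit 5) (nat_lit 64) (nat_lit 5) (nat_lit 65) (nat_lit 5) (nat_lit 503) (nat_lit 464) (nat_lit 233)) (XT.lf (nat_lit 0) (nat_lit 186247265191) (nat_lit 152) (nat_lit 5248559308) (nat_lit 228) (nat_lit 94434228359) (nat_lit 62) (nat_lit 5) (nat_lit 64) (nat_lit 5) (nat_lit 65) (nat_lit 5) (nat_lit 504) (nat_lit 464) (nat_lit 232))) (XT.nd (nat_lit 78) (nat_lit 76) (nat_lit 0) (XT.lf (nat_lit 0) (nat_lit 68026195541) (nat_lit 152) (nat_lit 198530661553) (nat_lit 228) (nat_lit 28557666657) (nat_lit 60) (nat_lit 5) (nat_lit 62) (nat_lit 5) (nat_lit 63) (nat_lit 5) (nat_lit 505) (nat_lit 464) (nat_lit 231)) (XT.lf (nat_lit 0) (nat_lit 41114635321) (nat_lit 228) (nat_lit 57840416790) (nat_lit 76) (nat_lit 205681373527) (nat_lit 59) (nat_lit 5) (nat_lit 62) (nat_lit 5) (nat_lit 60) (nat_lit 5) (nat_lit 506) (nat_lit 464) (nat_lit 230)))))) (XT.nd (nat_lit 546) (nat_lit 684) (nat_lit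 0) (XT.nd (nat_lit 234) (nat_lit 380) (nat_lit 0) (XT.nd (nat_lit 78) (nat_lit 152) (nat_lit 0) (XT.lf (nat_lit 0) (nat_lit 115363210183) (nat_lit 228) (nat_lit 191291900525) (nat_lit 76) (nat_lit 7853284876) (nat_lit 57) (nat_lit 5) (nat_lit 60) (nat_lit 5) (nat_lit 58) (nat_lit 5) (nat_lit 507) (nat_lit 464) (nat_lit 229)) (XT.nd (nat_lit 78) (nat_lit 152) (nat_lit 0) (XT.lf (nat_lit 0) (nat_lit 195941928273) (nat_lit 228) (nat_lit 11129110316) (nat_lit 76) (nat_lit 117672039730) (nat_lit 57) (nat_lit 5) (nat_lit 60) (nat_lit 5) (nat_lit 58) (nat_lit 5) (nat_lit 508) (nat_lit 464) (nat_lit 228)) (XT.lf (nat_lit 0) (nat_lit 183928496150) (nat_lit 152) (nat_lit 99492617578) (nat_lit 228) (nat_lit 51924804909) (nat_lit 55) (nat_lit 5) (nat_lit 57) (nat_lit 5) (nat_lit 58) (nat_lit 5) (nat_lit 509) (nat_lit 464) (nat_lit 227)))) (XT.nd (nat_lit 156) (nat_lit 152) (nat_lit 0) (XT.nd (nat_lit 78)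 (nat_lit 0) (nat_lit 0) (XT.lf (nat_lit 0) (nat_lit 28977770029) (nat_lit 228) (nat_lit 303046248976) (nat_lit 76) (nat_lit 14377200978) (nat_lit 52) (nat_lit 5) (nat_lit 55) (nat_lit 5) (nat_lit 53) (nat_lit 5) (nat_lit 510) (nat_lit 464) (nat_lit 226)) (XT.lf (nat_lit 0) (nat_lit 116417745591) (nat_lit 228) (nat_lit 107282691313) (nat_lit 76) (nat_lit 134054423901) (nat_lit 52) (nat_lit 5) (nat_lit 55) (nat_lit 5) (nat_lit 53) (nat_lit 5) (nat_lit 511) (nat_lit 464) (nat_lit 225))) (XT.nd (nat_lit 78) (nat_lit 0) (nat_lit 0) (XT.lf (nat_lit 0) (nat_lit 101518080143) (nat_lit 152) (nat_lit 108296520403) (nat_lit 228) (nat_lit 159782339106) (nat_lit 50) (nat_lit 5) (nat_lit 52) (nat_lit 5) (nat_lit 53) (nat_lit 5) (nat_lit 512) (nat_lit 464) (nat_lit 224)) (XT.lf (nat_lit 0) (nat_lit 309928922640) (nat_lit 228) (nat_lit 57687793144) (nat_lit 76) (nat_lit 14312025450) (nat_lit 50) (nat_lit 5)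 (nat_lit 53) (nat_lit 5) (nat_lit 51) (nat_lit 4) (nat_lit 513) (nat_lit 464) (nat_lit 223))))) (XT.nd (nat_lit 312) (nat_lit 304) (nat_lit 0) (XT.nd (nat_lit 156) (nat_lit 228) (nat_lit 0) (XT.nd (nat_lit 78) (nat_lit 0) (nat_lit 0) (XT.lf (nat_lit 0) (nat_lit 23977240541) (nat_lit 152) (nat_lit 228259418674) (nat_lit 76) (nat_lit 142402174902) (nat_lit 48) (nat_lit 5) (nat_lit 50) (nat_lit 5) (nat_lit 49) (nat_lit 5) (nat_lit 514) (nat_lit 464) (nat_lit 222)) (XT.lf (nat_lit 0) (nat_lit 123326378191) (nat_lit 152) (nat_lit 5479319102) (nat_lit 76) (nat_lit 279070073539) (nat_lit 48) (nat_lit 5) (nat_lit 50) (nat_lit 5) (nat_lit 49) (nat_lit 5) (nat_lit 515) (nat_lit 464) (nat_lit 221))) (XT.nd (nat_lit 78) (nat_lit 76) (nat_lit 0) (XT.lf (nat_lit 0) (nat_lit 231400233473) (nat_lit 228) (nat_lit 185670304998) (nat_lit 76) (nat_lit 4516152883) (nat_lit 46) (nat_lit 5) (nat_lit 49) (nat_lit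 5) (nat_lit 47) (nat_lit 4) (nat_lit 516) (nat_lit 464) (nat_lit 220)) (XT.lf (nat_lit 0) (nat_lit 53182508658) (nat_lit 76) (nat_lit 294731396065) (nat_lit 152) (nat_lit 87917447031) (nat_lit 45) (nat_lit 5) (nat_lit 46) (nat_lit 5) (nat_lit 47) (nat_lit 4) (nat_lit 517) (nat_lit 464) (nat_lit 219)))) (XT.nd (nat_lit 156) (nat_lit 76) (nat_lit 0) (XT.nd (nat_lit 78) (nat_lit 152) (nat_lit 0) (XT.lf (nat_lit 0) (nat_lit 22037887179) (nat_lit 152) (nat_lit 140562621434) (nat_lit 76) (nat_lit 288012747657) (nat_lit 44) (nat_lit 5) (nat_lit 46) (nat_lit 5) (nat_lit 45) (nat_lit 5) (nat_lit 518) (nat_lit 464) (nat_lit 218)) (XT.lf (nat_lit 0) (nat_lit 115895878752) (nat_lit 152) (nat_lit 20449880918) (nat_lit 228) (nat_lit 329625964155) (nat_lit 42) (nat_lit 5) (nat_lit 44) (nat_lit 5) (nat_lit 45) (nat_lit 5) (nat_lit 519) (nat_lit 464) (nat_lit 217))) (XT.nd (nat_lit 78) (nat_lit 76) (nat_lit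 0) (XT.lf (nat_lit 0) (nat_lit 260799519960) (nat_lit 228) (nat_lit 93972007373) (nat_lit 76) (nat_lit 127105062725) (nat_lit 42) (nat_lit 5) (nat_lit 45) (nat_lit 5) (nat_lit 43) (nat_lit 4) (nat_lit 520) (nat_lit 464) (nat_lit 216)) (XT.lf (nat_lit 0) (nat_lit 180374748634) (nat_lit 76) (nat_lit 214252538367) (nat_lit 152) (nat_lit 103791846674) (nat_lit 41) (nat_lit 5) (nat_lit 42) (nat_lit 5) (nat_lit 43) (nat_lit 4) (nat_lit 521) (nat_lit 464) (nat_lit 215))))))))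
noncomputable def xc219 : XT := (XT.nd (nat_lit 59046) (nat_lit 0) (nat_lit 2432) (XT.nd (nat_lit 1092) (nat_lit 76) (nat_lit 0) (XT.nd (nat_lit 546) (nat_lit 380) (nat_lit 0) (XT.nd (nat_lit 234) (nat_lit 228) (nat_lit 0) (XT.nd (nat_lit 78) (nat_lit 228) (nat_lit 0) (XT.lf (nat_lit 0) (nat_lit 20355543283) (nat_lit 152) (nat_lit 44336357887) (nat_lit 76) (nat_lit 451000918425) (nat_lit 40) (nat_lit 5) (nat_lit 42) (nat_lit 5) (nat_lit 41) (nat_lit 5) (nat_lit 522) (nat_lit 464) (nat_lit 214)) (XT.nd (nat_lit 78) (nat_lit 76) (nat_lit 0) (XT.lf (nat_lit 0) (nat_lit 152648470293) (nat_lit 228) (nat_lit 285748254155) (nat_lit 76) (nat_lit 95077077378) (nat_lit 38) (nat_lit 5) (nat_lit 41) (nat_lit 5) (nat_lit 39) (nat_lit 4) (nat_lit 523) (nat_lit 464) (nat_lit 213)) (XT.lf (nat_lit 0) (nat_lit 2841487966) (nat_lit 76) (nat_lit 290582533078) (nat_lit 152) (nat_lit 258626413261) (nat_lit 37)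 (nat_lit 5) (nat_lit 38) (nat_lit 5) (nat_lit 39) (nat_lit 4) (nat_lit 524) (nat_lit 464) (nat_lit 212)))) (XT.nd (nat_lit 156) (nat_lit 76) (nat_lit 0) (XT.nd (nat_lit 78) (nat_lit 152) (nat_lit 0) (XT.lf (nat_lit 0) (nat_lit 315781111890) (nat_lit 76) (nat_lit 130296447848) (nat_lit 152) (nat_lit 125236378157) (nat_lit 37) (nat_lit 5) (nat_lit 38) (nat_lit 5) (nat_lit 39) (nat_lit 4) (nat_lit 525) (nat_lit 464) (nat_lit 211)) (XT.lf (nat_lit 0) (nat_lit 15808015759) (nat_lit 152) (nat_lit 537763100800) (nat_lit 76) (nat_lit 37884964022) (nat_lit 35) (nat_lit 5) (nat_lit 37) (nat_lit 5) (nat_lit 36) (nat_lit 4) (nat_lit 526) (nat_lit 464) (nat_lit 210))) (XT.nd (nat_lit 78) (nat_lit 76) (nat_lit 0) (XT.lf (nat_lit 0) (nat_lit 166230317267) (nat_lit 152) (nat_lit 229397495353) (nat_lit 76) (nat_lit 216548142449) (nat_lit 35) (nat_lit 5) (nat_lit 37) (nat_lit 5) (nat_lit 36) (nat_lit 4) (nat_lit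 527) (nat_lit 464) (nat_lit 209)) (XT.lf (nat_lit 0) (nat_lit 97507097284) (nat_lit 76) (nat_lit 228188927259) (nat_lit 152) (nat_lit 308159684208) (nat_lit 34) (nat_lit 5) (nat_lit 35) (nat_lit 5) (nat_lit 36) (nat_lit 4) (nat_lit 528) (nat_lit 464) (nat_lit 208))))) (XT.nd (nat_lit 234) (nat_lit 228) (nat_lit 0) (XT.nd (nat_lit 78) (nat_lit 152) (nat_lit 0) (XT.lf (nat_lit 0) (nat_lit 448720955542) (nat_lit 76) (nat_lit 48298952137) (nat_lit 152) (nat_lit 159405297918) (nat_lit 34) (nat_lit 5) (nat_lit 35) (nat_lit 5) (nat_lit 36) (nat_lit 4) (nat_lit 529) (nat_lit 464) (nat_lit 207)) (XT.nd (nat_lit 78) (nat_lit 0) (nat_lit 0) (XT.lf (nat_lit 0) (nat_lit 1336521420) (nat_lit 152) (nat_lit 540279133476) (nat_lit 76) (nat_lit 138287687166) (nat_lit 32) (nat_lit 5) (nat_lit 34) (nat_lit 5) (nat_lit 33) (nat_lit 4) (nat_lit 530) (nat_lit 464) (nat_lit 206)) (XT.lf (nat_lit 0) (nat_lit 169125326986)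 (nat_lit 152) (nat_lit 196312170324) (nat_lit 76) (nat_lit 338768880035) (nat_lit 32) (nat_lit 5) (nat_lit 34) (nat_lit 5) (nat_lit 33) (nat_lit 4) (nat_lit 531) (nat_lit 464) (nat_lit 205)))) (XT.nd (nat_lit 156) (nat_lit 152) (nat_lit 0) (XT.nd (nat_lit 78) (nat_lit 0) (nat_lit 0) (XT.lf (nat_lit 0) (nat_lit 170303808848) (nat_lit 76) (nat_lit 177658622151) (nat_lit 152) (nat_lit 381629190489) (nat_lit 31) (nat_lit 5) (nat_lit 32) (nat_lit 5) (nat_lit 33) (nat_lit 4) (nat_lit 532) (nat_lit 464) (nat_lit 204)) (XT.lf (nat_lit 0) (nat_lit 539425066067) (nat_lit 152) (nat_lit 194373006923) (nat_lit 0) (nat_lit 22263871062) (nat_lit 31) (nat_lit 5) (nat_lit 33) (nat_lit 4) (nat_lit 31) (nat_lit 4) (nat_lit 533) (nat_lit 464) (nat_lit 203))) (XT.nd (nat_lit 78) (nat_lit 76) (nat_lit 0) (XT.lf (nat_lit 0) (nat_lit 192020857029) (nat_lit 76) (nat_lit 554350337622) (nat_lit 76) (nat_lit 37189070006)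 (nat_lit 30) (nat_lit 4) (nat_lit 31) (nat_lit 5) (nat_lit 31) (nat_lit 4) (nat_lit 534) (nat_lit 464) (nat_lit 202)) (XT.lf (nat_lit 0) (nat_lit 149736494412) (nat_lit 152) (nat_lit 210201523224) (nat_lit 76) (nat_lit 452210141244) (nat_lit 29) (nat_lit 5) (nat_lit 31) (nat_lit 5) (nat_lit 30) (nat_lit 4) (nat_lit 535) (nat_lit 464) (nat_lit 201)))))) (XT.nd (nat_lit 57408) (nat_lit 0) (nat_lit 6992) (XT.nd (nat_lit 57096) (nat_lit 0) (nat_lit 7448) (XT.nd (nat_lit 56940) (nat_lit 0) (nat_lit 7372) (XT.lf (nat_lit 0) (nat_lit 195862308562) (nat_lit 76) (nat_lit 151954135921) (nat_lit 152) (nat_lit 494165625287) (nat_lit 28) (nat_lit 5) (nat_lit 29) (nat_lit 5) (nat_lit 30) (nat_lit 4) (nat_lit 536) (nat_lit 464) (nat_lit 200)) (XT.nd (nat_lit 78) (nat_lit 0) (nat_lit 0) (XT.lf (nat_lit 0) (nat_lit 16156803746) (nat_lit 836) (nat_lit 16144882646) (nat_lit 836) (nat_lit 16144882646) (nat_lit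 125) (nat_lit 3) (nat_lit 136) (nat_lit 3) (nat_lit 136) (nat_lit 5) (nat_lit 465) (nat_lit 465) (nat_lit 270)) (XT.lf (nat_lit 76) (nat_lit 15678492245) (nat_lit 0) (nat_lit 17694559737) (nat_lit 836) (nat_lit 65929831678) (nat_lit 126) (nat_lit 5) (nat_lit 125) (nat_lit 3) (nat_lit 136) (nat_lit 5) (nat_lit 466) (nat_lit 465) (nat_lit 269)))) (XT.nd (nat_lit 156) (nat_lit 0) (nat_lit 76) (XT.nd (nat_lit 78) (nat_lit 0) (nat_lit 0) (XT.lf (nat_lit 0) (nat_lit 35533574371) (nat_lit 760) (nat_lit 35141546077) (nat_lit 836) (nat_lit 31105590962) (nat_lit 126) (nat_lit 5) (nat_lit 136) (nat_lit 5) (nat_lit 137) (nat_lit 5) (nat_lit 467) (nat_lit 465) (nat_lit 268)) (XT.lf (nat_lit 76) (nat_lit 15986794335) (nat_lit 0) (nat_lit 22354585737) (nat_lit 836) (nat_lit 66014087777) (nat_lit 127) (nat_lit 5) (nat_lit 126) (nat_lit 5) (nat_lit 137) (nat_lit 5) (nat_lit 468) (nat_lit 465) (nat_lit 267)))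 (XT.nd (nat_lit 78) (nat_lit 0) (nat_lit 0) (XT.lf (nat_lit 0) (nat_lit 42337195883) (nat_lit 760) (nat_lit 36590765072) (nat_lit 836) (nat_lit 28078620317) (nat_lit 127) (nat_lit 5) (nat_lit 137) (nat_lit 5) (nat_lit 138) (nat_lit 5) (nat_lit 469) (nat_lit 465) (nat_lit 266)) (XT.lf (nat_lit 76) (nat_lit 17984945260) (nat_lit 0) (nat_lit 29194742363) (nat_lit 836) (nat_lit 62578218633) (nat_lit 128) (nat_lit 5) (nat_lit 127) (nat_lit 5) (nat_lit 138) (nat_lit 5) (nat_lit 470) (nat_lit 465) (nat_lit 265))))) (XT.nd (nat_lit 234) (nat_lit 608) (nat_lit 0) (XT.nd (nat_lit 78) (nat_lit 0) (nat_lit 0) (XT.lf (nat_lit 0) (nat_lit 53253268919) (nat_lit 760) (nat_lit 36425940678) (nat_lit 836) (nat_lit 22918139784) (nat_lit 128) (nat_lit 5) (nat_lit 138) (nat_lit 5) (nat_lit 139) (nat_lit 5) (nat_lit 471) (nat_lit 465) (nat_lit 264)) (XT.nd (nat_lit 78) (nat_lit 0) (nat_lit 76) (XT.lf (nat_lit 76)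 (nat_lit 21910853905) (nat_lit 0) (nat_lit 38540021837) (nat_lit 836) (nat_lit 55086871730) (nat_lit 129) (nat_lit 5) (nat_lit 128) (nat_lit 5) (nat_lit 139) (nat_lit 5) (nat_lit 472) (nat_lit 465) (nat_lit 263)) (XT.lf (nat_lit 0) (nat_lit 68871664411) (nat_lit 760) (nat_lit 34412221277) (nat_lit 836) (nat_lit 15298114830) (nat_lit 129) (nat_lit 5) (nat_lit 139) (nat_lit 5) (nat_lit 140) (nat_lit 5) (nat_lit 473) (nat_lit 465) (nat_lit 262)))) (XT.nd (nat_lit 156) (nat_lit 684) (nat_lit 0) (XT.nd (nat_lit 78) (nat_lit 0) (nat_lit 76) (XT.lf (nat_lit 76) (nat_lit 28028198943) (nat_lit 0) (nat_lit 50754379766) (nat_lit 836) (nat_lit 42942433319) (nat_lit 130) (nat_lit 5) (nat_lit 129) (nat_lit 5) (nat_lit 140) (nat_lit 5) (nat_lit 474) (nat_lit 465) (nat_lit 261)) (XT.lf (nat_lit 0) (nat_lit 89849797244) (nat_lit 760) (nat_lit 30289226587) (nat_lit 76) (nat_lit 4853112472) (nat_lit 130) (nat_lit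 5) (nat_lit 140) (nat_lit 5) (nat_lit 131) (nat_lit 5) (nat_lit 475) (nat_lit 465) (nat_lit 260))) (XT.nd (nat_lit 78) (nat_lit 0) (nat_lit 0) (XT.lf (nat_lit 0) (nat_lit 36628791822) (nat_lit 760) (nat_lit 66245212153) (nat_lit 836) (nat_lit 25478431562) (nat_lit 120) (nat_lit 5) (nat_lit 130) (nat_lit 5) (nat_lit 131) (nat_lit 5) (nat_lit 476) (nat_lit 465) (nat_lit 259)) (XT.lf (nat_lit 0) (nat_lit 107944030382) (nat_lit 760) (nat_lit 9118073366) (nat_lit 836) (nat_lit 14793011955) (nat_lit 120) (nat_lit 5) (nat_lit 130) (nat_lit 5) (nat_lit 131) (nat_lit 5) (nat_lit 477) (nat_lit 465) (nat_lit 258))))))) (XT.nd (nat_lit 1092) (nat_lit 1900) (nat_lit 0) (XT.nd (nat_lit 546) (nat_lit 1140) (nat_lit 0) (XT.nd (nat_lit 234) (nat_lit 684) (nat_lit 0) (XT.nd (nat_lit 78) (nat_lit 456) (nat_lit 0) (XT.lf (nat_lit 0) (nat_lit 48035116899) (nat_lit 380) (nat_lit 85468339908) (nat_lit 456) (nat_lit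 1952280754) (nat_lit 115) (nat_lit 5) (nat_lit 120) (nat_lit 5) (nat_lit 121) (nat_lit 5) (nat_lit 478) (nat_lit 465) (nat_lit 257)) (XT.nd (nat_lit 78) (nat_lit 380) (nat_lit 0) (XT.lf (nat_lit 0) (nat_lit 11722238427) (nat_lit 456) (nat_lit 15143774031) (nat_lit 76) (nat_lit 112333337032) (nat_lit 114) (nat_lit 5) (nat_lit 120) (nat_lit 5) (nat_lit 115) (nat_lit 5) (nat_lit 479) (nat_lit 465) (nat_lit 256)) (XT.lf (nat_lit 0) (nat_lit 27551711906) (nat_lit 456) (nat_lit 80915246300) (nat_lit 76) (nat_lit 34584741776) (nat_lit 109) (nat_lit 5) (nat_lit 115) (nat_lit 5) (nat_lit 110) (nat_lit 5) (nat_lit 480) (nat_lit 465) (nat_lit 255)))) (XT.nd (nat_lit 156) (nat_lit 304) (nat_lit 0) (XT.nd (nat_lit 78) (nat_lit 380) (nat_lit 0) (XT.lf (nat_lit 0) (nat_lit 44873515645) (nat_lit 456) (nat_lit 3722281366) (nat_lit 76) (nat_lit 98465828240) (nat_lit 109) (nat_lit 5) (nat_lit 115) (nat_lit 5)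 (nat_lit 110) (nat_lit 5) (nat_lit 481) (nat_lit 465) (nat_lit 254)) (XT.lf (nat_lit 0) (nat_lit 64551663694) (nat_lit 456) (nat_lit 71565950283) (nat_lit 76) (nat_lit 15079920179) (nat_lit 104) (nat_lit 5) (nat_lit 110) (nat_lit 5) (nat_lit 105) (nat_lit 5) (nat_lit 482) (nat_lit 465) (nat_lit 253))) (XT.nd (nat_lit 78) (nat_lit 0) (nat_lit 0) (XT.lf (nat_lit 0) (nat_lit 11309316818) (nat_lit 304) (nat_lit 74941473973) (nat_lit 380) (nat_lit 69237594208) (nat_lit 100) (nat_lit 5) (nat_lit 104) (nat_lit 5) (nat_lit 105) (nat_lit 5) (nat_lit 483) (nat_lit 465) (nat_lit 252)) (XT.lf (nat_lit 0) (nat_lit 100812708396) (nat_lit 304) (nat_lit 9433953651) (nat_lit 380) (nat_lit 49686527016) (nat_lit 100) (nat_lit 5) (nat_lit 104) (nat_lit 5) (nat_lit 105) (nat_lit 5) (nat_lit 484) (nat_lit 465) (nat_lit 251))))) (XT.nd (nat_lit 234) (nat_lit 532) (nat_lit 0) (XT.nd (nat_lit 78) (nat_lit 304) (nat_lit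 0) (XT.lf (nat_lit 0) (nat_lit 30231793896) (nat_lit 304) (nat_lit 106608932960) (nat_lit 380) (nat_lit 27689586541) (nat_lit 96) (nat_lit 5) (nat_lit 100) (nat_lit 5) (nat_lit 101) (nat_lit 5) (nat_lit 485) (nat_lit 465) (nat_lit 250)) (XT.nd (nat_lit 78) (nat_lit 304) (nat_lit 0) (XT.lf (nat_lit 0) (nat_lit 125944201954) (nat_lit 304) (nat_lit 39973487145) (nat_lit 380) (nat_lit 3381945204) (nat_lit 96) (nat_lit 5) (nat_lit 100) (nat_lit 5) (nat_lit 101) (nat_lit 5) (nat_lit 486) (nat_lit 465) (nat_lit 249)) (XT.lf (nat_lit 0) (nat_lit 22755182145) (nat_lit 304) (nat_lit 121234764392) (nat_lit 76) (nat_lit 30234052726) (nat_lit 92) (nat_lit 5) (nat_lit 96) (nat_lit 5) (nat_lit 93) (nat_lit 5) (nat_lit 487) (nat_lit 465) (nat_lit 248)))) (XT.nd (nat_lit 156) (nat_lit 228) (nat_lit 0) (XT.nd (nat_lit 78) (nat_lit 304) (nat_lit 0) (XT.lf (nat_lit 0) (nat_lit 51486906401) (nat_lit 304) (nat_lit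 24424554853) (nat_lit 76) (nat_lit 103410279382) (nat_lit 92) (nat_lit 5) (nat_lit 96) (nat_lit 5) (nat_lit 93) (nat_lit 5) (nat_lit 488) (nat_lit 465) (nat_lit 247)) (XT.lf (nat_lit 0) (nat_lit 79779373625) (nat_lit 304) (nat_lit 3121242822) (nat_lit 380) (nat_lit 101711482704) (nat_lit 88) (nat_lit 5) (nat_lit 92) (nat_lit 5) (nat_lit 93) (nat_lit 5) (nat_lit 489) (nat_lit 465) (nat_lit 246))) (XT.nd (nat_lit 78) (nat_lit 228) (nat_lit 0) (XT.lf (nat_lit 0) (nat_lit 117449809806) (nat_lit 380) (nat_lit 1256395544) (nat_lit 76) (nat_lit 71382530402) (nat_lit 88) (nat_lit 5) (nat_lit 93) (nat_lit 5) (nat_lit 89) (nat_lit 5) (nat_lit 490) (nat_lit 465) (nat_lit 245)) (XT.lf (nat_lit 0) (nat_lit 111000055116) (nat_lit 228) (nat_lit 44510430160) (nat_lit 304) (nat_lit 40239517832) (nat_lit 85) (nat_lit 5) (nat_lit 88) (nat_lit 5) (nat_lit 89) (nat_lit 5) (nat_lit 491) (nat_lit 465) (nat_lit 244))))))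 (XT.nd (nat_lit 546) (nat_lit 912) (nat_lit 0) (XT.nd (nat_lit 234) (nat_lit 456) (nat_lit 0) (XT.nd (nat_lit 78) (nat_lit 304) (nat_lit 0) (XT.lf (nat_lit 0) (nat_lit 27580457424) (nat_lit 228) (nat_lit 168867199699) (nat_lit 304) (nat_lit 5198003624) (nat_lit 82) (nat_lit 5) (nat_lit 85) (nat_lit 5) (nat_lit 86) (nat_lit 5) (nat_lit 492) (nat_lit 465) (nat_lit 243)) (XT.nd (nat_lit 78) (nat_lit 228) (nat_lit 0) (XT.lf (nat_lit 0) (nat_lit 32772657897) (nat_lit 304) (nat_lit 60541359636) (nat_lit 76) (nat_lit 114388002611) (nat_lit 81) (nat_lit 5) (nat_lit 85) (nat_lit 5) (nat_lit 82) (nat_lit 5) (nat_lit 493) (nat_lit 465) (nat_lit 242)) (XT.lf (nat_lit 0) (nat_lit 60509941622) (nat_lit 228) (nat_lit 12901799271) (nat_lit 304) (nat_lit 140597967226) (nat_lit 78) (nat_lit 5) (nat_lit 81) (nat_lit 5) (nat_lit 82) (nat_lit 5) (nat_lit 494) (nat_lit 465) (nat_lit 241)))) (XT.nd (nat_lit 156)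 (nat_lit 228) (nat_lit 0) (XT.nd (nat_lit 78) (nat_lit 228) (nat_lit 0) (XT.lf (nat_lit 0) (nat_lit 118241531909) (nat_lit 304) (nat_lit 31999676901) (nat_lit 76) (nat_lit 70283634028) (nat_lit 78) (nat_lit 5) (nat_lit 82) (nat_lit 5) (nat_lit 79) (nat_lit 5) (nat_lit 495) (nat_lit 465) (nat_lit 240)) (XT.lf (nat_lit 0) (nat_lit 98516856923) (nat_lit 228) (nat_lit 68545440550) (nat_lit 304) (nat_lit 60215962606) (nat_lit 75) (nat_lit 5) (nat_lit 78) (nat_lit 5) (nat_lit 79) (nat_lit 5) (nat_lit 496) (nat_lit 465) (nat_lit 239))) (XT.nd (nat_lit 78) (nat_lit 76) (nat_lit 0) (XT.lf (nat_lit 0) (nat_lit 2117510627) (nat_lit 152) (nat_lit 217059412006) (nat_lit 228) (nat_lit 15149784516) (nat_lit 73) (nat_lit 5) (nat_lit 75) (nat_lit 5) (nat_lit 76) (nat_lit 5) (nat_lit 497) (nat_lit 465) (nat_lit 238)) (XT.lf (nat_lit 0) (nat_lit 34480011295) (nat_lit 228) (nat_lit 99269786471) (nat_lit 76) (nat_lit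 107785668867) (nat_lit 72) (nat_lit 5) (nat_lit 75) (nat_lit 5) (nat_lit 73) (nat_lit 5) (nat_lit 498) (nat_lit 465) (nat_lit 237))))) (XT.nd (nat_lit 312) (nat_lit 532) (nat_lit 0) (XT.nd (nat_lit 156) (nat_lit 152) (nat_lit 0) (XT.nd (nat_lit 78) (nat_lit 0) (nat_lit 0) (XT.lf (nat_lit 0) (nat_lit 41392863377) (nat_lit 228) (nat_lit 45335426347) (nat_lit 304) (nat_lit 162331650294) (nat_lit 69) (nat_lit 5) (nat_lit 72) (nat_lit 5) (nat_lit 73) (nat_lit 5) (nat_lit 499) (nat_lit 465) (nat_lit 236)) (XT.lf (nat_lit 0) (nat_lit 144039195643) (nat_lit 304) (nat_lit 65110878541) (nat_lit 76) (nat_lit 47688052239) (nat_lit 69) (nat_lit 5) (nat_lit 73) (nat_lit 5) (nat_lit 70) (nat_lit 5) (nat_lit 500) (nat_lit 465) (nat_lit 235))) (XT.nd (nat_lit 78) (nat_lit 0) (nat_lit 0) (XT.lf (nat_lit 0) (nat_lit 86601519124) (nat_lit 152) (nat_lit 119709298594) (nat_lit 228) (nat_lit 58589645913) (nat_lit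 67) (nat_lit 5) (nat_lit 69) (nat_lit 5) (nat_lit 70) (nat_lit 5) (nat_lit 501) (nat_lit 465) (nat_lit 234)) (XT.lf (nat_lit 0) (nat_lit 248159846434) (nat_lit 152) (nat_lit 24638736384) (nat_lit 228) (nat_lit 512206810) (nat_lit 67) (nat_lit 5) (nat_lit 69) (nat_lit 5) (nat_lit 70) (nat_lit 5) (nat_lit 502) (nat_lit 465) (nat_lit 233)))) (XT.nd (nat_lit 156) (nat_lit 152) (nat_lit 0) (XT.nd (nat_lit 78) (nat_lit 152) (nat_lit 0) (XT.lf (nat_lit 0) (nat_lit 61931290356) (nat_lit 228) (nat_lit 144046439513) (nat_lit 76) (nat_lit 75946818717) (nat_lit 64) (nat_lit 5) (nat_lit 67) (nat_lit 5) (nat_lit 65) (nat_lit 5) (nat_lit 503) (nat_lit 465) (nat_lit 232)) (XT.lf (nat_lit 0) (nat_lit 19178447074) (nat_lit 152) (nat_lit 109437454148) (nat_lit 228) (nat_lit 162295866832) (nat_lit 62) (nat_lit 5) (nat_lit 64) (nat_lit 5) (nat_lit 65) (nat_lit 5) (nat_lit 504) (nat_lit 465) (nat_lit 231))) (XT.nd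 (nat_lit 78) (nat_lit 152) (nat_lit 0) (XT.lf (nat_lit 0) (nat_lit 195565358789) (nat_lit 152) (nat_lit 5508765905) (nat_lit 228) (nat_lit 99152254718) (nat_lit 62) (nat_lit 5) (nat_lit 64) (nat_lit 5) (nat_lit 65) (nat_lit 5) (nat_lit 505) (nat_lit 465) (nat_lit 230)) (XT.lf (nat_lit 0) (nat_lit 71433282359) (nat_lit 152) (nat_lit 208454882692) (nat_lit 228) (nat_lit 29981911022) (nat_lit 60) (nat_lit 5) (nat_lit 62) (nat_lit 5) (nat_lit 63) (nat_lit 5) (nat_lit 506) (nat_lit 465) (nat_lit 229))))))))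
noncomputable def xc220 : XT := (XT.nd (nat_lit 2184) (nat_lit 152) (nat_lit 0) (XT.nd (nat_lit 1092) (nat_lit 836) (nat_lit 0) (XT.nd (nat_lit 546) (nat_lit 608) (nat_lit 0) (XT.nd (nat_lit 234) (nat_lit 532) (nat_lit 0) (XT.nd (nat_lit 78) (nat_lit 152) (nat_lit 0) (XT.lf (nat_lit 0) (nat_lit 43173721847) (nat_lit 228) (nat_lit 60726824209) (nat_lit 76) (nat_lit 215967532573) (nat_lit 59) (nat_lit 5) (nat_lit 62) (nat_lit 5) (nat_lit 60) (nat_lit 5) (nat_lit 507) (nat_lit 465) (nat_lit 228)) (XT.nd (nat_lit 78) (nat_lit 0) (nat_lit 0) (XT.lf (nat_lit 0) (nat_lit 121134686927) (nat_lit 228) (nat_lit 200850843079) (nat_lit 76) (nat_lit 8248119018) (nat_lit 57) (nat_lit 5) (nat_lit 60) (nat_lit 5) (nat_lit 58) (nat_lit 5) (nat_lit 508) (nat_lit 465) (nat_lit 227)) (XT.lf (nat_lit 0) (nat_lit 205742183006) (nat_lit 228) (nat_lit 11680182525) (nat_lit 76) (nat_lit 123557708286) (nat_lit 57) (nat_lit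 5) (nat_lit 60) (nat_lit 5) (nat_lit 58) (nat_lit 5) (nat_lit 509) (nat_lit 465) (nat_lit 226)))) (XT.nd (nat_lit 156) (nat_lit 152) (nat_lit 0) (XT.nd (nat_lit 78) (nat_lit 228) (nat_lit 0) (XT.lf (nat_lit 0) (nat_lit 193130217437) (nat_lit 152) (nat_lit 104465042593) (nat_lit 228) (nat_lit 54517799529) (nat_lit 55) (nat_lit 5) (nat_lit 57) (nat_lit 5) (nat_lit 58) (nat_lit 5) (nat_lit 510) (nat_lit 465) (nat_lit 225)) (XT.lf (nat_lit 0) (nat_lit 30429768582) (nat_lit 228) (nat_lit 318193128481) (nat_lit 76) (nat_lit 15098227983) (nat_lit 52) (nat_lit 5) (nat_lit 55) (nat_lit 5) (nat_lit 53) (nat_lit 5) (nat_lit 511) (nat_lit 465) (nat_lit 224))) (XT.nd (nat_lit 78) (nat_lit 152) (nat_lit 0) (XT.lf (nat_lit 0) (nat_lit 122241594824) (nat_lit 228) (nat_lit 112641651647) (nat_lit 76) (nat_lit 140759208864) (nat_lit 52) (nat_lit 5) (nat_lit 55) (nat_lit 5) (nat_lit 53) (nat_lit 5) (nat_lit 512)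 (nat_lit 465) (nat_lit 223)) (XT.lf (nat_lit 0) (nat_lit 106599074927) (nat_lit 152) (nat_lit 113709156036) (nat_lit 228) (nat_lit 167768410259) (nat_lit 50) (nat_lit 5) (nat_lit 52) (nat_lit 5) (nat_lit 53) (nat_lit 5) (nat_lit 513) (nat_lit 465) (nat_lit 222))))) (XT.nd (nat_lit 234) (nat_lit 456) (nat_lit 0) (XT.nd (nat_lit 78) (nat_lit 152) (nat_lit 0) (XT.lf (nat_lit 0) (nat_lit 325428163617) (nat_lit 228) (nat_lit 60567228524) (nat_lit 76) (nat_lit 15029646038) (nat_lit 50) (nat_lit 5) (nat_lit 53) (nat_lit 5) (nat_lit 51) (nat_lit 4) (nat_lit 514) (nat_lit 465) (nat_lit 221)) (XT.nd (nat_lit 78) (nat_lit 0) (nat_lit 0) (XT.lf (nat_lit 0) (nat_lit 25178885656) (nat_lit 152) (nat_lit 239667422877) (nat_lit 76) (nat_lit 149524327796) (nat_lit 48) (nat_lit 5) (nat_lit 50) (nat_lit 5) (nat_lit 49) (nat_lit 5) (nat_lit 515) (nat_lit 465) (nat_lit 220)) (XT.lf (nat_lit 0) (nat_lit 129495347660)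 (nat_lit 152) (nat_lit 5748554837) (nat_lit 76) (nat_lit 293025524024) (nat_lit 48) (nat_lit 5) (nat_lit 50) (nat_lit 5) (nat_lit 49) (nat_lit 5) (nat_lit 516) (nat_lit 465) (nat_lit 219)))) (XT.nd (nat_lit 156) (nat_lit 228) (nat_lit 0) (XT.nd (nat_lit 78) (nat_lit 76) (nat_lit 0) (XT.lf (nat_lit 0) (nat_lit 242972874265) (nat_lit 228) (nat_lit 194949068278) (nat_lit 76) (nat_lit 4743951615) (nat_lit 46) (nat_lit 5) (nat_lit 49) (nat_lit 5) (nat_lit 47) (nat_lit 4) (nat_lit 517) (nat_lit 465) (nat_lit 218)) (XT.lf (nat_lit 0) (nat_lit 55846309417) (nat_lit 76) (nat_lit 309465867459) (nat_lit 152) (nat_lit 92310613327) (nat_lit 45) (nat_lit 5) (nat_lit 46) (nat_lit 5) (nat_lit 47) (nat_lit 4) (nat_lit 518) (nat_lit 465) (nat_lit 217))) (XT.nd (nat_lit 78) (nat_lit 152) (nat_lit 0) (XT.lf (nat_lit 0) (nat_lit 23142276248) (nat_lit 152) (nat_lit 147586217063) (nat_lit 76) (nat_lit 302415300771)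 (nat_lit 44) (nat_lit 5) (nat_lit 46) (nat_lit 5) (nat_lit 45) (nat_lit 5) (nat_lit 519) (nat_lit 465) (nat_lit 216)) (XT.lf (nat_lit 0) (nat_lit 121695134981) (nat_lit 152) (nat_lit 21470358256) (nat_lit 228) (nat_lit 346104694247) (nat_lit 42) (nat_lit 5) (nat_lit 44) (nat_lit 5) (nat_lit 45) (nat_lit 5) (nat_lit 520) (nat_lit 465) (nat_lit 215)))))) (XT.nd (nat_lit 546) (nat_lit 304) (nat_lit 0) (XT.nd (nat_lit 234) (nat_lit 380) (nat_lit 0) (XT.nd (nat_lit 78) (nat_lit 152) (nat_lit 0) (XT.lf (nat_lit 0) (nat_lit 273841855072) (nat_lit 228) (nat_lit 98666271230) (nat_lit 76) (nat_lit 133462175062) (nat_lit 42) (nat_lit 5) (nat_lit 45) (nat_lit 5) (nat_lit 43) (nat_lit 4) (nat_lit 521) (nat_lit 465) (nat_lit 214)) (XT.nd (nat_lit 78) (nat_lit 76) (nat_lit 0) (XT.lf (nat_lit 0) (nat_lit 189397752634) (nat_lit 76) (nat_lit 224963212105) (nat_lit 152) (nat_lit 108979009720) (nat_lit 41) (nat_lit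 5) (nat_lit 42) (nat_lit 5) (nat_lit 43) (nat_lit 4) (nat_lit 522) (nat_lit 465) (nat_lit 213)) (XT.lf (nat_lit 0) (nat_lit 21375560005) (nat_lit 152) (nat_lit 46549038124) (nat_lit 76) (nat_lit 473552750260) (nat_lit 40) (nat_lit 5) (nat_lit 42) (nat_lit 5) (nat_lit 41) (nat_lit 5) (nat_lit 523) (nat_lit 465) (nat_lit 212)))) (XT.nd (nat_lit 156) (nat_lit 152) (nat_lit 0) (XT.nd (nat_lit 78) (nat_lit 76) (nat_lit 0) (XT.lf (nat_lit 0) (nat_lit 160283119544) (nat_lit 228) (nat_lit 300031515185) (nat_lit 76) (nat_lit 99832745703) (nat_lit 38) (nat_lit 5) (nat_lit 41) (nat_lit 5) (nat_lit 39) (nat_lit 4) (nat_lit 524) (nat_lit 465) (nat_lit 211)) (XT.lf (nat_lit 0) (nat_lit 2987647079) (nat_lit 76) (nat_lit 305109758540) (nat_lit 152) (nat_lit 271555441036) (nat_lit 37) (nat_lit 5) (nat_lit 38) (nat_lit 5) (nat_lit 39) (nat_lit 4) (nat_lit 525) (nat_lit 465) (nat_lit 210))) (XT.nd (nat_lit 78)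 (nat_lit 152) (nat_lit 0) (XT.lf (nat_lit 0) (nat_lit 331574057689) (nat_lit 76) (nat_lit 136809459581) (nat_lit 152) (nat_lit 131496013362) (nat_lit 37) (nat_lit 5) (nat_lit 38) (nat_lit 5) (nat_lit 39) (nat_lit 4) (nat_lit 526) (nat_lit 465) (nat_lit 209)) (XT.lf (nat_lit 0) (nat_lit 16600518987) (nat_lit 152) (nat_lit 564647284037) (nat_lit 76) (nat_lit 39780976302) (nat_lit 35) (nat_lit 5) (nat_lit 37) (nat_lit 5) (nat_lit 36) (nat_lit 4) (nat_lit 527) (nat_lit 465) (nat_lit 208))))) (XT.nd (nat_lit 234) (nat_lit 228) (nat_lit 0) (XT.nd (nat_lit 78) (nat_lit 76) (nat_lit 0) (XT.lf (nat_lit 0) (nat_lit 174543835453) (nat_lit 152) (nat_lit 240863587451) (nat_lit 76) (nat_lit 227377229646) (nat_lit 35) (nat_lit 5) (nat_lit 37) (nat_lit 5) (nat_lit 36) (nat_lit 4) (nat_lit 528) (nat_lit 465) (nat_lit 207)) (XT.nd (nat_lit 78) (nat_lit 0) (nat_lit 0) (XT.lf (nat_lit 0) (nat_lit 102386173807)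 (nat_lit 76) (nat_lit 239596617043) (nat_lit 152) (nat_lit 323565604936) (nat_lit 34) (nat_lit 5) (nat_lit 35) (nat_lit 5) (nat_lit 36) (nat_lit 4) (nat_lit 529) (nat_lit 465) (nat_lit 206)) (XT.lf (nat_lit 0) (nat_lit 471160547756) (nat_lit 76) (nat_lit 50712226812) (nat_lit 152) (nat_lit 167373597592) (nat_lit 34) (nat_lit 5) (nat_lit 35) (nat_lit 5) (nat_lit 36) (nat_lit 4) (nat_lit 530) (nat_lit 465) (nat_lit 205)))) (XT.nd (nat_lit 156) (nat_lit 76) (nat_lit 0) (XT.nd (nat_lit 78) (nat_lit 0) (nat_lit 0) (XT.lf (nat_lit 0) (nat_lit 1405240903) (nat_lit 152) (nat_lit 567289473641) (nat_lit 76) (nat_lit 145203699821) (nat_lit 32) (nat_lit 5) (nat_lit 34) (nat_lit 5) (nat_lit 33) (nat_lit 4) (nat_lit 531) (nat_lit 465) (nat_lit 204)) (XT.lf (nat_lit 0) (nat_lit 177583396585) (nat_lit 152) (nat_lit 206124334547) (nat_lit 76) (nat_lit 355708874796) (nat_lit 32) (nat_lit 5) (nat_lit 34) (nat_lit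 5) (nat_lit 33) (nat_lit 4) (nat_lit 532) (nat_lit 465) (nat_lit 203))) (XT.nd (nat_lit 78) (nat_lit 0) (nat_lit 0) (XT.lf (nat_lit 0) (nat_lit 178822388031) (nat_lit 76) (nat_lit 186539934807) (nat_lit 152) (nat_lit 400708791095) (nat_lit 31) (nat_lit 5) (nat_lit 32) (nat_lit 5) (nat_lit 33) (nat_lit 4) (nat_lit 533) (nat_lit 465) (nat_lit 202)) (XT.lf (nat_lit 0) (nat_lit 566398029425) (nat_lit 152) (nat_lit 204088369552) (nat_lit 0) (nat_lit 23378556664) (nat_lit 31) (nat_lit 5) (nat_lit 33) (nat_lit 4) (nat_lit 31) (nat_lit 4) (nat_lit 534) (nat_lit 465) (nat_lit 201))))))) (XT.nd (nat_lit 58032) (nat_lit 0) (nat_lit 4256) (XT.nd (nat_lit 57486) (nat_lit 0) (nat_lit 6916) (XT.nd (nat_lit 57174) (nat_lit 0) (nat_lit 7296) (XT.nd (nat_lit 78) (nat_lit 76) (nat_lit 0) (XT.lf (nat_lit 0) (nat_lit 201625134570) (nat_lit 76) (nat_lit 582066298940) (nat_lit 76) (nat_lit 39046760319) (nat_lit 30)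 (nat_lit 4) (nat_lit 31) (nat_lit 5) (nat_lit 31) (nat_lit 4) (nat_lit 535) (nat_lit 465) (nat_lit 200)) (XT.nd (nat_lit 57018) (nat_lit 0) (nat_lit 7296) (XT.lf (nat_lit 0) (nat_lit 157224944612) (nat_lit 152) (nat_lit 220708464888) (nat_lit 76) (nat_lit 474822075954) (nat_lit 29) (nat_lit 5) (nat_lit 31) (nat_lit 5) (nat_lit 30) (nat_lit 4) (nat_lit 536) (nat_lit 465) (nat_lit 199)) (XT.lf (nat_lit 0) (nat_lit 16971356568) (nat_lit 836) (nat_lit 16948601339) (nat_lit 836) (nat_lit 16948601339) (nat_lit 125) (nat_lit 3) (nat_lit 136) (nat_lit 3) (nat_lit 136) (nat_lit 5) (nat_lit 466) (nat_lit 466) (nat_lit 268)))) (XT.nd (nat_lit 156) (nat_lit 0) (nat_lit 76) (XT.nd (nat_lit 78) (nat_lit 0) (nat_lit 76) (XT.lf (nat_lit 76) (nat_lit 16469354011) (nat_lit 0) (nat_lit 18585244848) (nat_lit 836) (nat_lit 69212779296) (nat_lit 126) (nat_lit 5) (nat_lit 125) (nat_lit 3) (nat_lit 136) (nat_lit 5)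 (nat_lit 467) (nat_lit 466) (nat_lit 267)) (XT.lf (nat_lit 0) (nat_lit 37322444776) (nat_lit 760) (nat_lit 36891309239) (nat_lit 836) (nat_lit 32655378644) (nat_lit 126) (nat_lit 5) (nat_lit 136) (nat_lit 5) (nat_lit 137) (nat_lit 5) (nat_lit 468) (nat_lit 466) (nat_lit 266))) (XT.nd (nat_lit 78) (nat_lit 0) (nat_lit 76) (XT.lf (nat_lit 76) (nat_lit 16793330224) (nat_lit 0) (nat_lit 23476842333) (nat_lit 836) (nat_lit 69302477998) (nat_lit 127) (nat_lit 5) (nat_lit 126) (nat_lit 5) (nat_lit 137) (nat_lit 5) (nat_lit 469) (nat_lit 466) (nat_lit 265)) (XT.lf (nat_lit 0) (nat_lit 44465153580) (nat_lit 760) (nat_lit 38412819952) (nat_lit 836) (nat_lit 29478377611) (nat_lit 127) (nat_lit 5) (nat_lit 137) (nat_lit 5) (nat_lit 138) (nat_lit 5) (nat_lit 470) (nat_lit 466) (nat_lit 264))))) (XT.nd (nat_lit 234) (nat_lit 532) (nat_lit 0) (XT.nd (nat_lit 78) (nat_lit 0) (nat_lit 76) (XT.lf (nat_lit 76)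 (nat_lit 18891555197) (nat_lit 0) (nat_lit 30657801190) (nat_lit 836) (nat_lit 65695906869) (nat_lit 128) (nat_lit 5) (nat_lit 127) (nat_lit 5) (nat_lit 138) (nat_lit 5) (nat_lit 471) (nat_lit 466) (nat_lit 263)) (XT.nd (nat_lit 78) (nat_lit 0) (nat_lit 0) (XT.lf (nat_lit 0) (nat_lit 55926058576) (nat_lit 760) (nat_lit 38239663571) (nat_lit 836) (nat_lit 24060984494) (nat_lit 128) (nat_lit 5) (nat_lit 138) (nat_lit 5) (nat_lit 139) (nat_lit 5) (nat_lit 472) (nat_lit 466) (nat_lit 262)) (XT.lf (nat_lit 76) (nat_lit 23013848577) (nat_lit 0) (nat_lit 40469331309) (nat_lit 836) (nat_lit 57830963229) (nat_lit 129) (nat_lit 5) (nat_lit 128) (nat_lit 5) (nat_lit 139) (nat_lit 5) (nat_lit 473) (nat_lit 466) (nat_lit 261)))) (XT.nd (nat_lit 156) (nat_lit 684) (nat_lit 0) (XT.nd (nat_lit 78) (nat_lit 0) (nat_lit 0) (XT.lf (nat_lit 0) (nat_lit 72324508886) (nat_lit 760) (nat_lit 36125232582) (nat_lit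 836) (nat_lit 16060892478) (nat_lit 129) (nat_lit 5) (nat_lit 139) (nat_lit 5) (nat_lit 140) (nat_lit 5) (nat_lit 474) (nat_lit 466) (nat_lit 260)) (XT.lf (nat_lit 76) (nat_lit 29437086073) (nat_lit 0) (nat_lit 53293558554) (nat_lit 836) (nat_lit 45080167787) (nat_lit 130) (nat_lit 5) (nat_lit 129) (nat_lit 5) (nat_lit 140) (nat_lit 5) (nat_lit 475) (nat_lit 466) (nat_lit 259))) (XT.nd (nat_lit 78) (nat_lit 760) (nat_lit 0) (XT.lf (nat_lit 0) (nat_lit 94350776812) (nat_lit 760) (nat_lit 31796116307) (nat_lit 76) (nat_lit 5094422308) (nat_lit 130) (nat_lit 5) (nat_lit 140) (nat_lit 5) (nat_lit 131) (nat_lit 5) (nat_lit 476) (nat_lit 466) (nat_lit 258)) (XT.lf (nat_lit 0) (nat_lit 38467680900) (nat_lit 760) (nat_lit 69558225015) (nat_lit 836) (nat_lit 26743738259) (nat_lit 120) (nat_lit 5) (nat_lit 130) (nat_lit 5) (nat_lit 131) (nat_lit 5) (nat_lit 477) (nat_lit 466) (nat_lit 257)))))) (XT.nd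 (nat_lit 546) (nat_lit 1140) (nat_lit 0) (XT.nd (nat_lit 234) (nat_lit 1064) (nat_lit 0) (XT.nd (nat_lit 78) (nat_lit 456) (nat_lit 0) (XT.lf (nat_lit 0) (nat_lit 113348326651) (nat_lit 760) (nat_lit 9574693466) (nat_lit 836) (nat_lit 15524457903) (nat_lit 120) (nat_lit 5) (nat_lit 130) (nat_lit 5) (nat_lit 131) (nat_lit 5) (nat_lit 478) (nat_lit 466) (nat_lit 256)) (XT.nd (nat_lit 78) (nat_lit 76) (nat_lit 0) (XT.lf (nat_lit 0) (nat_lit 50444251188) (nat_lit 380) (nat_lit 89741922225) (nat_lit 456) (nat_lit 2041971067) (nat_lit 115) (nat_lit 5) (nat_lit 120) (nat_lit 5) (nat_lit 121) (nat_lit 5) (nat_lit 479) (nat_lit 466) (nat_lit 255)) (XT.lf (nat_lit 0) (nat_lit 12315655220) (nat_lit 456) (nat_lit 15893691598) (nat_lit 76) (nat_lit 117949602390) (nat_lit 114) (nat_lit 5) (nat_lit 120) (nat_lit 5) (nat_lit 115) (nat_lit 5) (nat_lit 480) (nat_lit 466) (nat_lit 254)))) (XT.nd (nat_lit 156)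 (nat_lit 684) (nat_lit 0) (XT.nd (nat_lit 78) (nat_lit 0) (nat_lit 0) (XT.lf (nat_lit 0) (nat_lit 28936367544) (nat_lit 456) (nat_lit 84953500257) (nat_lit 76) (nat_lit 36314061285) (nat_lit 109) (nat_lit 5) (nat_lit 115) (nat_lit 5) (nat_lit 110) (nat_lit 5) (nat_lit 481) (nat_lit 466) (nat_lit 253)) (XT.lf (nat_lit 0) (nat_lit 47123924801) (nat_lit 456) (nat_lit 3901244618) (nat_lit 76) (nat_lit 103389198148) (nat_lit 109) (nat_lit 5) (nat_lit 115) (nat_lit 5) (nat_lit 110) (nat_lit 5) (nat_lit 482) (nat_lit 466) (nat_lit 252))) (XT.nd (nat_lit 78) (nat_lit 304) (nat_lit 0) (XT.lf (nat_lit 0) (nat_lit 67785777467) (nat_lit 456) (nat_lit 75136892025) (nat_lit 76) (nat_lit 15834412672) (nat_lit 104) (nat_lit 5) (nat_lit 110) (nat_lit 5) (nat_lit 105) (nat_lit 5) (nat_lit 483) (nat_lit 466) (nat_lit 251)) (XT.lf (nat_lit 0) (nat_lit 11882019790) (nat_lit 304) (nat_lit 78687643140) (nat_lit 380)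 (nat_lit 72692822621) (nat_lit 100) (nat_lit 5) (nat_lit 104) (nat_lit 5) (nat_lit 105) (nat_lit 5) (nat_lit 484) (nat_lit 466) (nat_lit 250))))) (XT.nd (nat_lit 312) (nat_lit 532) (nat_lit 0) (XT.nd (nat_lit 156) (nat_lit 304) (nat_lit 0) (XT.nd (nat_lit 78) (nat_lit 304) (nat_lit 0) (XT.lf (nat_lit 0) (nat_lit 105860236321) (nat_lit 304) (nat_lit 9904789875) (nat_lit 380) (nat_lit 52164518799) (nat_lit 100) (nat_lit 5) (nat_lit 104) (nat_lit 5) (nat_lit 105) (nat_lit 5) (nat_lit 485) (nat_lit 466) (nat_lit 249)) (XT.lf (nat_lit 0) (nat_lit 31750450320) (nat_lit 304) (nat_lit 111938179875) (nat_lit 380) (nat_lit 29067903648) (nat_lit 96) (nat_lit 5) (nat_lit 100) (nat_lit 5) (nat_lit 101) (nat_lit 5) (nat_lit 486) (nat_lit 466) (nat_lit 248))) (XT.nd (nat_lit 78) (nat_lit 304) (nat_lit 0) (XT.lf (nat_lit 0) (nat_lit 132248142270) (nat_lit 304) (nat_lit 41971018899) (nat_lit 380) (nat_lit 3545173683)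 (nat_lit 96) (nat_lit 5) (nat_lit 100) (nat_lit 5) (nat_lit 101) (nat_lit 5) (nat_lit 487) (nat_lit 466) (nat_lit 247)) (XT.lf (nat_lit 0) (nat_lit 23898478132) (nat_lit 304) (nat_lit 127289437171) (nat_lit 76) (nat_lit 31747005460) (nat_lit 92) (nat_lit 5) (nat_lit 96) (nat_lit 5) (nat_lit 93) (nat_lit 5) (nat_lit 488) (nat_lit 466) (nat_lit 246)))) (XT.nd (nat_lit 156) (nat_lit 228) (nat_lit 0) (XT.nd (nat_lit 78) (nat_lit 304) (nat_lit 0) (XT.lf (nat_lit 0) (nat_lit 54066524939) (nat_lit 304) (nat_lit 25639053605) (nat_lit 76) (nat_lit 108581983920) (nat_lit 92) (nat_lit 5) (nat_lit 96) (nat_lit 5) (nat_lit 93) (nat_lit 5) (nat_lit 489) (nat_lit 466) (nat_lit 245)) (XT.lf (nat_lit 0) (nat_lit 83774962765) (nat_lit 304) (nat_lit 3275809982) (nat_lit 380) (nat_lit 106791673620) (nat_lit 88) (nat_lit 5) (nat_lit 92) (nat_lit 5) (nat_lit 93) (nat_lit 5) (nat_lit 490) (nat_lit 466) (nat_lit 244)))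 (XT.nd (nat_lit 78) (nat_lit 228) (nat_lit 0) (XT.lf (nat_lit 0) (nat_lit 123327203932) (nat_lit 380) (nat_lit 1312686883) (nat_lit 76) (nat_lit 74953035144) (nat_lit 88) (nat_lit 5) (nat_lit 93) (nat_lit 5) (nat_lit 89) (nat_lit 5) (nat_lit 491) (nat_lit 466) (nat_lit 243)) (XT.lf (nat_lit 0) (nat_lit 116556481013) (nat_lit 228) (nat_lit 46734298940) (nat_lit 304) (nat_lit 42246483458) (nat_lit 85) (nat_lit 5) (nat_lit 88) (nat_lit 5) (nat_lit 89) (nat_lit 5) (nat_lit 492) (nat_lit 466) (nat_lit 242))))))))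
noncomputable def xc221 : XT := (XT.nd (nat_lit 2184) (nat_lit 1064) (nat_lit 0) (XT.nd (nat_lit 1092) (nat_lit 1368) (nat_lit 0) (XT.nd (nat_lit 546) (nat_lit 760) (nat_lit 0) (XT.nd (nat_lit 234) (nat_lit 456) (nat_lit 0) (XT.nd (nat_lit 78) (nat_lit 304) (nat_lit 0) (XT.lf (nat_lit 0) (nat_lit 28966010434) (nat_lit 228) (nat_lit 177308699324) (nat_lit 304) (nat_lit 5452999269) (nat_lit 82) (nat_lit 5) (nat_lit 85) (nat_lit 5) (nat_lit 86) (nat_lit 5) (nat_lit 493) (nat_lit 466) (nat_lit 241)) (XT.nd (nat_lit 78) (nat_lit 228) (nat_lit 0) (XT.lf (nat_lit 0) (nat_lit 34415812278) (nat_lit 304) (nat_lit 63562057786) (nat_lit 76) (nat_lit 120109023861) (nat_lit 81) (nat_lit 5) (nat_lit 85) (nat_lit 5) (nat_lit 82) (nat_lit 5) (nat_lit 494) (nat_lit 466) (nat_lit 240)) (XT.lf (nat_lit 0) (nat_lit 63541705795) (nat_lit 228) (nat_lit 13545026167) (nat_lit 304) (nat_lit 147623240266) (nat_lit 78)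 (nat_lit 5) (nat_lit 81) (nat_lit 5) (nat_lit 82) (nat_lit 5) (nat_lit 495) (nat_lit 466) (nat_lit 239)))) (XT.nd (nat_lit 156) (nat_lit 228) (nat_lit 0) (XT.nd (nat_lit 78) (nat_lit 228) (nat_lit 0) (XT.lf (nat_lit 0) (nat_lit 124157830516) (nat_lit 304) (nat_lit 33593509030) (nat_lit 76) (nat_lit 73799533290) (nat_lit 78) (nat_lit 5) (nat_lit 82) (nat_lit 5) (nat_lit 79) (nat_lit 5) (nat_lit 496) (nat_lit 466) (nat_lit 238)) (XT.lf (nat_lit 0) (nat_lit 103448752264) (nat_lit 228) (nat_lit 71970775542) (nat_lit 304) (nat_lit 63222438509) (nat_lit 75) (nat_lit 5) (nat_lit 78) (nat_lit 5) (nat_lit 79) (nat_lit 5) (nat_lit 497) (nat_lit 466) (nat_lit 237))) (XT.nd (nat_lit 78) (nat_lit 76) (nat_lit 0) (XT.lf (nat_lit 0) (nat_lit 2229514710) (nat_lit 152) (nat_lit 227910298026) (nat_lit 228) (nat_lit 15903026624) (nat_lit 73) (nat_lit 5) (nat_lit 75) (nat_lit 5) (nat_lit 76) (nat_lit 5) (nat_lit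 498) (nat_lit 466) (nat_lit 236)) (XT.lf (nat_lit 0) (nat_lit 36207927272) (nat_lit 228) (nat_lit 104227308759) (nat_lit 76) (nat_lit 113176807305) (nat_lit 72) (nat_lit 5) (nat_lit 75) (nat_lit 5) (nat_lit 73) (nat_lit 5) (nat_lit 499) (nat_lit 466) (nat_lit 235))))) (XT.nd (nat_lit 234) (nat_lit 380) (nat_lit 0) (XT.nd (nat_lit 78) (nat_lit 152) (nat_lit 0) (XT.lf (nat_lit 0) (nat_lit 43468377340) (nat_lit 228) (nat_lit 47600147495) (nat_lit 304) (nat_lit 170444220335) (nat_lit 69) (nat_lit 5) (nat_lit 72) (nat_lit 5) (nat_lit 73) (nat_lit 5) (nat_lit 500) (nat_lit 466) (nat_lit 234)) (XT.nd (nat_lit 78) (nat_lit 152) (nat_lit 0) (XT.lf (nat_lit 0) (nat_lit 151244824600) (nat_lit 304) (nat_lit 68360679007) (nat_lit 76) (nat_lit 50074344900) (nat_lit 69) (nat_lit 5) (nat_lit 73) (nat_lit 5) (nat_lit 70) (nat_lit 5) (nat_lit 501) (nat_lit 466) (nat_lit 233)) (XT.lf (nat_lit 0) (nat_lit 90937245904)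 (nat_lit 152) (nat_lit 125692695376) (nat_lit 228) (nat_lit 61515365656) (nat_lit 67) (nat_lit 5) (nat_lit 69) (nat_lit 5) (nat_lit 70) (nat_lit 5) (nat_lit 502) (nat_lit 466) (nat_lit 232)))) (XT.nd (nat_lit 156) (nat_lit 152) (nat_lit 0) (XT.nd (nat_lit 78) (nat_lit 228) (nat_lit 0) (XT.lf (nat_lit 0) (nat_lit 260573220493) (nat_lit 152) (nat_lit 25868703539) (nat_lit 228) (nat_lit 534233767) (nat_lit 67) (nat_lit 5) (nat_lit 69) (nat_lit 5) (nat_lit 70) (nat_lit 5) (nat_lit 503) (nat_lit 466) (nat_lit 231)) (XT.lf (nat_lit 0) (nat_lit 65031274377) (nat_lit 228) (nat_lit 151243214557) (nat_lit 76) (nat_lit 79746115465) (nat_lit 64) (nat_lit 5) (nat_lit 67) (nat_lit 5) (nat_lit 65) (nat_lit 5) (nat_lit 504) (nat_lit 466) (nat_lit 230))) (XT.nd (nat_lit 78) (nat_lit 0) (nat_lit 0) (XT.lf (nat_lit 0) (nat_lit 20142826892) (nat_lit 152) (nat_lit 114907211266) (nat_lit 228) (nat_lit 170407150593)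 (nat_lit 62) (nat_lit 5) (nat_lit 64) (nat_lit 5) (nat_lit 65) (nat_lit 5) (nat_lit 505) (nat_lit 466) (nat_lit 229)) (XT.lf (nat_lit 0) (nat_lit 205348824314) (nat_lit 152) (nat_lit 5782189353) (nat_lit 228) (nat_lit 104106524997) (nat_lit 62) (nat_lit 5) (nat_lit 64) (nat_lit 5) (nat_lit 65) (nat_lit 5) (nat_lit 506) (nat_lit 466) (nat_lit 228)))))) (XT.nd (nat_lit 546) (nat_lit 608) (nat_lit 0) (XT.nd (nat_lit 234) (nat_lit 380) (nat_lit 0) (XT.nd (nat_lit 78) (nat_lit 228) (nat_lit 0) (XT.lf (nat_lit 0) (nat_lit 75010186423) (nat_lit 152) (nat_lit 218875529831) (nat_lit 228) (nat_lit 31477705922) (nat_lit 60) (nat_lit 5) (nat_lit 62) (nat_lit 5) (nat_lit 63) (nat_lit 5) (nat_lit 507) (nat_lit 466) (nat_lit 227)) (XT.nd (nat_lit 78) (nat_lit 152) (nat_lit 0) (XT.lf (nat_lit 0) (nat_lit 45335450805) (nat_lit 228) (nat_lit 63758073882) (nat_lit 76) (nat_lit 226767805228) (nat_lit 59) (nat_lit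 5) (nat_lit 62) (nat_lit 5) (nat_lit 60) (nat_lit 5) (nat_lit 508) (nat_lit 466) (nat_lit 226)) (XT.lf (nat_lit 0) (nat_lit 127194429197) (nat_lit 228) (nat_lit 210888258274) (nat_lit 76) (nat_lit 8662493130) (nat_lit 57) (nat_lit 5) (nat_lit 60) (nat_lit 5) (nat_lit 58) (nat_lit 5) (nat_lit 509) (nat_lit 466) (nat_lit 225)))) (XT.nd (nat_lit 156) (nat_lit 228) (nat_lit 0) (XT.nd (nat_lit 78) (nat_lit 152) (nat_lit 0) (XT.lf (nat_lit 0) (nat_lit 216032156845) (nat_lit 228) (nat_lit 12259308834) (nat_lit 76) (nat_lit 129737468140) (nat_lit 57) (nat_lit 5) (nat_lit 60) (nat_lit 5) (nat_lit 58) (nat_lit 5) (nat_lit 510) (nat_lit 466) (nat_lit 224)) (XT.lf (nat_lit 0) (nat_lit 202791532372) (nat_lit 152) (nat_lit 109686293940) (nat_lit 228) (nat_lit 57240745628) (nat_lit 55) (nat_lit 5) (nat_lit 57) (nat_lit 5) (nat_lit 58) (nat_lit 5) (nat_lit 511) (nat_lit 466) (nat_lit 223))) (XT.nd (nat_lit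 78) (nat_lit 0) (nat_lit 0) (XT.lf (nat_lit 0) (nat_lit 31954077919) (nat_lit 228) (nat_lit 334097857066) (nat_lit 76) (nat_lit 15855104875) (nat_lit 52) (nat_lit 5) (nat_lit 55) (nat_lit 5) (nat_lit 53) (nat_lit 5) (nat_lit 512) (nat_lit 466) (nat_lit 222)) (XT.lf (nat_lit 0) (nat_lit 128356361144) (nat_lit 228) (nat_lit 118269041049) (nat_lit 76) (nat_lit 147799041205) (nat_lit 52) (nat_lit 5) (nat_lit 55) (nat_lit 5) (nat_lit 53) (nat_lit 5) (nat_lit 513) (nat_lit 466) (nat_lit 221))))) (XT.nd (nat_lit 234) (nat_lit 304) (nat_lit 0) (XT.nd (nat_lit 78) (nat_lit 152) (nat_lit 0) (XT.lf (nat_lit 0) (nat_lit 111933646157) (nat_lit 152) (nat_lit 119392627092) (nat_lit 228) (nat_lit 176154068140) (nat_lit 50) (nat_lit 5) (nat_lit 52) (nat_lit 5) (nat_lit 53) (nat_lit 5) (nat_lit 514) (nat_lit 466) (nat_lit 220)) (XT.nd (nat_lit 78) (nat_lit 152) (nat_lit 0) (XT.lf (nat_lit 0) (nat_lit 341702106805)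 (nat_lit 228) (nat_lit 63591096275) (nat_lit 76) (nat_lit 15782959919) (nat_lit 50) (nat_lit 5) (nat_lit 53) (nat_lit 5) (nat_lit 51) (nat_lit 4) (nat_lit 515) (nat_lit 466) (nat_lit 219)) (XT.lf (nat_lit 0) (nat_lit 26440354282) (nat_lit 152) (nat_lit 251646289049) (nat_lit 76) (nat_lit 157002398289) (nat_lit 48) (nat_lit 5) (nat_lit 50) (nat_lit 5) (nat_lit 49) (nat_lit 5) (nat_lit 516) (nat_lit 466) (nat_lit 218)))) (XT.nd (nat_lit 156) (nat_lit 152) (nat_lit 0) (XT.nd (nat_lit 78) (nat_lit 152) (nat_lit 0) (XT.lf (nat_lit 0) (nat_lit 135972519179) (nat_lit 152) (nat_lit 6031692130) (nat_lit 76) (nat_lit 307678566038) (nat_lit 48) (nat_lit 5) (nat_lit 50) (nat_lit 5) (nat_lit 49) (nat_lit 5) (nat_lit 517) (nat_lit 466) (nat_lit 217)) (XT.lf (nat_lit 0) (nat_lit 255123902666) (nat_lit 228) (nat_lit 204692211515) (nat_lit 76) (nat_lit 4982955172) (nat_lit 46) (nat_lit 5) (nat_lit 49) (nat_lit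 5) (nat_lit 47) (nat_lit 4) (nat_lit 518) (nat_lit 466) (nat_lit 216))) (XT.nd (nat_lit 78) (nat_lit 76) (nat_lit 0) (XT.lf (nat_lit 0) (nat_lit 58642865546) (nat_lit 76) (nat_lit 324937257514) (nat_lit 152) (nat_lit 96923689520) (nat_lit 45) (nat_lit 5) (nat_lit 46) (nat_lit 5) (nat_lit 47) (nat_lit 4) (nat_lit 519) (nat_lit 466) (nat_lit 215)) (XT.lf (nat_lit 0) (nat_lit 24301652836) (nat_lit 152) (nat_lit 154961414135) (nat_lit 76) (nat_lit 317537803435) (nat_lit 44) (nat_lit 5) (nat_lit 46) (nat_lit 5) (nat_lit 45) (nat_lit 5) (nat_lit 520) (nat_lit 466) (nat_lit 214))))))) (XT.nd (nat_lit 1092) (nat_lit 76) (nat_lit 0) (XT.nd (nat_lit 546) (nat_lit 456) (nat_lit 0) (XT.nd (nat_lit 234) (nat_lit 304) (nat_lit 0) (XT.nd (nat_lit 78) (nat_lit 76) (nat_lit 0) (XT.lf (nat_lit 0) (nat_lit 127783939160) (nat_lit 152) (nat_lit 22542046955) (nat_lit 228) (nat_lit 363407599603) (nat_lit 42) (nat_lit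 5) (nat_lit 44) (nat_lit 5) (nat_lit 45) (nat_lit 5) (nat_lit 521) (nat_lit 466) (nat_lit 213)) (XT.nd (nat_lit 78) (nat_lit 76) (nat_lit 0) (XT.lf (nat_lit 0) (nat_lit 287536087612) (nat_lit 228) (nat_lit 103595651447) (nat_lit 76) (nat_lit 140136970165) (nat_lit 42) (nat_lit 5) (nat_lit 45) (nat_lit 5) (nat_lit 43) (nat_lit 4) (nat_lit 522) (nat_lit 466) (nat_lit 212)) (XT.lf (nat_lit 0) (nat_lit 198871510168) (nat_lit 76) (nat_lit 236209601119) (nat_lit 152) (nat_lit 114425756770) (nat_lit 41) (nat_lit 5) (nat_lit 42) (nat_lit 5) (nat_lit 43) (nat_lit 4) (nat_lit 523) (nat_lit 466) (nat_lit 211)))) (XT.nd (nat_lit 156) (nat_lit 76) (nat_lit 0) (XT.nd (nat_lit 78) (nat_lit 152) (nat_lit 0) (XT.lf (nat_lit 0) (nat_lit 22446369350) (nat_lit 152) (nat_lit 48872737054) (nat_lit 76) (nat_lit 497232007648) (nat_lit 40) (nat_lit 5) (nat_lit 42) (nat_lit 5) (nat_lit 41) (nat_lit 5) (nat_lit 524)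 (nat_lit 466) (nat_lit 210)) (XT.lf (nat_lit 0) (nat_lit 168299294329) (nat_lit 228) (nat_lit 315029325251) (nat_lit 76) (nat_lit 104826028753) (nat_lit 38) (nat_lit 5) (nat_lit 41) (nat_lit 5) (nat_lit 39) (nat_lit 4) (nat_lit 525) (nat_lit 466) (nat_lit 209))) (XT.nd (nat_lit 78) (nat_lit 0) (nat_lit 0) (XT.lf (nat_lit 0) (nat_lit 3140734390) (nat_lit 76) (nat_lit 320363522029) (nat_lit 152) (nat_lit 285131133372) (nat_lit 37) (nat_lit 5) (nat_lit 38) (nat_lit 5) (nat_lit 39) (nat_lit 4) (nat_lit 526) (nat_lit 466) (nat_lit 208)) (XT.lf (nat_lit 0) (nat_lit 348156289104) (nat_lit 76) (nat_lit 143648290239) (nat_lit 152) (nat_lit 138068833347) (nat_lit 37) (nat_lit 5) (nat_lit 38) (nat_lit 5) (nat_lit 39) (nat_lit 4) (nat_lit 527) (nat_lit 466) (nat_lit 207))))) (XT.nd (nat_lit 234) (nat_lit 228) (nat_lit 0) (XT.nd (nat_lit 78) (nat_lit 76) (nat_lit 0) (XT.lf (nat_lit 0) (nat_lit 17432451910)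 (nat_lit 152) (nat_lit 592876045697) (nat_lit 76) (nat_lit 41771625188) (nat_lit 35) (nat_lit 5) (nat_lit 37) (nat_lit 5) (nat_lit 36) (nat_lit 4) (nat_lit 528) (nat_lit 466) (nat_lit 206)) (XT.nd (nat_lit 78) (nat_lit 76) (nat_lit 0) (XT.lf (nat_lit 0) (nat_lit 183272843392) (nat_lit 152) (nat_lit 252903335831) (nat_lit 76) (nat_lit 238747615005) (nat_lit 35) (nat_lit 5) (nat_lit 37) (nat_lit 5) (nat_lit 36) (nat_lit 4) (nat_lit 529) (nat_lit 466) (nat_lit 205)) (XT.lf (nat_lit 0) (nat_lit 107508858151) (nat_lit 76) (nat_lit 251574854627) (nat_lit 152) (nat_lit 339742013543) (nat_lit 34) (nat_lit 5) (nat_lit 35) (nat_lit 5) (nat_lit 36) (nat_lit 4) (nat_lit 530) (nat_lit 466) (nat_lit 204)))) (XT.nd (nat_lit 156) (nat_lit 76) (nat_lit 0) (XT.nd (nat_lit 78) (nat_lit 152) (nat_lit 0) (XT.lf (nat_lit 0) (nat_lit 494721790053) (nat_lit 76) (nat_lit 53246320753) (nat_lit 152) (nat_lit 175740494959)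 (nat_lit 34) (nat_lit 5) (nat_lit 35) (nat_lit 5) (nat_lit 36) (nat_lit 4) (nat_lit 531) (nat_lit 466) (nat_lit 203)) (XT.lf (nat_lit 0) (nat_lit 1477220329) (nat_lit 152) (nat_lit 595650667043) (nat_lit 76) (nat_lit 152465361726) (nat_lit 32) (nat_lit 5) (nat_lit 34) (nat_lit 5) (nat_lit 33) (nat_lit 4) (nat_lit 532) (nat_lit 466) (nat_lit 202))) (XT.nd (nat_lit 78) (nat_lit 76) (nat_lit 0) (XT.lf (nat_lit 0) (nat_lit 186464202015) (nat_lit 152) (nat_lit 216427427198) (nat_lit 76) (nat_lit 373495725121) (nat_lit 32) (nat_lit 5) (nat_lit 34) (nat_lit 5) (nat_lit 33) (nat_lit 4) (nat_lit 533) (nat_lit 466) (nat_lit 201)) (XT.lf (nat_lit 0) (nat_lit 187766581121) (nat_lit 76) (nat_lit 195865463563) (nat_lit 152) (nat_lit 420742544555) (nat_lit 31) (nat_lit 5) (nat_lit 32) (nat_lit 5) (nat_lit 33) (nat_lit 4) (nat_lit 534) (nat_lit 466) (nat_lit 200)))))) (XT.nd (nat_lit 57564) (nat_lit 0) (nat_lit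 6840) (XT.nd (nat_lit 57252) (nat_lit 0) (nat_lit 7220) (XT.nd (nat_lit 78) (nat_lit 76) (nat_lit 0) (XT.lf (nat_lit 0) (nat_lit 594719481965) (nat_lit 152) (nat_lit 214289805973) (nat_lit 0) (nat_lit 24548837830) (nat_lit 31) (nat_lit 5) (nat_lit 33) (nat_lit 4) (nat_lit 31) (nat_lit 4) (nat_lit 535) (nat_lit 466) (nat_lit 199)) (XT.nd (nat_lit 57096) (nat_lit 0) (nat_lit 7220) (XT.lf (nat_lit 0) (nat_lit 211709325257) (nat_lit 76) (nat_lit 611168202945) (nat_lit 76) (nat_lit 40997499072) (nat_lit 30) (nat_lit 4) (nat_lit 31) (nat_lit 5) (nat_lit 31) (nat_lit 4) (nat_lit 536) (nat_lit 466) (nat_lit 198)) (XT.lf (nat_lit 0) (nat_lit 17826012953) (nat_lit 836) (nat_lit 17792833730) (nat_lit 836) (nat_lit 17792833730) (nat_lit 125) (nat_lit 3) (nat_lit 136) (nat_lit 3) (nat_lit 136) (nat_lit 5) (nat_lit 467) (nat_lit 467) (nat_lit 266)))) (XT.nd (nat_lit 156) (nat_lit 0) (nat_lit 76) (XT.nd (nat_lit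 78) (nat_lit 0) (nat_lit 76) (XT.lf (nat_lit 76) (nat_lit 17299113914) (nat_lit 0) (nat_lit 19519910378) (nat_lit 836) (nat_lit 72661133484) (nat_lit 126) (nat_lit 5) (nat_lit 125) (nat_lit 3) (nat_lit 136) (nat_lit 5) (nat_lit 468) (nat_lit 467) (nat_lit 265)) (XT.lf (nat_lit 0) (nat_lit 39199625233) (nat_lit 760) (nat_lit 38729240558) (nat_lit 836) (nat_lit 34283166292) (nat_lit 126) (nat_lit 5) (nat_lit 136) (nat_lit 5) (nat_lit 137) (nat_lit 5) (nat_lit 469) (nat_lit 467) (nat_lit 264))) (XT.nd (nat_lit 78) (nat_lit 0) (nat_lit 76) (XT.lf (nat_lit 76) (nat_lit 17639523875) (nat_lit 0) (nat_lit 24654790853) (nat_lit 836) (nat_lit 72756432584) (nat_lit 127) (nat_lit 5) (nat_lit 126) (nat_lit 5) (nat_lit 137) (nat_lit 5) (nat_lit 470) (nat_lit 467) (nat_lit 263)) (XT.lf (nat_lit 0) (nat_lit 46698477384) (nat_lit 760) (nat_lit 40326673309) (nat_lit 836) (nat_lit 30948510804) (nat_lit 127) (nat_lit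 5) (nat_lit 137) (nat_lit 5) (nat_lit 138) (nat_lit 5) (nat_lit 471) (nat_lit 467) (nat_lit 262))))) (XT.nd (nat_lit 312) (nat_lit 532) (nat_lit 0) (XT.nd (nat_lit 156) (nat_lit 0) (nat_lit 76) (XT.nd (nat_lit 78) (nat_lit 0) (nat_lit 76) (XT.lf (nat_lit 76) (nat_lit 19842811120) (nat_lit 0) (nat_lit 32193704138) (nat_lit 836) (nat_lit 68970522898) (nat_lit 128) (nat_lit 5) (nat_lit 127) (nat_lit 5) (nat_lit 138) (nat_lit 5) (nat_lit 472) (nat_lit 467) (nat_lit 261)) (XT.lf (nat_lit 0) (nat_lit 58731546277) (nat_lit 760) (nat_lit 40144776781) (nat_lit 836) (nat_lit 25261256141) (nat_lit 128) (nat_lit 5) (nat_lit 138) (nat_lit 5) (nat_lit 139) (nat_lit 5) (nat_lit 473) (nat_lit 467) (nat_lit 260))) (XT.nd (nat_lit 78) (nat_lit 0) (nat_lit 76) (XT.lf (nat_lit 76) (nat_lit 24171300169) (nat_lit 0) (nat_lit 42494891644) (nat_lit 836) (nat_lit 60713212445) (nat_lit 129) (nat_lit 5) (nat_lit 128)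 (nat_lit 5) (nat_lit 139) (nat_lit 5) (nat_lit 474) (nat_lit 467) (nat_lit 259)) (XT.lf (nat_lit 0) (nat_lit 75949134561) (nat_lit 760) (nat_lit 37924601005) (nat_lit 836) (nat_lit 16862006859) (nat_lit 129) (nat_lit 5) (nat_lit 139) (nat_lit 5) (nat_lit 140) (nat_lit 5) (nat_lit 475) (nat_lit 467) (nat_lit 258)))) (XT.nd (nat_lit 156) (nat_lit 684) (nat_lit 0) (XT.nd (nat_lit 78) (nat_lit 0) (nat_lit 76) (XT.lf (nat_lit 76) (nat_lit 30915722401) (nat_lit 0) (nat_lit 55959560563) (nat_lit 836) (nat_lit 47325661711) (nat_lit 130) (nat_lit 5) (nat_lit 129) (nat_lit 5) (nat_lit 140) (nat_lit 5) (nat_lit 476) (nat_lit 467) (nat_lit 257)) (XT.lf (nat_lit 0) (nat_lit 99076016065) (nat_lit 760) (nat_lit 33379054449) (nat_lit 76) (nat_lit 5347922755) (nat_lit 130) (nat_lit 5) (nat_lit 140) (nat_lit 5) (nat_lit 131) (nat_lit 5) (nat_lit 477) (nat_lit 467) (nat_lit 256))) (XT.nd (nat_lit 78) (nat_lit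 0) (nat_lit 0) (XT.lf (nat_lit 0) (nat_lit 40397821849) (nat_lit 760) (nat_lit 73036818582) (nat_lit 836) (nat_lit 28073111220) (nat_lit 120) (nat_lit 5) (nat_lit 130) (nat_lit 5) (nat_lit 131) (nat_lit 5) (nat_lit 478) (nat_lit 467) (nat_lit 255)) (XT.lf (nat_lit 0) (nat_lit 119022178130) (nat_lit 760) (nat_lit 10054077965) (nat_lit 836) (nat_lit 16293238940) (nat_lit 120) (nat_lit 5) (nat_lit 130) (nat_lit 5) (nat_lit 131) (nat_lit 5) (nat_lit 479) (nat_lit 467) (nat_lit 254))))))))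
noncomputable def xc222 : XT := (XT.nd (nat_lit 2184) (nat_lit 2356) (nat_lit 0) (XT.nd (nat_lit 1092) (nat_lit 1748) (nat_lit 0) (XT.nd (nat_lit 546) (nat_lit 1140) (nat_lit 0) (XT.nd (nat_lit 234) (nat_lit 684) (nat_lit 0) (XT.nd (nat_lit 78) (nat_lit 456) (nat_lit 0) (XT.lf (nat_lit 0) (nat_lit 52973156214) (nat_lit 380) (nat_lit 94229168287) (nat_lit 456) (nat_lit 2136882569) (nat_lit 115) (nat_lit 5) (nat_lit 120) (nat_lit 5) (nat_lit 121) (nat_lit 5) (nat_lit 480) (nat_lit 467) (nat_lit 253)) (XT.nd (nat_lit 78) (nat_lit 380) (nat_lit 0) (XT.lf (nat_lit 0) (nat_lit 12938063716) (nat_lit 456) (nat_lit 16681781044) (nat_lit 76) (nat_lit 123846718343) (nat_lit 114) (nat_lit 5) (nat_lit 120) (nat_lit 5) (nat_lit 115) (nat_lit 5) (nat_lit 481) (nat_lit 467) (nat_lit 252)) (XT.lf (nat_lit 0) (nat_lit 30389598657) (nat_lit 456) (nat_lit 89194364969) (nat_lit 76) (nat_lit 38129839107) (nat_lit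 109) (nat_lit 5) (nat_lit 115) (nat_lit 5) (nat_lit 110) (nat_lit 5) (nat_lit 482) (nat_lit 467) (nat_lit 251)))) (XT.nd (nat_lit 156) (nat_lit 304) (nat_lit 0) (XT.nd (nat_lit 78) (nat_lit 380) (nat_lit 0) (XT.lf (nat_lit 0) (nat_lit 49486228409) (nat_lit 456) (nat_lit 4089820847) (nat_lit 76) (nat_lit 108558729253) (nat_lit 109) (nat_lit 5) (nat_lit 115) (nat_lit 5) (nat_lit 110) (nat_lit 5) (nat_lit 483) (nat_lit 467) (nat_lit 250)) (XT.lf (nat_lit 0) (nat_lit 71180989776) (nat_lit 456) (nat_lit 78887064723) (nat_lit 76) (nat_lit 16626583632) (nat_lit 104) (nat_lit 5) (nat_lit 110) (nat_lit 5) (nat_lit 105) (nat_lit 5) (nat_lit 484) (nat_lit 467) (nat_lit 249))) (XT.nd (nat_lit 78) (nat_lit 0) (nat_lit 0) (XT.lf (nat_lit 0) (nat_lit 12482685070) (nat_lit 304) (nat_lit 82621204860) (nat_lit 380) (nat_lit 76321430830) (nat_lit 100) (nat_lit 5) (nat_lit 104) (nat_lit 5) (nat_lit 105) (nat_lit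 5) (nat_lit 485) (nat_lit 467) (nat_lit 248)) (XT.lf (nat_lit 0) (nat_lit 111159499843) (nat_lit 304) (nat_lit 10399248000) (nat_lit 380) (nat_lit 54766999098) (nat_lit 100) (nat_lit 5) (nat_lit 104) (nat_lit 5) (nat_lit 105) (nat_lit 5) (nat_lit 486) (nat_lit 467) (nat_lit 247))))) (XT.nd (nat_lit 234) (nat_lit 532) (nat_lit 0) (XT.nd (nat_lit 78) (nat_lit 304) (nat_lit 0) (XT.lf (nat_lit 0) (nat_lit 33344382567) (nat_lit 304) (nat_lit 117534000675) (nat_lit 380) (nat_lit 30515709516) (nat_lit 96) (nat_lit 5) (nat_lit 100) (nat_lit 5) (nat_lit 101) (nat_lit 5) (nat_lit 487) (nat_lit 467) (nat_lit 246)) (XT.nd (nat_lit 78) (nat_lit 304) (nat_lit 0) (XT.lf (nat_lit 0) (nat_lit 138866653890) (nat_lit 304) (nat_lit 44068533469) (nat_lit 380) (nat_lit 3717109210) (nat_lit 96) (nat_lit 5) (nat_lit 100) (nat_lit 5) (nat_lit 101) (nat_lit 5) (nat_lit 488) (nat_lit 467) (nat_lit 245)) (XT.lf (nat_lit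 0) (nat_lit 25098424151) (nat_lit 304) (nat_lit 133647500468) (nat_lit 76) (nat_lit 33335489607) (nat_lit 92) (nat_lit 5) (nat_lit 96) (nat_lit 5) (nat_lit 93) (nat_lit 5) (nat_lit 489) (nat_lit 467) (nat_lit 244)))) (XT.nd (nat_lit 156) (nat_lit 228) (nat_lit 0) (XT.nd (nat_lit 78) (nat_lit 304) (nat_lit 0) (XT.lf (nat_lit 0) (nat_lit 56774634151) (nat_lit 304) (nat_lit 26914902893) (nat_lit 76) (nat_lit 114012162997) (nat_lit 92) (nat_lit 5) (nat_lit 96) (nat_lit 5) (nat_lit 93) (nat_lit 5) (nat_lit 490) (nat_lit 467) (nat_lit 243)) (XT.lf (nat_lit 0) (nat_lit 87969715854) (nat_lit 304) (nat_lit 3438244488) (nat_lit 380) (nat_lit 112126374562) (nat_lit 88) (nat_lit 5) (nat_lit 92) (nat_lit 5) (nat_lit 93) (nat_lit 5) (nat_lit 491) (nat_lit 467) (nat_lit 242))) (XT.nd (nat_lit 78) (nat_lit 228) (nat_lit 0) (XT.lf (nat_lit 0) (nat_lit 129498011870) (nat_lit 380) (nat_lit 1372399741) (nat_lit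 76) (nat_lit 78701936989) (nat_lit 88) (nat_lit 5) (nat_lit 93) (nat_lit 5) (nat_lit 89) (nat_lit 5) (nat_lit 492) (nat_lit 467) (nat_lit 241)) (XT.lf (nat_lit 0) (nat_lit 122390131042) (nat_lit 228) (nat_lit 49069514813) (nat_lit 304) (nat_lit 44354263172) (nat_lit 85) (nat_lit 5) (nat_lit 88) (nat_lit 5) (nat_lit 89) (nat_lit 5) (nat_lit 493) (nat_lit 467) (nat_lit 240)))))) (XT.nd (nat_lit 546) (nat_lit 760) (nat_lit 0) (XT.nd (nat_lit 234) (nat_lit 456) (nat_lit 0) (XT.nd (nat_lit 78) (nat_lit 304) (nat_lit 0) (XT.lf (nat_lit 0) (nat_lit 30420233984) (nat_lit 228) (nat_lit 186172446889) (nat_lit 304) (nat_lit 5721200673) (nat_lit 82) (nat_lit 5) (nat_lit 85) (nat_lit 5) (nat_lit 86) (nat_lit 5) (nat_lit 494) (nat_lit 467) (nat_lit 239)) (XT.nd (nat_lit 78) (nat_lit 228) (nat_lit 0) (XT.lf (nat_lit 0) (nat_lit 36140704013) (nat_lit 304) (nat_lit 66734383050) (nat_lit 76) (nat_lit 126115945458)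 (nat_lit 81) (nat_lit 5) (nat_lit 85) (nat_lit 5) (nat_lit 82) (nat_lit 5) (nat_lit 495) (nat_lit 467) (nat_lit 238)) (XT.lf (nat_lit 0) (nat_lit 66724475523) (nat_lit 228) (nat_lit 14220587618) (nat_lit 304) (nat_lit 155000206976) (nat_lit 78) (nat_lit 5) (nat_lit 81) (nat_lit 5) (nat_lit 82) (nat_lit 5) (nat_lit 496) (nat_lit 467) (nat_lit 237)))) (XT.nd (nat_lit 156) (nat_lit 228) (nat_lit 0) (XT.nd (nat_lit 78) (nat_lit 228) (nat_lit 0) (XT.lf (nat_lit 0) (nat_lit 130369551531) (nat_lit 304) (nat_lit 35267604693) (nat_lit 76) (nat_lit 77491067832) (nat_lit 78) (nat_lit 5) (nat_lit 82) (nat_lit 5) (nat_lit 79) (nat_lit 5) (nat_lit 497) (nat_lit 467) (nat_lit 236)) (XT.lf (nat_lit 0) (nat_lit 108626679669) (nat_lit 228) (nat_lit 75567557372) (nat_lit 304) (nat_lit 66379640047) (nat_lit 75) (nat_lit 5) (nat_lit 78) (nat_lit 5) (nat_lit 79) (nat_lit 5) (nat_lit 498) (nat_lit 467) (nat_lit 235)))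 (XT.nd (nat_lit 78) (nat_lit 76) (nat_lit 0) (XT.lf (nat_lit 0) (nat_lit 2346549223) (nat_lit 152) (nat_lit 239303922152) (nat_lit 228) (nat_lit 16694325695) (nat_lit 73) (nat_lit 5) (nat_lit 75) (nat_lit 5) (nat_lit 76) (nat_lit 5) (nat_lit 499) (nat_lit 467) (nat_lit 234)) (XT.lf (nat_lit 0) (nat_lit 38021875031) (nat_lit 228) (nat_lit 109433261919) (nat_lit 76) (nat_lit 118837330204) (nat_lit 72) (nat_lit 5) (nat_lit 75) (nat_lit 5) (nat_lit 73) (nat_lit 5) (nat_lit 500) (nat_lit 467) (nat_lit 233))))) (XT.nd (nat_lit 234) (nat_lit 380) (nat_lit 0) (XT.nd (nat_lit 78) (nat_lit 152) (nat_lit 0) (XT.lf (nat_lit 0) (nat_lit 45647121190) (nat_lit 228) (nat_lit 49978295305) (nat_lit 304) (nat_lit 178962791921) (nat_lit 69) (nat_lit 5) (nat_lit 72) (nat_lit 5) (nat_lit 73) (nat_lit 5) (nat_lit 501) (nat_lit 467) (nat_lit 232)) (XT.nd (nat_lit 78) (nat_lit 152) (nat_lit 0) (XT.lf (nat_lit 0) (nat_lit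 158810393879) (nat_lit 304) (nat_lit 71773503469) (nat_lit 76) (nat_lit 52579776475) (nat_lit 69) (nat_lit 5) (nat_lit 73) (nat_lit 5) (nat_lit 70) (nat_lit 5) (nat_lit 502) (nat_lit 467) (nat_lit 231)) (XT.lf (nat_lit 0) (nat_lit 95489233664) (nat_lit 152) (nat_lit 131975454274) (nat_lit 228) (nat_lit 64587721193) (nat_lit 67) (nat_lit 5) (nat_lit 69) (nat_lit 5) (nat_lit 70) (nat_lit 5) (nat_lit 503) (nat_lit 467) (nat_lit 230)))) (XT.nd (nat_lit 156) (nat_lit 152) (nat_lit 0) (XT.nd (nat_lit 78) (nat_lit 228) (nat_lit 0) (XT.lf (nat_lit 0) (nat_lit 273606762913) (nat_lit 152) (nat_lit 27160352172) (nat_lit 228) (nat_lit 557695221) (nat_lit 67) (nat_lit 5) (nat_lit 69) (nat_lit 5) (nat_lit 70) (nat_lit 5) (nat_lit 504) (nat_lit 467) (nat_lit 229)) (XT.lf (nat_lit 0) (nat_lit 68285939686) (nat_lit 228) (nat_lit 158800344054) (nat_lit 76) (nat_lit 83735195218) (nat_lit 64) (nat_lit 5) (nat_lit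 67) (nat_lit 5) (nat_lit 65) (nat_lit 5) (nat_lit 505) (nat_lit 467) (nat_lit 228))) (XT.nd (nat_lit 78) (nat_lit 0) (nat_lit 0) (XT.lf (nat_lit 0) (nat_lit 21154918319) (nat_lit 152) (nat_lit 120650652928) (nat_lit 228) (nat_lit 178924324830) (nat_lit 62) (nat_lit 5) (nat_lit 64) (nat_lit 5) (nat_lit 65) (nat_lit 5) (nat_lit 506) (nat_lit 467) (nat_lit 227)) (XT.lf (nat_lit 0) (nat_lit 215620979893) (nat_lit 152) (nat_lit 6069471296) (nat_lit 228) (nat_lit 109308819540) (nat_lit 62) (nat_lit 5) (nat_lit 64) (nat_lit 5) (nat_lit 65) (nat_lit 5) (nat_lit 507) (nat_lit 467) (nat_lit 226))))))) (XT.nd (nat_lit 1092) (nat_lit 988) (nat_lit 0) (XT.nd (nat_lit 546) (nat_lit 608) (nat_lit 0) (XT.nd (nat_lit 234) (nat_lit 380) (nat_lit 0) (XT.nd (nat_lit 78) (nat_lit 228) (nat_lit 0) (XT.lf (nat_lit 0) (nat_lit 78765448529) (nat_lit 152) (nat_lit 229817404285) (nat_lit 228) (nat_lit 33048597431) (nat_lit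 60) (nat_lit 5) (nat_lit 62) (nat_lit 5) (nat_lit 63) (nat_lit 5) (nat_lit 508) (nat_lit 467) (nat_lit 225)) (XT.nd (nat_lit 78) (nat_lit 152) (nat_lit 0) (XT.lf (nat_lit 0) (nat_lit 47604983315) (nat_lit 228) (nat_lit 66941359401) (nat_lit 76) (nat_lit 238107915241) (nat_lit 59) (nat_lit 5) (nat_lit 62) (nat_lit 5) (nat_lit 60) (nat_lit 5) (nat_lit 509) (nat_lit 467) (nat_lit 224)) (XT.lf (nat_lit 0) (nat_lit 133556878932) (nat_lit 228) (nat_lit 221428020885) (nat_lit 76) (nat_lit 9097402967) (nat_lit 57) (nat_lit 5) (nat_lit 60) (nat_lit 5) (nat_lit 58) (nat_lit 5) (nat_lit 510) (nat_lit 467) (nat_lit 223)))) (XT.nd (nat_lit 156) (nat_lit 228) (nat_lit 0) (XT.nd (nat_lit 78) (nat_lit 152) (nat_lit 0) (XT.lf (nat_lit 0) (nat_lit 226836363045) (nat_lit 228) (nat_lit 12867845416) (nat_lit 76) (nat_lit 136226041719) (nat_lit 57) (nat_lit 5) (nat_lit 60) (nat_lit 5) (nat_lit 58) (nat_lit 5) (nat_lit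 511) (nat_lit 467) (nat_lit 222)) (XT.lf (nat_lit 0) (nat_lit 212935466417) (nat_lit 152) (nat_lit 115168793868) (nat_lit 228) (nat_lit 60100112726) (nat_lit 55) (nat_lit 5) (nat_lit 57) (nat_lit 5) (nat_lit 58) (nat_lit 5) (nat_lit 512) (nat_lit 467) (nat_lit 221))) (XT.nd (nat_lit 78) (nat_lit 0) (nat_lit 0) (XT.lf (nat_lit 0) (nat_lit 33554340461) (nat_lit 228) (nat_lit 350798280224) (nat_lit 76) (nat_lit 16649642879) (nat_lit 52) (nat_lit 5) (nat_lit 55) (nat_lit 5) (nat_lit 53) (nat_lit 5) (nat_lit 513) (nat_lit 467) (nat_lit 220)) (XT.lf (nat_lit 0) (nat_lit 134776616007) (nat_lit 228) (nat_lit 124178236248) (nat_lit 76) (nat_lit 155190691132) (nat_lit 52) (nat_lit 5) (nat_lit 55) (nat_lit 5) (nat_lit 53) (nat_lit 5) (nat_lit 514) (nat_lit 467) (nat_lit 219))))) (XT.nd (nat_lit 234) (nat_lit 304) (nat_lit 0) (XT.nd (nat_lit 78) (nat_lit 152) (nat_lit 0) (XT.lf (nat_lit 0) (nat_lit 117534516659)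 (nat_lit 152) (nat_lit 125360456410) (nat_lit 228) (nat_lit 184959265758) (nat_lit 50) (nat_lit 5) (nat_lit 52) (nat_lit 5) (nat_lit 53) (nat_lit 5) (nat_lit 515) (nat_lit 467) (nat_lit 218)) (XT.nd (nat_lit 78) (nat_lit 152) (nat_lit 0) (XT.lf (nat_lit 0) (nat_lit 358789511471) (nat_lit 228) (nat_lit 66766575193) (nat_lit 76) (nat_lit 16573769210) (nat_lit 50) (nat_lit 5) (nat_lit 53) (nat_lit 5) (nat_lit 51) (nat_lit 4) (nat_lit 516) (nat_lit 467) (nat_lit 217)) (XT.lf (nat_lit 0) (nat_lit 27764661650) (nat_lit 152) (nat_lit 264224517360) (nat_lit 76) (nat_lit 164854199929) (nat_lit 48) (nat_lit 5) (nat_lit 50) (nat_lit 5) (nat_lit 49) (nat_lit 5) (nat_lit 517) (nat_lit 467) (nat_lit 216)))) (XT.nd (nat_lit 156) (nat_lit 152) (nat_lit 0) (XT.nd (nat_lit 78) (nat_lit 152) (nat_lit 0) (XT.lf (nat_lit 0) (nat_lit 142773325761) (nat_lit 152) (nat_lit 6329385173) (nat_lit 76) (nat_lit 323064095984)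 (nat_lit 48) (nat_lit 5) (nat_lit 50) (nat_lit 5) (nat_lit 49) (nat_lit 5) (nat_lit 518) (nat_lit 467) (nat_lit 215)) (XT.lf (nat_lit 0) (nat_lit 267882260781) (nat_lit 228) (nat_lit 214922912633) (nat_lit 76) (nat_lit 5233741003) (nat_lit 46) (nat_lit 5) (nat_lit 49) (nat_lit 5) (nat_lit 47) (nat_lit 4) (nat_lit 519) (nat_lit 467) (nat_lit 214))) (XT.nd (nat_lit 78) (nat_lit 76) (nat_lit 0) (XT.lf (nat_lit 0) (nat_lit 61578855225) (nat_lit 76) (nat_lit 341182394024) (nat_lit 152) (nat_lit 101767647717) (nat_lit 45) (nat_lit 5) (nat_lit 46) (nat_lit 5) (nat_lit 47) (nat_lit 4) (nat_lit 520) (nat_lit 467) (nat_lit 213)) (XT.lf (nat_lit 0) (nat_lit 25518787882) (nat_lit 152) (nat_lit 162705753521) (nat_lit 76) (nat_lit 333416269684) (nat_lit 44) (nat_lit 5) (nat_lit 46) (nat_lit 5) (nat_lit 45) (nat_lit 5) (nat_lit 521) (nat_lit 467) (nat_lit 212)))))) (XT.nd (nat_lit 546) (nat_lit 456) (nat_lit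 0) (XT.nd (nat_lit 234) (nat_lit 304) (nat_lit 0) (XT.nd (nat_lit 78) (nat_lit 76) (nat_lit 0) (XT.lf (nat_lit 0) (nat_lit 134176807256) (nat_lit 152) (nat_lit 23667490152) (nat_lit 228) (nat_lit 381575866787) (nat_lit 42) (nat_lit 5) (nat_lit 44) (nat_lit 5) (nat_lit 45) (nat_lit 5) (nat_lit 522) (nat_lit 467) (nat_lit 211)) (XT.nd (nat_lit 78) (nat_lit 76) (nat_lit 0) (XT.lf (nat_lit 0) (nat_lit 301914832841) (nat_lit 228) (nat_lit 108771866361) (nat_lit 76) (nat_lit 147145348242) (nat_lit 42) (nat_lit 5) (nat_lit 45) (nat_lit 5) (nat_lit 43) (nat_lit 4) (nat_lit 523) (nat_lit 467) (nat_lit 210)) (XT.lf (nat_lit 0) (nat_lit 208818595793) (nat_lit 76) (nat_lit 248018474289) (nat_lit 152) (nat_lit 120145046027) (nat_lit 41) (nat_lit 5) (nat_lit 42) (nat_lit 5) (nat_lit 43) (nat_lit 4) (nat_lit 524) (nat_lit 467) (nat_lit 209)))) (XT.nd (nat_lit 156) (nat_lit 76) (nat_lit 0) (XT.nd (nat_lit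 78) (nat_lit 152) (nat_lit 0) (XT.lf (nat_lit 0) (nat_lit 23570530307) (nat_lit 152) (nat_lit 51312969846) (nat_lit 76) (nat_lit 522095077305) (nat_lit 40) (nat_lit 5) (nat_lit 42) (nat_lit 5) (nat_lit 41) (nat_lit 5) (nat_lit 525) (nat_lit 467) (nat_lit 208)) (XT.lf (nat_lit 0) (nat_lit 176716090164) (nat_lit 228) (nat_lit 330777375918) (nat_lit 76) (nat_lit 110068822948) (nat_lit 38) (nat_lit 5) (nat_lit 41) (nat_lit 5) (nat_lit 39) (nat_lit 4) (nat_lit 526) (nat_lit 467) (nat_lit 207))) (XT.nd (nat_lit 78) (nat_lit 0) (nat_lit 0) (XT.lf (nat_lit 0) (nat_lit 3301131614) (nat_lit 76) (nat_lit 336380134015) (nat_lit 152) (nat_lit 299385803676) (nat_lit 37) (nat_lit 5) (nat_lit 38) (nat_lit 5) (nat_lit 39) (nat_lit 4) (nat_lit 527) (nat_lit 467) (nat_lit 206)) (XT.lf (nat_lit 0) (nat_lit 365567304040) (nat_lit 76) (nat_lit 150829215116) (nat_lit 152) (nat_lit 144970478477) (nat_lit 37) (nat_lit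 5) (nat_lit 38) (nat_lit 5) (nat_lit 39) (nat_lit 4) (nat_lit 528) (nat_lit 467) (nat_lit 205))))) (XT.nd (nat_lit 312) (nat_lit 228) (nat_lit 0) (XT.nd (nat_lit 156) (nat_lit 76) (nat_lit 0) (XT.nd (nat_lit 78) (nat_lit 0) (nat_lit 0) (XT.lf (nat_lit 0) (nat_lit 18305804188) (nat_lit 152) (nat_lit 622516580369) (nat_lit 76) (nat_lit 43861657759) (nat_lit 35) (nat_lit 5) (nat_lit 37) (nat_lit 5) (nat_lit 36) (nat_lit 4) (nat_lit 529) (nat_lit 467) (nat_lit 204)) (XT.lf (nat_lit 0) (nat_lit 192438132878) (nat_lit 152) (nat_lit 265545390611) (nat_lit 76) (nat_lit 250686377957) (nat_lit 35) (nat_lit 5) (nat_lit 37) (nat_lit 5) (nat_lit 36) (nat_lit 4) (nat_lit 530) (nat_lit 467) (nat_lit 203))) (XT.nd (nat_lit 78) (nat_lit 0) (nat_lit 0) (XT.lf (nat_lit 0) (nat_lit 112887362877) (nat_lit 76) (nat_lit 264152152216) (nat_lit 152) (nat_lit 356727416589) (nat_lit 34) (nat_lit 5) (nat_lit 35) (nat_lit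 5) (nat_lit 36) (nat_lit 4) (nat_lit 531) (nat_lit 467) (nat_lit 202)) (XT.lf (nat_lit 0) (nat_lit 519460795572) (nat_lit 76) (nat_lit 55907260466) (nat_lit 152) (nat_lit 184525902914) (nat_lit 34) (nat_lit 5) (nat_lit 35) (nat_lit 5) (nat_lit 36) (nat_lit 4) (nat_lit 532) (nat_lit 467) (nat_lit 201)))) (XT.nd (nat_lit 156) (nat_lit 76) (nat_lit 0) (XT.nd (nat_lit 78) (nat_lit 0) (nat_lit 0) (XT.lf (nat_lit 0) (nat_lit 1552639060) (nat_lit 152) (nat_lit 625430225085) (nat_lit 76) (nat_lit 160089969417) (nat_lit 32) (nat_lit 5) (nat_lit 34) (nat_lit 5) (nat_lit 33) (nat_lit 4) (nat_lit 533) (nat_lit 467) (nat_lit 200)) (XT.lf (nat_lit 0) (nat_lit 195788895653) (nat_lit 152) (nat_lit 227245964929) (nat_lit 76) (nat_lit 392171787191) (nat_lit 32) (nat_lit 5) (nat_lit 34) (nat_lit 5) (nat_lit 33) (nat_lit 4) (nat_lit 534) (nat_lit 467) (nat_lit 199))) (XT.nd (nat_lit 78) (nat_lit 0) (nat_lit 0)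 (XT.lf (nat_lit 0) (nat_lit 197157698102) (nat_lit 76) (nat_lit 205657405237) (nat_lit 152) (nat_lit 441778142446) (nat_lit 31) (nat_lit 5) (nat_lit 32) (nat_lit 5) (nat_lit 33) (nat_lit 4) (nat_lit 535) (nat_lit 467) (nat_lit 198)) (XT.lf (nat_lit 0) (nat_lit 624456862930) (nat_lit 152) (nat_lit 225001591459) (nat_lit 0) (nat_lit 25777507234) (nat_lit 31) (nat_lit 5) (nat_lit 33) (nat_lit 4) (nat_lit 31) (nat_lit 4) (nat_lit 536) (nat_lit 467) (nat_lit 197))))))))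
noncomputable def xc223 : XT := (XT.nd (nat_lit 2184) (nat_lit 3040) (nat_lit 0) (XT.nd (nat_lit 1092) (nat_lit 2508) (nat_lit 0) (XT.nd (nat_lit 546) (nat_lit 760) (nat_lit 0) (XT.nd (nat_lit 234) (nat_lit 0) (nat_lit 76) (XT.nd (nat_lit 78) (nat_lit 0) (nat_lit 0) (XT.lf (nat_lit 0) (nat_lit 18722836101) (nat_lit 836) (nat_lit 18679575029) (nat_lit 836) (nat_lit 18679575029) (nat_lit 125) (nat_lit 3) (nat_lit 136) (nat_lit 3) (nat_lit 136) (nat_lit 5) (nat_lit 468) (nat_lit 468) (nat_lit 264)) (XT.nd (nat_lit 78) (nat_lit 0) (nat_lit 76) (XT.lf (nat_lit 76) (nat_lit 18169776823) (nat_lit 0) (nat_lit 20500806838) (nat_lit 836) (nat_lit 76283047504) (nat_lit 126) (nat_lit 5) (nat_lit 125) (nat_lit 3) (nat_lit 136) (nat_lit 5) (nat_lit 469) (nat_lit 468) (nat_lit 263)) (XT.lf (nat_lit 0) (nat_lit 41169636625) (nat_lit 760) (nat_lit 40659685223) (nat_lit 836) (nat_lit 35992806435) (nat_lit 126)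 (nat_lit 5) (nat_lit 136) (nat_lit 5) (nat_lit 137) (nat_lit 5) (nat_lit 470) (nat_lit 468) (nat_lit 262)))) (XT.nd (nat_lit 156) (nat_lit 0) (nat_lit 76) (XT.nd (nat_lit 78) (nat_lit 0) (nat_lit 76) (XT.lf (nat_lit 76) (nat_lit 18527420378) (nat_lit 0) (nat_lit 25891255025) (nat_lit 836) (nat_lit 76384123316) (nat_lit 127) (nat_lit 5) (nat_lit 126) (nat_lit 5) (nat_lit 137) (nat_lit 5) (nat_lit 471) (nat_lit 468) (nat_lit 261)) (XT.lf (nat_lit 0) (nat_lit 49042531525) (nat_lit 760) (nat_lit 42336850384) (nat_lit 836) (nat_lit 32492502613) (nat_lit 127) (nat_lit 5) (nat_lit 137) (nat_lit 5) (nat_lit 138) (nat_lit 5) (nat_lit 472) (nat_lit 468) (nat_lit 260))) (XT.nd (nat_lit 78) (nat_lit 0) (nat_lit 76) (XT.lf (nat_lit 76) (nat_lit 20841008966) (nat_lit 0) (nat_lit 33806122123) (nat_lit 836) (nat_lit 72409816103) (nat_lit 128) (nat_lit 5) (nat_lit 127) (nat_lit 5) (nat_lit 138) (nat_lit 5)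 (nat_lit 473) (nat_lit 468) (nat_lit 259)) (XT.lf (nat_lit 0) (nat_lit 61676454450) (nat_lit 760) (nat_lit 42145784356) (nat_lit 836) (nat_lit 26521799603) (nat_lit 128) (nat_lit 5) (nat_lit 138) (nat_lit 5) (nat_lit 139) (nat_lit 5) (nat_lit 474) (nat_lit 468) (nat_lit 258))))) (XT.nd (nat_lit 234) (nat_lit 988) (nat_lit 0) (XT.nd (nat_lit 78) (nat_lit 0) (nat_lit 76) (XT.lf (nat_lit 76) (nat_lit 25385995937) (nat_lit 0) (nat_lit 44621535336) (nat_lit 836) (nat_lit 63740438650) (nat_lit 129) (nat_lit 5) (nat_lit 128) (nat_lit 5) (nat_lit 139) (nat_lit 5) (nat_lit 475) (nat_lit 468) (nat_lit 257)) (XT.nd (nat_lit 78) (nat_lit 0) (nat_lit 0) (XT.lf (nat_lit 0) (nat_lit 79754210546) (nat_lit 760) (nat_lit 39814578715) (nat_lit 836) (nat_lit 17703356415) (nat_lit 129) (nat_lit 5) (nat_lit 139) (nat_lit 5) (nat_lit 140) (nat_lit 5) (nat_lit 476) (nat_lit 468) (nat_lit 256)) (XT.lf (nat_lit 76)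 (nat_lit 32467660018) (nat_lit 0) (nat_lit 58758739572) (nat_lit 836) (nat_lit 49684221926) (nat_lit 130) (nat_lit 5) (nat_lit 129) (nat_lit 5) (nat_lit 140) (nat_lit 5) (nat_lit 477) (nat_lit 468) (nat_lit 255)))) (XT.nd (nat_lit 156) (nat_lit 380) (nat_lit 0) (XT.nd (nat_lit 78) (nat_lit 760) (nat_lit 0) (XT.lf (nat_lit 0) (nat_lit 104036801370) (nat_lit 760) (nat_lit 35041777989) (nat_lit 76) (nat_lit 5614211710) (nat_lit 130) (nat_lit 5) (nat_lit 140) (nat_lit 5) (nat_lit 131) (nat_lit 5) (nat_lit 478) (nat_lit 468) (nat_lit 254)) (XT.lf (nat_lit 0) (nat_lit 42423841653) (nat_lit 760) (nat_lit 76689278392) (nat_lit 836) (nat_lit 29469679296) (nat_lit 120) (nat_lit 5) (nat_lit 130) (nat_lit 5) (nat_lit 131) (nat_lit 5) (nat_lit 479) (nat_lit 468) (nat_lit 253))) (XT.nd (nat_lit 78) (nat_lit 380) (nat_lit 0) (XT.lf (nat_lit 0) (nat_lit 124979123904) (nat_lit 760) (nat_lit 10557371274) (nat_lit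 836) (nat_lit 17101150901) (nat_lit 120) (nat_lit 5) (nat_lit 130) (nat_lit 5) (nat_lit 131) (nat_lit 5) (nat_lit 480) (nat_lit 468) (nat_lit 252)) (XT.lf (nat_lit 0) (nat_lit 55627884290) (nat_lit 380) (nat_lit 98940762712) (nat_lit 456) (nat_lit 2237207830) (nat_lit 115) (nat_lit 5) (nat_lit 120) (nat_lit 5) (nat_lit 121) (nat_lit 5) (nat_lit 481) (nat_lit 468) (nat_lit 251)))))) (XT.nd (nat_lit 546) (nat_lit 1064) (nat_lit 0) (XT.nd (nat_lit 234) (nat_lit 988) (nat_lit 0) (XT.nd (nat_lit 78) (nat_lit 380) (nat_lit 0) (XT.lf (nat_lit 0) (nat_lit 13590976638) (nat_lit 456) (nat_lit 17509888116) (nat_lit 76) (nat_lit 130038723950) (nat_lit 114) (nat_lit 5) (nat_lit 120) (nat_lit 5) (nat_lit 115) (nat_lit 5) (nat_lit 482) (nat_lit 468) (nat_lit 250)) (XT.nd (nat_lit 78) (nat_lit 0) (nat_lit 0) (XT.lf (nat_lit 0) (nat_lit 31914895132) (nat_lit 456) (nat_lit 93647906073) (nat_lit 76) (nat_lit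 40036398870) (nat_lit 109) (nat_lit 5) (nat_lit 115) (nat_lit 5) (nat_lit 110) (nat_lit 5) (nat_lit 483) (nat_lit 468) (nat_lit 249)) (XT.lf (nat_lit 0) (nat_lit 51966079393) (nat_lit 456) (nat_lit 4288428895) (nat_lit 76) (nat_lit 113986730294) (nat_lit 109) (nat_lit 5) (nat_lit 115) (nat_lit 5) (nat_lit 110) (nat_lit 5) (nat_lit 484) (nat_lit 468) (nat_lit 248)))) (XT.nd (nat_lit 156) (nat_lit 304) (nat_lit 0) (XT.nd (nat_lit 78) (nat_lit 304) (nat_lit 0) (XT.lf (nat_lit 0) (nat_lit 74745411996) (nat_lit 456) (nat_lit 82825366347) (nat_lit 76) (nat_lit 17458321273) (nat_lit 104) (nat_lit 5) (nat_lit 110) (nat_lit 5) (nat_lit 105) (nat_lit 5) (nat_lit 485) (nat_lit 468) (nat_lit 247)) (XT.lf (nat_lit 0) (nat_lit 13112773330) (nat_lit 304) (nat_lit 86751520943) (nat_lit 380) (nat_lit 80132030334) (nat_lit 100) (nat_lit 5) (nat_lit 104) (nat_lit 5) (nat_lit 105) (nat_lit 5) (nat_lit 486) (nat_lit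 468) (nat_lit 246))) (XT.nd (nat_lit 78) (nat_lit 304) (nat_lit 0) (XT.lf (nat_lit 0) (nat_lit 116723145317) (nat_lit 304) (nat_lit 10918501676) (nat_lit 380) (nat_lit 57500137588) (nat_lit 100) (nat_lit 5) (nat_lit 104) (nat_lit 5) (nat_lit 105) (nat_lit 5) (nat_lit 487) (nat_lit 468) (nat_lit 245)) (XT.lf (nat_lit 0) (nat_lit 35017415511) (nat_lit 304) (nat_lit 123409713685) (nat_lit 380) (nat_lit 32036425318) (nat_lit 96) (nat_lit 5) (nat_lit 100) (nat_lit 5) (nat_lit 101) (nat_lit 5) (nat_lit 488) (nat_lit 468) (nat_lit 244))))) (XT.nd (nat_lit 234) (nat_lit 760) (nat_lit 0) (XT.nd (nat_lit 78) (nat_lit 304) (nat_lit 0) (XT.lf (nat_lit 0) (nat_lit 145815523551) (nat_lit 304) (nat_lit 46271020120) (nat_lit 380) (nat_lit 3898136410) (nat_lit 96) (nat_lit 5) (nat_lit 100) (nat_lit 5) (nat_lit 101) (nat_lit 5) (nat_lit 489) (nat_lit 468) (nat_lit 243)) (XT.nd (nat_lit 78) (nat_lit 0) (nat_lit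 0) (XT.lf (nat_lit 0) (nat_lit 26357900563) (nat_lit 304) (nat_lit 140324062736) (nat_lit 76) (nat_lit 35003292546) (nat_lit 92) (nat_lit 5) (nat_lit 96) (nat_lit 5) (nat_lit 93) (nat_lit 5) (nat_lit 490) (nat_lit 468) (nat_lit 242)) (XT.lf (nat_lit 0) (nat_lit 59617704148) (nat_lit 304) (nat_lit 28255112080) (nat_lit 76) (nat_lit 119713750630) (nat_lit 92) (nat_lit 5) (nat_lit 96) (nat_lit 5) (nat_lit 93) (nat_lit 5) (nat_lit 491) (nat_lit 468) (nat_lit 241)))) (XT.nd (nat_lit 156) (nat_lit 456) (nat_lit 0) (XT.nd (nat_lit 78) (nat_lit 0) (nat_lit 0) (XT.lf (nat_lit 0) (nat_lit 92373648314) (nat_lit 304) (nat_lit 3608926788) (nat_lit 380) (nat_lit 117728264502) (nat_lit 88) (nat_lit 5) (nat_lit 92) (nat_lit 5) (nat_lit 93) (nat_lit 5) (nat_lit 492) (nat_lit 468) (nat_lit 240)) (XT.lf (nat_lit 0) (nat_lit 135976946697) (nat_lit 380) (nat_lit 1435648766) (nat_lit 76) (nat_lit 82638167705) (nat_lit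 88) (nat_lit 5) (nat_lit 93) (nat_lit 5) (nat_lit 89) (nat_lit 5) (nat_lit 493) (nat_lit 468) (nat_lit 239))) (XT.nd (nat_lit 78) (nat_lit 228) (nat_lit 0) (XT.lf (nat_lit 0) (nat_lit 128514921928) (nat_lit 228) (nat_lit 51521630850) (nat_lit 304) (nat_lit 46567854373) (nat_lit 85) (nat_lit 5) (nat_lit 88) (nat_lit 5) (nat_lit 89) (nat_lit 5) (nat_lit 494) (nat_lit 468) (nat_lit 238)) (XT.lf (nat_lit 0) (nat_lit 31946618045) (nat_lit 228) (nat_lit 195479538710) (nat_lit 304) (nat_lit 6003225732) (nat_lit 82) (nat_lit 5) (nat_lit 85) (nat_lit 5) (nat_lit 86) (nat_lit 5) (nat_lit 495) (nat_lit 468) (nat_lit 237))))))) (XT.nd (nat_lit 1092) (nat_lit 1368) (nat_lit 0) (XT.nd (nat_lit 546) (nat_lit 684) (nat_lit 0) (XT.nd (nat_lit 234) (nat_lit 684) (nat_lit 0) (XT.nd (nat_lit 78) (nat_lit 228) (nat_lit 0) (XT.lf (nat_lit 0) (nat_lit 37951459052) (nat_lit 304) (nat_lit 70065861727) (nat_lit 76)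 (nat_lit 132423076430) (nat_lit 81) (nat_lit 5) (nat_lit 85) (nat_lit 5) (nat_lit 82) (nat_lit 5) (nat_lit 496) (nat_lit 468) (nat_lit 236)) (XT.nd (nat_lit 78) (nat_lit 0) (nat_lit 0) (XT.lf (nat_lit 0) (nat_lit 70065855252) (nat_lit 228) (nat_lit 14930084248) (nat_lit 304) (nat_lit 162746412061) (nat_lit 78) (nat_lit 5) (nat_lit 81) (nat_lit 5) (nat_lit 82) (nat_lit 5) (nat_lit 497) (nat_lit 468) (nat_lit 235)) (XT.lf (nat_lit 0) (nat_lit 136891502567) (nat_lit 304) (nat_lit 37025923896) (nat_lit 76) (nat_lit 81367034264) (nat_lit 78) (nat_lit 5) (nat_lit 82) (nat_lit 5) (nat_lit 79) (nat_lit 5) (nat_lit 498) (nat_lit 468) (nat_lit 234)))) (XT.nd (nat_lit 156) (nat_lit 304) (nat_lit 0) (XT.nd (nat_lit 78) (nat_lit 152) (nat_lit 0) (XT.lf (nat_lit 0) (nat_lit 114062993055) (nat_lit 228) (nat_lit 79344341636) (nat_lit 304) (nat_lit 69695066142) (nat_lit 75) (nat_lit 5) (nat_lit 78) (nat_lit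 5) (nat_lit 79) (nat_lit 5) (nat_lit 499) (nat_lit 468) (nat_lit 233)) (XT.lf (nat_lit 0) (nat_lit 2468918659) (nat_lit 152) (nat_lit 251267403271) (nat_lit 228) (nat_lit 17525547866) (nat_lit 73) (nat_lit 5) (nat_lit 75) (nat_lit 5) (nat_lit 76) (nat_lit 5) (nat_lit 500) (nat_lit 468) (nat_lit 232))) (XT.nd (nat_lit 78) (nat_lit 228) (nat_lit 0) (XT.lf (nat_lit 0) (nat_lit 39926190002) (nat_lit 228) (nat_lit 114900015920) (nat_lit 76) (nat_lit 124780722823) (nat_lit 72) (nat_lit 5) (nat_lit 75) (nat_lit 5) (nat_lit 73) (nat_lit 5) (nat_lit 501) (nat_lit 468) (nat_lit 231)) (XT.lf (nat_lit 0) (nat_lit 47934307166) (nat_lit 228) (nat_lit 52475523391) (nat_lit 304) (nat_lit 187907630445) (nat_lit 69) (nat_lit 5) (nat_lit 72) (nat_lit 5) (nat_lit 73) (nat_lit 5) (nat_lit 502) (nat_lit 468) (nat_lit 230))))) (XT.nd (nat_lit 234) (nat_lit 532) (nat_lit 0) (XT.nd (nat_lit 78) (nat_lit 152) (nat_lit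 0) (XT.lf (nat_lit 0) (nat_lit 166753932211) (nat_lit 304) (nat_lit 75357453483) (nat_lit 76) (nat_lit 55210320247) (nat_lit 69) (nat_lit 5) (nat_lit 73) (nat_lit 5) (nat_lit 70) (nat_lit 5) (nat_lit 503) (nat_lit 468) (nat_lit 229)) (XT.nd (nat_lit 78) (nat_lit 0) (nat_lit 0) (XT.lf (nat_lit 0) (nat_lit 100268344294) (nat_lit 152) (nat_lit 138572525517) (nat_lit 228) (nat_lit 67814011792) (nat_lit 67) (nat_lit 5) (nat_lit 69) (nat_lit 5) (nat_lit 70) (nat_lit 5) (nat_lit 504) (nat_lit 468) (nat_lit 228)) (XT.lf (nat_lit 0) (nat_lit 287291528627) (nat_lit 152) (nat_lit 28516749333) (nat_lit 228) (nat_lit 582631924) (nat_lit 67) (nat_lit 5) (nat_lit 69) (nat_lit 5) (nat_lit 70) (nat_lit 5) (nat_lit 505) (nat_lit 468) (nat_lit 227)))) (XT.nd (nat_lit 156) (nat_lit 152) (nat_lit 0) (XT.nd (nat_lit 78) (nat_lit 152) (nat_lit 0) (XT.lf (nat_lit 0) (nat_lit 71703049904) (nat_lit 228) (nat_lit 166735797782)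 (nat_lit 76) (nat_lit 87923564031) (nat_lit 64) (nat_lit 5) (nat_lit 67) (nat_lit 5) (nat_lit 65) (nat_lit 5) (nat_lit 506) (nat_lit 468) (nat_lit 226)) (XT.lf (nat_lit 0) (nat_lit 22217154105) (nat_lit 152) (nat_lit 126681445074) (nat_lit 228) (nat_lit 187867653731) (nat_lit 62) (nat_lit 5) (nat_lit 64) (nat_lit 5) (nat_lit 65) (nat_lit 5) (nat_lit 507) (nat_lit 468) (nat_lit 225))) (XT.nd (nat_lit 78) (nat_lit 152) (nat_lit 0) (XT.lf (nat_lit 0) (nat_lit 226406304955) (nat_lit 152) (nat_lit 6371287241) (nat_lit 228) (nat_lit 114771510669) (nat_lit 62) (nat_lit 5) (nat_lit 64) (nat_lit 5) (nat_lit 65) (nat_lit 5) (nat_lit 508) (nat_lit 468) (nat_lit 224)) (XT.lf (nat_lit 0) (nat_lit 82708031872) (nat_lit 152) (nat_lit 241306549295) (nat_lit 228) (nat_lit 34698311849) (nat_lit 60) (nat_lit 5) (nat_lit 62) (nat_lit 5) (nat_lit 63) (nat_lit 5) (nat_lit 509) (nat_lit 468) (nat_lit 223)))))) (XT.nd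 (nat_lit 546) (nat_lit 608) (nat_lit 0) (XT.nd (nat_lit 234) (nat_lit 532) (nat_lit 0) (XT.nd (nat_lit 78) (nat_lit 152) (nat_lit 0) (XT.lf (nat_lit 0) (nat_lit 49987735854) (nat_lit 228) (nat_lit 70284238550) (nat_lit 76) (nat_lit 250014870868) (nat_lit 59) (nat_lit 5) (nat_lit 62) (nat_lit 5) (nat_lit 60) (nat_lit 5) (nat_lit 510) (nat_lit 468) (nat_lit 222)) (XT.nd (nat_lit 78) (nat_lit 0) (nat_lit 0) (XT.lf (nat_lit 0) (nat_lit 140237197504) (nat_lit 228) (nat_lit 232495203967) (nat_lit 76) (nat_lit 9553892326) (nat_lit 57) (nat_lit 5) (nat_lit 60) (nat_lit 5) (nat_lit 58) (nat_lit 5) (nat_lit 511) (nat_lit 468) (nat_lit 221)) (XT.lf (nat_lit 0) (nat_lit 238180537983) (nat_lit 228) (nat_lit 13507220580) (nat_lit 76) (nat_lit 143038885910) (nat_lit 57) (nat_lit 5) (nat_lit 60) (nat_lit 5) (nat_lit 58) (nat_lit 5) (nat_lit 512) (nat_lit 468) (nat_lit 220)))) (XT.nd (nat_lit 156) (nat_lit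 152) (nat_lit 0) (XT.nd (nat_lit 78) (nat_lit 228) (nat_lit 0) (XT.lf (nat_lit 0) (nat_lit 223586192052) (nat_lit 152) (nat_lit 120925587512) (nat_lit 228) (nat_lit 63102696426) (nat_lit 55) (nat_lit 5) (nat_lit 57) (nat_lit 5) (nat_lit 58) (nat_lit 5) (nat_lit 513) (nat_lit 468) (nat_lit 219)) (XT.lf (nat_lit 0) (nat_lit 35234378252) (nat_lit 228) (nat_lit 368334140089) (nat_lit 76) (nat_lit 17483742039) (nat_lit 52) (nat_lit 5) (nat_lit 55) (nat_lit 5) (nat_lit 53) (nat_lit 5) (nat_lit 514) (nat_lit 468) (nat_lit 218))) (XT.nd (nat_lit 78) (nat_lit 152) (nat_lit 0) (XT.lf (nat_lit 0) (nat_lit 141517657063) (nat_lit 228) (nat_lit 130383286970) (nat_lit 76) (nat_lit 162951765704) (nat_lit 52) (nat_lit 5) (nat_lit 55) (nat_lit 5) (nat_lit 53) (nat_lit 5) (nat_lit 515) (nat_lit 468) (nat_lit 217)) (XT.lf (nat_lit 0) (nat_lit 123415041307) (nat_lit 152) (nat_lit 131626844730) (nat_lit 228) (nat_lit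 194204956222) (nat_lit 50) (nat_lit 5) (nat_lit 52) (nat_lit 5) (nat_lit 53) (nat_lit 5) (nat_lit 516) (nat_lit 468) (nat_lit 216))))) (XT.nd (nat_lit 312) (nat_lit 304) (nat_lit 0) (XT.nd (nat_lit 156) (nat_lit 152) (nat_lit 0) (XT.nd (nat_lit 78) (nat_lit 152) (nat_lit 0) (XT.lf (nat_lit 0) (nat_lit 376731072601) (nat_lit 228) (nat_lit 70101206995) (nat_lit 76) (nat_lit 17403964515) (nat_lit 50) (nat_lit 5) (nat_lit 53) (nat_lit 5) (nat_lit 51) (nat_lit 4) (nat_lit 517) (nat_lit 468) (nat_lit 215)) (XT.lf (nat_lit 0) (nat_lit 29154971515) (nat_lit 152) (nat_lit 277432036977) (nat_lit 76) (nat_lit 173098435301) (nat_lit 48) (nat_lit 5) (nat_lit 50) (nat_lit 5) (nat_lit 49) (nat_lit 5) (nat_lit 518) (nat_lit 468) (nat_lit 214))) (XT.nd (nat_lit 78) (nat_lit 152) (nat_lit 0) (XT.lf (nat_lit 0) (nat_lit 149913969937) (nat_lit 152) (nat_lit 6642324669) (nat_lit 76) (nat_lit 339218753521) (nat_lit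 48) (nat_lit 5) (nat_lit 50) (nat_lit 5) (nat_lit 49) (nat_lit 5) (nat_lit 519) (nat_lit 468) (nat_lit 213)) (XT.lf (nat_lit 0) (nat_lit 281278335708) (nat_lit 228) (nat_lit 225665512272) (nat_lit 76) (nat_lit 5496913834) (nat_lit 46) (nat_lit 5) (nat_lit 49) (nat_lit 5) (nat_lit 47) (nat_lit 4) (nat_lit 520) (nat_lit 468) (nat_lit 212)))) (XT.nd (nat_lit 156) (nat_lit 152) (nat_lit 0) (XT.nd (nat_lit 78) (nat_lit 76) (nat_lit 0) (XT.lf (nat_lit 0) (nat_lit 64661286786) (nat_lit 76) (nat_lit 358239947860) (nat_lit 152) (nat_lit 106854010802) (nat_lit 45) (nat_lit 5) (nat_lit 46) (nat_lit 5) (nat_lit 47) (nat_lit 4) (nat_lit 521) (nat_lit 468) (nat_lit 211)) (XT.lf (nat_lit 0) (nat_lit 26796588868) (nat_lit 152) (nat_lit 170837656779) (nat_lit 76) (nat_lit 350088512717) (nat_lit 44) (nat_lit 5) (nat_lit 46) (nat_lit 5) (nat_lit 45) (nat_lit 5) (nat_lit 522) (nat_lit 468) (nat_lit 210))) (XT.nd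 (nat_lit 78) (nat_lit 0) (nat_lit 0) (XT.lf (nat_lit 0) (nat_lit 140888977449) (nat_lit 152) (nat_lit 24849359761) (nat_lit 228) (nat_lit 400652743759) (nat_lit 42) (nat_lit 5) (nat_lit 44) (nat_lit 5) (nat_lit 45) (nat_lit 5) (nat_lit 523) (nat_lit 468) (nat_lit 209)) (XT.lf (nat_lit 0) (nat_lit 317012334891) (nat_lit 228) (nat_lit 114207223707) (nat_lit 76) (nat_lit 154504003018) (nat_lit 42) (nat_lit 5) (nat_lit 45) (nat_lit 5) (nat_lit 43) (nat_lit 4) (nat_lit 524) (nat_lit 468) (nat_lit 208))))))))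
noncomputable def xc224 : XT := (XT.nd (nat_lit 59358) (nat_lit 0) (nat_lit 1976) (XT.nd (nat_lit 58266) (nat_lit 0) (nat_lit 5928) (XT.nd (nat_lit 546) (nat_lit 304) (nat_lit 0) (XT.nd (nat_lit 234) (nat_lit 228) (nat_lit 0) (XT.nd (nat_lit 78) (nat_lit 228) (nat_lit 0) (XT.lf (nat_lit 0) (nat_lit 219262709362) (nat_lit 76) (nat_lit 260417940510) (nat_lit 152) (nat_lit 126150485557) (nat_lit 41) (nat_lit 5) (nat_lit 42) (nat_lit 5) (nat_lit 43) (nat_lit 4) (nat_lit 525) (nat_lit 468) (nat_lit 207)) (XT.nd (nat_lit 78) (nat_lit 152) (nat_lit 0) (XT.lf (nat_lit 0) (nat_lit 24750728015) (nat_lit 152) (nat_lit 53875530755) (nat_lit 76) (nat_lit 548201163846) (nat_lit 40) (nat_lit 5) (nat_lit 42) (nat_lit 5) (nat_lit 41) (nat_lit 5) (nat_lit 526) (nat_lit 468) (nat_lit 206)) (XT.lf (nat_lit 0) (nat_lit 185553555551) (nat_lit 228) (nat_lit 347313146669) (nat_lit 76) (nat_lit 115573618070) (nat_lit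 38) (nat_lit 5) (nat_lit 41) (nat_lit 5) (nat_lit 39) (nat_lit 4) (nat_lit 527) (nat_lit 468) (nat_lit 205)))) (XT.nd (nat_lit 156) (nat_lit 152) (nat_lit 0) (XT.nd (nat_lit 78) (nat_lit 0) (nat_lit 0) (XT.lf (nat_lit 0) (nat_lit 3469236272) (nat_lit 76) (nat_lit 353197722016) (nat_lit 152) (nat_lit 314353382872) (nat_lit 37) (nat_lit 5) (nat_lit 38) (nat_lit 5) (nat_lit 39) (nat_lit 4) (nat_lit 528) (nat_lit 468) (nat_lit 204)) (XT.lf (nat_lit 0) (nat_lit 383848572173) (nat_lit 76) (nat_lit 158369324730) (nat_lit 152) (nat_lit 152217372889) (nat_lit 37) (nat_lit 5) (nat_lit 38) (nat_lit 5) (nat_lit 39) (nat_lit 4) (nat_lit 529) (nat_lit 468) (nat_lit 203))) (XT.nd (nat_lit 78) (nat_lit 0) (nat_lit 0) (XT.lf (nat_lit 0) (nat_lit 19222663270) (nat_lit 152) (nat_lit 653639445567) (nat_lit 76) (nat_lit 46056057029) (nat_lit 35) (nat_lit 5) (nat_lit 37) (nat_lit 5) (nat_lit 36) (nat_lit 4) (nat_lit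 530) (nat_lit 468) (nat_lit 202)) (XT.lf (nat_lit 0) (nat_lit 202061533686) (nat_lit 152) (nat_lit 278819837455) (nat_lit 76) (nat_lit 263221950553) (nat_lit 35) (nat_lit 5) (nat_lit 37) (nat_lit 5) (nat_lit 36) (nat_lit 4) (nat_lit 531) (nat_lit 468) (nat_lit 201))))) (XT.nd (nat_lit 234) (nat_lit 76) (nat_lit 0) (XT.nd (nat_lit 78) (nat_lit 152) (nat_lit 0) (XT.lf (nat_lit 0) (nat_lit 118534508180) (nat_lit 76) (nat_lit 277358449041) (nat_lit 152) (nat_lit 374562247616) (nat_lit 34) (nat_lit 5) (nat_lit 35) (nat_lit 5) (nat_lit 36) (nat_lit 4) (nat_lit 532) (nat_lit 468) (nat_lit 200)) (XT.nd (nat_lit 78) (nat_lit 152) (nat_lit 0) (XT.lf (nat_lit 0) (nat_lit 545436480264) (nat_lit 76) (nat_lit 58701375121) (nat_lit 152) (nat_lit 193750731582) (nat_lit 34) (nat_lit 5) (nat_lit 35) (nat_lit 5) (nat_lit 36) (nat_lit 4) (nat_lit 533) (nat_lit 468) (nat_lit 199)) (XT.lf (nat_lit 0) (nat_lit 1631683906)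 (nat_lit 152) (nat_lit 656699037645) (nat_lit 76) (nat_lit 168095682949) (nat_lit 32) (nat_lit 5) (nat_lit 34) (nat_lit 5) (nat_lit 33) (nat_lit 4) (nat_lit 534) (nat_lit 468) (nat_lit 198)))) (XT.nd (nat_lit 57330) (nat_lit 0) (nat_lit 7144) (XT.nd (nat_lit 78) (nat_lit 76) (nat_lit 0) (XT.lf (nat_lit 0) (nat_lit 205579686049) (nat_lit 152) (nat_lit 238605692990) (nat_lit 76) (nat_lit 411781533751) (nat_lit 32) (nat_lit 5) (nat_lit 34) (nat_lit 5) (nat_lit 33) (nat_lit 4) (nat_lit 535) (nat_lit 468) (nat_lit 197)) (XT.lf (nat_lit 0) (nat_lit 207018111737) (nat_lit 76) (nat_lit 215939067785) (nat_lit 152) (nat_lit 463865662414) (nat_lit 31) (nat_lit 5) (nat_lit 32) (nat_lit 5) (nat_lit 33) (nat_lit 4) (nat_lit 536) (nat_lit 468) (nat_lit 196))) (XT.nd (nat_lit 78) (nat_lit 0) (nat_lit 0) (XT.lf (nat_lit 0) (nat_lit 19663986977) (nat_lit 836) (nat_lit 19610923044) (nat_lit 836) (nat_lit 19610923044)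 (nat_lit 125) (nat_lit 3) (nat_lit 136) (nat_lit 3) (nat_lit 136) (nat_lit 5) (nat_lit 469) (nat_lit 469) (nat_lit 262)) (XT.lf (nat_lit 76) (nat_lit 19083442275) (nat_lit 0) (nat_lit 21530292478) (nat_lit 836) (nat_lit 80087093163) (nat_lit 126) (nat_lit 5) (nat_lit 125) (nat_lit 3) (nat_lit 136) (nat_lit 5) (nat_lit 470) (nat_lit 469) (nat_lit 261)))))) (XT.nd (nat_lit 546) (nat_lit 1292) (nat_lit 0) (XT.nd (nat_lit 234) (nat_lit 0) (nat_lit 76) (XT.nd (nat_lit 78) (nat_lit 0) (nat_lit 0) (XT.lf (nat_lit 0) (nat_lit 43237216080) (nat_lit 760) (nat_lit 42687211558) (nat_lit 836) (nat_lit 37788348642) (nat_lit 126) (nat_lit 5) (nat_lit 136) (nat_lit 5) (nat_lit 137) (nat_lit 5) (nat_lit 471) (nat_lit 469) (nat_lit 260)) (XT.nd (nat_lit 78) (nat_lit 0) (nat_lit 76) (XT.lf (nat_lit 76) (nat_lit 19459161291) (nat_lit 0) (nat_lit 27189196124) (nat_lit 836) (nat_lit 80194140460) (nat_lit 127) (nat_lit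 5) (nat_lit 126) (nat_lit 5) (nat_lit 137) (nat_lit 5) (nat_lit 472) (nat_lit 469) (nat_lit 259)) (XT.lf (nat_lit 0) (nat_lit 51502939527) (nat_lit 760) (nat_lit 44448108694) (nat_lit 836) (nat_lit 34114013248) (nat_lit 127) (nat_lit 5) (nat_lit 137) (nat_lit 5) (nat_lit 138) (nat_lit 5) (nat_lit 473) (nat_lit 469) (nat_lit 258)))) (XT.nd (nat_lit 156) (nat_lit 0) (nat_lit 76) (XT.nd (nat_lit 78) (nat_lit 0) (nat_lit 76) (XT.lf (nat_lit 76) (nat_lit 21888553556) (nat_lit 0) (nat_lit 35498906939) (nat_lit 836) (nat_lit 76021932361) (nat_lit 128) (nat_lit 5) (nat_lit 127) (nat_lit 5) (nat_lit 138) (nat_lit 5) (nat_lit 474) (nat_lit 469) (nat_lit 257)) (XT.lf (nat_lit 0) (nat_lit 64767833508) (nat_lit 760) (nat_lit 44247421634) (nat_lit 836) (nat_lit 27845604463) (nat_lit 128) (nat_lit 5) (nat_lit 138) (nat_lit 5) (nat_lit 139) (nat_lit 5) (nat_lit 475) (nat_lit 469) (nat_lit 256))) (XT.nd (nat_lit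 78) (nat_lit 0) (nat_lit 76) (XT.lf (nat_lit 76) (nat_lit 26660856513) (nat_lit 0) (nat_lit 46854334652) (nat_lit 836) (nat_lit 66919810317) (nat_lit 129) (nat_lit 5) (nat_lit 128) (nat_lit 5) (nat_lit 139) (nat_lit 5) (nat_lit 476) (nat_lit 469) (nat_lit 255)) (XT.lf (nat_lit 0) (nat_lit 83748831964) (nat_lit 760) (nat_lit 41799636593) (nat_lit 836) (nat_lit 18586936219) (nat_lit 129) (nat_lit 5) (nat_lit 139) (nat_lit 5) (nat_lit 140) (nat_lit 5) (nat_lit 477) (nat_lit 469) (nat_lit 254))))) (XT.nd (nat_lit 234) (nat_lit 836) (nat_lit 0) (XT.nd (nat_lit 78) (nat_lit 684) (nat_lit 0) (XT.lf (nat_lit 76) (nat_lit 34096622607) (nat_lit 0) (nat_lit 61697765875) (nat_lit 836) (nat_lit 52161428150) (nat_lit 130) (nat_lit 5) (nat_lit 129) (nat_lit 5) (nat_lit 140) (nat_lit 5) (nat_lit 478) (nat_lit 469) (nat_lit 253)) (XT.nd (nat_lit 78) (nat_lit 760) (nat_lit 0) (XT.lf (nat_lit 0) (nat_lit 109244976587)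 (nat_lit 760) (nat_lit 36788216837) (nat_lit 76) (nat_lit 5893918048) (nat_lit 130) (nat_lit 5) (nat_lit 140) (nat_lit 5) (nat_lit 131) (nat_lit 5) (nat_lit 479) (nat_lit 469) (nat_lit 252)) (XT.lf (nat_lit 0) (nat_lit 44550592657) (nat_lit 760) (nat_lit 80524303655) (nat_lit 836) (nat_lit 30936734704) (nat_lit 120) (nat_lit 5) (nat_lit 130) (nat_lit 5) (nat_lit 131) (nat_lit 5) (nat_lit 480) (nat_lit 469) (nat_lit 251)))) (XT.nd (nat_lit 156) (nat_lit 456) (nat_lit 0) (XT.nd (nat_lit 78) (nat_lit 380) (nat_lit 0) (XT.lf (nat_lit 0) (nat_lit 131233374311) (nat_lit 760) (nat_lit 11085774450) (nat_lit 836) (nat_lit 17950086011) (nat_lit 120) (nat_lit 5) (nat_lit 130) (nat_lit 5) (nat_lit 131) (nat_lit 5) (nat_lit 481) (nat_lit 469) (nat_lit 250)) (XT.lf (nat_lit 0) (nat_lit 58414784413) (nat_lit 380) (nat_lit 103887924213) (nat_lit 456) (nat_lit 2343155416) (nat_lit 115) (nat_lit 5) (nat_lit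 120) (nat_lit 5) (nat_lit 121) (nat_lit 5) (nat_lit 482) (nat_lit 469) (nat_lit 249))) (XT.nd (nat_lit 78) (nat_lit 380) (nat_lit 0) (XT.lf (nat_lit 0) (nat_lit 14275976478) (nat_lit 456) (nat_lit 18379956689) (nat_lit 76) (nat_lit 136540360547) (nat_lit 114) (nat_lit 5) (nat_lit 120) (nat_lit 5) (nat_lit 115) (nat_lit 5) (nat_lit 483) (nat_lit 469) (nat_lit 248)) (XT.lf (nat_lit 0) (nat_lit 33515915662) (nat_lit 456) (nat_lit 98324698525) (nat_lit 76) (nat_lit 42038280317) (nat_lit 109) (nat_lit 5) (nat_lit 115) (nat_lit 5) (nat_lit 110) (nat_lit 5) (nat_lit 484) (nat_lit 469) (nat_lit 247))))))) (XT.nd (nat_lit 1092) (nat_lit 1596) (nat_lit 0) (XT.nd (nat_lit 546) (nat_lit 1064) (nat_lit 0) (XT.nd (nat_lit 234) (nat_lit 608) (nat_lit 0) (XT.nd (nat_lit 78) (nat_lit 684) (nat_lit 0) (XT.lf (nat_lit 0) (nat_lit 54569407909) (nat_lit 456) (nat_lit 4497514291) (nat_lit 76) (nat_lit 119686125383)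 (nat_lit 109) (nat_lit 5) (nat_lit 115) (nat_lit 5) (nat_lit 110) (nat_lit 5) (nat_lit 485) (nat_lit 469) (nat_lit 246)) (XT.nd (nat_lit 78) (nat_lit 304) (nat_lit 0) (XT.lf (nat_lit 0) (nat_lit 78487555822) (nat_lit 456) (nat_lit 86961145674) (nat_lit 76) (nat_lit 18331607821) (nat_lit 104) (nat_lit 5) (nat_lit 110) (nat_lit 5) (nat_lit 105) (nat_lit 5) (nat_lit 486) (nat_lit 469) (nat_lit 245)) (XT.lf (nat_lit 0) (nat_lit 13773812455) (nat_lit 304) (nat_lit 91088422015) (nat_lit 380) (nat_lit 84133668551) (nat_lit 100) (nat_lit 5) (nat_lit 104) (nat_lit 5) (nat_lit 105) (nat_lit 5) (nat_lit 487) (nat_lit 469) (nat_lit 244)))) (XT.nd (nat_lit 156) (nat_lit 304) (nat_lit 0) (XT.nd (nat_lit 78) (nat_lit 304) (nat_lit 0) (XT.lf (nat_lit 0) (nat_lit 122564445877) (nat_lit 304) (nat_lit 11463783927) (nat_lit 380) (nat_lit 60370417516) (nat_lit 100) (nat_lit 5) (nat_lit 104) (nat_lit 5) (nat_lit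 105) (nat_lit 5) (nat_lit 488) (nat_lit 469) (nat_lit 243)) (XT.lf (nat_lit 0) (nat_lit 36773559589) (nat_lit 304) (nat_lit 129579304109) (nat_lit 380) (nat_lit 33633648240) (nat_lit 96) (nat_lit 5) (nat_lit 100) (nat_lit 5) (nat_lit 101) (nat_lit 5) (nat_lit 489) (nat_lit 469) (nat_lit 242))) (XT.nd (nat_lit 78) (nat_lit 304) (nat_lit 0) (XT.lf (nat_lit 0) (nat_lit 153111321921) (nat_lit 304) (nat_lit 48583718497) (nat_lit 380) (nat_lit 4088663856) (nat_lit 96) (nat_lit 5) (nat_lit 100) (nat_lit 5) (nat_lit 101) (nat_lit 5) (nat_lit 490) (nat_lit 469) (nat_lit 241)) (XT.lf (nat_lit 0) (nat_lit 27679927296) (nat_lit 304) (nat_lit 147334993533) (nat_lit 76) (nat_lit 36754390015) (nat_lit 92) (nat_lit 5) (nat_lit 96) (nat_lit 5) (nat_lit 93) (nat_lit 5) (nat_lit 491) (nat_lit 469) (nat_lit 240))))) (XT.nd (nat_lit 234) (nat_lit 760) (nat_lit 0) (XT.nd (nat_lit 78) (nat_lit 304) (nat_lit 0) (XT.lf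 (nat_lit 0) (nat_lit 62602524312) (nat_lit 304) (nat_lit 29662846408) (nat_lit 76) (nat_lit 125700326583) (nat_lit 92) (nat_lit 5) (nat_lit 96) (nat_lit 5) (nat_lit 93) (nat_lit 5) (nat_lit 492) (nat_lit 469) (nat_lit 239)) (XT.nd (nat_lit 78) (nat_lit 0) (nat_lit 0) (XT.lf (nat_lit 0) (nat_lit 96997271017) (nat_lit 304) (nat_lit 3788257549) (nat_lit 380) (nat_lit 123610660686) (nat_lit 88) (nat_lit 5) (nat_lit 92) (nat_lit 5) (nat_lit 93) (nat_lit 5) (nat_lit 493) (nat_lit 469) (nat_lit 238)) (XT.lf (nat_lit 0) (nat_lit 142779453200) (nat_lit 380) (nat_lit 1502559583) (nat_lit 76) (nat_lit 86771104541) (nat_lit 88) (nat_lit 5) (nat_lit 93) (nat_lit 5) (nat_lit 89) (nat_lit 5) (nat_lit 494) (nat_lit 469) (nat_lit 237)))) (XT.nd (nat_lit 156) (nat_lit 304) (nat_lit 0) (XT.nd (nat_lit 78) (nat_lit 228) (nat_lit 0) (XT.lf (nat_lit 0) (nat_lit 134945461071) (nat_lit 228) (nat_lit 54096479101) (nat_lit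 304) (nat_lit 48892508355) (nat_lit 85) (nat_lit 5) (nat_lit 88) (nat_lit 5) (nat_lit 89) (nat_lit 5) (nat_lit 495) (nat_lit 469) (nat_lit 236)) (XT.lf (nat_lit 0) (nat_lit 33548821837) (nat_lit 228) (nat_lit 205252127416) (nat_lit 304) (nat_lit 6299727178) (nat_lit 82) (nat_lit 5) (nat_lit 85) (nat_lit 5) (nat_lit 86) (nat_lit 5) (nat_lit 496) (nat_lit 469) (nat_lit 235))) (XT.nd (nat_lit 78) (nat_lit 228) (nat_lit 0) (XT.lf (nat_lit 0) (nat_lit 39852406008) (nat_lit 304) (nat_lit 73564401546) (nat_lit 76) (nat_lit 139045439956) (nat_lit 81) (nat_lit 5) (nat_lit 85) (nat_lit 5) (nat_lit 82) (nat_lit 5) (nat_lit 497) (nat_lit 469) (nat_lit 234)) (XT.lf (nat_lit 0) (nat_lit 73573824615) (nat_lit 228) (nat_lit 15675198210) (nat_lit 304) (nat_lit 170880281177) (nat_lit 78) (nat_lit 5) (nat_lit 81) (nat_lit 5) (nat_lit 82) (nat_lit 5) (nat_lit 498) (nat_lit 469) (nat_lit 233)))))) (XT.nd (nat_lit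 546) (nat_lit 760) (nat_lit 0) (XT.nd (nat_lit 234) (nat_lit 456) (nat_lit 0) (XT.nd (nat_lit 78) (nat_lit 380) (nat_lit 0) (XT.lf (nat_lit 0) (nat_lit 143739228225) (nat_lit 304) (nat_lit 38872629585) (nat_lit 76) (nat_lit 85436667647) (nat_lit 78) (nat_lit 5) (nat_lit 82) (nat_lit 5) (nat_lit 79) (nat_lit 5) (nat_lit 499) (nat_lit 469) (nat_lit 232)) (XT.nd (nat_lit 78) (nat_lit 152) (nat_lit 0) (XT.lf (nat_lit 0) (nat_lit 119770659173) (nat_lit 228) (nat_lit 83310113273) (nat_lit 304) (nat_lit 73176594137) (nat_lit 75) (nat_lit 5) (nat_lit 78) (nat_lit 5) (nat_lit 79) (nat_lit 5) (nat_lit 500) (nat_lit 469) (nat_lit 231)) (XT.lf (nat_lit 0) (nat_lit 2596937812) (nat_lit 152) (nat_lit 263829217889) (nat_lit 228) (nat_lit 18398655995) (nat_lit 73) (nat_lit 5) (nat_lit 75) (nat_lit 5) (nat_lit 76) (nat_lit 5) (nat_lit 501) (nat_lit 469) (nat_lit 230)))) (XT.nd (nat_lit 156) (nat_lit 152) (nat_lit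 0) (XT.nd (nat_lit 78) (nat_lit 228) (nat_lit 0) (XT.lf (nat_lit 0) (nat_lit 41925421243) (nat_lit 228) (nat_lit 120640564022) (nat_lit 76) (nat_lit 131021143189) (nat_lit 72) (nat_lit 5) (nat_lit 75) (nat_lit 5) (nat_lit 73) (nat_lit 5) (nat_lit 502) (nat_lit 469) (nat_lit 229)) (XT.lf (nat_lit 0) (nat_lit 50335403401) (nat_lit 228) (nat_lit 55097769692) (nat_lit 304) (nat_lit 197300017799) (nat_lit 69) (nat_lit 5) (nat_lit 72) (nat_lit 5) (nat_lit 73) (nat_lit 5) (nat_lit 503) (nat_lit 469) (nat_lit 228))) (XT.nd (nat_lit 78) (nat_lit 152) (nat_lit 0) (XT.lf (nat_lit 0) (nat_lit 175094366816) (nat_lit 304) (nat_lit 79121040298) (nat_lit 76) (nat_lit 57972246643) (nat_lit 69) (nat_lit 5) (nat_lit 73) (nat_lit 5) (nat_lit 70) (nat_lit 5) (nat_lit 504) (nat_lit 469) (nat_lit 227)) (XT.lf (nat_lit 0) (nat_lit 105285978241) (nat_lit 152) (nat_lit 145499608509) (nat_lit 228) (nat_lit 71201904707)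 (nat_lit 67) (nat_lit 5) (nat_lit 69) (nat_lit 5) (nat_lit 70) (nat_lit 5) (nat_lit 505) (nat_lit 469) (nat_lit 226))))) (XT.nd (nat_lit 234) (nat_lit 380) (nat_lit 0) (XT.nd (nat_lit 78) (nat_lit 380) (nat_lit 0) (XT.lf (nat_lit 0) (nat_lit 301660120994) (nat_lit 152) (nat_lit 29941117006) (nat_lit 228) (nat_lit 609089544) (nat_lit 67) (nat_lit 5) (nat_lit 69) (nat_lit 5) (nat_lit 70) (nat_lit 5) (nat_lit 506) (nat_lit 469) (nat_lit 225)) (XT.nd (nat_lit 78) (nat_lit 152) (nat_lit 0) (XT.lf (nat_lit 0) (nat_lit 75290754085) (nat_lit 228) (nat_lit 175068448466) (nat_lit 76) (nat_lit 92321201690) (nat_lit 64) (nat_lit 5) (nat_lit 67) (nat_lit 5) (nat_lit 65) (nat_lit 5) (nat_lit 507) (nat_lit 469) (nat_lit 224)) (XT.lf (nat_lit 0) (nat_lit 23332084255) (nat_lit 152) (nat_lit 133013938642) (nat_lit 228) (nat_lit 197258417515) (nat_lit 62) (nat_lit 5) (nat_lit 64) (nat_lit 5) (nat_lit 65) (nat_lit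 5) (nat_lit 508) (nat_lit 469) (nat_lit 223)))) (XT.nd (nat_lit 156) (nat_lit 228) (nat_lit 0) (XT.nd (nat_lit 78) (nat_lit 152) (nat_lit 0) (XT.lf (nat_lit 0) (nat_lit 237730498721) (nat_lit 152) (nat_lit 6688348093) (nat_lit 228) (nat_lit 120507592009) (nat_lit 62) (nat_lit 5) (nat_lit 64) (nat_lit 5) (nat_lit 65) (nat_lit 5) (nat_lit 509) (nat_lit 469) (nat_lit 222)) (XT.lf (nat_lit 0) (nat_lit 86847343594) (nat_lit 152) (nat_lit 253370311949) (nat_lit 228) (nat_lit 36430764445) (nat_lit 60) (nat_lit 5) (nat_lit 62) (nat_lit 5) (nat_lit 63) (nat_lit 5) (nat_lit 510) (nat_lit 469) (nat_lit 221))) (XT.nd (nat_lit 78) (nat_lit 152) (nat_lit 0) (XT.lf (nat_lit 0) (nat_lit 52489393280) (nat_lit 228) (nat_lit 73794651094) (nat_lit 76) (nat_lit 262517029256) (nat_lit 59) (nat_lit 5) (nat_lit 62) (nat_lit 5) (nat_lit 60) (nat_lit 5) (nat_lit 511) (nat_lit 469) (nat_lit 220)) (XT.lf (nat_lit 0) (nat_lit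 147251301938) (nat_lit 228) (nat_lit 244116138350) (nat_lit 76) (nat_lit 10033055615) (nat_lit 57) (nat_lit 5) (nat_lit 60) (nat_lit 5) (nat_lit 58) (nat_lit 5) (nat_lit 512) (nat_lit 469) (nat_lit 219))))))))
noncomputable def xc225 : XT := (XT.nd (nat_lit 59514) (nat_lit 0) (nat_lit 3040) (XT.nd (nat_lit 1092) (nat_lit 684) (nat_lit 0) (XT.nd (nat_lit 546) (nat_lit 532) (nat_lit 0) (XT.nd (nat_lit 234) (nat_lit 304) (nat_lit 0) (XT.nd (nat_lit 78) (nat_lit 380) (nat_lit 0) (XT.lf (nat_lit 0) (nat_lit 250091702557) (nat_lit 228) (nat_lit 14178937975) (nat_lit 76) (nat_lit 150192228941) (nat_lit 57) (nat_lit 5) (nat_lit 60) (nat_lit 5) (nat_lit 58) (nat_lit 5) (nat_lit 513) (nat_lit 469) (nat_lit 218)) (XT.nd (nat_lit 78) (nat_lit 228) (nat_lit 0) (XT.lf (nat_lit 0) (nat_lit 234769086521) (nat_lit 152) (nat_lit 126970373873) (nat_lit 228) (nat_lit 66255634481) (nat_lit 55) (nat_lit 5) (nat_lit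 57) (nat_lit 5) (nat_lit 58) (nat_lit 5) (nat_lit 514) (nat_lit 469) (nat_lit 217)) (XT.lf (nat_lit 0) (nat_lit 36998202169) (nat_lit 228) (nat_lit 386747169864) (nat_lit 76) (nat_lit 18359395822) (nat_lit 52) (nat_lit 5) (nat_lit 55) (nat_lit 5) (nat_lit 53) (nat_lit 5) (nat_lit 515) (nat_lit 469) (nat_lit 216)))) (XT.nd (nat_lit 156) (nat_lit 152) (nat_lit 0) (XT.nd (nat_lit 78) (nat_lit 152) (nat_lit 0) (XT.lf (nat_lit 0) (nat_lit 148595544682) (nat_lit 228) (nat_lit 136898949195) (nat_lit 76) (nat_lit 171100750828) (nat_lit 52) (nat_lit 5) (nat_lit 55) (nat_lit 5) (nat_lit 53) (nat_lit 5) (nat_lit 516) (nat_lit 469) (nat_lit 215)) (XT.lf (nat_lit 0) (nat_lit 129589239011) (nat_lit 152) (nat_lit 138206704426) (nat_lit 228) (nat_lit 203913142515) (nat_lit 50) (nat_lit 5) (nat_lit 52) (nat_lit 5) (nat_lit 53) (nat_lit 5) (nat_lit 517) (nat_lit 469) (nat_lit 214))) (XT.nd (nat_lit 78) (nat_lit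 152) (nat_lit 0) (XT.lf (nat_lit 0) (nat_lit 395569517892) (nat_lit 228) (nat_lit 73602914095) (nat_lit 76) (nat_lit 18275529493) (nat_lit 50) (nat_lit 5) (nat_lit 53) (nat_lit 5) (nat_lit 51) (nat_lit 4) (nat_lit 518) (nat_lit 469) (nat_lit 213)) (XT.lf (nat_lit 0) (nat_lit 30614603794) (nat_lit 152) (nat_lit 291300277147) (nat_lit 76) (nat_lit 181754740626) (nat_lit 48) (nat_lit 5) (nat_lit 50) (nat_lit 5) (nat_lit 49) (nat_lit 5) (nat_lit 519) (nat_lit 469) (nat_lit 212))))) (XT.nd (nat_lit 234) (nat_lit 304) (nat_lit 0) (XT.nd (nat_lit 78) (nat_lit 228) (nat_lit 0) (XT.lf (nat_lit 0) (nat_lit 157411462438) (nat_lit 152) (nat_lit 6971239303) (nat_lit 76) (nat_lit 356181008873) (nat_lit 48) (nat_lit 5) (nat_lit 50) (nat_lit 5) (nat_lit 49) (nat_lit 5) (nat_lit 520) (nat_lit 469) (nat_lit 211)) (XT.nd (nat_lit 78) (nat_lit 76) (nat_lit 0) (XT.lf (nat_lit 0) (nat_lit 295344031984) (nat_lit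 228) (nat_lit 236945571565) (nat_lit 76) (nat_lit 5773107172) (nat_lit 46) (nat_lit 5) (nat_lit 49) (nat_lit 5) (nat_lit 47) (nat_lit 4) (nat_lit 521) (nat_lit 469) (nat_lit 210)) (XT.lf (nat_lit 0) (nat_lit 67897515569) (nat_lit 76) (nat_lit 376150524968) (nat_lit 152) (nat_lit 112194879777) (nat_lit 45) (nat_lit 5) (nat_lit 46) (nat_lit 5) (nat_lit 47) (nat_lit 4) (nat_lit 522) (nat_lit 469) (nat_lit 209)))) (XT.nd (nat_lit 156) (nat_lit 76) (nat_lit 0) (XT.nd (nat_lit 78) (nat_lit 152) (nat_lit 0) (XT.lf (nat_lit 0) (nat_lit 28138106829) (nat_lit 152) (nat_lit 179376469851) (nat_lit 76) (nat_lit 367594234995) (nat_lit 44) (nat_lit 5) (nat_lit 46) (nat_lit 5) (nat_lit 45) (nat_lit 5) (nat_lit 523) (nat_lit 469) (nat_lit 208)) (XT.lf (nat_lit 0) (nat_lit 147936446576) (nat_lit 152) (nat_lit 26090462762) (nat_lit 228) (nat_lit 420683642745) (nat_lit 42) (nat_lit 5) (nat_lit 44) (nat_lit 5)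 (nat_lit 45) (nat_lit 5) (nat_lit 524) (nat_lit 469) (nat_lit 207))) (XT.nd (nat_lit 78) (nat_lit 76) (nat_lit 0) (XT.lf (nat_lit 0) (nat_lit 332864548376) (nat_lit 228) (nat_lit 119914649770) (nat_lit 76) (nat_lit 162230461549) (nat_lit 42) (nat_lit 5) (nat_lit 45) (nat_lit 5) (nat_lit 43) (nat_lit 4) (nat_lit 525) (nat_lit 469) (nat_lit 206)) (XT.lf (nat_lit 0) (nat_lit 230228732611) (nat_lit 76) (nat_lit 273437515547) (nat_lit 152) (nat_lit 132456365597) (nat_lit 41) (nat_lit 5) (nat_lit 42) (nat_lit 5) (nat_lit 43) (nat_lit 4) (nat_lit 526) (nat_lit 469) (nat_lit 205)))))) (XT.nd (nat_lit 546) (nat_lit 152) (nat_lit 0) (XT.nd (nat_lit 234) (nat_lit 228) (nat_lit 0) (XT.nd (nat_lit 78) (nat_lit 228) (nat_lit 0) (XT.lf (nat_lit 0) (nat_lit 25989780236) (nat_lit 152) (nat_lit 56566506764) (nat_lit 76) (nat_lit 575612430815) (nat_lit 40) (nat_lit 5) (nat_lit 42) (nat_lit 5) (nat_lit 41) (nat_lit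 5) (nat_lit 527) (nat_lit 469) (nat_lit 204)) (XT.nd (nat_lit 78) (nat_lit 76) (nat_lit 0) (XT.lf (nat_lit 0) (nat_lit 194832739794) (nat_lit 228) (nat_lit 364675993984) (nat_lit 76) (nat_lit 121353527069) (nat_lit 38) (nat_lit 5) (nat_lit 41) (nat_lit 5) (nat_lit 39) (nat_lit 4) (nat_lit 528) (nat_lit 469) (nat_lit 203)) (XT.lf (nat_lit 0) (nat_lit 3645462782) (nat_lit 76) (nat_lit 370856321315) (nat_lit 152) (nat_lit 330069500099) (nat_lit 37) (nat_lit 5) (nat_lit 38) (nat_lit 5) (nat_lit 39) (nat_lit 4) (nat_lit 529) (nat_lit 469) (nat_lit 202)))) (XT.nd (nat_lit 156) (nat_lit 76) (nat_lit 0) (XT.nd (nat_lit 78) (nat_lit 152) (nat_lit 0) (XT.lf (nat_lit 0) (nat_lit 403043633825) (nat_lit 76) (nat_lit 166286565441) (nat_lit 152) (nat_lit 159826763518) (nat_lit 37) (nat_lit 5) (nat_lit 38) (nat_lit 5) (nat_lit 39) (nat_lit 4) (nat_lit 530) (nat_lit 469) (nat_lit 201)) (XT.lf (nat_lit 0) (nat_lit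 20185219447) (nat_lit 152) (nat_lit 686318729573) (nat_lit 76) (nat_lit 48360053878) (nat_lit 35) (nat_lit 5) (nat_lit 37) (nat_lit 5) (nat_lit 36) (nat_lit 4) (nat_lit 531) (nat_lit 469) (nat_lit 200))) (XT.nd (nat_lit 78) (nat_lit 76) (nat_lit 0) (XT.lf (nat_lit 0) (nat_lit 212165965622) (nat_lit 152) (nat_lit 292758269068) (nat_lit 76) (nat_lit 276384185221) (nat_lit 35) (nat_lit 5) (nat_lit 37) (nat_lit 5) (nat_lit 36) (nat_lit 4) (nat_lit 532) (nat_lit 469) (nat_lit 199)) (XT.lf (nat_lit 0) (nat_lit 124463752554) (nat_lit 76) (nat_lit 291225182571) (nat_lit 152) (nat_lit 393288963351) (nat_lit 34) (nat_lit 5) (nat_lit 35) (nat_lit 5) (nat_lit 36) (nat_lit 4) (nat_lit 533) (nat_lit 469) (nat_lit 198))))) (XT.nd (nat_lit 57564) (nat_lit 0) (nat_lit 7068) (XT.nd (nat_lit 78) (nat_lit 152) (nat_lit 0) (XT.lf (nat_lit 0) (nat_lit 572710703292) (nat_lit 76) (nat_lit 61635311571) (nat_lit 152)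 (nat_lit 203436938022) (nat_lit 34) (nat_lit 5) (nat_lit 35) (nat_lit 5) (nat_lit 36) (nat_lit 4) (nat_lit 534) (nat_lit 469) (nat_lit 197)) (XT.nd (nat_lit 57408) (nat_lit 0) (nat_lit 7068) (XT.lf (nat_lit 0) (nat_lit 1714549638) (nat_lit 152) (nat_lit 689531541732) (nat_lit 76) (nat_lit 176501569192) (nat_lit 32) (nat_lit 5) (nat_lit 34) (nat_lit 5) (nat_lit 33) (nat_lit 4) (nat_lit 535) (nat_lit 469) (nat_lit 196)) (XT.lf (nat_lit 0) (nat_lit 20651729701) (nat_lit 836) (nat_lit 20589083040) (nat_lit 836) (nat_lit 20589083040) (nat_lit 125) (nat_lit 3) (nat_lit 136) (nat_lit 3) (nat_lit 136) (nat_lit 5) (nat_lit 470) (nat_lit 470) (nat_lit 260)))) (XT.nd (nat_lit 156) (nat_lit 0) (nat_lit 76) (XT.nd (nat_lit 78) (nat_lit 0) (nat_lit 76) (XT.lf (nat_lit 76) (nat_lit 20042309728) (nat_lit 0) (nat_lit 22610839118) (nat_lit 836) (nat_lit 84082280731) (nat_lit 126) (nat_lit 5) (nat_lit 125) (nat_lit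 3) (nat_lit 136) (nat_lit 5) (nat_lit 471) (nat_lit 470) (nat_lit 259)) (XT.lf (nat_lit 0) (nat_lit 45407328697) (nat_lit 760) (nat_lit 44816621637) (nat_lit 836) (nat_lit 39674048963) (nat_lit 126) (nat_lit 5) (nat_lit 136) (nat_lit 5) (nat_lit 137) (nat_lit 5) (nat_lit 472) (nat_lit 470) (nat_lit 258))) (XT.nd (nat_lit 78) (nat_lit 0) (nat_lit 76) (XT.lf (nat_lit 76) (nat_lit 20436990009) (nat_lit 0) (nat_lit 28551720192) (nat_lit 836) (nat_lit 84195512770) (nat_lit 127) (nat_lit 5) (nat_lit 126) (nat_lit 5) (nat_lit 137) (nat_lit 5) (nat_lit 473) (nat_lit 470) (nat_lit 257)) (XT.lf (nat_lit 0) (nat_lit 54085598001) (nat_lit 760) (nat_lit 46665449087) (nat_lit 836) (nat_lit 35816888972) (nat_lit 127) (nat_lit 5) (nat_lit 137) (nat_lit 5) (nat_lit 138) (nat_lit 5) (nat_lit 474) (nat_lit 470) (nat_lit 256))))))) (XT.nd (nat_lit 1092) (nat_lit 2128) (nat_lit 0) (XT.nd (nat_lit 546) (nat_lit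 1520) (nat_lit 0) (XT.nd (nat_lit 234) (nat_lit 532) (nat_lit 0) (XT.nd (nat_lit 78) (nat_lit 0) (nat_lit 76) (XT.lf (nat_lit 76) (nat_lit 22987964581) (nat_lit 0) (nat_lit 37276100550) (nat_lit 836) (nat_lit 79815433017) (nat_lit 128) (nat_lit 5) (nat_lit 127) (nat_lit 5) (nat_lit 138) (nat_lit 5) (nat_lit 475) (nat_lit 470) (nat_lit 255)) (XT.nd (nat_lit 78) (nat_lit 0) (nat_lit 0) (XT.lf (nat_lit 0) (nat_lit 68013079002) (nat_lit 760) (nat_lit 46454666240) (nat_lit 836) (nat_lit 29235812015) (nat_lit 128) (nat_lit 5) (nat_lit 138) (nat_lit 5) (nat_lit 139) (nat_lit 5) (nat_lit 476) (nat_lit 470) (nat_lit 254)) (XT.lf (nat_lit 76) (nat_lit 27998943130) (nat_lit 0) (nat_lit 49198613787) (nat_lit 836) (nat_lit 70258861816) (nat_lit 129) (nat_lit 5) (nat_lit 128) (nat_lit 5) (nat_lit 139) (nat_lit 5) (nat_lit 477) (nat_lit 470) (nat_lit 253)))) (XT.nd (nat_lit 156) (nat_lit 684) (nat_lit 0)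 (XT.nd (nat_lit 78) (nat_lit 0) (nat_lit 0) (XT.lf (nat_lit 0) (nat_lit 87942541943) (nat_lit 760) (nat_lit 43884474607) (nat_lit 836) (nat_lit 19514842653) (nat_lit 129) (nat_lit 5) (nat_lit 139) (nat_lit 5) (nat_lit 140) (nat_lit 5) (nat_lit 478) (nat_lit 470) (nat_lit 252)) (XT.lf (nat_lit 76) (nat_lit 35806514589) (nat_lit 0) (nat_lit 64783642219) (nat_lit 836) (nat_lit 54763145933) (nat_lit 130) (nat_lit 5) (nat_lit 129) (nat_lit 5) (nat_lit 140) (nat_lit 5) (nat_lit 479) (nat_lit 470) (nat_lit 251))) (XT.nd (nat_lit 78) (nat_lit 760) (nat_lit 0) (XT.lf (nat_lit 0) (nat_lit 114712971583) (nat_lit 760) (nat_lit 38622502915) (nat_lit 76) (nat_lit 6187703069) (nat_lit 130) (nat_lit 5) (nat_lit 140) (nat_lit 5) (nat_lit 131) (nat_lit 5) (nat_lit 480) (nat_lit 470) (nat_lit 250)) (XT.lf (nat_lit 0) (nat_lit 46783164396) (nat_lit 760) (nat_lit 84551027993) (nat_lit 836) (nat_lit 32477740548)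 (nat_lit 120) (nat_lit 5) (nat_lit 130) (nat_lit 5) (nat_lit 131) (nat_lit 5) (nat_lit 481) (nat_lit 470) (nat_lit 249))))) (XT.nd (nat_lit 234) (nat_lit 1064) (nat_lit 0) (XT.nd (nat_lit 78) (nat_lit 456) (nat_lit 0) (XT.lf (nat_lit 0) (nat_lit 137799845032) (nat_lit 760) (nat_lit 11640548082) (nat_lit 836) (nat_lit 18842037082) (nat_lit 120) (nat_lit 5) (nat_lit 130) (nat_lit 5) (nat_lit 131) (nat_lit 5) (nat_lit 482) (nat_lit 470) (nat_lit 248)) (XT.nd (nat_lit 78) (nat_lit 76) (nat_lit 0) (XT.lf (nat_lit 0) (nat_lit 61340517656) (nat_lit 380) (nat_lit 109082432320) (nat_lit 456) (nat_lit 2454950098) (nat_lit 115) (nat_lit 5) (nat_lit 120) (nat_lit 5) (nat_lit 121) (nat_lit 5) (nat_lit 483) (nat_lit 470) (nat_lit 247)) (XT.lf (nat_lit 0) (nat_lit 14994719527) (nat_lit 456) (nat_lit 19294033133) (nat_lit 76) (nat_lit 143367106828) (nat_lit 114) (nat_lit 5) (nat_lit 120) (nat_lit 5) (nat_lit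 115) (nat_lit 5) (nat_lit 484) (nat_lit 470) (nat_lit 246)))) (XT.nd (nat_lit 156) (nat_lit 684) (nat_lit 0) (XT.nd (nat_lit 78) (nat_lit 0) (nat_lit 0) (XT.lf (nat_lit 0) (nat_lit 35196496728) (nat_lit 456) (nat_lit 103235851499) (nat_lit 76) (nat_lit 44140250118) (nat_lit 109) (nat_lit 5) (nat_lit 115) (nat_lit 5) (nat_lit 110) (nat_lit 5) (nat_lit 485) (nat_lit 470) (nat_lit 245)) (XT.lf (nat_lit 0) (nat_lit 57302435717) (nat_lit 456) (nat_lit 4717550051) (nat_lit 76) (nat_lit 125670484781) (nat_lit 109) (nat_lit 5) (nat_lit 115) (nat_lit 5) (nat_lit 110) (nat_lit 5) (nat_lit 486) (nat_lit 470) (nat_lit 244))) (XT.nd (nat_lit 78) (nat_lit 304) (nat_lit 0) (XT.lf (nat_lit 0) (nat_lit 82416353772) (nat_lit 456) (nat_lit 91304224281) (nat_lit 76) (nat_lit 19248524253) (nat_lit 104) (nat_lit 5) (nat_lit 110) (nat_lit 5) (nat_lit 105) (nat_lit 5) (nat_lit 487) (nat_lit 470) (nat_lit 243)) (XT.lf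 (nat_lit 0) (nat_lit 14467401453) (nat_lit 304) (nat_lit 95642230893) (nat_lit 380) (nat_lit 88335850119) (nat_lit 100) (nat_lit 5) (nat_lit 104) (nat_lit 5) (nat_lit 105) (nat_lit 5) (nat_lit 488) (nat_lit 470) (nat_lit 242)))))) (XT.nd (nat_lit 546) (nat_lit 1216) (nat_lit 0) (XT.nd (nat_lit 234) (nat_lit 608) (nat_lit 0) (XT.nd (nat_lit 78) (nat_lit 304) (nat_lit 0) (XT.lf (nat_lit 0) (nat_lit 128697333290) (nat_lit 304) (nat_lit 12036390054) (nat_lit 380) (nat_lit 63384650906) (nat_lit 100) (nat_lit 5) (nat_lit 104) (nat_lit 5) (nat_lit 105) (nat_lit 5) (nat_lit 489) (nat_lit 470) (nat_lit 241)) (XT.nd (nat_lit 78) (nat_lit 0) (nat_lit 0) (XT.lf (nat_lit 0) (nat_lit 38617020608) (nat_lit 304) (nat_lit 136057457288) (nat_lit 380) (nat_lit 35311159819) (nat_lit 96) (nat_lit 5) (nat_lit 100) (nat_lit 5) (nat_lit 101) (nat_lit 5) (nat_lit 490) (nat_lit 470) (nat_lit 240)) (XT.lf (nat_lit 0)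 (nat_lit 160771443294) (nat_lit 304) (nat_lit 51012131063) (nat_lit 380) (nat_lit 4289124827) (nat_lit 96) (nat_lit 5) (nat_lit 100) (nat_lit 5) (nat_lit 101) (nat_lit 5) (nat_lit 491) (nat_lit 470) (nat_lit 239)))) (XT.nd (nat_lit 156) (nat_lit 304) (nat_lit 0) (XT.nd (nat_lit 78) (nat_lit 0) (nat_lit 0) (XT.lf (nat_lit 0) (nat_lit 29067671238) (nat_lit 304) (nat_lit 154696961042) (nat_lit 76) (nat_lit 38592955631) (nat_lit 92) (nat_lit 5) (nat_lit 96) (nat_lit 5) (nat_lit 93) (nat_lit 5) (nat_lit 492) (nat_lit 470) (nat_lit 238)) (XT.lf (nat_lit 0) (nat_lit 65736219650) (nat_lit 304) (nat_lit 31141434283) (nat_lit 76) (nat_lit 131986148736) (nat_lit 92) (nat_lit 5) (nat_lit 96) (nat_lit 5) (nat_lit 93) (nat_lit 5) (nat_lit 493) (nat_lit 470) (nat_lit 237))) (XT.nd (nat_lit 78) (nat_lit 0) (nat_lit 0) (XT.lf (nat_lit 0) (nat_lit 101851615555) (nat_lit 304) (nat_lit 3976658564) (nat_lit 380)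 (nat_lit 129787550145) (nat_lit 88) (nat_lit 5) (nat_lit 92) (nat_lit 5) (nat_lit 93) (nat_lit 5) (nat_lit 494) (nat_lit 470) (nat_lit 236)) (XT.lf (nat_lit 0) (nat_lit 149921744834) (nat_lit 380) (nat_lit 1573268858) (nat_lit 76) (nat_lit 91110592602) (nat_lit 88) (nat_lit 5) (nat_lit 93) (nat_lit 5) (nat_lit 89) (nat_lit 5) (nat_lit 495) (nat_lit 470) (nat_lit 235))))) (XT.nd (nat_lit 312) (nat_lit 456) (nat_lit 0) (XT.nd (nat_lit 156) (nat_lit 304) (nat_lit 0) (XT.nd (nat_lit 78) (nat_lit 228) (nat_lit 0) (XT.lf (nat_lit 0) (nat_lit 141697081559) (nat_lit 228) (nat_lit 56800184424) (nat_lit 304) (nat_lit 51333742628) (nat_lit 85) (nat_lit 5) (nat_lit 88) (nat_lit 5) (nat_lit 89) (nat_lit 5) (nat_lit 496) (nat_lit 470) (nat_lit 234)) (XT.lf (nat_lit 0) (nat_lit 35230682784) (nat_lit 228) (nat_lit 215513474622) (nat_lit 304) (nat_lit 6611393954) (nat_lit 82) (nat_lit 5) (nat_lit 85) (nat_lit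 5) (nat_lit 86) (nat_lit 5) (nat_lit 497) (nat_lit 470) (nat_lit 233))) (XT.nd (nat_lit 78) (nat_lit 228) (nat_lit 0) (XT.lf (nat_lit 0) (nat_lit 41848086628) (nat_lit 304) (nat_lit 77238310271) (nat_lit 76) (nat_lit 145998809191) (nat_lit 81) (nat_lit 5) (nat_lit 85) (nat_lit 5) (nat_lit 82) (nat_lit 5) (nat_lit 498) (nat_lit 470) (nat_lit 232)) (XT.lf (nat_lit 0) (nat_lit 77256757661) (nat_lit 228) (nat_lit 16457697123) (nat_lit 304) (nat_lit 179421164636) (nat_lit 78) (nat_lit 5) (nat_lit 81) (nat_lit 5) (nat_lit 82) (nat_lit 5) (nat_lit 499) (nat_lit 470) (nat_lit 231)))) (XT.nd (nat_lit 156) (nat_lit 228) (nat_lit 0) (XT.nd (nat_lit 78) (nat_lit 228) (nat_lit 0) (XT.lf (nat_lit 0) (nat_lit 150929047260) (nat_lit 304) (nat_lit 40812097340) (nat_lit 76) (nat_lit 89709663542) (nat_lit 78) (nat_lit 5) (nat_lit 82) (nat_lit 5) (nat_lit 79) (nat_lit 5) (nat_lit 500) (nat_lit 470) (nat_lit 230))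 (XT.lf (nat_lit 0) (nat_lit 125763288699) (nat_lit 228) (nat_lit 87474307875) (nat_lit 304) (nat_lit 76832498390) (nat_lit 75) (nat_lit 5) (nat_lit 78) (nat_lit 5) (nat_lit 79) (nat_lit 5) (nat_lit 501) (nat_lit 470) (nat_lit 229))) (XT.nd (nat_lit 78) (nat_lit 76) (nat_lit 0) (XT.lf (nat_lit 0) (nat_lit 2730932747) (nat_lit 152) (nat_lit 277019267858) (nat_lit 228) (nat_lit 19315714178) (nat_lit 73) (nat_lit 5) (nat_lit 75) (nat_lit 5) (nat_lit 76) (nat_lit 5) (nat_lit 502) (nat_lit 470) (nat_lit 228)) (XT.lf (nat_lit 0) (nat_lit 44024342410) (nat_lit 228) (nat_lit 126668553498) (nat_lit 76) (nat_lit 137573455881) (nat_lit 72) (nat_lit 5) (nat_lit 75) (nat_lit 5) (nat_lit 73) (nat_lit 5) (nat_lit 503) (nat_lit 470) (nat_lit 227))))))))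
noncomputable def xc226 : XT := (XT.nd (nat_lit 2184) (nat_lit 228) (nat_lit 0) (XT.nd (nat_lit 1092) (nat_lit 1140) (nat_lit 0) (XT.nd (nat_lit 546) (nat_lit 760) (nat_lit 0) (XT.nd (nat_lit 234) (nat_lit 380) (nat_lit 0) (XT.nd (nat_lit 78) (nat_lit 152) (nat_lit 0) (XT.lf (nat_lit 0) (nat_lit 52856147155) (nat_lit 228) (nat_lit 57851270541) (nat_lit 304) (nat_lit 207162302889) (nat_lit 69) (nat_lit 5) (nat_lit 72) (nat_lit 5) (nat_lit 73) (nat_lit 5) (nat_lit 504) (nat_lit 470) (nat_lit 226)) (XT.nd (nat_lit 78) (nat_lit 152) (nat_lit 0) (XT.lf (nat_lit 0) (nat_lit 183851568598) (nat_lit 304) (nat_lit 83073204912) (nat_lit 76) (nat_lit 60872138235) (nat_lit 69) (nat_lit 5) (nat_lit 73) (nat_lit 5) (nat_lit 70) (nat_lit 5) (nat_lit 505) (nat_lit 470) (nat_lit 225)) (XT.lf (nat_lit 0) (nat_lit 110554101854) (nat_lit 152) (nat_lit 152773189131) (nat_lit 228) (nat_lit 74759453298) (nat_lit 67)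 (nat_lit 5) (nat_lit 69) (nat_lit 5) (nat_lit 70) (nat_lit 5) (nat_lit 506) (nat_lit 470) (nat_lit 224)))) (XT.nd (nat_lit 156) (nat_lit 152) (nat_lit 0) (XT.nd (nat_lit 78) (nat_lit 228) (nat_lit 0) (XT.lf (nat_lit 0) (nat_lit 316746769615) (nat_lit 152) (nat_lit 31436839709) (nat_lit 228) (nat_lit 637118647) (nat_lit 67) (nat_lit 5) (nat_lit 69) (nat_lit 5) (nat_lit 70) (nat_lit 5) (nat_lit 507) (nat_lit 470) (nat_lit 223)) (XT.lf (nat_lit 0) (nat_lit 79057606243) (nat_lit 228) (nat_lit 183818116507) (nat_lit 76) (nat_lit 96938585545) (nat_lit 64) (nat_lit 5) (nat_lit 67) (nat_lit 5) (nat_lit 65) (nat_lit 5) (nat_lit 508) (nat_lit 470) (nat_lit 222))) (XT.nd (nat_lit 78) (nat_lit 0) (nat_lit 0) (XT.lf (nat_lit 0) (nat_lit 24502382295) (nat_lit 152) (nat_lit 139663203660) (nat_lit 228) (nat_lit 207118962969) (nat_lit 62) (nat_lit 5) (nat_lit 64) (nat_lit 5) (nat_lit 65) (nat_lit 5) (nat_lit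 509) (nat_lit 470) (nat_lit 221)) (XT.lf (nat_lit 0) (nat_lit 249620541588) (nat_lit 152) (nat_lit 7021401770) (nat_lit 228) (nat_lit 126530709303) (nat_lit 62) (nat_lit 5) (nat_lit 64) (nat_lit 5) (nat_lit 65) (nat_lit 5) (nat_lit 510) (nat_lit 470) (nat_lit 220))))) (XT.nd (nat_lit 234) (nat_lit 380) (nat_lit 0) (XT.nd (nat_lit 78) (nat_lit 228) (nat_lit 0) (XT.lf (nat_lit 0) (nat_lit 91193257375) (nat_lit 152) (nat_lit 266037408217) (nat_lit 228) (nat_lit 38250068657) (nat_lit 60) (nat_lit 5) (nat_lit 62) (nat_lit 5) (nat_lit 63) (nat_lit 5) (nat_lit 511) (nat_lit 470) (nat_lit 219)) (XT.nd (nat_lit 78) (nat_lit 152) (nat_lit 0) (XT.lf (nat_lit 0) (nat_lit 55115922476) (nat_lit 228) (nat_lit 77480937496) (nat_lit 76) (nat_lit 275644164024) (nat_lit 59) (nat_lit 5) (nat_lit 62) (nat_lit 5) (nat_lit 60) (nat_lit 5) (nat_lit 512) (nat_lit 470) (nat_lit 218)) (XT.lf (nat_lit 0) (nat_lit 154615902916)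 (nat_lit 228) (nat_lit 256318475140) (nat_lit 76) (nat_lit 10536040525) (nat_lit 57) (nat_lit 5) (nat_lit 60) (nat_lit 5) (nat_lit 58) (nat_lit 5) (nat_lit 513) (nat_lit 470) (nat_lit 217)))) (XT.nd (nat_lit 156) (nat_lit 228) (nat_lit 0) (XT.nd (nat_lit 78) (nat_lit 152) (nat_lit 0) (XT.lf (nat_lit 0) (nat_lit 262598226620) (nat_lit 228) (nat_lit 14884579990) (nat_lit 76) (nat_lit 157703109083) (nat_lit 57) (nat_lit 5) (nat_lit 60) (nat_lit 5) (nat_lit 58) (nat_lit 5) (nat_lit 514) (nat_lit 470) (nat_lit 216)) (XT.lf (nat_lit 0) (nat_lit 246510792426) (nat_lit 152) (nat_lit 133317538358) (nat_lit 228) (nat_lit 69566423673) (nat_lit 55) (nat_lit 5) (nat_lit 57) (nat_lit 5) (nat_lit 58) (nat_lit 5) (nat_lit 515) (nat_lit 470) (nat_lit 215))) (XT.nd (nat_lit 78) (nat_lit 0) (nat_lit 0) (XT.lf (nat_lit 0) (nat_lit 38850021579) (nat_lit 228) (nat_lit 406081193001) (nat_lit 76) (nat_lit 19278695936)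 (nat_lit 52) (nat_lit 5) (nat_lit 55) (nat_lit 5) (nat_lit 53) (nat_lit 5) (nat_lit 516) (nat_lit 470) (nat_lit 214)) (XT.lf (nat_lit 0) (nat_lit 156027140299) (nat_lit 228) (nat_lit 143740720125) (nat_lit 76) (nat_lit 179657055344) (nat_lit 52) (nat_lit 5) (nat_lit 55) (nat_lit 5) (nat_lit 53) (nat_lit 5) (nat_lit 517) (nat_lit 470) (nat_lit 213)))))) (XT.nd (nat_lit 546) (nat_lit 532) (nat_lit 0) (XT.nd (nat_lit 234) (nat_lit 304) (nat_lit 0) (XT.nd (nat_lit 78) (nat_lit 152) (nat_lit 0) (XT.lf (nat_lit 0) (nat_lit 136071826256) (nat_lit 152) (nat_lit 145115694940) (nat_lit 228) (nat_lit 214106929782) (nat_lit 50) (nat_lit 5) (nat_lit 52) (nat_lit 5) (nat_lit 53) (nat_lit 5) (nat_lit 518) (nat_lit 470) (nat_lit 212)) (XT.nd (nat_lit 78) (nat_lit 152) (nat_lit 0) (XT.lf (nat_lit 0) (nat_lit 415349709579) (nat_lit 228) (nat_lit 77280018303) (nat_lit 76) (nat_lit 19190545652) (nat_lit 50) (nat_lit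 5) (nat_lit 53) (nat_lit 5) (nat_lit 51) (nat_lit 4) (nat_lit 519) (nat_lit 470) (nat_lit 211)) (XT.lf (nat_lit 0) (nat_lit 32147042559) (nat_lit 152) (nat_lit 305862241863) (nat_lit 76) (nat_lit 190843732588) (nat_lit 48) (nat_lit 5) (nat_lit 50) (nat_lit 5) (nat_lit 49) (nat_lit 5) (nat_lit 520) (nat_lit 470) (nat_lit 210)))) (XT.nd (nat_lit 156) (nat_lit 152) (nat_lit 0) (XT.nd (nat_lit 78) (nat_lit 152) (nat_lit 0) (XT.lf (nat_lit 0) (nat_lit 165283662773) (nat_lit 152) (nat_lit 7316897324) (nat_lit 76) (nat_lit 373991254488) (nat_lit 48) (nat_lit 5) (nat_lit 50) (nat_lit 5) (nat_lit 49) (nat_lit 5) (nat_lit 521) (nat_lit 470) (nat_lit 209)) (XT.lf (nat_lit 0) (nat_lit 310112847634) (nat_lit 228) (nat_lit 248789932846) (nat_lit 76) (nat_lit 6062984886) (nat_lit 46) (nat_lit 5) (nat_lit 49) (nat_lit 5) (nat_lit 47) (nat_lit 4) (nat_lit 522) (nat_lit 470) (nat_lit 208))) (XT.nd (nat_lit 78)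 (nat_lit 76) (nat_lit 0) (XT.lf (nat_lit 0) (nat_lit 71295261592) (nat_lit 76) (nat_lit 394956762975) (nat_lit 152) (nat_lit 117802962482) (nat_lit 45) (nat_lit 5) (nat_lit 46) (nat_lit 5) (nat_lit 47) (nat_lit 4) (nat_lit 523) (nat_lit 470) (nat_lit 207)) (XT.lf (nat_lit 0) (nat_lit 29546543706) (nat_lit 152) (nat_lit 188342508975) (nat_lit 76) (nat_lit 385975122838) (nat_lit 44) (nat_lit 5) (nat_lit 46) (nat_lit 5) (nat_lit 45) (nat_lit 5) (nat_lit 524) (nat_lit 470) (nat_lit 206))))) (XT.nd (nat_lit 234) (nat_lit 304) (nat_lit 0) (XT.nd (nat_lit 78) (nat_lit 76) (nat_lit 0) (XT.lf (nat_lit 0) (nat_lit 155336008364) (nat_lit 152) (nat_lit 27393747816) (nat_lit 228) (nat_lit 441716248282) (nat_lit 42) (nat_lit 5) (nat_lit 44) (nat_lit 5) (nat_lit 45) (nat_lit 5) (nat_lit 525) (nat_lit 470) (nat_lit 205)) (XT.nd (nat_lit 78) (nat_lit 76) (nat_lit 0) (XT.lf (nat_lit 0) (nat_lit 349509224087)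 (nat_lit 228) (nat_lit 125907720016) (nat_lit 76) (nat_lit 170343126015) (nat_lit 42) (nat_lit 5) (nat_lit 45) (nat_lit 5) (nat_lit 43) (nat_lit 4) (nat_lit 526) (nat_lit 470) (nat_lit 204)) (XT.lf (nat_lit 0) (nat_lit 241742788545) (nat_lit 76) (nat_lit 287108192241) (nat_lit 152) (nat_lit 139077692505) (nat_lit 41) (nat_lit 5) (nat_lit 42) (nat_lit 5) (nat_lit 43) (nat_lit 4) (nat_lit 527) (nat_lit 470) (nat_lit 203)))) (XT.nd (nat_lit 156) (nat_lit 76) (nat_lit 0) (XT.nd (nat_lit 78) (nat_lit 152) (nat_lit 0) (XT.lf (nat_lit 0) (nat_lit 27290644142) (nat_lit 152) (nat_lit 59392291939) (nat_lit 76) (nat_lit 604394148751) (nat_lit 40) (nat_lit 5) (nat_lit 42) (nat_lit 5) (nat_lit 41) (nat_lit 5) (nat_lit 528) (nat_lit 470) (nat_lit 202)) (XT.lf (nat_lit 0) (nat_lit 204575743192) (nat_lit 228) (nat_lit 382907244913) (nat_lit 76) (nat_lit 127422317341) (nat_lit 38) (nat_lit 5) (nat_lit 41) (nat_lit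 5) (nat_lit 39) (nat_lit 4) (nat_lit 529) (nat_lit 470) (nat_lit 201))) (XT.nd (nat_lit 78) (nat_lit 0) (nat_lit 0) (XT.lf (nat_lit 0) (nat_lit 3830243581) (nat_lit 76) (nat_lit 389397970214) (nat_lit 152) (nat_lit 346571567469) (nat_lit 37) (nat_lit 5) (nat_lit 38) (nat_lit 5) (nat_lit 39) (nat_lit 4) (nat_lit 530) (nat_lit 470) (nat_lit 200)) (XT.lf (nat_lit 0) (nat_lit 423198203765) (nat_lit 76) (nat_lit 174599782125) (nat_lit 152) (nat_lit 167816761089) (nat_lit 37) (nat_lit 5) (nat_lit 38) (nat_lit 5) (nat_lit 39) (nat_lit 4) (nat_lit 531) (nat_lit 470) (nat_lit 199))))))) (XT.nd (nat_lit 58500) (nat_lit 0) (nat_lit 4104) (XT.nd (nat_lit 57954) (nat_lit 0) (nat_lit 6992) (XT.nd (nat_lit 234) (nat_lit 0) (nat_lit 0) (XT.nd (nat_lit 78) (nat_lit 76) (nat_lit 0) (XT.lf (nat_lit 0) (nat_lit 21195771135) (nat_lit 152) (nat_lit 720632227709) (nat_lit 76) (nat_lit 50779139563) (nat_lit 35) (nat_lit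 5) (nat_lit 37) (nat_lit 5) (nat_lit 36) (nat_lit 4) (nat_lit 532) (nat_lit 470) (nat_lit 198)) (XT.nd (nat_lit 78) (nat_lit 76) (nat_lit 0) (XT.lf (nat_lit 0) (nat_lit 222775493156) (nat_lit 152) (nat_lit 307393860291) (nat_lit 76) (nat_lit 290204425902) (nat_lit 35) (nat_lit 5) (nat_lit 37) (nat_lit 5) (nat_lit 36) (nat_lit 4) (nat_lit 533) (nat_lit 470) (nat_lit 197)) (XT.lf (nat_lit 0) (nat_lit 130689224957) (nat_lit 76) (nat_lit 305785363313) (nat_lit 152) (nat_lit 412952144719) (nat_lit 34) (nat_lit 5) (nat_lit 35) (nat_lit 5) (nat_lit 36) (nat_lit 4) (nat_lit 534) (nat_lit 470) (nat_lit 196)))) (XT.nd (nat_lit 57564) (nat_lit 0) (nat_lit 6916) (XT.nd (nat_lit 57486) (nat_lit 0) (nat_lit 6916) (XT.lf (nat_lit 0) (nat_lit 601348414433) (nat_lit 76) (nat_lit 64716050114) (nat_lit 152) (nat_lit 213607578448) (nat_lit 34) (nat_lit 5) (nat_lit 35) (nat_lit 5) (nat_lit 36) (nat_lit 4) (nat_lit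 535) (nat_lit 470) (nat_lit 195)) (XT.lf (nat_lit 0) (nat_lit 21688437161) (nat_lit 836) (nat_lit 21616372879) (nat_lit 836) (nat_lit 21616372879) (nat_lit 125) (nat_lit 3) (nat_lit 136) (nat_lit 3) (nat_lit 136) (nat_lit 5) (nat_lit 471) (nat_lit 471) (nat_lit 258))) (XT.nd (nat_lit 78) (nat_lit 0) (nat_lit 76) (XT.lf (nat_lit 76) (nat_lit 21048684025) (nat_lit 0) (nat_lit 23745038231) (nat_lit 836) (nat_lit 88278079948) (nat_lit 126) (nat_lit 5) (nat_lit 125) (nat_lit 3) (nat_lit 136) (nat_lit 5) (nat_lit 472) (nat_lit 471) (nat_lit 257)) (XT.lf (nat_lit 0) (nat_lit 47685179770) (nat_lit 760) (nat_lit 47052962470) (nat_lit 836) (nat_lit 41654379882) (nat_lit 126) (nat_lit 5) (nat_lit 136) (nat_lit 5) (nat_lit 137) (nat_lit 5) (nat_lit 473) (nat_lit 471) (nat_lit 256))))) (XT.nd (nat_lit 234) (nat_lit 0) (nat_lit 152) (XT.nd (nat_lit 78) (nat_lit 0) (nat_lit 76) (XT.lf (nat_lit 76) (nat_lit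 21463257335) (nat_lit 0) (nat_lit 29982085577) (nat_lit 836) (nat_lit 88397728577) (nat_lit 127) (nat_lit 5) (nat_lit 126) (nat_lit 5) (nat_lit 137) (nat_lit 5) (nat_lit 474) (nat_lit 471) (nat_lit 255)) (XT.nd (nat_lit 78) (nat_lit 0) (nat_lit 0) (XT.lf (nat_lit 0) (nat_lit 56796691051) (nat_lit 760) (nat_lit 48994127399) (nat_lit 836) (nat_lit 37605171117) (nat_lit 127) (nat_lit 5) (nat_lit 137) (nat_lit 5) (nat_lit 138) (nat_lit 5) (nat_lit 475) (nat_lit 471) (nat_lit 254)) (XT.lf (nat_lit 76) (nat_lit 24141882854) (nat_lit 0) (nat_lit 39141944818) (nat_lit 836) (nat_lit 83799314906) (nat_lit 128) (nat_lit 5) (nat_lit 127) (nat_lit 5) (nat_lit 138) (nat_lit 5) (nat_lit 476) (nat_lit 471) (nat_lit 253)))) (XT.nd (nat_lit 156) (nat_lit 0) (nat_lit 76) (XT.nd (nat_lit 78) (nat_lit 0) (nat_lit 0) (XT.lf (nat_lit 0) (nat_lit 71419949568) (nat_lit 760) (nat_lit 48772749686) (nat_lit 836) (nat_lit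 30695722642) (nat_lit 128) (nat_lit 5) (nat_lit 138) (nat_lit 5) (nat_lit 139) (nat_lit 5) (nat_lit 477) (nat_lit 471) (nat_lit 252)) (XT.lf (nat_lit 76) (nat_lit 29403465154) (nat_lit 0) (nat_lit 51659961622) (nat_lit 836) (nat_lit 73765511015) (nat_lit 129) (nat_lit 5) (nat_lit 128) (nat_lit 5) (nat_lit 139) (nat_lit 5) (nat_lit 478) (nat_lit 471) (nat_lit 251))) (XT.nd (nat_lit 78) (nat_lit 0) (nat_lit 0) (XT.lf (nat_lit 0) (nat_lit 92345354647) (nat_lit 760) (nat_lit 46074032744) (nat_lit 836) (nat_lit 20489278321) (nat_lit 129) (nat_lit 5) (nat_lit 139) (nat_lit 5) (nat_lit 140) (nat_lit 5) (nat_lit 479) (nat_lit 471) (nat_lit 250)) (XT.lf (nat_lit 76) (nat_lit 37601430660) (nat_lit 0) (nat_lit 68023720520) (nat_lit 836) (nat_lit 57495540304) (nat_lit 130) (nat_lit 5) (nat_lit 129) (nat_lit 5) (nat_lit 140) (nat_lit 5) (nat_lit 480) (nat_lit 471) (nat_lit 249)))))) (XT.nd (nat_lit 546)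 (nat_lit 1596) (nat_lit 0) (XT.nd (nat_lit 234) (nat_lit 836) (nat_lit 0) (XT.nd (nat_lit 78) (nat_lit 760) (nat_lit 0) (XT.lf (nat_lit 0) (nat_lit 120453832104) (nat_lit 760) (nat_lit 40548979750) (nat_lit 76) (nat_lit 6496262026) (nat_lit 130) (nat_lit 5) (nat_lit 140) (nat_lit 5) (nat_lit 131) (nat_lit 5) (nat_lit 481) (nat_lit 471) (nat_lit 248)) (XT.nd (nat_lit 78) (nat_lit 0) (nat_lit 0) (XT.lf (nat_lit 0) (nat_lit 49126895955) (nat_lit 760) (nat_lit 88779041212) (nat_lit 836) (nat_lit 34096338785) (nat_lit 120) (nat_lit 5) (nat_lit 130) (nat_lit 5) (nat_lit 131) (nat_lit 5) (nat_lit 482) (nat_lit 471) (nat_lit 247)) (XT.lf (nat_lit 0) (nat_lit 144694192844) (nat_lit 760) (nat_lit 12223015314) (nat_lit 836) (nat_lit 19779101993) (nat_lit 120) (nat_lit 5) (nat_lit 130) (nat_lit 5) (nat_lit 131) (nat_lit 5) (nat_lit 483) (nat_lit 471) (nat_lit 246)))) (XT.nd (nat_lit 156) (nat_lit 380)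 (nat_lit 0) (XT.nd (nat_lit 78) (nat_lit 76) (nat_lit 0) (XT.lf (nat_lit 0) (nat_lit 64412073263) (nat_lit 380) (nat_lit 114536655429) (nat_lit 456) (nat_lit 2572833124) (nat_lit 115) (nat_lit 5) (nat_lit 120) (nat_lit 5) (nat_lit 121) (nat_lit 5) (nat_lit 484) (nat_lit 471) (nat_lit 245)) (XT.lf (nat_lit 0) (nat_lit 15748940061) (nat_lit 456) (nat_lit 20254270944) (nat_lit 76) (nat_lit 150535215687) (nat_lit 114) (nat_lit 5) (nat_lit 120) (nat_lit 5) (nat_lit 115) (nat_lit 5) (nat_lit 485) (nat_lit 471) (nat_lit 244))) (XT.nd (nat_lit 78) (nat_lit 0) (nat_lit 0) (XT.lf (nat_lit 0) (nat_lit 36960661958) (nat_lit 456) (nat_lit 108393034594) (nat_lit 76) (nat_lit 46347313223) (nat_lit 109) (nat_lit 5) (nat_lit 115) (nat_lit 5) (nat_lit 110) (nat_lit 5) (nat_lit 486) (nat_lit 471) (nat_lit 243)) (XT.lf (nat_lit 0) (nat_lit 60171691210) (nat_lit 456) (nat_lit 4949037572) (nat_lit 76) (nat_lit 131954057210)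 (nat_lit 109) (nat_lit 5) (nat_lit 115) (nat_lit 5) (nat_lit 110) (nat_lit 5) (nat_lit 487) (nat_lit 471) (nat_lit 242))))) (XT.nd (nat_lit 312) (nat_lit 608) (nat_lit 0) (XT.nd (nat_lit 156) (nat_lit 304) (nat_lit 0) (XT.nd (nat_lit 78) (nat_lit 304) (nat_lit 0) (XT.lf (nat_lit 0) (nat_lit 86541180675) (nat_lit 456) (nat_lit 95864919689) (nat_lit 76) (nat_lit 20211255264) (nat_lit 104) (nat_lit 5) (nat_lit 110) (nat_lit 5) (nat_lit 105) (nat_lit 5) (nat_lit 488) (nat_lit 471) (nat_lit 241)) (XT.lf (nat_lit 0) (nat_lit 15195214496) (nat_lit 304) (nat_lit 100423787134) (nat_lit 380) (nat_lit 92748559305) (nat_lit 100) (nat_lit 5) (nat_lit 104) (nat_lit 5) (nat_lit 105) (nat_lit 5) (nat_lit 489) (nat_lit 471) (nat_lit 240))) (XT.nd (nat_lit 78) (nat_lit 304) (nat_lit 0) (XT.lf (nat_lit 0) (nat_lit 135136431355) (nat_lit 304) (nat_lit 12637680696) (nat_lit 380) (nat_lit 66549994576) (nat_lit 100)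 (nat_lit 5) (nat_lit 104) (nat_lit 5) (nat_lit 105) (nat_lit 5) (nat_lit 490) (nat_lit 471) (nat_lit 239)) (XT.lf (nat_lit 0) (nat_lit 40552209997) (nat_lit 304) (nat_lit 142859593620) (nat_lit 380) (nat_lit 37072934742) (nat_lit 96) (nat_lit 5) (nat_lit 100) (nat_lit 5) (nat_lit 101) (nat_lit 5) (nat_lit 491) (nat_lit 471) (nat_lit 238)))) (XT.nd (nat_lit 156) (nat_lit 304) (nat_lit 0) (XT.nd (nat_lit 78) (nat_lit 304) (nat_lit 0) (XT.lf (nat_lit 0) (nat_lit 168814147229) (nat_lit 304) (nat_lit 53562036157) (nat_lit 380) (nat_lit 4499978146) (nat_lit 96) (nat_lit 5) (nat_lit 100) (nat_lit 5) (nat_lit 101) (nat_lit 5) (nat_lit 492) (nat_lit 471) (nat_lit 237)) (XT.lf (nat_lit 0) (nat_lit 30524453964) (nat_lit 304) (nat_lit 162427471527) (nat_lit 76) (nat_lit 40523370863) (nat_lit 92) (nat_lit 5) (nat_lit 96) (nat_lit 5) (nat_lit 93) (nat_lit 5) (nat_lit 493) (nat_lit 471) (nat_lit 236))) (XT.nd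 (nat_lit 78) (nat_lit 304) (nat_lit 0) (XT.lf (nat_lit 0) (nat_lit 69026267931) (nat_lit 304) (nat_lit 32694374981) (nat_lit 76) (nat_lit 138586187078) (nat_lit 92) (nat_lit 5) (nat_lit 96) (nat_lit 5) (nat_lit 93) (nat_lit 5) (nat_lit 494) (nat_lit 471) (nat_lit 235)) (XT.lf (nat_lit 0) (nat_lit 106948260720) (nat_lit 304) (nat_lit 4174573703) (nat_lit 380) (nat_lit 136273622823) (nat_lit 88) (nat_lit 5) (nat_lit 92) (nat_lit 5) (nat_lit 93) (nat_lit 5) (nat_lit 495) (nat_lit 471) (nat_lit 234))))))))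
noncomputable def xc227 : XT := (XT.nd (nat_lit 2184) (nat_lit 912) (nat_lit 0) (XT.nd (nat_lit 1092) (nat_lit 1368) (nat_lit 0) (XT.nd (nat_lit 546) (nat_lit 836) (nat_lit 0) (XT.nd (nat_lit 234) (nat_lit 532) (nat_lit 0) (XT.nd (nat_lit 78) (nat_lit 456) (nat_lit 0) (XT.lf (nat_lit 0) (nat_lit 157420842483) (nat_lit 380) (nat_lit 1647924406) (nat_lit 76) (nat_lit 95666968341) (nat_lit 88) (nat_lit 5) (nat_lit 93) (nat_lit 5) (nat_lit 89) (nat_lit 5) (nat_lit 496) (nat_lit 471) (nat_lit 233)) (XT.nd (nat_lit 78) (nat_lit 228) (nat_lit 0) (XT.lf (nat_lit 0) (nat_lit 148785878888) (nat_lit 228) (nat_lit 59639179013) (nat_lit 304) (nat_lit 53897353891) (nat_lit 85) (nat_lit 5) (nat_lit 88) (nat_lit 5) (nat_lit 89) (nat_lit 5) (nat_lit 497) (nat_lit 471) (nat_lit 232)) (XT.lf (nat_lit 0) (nat_lit 36996225862) (nat_lit 228) (nat_lit 226288006254) (nat_lit 304) (nat_lit 6938952691) (nat_lit 82)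 (nat_lit 5) (nat_lit 85) (nat_lit 5) (nat_lit 86) (nat_lit 5) (nat_lit 498) (nat_lit 471) (nat_lit 231)))) (XT.nd (nat_lit 156) (nat_lit 228) (nat_lit 0) (XT.nd (nat_lit 78) (nat_lit 228) (nat_lit 0) (XT.lf (nat_lit 0) (nat_lit 43943266760) (nat_lit 304) (nat_lit 81096315260) (nat_lit 76) (nat_lit 153299744878) (nat_lit 81) (nat_lit 5) (nat_lit 85) (nat_lit 5) (nat_lit 82) (nat_lit 5) (nat_lit 499) (nat_lit 471) (nat_lit 230)) (XT.lf (nat_lit 0) (nat_lit 81123442995) (nat_lit 228) (nat_lit 17279438217) (nat_lit 304) (nat_lit 188389383321) (nat_lit 78) (nat_lit 5) (nat_lit 81) (nat_lit 5) (nat_lit 82) (nat_lit 5) (nat_lit 500) (nat_lit 471) (nat_lit 229))) (XT.nd (nat_lit 78) (nat_lit 228) (nat_lit 0) (XT.lf (nat_lit 0) (nat_lit 158478091572) (nat_lit 304) (nat_lit 42848925587) (nat_lit 76) (nat_lit 94196201152) (nat_lit 78) (nat_lit 5) (nat_lit 82) (nat_lit 5) (nat_lit 79) (nat_lit 5) (nat_lit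 501) (nat_lit 471) (nat_lit 228)) (XT.lf (nat_lit 0) (nat_lit 132055168841) (nat_lit 228) (nat_lit 91846834097) (nat_lit 304) (nat_lit 80671469837) (nat_lit 75) (nat_lit 5) (nat_lit 78) (nat_lit 5) (nat_lit 79) (nat_lit 5) (nat_lit 502) (nat_lit 471) (nat_lit 227))))) (XT.nd (nat_lit 234) (nat_lit 380) (nat_lit 0) (XT.nd (nat_lit 78) (nat_lit 304) (nat_lit 0) (XT.lf (nat_lit 0) (nat_lit 2871241784) (nat_lit 152) (nat_lit 290868951499) (nat_lit 228) (nat_lit 20278892525) (nat_lit 73) (nat_lit 5) (nat_lit 75) (nat_lit 5) (nat_lit 76) (nat_lit 5) (nat_lit 503) (nat_lit 471) (nat_lit 226)) (XT.nd (nat_lit 78) (nat_lit 228) (nat_lit 0) (XT.lf (nat_lit 0) (nat_lit 46227963255) (nat_lit 228) (nat_lit 132998317930) (nat_lit 76) (nat_lit 144453267481) (nat_lit 72) (nat_lit 5) (nat_lit 75) (nat_lit 5) (nat_lit 73) (nat_lit 5) (nat_lit 504) (nat_lit 471) (nat_lit 225)) (XT.lf (nat_lit 0) (nat_lit 55502558671)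 (nat_lit 228) (nat_lit 60742575442) (nat_lit 304) (nat_lit 217517954723) (nat_lit 69) (nat_lit 5) (nat_lit 72) (nat_lit 5) (nat_lit 73) (nat_lit 5) (nat_lit 505) (nat_lit 471) (nat_lit 224)))) (XT.nd (nat_lit 156) (nat_lit 228) (nat_lit 0) (XT.nd (nat_lit 78) (nat_lit 152) (nat_lit 0) (XT.lf (nat_lit 0) (nat_lit 193046399583) (nat_lit 304) (nat_lit 87223339171) (nat_lit 76) (nat_lit 63916905473) (nat_lit 69) (nat_lit 5) (nat_lit 73) (nat_lit 5) (nat_lit 70) (nat_lit 5) (nat_lit 506) (nat_lit 471) (nat_lit 223)) (XT.lf (nat_lit 0) (nat_lit 116085276063) (nat_lit 152) (nat_lit 160410578924) (nat_lit 228) (nat_lit 78495116082) (nat_lit 67) (nat_lit 5) (nat_lit 69) (nat_lit 5) (nat_lit 70) (nat_lit 5) (nat_lit 507) (nat_lit 471) (nat_lit 222))) (XT.nd (nat_lit 78) (nat_lit 228) (nat_lit 0) (XT.lf (nat_lit 0) (nat_lit 332587412016) (nat_lit 152) (nat_lit 33007472492) (nat_lit 228) (nat_lit 666774693)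 (nat_lit 67) (nat_lit 5) (nat_lit 69) (nat_lit 5) (nat_lit 70) (nat_lit 5) (nat_lit 508) (nat_lit 471) (nat_lit 221)) (XT.lf (nat_lit 0) (nat_lit 83012585834) (nat_lit 228) (nat_lit 193005616998) (nat_lit 76) (nat_lit 101786715522) (nat_lit 64) (nat_lit 5) (nat_lit 67) (nat_lit 5) (nat_lit 65) (nat_lit 5) (nat_lit 509) (nat_lit 471) (nat_lit 220)))))) (XT.nd (nat_lit 546) (nat_lit 684) (nat_lit 0) (XT.nd (nat_lit 234) (nat_lit 380) (nat_lit 0) (XT.nd (nat_lit 78) (nat_lit 152) (nat_lit 0) (XT.lf (nat_lit 0) (nat_lit 25730851819) (nat_lit 152) (nat_lit 146645065055) (nat_lit 228) (nat_lit 217472756540) (nat_lit 62) (nat_lit 5) (nat_lit 64) (nat_lit 5) (nat_lit 65) (nat_lit 5) (nat_lit 510) (nat_lit 471) (nat_lit 219)) (XT.nd (nat_lit 78) (nat_lit 152) (nat_lit 0) (XT.lf (nat_lit 0) (nat_lit 262104759534) (nat_lit 152) (nat_lit 7371234918) (nat_lit 228) (nat_lit 132855192789) (nat_lit 62) (nat_lit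 5) (nat_lit 64) (nat_lit 5) (nat_lit 65) (nat_lit 5) (nat_lit 511) (nat_lit 471) (nat_lit 218)) (XT.lf (nat_lit 0) (nat_lit 95756137117) (nat_lit 152) (nat_lit 279337991254) (nat_lit 228) (nat_lit 40160545776) (nat_lit 60) (nat_lit 5) (nat_lit 62) (nat_lit 5) (nat_lit 63) (nat_lit 5) (nat_lit 512) (nat_lit 471) (nat_lit 217)))) (XT.nd (nat_lit 156) (nat_lit 152) (nat_lit 0) (XT.nd (nat_lit 78) (nat_lit 152) (nat_lit 0) (XT.lf (nat_lit 0) (nat_lit 57873586656) (nat_lit 228) (nat_lit 81351858608) (nat_lit 76) (nat_lit 289427536221) (nat_lit 59) (nat_lit 5) (nat_lit 62) (nat_lit 5) (nat_lit 60) (nat_lit 5) (nat_lit 513) (nat_lit 471) (nat_lit 216)) (XT.lf (nat_lit 0) (nat_lit 162348544665) (nat_lit 228) (nat_lit 269131251389) (nat_lit 76) (nat_lit 11064050831) (nat_lit 57) (nat_lit 5) (nat_lit 60) (nat_lit 5) (nat_lit 58) (nat_lit 5) (nat_lit 514) (nat_lit 471) (nat_lit 215))) (XT.nd (nat_lit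 78) (nat_lit 152) (nat_lit 0) (XT.lf (nat_lit 0) (nat_lit 275729896621) (nat_lit 228) (nat_lit 15625811363) (nat_lit 76) (nat_lit 165589415280) (nat_lit 57) (nat_lit 5) (nat_lit 60) (nat_lit 5) (nat_lit 58) (nat_lit 5) (nat_lit 515) (nat_lit 471) (nat_lit 214)) (XT.lf (nat_lit 0) (nat_lit 258839281325) (nat_lit 152) (nat_lit 139982186969) (nat_lit 228) (nat_lit 73042937571) (nat_lit 55) (nat_lit 5) (nat_lit 57) (nat_lit 5) (nat_lit 58) (nat_lit 5) (nat_lit 516) (nat_lit 471) (nat_lit 213))))) (XT.nd (nat_lit 234) (nat_lit 304) (nat_lit 0) (XT.nd (nat_lit 78) (nat_lit 152) (nat_lit 0) (XT.lf (nat_lit 0) (nat_lit 40794254451) (nat_lit 228) (nat_lit 426382227385) (nat_lit 76) (nat_lit 20243837375) (nat_lit 52) (nat_lit 5) (nat_lit 55) (nat_lit 5) (nat_lit 53) (nat_lit 5) (nat_lit 517) (nat_lit 471) (nat_lit 212)) (XT.nd (nat_lit 78) (nat_lit 152) (nat_lit 0) (XT.lf (nat_lit 0) (nat_lit 163830146640)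 (nat_lit 228) (nat_lit 150924874926) (nat_lit 76) (nat_lit 188641057294) (nat_lit 52) (nat_lit 5) (nat_lit 55) (nat_lit 5) (nat_lit 53) (nat_lit 5) (nat_lit 518) (nat_lit 471) (nat_lit 211)) (XT.lf (nat_lit 0) (nat_lit 142878252303) (nat_lit 152) (nat_lit 152370259997) (nat_lit 228) (nat_lit 224810580255) (nat_lit 50) (nat_lit 5) (nat_lit 52) (nat_lit 5) (nat_lit 53) (nat_lit 5) (nat_lit 519) (nat_lit 471) (nat_lit 210)))) (XT.nd (nat_lit 156) (nat_lit 152) (nat_lit 0) (XT.nd (nat_lit 78) (nat_lit 152) (nat_lit 0) (XT.lf (nat_lit 0) (nat_lit 436118751332) (nat_lit 228) (nat_lit 81141260492) (nat_lit 76) (nat_lit 20151197365) (nat_lit 50) (nat_lit 5) (nat_lit 53) (nat_lit 5) (nat_lit 51) (nat_lit 4) (nat_lit 520) (nat_lit 471) (nat_lit 209)) (XT.lf (nat_lit 0) (nat_lit 33755944414) (nat_lit 152) (nat_lit 321152588294) (nat_lit 76) (nat_lit 200387057475) (nat_lit 48) (nat_lit 5) (nat_lit 50)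 (nat_lit 5) (nat_lit 49) (nat_lit 5) (nat_lit 521) (nat_lit 471) (nat_lit 208))) (XT.nd (nat_lit 78) (nat_lit 152) (nat_lit 0) (XT.lf (nat_lit 0) (nat_lit 173549321843) (nat_lit 152) (nat_lit 7680108227) (nat_lit 76) (nat_lit 392691901268) (nat_lit 48) (nat_lit 5) (nat_lit 50) (nat_lit 5) (nat_lit 49) (nat_lit 5) (nat_lit 522) (nat_lit 471) (nat_lit 207)) (XT.lf (nat_lit 0) (nat_lit 325619954007) (nat_lit 228) (nat_lit 261226783413) (nat_lit 76) (nat_lit 6367242843) (nat_lit 46) (nat_lit 5) (nat_lit 49) (nat_lit 5) (nat_lit 47) (nat_lit 4) (nat_lit 523) (nat_lit 471) (nat_lit 206))))))) (XT.nd (nat_lit 58578) (nat_lit 0) (nat_lit 5700) (XT.nd (nat_lit 546) (nat_lit 304) (nat_lit 0) (XT.nd (nat_lit 234) (nat_lit 304) (nat_lit 0) (XT.nd (nat_lit 78) (nat_lit 228) (nat_lit 0) (XT.lf (nat_lit 0) (nat_lit 74862628068) (nat_lit 76) (nat_lit 414703432651) (nat_lit 152) (nat_lit 123691603773) (nat_lit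 45) (nat_lit 5) (nat_lit 46) (nat_lit 5) (nat_lit 47) (nat_lit 4) (nat_lit 524) (nat_lit 471) (nat_lit 205)) (XT.nd (nat_lit 78) (nat_lit 152) (nat_lit 0) (XT.lf (nat_lit 0) (nat_lit 31025260039) (nat_lit 152) (nat_lit 197757108919) (nat_lit 76) (nat_lit 405274945731) (nat_lit 44) (nat_lit 5) (nat_lit 46) (nat_lit 5) (nat_lit 45) (nat_lit 5) (nat_lit 525) (nat_lit 471) (nat_lit 204)) (XT.lf (nat_lit 0) (nat_lit 163105293553) (nat_lit 152) (nat_lit 28762312229) (nat_lit 228) (nat_lit 463800630673) (nat_lit 42) (nat_lit 5) (nat_lit 44) (nat_lit 5) (nat_lit 45) (nat_lit 5) (nat_lit 526) (nat_lit 471) (nat_lit 203)))) (XT.nd (nat_lit 156) (nat_lit 228) (nat_lit 0) (XT.nd (nat_lit 78) (nat_lit 76) (nat_lit 0) (XT.lf (nat_lit 0) (nat_lit 366985998934) (nat_lit 228) (nat_lit 132200691285) (nat_lit 76) (nat_lit 178861317588) (nat_lit 42) (nat_lit 5) (nat_lit 45) (nat_lit 5) (nat_lit 43) (nat_lit 4)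 (nat_lit 527) (nat_lit 471) (nat_lit 202)) (XT.lf (nat_lit 0) (nat_lit 253832303757) (nat_lit 76) (nat_lit 301462514249) (nat_lit 152) (nat_lit 146030224412) (nat_lit 41) (nat_lit 5) (nat_lit 42) (nat_lit 5) (nat_lit 43) (nat_lit 4) (nat_lit 528) (nat_lit 471) (nat_lit 201))) (XT.nd (nat_lit 78) (nat_lit 152) (nat_lit 0) (XT.lf (nat_lit 0) (nat_lit 28656423419) (nat_lit 152) (nat_lit 62359602534) (nat_lit 76) (nat_lit 634614850652) (nat_lit 40) (nat_lit 5) (nat_lit 42) (nat_lit 5) (nat_lit 41) (nat_lit 5) (nat_lit 529) (nat_lit 471) (nat_lit 200)) (XT.lf (nat_lit 0) (nat_lit 214805769725) (nat_lit 228) (nat_lit 402050295349) (nat_lit 76) (nat_lit 133794443565) (nat_lit 38) (nat_lit 5) (nat_lit 41) (nat_lit 5) (nat_lit 39) (nat_lit 4) (nat_lit 530) (nat_lit 471) (nat_lit 199))))) (XT.nd (nat_lit 234) (nat_lit 76) (nat_lit 0) (XT.nd (nat_lit 78) (nat_lit 152) (nat_lit 0) (XT.lf (nat_lit 0) (nat_lit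 4024030282) (nat_lit 76) (nat_lit 408866810069) (nat_lit 152) (nat_lit 363898869077) (nat_lit 37) (nat_lit 5) (nat_lit 38) (nat_lit 5) (nat_lit 39) (nat_lit 4) (nat_lit 531) (nat_lit 471) (nat_lit 198)) (XT.nd (nat_lit 78) (nat_lit 152) (nat_lit 0) (XT.lf (nat_lit 0) (nat_lit 444360280164) (nat_lit 76) (nat_lit 183328762989) (nat_lit 152) (nat_lit 176206383177) (nat_lit 37) (nat_lit 5) (nat_lit 38) (nat_lit 5) (nat_lit 39) (nat_lit 4) (nat_lit 532) (nat_lit 471) (nat_lit 197)) (XT.lf (nat_lit 0) (nat_lit 22256730408) (nat_lit 152) (nat_lit 756661627446) (nat_lit 76) (nat_lit 53319078846) (nat_lit 35) (nat_lit 5) (nat_lit 37) (nat_lit 5) (nat_lit 36) (nat_lit 4) (nat_lit 533) (nat_lit 471) (nat_lit 196)))) (XT.nd (nat_lit 57642) (nat_lit 0) (nat_lit 6916) (XT.nd (nat_lit 78) (nat_lit 76) (nat_lit 0) (XT.lf (nat_lit 0) (nat_lit 233915382782) (nat_lit 152) (nat_lit 322761446973) (nat_lit 76) (nat_lit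 304715582725) (nat_lit 35) (nat_lit 5) (nat_lit 37) (nat_lit 5) (nat_lit 36) (nat_lit 4) (nat_lit 534) (nat_lit 471) (nat_lit 195)) (XT.lf (nat_lit 0) (nat_lit 137225758564) (nat_lit 76) (nat_lit 321073653350) (nat_lit 152) (nat_lit 433598602931) (nat_lit 34) (nat_lit 5) (nat_lit 35) (nat_lit 5) (nat_lit 36) (nat_lit 4) (nat_lit 535) (nat_lit 471) (nat_lit 194))) (XT.nd (nat_lit 78) (nat_lit 0) (nat_lit 0) (XT.lf (nat_lit 0) (nat_lit 22776596865) (nat_lit 836) (nat_lit 22695228427) (nat_lit 836) (nat_lit 22695228427) (nat_lit 125) (nat_lit 3) (nat_lit 136) (nat_lit 3) (nat_lit 136) (nat_lit 5) (nat_lit 472) (nat_lit 472) (nat_lit 256)) (XT.lf (nat_lit 76) (nat_lit 22104981092) (nat_lit 0) (nat_lit 24935607292) (nat_lit 836) (nat_lit 92684442158) (nat_lit 126) (nat_lit 5) (nat_lit 125) (nat_lit 3) (nat_lit 136) (nat_lit 5) (nat_lit 473) (nat_lit 472) (nat_lit 255)))))) (XT.nd (nat_lit 546) (nat_lit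 1292) (nat_lit 0) (XT.nd (nat_lit 234) (nat_lit 0) (nat_lit 76) (XT.nd (nat_lit 78) (nat_lit 0) (nat_lit 0) (XT.lf (nat_lit 0) (nat_lit 50076227545) (nat_lit 760) (nat_lit 49401537805) (nat_lit 836) (nat_lit 43734040800) (nat_lit 126) (nat_lit 5) (nat_lit 136) (nat_lit 5) (nat_lit 137) (nat_lit 5) (nat_lit 474) (nat_lit 472) (nat_lit 254)) (XT.nd (nat_lit 78) (nat_lit 0) (nat_lit 76) (XT.lf (nat_lit 76) (nat_lit 22540427300) (nat_lit 0) (nat_lit 31483710831) (nat_lit 836) (nat_lit 92810758016) (nat_lit 127) (nat_lit 5) (nat_lit 126) (nat_lit 5) (nat_lit 137) (nat_lit 5) (nat_lit 475) (nat_lit 472) (nat_lit 253)) (XT.lf (nat_lit 0) (nat_lit 59642705331) (nat_lit 760) (nat_lit 51439666746) (nat_lit 836) (nat_lit 39483105589) (nat_lit 127) (nat_lit 5) (nat_lit 137) (nat_lit 5) (nat_lit 138) (nat_lit 5) (nat_lit 476) (nat_lit 472) (nat_lit 252)))) (XT.nd (nat_lit 156) (nat_lit 0) (nat_lit 76) (XT.nd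 (nat_lit 78) (nat_lit 0) (nat_lit 76) (XT.lf (nat_lit 76) (nat_lit 25353076809) (nat_lit 0) (nat_lit 41100891711) (nat_lit 836) (nat_lit 87983031435) (nat_lit 128) (nat_lit 5) (nat_lit 127) (nat_lit 5) (nat_lit 138) (nat_lit 5) (nat_lit 477) (nat_lit 472) (nat_lit 251)) (XT.lf (nat_lit 0) (nat_lit 74996585699) (nat_lit 760) (nat_lit 51207169606) (nat_lit 836) (nat_lit 32228803582) (nat_lit 128) (nat_lit 5) (nat_lit 138) (nat_lit 5) (nat_lit 139) (nat_lit 5) (nat_lit 478) (nat_lit 472) (nat_lit 250))) (XT.nd (nat_lit 78) (nat_lit 0) (nat_lit 76) (XT.lf (nat_lit 76) (nat_lit 30877787952) (nat_lit 0) (nat_lit 54244245096) (nat_lit 836) (nat_lit 77448077820) (nat_lit 129) (nat_lit 5) (nat_lit 128) (nat_lit 5) (nat_lit 139) (nat_lit 5) (nat_lit 479) (nat_lit 472) (nat_lit 249)) (XT.lf (nat_lit 0) (nat_lit 96967779393) (nat_lit 760) (nat_lit 48373502551) (nat_lit 836) (nat_lit 21512557235) (nat_lit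 129) (nat_lit 5) (nat_lit 139) (nat_lit 5) (nat_lit 140) (nat_lit 5) (nat_lit 480) (nat_lit 472) (nat_lit 248))))) (XT.nd (nat_lit 312) (nat_lit 836) (nat_lit 0) (XT.nd (nat_lit 156) (nat_lit 684) (nat_lit 0) (XT.nd (nat_lit 78) (nat_lit 0) (nat_lit 76) (XT.lf (nat_lit 76) (nat_lit 39485665768) (nat_lit 0) (nat_lit 71425719417) (nat_lit 836) (nat_lit 60365090176) (nat_lit 130) (nat_lit 5) (nat_lit 129) (nat_lit 5) (nat_lit 140) (nat_lit 5) (nat_lit 481) (nat_lit 472) (nat_lit 247)) (XT.lf (nat_lit 0) (nat_lit 126481251095) (nat_lit 760) (nat_lit 42572212582) (nat_lit 76) (nat_lit 6820325742) (nat_lit 130) (nat_lit 5) (nat_lit 140) (nat_lit 5) (nat_lit 131) (nat_lit 5) (nat_lit 482) (nat_lit 472) (nat_lit 246))) (XT.nd (nat_lit 78) (nat_lit 0) (nat_lit 0) (XT.lf (nat_lit 0) (nat_lit 51587388906) (nat_lit 760) (nat_lit 93218412155) (nat_lit 836) (nat_lit 35796358636) (nat_lit 120) (nat_lit 5)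 (nat_lit 130) (nat_lit 5) (nat_lit 131) (nat_lit 5) (nat_lit 483) (nat_lit 472) (nat_lit 245)) (XT.lf (nat_lit 0) (nat_lit 151932853109) (nat_lit 760) (nat_lit 12834565016) (nat_lit 836) (nat_lit 20763488437) (nat_lit 120) (nat_lit 5) (nat_lit 130) (nat_lit 5) (nat_lit 131) (nat_lit 5) (nat_lit 484) (nat_lit 472) (nat_lit 244)))) (XT.nd (nat_lit 156) (nat_lit 380) (nat_lit 0) (XT.nd (nat_lit 78) (nat_lit 76) (nat_lit 0) (XT.lf (nat_lit 0) (nat_lit 67636785520) (nat_lit 380) (nat_lit 120263580258) (nat_lit 456) (nat_lit 2697062554) (nat_lit 115) (nat_lit 5) (nat_lit 120) (nat_lit 5) (nat_lit 121) (nat_lit 5) (nat_lit 485) (nat_lit 472) (nat_lit 243)) (XT.lf (nat_lit 0) (nat_lit 16540454690) (nat_lit 456) (nat_lit 21262935652) (nat_lit 76) (nat_lit 158061752905) (nat_lit 114) (nat_lit 5) (nat_lit 120) (nat_lit 5) (nat_lit 115) (nat_lit 5) (nat_lit 486) (nat_lit 472) (nat_lit 242))) (XT.nd (nat_lit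 78) (nat_lit 0) (nat_lit 0) (XT.lf (nat_lit 0) (nat_lit 38812631919) (nat_lit 456) (nat_lit 113808505389) (nat_lit 76) (nat_lit 48664724779) (nat_lit 109) (nat_lit 5) (nat_lit 115) (nat_lit 5) (nat_lit 110) (nat_lit 5) (nat_lit 487) (nat_lit 472) (nat_lit 241)) (XT.lf (nat_lit 0) (nat_lit 63184025165) (nat_lit 456) (nat_lit 5192507609) (nat_lit 76) (nat_lit 138551803780) (nat_lit 109) (nat_lit 5) (nat_lit 115) (nat_lit 5) (nat_lit 110) (nat_lit 5) (nat_lit 488) (nat_lit 472) (nat_lit 240))))))))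
noncomputable def xc228 : XT := (XT.nd (nat_lit 2184) (nat_lit 1672) (nat_lit 0) (XT.nd (nat_lit 1092) (nat_lit 1596) (nat_lit 0) (XT.nd (nat_lit 546) (nat_lit 1064) (nat_lit 0) (XT.nd (nat_lit 234) (nat_lit 608) (nat_lit 0) (XT.nd (nat_lit 78) (nat_lit 304) (nat_lit 0) (XT.lf (nat_lit 0) (nat_lit 90871876184) (nat_lit 456) (nat_lit 100654069704) (nat_lit 76) (nat_lit 21222094488) (nat_lit 104) (nat_lit 5) (nat_lit 110) (nat_lit 5) (nat_lit 105) (nat_lit 5) (nat_lit 489) (nat_lit 472) (nat_lit 239)) (XT.nd (nat_lit 78) (nat_lit 0) (nat_lit 0) (XT.lf (nat_lit 0) (nat_lit 15959005126) (nat_lit 304) (nat_lit 105444472814) (nat_lit 380) (nat_lit 97382283580) (nat_lit 100) (nat_lit 5) (nat_lit 104) (nat_lit 5) (nat_lit 105) (nat_lit 5) (nat_lit 490) (nat_lit 472) (nat_lit 238)) (XT.lf (nat_lit 0) (nat_lit 141897090928) (nat_lit 304) (nat_lit 13269085038) (nat_lit 380) (nat_lit 69873966980) (nat_lit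 100) (nat_lit 5) (nat_lit 104) (nat_lit 5) (nat_lit 105) (nat_lit 5) (nat_lit 491) (nat_lit 472) (nat_lit 237)))) (XT.nd (nat_lit 156) (nat_lit 304) (nat_lit 0) (XT.nd (nat_lit 78) (nat_lit 0) (nat_lit 0) (XT.lf (nat_lit 0) (nat_lit 42583755516) (nat_lit 304) (nat_lit 150001905244) (nat_lit 380) (nat_lit 38923150124) (nat_lit 96) (nat_lit 5) (nat_lit 100) (nat_lit 5) (nat_lit 101) (nat_lit 5) (nat_lit 492) (nat_lit 472) (nat_lit 236)) (XT.lf (nat_lit 0) (nat_lit 177258602227) (nat_lit 304) (nat_lit 56239501721) (nat_lit 380) (nat_lit 4721709097) (nat_lit 96) (nat_lit 5) (nat_lit 100) (nat_lit 5) (nat_lit 101) (nat_lit 5) (nat_lit 493) (nat_lit 472) (nat_lit 235))) (XT.nd (nat_lit 78) (nat_lit 0) (nat_lit 0) (XT.lf (nat_lit 0) (nat_lit 32053759803) (nat_lit 304) (nat_lit 170544910802) (nat_lit 76) (nat_lit 42550235507) (nat_lit 92) (nat_lit 5) (nat_lit 96) (nat_lit 5) (nat_lit 93) (nat_lit 5)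 (nat_lit 494) (nat_lit 472) (nat_lit 234)) (XT.lf (nat_lit 0) (nat_lit 72480517653) (nat_lit 304) (nat_lit 34325346776) (nat_lit 76) (nat_lit 145516159385) (nat_lit 92) (nat_lit 5) (nat_lit 96) (nat_lit 5) (nat_lit 93) (nat_lit 5) (nat_lit 495) (nat_lit 472) (nat_lit 233))))) (XT.nd (nat_lit 234) (nat_lit 532) (nat_lit 0) (XT.nd (nat_lit 78) (nat_lit 228) (nat_lit 0) (XT.lf (nat_lit 0) (nat_lit 112299360275) (nat_lit 304) (nat_lit 4382469926) (nat_lit 380) (nat_lit 143084306386) (nat_lit 88) (nat_lit 5) (nat_lit 92) (nat_lit 5) (nat_lit 93) (nat_lit 5) (nat_lit 496) (nat_lit 472) (nat_lit 232)) (XT.nd (nat_lit 78) (nat_lit 228) (nat_lit 0) (XT.lf (nat_lit 0) (nat_lit 165294615135) (nat_lit 380) (nat_lit 1726685347) (nat_lit 76) (nat_lit 100451084204) (nat_lit 88) (nat_lit 5) (nat_lit 93) (nat_lit 5) (nat_lit 89) (nat_lit 5) (nat_lit 497) (nat_lit 472) (nat_lit 231)) (XT.lf (nat_lit 0) (nat_lit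 156228749478) (nat_lit 228) (nat_lit 62620217663) (nat_lit 304) (nat_lit 56589431682) (nat_lit 85) (nat_lit 5) (nat_lit 88) (nat_lit 5) (nat_lit 89) (nat_lit 5) (nat_lit 498) (nat_lit 472) (nat_lit 230)))) (XT.nd (nat_lit 156) (nat_lit 228) (nat_lit 0) (XT.nd (nat_lit 78) (nat_lit 76) (nat_lit 0) (XT.lf (nat_lit 0) (nat_lit 38849673381) (nat_lit 228) (nat_lit 237601370648) (nat_lit 304) (nat_lit 7283169296) (nat_lit 82) (nat_lit 5) (nat_lit 85) (nat_lit 5) (nat_lit 86) (nat_lit 5) (nat_lit 499) (nat_lit 472) (nat_lit 229)) (XT.lf (nat_lit 0) (nat_lit 46142947831) (nat_lit 304) (nat_lit 85147584063) (nat_lit 76) (nat_lit 160965634822) (nat_lit 81) (nat_lit 5) (nat_lit 85) (nat_lit 5) (nat_lit 82) (nat_lit 5) (nat_lit 500) (nat_lit 472) (nat_lit 228))) (XT.nd (nat_lit 78) (nat_lit 0) (nat_lit 0) (XT.lf (nat_lit 0) (nat_lit 85183104896) (nat_lit 228) (nat_lit 18142372702) (nat_lit 304) (nat_lit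 197806276935) (nat_lit 78) (nat_lit 5) (nat_lit 81) (nat_lit 5) (nat_lit 82) (nat_lit 5) (nat_lit 501) (nat_lit 472) (nat_lit 227)) (XT.lf (nat_lit 0) (nat_lit 166404347125) (nat_lit 304) (nat_lit 44987946361) (nat_lit 76) (nat_lit 98906967612) (nat_lit 78) (nat_lit 5) (nat_lit 82) (nat_lit 5) (nat_lit 79) (nat_lit 5) (nat_lit 502) (nat_lit 472) (nat_lit 226)))))) (XT.nd (nat_lit 546) (nat_lit 760) (nat_lit 0) (XT.nd (nat_lit 234) (nat_lit 380) (nat_lit 0) (XT.nd (nat_lit 78) (nat_lit 228) (nat_lit 0) (XT.lf (nat_lit 0) (nat_lit 138661297538) (nat_lit 228) (nat_lit 96438097188) (nat_lit 304) (nat_lit 84702636551) (nat_lit 75) (nat_lit 5) (nat_lit 78) (nat_lit 5) (nat_lit 79) (nat_lit 5) (nat_lit 503) (nat_lit 472) (nat_lit 225)) (XT.nd (nat_lit 78) (nat_lit 76) (nat_lit 0) (XT.lf (nat_lit 0) (nat_lit 3018216480) (nat_lit 152) (nat_lit 305411238302) (nat_lit 228) (nat_lit 21290472198) (nat_lit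 73) (nat_lit 5) (nat_lit 75) (nat_lit 5) (nat_lit 76) (nat_lit 5) (nat_lit 504) (nat_lit 472) (nat_lit 224)) (XT.lf (nat_lit 0) (nat_lit 48541541666) (nat_lit 228) (nat_lit 139644911158) (nat_lit 76) (nat_lit 151676963785) (nat_lit 72) (nat_lit 5) (nat_lit 75) (nat_lit 5) (nat_lit 73) (nat_lit 5) (nat_lit 505) (nat_lit 472) (nat_lit 223)))) (XT.nd (nat_lit 156) (nat_lit 152) (nat_lit 0) (XT.nd (nat_lit 78) (nat_lit 0) (nat_lit 0) (XT.lf (nat_lit 0) (nat_lit 58280955682) (nat_lit 228) (nat_lit 63778562603) (nat_lit 304) (nat_lit 228391618164) (nat_lit 69) (nat_lit 5) (nat_lit 72) (nat_lit 5) (nat_lit 73) (nat_lit 5) (nat_lit 506) (nat_lit 472) (nat_lit 222)) (XT.lf (nat_lit 0) (nat_lit 202700762695) (nat_lit 304) (nat_lit 91581307956) (nat_lit 76) (nat_lit 67113803197) (nat_lit 69) (nat_lit 5) (nat_lit 73) (nat_lit 5) (nat_lit 70) (nat_lit 5) (nat_lit 507) (nat_lit 472) (nat_lit 221))) (XT.nd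 (nat_lit 78) (nat_lit 0) (nat_lit 0) (XT.lf (nat_lit 0) (nat_lit 121892686456) (nat_lit 152) (nat_lit 168429956248) (nat_lit 228) (nat_lit 82417776757) (nat_lit 67) (nat_lit 5) (nat_lit 69) (nat_lit 5) (nat_lit 70) (nat_lit 5) (nat_lit 508) (nat_lit 472) (nat_lit 220)) (XT.lf (nat_lit 0) (nat_lit 349219779370) (nat_lit 152) (nat_lit 34656749334) (nat_lit 228) (nat_lit 698118065) (nat_lit 67) (nat_lit 5) (nat_lit 69) (nat_lit 5) (nat_lit 70) (nat_lit 5) (nat_lit 509) (nat_lit 472) (nat_lit 219))))) (XT.nd (nat_lit 234) (nat_lit 380) (nat_lit 0) (XT.nd (nat_lit 78) (nat_lit 152) (nat_lit 0) (XT.lf (nat_lit 0) (nat_lit 87165119233) (nat_lit 228) (nat_lit 202652809108) (nat_lit 76) (nat_lit 106877140367) (nat_lit 64) (nat_lit 5) (nat_lit 67) (nat_lit 5) (nat_lit 65) (nat_lit 5) (nat_lit 510) (nat_lit 472) (nat_lit 218)) (XT.nd (nat_lit 78) (nat_lit 0) (nat_lit 0) (XT.lf (nat_lit 0) (nat_lit 27020433331)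 (nat_lit 152) (nat_lit 153976140269) (nat_lit 228) (nat_lit 228344440101) (nat_lit 62) (nat_lit 5) (nat_lit 64) (nat_lit 5) (nat_lit 65) (nat_lit 5) (nat_lit 511) (nat_lit 472) (nat_lit 217)) (XT.lf (nat_lit 0) (nat_lit 275212891721) (nat_lit 152) (nat_lit 7738674721) (nat_lit 228) (nat_lit 139496091223) (nat_lit 62) (nat_lit 5) (nat_lit 64) (nat_lit 5) (nat_lit 65) (nat_lit 5) (nat_lit 512) (nat_lit 472) (nat_lit 216)))) (XT.nd (nat_lit 156) (nat_lit 152) (nat_lit 0) (XT.nd (nat_lit 78) (nat_lit 76) (nat_lit 0) (XT.lf (nat_lit 0) (nat_lit 100546861770) (nat_lit 152) (nat_lit 293303723130) (nat_lit 228) (nat_lit 42166735139) (nat_lit 60) (nat_lit 5) (nat_lit 62) (nat_lit 5) (nat_lit 63) (nat_lit 5) (nat_lit 513) (nat_lit 472) (nat_lit 215)) (XT.lf (nat_lit 0) (nat_lit 60768960370) (nat_lit 228) (nat_lit 85416616380) (nat_lit 76) (nat_lit 303899968810) (nat_lit 59) (nat_lit 5) (nat_lit 62) (nat_lit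 5) (nat_lit 60) (nat_lit 5) (nat_lit 514) (nat_lit 472) (nat_lit 214))) (XT.nd (nat_lit 78) (nat_lit 0) (nat_lit 0) (XT.lf (nat_lit 0) (nat_lit 170467646823) (nat_lit 228) (nat_lit 282584959076) (nat_lit 76) (nat_lit 11618349319) (nat_lit 57) (nat_lit 5) (nat_lit 60) (nat_lit 5) (nat_lit 58) (nat_lit 5) (nat_lit 515) (nat_lit 472) (nat_lit 213)) (XT.lf (nat_lit 0) (nat_lit 289517986618) (nat_lit 228) (nat_lit 16404382996) (nat_lit 76) (nat_lit 173869929802) (nat_lit 57) (nat_lit 5) (nat_lit 60) (nat_lit 5) (nat_lit 58) (nat_lit 5) (nat_lit 516) (nat_lit 472) (nat_lit 212))))))) (XT.nd (nat_lit 1092) (nat_lit 380) (nat_lit 0) (XT.nd (nat_lit 546) (nat_lit 608) (nat_lit 0) (XT.nd (nat_lit 234) (nat_lit 304) (nat_lit 0) (XT.nd (nat_lit 78) (nat_lit 228) (nat_lit 0) (XT.lf (nat_lit 0) (nat_lit 271783920473) (nat_lit 152) (nat_lit 146980182206) (nat_lit 228) (nat_lit 76693445188) (nat_lit 55) (nat_lit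 5) (nat_lit 57) (nat_lit 5) (nat_lit 58) (nat_lit 5) (nat_lit 517) (nat_lit 472) (nat_lit 211)) (XT.nd (nat_lit 78) (nat_lit 0) (nat_lit 0) (XT.lf (nat_lit 0) (nat_lit 42835537960) (nat_lit 228) (nat_lit 447698594749) (nat_lit 76) (nat_lit 21257123703) (nat_lit 52) (nat_lit 5) (nat_lit 55) (nat_lit 5) (nat_lit 53) (nat_lit 5) (nat_lit 518) (nat_lit 472) (nat_lit 210)) (XT.lf (nat_lit 0) (nat_lit 172023149960) (nat_lit 228) (nat_lit 158468505333) (nat_lit 76) (nat_lit 198074152502) (nat_lit 52) (nat_lit 5) (nat_lit 55) (nat_lit 5) (nat_lit 53) (nat_lit 5) (nat_lit 519) (nat_lit 472) (nat_lit 209)))) (XT.nd (nat_lit 156) (nat_lit 152) (nat_lit 0) (XT.nd (nat_lit 78) (nat_lit 0) (nat_lit 0) (XT.lf (nat_lit 0) (nat_lit 150024736107) (nat_lit 152) (nat_lit 159987666703) (nat_lit 228) (nat_lit 236049570931) (nat_lit 50) (nat_lit 5) (nat_lit 52) (nat_lit 5) (nat_lit 53) (nat_lit 5) (nat_lit 520) (nat_lit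 472) (nat_lit 208)) (XT.lf (nat_lit 0) (nat_lit 457926100485) (nat_lit 228) (nat_lit 85195821270) (nat_lit 76) (nat_lit 21159777125) (nat_lit 50) (nat_lit 5) (nat_lit 53) (nat_lit 5) (nat_lit 51) (nat_lit 4) (nat_lit 521) (nat_lit 472) (nat_lit 207))) (XT.nd (nat_lit 78) (nat_lit 0) (nat_lit 0) (XT.lf (nat_lit 0) (nat_lit 35445147283) (nat_lit 152) (nat_lit 337207709173) (nat_lit 76) (nat_lit 210407442783) (nat_lit 48) (nat_lit 5) (nat_lit 50) (nat_lit 5) (nat_lit 49) (nat_lit 5) (nat_lit 522) (nat_lit 472) (nat_lit 206)) (XT.lf (nat_lit 0) (nat_lit 182228126648) (nat_lit 152) (nat_lit 8061724556) (nat_lit 76) (nat_lit 412327479602) (nat_lit 48) (nat_lit 5) (nat_lit 50) (nat_lit 5) (nat_lit 49) (nat_lit 5) (nat_lit 523) (nat_lit 472) (nat_lit 205))))) (XT.nd (nat_lit 234) (nat_lit 304) (nat_lit 0) (XT.nd (nat_lit 78) (nat_lit 152) (nat_lit 0) (XT.lf (nat_lit 0) (nat_lit 341902279591) (nat_lit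 228) (nat_lit 274285722516) (nat_lit 76) (nat_lit 6686610619) (nat_lit 46) (nat_lit 5) (nat_lit 49) (nat_lit 5) (nat_lit 47) (nat_lit 4) (nat_lit 524) (nat_lit 472) (nat_lit 204)) (XT.nd (nat_lit 78) (nat_lit 76) (nat_lit 0) (XT.lf (nat_lit 0) (nat_lit 78608120828) (nat_lit 76) (nat_lit 435437544445) (nat_lit 152) (nat_lit 129874817219) (nat_lit 45) (nat_lit 5) (nat_lit 46) (nat_lit 5) (nat_lit 47) (nat_lit 4) (nat_lit 525) (nat_lit 472) (nat_lit 203)) (XT.lf (nat_lit 0) (nat_lit 32577783039) (nat_lit 152) (nat_lit 207642673658) (nat_lit 76) (nat_lit 425539660592) (nat_lit 44) (nat_lit 5) (nat_lit 46) (nat_lit 5) (nat_lit 45) (nat_lit 5) (nat_lit 526) (nat_lit 472) (nat_lit 202)))) (XT.nd (nat_lit 156) (nat_lit 152) (nat_lit 0) (XT.nd (nat_lit 78) (nat_lit 0) (nat_lit 0) (XT.lf (nat_lit 0) (nat_lit 171262811991) (nat_lit 152) (nat_lit 30199409265) (nat_lit 228) (nat_lit 486989365133) (nat_lit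 42) (nat_lit 5) (nat_lit 44) (nat_lit 5) (nat_lit 45) (nat_lit 5) (nat_lit 527) (nat_lit 472) (nat_lit 201)) (XT.lf (nat_lit 0) (nat_lit 385336490393) (nat_lit 228) (nat_lit 138808535616) (nat_lit 76) (nat_lit 187805322490) (nat_lit 42) (nat_lit 5) (nat_lit 45) (nat_lit 5) (nat_lit 43) (nat_lit 4) (nat_lit 528) (nat_lit 472) (nat_lit 200))) (XT.nd (nat_lit 78) (nat_lit 76) (nat_lit 0) (XT.lf (nat_lit 0) (nat_lit 266526073851) (nat_lit 76) (nat_lit 316534653473) (nat_lit 152) (nat_lit 153330508677) (nat_lit 41) (nat_lit 5) (nat_lit 42) (nat_lit 5) (nat_lit 43) (nat_lit 4) (nat_lit 529) (nat_lit 472) (nat_lit 199)) (XT.lf (nat_lit 0) (nat_lit 30090375718) (nat_lit 152) (nat_lit 65475492863) (nat_lit 76) (nat_lit 666346495192) (nat_lit 40) (nat_lit 5) (nat_lit 42) (nat_lit 5) (nat_lit 41) (nat_lit 5) (nat_lit 530) (nat_lit 472) (nat_lit 198)))))) (XT.nd (nat_lit 58110) (nat_lit 0) (nat_lit 6916)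 (XT.nd (nat_lit 234) (nat_lit 152) (nat_lit 0) (XT.nd (nat_lit 78) (nat_lit 76) (nat_lit 0) (XT.lf (nat_lit 0) (nat_lit 225547182359) (nat_lit 228) (nat_lit 422150713238) (nat_lit 76) (nat_lit 140485082167) (nat_lit 38) (nat_lit 5) (nat_lit 41) (nat_lit 5) (nat_lit 39) (nat_lit 4) (nat_lit 531) (nat_lit 472) (nat_lit 197)) (XT.nd (nat_lit 78) (nat_lit 0) (nat_lit 0) (XT.lf (nat_lit 0) (nat_lit 4227294855) (nat_lit 76) (nat_lit 429309190341) (nat_lit 152) (nat_lit 382092654467) (nat_lit 37) (nat_lit 5) (nat_lit 38) (nat_lit 5) (nat_lit 39) (nat_lit 4) (nat_lit 532) (nat_lit 472) (nat_lit 196)) (XT.lf (nat_lit 0) (nat_lit 466580258990) (nat_lit 76) (nat_lit 192494286632) (nat_lit 152) (nat_lit 185015599417) (nat_lit 37) (nat_lit 5) (nat_lit 38) (nat_lit 5) (nat_lit 39) (nat_lit 4) (nat_lit 533) (nat_lit 472) (nat_lit 195)))) (XT.nd (nat_lit 57720) (nat_lit 0) (nat_lit 6840) (XT.nd (nat_lit 78)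 (nat_lit 0) (nat_lit 0) (XT.lf (nat_lit 0) (nat_lit 23370628804) (nat_lit 152) (nat_lit 794492702788) (nat_lit 76) (nat_lit 55985923768) (nat_lit 35) (nat_lit 5) (nat_lit 37) (nat_lit 5) (nat_lit 36) (nat_lit 4) (nat_lit 534) (nat_lit 472) (nat_lit 194)) (XT.lf (nat_lit 0) (nat_lit 245612163230) (nat_lit 152) (nat_lit 338897608817) (nat_lit 76) (nat_lit 319952210414) (nat_lit 35) (nat_lit 5) (nat_lit 37) (nat_lit 5) (nat_lit 36) (nat_lit 4) (nat_lit 535) (nat_lit 472) (nat_lit 193))) (XT.nd (nat_lit 78) (nat_lit 0) (nat_lit 0) (XT.lf (nat_lit 0) (nat_lit 23918817044) (nat_lit 836) (nat_lit 23828209262) (nat_lit 836) (nat_lit 23828209262) (nat_lit 125) (nat_lit 3) (nat_lit 136) (nat_lit 3) (nat_lit 136) (nat_lit 5) (nat_lit 473) (nat_lit 473) (nat_lit 254)) (XT.lf (nat_lit 76) (nat_lit 23213733881) (nat_lit 0) (nat_lit 26185396410) (nat_lit 836) (nat_lit 97311823642) (nat_lit 126) (nat_lit 5)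 (nat_lit 125) (nat_lit 3) (nat_lit 136) (nat_lit 5) (nat_lit 474) (nat_lit 473) (nat_lit 253))))) (XT.nd (nat_lit 234) (nat_lit 0) (nat_lit 76) (XT.nd (nat_lit 78) (nat_lit 0) (nat_lit 0) (XT.lf (nat_lit 0) (nat_lit 52586196552) (nat_lit 760) (nat_lit 51867920556) (nat_lit 836) (nat_lit 45917969075) (nat_lit 126) (nat_lit 5) (nat_lit 136) (nat_lit 5) (nat_lit 137) (nat_lit 5) (nat_lit 475) (nat_lit 473) (nat_lit 252)) (XT.nd (nat_lit 78) (nat_lit 0) (nat_lit 76) (XT.lf (nat_lit 76) (nat_lit 23671083221) (nat_lit 0) (nat_lit 33060182972) (nat_lit 836) (nat_lit 97445076425) (nat_lit 127) (nat_lit 5) (nat_lit 126) (nat_lit 5) (nat_lit 137) (nat_lit 5) (nat_lit 476) (nat_lit 473) (nat_lit 251)) (XT.lf (nat_lit 0) (nat_lit 62630445793) (nat_lit 760) (nat_lit 54007870471) (nat_lit 836) (nat_lit 41455152856) (nat_lit 127) (nat_lit 5) (nat_lit 137) (nat_lit 5) (nat_lit 138) (nat_lit 5) (nat_lit 477)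 (nat_lit 473) (nat_lit 250)))) (XT.nd (nat_lit 156) (nat_lit 0) (nat_lit 76) (XT.nd (nat_lit 78) (nat_lit 0) (nat_lit 76) (XT.lf (nat_lit 76) (nat_lit 26624449300) (nat_lit 0) (nat_lit 43157613985) (nat_lit 836) (nat_lit 92376514783) (nat_lit 128) (nat_lit 5) (nat_lit 127) (nat_lit 5) (nat_lit 138) (nat_lit 5) (nat_lit 478) (nat_lit 473) (nat_lit 249)) (XT.lf (nat_lit 0) (nat_lit 78751529409) (nat_lit 760) (nat_lit 53763702631) (nat_lit 836) (nat_lit 33838697102) (nat_lit 128) (nat_lit 5) (nat_lit 138) (nat_lit 5) (nat_lit 139) (nat_lit 5) (nat_lit 479) (nat_lit 473) (nat_lit 248))) (XT.nd (nat_lit 78) (nat_lit 0) (nat_lit 76) (XT.lf (nat_lit 76) (nat_lit 32425441104) (nat_lit 0) (nat_lit 56957623240) (nat_lit 836) (nat_lit 81315303710) (nat_lit 129) (nat_lit 5) (nat_lit 128) (nat_lit 5) (nat_lit 139) (nat_lit 5) (nat_lit 480) (nat_lit 473) (nat_lit 247)) (XT.lf (nat_lit 0) (nat_lit 101820845925)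 (nat_lit 760) (nat_lit 50788339284) (nat_lit 836) (nat_lit 22587110266) (nat_lit 129) (nat_lit 5) (nat_lit 139) (nat_lit 5) (nat_lit 140) (nat_lit 5) (nat_lit 481) (nat_lit 473) (nat_lit 246))))))))
noncomputable def xc229 : XT := (XT.nd (nat_lit 2184) (nat_lit 2432) (nat_lit 0) (XT.nd (nat_lit 1092) (nat_lit 1900) (nat_lit 0) (XT.nd (nat_lit 546) (nat_lit 1292) (nat_lit 0) (XT.nd (nat_lit 234) (nat_lit 836) (nat_lit 0) (XT.nd (nat_lit 78) (nat_lit 684) (nat_lit 0) (XT.lf (nat_lit 76) (nat_lit 41463725541) (nat_lit 0) (nat_lit 74997742686) (nat_lit 836) (nat_lit 63378603512) (nat_lit 130) (nat_lit 5) (nat_lit 129) (nat_lit 5) (nat_lit 140) (nat_lit 5) (nat_lit 482) (nat_lit 473) (nat_lit 245)) (XT.nd (nat_lit 78) (nat_lit 760) (nat_lit 0) (XT.lf (nat_lit 0) (nat_lit 132809601528) (nat_lit 760) (nat_lit 44696999033) (nat_lit 76) (nat_lit 7160662315) (nat_lit 130) (nat_lit 5) (nat_lit 140) (nat_lit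 5) (nat_lit 131) (nat_lit 5) (nat_lit 483) (nat_lit 473) (nat_lit 244)) (XT.lf (nat_lit 0) (nat_lit 54170520848) (nat_lit 760) (nat_lit 97879712702) (nat_lit 836) (nat_lit 37581825467) (nat_lit 120) (nat_lit 5) (nat_lit 130) (nat_lit 5) (nat_lit 131) (nat_lit 5) (nat_lit 484) (nat_lit 473) (nat_lit 243)))) (XT.nd (nat_lit 156) (nat_lit 456) (nat_lit 0) (XT.nd (nat_lit 78) (nat_lit 380) (nat_lit 0) (XT.lf (nat_lit 0) (nat_lit 159533079095) (nat_lit 760) (nat_lit 13476655113) (nat_lit 836) (nat_lit 21797518953) (nat_lit 120) (nat_lit 5) (nat_lit 130) (nat_lit 5) (nat_lit 131) (nat_lit 5) (nat_lit 485) (nat_lit 473) (nat_lit 242)) (XT.lf (nat_lit 0) (nat_lit 71022351412) (nat_lit 380) (nat_lit 126276842769) (nat_lit 456) (nat_lit 2827913662) (nat_lit 115) (nat_lit 5) (nat_lit 120) (nat_lit 5) (nat_lit 121) (nat_lit 5) (nat_lit 486) (nat_lit 473) (nat_lit 241))) (XT.nd (nat_lit 78) (nat_lit 380)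 (nat_lit 0) (XT.lf (nat_lit 0) (nat_lit 17371166881) (nat_lit 456) (nat_lit 22322410017) (nat_lit 76) (nat_lit 165964637768) (nat_lit 114) (nat_lit 5) (nat_lit 120) (nat_lit 5) (nat_lit 115) (nat_lit 5) (nat_lit 487) (nat_lit 473) (nat_lit 240)) (XT.lf (nat_lit 0) (nat_lit 40756834367) (nat_lit 456) (nat_lit 119495138428) (nat_lit 76) (nat_lit 51098002645) (nat_lit 109) (nat_lit 5) (nat_lit 115) (nat_lit 5) (nat_lit 110) (nat_lit 5) (nat_lit 488) (nat_lit 473) (nat_lit 239))))) (XT.nd (nat_lit 234) (nat_lit 608) (nat_lit 0) (XT.nd (nat_lit 78) (nat_lit 684) (nat_lit 0) (XT.lf (nat_lit 0) (nat_lit 66346627235) (nat_lit 456) (nat_lit 5448521341) (nat_lit 76) (nat_lit 145479433614) (nat_lit 109) (nat_lit 5) (nat_lit 115) (nat_lit 5) (nat_lit 110) (nat_lit 5) (nat_lit 489) (nat_lit 473) (nat_lit 238)) (XT.nd (nat_lit 78) (nat_lit 304) (nat_lit 0) (XT.lf (nat_lit 0) (nat_lit 95418768384) (nat_lit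 456) (nat_lit 105683058025) (nat_lit 76) (nat_lit 22283449971) (nat_lit 104) (nat_lit 5) (nat_lit 110) (nat_lit 5) (nat_lit 105) (nat_lit 5) (nat_lit 490) (nat_lit 473) (nat_lit 237)) (XT.lf (nat_lit 0) (nat_lit 16760610625) (nat_lit 304) (nat_lit 110716239605) (nat_lit 380) (nat_lit 102248038402) (nat_lit 100) (nat_lit 5) (nat_lit 104) (nat_lit 5) (nat_lit 105) (nat_lit 5) (nat_lit 491) (nat_lit 473) (nat_lit 236)))) (XT.nd (nat_lit 156) (nat_lit 304) (nat_lit 0) (XT.nd (nat_lit 78) (nat_lit 304) (nat_lit 0) (XT.lf (nat_lit 0) (nat_lit 148995426658) (nat_lit 304) (nat_lit 13932104195) (nat_lit 380) (nat_lit 73364465942) (nat_lit 100) (nat_lit 5) (nat_lit 104) (nat_lit 5) (nat_lit 105) (nat_lit 5) (nat_lit 492) (nat_lit 473) (nat_lit 235)) (XT.lf (nat_lit 0) (nat_lit 44716512470) (nat_lit 304) (nat_lit 157501394559) (nat_lit 380) (nat_lit 40866195291) (nat_lit 96) (nat_lit 5) (nat_lit 100)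 (nat_lit 5) (nat_lit 101) (nat_lit 5) (nat_lit 493) (nat_lit 473) (nat_lit 234))) (XT.nd (nat_lit 78) (nat_lit 304) (nat_lit 0) (XT.lf (nat_lit 0) (nat_lit 186124931556) (nat_lit 304) (nat_lit 59050899714) (nat_lit 380) (nat_lit 4954830418) (nat_lit 96) (nat_lit 5) (nat_lit 100) (nat_lit 5) (nat_lit 101) (nat_lit 5) (nat_lit 494) (nat_lit 473) (nat_lit 233)) (XT.lf (nat_lit 0) (nat_lit 33659244294) (nat_lit 304) (nat_lit 179068587815) (nat_lit 76) (nat_lit 44678378667) (nat_lit 92) (nat_lit 5) (nat_lit 96) (nat_lit 5) (nat_lit 93) (nat_lit 5) (nat_lit 495) (nat_lit 473) (nat_lit 232)))))) (XT.nd (nat_lit 546) (nat_lit 836) (nat_lit 0) (XT.nd (nat_lit 234) (nat_lit 760) (nat_lit 0) (XT.nd (nat_lit 78) (nat_lit 304) (nat_lit 0) (XT.lf (nat_lit 0) (nat_lit 76107206869) (nat_lit 304) (nat_lit 36038215518) (nat_lit 76) (nat_lit 152792568673) (nat_lit 92) (nat_lit 5) (nat_lit 96) (nat_lit 5) (nat_lit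 93) (nat_lit 5) (nat_lit 496) (nat_lit 473) (nat_lit 231)) (XT.nd (nat_lit 78) (nat_lit 0) (nat_lit 0) (XT.lf (nat_lit 0) (nat_lit 117917672070) (nat_lit 304) (nat_lit 4600838355) (nat_lit 380) (nat_lit 150235802814) (nat_lit 88) (nat_lit 5) (nat_lit 92) (nat_lit 5) (nat_lit 93) (nat_lit 5) (nat_lit 497) (nat_lit 473) (nat_lit 230)) (XT.lf (nat_lit 0) (nat_lit 173561822561) (nat_lit 380) (nat_lit 1809722310) (nat_lit 76) (nat_lit 105474334510) (nat_lit 88) (nat_lit 5) (nat_lit 93) (nat_lit 5) (nat_lit 89) (nat_lit 5) (nat_lit 498) (nat_lit 473) (nat_lit 229)))) (XT.nd (nat_lit 156) (nat_lit 304) (nat_lit 0) (XT.nd (nat_lit 78) (nat_lit 228) (nat_lit 0) (XT.lf (nat_lit 0) (nat_lit 164043431075) (nat_lit 228) (nat_lit 65750393806) (nat_lit 304) (nat_lit 59416372741) (nat_lit 85) (nat_lit 5) (nat_lit 88) (nat_lit 5) (nat_lit 89) (nat_lit 5) (nat_lit 499) (nat_lit 473) (nat_lit 228)) (XT.lf (nat_lit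 0) (nat_lit 40795455214) (nat_lit 228) (nat_lit 249480499572) (nat_lit 304) (nat_lit 7644850637) (nat_lit 82) (nat_lit 5) (nat_lit 85) (nat_lit 5) (nat_lit 86) (nat_lit 5) (nat_lit 500) (nat_lit 473) (nat_lit 227))) (XT.nd (nat_lit 78) (nat_lit 228) (nat_lit 0) (XT.lf (nat_lit 0) (nat_lit 48452378880) (nat_lit 304) (nat_lit 89401746068) (nat_lit 76) (nat_lit 169014735339) (nat_lit 81) (nat_lit 5) (nat_lit 85) (nat_lit 5) (nat_lit 82) (nat_lit 5) (nat_lit 501) (nat_lit 473) (nat_lit 226)) (XT.lf (nat_lit 0) (nat_lit 89445425449) (nat_lit 228) (nat_lit 19048550361) (nat_lit 304) (nat_lit 207694254680) (nat_lit 78) (nat_lit 5) (nat_lit 81) (nat_lit 5) (nat_lit 82) (nat_lit 5) (nat_lit 502) (nat_lit 473) (nat_lit 225))))) (XT.nd (nat_lit 234) (nat_lit 456) (nat_lit 0) (XT.nd (nat_lit 78) (nat_lit 380) (nat_lit 0) (XT.lf (nat_lit 0) (nat_lit 174726696884) (nat_lit 304) (nat_lit 47234236644) (nat_lit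 76) (nat_lit 103853183477) (nat_lit 78) (nat_lit 5) (nat_lit 82) (nat_lit 5) (nat_lit 79) (nat_lit 5) (nat_lit 503) (nat_lit 473) (nat_lit 224)) (XT.nd (nat_lit 78) (nat_lit 152) (nat_lit 0) (XT.lf (nat_lit 0) (nat_lit 145597419337) (nat_lit 228) (nat_lit 101259023713) (nat_lit 304) (nat_lit 88935585360) (nat_lit 75) (nat_lit 5) (nat_lit 78) (nat_lit 5) (nat_lit 79) (nat_lit 5) (nat_lit 504) (nat_lit 473) (nat_lit 223)) (XT.lf (nat_lit 0) (nat_lit 3172222639) (nat_lit 152) (nat_lit 320680747363) (nat_lit 228) (nat_lit 22352850725) (nat_lit 73) (nat_lit 5) (nat_lit 75) (nat_lit 5) (nat_lit 76) (nat_lit 5) (nat_lit 505) (nat_lit 473) (nat_lit 222)))) (XT.nd (nat_lit 156) (nat_lit 152) (nat_lit 0) (XT.nd (nat_lit 78) (nat_lit 228) (nat_lit 0) (XT.lf (nat_lit 0) (nat_lit 50970596298) (nat_lit 228) (nat_lit 146624142957) (nat_lit 76) (nat_lit 159261748872) (nat_lit 72) (nat_lit 5) (nat_lit 75) (nat_lit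 5) (nat_lit 73) (nat_lit 5) (nat_lit 506) (nat_lit 473) (nat_lit 221)) (XT.lf (nat_lit 0) (nat_lit 61197968616) (nat_lit 228) (nat_lit 66966455258) (nat_lit 304) (nat_lit 239809172501) (nat_lit 69) (nat_lit 5) (nat_lit 72) (nat_lit 5) (nat_lit 73) (nat_lit 5) (nat_lit 507) (nat_lit 473) (nat_lit 220))) (XT.nd (nat_lit 78) (nat_lit 152) (nat_lit 0) (XT.lf (nat_lit 0) (nat_lit 212837654012) (nat_lit 304) (nat_lit 96157472516) (nat_lit 76) (nat_lit 70470447960) (nat_lit 69) (nat_lit 5) (nat_lit 73) (nat_lit 5) (nat_lit 70) (nat_lit 5) (nat_lit 508) (nat_lit 473) (nat_lit 219)) (XT.lf (nat_lit 0) (nat_lit 127990174829) (nat_lit 152) (nat_lit 176850409506) (nat_lit 228) (nat_lit 86536765250) (nat_lit 67) (nat_lit 5) (nat_lit 69) (nat_lit 5) (nat_lit 70) (nat_lit 5) (nat_lit 509) (nat_lit 473) (nat_lit 218))))))) (XT.nd (nat_lit 1092) (nat_lit 988) (nat_lit 0) (XT.nd (nat_lit 546) (nat_lit 684) (nat_lit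 0) (XT.nd (nat_lit 234) (nat_lit 380) (nat_lit 0) (XT.nd (nat_lit 78) (nat_lit 380) (nat_lit 0) (XT.lf (nat_lit 0) (nat_lit 366683486482) (nat_lit 152) (nat_lit 36388591986) (nat_lit 228) (nat_lit 731214116) (nat_lit 67) (nat_lit 5) (nat_lit 69) (nat_lit 5) (nat_lit 70) (nat_lit 5) (nat_lit 510) (nat_lit 473) (nat_lit 217)) (XT.nd (nat_lit 78) (nat_lit 152) (nat_lit 0) (XT.lf (nat_lit 0) (nat_lit 91525102276) (nat_lit 228) (nat_lit 212782647986) (nat_lit 76) (nat_lit 112221985204) (nat_lit 64) (nat_lit 5) (nat_lit 67) (nat_lit 5) (nat_lit 65) (nat_lit 5) (nat_lit 511) (nat_lit 473) (nat_lit 216)) (XT.lf (nat_lit 0) (nat_lit 28374211388) (nat_lit 152) (nat_lit 161673878766) (nat_lit 228) (nat_lit 239759889530) (nat_lit 62) (nat_lit 5) (nat_lit 64) (nat_lit 5) (nat_lit 65) (nat_lit 5) (nat_lit 512) (nat_lit 473) (nat_lit 215)))) (XT.nd (nat_lit 156) (nat_lit 228) (nat_lit 0) (XT.nd (nat_lit 78)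 (nat_lit 152) (nat_lit 0) (XT.lf (nat_lit 0) (nat_lit 288976161441) (nat_lit 152) (nat_lit 8124590823) (nat_lit 228) (nat_lit 146469207617) (nat_lit 62) (nat_lit 5) (nat_lit 64) (nat_lit 5) (nat_lit 65) (nat_lit 5) (nat_lit 513) (nat_lit 473) (nat_lit 214)) (XT.lf (nat_lit 0) (nat_lit 105576851388) (nat_lit 152) (nat_lit 307967850161) (nat_lit 228) (nat_lit 44273404844) (nat_lit 60) (nat_lit 5) (nat_lit 62) (nat_lit 5) (nat_lit 63) (nat_lit 5) (nat_lit 514) (nat_lit 473) (nat_lit 213))) (XT.nd (nat_lit 78) (nat_lit 152) (nat_lit 0) (XT.lf (nat_lit 0) (nat_lit 63808945243) (nat_lit 228) (nat_lit 89684875626) (nat_lit 76) (nat_lit 319095924873) (nat_lit 59) (nat_lit 5) (nat_lit 62) (nat_lit 5) (nat_lit 60) (nat_lit 5) (nat_lit 515) (nat_lit 473) (nat_lit 212)) (XT.lf (nat_lit 0) (nat_lit 178992548370) (nat_lit 228) (nat_lit 296711617567) (nat_lit 76) (nat_lit 12200260840) (nat_lit 57) (nat_lit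 5) (nat_lit 60) (nat_lit 5) (nat_lit 58) (nat_lit 5) (nat_lit 516) (nat_lit 473) (nat_lit 211))))) (XT.nd (nat_lit 234) (nat_lit 304) (nat_lit 0) (XT.nd (nat_lit 78) (nat_lit 380) (nat_lit 0) (XT.lf (nat_lit 0) (nat_lit 303995332811) (nat_lit 228) (nat_lit 17222135991) (nat_lit 76) (nat_lit 182564373011) (nat_lit 57) (nat_lit 5) (nat_lit 60) (nat_lit 5) (nat_lit 58) (nat_lit 5) (nat_lit 517) (nat_lit 473) (nat_lit 210)) (XT.nd (nat_lit 78) (nat_lit 228) (nat_lit 0) (XT.lf (nat_lit 0) (nat_lit 285375542875) (nat_lit 152) (nat_lit 154328180785) (nat_lit 228) (nat_lit 80526630589) (nat_lit 55) (nat_lit 5) (nat_lit 57) (nat_lit 5) (nat_lit 58) (nat_lit 5) (nat_lit 518) (nat_lit 473) (nat_lit 209)) (XT.lf (nat_lit 0) (nat_lit 44978739608) (nat_lit 228) (nat_lit 470081035593) (nat_lit 76) (nat_lit 22320972596) (nat_lit 52) (nat_lit 5) (nat_lit 55) (nat_lit 5) (nat_lit 53) (nat_lit 5) (nat_lit 519)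 (nat_lit 473) (nat_lit 208)))) (XT.nd (nat_lit 156) (nat_lit 152) (nat_lit 0) (XT.nd (nat_lit 78) (nat_lit 152) (nat_lit 0) (XT.lf (nat_lit 0) (nat_lit 180625664363) (nat_lit 228) (nat_lit 166389560225) (nat_lit 76) (nat_lit 207978805563) (nat_lit 52) (nat_lit 5) (nat_lit 55) (nat_lit 5) (nat_lit 53) (nat_lit 5) (nat_lit 520) (nat_lit 473) (nat_lit 207)) (XT.lf (nat_lit 0) (nat_lit 157528305055) (nat_lit 152) (nat_lit 167986046596) (nat_lit 228) (nat_lit 247850654160) (nat_lit 50) (nat_lit 5) (nat_lit 52) (nat_lit 5) (nat_lit 53) (nat_lit 5) (nat_lit 521) (nat_lit 473) (nat_lit 206))) (XT.nd (nat_lit 78) (nat_lit 152) (nat_lit 0) (XT.lf (nat_lit 0) (nat_lit 480823685860) (nat_lit 228) (nat_lit 89453342722) (nat_lit 76) (nat_lit 22218691053) (nat_lit 50) (nat_lit 5) (nat_lit 53) (nat_lit 5) (nat_lit 51) (nat_lit 4) (nat_lit 522) (nat_lit 473) (nat_lit 205)) (XT.lf (nat_lit 0) (nat_lit 37218679612)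 (nat_lit 152) (nat_lit 354065819315) (nat_lit 76) (nat_lit 220928751370) (nat_lit 48) (nat_lit 5) (nat_lit 50) (nat_lit 5) (nat_lit 49) (nat_lit 5) (nat_lit 523) (nat_lit 473) (nat_lit 204)))))) (XT.nd (nat_lit 546) (nat_lit 456) (nat_lit 0) (XT.nd (nat_lit 234) (nat_lit 304) (nat_lit 0) (XT.nd (nat_lit 78) (nat_lit 228) (nat_lit 0) (XT.lf (nat_lit 0) (nat_lit 191340747233) (nat_lit 152) (nat_lit 8462643815) (nat_lit 76) (nat_lit 432944745438) (nat_lit 48) (nat_lit 5) (nat_lit 50) (nat_lit 5) (nat_lit 49) (nat_lit 5) (nat_lit 524) (nat_lit 473) (nat_lit 203)) (XT.nd (nat_lit 78) (nat_lit 76) (nat_lit 0) (XT.lf (nat_lit 0) (nat_lit 358998597999) (nat_lit 228) (nat_lit 287997831710) (nat_lit 76) (nat_lit 7021853291) (nat_lit 46) (nat_lit 5) (nat_lit 49) (nat_lit 5) (nat_lit 47) (nat_lit 4) (nat_lit 525) (nat_lit 473) (nat_lit 202)) (XT.lf (nat_lit 0) (nat_lit 82540668690) (nat_lit 76) (nat_lit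 457208460362) (nat_lit 152) (nat_lit 136367318404) (nat_lit 45) (nat_lit 5) (nat_lit 46) (nat_lit 5) (nat_lit 47) (nat_lit 4) (nat_lit 526) (nat_lit 473) (nat_lit 201)))) (XT.nd (nat_lit 156) (nat_lit 76) (nat_lit 0) (XT.nd (nat_lit 78) (nat_lit 152) (nat_lit 0) (XT.lf (nat_lit 0) (nat_lit 34207815047) (nat_lit 152) (nat_lit 218022729602) (nat_lit 76) (nat_lit 446817521241) (nat_lit 44) (nat_lit 5) (nat_lit 46) (nat_lit 5) (nat_lit 45) (nat_lit 5) (nat_lit 527) (nat_lit 473) (nat_lit 200)) (XT.lf (nat_lit 0) (nat_lit 179827996818) (nat_lit 152) (nat_lit 31708455852) (nat_lit 228) (nat_lit 511337656907) (nat_lit 42) (nat_lit 5) (nat_lit 44) (nat_lit 5) (nat_lit 45) (nat_lit 5) (nat_lit 528) (nat_lit 473) (nat_lit 199))) (XT.nd (nat_lit 78) (nat_lit 76) (nat_lit 0) (XT.lf (nat_lit 0) (nat_lit 404604395650) (nat_lit 228) (nat_lit 145746975791) (nat_lit 76) (nat_lit 197196440336) (nat_lit 42) (nat_lit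 5) (nat_lit 45) (nat_lit 5) (nat_lit 43) (nat_lit 4) (nat_lit 529) (nat_lit 473) (nat_lit 198)) (XT.lf (nat_lit 0) (nat_lit 279854332108) (nat_lit 76) (nat_lit 332360491373) (nat_lit 152) (nat_lit 160995921226) (nat_lit 41) (nat_lit 5) (nat_lit 42) (nat_lit 5) (nat_lit 43) (nat_lit 4) (nat_lit 530) (nat_lit 473) (nat_lit 197))))) (XT.nd (nat_lit 312) (nat_lit 152) (nat_lit 0) (XT.nd (nat_lit 156) (nat_lit 76) (nat_lit 0) (XT.nd (nat_lit 78) (nat_lit 152) (nat_lit 0) (XT.lf (nat_lit 0) (nat_lit 31595920472) (nat_lit 152) (nat_lit 68747371998) (nat_lit 76) (nat_lit 699664638099) (nat_lit 40) (nat_lit 5) (nat_lit 42) (nat_lit 5) (nat_lit 41) (nat_lit 5) (nat_lit 531) (nat_lit 473) (nat_lit 196)) (XT.lf (nat_lit 0) (nat_lit 236825561112) (nat_lit 228) (nat_lit 443256346969) (nat_lit 76) (nat_lit 147510167498) (nat_lit 38) (nat_lit 5) (nat_lit 41) (nat_lit 5) (nat_lit 39) (nat_lit 4) (nat_lit 532)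 (nat_lit 473) (nat_lit 195))) (XT.nd (nat_lit 78) (nat_lit 0) (nat_lit 0) (XT.lf (nat_lit 0) (nat_lit 4440530853) (nat_lit 76) (nat_lit 450773778900) (nat_lit 152) (nat_lit 401196236792) (nat_lit 37) (nat_lit 5) (nat_lit 38) (nat_lit 5) (nat_lit 39) (nat_lit 4) (nat_lit 533) (nat_lit 473) (nat_lit 194)) (XT.lf (nat_lit 0) (nat_lit 489911054087) (nat_lit 76) (nat_lit 202118171479) (nat_lit 152) (nat_lit 194265379009) (nat_lit 37) (nat_lit 5) (nat_lit 38) (nat_lit 5) (nat_lit 39) (nat_lit 4) (nat_lit 534) (nat_lit 473) (nat_lit 193)))) (XT.nd (nat_lit 57798) (nat_lit 0) (nat_lit 6840) (XT.nd (nat_lit 57720) (nat_lit 0) (nat_lit 6840) (XT.lf (nat_lit 0) (nat_lit 24540123395) (nat_lit 152) (nat_lit 834215518399) (nat_lit 76) (nat_lit 58786028101) (nat_lit 35) (nat_lit 5) (nat_lit 37) (nat_lit 5) (nat_lit 36) (nat_lit 4) (nat_lit 535) (nat_lit 473) (nat_lit 192)) (XT.lf (nat_lit 0) (nat_lit 25117833031)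 (nat_lit 836) (nat_lit 25018004681) (nat_lit 836) (nat_lit 25018004681) (nat_lit 125) (nat_lit 3) (nat_lit 136) (nat_lit 3) (nat_lit 136) (nat_lit 5) (nat_lit 474) (nat_lit 474) (nat_lit 252))) (XT.nd (nat_lit 78) (nat_lit 0) (nat_lit 76) (XT.lf (nat_lit 76) (nat_lit 24377598565) (nat_lit 0) (nat_lit 27497395257) (nat_lit 836) (nat_lit 102171210177) (nat_lit 126) (nat_lit 5) (nat_lit 125) (nat_lit 3) (nat_lit 136) (nat_lit 5) (nat_lit 475) (nat_lit 474) (nat_lit 251)) (XT.lf (nat_lit 0) (nat_lit 55221091532) (nat_lit 760) (nat_lit 54457965891) (nat_lit 836) (nat_lit 48211351642) (nat_lit 126) (nat_lit 5) (nat_lit 136) (nat_lit 5) (nat_lit 137) (nat_lit 5) (nat_lit 476) (nat_lit 474) (nat_lit 250))))))))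
noncomputable def xc230 : XT := (XT.nd (nat_lit 2184) (nat_lit 3040) (nat_lit 0) (XT.nd (nat_lit 1092) (nat_lit 2356) (nat_lit 0) (XT.nd (nat_lit 546) (nat_lit 1292) (nat_lit 0) (XT.nd (nat_lit 234) (nat_lit 0) (nat_lit 152) (XT.nd (nat_lit 78) (nat_lit 0) (nat_lit 76) (XT.lf (nat_lit 76) (nat_lit 24857934031) (nat_lit 0) (nat_lit 34715266133) (nat_lit 836) (nat_lit 102311688984) (nat_lit 127) (nat_lit 5) (nat_lit 126) (nat_lit 5) (nat_lit 137) (nat_lit 5) (nat_lit 477) (nat_lit 474) (nat_lit 249)) (XT.nd (nat_lit 78) (nat_lit 0) (nat_lit 0) (XT.lf (nat_lit 0) (nat_lit 65767052160) (nat_lit 760) (nat_lit 56704835775) (nat_lit 836) (nat_lit 43525998469) (nat_lit 127) (nat_lit 5) (nat_lit 137) (nat_lit 5) (nat_lit 138) (nat_lit 5) (nat_lit 478) (nat_lit 474) (nat_lit 248)) (XT.lf (nat_lit 76) (nat_lit 27959044691) (nat_lit 0) (nat_lit 45317016398) (nat_lit 836) (nat_lit 96990199277) (nat_lit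 128) (nat_lit 5) (nat_lit 127) (nat_lit 5) (nat_lit 138) (nat_lit 5) (nat_lit 479) (nat_lit 474) (nat_lit 247)))) (XT.nd (nat_lit 156) (nat_lit 0) (nat_lit 76) (XT.nd (nat_lit 78) (nat_lit 0) (nat_lit 0) (XT.lf (nat_lit 0) (nat_lit 82693744814) (nat_lit 760) (nat_lit 56448417961) (nat_lit 836) (nat_lit 35529229091) (nat_lit 128) (nat_lit 5) (nat_lit 138) (nat_lit 5) (nat_lit 139) (nat_lit 5) (nat_lit 480) (nat_lit 474) (nat_lit 246)) (XT.lf (nat_lit 76) (nat_lit 34050126995) (nat_lit 0) (nat_lit 59806561897) (nat_lit 836) (nat_lit 85376372296) (nat_lit 129) (nat_lit 5) (nat_lit 128) (nat_lit 5) (nat_lit 139) (nat_lit 5) (nat_lit 481) (nat_lit 474) (nat_lit 245))) (XT.nd (nat_lit 78) (nat_lit 0) (nat_lit 0) (XT.lf (nat_lit 0) (nat_lit 106916130909) (nat_lit 760) (nat_lit 53324274711) (nat_lit 836) (nat_lit 23715490875) (nat_lit 129) (nat_lit 5) (nat_lit 139) (nat_lit 5) (nat_lit 140) (nat_lit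 5) (nat_lit 482) (nat_lit 474) (nat_lit 244)) (XT.lf (nat_lit 76) (nat_lit 43540337202) (nat_lit 0) (nat_lit 78748298571) (nat_lit 836) (nat_lit 66543233304) (nat_lit 130) (nat_lit 5) (nat_lit 129) (nat_lit 5) (nat_lit 140) (nat_lit 5) (nat_lit 483) (nat_lit 474) (nat_lit 243))))) (XT.nd (nat_lit 234) (nat_lit 836) (nat_lit 0) (XT.nd (nat_lit 78) (nat_lit 760) (nat_lit 0) (XT.lf (nat_lit 0) (nat_lit 139453970836) (nat_lit 760) (nat_lit 46928380344) (nat_lit 76) (nat_lit 7518078910) (nat_lit 130) (nat_lit 5) (nat_lit 140) (nat_lit 5) (nat_lit 131) (nat_lit 5) (nat_lit 484) (nat_lit 474) (nat_lit 242)) (XT.nd (nat_lit 78) (nat_lit 0) (nat_lit 0) (XT.lf (nat_lit 0) (nat_lit 56882459586) (nat_lit 760) (nat_lit 102774042954) (nat_lit 836) (nat_lit 39456970163) (nat_lit 120) (nat_lit 5) (nat_lit 130) (nat_lit 5) (nat_lit 131) (nat_lit 5) (nat_lit 485) (nat_lit 474) (nat_lit 241)) (XT.lf (nat_lit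 0) (nat_lit 167512983236) (nat_lit 760) (nat_lit 14150816075) (nat_lit 836) (nat_lit 22883636256) (nat_lit 120) (nat_lit 5) (nat_lit 130) (nat_lit 5) (nat_lit 131) (nat_lit 5) (nat_lit 486) (nat_lit 474) (nat_lit 240)))) (XT.nd (nat_lit 156) (nat_lit 380) (nat_lit 0) (XT.nd (nat_lit 78) (nat_lit 76) (nat_lit 0) (XT.lf (nat_lit 0) (nat_lit 74576849133) (nat_lit 380) (nat_lit 132590760643) (nat_lit 456) (nat_lit 2965679396) (nat_lit 115) (nat_lit 5) (nat_lit 120) (nat_lit 5) (nat_lit 121) (nat_lit 5) (nat_lit 487) (nat_lit 474) (nat_lit 239)) (XT.lf (nat_lit 0) (nat_lit 18243071671) (nat_lit 456) (nat_lit 23435199527) (nat_lit 76) (nat_lit 174262685728) (nat_lit 114) (nat_lit 5) (nat_lit 120) (nat_lit 5) (nat_lit 115) (nat_lit 5) (nat_lit 488) (nat_lit 474) (nat_lit 238))) (XT.nd (nat_lit 78) (nat_lit 0) (nat_lit 0) (XT.lf (nat_lit 0) (nat_lit 42797914953) (nat_lit 456) (nat_lit 125466455684)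 (nat_lit 76) (nat_lit 53652940535) (nat_lit 109) (nat_lit 5) (nat_lit 115) (nat_lit 5) (nat_lit 110) (nat_lit 5) (nat_lit 489) (nat_lit 474) (nat_lit 237)) (XT.lf (nat_lit 0) (nat_lit 69667043232) (nat_lit 456) (nat_lit 5717671536) (nat_lit 76) (nat_lit 152753441255) (nat_lit 109) (nat_lit 5) (nat_lit 115) (nat_lit 5) (nat_lit 110) (nat_lit 5) (nat_lit 490) (nat_lit 474) (nat_lit 236)))))) (XT.nd (nat_lit 546) (nat_lit 1064) (nat_lit 0) (XT.nd (nat_lit 234) (nat_lit 608) (nat_lit 0) (XT.nd (nat_lit 78) (nat_lit 304) (nat_lit 0) (XT.lf (nat_lit 0) (nat_lit 100192698541) (nat_lit 456) (nat_lit 110963841162) (nat_lit 76) (nat_lit 23397849915) (nat_lit 104) (nat_lit 5) (nat_lit 110) (nat_lit 5) (nat_lit 105) (nat_lit 5) (nat_lit 491) (nat_lit 474) (nat_lit 235)) (XT.nd (nat_lit 78) (nat_lit 0) (nat_lit 0) (XT.lf (nat_lit 0) (nat_lit 17601956570) (nat_lit 304) (nat_lit 116251637209) (nat_lit 380)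 (nat_lit 107357393287) (nat_lit 100) (nat_lit 5) (nat_lit 104) (nat_lit 5) (nat_lit 105) (nat_lit 5) (nat_lit 492) (nat_lit 474) (nat_lit 234)) (XT.lf (nat_lit 0) (nat_lit 156448355527) (nat_lit 304) (nat_lit 14628314761) (nat_lit 380) (nat_lit 77029787301) (nat_lit 100) (nat_lit 5) (nat_lit 104) (nat_lit 5) (nat_lit 105) (nat_lit 5) (nat_lit 493) (nat_lit 474) (nat_lit 233)))) (XT.nd (nat_lit 156) (nat_lit 304) (nat_lit 0) (XT.nd (nat_lit 78) (nat_lit 0) (nat_lit 0) (XT.lf (nat_lit 0) (nat_lit 46955575444) (nat_lit 304) (nat_lit 165375914675) (nat_lit 380) (nat_lit 42906682071) (nat_lit 96) (nat_lit 5) (nat_lit 100) (nat_lit 5) (nat_lit 101) (nat_lit 5) (nat_lit 494) (nat_lit 474) (nat_lit 232)) (XT.lf (nat_lit 0) (nat_lit 195434261325) (nat_lit 304) (nat_lit 62002921260) (nat_lit 380) (nat_lit 5199883383) (nat_lit 96) (nat_lit 5) (nat_lit 100) (nat_lit 5) (nat_lit 101) (nat_lit 5) (nat_lit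 495) (nat_lit 474) (nat_lit 231))) (XT.nd (nat_lit 78) (nat_lit 0) (nat_lit 0) (XT.lf (nat_lit 0) (nat_lit 35344743017) (nat_lit 304) (nat_lit 188018780446) (nat_lit 76) (nat_lit 46912870284) (nat_lit 92) (nat_lit 5) (nat_lit 96) (nat_lit 5) (nat_lit 93) (nat_lit 5) (nat_lit 496) (nat_lit 474) (nat_lit 230)) (XT.lf (nat_lit 0) (nat_lit 79914982934) (nat_lit 304) (nat_lit 37837043666) (nat_lit 76) (nat_lit 160432742520) (nat_lit 92) (nat_lit 5) (nat_lit 96) (nat_lit 5) (nat_lit 93) (nat_lit 5) (nat_lit 497) (nat_lit 474) (nat_lit 229))))) (XT.nd (nat_lit 234) (nat_lit 532) (nat_lit 0) (XT.nd (nat_lit 78) (nat_lit 228) (nat_lit 0) (XT.lf (nat_lit 0) (nat_lit 123816588582) (nat_lit 304) (nat_lit 4830195405) (nat_lit 380) (nat_lit 157745126839) (nat_lit 88) (nat_lit 5) (nat_lit 92) (nat_lit 5) (nat_lit 93) (nat_lit 5) (nat_lit 498) (nat_lit 474) (nat_lit 228)) (XT.nd (nat_lit 78) (nat_lit 228)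 (nat_lit 0) (XT.lf (nat_lit 0) (nat_lit 182242160101) (nat_lit 380) (nat_lit 1897217673) (nat_lit 76) (nat_lit 110748682615) (nat_lit 88) (nat_lit 5) (nat_lit 93) (nat_lit 5) (nat_lit 89) (nat_lit 5) (nat_lit 499) (nat_lit 474) (nat_lit 227)) (XT.lf (nat_lit 0) (nat_lit 172248545143) (nat_lit 228) (nat_lit 69037156362) (nat_lit 304) (nat_lit 62384896118) (nat_lit 85) (nat_lit 5) (nat_lit 88) (nat_lit 5) (nat_lit 89) (nat_lit 5) (nat_lit 500) (nat_lit 474) (nat_lit 226)))) (XT.nd (nat_lit 156) (nat_lit 228) (nat_lit 0) (XT.nd (nat_lit 78) (nat_lit 76) (nat_lit 0) (XT.lf (nat_lit 0) (nat_lit 42838219506) (nat_lit 228) (nat_lit 261953672298) (nat_lit 304) (nat_lit 8024846344) (nat_lit 82) (nat_lit 5) (nat_lit 85) (nat_lit 5) (nat_lit 86) (nat_lit 5) (nat_lit 501) (nat_lit 474) (nat_lit 225)) (XT.lf (nat_lit 0) (nat_lit 50877069170) (nat_lit 304) (nat_lit 93868915278) (nat_lit 76) (nat_lit 177466214760)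 (nat_lit 81) (nat_lit 5) (nat_lit 85) (nat_lit 5) (nat_lit 82) (nat_lit 5) (nat_lit 502) (nat_lit 474) (nat_lit 224))) (XT.nd (nat_lit 78) (nat_lit 0) (nat_lit 0) (XT.lf (nat_lit 0) (nat_lit 93920567748) (nat_lit 228) (nat_lit 20000124387) (nat_lit 304) (nat_lit 218076848501) (nat_lit 78) (nat_lit 5) (nat_lit 81) (nat_lit 5) (nat_lit 82) (nat_lit 5) (nat_lit 503) (nat_lit 474) (nat_lit 223)) (XT.lf (nat_lit 0) (nat_lit 183464965880) (nat_lit 304) (nat_lit 49593130304) (nat_lit 76) (nat_lit 109046629485) (nat_lit 78) (nat_lit 5) (nat_lit 82) (nat_lit 5) (nat_lit 79) (nat_lit 5) (nat_lit 504) (nat_lit 474) (nat_lit 222))))))) (XT.nd (nat_lit 1092) (nat_lit 1444) (nat_lit 0) (XT.nd (nat_lit 546) (nat_lit 760) (nat_lit 0) (XT.nd (nat_lit 234) (nat_lit 380) (nat_lit 0) (XT.nd (nat_lit 78) (nat_lit 228) (nat_lit 0) (XT.lf (nat_lit 0) (nat_lit 152880063021) (nat_lit 228) (nat_lit 106321087520) (nat_lit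 304) (nat_lit 93380384566) (nat_lit 75) (nat_lit 5) (nat_lit 78) (nat_lit 5) (nat_lit 79) (nat_lit 5) (nat_lit 505) (nat_lit 474) (nat_lit 221)) (XT.nd (nat_lit 78) (nat_lit 76) (nat_lit 0) (XT.lf (nat_lit 0) (nat_lit 3333641332) (nat_lit 152) (nat_lit 336713829761) (nat_lit 228) (nat_lit 23468547608) (nat_lit 73) (nat_lit 5) (nat_lit 75) (nat_lit 5) (nat_lit 76) (nat_lit 5) (nat_lit 506) (nat_lit 474) (nat_lit 220)) (XT.lf (nat_lit 0) (nat_lit 53520919809) (nat_lit 228) (nat_lit 153952616537) (nat_lit 76) (nat_lit 167225686110) (nat_lit 72) (nat_lit 5) (nat_lit 75) (nat_lit 5) (nat_lit 73) (nat_lit 5) (nat_lit 507) (nat_lit 474) (nat_lit 219)))) (XT.nd (nat_lit 156) (nat_lit 152) (nat_lit 0) (XT.nd (nat_lit 78) (nat_lit 0) (nat_lit 0) (XT.lf (nat_lit 0) (nat_lit 64260556525) (nat_lit 228) (nat_lit 70313838815) (nat_lit 304) (nat_lit 251797792965) (nat_lit 69) (nat_lit 5) (nat_lit 72) (nat_lit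 5) (nat_lit 73) (nat_lit 5) (nat_lit 508) (nat_lit 474) (nat_lit 218)) (XT.lf (nat_lit 0) (nat_lit 223481217604) (nat_lit 304) (nat_lit 100962714996) (nat_lit 76) (nat_lit 73994836211) (nat_lit 69) (nat_lit 5) (nat_lit 73) (nat_lit 5) (nat_lit 70) (nat_lit 5) (nat_lit 509) (nat_lit 474) (nat_lit 217))) (XT.nd (nat_lit 78) (nat_lit 0) (nat_lit 0) (XT.lf (nat_lit 0) (nat_lit 134392272279) (nat_lit 152) (nat_lit 185691982539) (nat_lit 228) (nat_lit 90861879844) (nat_lit 67) (nat_lit 5) (nat_lit 69) (nat_lit 5) (nat_lit 70) (nat_lit 5) (nat_lit 510) (nat_lit 474) (nat_lit 216)) (XT.lf (nat_lit 0) (nat_lit 385020126242) (nat_lit 152) (nat_lit 38207119259) (nat_lit 228) (nat_lit 766133233) (nat_lit 67) (nat_lit 5) (nat_lit 69) (nat_lit 5) (nat_lit 70) (nat_lit 5) (nat_lit 511) (nat_lit 474) (nat_lit 215))))) (XT.nd (nat_lit 234) (nat_lit 380) (nat_lit 0) (XT.nd (nat_lit 78) (nat_lit 152) (nat_lit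 0) (XT.lf (nat_lit 0) (nat_lit 96102923903) (nat_lit 228) (nat_lit 223419239272) (nat_lit 76) (nat_lit 117833980445) (nat_lit 64) (nat_lit 5) (nat_lit 67) (nat_lit 5) (nat_lit 65) (nat_lit 5) (nat_lit 512) (nat_lit 474) (nat_lit 214)) (XT.nd (nat_lit 78) (nat_lit 0) (nat_lit 0) (XT.lf (nat_lit 0) (nat_lit 29795422086) (nat_lit 152) (nat_lit 169756603528) (nat_lit 228) (nat_lit 251746276227) (nat_lit 62) (nat_lit 5) (nat_lit 64) (nat_lit 5) (nat_lit 65) (nat_lit 5) (nat_lit 513) (nat_lit 474) (nat_lit 213)) (XT.lf (nat_lit 0) (nat_lit 303427350587) (nat_lit 152) (nat_lit 8529897340) (nat_lit 228) (nat_lit 153791136779) (nat_lit 62) (nat_lit 5) (nat_lit 64) (nat_lit 5) (nat_lit 65) (nat_lit 5) (nat_lit 514) (nat_lit 474) (nat_lit 212)))) (XT.nd (nat_lit 156) (nat_lit 152) (nat_lit 0) (XT.nd (nat_lit 78) (nat_lit 76) (nat_lit 0) (XT.lf (nat_lit 0) (nat_lit 110858094437) (nat_lit 152) (nat_lit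 323365282011) (nat_lit 228) (nat_lit 46485563020) (nat_lit 60) (nat_lit 5) (nat_lit 62) (nat_lit 5) (nat_lit 63) (nat_lit 5) (nat_lit 515) (nat_lit 474) (nat_lit 211)) (XT.lf (nat_lit 0) (nat_lit 67000786477) (nat_lit 228) (nat_lit 94166786915) (nat_lit 76) (nat_lit 335051589708) (nat_lit 59) (nat_lit 5) (nat_lit 62) (nat_lit 5) (nat_lit 60) (nat_lit 5) (nat_lit 516) (nat_lit 474) (nat_lit 210))) (XT.nd (nat_lit 78) (nat_lit 0) (nat_lit 0) (XT.lf (nat_lit 0) (nat_lit 187943553753) (nat_lit 228) (nat_lit 311544849727) (nat_lit 76) (nat_lit 12811175519) (nat_lit 57) (nat_lit 5) (nat_lit 60) (nat_lit 5) (nat_lit 58) (nat_lit 5) (nat_lit 517) (nat_lit 474) (nat_lit 209)) (XT.lf (nat_lit 0) (nat_lit 319196411799) (nat_lit 228) (nat_lit 18081005915) (nat_lit 76) (nat_lit 191693450364) (nat_lit 57) (nat_lit 5) (nat_lit 60) (nat_lit 5) (nat_lit 58) (nat_lit 5) (nat_lit 518) (nat_lit 474) (nat_lit 208))))))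 (XT.nd (nat_lit 546) (nat_lit 760) (nat_lit 0) (XT.nd (nat_lit 234) (nat_lit 304) (nat_lit 0) (XT.nd (nat_lit 78) (nat_lit 228) (nat_lit 0) (XT.lf (nat_lit 0) (nat_lit 299646520815) (nat_lit 152) (nat_lit 162043673243) (nat_lit 228) (nat_lit 84551613494) (nat_lit 55) (nat_lit 5) (nat_lit 57) (nat_lit 5) (nat_lit 58) (nat_lit 5) (nat_lit 519) (nat_lit 474) (nat_lit 207)) (XT.nd (nat_lit 78) (nat_lit 0) (nat_lit 0) (XT.lf (nat_lit 0) (nat_lit 47228968879) (nat_lit 228) (nat_lit 493582829873) (nat_lit 76) (nat_lit 23437921641) (nat_lit 52) (nat_lit 5) (nat_lit 55) (nat_lit 5) (nat_lit 53) (nat_lit 5) (nat_lit 520) (nat_lit 474) (nat_lit 206)) (XT.lf (nat_lit 0) (nat_lit 189658178333) (nat_lit 228) (nat_lit 174706888236) (nat_lit 76) (nat_lit 218378603379) (nat_lit 52) (nat_lit 5) (nat_lit 55) (nat_lit 5) (nat_lit 53) (nat_lit 5) (nat_lit 521) (nat_lit 474) (nat_lit 205)))) (XT.nd (nat_lit 156)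 (nat_lit 152) (nat_lit 0) (XT.nd (nat_lit 78) (nat_lit 0) (nat_lit 0) (XT.lf (nat_lit 0) (nat_lit 165406835631) (nat_lit 152) (nat_lit 176384438775) (nat_lit 228) (nat_lit 260241921275) (nat_lit 50) (nat_lit 5) (nat_lit 52) (nat_lit 5) (nat_lit 53) (nat_lit 5) (nat_lit 522) (nat_lit 474) (nat_lit 204)) (XT.lf (nat_lit 0) (nat_lit 504866031469) (nat_lit 228) (nat_lit 93923951253) (nat_lit 76) (nat_lit 23330464673) (nat_lit 50) (nat_lit 5) (nat_lit 53) (nat_lit 5) (nat_lit 51) (nat_lit 4) (nat_lit 523) (nat_lit 474) (nat_lit 203))) (XT.nd (nat_lit 78) (nat_lit 0) (nat_lit 0) (XT.lf (nat_lit 0) (nat_lit 39080770024) (nat_lit 152) (nat_lit 371767046501) (nat_lit 76) (nat_lit 231976038325) (nat_lit 48) (nat_lit 5) (nat_lit 50) (nat_lit 5) (nat_lit 49) (nat_lit 5) (nat_lit 524) (nat_lit 474) (nat_lit 202)) (XT.lf (nat_lit 0) (nat_lit 200908885957) (nat_lit 152) (nat_lit 8883810502) (nat_lit 76) (nat_lit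 454592791649) (nat_lit 48) (nat_lit 5) (nat_lit 50) (nat_lit 5) (nat_lit 49) (nat_lit 5) (nat_lit 525) (nat_lit 474) (nat_lit 201))))) (XT.nd (nat_lit 312) (nat_lit 304) (nat_lit 0) (XT.nd (nat_lit 156) (nat_lit 228) (nat_lit 0) (XT.nd (nat_lit 78) (nat_lit 76) (nat_lit 0) (XT.lf (nat_lit 0) (nat_lit 376949620352) (nat_lit 228) (nat_lit 302395748754) (nat_lit 76) (nat_lit 7373773294) (nat_lit 46) (nat_lit 5) (nat_lit 49) (nat_lit 5) (nat_lit 47) (nat_lit 4) (nat_lit 526) (nat_lit 474) (nat_lit 200)) (XT.lf (nat_lit 0) (nat_lit 86669644819) (nat_lit 76) (nat_lit 480068011448) (nat_lit 152) (nat_lit 143184559902) (nat_lit 45) (nat_lit 5) (nat_lit 46) (nat_lit 5) (nat_lit 47) (nat_lit 4) (nat_lit 527) (nat_lit 474) (nat_lit 199))) (XT.nd (nat_lit 78) (nat_lit 152) (nat_lit 0) (XT.lf (nat_lit 0) (nat_lit 35919242403) (nat_lit 152) (nat_lit 228921981512) (nat_lit 76) (nat_lit 469159193329) (nat_lit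 44) (nat_lit 5) (nat_lit 46) (nat_lit 5) (nat_lit 45) (nat_lit 5) (nat_lit 528) (nat_lit 474) (nat_lit 198)) (XT.lf (nat_lit 0) (nat_lit 188821250833) (nat_lit 152) (nat_lit 33293040660) (nat_lit 228) (nat_lit 536903472647) (nat_lit 42) (nat_lit 5) (nat_lit 44) (nat_lit 5) (nat_lit 45) (nat_lit 5) (nat_lit 529) (nat_lit 474) (nat_lit 197)))) (XT.nd (nat_lit 156) (nat_lit 228) (nat_lit 0) (XT.nd (nat_lit 78) (nat_lit 76) (nat_lit 0) (XT.lf (nat_lit 0) (nat_lit 424835595694) (nat_lit 228) (nat_lit 153032522670) (nat_lit 76) (nat_lit 207057034889) (nat_lit 42) (nat_lit 5) (nat_lit 45) (nat_lit 5) (nat_lit 43) (nat_lit 4) (nat_lit 530) (nat_lit 474) (nat_lit 196)) (XT.lf (nat_lit 0) (nat_lit 293848821561) (nat_lit 76) (nat_lit 348977704355) (nat_lit 152) (nat_lit 169044707868) (nat_lit 41) (nat_lit 5) (nat_lit 42) (nat_lit 5) (nat_lit 43) (nat_lit 4) (nat_lit 531) (nat_lit 474) (nat_lit 195)))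 (XT.nd (nat_lit 78) (nat_lit 152) (nat_lit 0) (XT.lf (nat_lit 0) (nat_lit 33176647078) (nat_lit 152) (nat_lit 72183021316) (nat_lit 76) (nat_lit 734648612087) (nat_lit 40) (nat_lit 5) (nat_lit 42) (nat_lit 5) (nat_lit 41) (nat_lit 5) (nat_lit 532) (nat_lit 474) (nat_lit 194)) (XT.lf (nat_lit 0) (nat_lit 248667764007) (nat_lit 228) (nat_lit 465417439209) (nat_lit 76) (nat_lit 154886429817) (nat_lit 38) (nat_lit 5) (nat_lit 41) (nat_lit 5) (nat_lit 39) (nat_lit 4) (nat_lit 533) (nat_lit 474) (nat_lit 193))))))))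
noncomputable def xc231 : XT := (XT.nd (nat_lit 59982) (nat_lit 0) (nat_lit 380) (XT.nd (nat_lit 58890) (nat_lit 0) (nat_lit 3648) (XT.nd (nat_lit 58344) (nat_lit 0) (nat_lit 6308) (XT.nd (nat_lit 58032) (nat_lit 0) (nat_lit 6764) (XT.nd (nat_lit 57876) (nat_lit 0) (nat_lit 6688) (XT.lf (nat_lit 0) (nat_lit 4664254679) (nat_lit 76) (nat_lit 473311677861) (nat_lit 152) (nat_lit 421255095890) (nat_lit 37) (nat_lit 5) (nat_lit 38) (nat_lit 5) (nat_lit 39) (nat_lit 4) (nat_lit 534) (nat_lit 474) (nat_lit 192)) (XT.nd (nat_lit 78) (nat_lit 0) (nat_lit 0) (XT.lf (nat_lit 0) (nat_lit 26376513921) (nat_lit 836) (nat_lit 26267440022) (nat_lit 836) (nat_lit 26267440022) (nat_lit 125) (nat_lit 3) (nat_lit 136) (nat_lit 3) (nat_lit 136) (nat_lit 5) (nat_lit 475) (nat_lit 475) (nat_lit 250)) (XT.lf (nat_lit 76) (nat_lit 25599361024) (nat_lit 0) (nat_lit 28874740328) (nat_lit 836) (nat_lit 107274142888)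 (nat_lit 126) (nat_lit 5) (nat_lit 125) (nat_lit 3) (nat_lit 136) (nat_lit 5) (nat_lit 476) (nat_lit 475) (nat_lit 249)))) (XT.nd (nat_lit 156) (nat_lit 0) (nat_lit 76) (XT.nd (nat_lit 78) (nat_lit 0) (nat_lit 0) (XT.lf (nat_lit 0) (nat_lit 57987212006) (nat_lit 760) (nat_lit 57177825009) (nat_lit 836) (nat_lit 50619637240) (nat_lit 126) (nat_lit 5) (nat_lit 136) (nat_lit 5) (nat_lit 137) (nat_lit 5) (nat_lit 477) (nat_lit 475) (nat_lit 248)) (XT.lf (nat_lit 76) (nat_lit 26103820891) (nat_lit 0) (nat_lit 36452910631) (nat_lit 836) (nat_lit 107422156642) (nat_lit 127) (nat_lit 5) (nat_lit 126) (nat_lit 5) (nat_lit 137) (nat_lit 5) (nat_lit 478) (nat_lit 475) (nat_lit 247))) (XT.nd (nat_lit 78) (nat_lit 0) (nat_lit 0) (XT.lf (nat_lit 0) (nat_lit 69060016176) (nat_lit 760) (nat_lit 59536968067) (nat_lit 836) (nat_lit 45700564125) (nat_lit 127) (nat_lit 5) (nat_lit 137) (nat_lit 5) (nat_lit 138)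 (nat_lit 5) (nat_lit 479) (nat_lit 475) (nat_lit 246)) (XT.lf (nat_lit 76) (nat_lit 29360056269) (nat_lit 0) (nat_lit 47584247456) (nat_lit 836) (nat_lit 101835045979) (nat_lit 128) (nat_lit 5) (nat_lit 127) (nat_lit 5) (nat_lit 138) (nat_lit 5) (nat_lit 480) (nat_lit 475) (nat_lit 245))))) (XT.nd (nat_lit 234) (nat_lit 608) (nat_lit 0) (XT.nd (nat_lit 78) (nat_lit 0) (nat_lit 0) (XT.lf (nat_lit 0) (nat_lit 86832639705) (nat_lit 760) (nat_lit 59267691648) (nat_lit 836) (nat_lit 37304418105) (nat_lit 128) (nat_lit 5) (nat_lit 138) (nat_lit 5) (nat_lit 139) (nat_lit 5) (nat_lit 481) (nat_lit 475) (nat_lit 244)) (XT.nd (nat_lit 78) (nat_lit 0) (nat_lit 76) (XT.lf (nat_lit 76) (nat_lit 35755729796) (nat_lit 0) (nat_lit 62797849172) (nat_lit 836) (nat_lit 89640930957) (nat_lit 129) (nat_lit 5) (nat_lit 128) (nat_lit 5) (nat_lit 139) (nat_lit 5) (nat_lit 482) (nat_lit 475) (nat_lit 243)) (XT.lf (nat_lit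 0) (nat_lit 112265785696) (nat_lit 760) (nat_lit 55987330590) (nat_lit 836) (nat_lit 24900381152) (nat_lit 129) (nat_lit 5) (nat_lit 139) (nat_lit 5) (nat_lit 140) (nat_lit 5) (nat_lit 483) (nat_lit 475) (nat_lit 242)))) (XT.nd (nat_lit 156) (nat_lit 684) (nat_lit 0) (XT.nd (nat_lit 78) (nat_lit 0) (nat_lit 76) (XT.lf (nat_lit 76) (nat_lit 45720460986) (nat_lit 0) (nat_lit 82686320077) (nat_lit 836) (nat_lit 69866494395) (nat_lit 130) (nat_lit 5) (nat_lit 129) (nat_lit 5) (nat_lit 140) (nat_lit 5) (nat_lit 484) (nat_lit 475) (nat_lit 241)) (XT.lf (nat_lit 0) (nat_lit 146430197026) (nat_lit 760) (nat_lit 49271653201) (nat_lit 76) (nat_lit 7893423653) (nat_lit 130) (nat_lit 5) (nat_lit 140) (nat_lit 5) (nat_lit 131) (nat_lit 5) (nat_lit 485) (nat_lit 475) (nat_lit 240))) (XT.nd (nat_lit 78) (nat_lit 0) (nat_lit 0) (XT.lf (nat_lit 0) (nat_lit 59729677981) (nat_lit 760) (nat_lit 107913057678) (nat_lit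 836) (nat_lit 41426239010) (nat_lit 120) (nat_lit 5) (nat_lit 130) (nat_lit 5) (nat_lit 131) (nat_lit 5) (nat_lit 486) (nat_lit 475) (nat_lit 239)) (XT.lf (nat_lit 0) (nat_lit 175891580413) (nat_lit 760) (nat_lit 14858654571) (nat_lit 836) (nat_lit 24024408868) (nat_lit 120) (nat_lit 5) (nat_lit 130) (nat_lit 5) (nat_lit 131) (nat_lit 5) (nat_lit 487) (nat_lit 475) (nat_lit 238)))))) (XT.nd (nat_lit 546) (nat_lit 1140) (nat_lit 0) (XT.nd (nat_lit 234) (nat_lit 684) (nat_lit 0) (XT.nd (nat_lit 78) (nat_lit 456) (nat_lit 0) (XT.lf (nat_lit 0) (nat_lit 78308757486) (nat_lit 380) (nat_lit 139220367370) (nat_lit 456) (nat_lit 3110670895) (nat_lit 115) (nat_lit 5) (nat_lit 120) (nat_lit 5) (nat_lit 121) (nat_lit 5) (nat_lit 488) (nat_lit 475) (nat_lit 237)) (XT.nd (nat_lit 78) (nat_lit 380) (nat_lit 0) (XT.lf (nat_lit 0) (nat_lit 19158260580) (nat_lit 456) (nat_lit 24603938197) (nat_lit 76) (nat_lit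 182975653186) (nat_lit 114) (nat_lit 5) (nat_lit 120) (nat_lit 5) (nat_lit 115) (nat_lit 5) (nat_lit 489) (nat_lit 475) (nat_lit 236)) (XT.lf (nat_lit 0) (nat_lit 44940748450) (nat_lit 456) (nat_lit 131736658591) (nat_lit 76) (nat_lit 56335621809) (nat_lit 109) (nat_lit 5) (nat_lit 115) (nat_lit 5) (nat_lit 110) (nat_lit 5) (nat_lit 490) (nat_lit 475) (nat_lit 235)))) (XT.nd (nat_lit 156) (nat_lit 304) (nat_lit 0) (XT.nd (nat_lit 78) (nat_lit 380) (nat_lit 0) (XT.lf (nat_lit 0) (nat_lit 73153193250) (nat_lit 456) (nat_lit 6000583801) (nat_lit 76) (nat_lit 160391145934) (nat_lit 109) (nat_lit 5) (nat_lit 115) (nat_lit 5) (nat_lit 110) (nat_lit 5) (nat_lit 491) (nat_lit 475) (nat_lit 234)) (XT.lf (nat_lit 0) (nat_lit 105205047063) (nat_lit 456) (nat_lit 116508976744) (nat_lit 76) (nat_lit 24567948710) (nat_lit 104) (nat_lit 5) (nat_lit 110) (nat_lit 5) (nat_lit 105) (nat_lit 5) (nat_lit 492)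 (nat_lit 475) (nat_lit 233))) (XT.nd (nat_lit 78) (nat_lit 0) (nat_lit 0) (XT.lf (nat_lit 0) (nat_lit 18485061576) (nat_lit 304) (nat_lit 122063843217) (nat_lit 380) (nat_lit 112722499200) (nat_lit 100) (nat_lit 5) (nat_lit 104) (nat_lit 5) (nat_lit 105) (nat_lit 5) (nat_lit 493) (nat_lit 475) (nat_lit 232)) (XT.lf (nat_lit 0) (nat_lit 164273637282) (nat_lit 304) (nat_lit 15359372545) (nat_lit 380) (nat_lit 80878644522) (nat_lit 100) (nat_lit 5) (nat_lit 104) (nat_lit 5) (nat_lit 105) (nat_lit 5) (nat_lit 494) (nat_lit 475) (nat_lit 231))))) (XT.nd (nat_lit 234) (nat_lit 532) (nat_lit 0) (XT.nd (nat_lit 78) (nat_lit 304) (nat_lit 0) (XT.lf (nat_lit 0) (nat_lit 49306290588) (nat_lit 304) (nat_lit 173644211895) (nat_lit 380) (nat_lit 45049455645) (nat_lit 96) (nat_lit 5) (nat_lit 100) (nat_lit 5) (nat_lit 101) (nat_lit 5) (nat_lit 495) (nat_lit 475) (nat_lit 230)) (XT.nd (nat_lit 78) (nat_lit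 304) (nat_lit 0) (XT.lf (nat_lit 0) (nat_lit 205208770935) (nat_lit 304) (nat_lit 65102592548) (nat_lit 380) (nat_lit 5457438953) (nat_lit 96) (nat_lit 5) (nat_lit 100) (nat_lit 5) (nat_lit 101) (nat_lit 5) (nat_lit 496) (nat_lit 475) (nat_lit 229)) (XT.lf (nat_lit 0) (nat_lit 37114280855) (nat_lit 304) (nat_lit 197416783632) (nat_lit 76) (nat_lit 49259033239) (nat_lit 92) (nat_lit 5) (nat_lit 96) (nat_lit 5) (nat_lit 93) (nat_lit 5) (nat_lit 497) (nat_lit 475) (nat_lit 228)))) (XT.nd (nat_lit 156) (nat_lit 228) (nat_lit 0) (XT.nd (nat_lit 78) (nat_lit 304) (nat_lit 0) (XT.lf (nat_lit 0) (nat_lit 83912923212) (nat_lit 304) (nat_lit 39726099815) (nat_lit 76) (nat_lit 168454874351) (nat_lit 92) (nat_lit 5) (nat_lit 96) (nat_lit 5) (nat_lit 93) (nat_lit 5) (nat_lit 498) (nat_lit 475) (nat_lit 227)) (XT.lf (nat_lit 0) (nat_lit 130010168948) (nat_lit 304) (nat_lit 5071083979) (nat_lit 380) (nat_lit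 165630146343) (nat_lit 88) (nat_lit 5) (nat_lit 92) (nat_lit 5) (nat_lit 93) (nat_lit 5) (nat_lit 499) (nat_lit 475) (nat_lit 226))) (XT.nd (nat_lit 78) (nat_lit 228) (nat_lit 0) (XT.lf (nat_lit 0) (nat_lit 191356305668) (nat_lit 380) (nat_lit 1989365855) (nat_lit 76) (nat_lit 116286689425) (nat_lit 88) (nat_lit 5) (nat_lit 93) (nat_lit 5) (nat_lit 89) (nat_lit 5) (nat_lit 500) (nat_lit 475) (nat_lit 225)) (XT.lf (nat_lit 0) (nat_lit 180863641348) (nat_lit 228) (nat_lit 72488327438) (nat_lit 304) (nat_lit 65502059055) (nat_lit 85) (nat_lit 5) (nat_lit 88) (nat_lit 5) (nat_lit 89) (nat_lit 5) (nat_lit 501) (nat_lit 475) (nat_lit 224))))))) (XT.nd (nat_lit 1092) (nat_lit 1520) (nat_lit 0) (XT.nd (nat_lit 546) (nat_lit 760) (nat_lit 0) (XT.nd (nat_lit 234) (nat_lit 456) (nat_lit 0) (XT.nd (nat_lit 78) (nat_lit 304) (nat_lit 0) (XT.lf (nat_lit 0) (nat_lit 44982843889) (nat_lit 228) (nat_lit 275050582895)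 (nat_lit 304) (nat_lit 8424050725) (nat_lit 82) (nat_lit 5) (nat_lit 85) (nat_lit 5) (nat_lit 86) (nat_lit 5) (nat_lit 502) (nat_lit 475) (nat_lit 223)) (XT.nd (nat_lit 78) (nat_lit 228) (nat_lit 0) (XT.lf (nat_lit 0) (nat_lit 53422801399) (nat_lit 304) (nat_lit 98559714246) (nat_lit 76) (nat_lit 186340199106) (nat_lit 81) (nat_lit 5) (nat_lit 85) (nat_lit 5) (nat_lit 82) (nat_lit 5) (nat_lit 503) (nat_lit 475) (nat_lit 222)) (XT.lf (nat_lit 0) (nat_lit 98619200242) (nat_lit 228) (nat_lit 20999356463) (nat_lit 304) (nat_lit 228978769009) (nat_lit 78) (nat_lit 5) (nat_lit 81) (nat_lit 5) (nat_lit 82) (nat_lit 5) (nat_lit 504) (nat_lit 475) (nat_lit 221)))) (XT.nd (nat_lit 156) (nat_lit 228) (nat_lit 0) (XT.nd (nat_lit 78) (nat_lit 228) (nat_lit 0) (XT.lf (nat_lit 0) (nat_lit 192639968508) (nat_lit 304) (nat_lit 52070230654) (nat_lit 76) (nat_lit 114499674641) (nat_lit 78) (nat_lit 5) (nat_lit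 82) (nat_lit 5) (nat_lit 79) (nat_lit 5) (nat_lit 505) (nat_lit 475) (nat_lit 220)) (XT.lf (nat_lit 0) (nat_lit 160526581109) (nat_lit 228) (nat_lit 111636337018) (nat_lit 304) (nat_lit 98047607820) (nat_lit 75) (nat_lit 5) (nat_lit 78) (nat_lit 5) (nat_lit 79) (nat_lit 5) (nat_lit 506) (nat_lit 475) (nat_lit 219))) (XT.nd (nat_lit 78) (nat_lit 76) (nat_lit 0) (XT.lf (nat_lit 0) (nat_lit 3502869938) (nat_lit 152) (nat_lit 353548655063) (nat_lit 228) (nat_lit 24640210223) (nat_lit 73) (nat_lit 5) (nat_lit 75) (nat_lit 5) (nat_lit 76) (nat_lit 5) (nat_lit 507) (nat_lit 475) (nat_lit 218)) (XT.lf (nat_lit 0) (nat_lit 56198592734) (nat_lit 228) (nat_lit 161647767937) (nat_lit 76) (nat_lit 175587741204) (nat_lit 72) (nat_lit 5) (nat_lit 75) (nat_lit 5) (nat_lit 73) (nat_lit 5) (nat_lit 508) (nat_lit 475) (nat_lit 217))))) (XT.nd (nat_lit 234) (nat_lit 380) (nat_lit 0) (XT.nd (nat_lit 78) (nat_lit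 152) (nat_lit 0) (XT.lf (nat_lit 0) (nat_lit 67476023787) (nat_lit 228) (nat_lit 73828678867) (nat_lit 304) (nat_lit 264386015348) (nat_lit 69) (nat_lit 5) (nat_lit 72) (nat_lit 5) (nat_lit 73) (nat_lit 5) (nat_lit 509) (nat_lit 475) (nat_lit 216)) (XT.nd (nat_lit 78) (nat_lit 152) (nat_lit 0) (XT.lf (nat_lit 0) (nat_lit 234656803102) (nat_lit 304) (nat_lit 106008464219) (nat_lit 76) (nat_lit 77695363376) (nat_lit 69) (nat_lit 5) (nat_lit 73) (nat_lit 5) (nat_lit 70) (nat_lit 5) (nat_lit 510) (nat_lit 475) (nat_lit 215)) (XT.lf (nat_lit 0) (nat_lit 141114233927) (nat_lit 152) (nat_lit 194975722308) (nat_lit 228) (nat_lit 95403410417) (nat_lit 67) (nat_lit 5) (nat_lit 69) (nat_lit 5) (nat_lit 70) (nat_lit 5) (nat_lit 511) (nat_lit 475) (nat_lit 214)))) (XT.nd (nat_lit 156) (nat_lit 152) (nat_lit 0) (XT.nd (nat_lit 78) (nat_lit 228) (nat_lit 0) (XT.lf (nat_lit 0) (nat_lit 404273368777) (nat_lit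 152) (nat_lit 40116656786) (nat_lit 228) (nat_lit 802950925) (nat_lit 67) (nat_lit 5) (nat_lit 69) (nat_lit 5) (nat_lit 70) (nat_lit 5) (nat_lit 512) (nat_lit 475) (nat_lit 213)) (XT.lf (nat_lit 0) (nat_lit 100909490973) (nat_lit 228) (nat_lit 234587896371) (nat_lit 76) (nat_lit 123726492147) (nat_lit 64) (nat_lit 5) (nat_lit 67) (nat_lit 5) (nat_lit 65) (nat_lit 5) (nat_lit 513) (nat_lit 475) (nat_lit 212))) (XT.nd (nat_lit 78) (nat_lit 0) (nat_lit 0) (XT.lf (nat_lit 0) (nat_lit 31287460879) (nat_lit 152) (nat_lit 178243554634) (nat_lit 228) (nat_lit 264332131736) (nat_lit 62) (nat_lit 5) (nat_lit 64) (nat_lit 5) (nat_lit 65) (nat_lit 5) (nat_lit 514) (nat_lit 475) (nat_lit 211)) (XT.lf (nat_lit 0) (nat_lit 318600877821) (nat_lit 152) (nat_lit 8955554996) (nat_lit 228) (nat_lit 161479304758) (nat_lit 62) (nat_lit 5) (nat_lit 64) (nat_lit 5) (nat_lit 65) (nat_lit 5) (nat_lit 515) (nat_lit 475)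 (nat_lit 210)))))) (XT.nd (nat_lit 546) (nat_lit 760) (nat_lit 0) (XT.nd (nat_lit 234) (nat_lit 380) (nat_lit 0) (XT.nd (nat_lit 78) (nat_lit 228) (nat_lit 0) (XT.lf (nat_lit 0) (nat_lit 116403176464) (nat_lit 152) (nat_lit 339532674767) (nat_lit 228) (nat_lit 48808469682) (nat_lit 60) (nat_lit 5) (nat_lit 62) (nat_lit 5) (nat_lit 63) (nat_lit 5) (nat_lit 516) (nat_lit 475) (nat_lit 209)) (XT.nd (nat_lit 78) (nat_lit 152) (nat_lit 0) (XT.lf (nat_lit 0) (nat_lit 70352090174) (nat_lit 228) (nat_lit 98873010622) (nat_lit 76) (nat_lit 351804957031) (nat_lit 59) (nat_lit 5) (nat_lit 62) (nat_lit 5) (nat_lit 60) (nat_lit 5) (nat_lit 517) (nat_lit 475) (nat_lit 208)) (XT.lf (nat_lit 0) (nat_lit 197341981294) (nat_lit 228) (nat_lit 327119961856) (nat_lit 76) (nat_lit 13452552107) (nat_lit 57) (nat_lit 5) (nat_lit 60) (nat_lit 5) (nat_lit 58) (nat_lit 5) (nat_lit 518) (nat_lit 475) (nat_lit 207))))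 (XT.nd (nat_lit 156) (nat_lit 228) (nat_lit 0) (XT.nd (nat_lit 78) (nat_lit 152) (nat_lit 0) (XT.lf (nat_lit 0) (nat_lit 335157422726) (nat_lit 228) (nat_lit 18983027299) (nat_lit 76) (nat_lit 201278901750) (nat_lit 57) (nat_lit 5) (nat_lit 60) (nat_lit 5) (nat_lit 58) (nat_lit 5) (nat_lit 519) (nat_lit 475) (nat_lit 206)) (XT.lf (nat_lit 0) (nat_lit 314630843043) (nat_lit 152) (nat_lit 170145025539) (nat_lit 228) (nat_lit 88777970927) (nat_lit 55) (nat_lit 5) (nat_lit 57) (nat_lit 5) (nat_lit 58) (nat_lit 5) (nat_lit 520) (nat_lit 475) (nat_lit 205))) (XT.nd (nat_lit 78) (nat_lit 0) (nat_lit 0) (XT.lf (nat_lit 0) (nat_lit 49591589468) (nat_lit 228) (nat_lit 518259923747) (nat_lit 76) (nat_lit 24610634426) (nat_lit 52) (nat_lit 5) (nat_lit 55) (nat_lit 5) (nat_lit 53) (nat_lit 5) (nat_lit 521) (nat_lit 475) (nat_lit 204)) (XT.lf (nat_lit 0) (nat_lit 199142203579) (nat_lit 228) (nat_lit 183440282535)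 (nat_lit 76) (nat_lit 229298311360) (nat_lit 52) (nat_lit 5) (nat_lit 55) (nat_lit 5) (nat_lit 53) (nat_lit 5) (nat_lit 522) (nat_lit 475) (nat_lit 203))))) (XT.nd (nat_lit 312) (nat_lit 456) (nat_lit 0) (XT.nd (nat_lit 156) (nat_lit 152) (nat_lit 0) (XT.nd (nat_lit 78) (nat_lit 0) (nat_lit 0) (XT.lf (nat_lit 0) (nat_lit 173679096072) (nat_lit 152) (nat_lit 185202835180) (nat_lit 228) (nat_lit 273252869408) (nat_lit 50) (nat_lit 5) (nat_lit 52) (nat_lit 5) (nat_lit 53) (nat_lit 5) (nat_lit 523) (nat_lit 475) (nat_lit 202)) (XT.lf (nat_lit 0) (nat_lit 530110386390) (nat_lit 228) (nat_lit 98618281601) (nat_lit 76) (nat_lit 24497748965) (nat_lit 50) (nat_lit 5) (nat_lit 53) (nat_lit 5) (nat_lit 51) (nat_lit 4) (nat_lit 524) (nat_lit 475) (nat_lit 201))) (XT.nd (nat_lit 78) (nat_lit 0) (nat_lit 0) (XT.lf (nat_lit 0) (nat_lit 41035857441) (nat_lit 152) (nat_lit 390353526918) (nat_lit 76) (nat_lit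 243575610659) (nat_lit 48) (nat_lit 5) (nat_lit 50) (nat_lit 5) (nat_lit 49) (nat_lit 5) (nat_lit 525) (nat_lit 475) (nat_lit 200)) (XT.lf (nat_lit 0) (nat_lit 210955329223) (nat_lit 152) (nat_lit 9326218257) (nat_lit 76) (nat_lit 477323164962) (nat_lit 48) (nat_lit 5) (nat_lit 50) (nat_lit 5) (nat_lit 49) (nat_lit 5) (nat_lit 526) (nat_lit 475) (nat_lit 199)))) (XT.nd (nat_lit 156) (nat_lit 228) (nat_lit 0) (XT.nd (nat_lit 78) (nat_lit 76) (nat_lit 0) (XT.lf (nat_lit 0) (nat_lit 395798092257) (nat_lit 228) (nat_lit 317513745224) (nat_lit 76) (nat_lit 7743212378) (nat_lit 46) (nat_lit 5) (nat_lit 49) (nat_lit 5) (nat_lit 47) (nat_lit 4) (nat_lit 527) (nat_lit 475) (nat_lit 198)) (XT.lf (nat_lit 0) (nat_lit 91004889141) (nat_lit 76) (nat_lit 504070621153) (nat_lit 152) (nat_lit 150342768013) (nat_lit 45) (nat_lit 5) (nat_lit 46) (nat_lit 5) (nat_lit 47) (nat_lit 4) (nat_lit 528) (nat_lit 475)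 (nat_lit 197))) (XT.nd (nat_lit 78) (nat_lit 152) (nat_lit 0) (XT.lf (nat_lit 0) (nat_lit 37716144753) (nat_lit 152) (nat_lit 240366371226) (nat_lit 76) (nat_lit 492617875014) (nat_lit 44) (nat_lit 5) (nat_lit 46) (nat_lit 5) (nat_lit 45) (nat_lit 5) (nat_lit 529) (nat_lit 475) (nat_lit 196)) (XT.lf (nat_lit 0) (nat_lit 198263995166) (nat_lit 152) (nat_lit 34956932617) (nat_lit 228) (nat_lit 563747678383) (nat_lit 42) (nat_lit 5) (nat_lit 44) (nat_lit 5) (nat_lit 45) (nat_lit 5) (nat_lit 530) (nat_lit 475) (nat_lit 195))))))))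
noncomputable def xc232 : XT := (XT.nd (nat_lit 60060) (nat_lit 0) (nat_lit 760) (XT.nd (nat_lit 58968) (nat_lit 0) (nat_lit 4104) (XT.nd (nat_lit 58422) (nat_lit 0) (nat_lit 6688) (XT.nd (nat_lit 234) (nat_lit 152) (nat_lit 0) (XT.nd (nat_lit 78) (nat_lit 152) (nat_lit 0) (XT.lf (nat_lit 0) (nat_lit 446078264604) (nat_lit 228) (nat_lit 160682514418) (nat_lit 76) (nat_lit 217410587347) (nat_lit 42) (nat_lit 5) (nat_lit 45) (nat_lit 5) (nat_lit 43) (nat_lit 4) (nat_lit 531) (nat_lit 475) (nat_lit 194)) (XT.nd (nat_lit 78) (nat_lit 76) (nat_lit 0) (XT.lf (nat_lit 0) (nat_lit 308542870664) (nat_lit 76) (nat_lit 366425853439) (nat_lit 152) (nat_lit 177496027689) (nat_lit 41) (nat_lit 5) (nat_lit 42) (nat_lit 5) (nat_lit 43) (nat_lit 4) (nat_lit 532) (nat_lit 475) (nat_lit 193)) (XT.lf (nat_lit 0) (nat_lit 34836323497) (nat_lit 152) (nat_lit 75790612942) (nat_lit 76) (nat_lit 771381715783) (nat_lit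 40) (nat_lit 5) (nat_lit 42) (nat_lit 5) (nat_lit 41) (nat_lit 5) (nat_lit 533) (nat_lit 475) (nat_lit 192)))) (XT.nd (nat_lit 58032) (nat_lit 0) (nat_lit 6612) (XT.nd (nat_lit 57954) (nat_lit 0) (nat_lit 6612) (XT.lf (nat_lit 0) (nat_lit 261101991064) (nat_lit 228) (nat_lit 488686746446) (nat_lit 76) (nat_lit 162631435158) (nat_lit 38) (nat_lit 5) (nat_lit 41) (nat_lit 5) (nat_lit 39) (nat_lit 4) (nat_lit 534) (nat_lit 475) (nat_lit 191)) (XT.lf (nat_lit 0) (nat_lit 27697869538) (nat_lit 836) (nat_lit 27579483323) (nat_lit 836) (nat_lit 27579483323) (nat_lit 125) (nat_lit 3) (nat_lit 136) (nat_lit 3) (nat_lit 136) (nat_lit 5) (nat_lit 476) (nat_lit 476) (nat_lit 248))) (XT.nd (nat_lit 78) (nat_lit 0) (nat_lit 76) (XT.lf (nat_lit 76) (nat_lit 26881943615) (nat_lit 0) (nat_lit 30320722522) (nat_lit 836) (nat_lit 112632745454) (nat_lit 126) (nat_lit 5) (nat_lit 125) (nat_lit 3) (nat_lit 136)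 (nat_lit 5) (nat_lit 477) (nat_lit 476) (nat_lit 247)) (XT.lf (nat_lit 0) (nat_lit 60891167524) (nat_lit 760) (nat_lit 60033959636) (nat_lit 836) (nat_lit 53148549276) (nat_lit 126) (nat_lit 5) (nat_lit 136) (nat_lit 5) (nat_lit 137) (nat_lit 5) (nat_lit 478) (nat_lit 476) (nat_lit 246))))) (XT.nd (nat_lit 234) (nat_lit 0) (nat_lit 152) (XT.nd (nat_lit 78) (nat_lit 0) (nat_lit 76) (XT.lf (nat_lit 76) (nat_lit 27411724097) (nat_lit 0) (nat_lit 38277262458) (nat_lit 836) (nat_lit 112788623394) (nat_lit 127) (nat_lit 5) (nat_lit 126) (nat_lit 5) (nat_lit 137) (nat_lit 5) (nat_lit 479) (nat_lit 476) (nat_lit 245)) (XT.nd (nat_lit 78) (nat_lit 0) (nat_lit 0) (XT.lf (nat_lit 0) (nat_lit 72517199667) (nat_lit 760) (nat_lit 62510996066) (nat_lit 836) (nat_lit 47984019299) (nat_lit 127) (nat_lit 5) (nat_lit 137) (nat_lit 5) (nat_lit 138) (nat_lit 5) (nat_lit 480) (nat_lit 476) (nat_lit 244)) (XT.lf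 (nat_lit 76) (nat_lit 30830833997) (nat_lit 0) (nat_lit 49964711746) (nat_lit 836) (nat_lit 106922568562) (nat_lit 128) (nat_lit 5) (nat_lit 127) (nat_lit 5) (nat_lit 138) (nat_lit 5) (nat_lit 481) (nat_lit 476) (nat_lit 243)))) (XT.nd (nat_lit 156) (nat_lit 0) (nat_lit 76) (XT.nd (nat_lit 78) (nat_lit 0) (nat_lit 0) (XT.lf (nat_lit 0) (nat_lit 91178088153) (nat_lit 760) (nat_lit 62228221616) (nat_lit 836) (nat_lit 39168484870) (nat_lit 128) (nat_lit 5) (nat_lit 138) (nat_lit 5) (nat_lit 139) (nat_lit 5) (nat_lit 482) (nat_lit 476) (nat_lit 242)) (XT.lf (nat_lit 76) (nat_lit 37546324857) (nat_lit 0) (nat_lit 65938611635) (nat_lit 836) (nat_lit 94119113601) (nat_lit 129) (nat_lit 5) (nat_lit 128) (nat_lit 5) (nat_lit 139) (nat_lit 5) (nat_lit 483) (nat_lit 476) (nat_lit 241))) (XT.nd (nat_lit 78) (nat_lit 0) (nat_lit 0) (XT.lf (nat_lit 0) (nat_lit 117882565451) (nat_lit 760) (nat_lit 58783832850)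 (nat_lit 836) (nat_lit 26144598154) (nat_lit 129) (nat_lit 5) (nat_lit 139) (nat_lit 5) (nat_lit 140) (nat_lit 5) (nat_lit 484) (nat_lit 476) (nat_lit 240)) (XT.lf (nat_lit 76) (nat_lit 48009302106) (nat_lit 0) (nat_lit 86821186263) (nat_lit 836) (nat_lit 73356281179) (nat_lit 130) (nat_lit 5) (nat_lit 129) (nat_lit 5) (nat_lit 140) (nat_lit 5) (nat_lit 485) (nat_lit 476) (nat_lit 239)))))) (XT.nd (nat_lit 546) (nat_lit 1292) (nat_lit 0) (XT.nd (nat_lit 234) (nat_lit 836) (nat_lit 0) (XT.nd (nat_lit 78) (nat_lit 760) (nat_lit 0) (XT.lf (nat_lit 0) (nat_lit 153754906557) (nat_lit 760) (nat_lit 51732382201) (nat_lit 76) (nat_lit 8287587623) (nat_lit 130) (nat_lit 5) (nat_lit 140) (nat_lit 5) (nat_lit 131) (nat_lit 5) (nat_lit 486) (nat_lit 476) (nat_lit 238)) (XT.nd (nat_lit 78) (nat_lit 0) (nat_lit 0) (XT.lf (nat_lit 0) (nat_lit 62718969514) (nat_lit 760) (nat_lit 113308994079) (nat_lit 836)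 (nat_lit 43494304102) (nat_lit 120) (nat_lit 5) (nat_lit 130) (nat_lit 5) (nat_lit 131) (nat_lit 5) (nat_lit 487) (nat_lit 476) (nat_lit 237)) (XT.lf (nat_lit 0) (nat_lit 184688833370) (nat_lit 760) (nat_lit 15601857315) (nat_lit 836) (nat_lit 25222537065) (nat_lit 120) (nat_lit 5) (nat_lit 130) (nat_lit 5) (nat_lit 131) (nat_lit 5) (nat_lit 488) (nat_lit 476) (nat_lit 236)))) (XT.nd (nat_lit 156) (nat_lit 380) (nat_lit 0) (XT.nd (nat_lit 78) (nat_lit 76) (nat_lit 0) (XT.lf (nat_lit 0) (nat_lit 82226976219) (nat_lit 380) (nat_lit 146181448046) (nat_lit 456) (nat_lit 3263218071) (nat_lit 115) (nat_lit 5) (nat_lit 120) (nat_lit 5) (nat_lit 121) (nat_lit 5) (nat_lit 489) (nat_lit 476) (nat_lit 235)) (XT.lf (nat_lit 0) (nat_lit 20118926739) (nat_lit 456) (nat_lit 25831394693) (nat_lit 76) (nat_lit 192124284526) (nat_lit 114) (nat_lit 5) (nat_lit 120) (nat_lit 5) (nat_lit 115) (nat_lit 5) (nat_lit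 490) (nat_lit 476) (nat_lit 234))) (XT.nd (nat_lit 78) (nat_lit 0) (nat_lit 0) (XT.lf (nat_lit 0) (nat_lit 47190450497) (nat_lit 456) (nat_lit 138320661699) (nat_lit 76) (nat_lit 59152433963) (nat_lit 109) (nat_lit 5) (nat_lit 115) (nat_lit 5) (nat_lit 110) (nat_lit 5) (nat_lit 491) (nat_lit 476) (nat_lit 233)) (XT.lf (nat_lit 0) (nat_lit 76813390650) (nat_lit 456) (nat_lit 6297917924) (nat_lit 76) (nat_lit 168410732815) (nat_lit 109) (nat_lit 5) (nat_lit 115) (nat_lit 5) (nat_lit 110) (nat_lit 5) (nat_lit 492) (nat_lit 476) (nat_lit 232))))) (XT.nd (nat_lit 234) (nat_lit 608) (nat_lit 0) (XT.nd (nat_lit 78) (nat_lit 304) (nat_lit 0) (XT.lf (nat_lit 0) (nat_lit 110467760726) (nat_lit 456) (nat_lit 122331653268) (nat_lit 76) (nat_lit 25796533266) (nat_lit 104) (nat_lit 5) (nat_lit 110) (nat_lit 5) (nat_lit 105) (nat_lit 5) (nat_lit 493) (nat_lit 476) (nat_lit 231)) (XT.nd (nat_lit 78) (nat_lit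 0) (nat_lit 0) (XT.lf (nat_lit 0) (nat_lit 19412042253) (nat_lit 304) (nat_lit 128166694470) (nat_lit 380) (nat_lit 118356117356) (nat_lit 100) (nat_lit 5) (nat_lit 104) (nat_lit 5) (nat_lit 105) (nat_lit 5) (nat_lit 494) (nat_lit 476) (nat_lit 230)) (XT.lf (nat_lit 0) (nat_lit 172489916859) (nat_lit 304) (nat_lit 16127016498) (nat_lit 380) (nat_lit 84920189316) (nat_lit 100) (nat_lit 5) (nat_lit 104) (nat_lit 5) (nat_lit 105) (nat_lit 5) (nat_lit 495) (nat_lit 476) (nat_lit 229)))) (XT.nd (nat_lit 156) (nat_lit 304) (nat_lit 0) (XT.nd (nat_lit 78) (nat_lit 0) (nat_lit 0) (XT.lf (nat_lit 0) (nat_lit 51774268493) (nat_lit 304) (nat_lit 182325970323) (nat_lit 380) (nat_lit 47299605952) (nat_lit 96) (nat_lit 5) (nat_lit 100) (nat_lit 5) (nat_lit 101) (nat_lit 5) (nat_lit 496) (nat_lit 476) (nat_lit 228)) (XT.lf (nat_lit 0) (nat_lit 215471746031) (nat_lit 304) (nat_lit 68357291540) (nat_lit 380)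 (nat_lit 5728099018) (nat_lit 96) (nat_lit 5) (nat_lit 100) (nat_lit 5) (nat_lit 101) (nat_lit 5) (nat_lit 497) (nat_lit 476) (nat_lit 227))) (XT.nd (nat_lit 78) (nat_lit 0) (nat_lit 0) (XT.lf (nat_lit 0) (nat_lit 38972081690) (nat_lit 304) (nat_lit 207284959924) (nat_lit 76) (nat_lit 51722456050) (nat_lit 92) (nat_lit 5) (nat_lit 96) (nat_lit 5) (nat_lit 93) (nat_lit 5) (nat_lit 498) (nat_lit 476) (nat_lit 226)) (XT.lf (nat_lit 0) (nat_lit 88110556793) (nat_lit 304) (nat_lit 41709868720) (nat_lit 76) (nat_lit 176878066782) (nat_lit 92) (nat_lit 5) (nat_lit 96) (nat_lit 5) (nat_lit 93) (nat_lit 5) (nat_lit 499) (nat_lit 476) (nat_lit 225))))))) (XT.nd (nat_lit 1092) (nat_lit 1444) (nat_lit 0) (XT.nd (nat_lit 546) (nat_lit 836) (nat_lit 0) (XT.nd (nat_lit 234) (nat_lit 532) (nat_lit 0) (XT.nd (nat_lit 78) (nat_lit 228) (nat_lit 0) (XT.lf (nat_lit 0) (nat_lit 136513172576) (nat_lit 304) (nat_lit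 5324074735) (nat_lit 380) (nat_lit 173909624781) (nat_lit 88) (nat_lit 5) (nat_lit 92) (nat_lit 5) (nat_lit 93) (nat_lit 5) (nat_lit 500) (nat_lit 476) (nat_lit 224)) (XT.nd (nat_lit 78) (nat_lit 228) (nat_lit 0) (XT.lf (nat_lit 0) (nat_lit 200925969080) (nat_lit 380) (nat_lit 2086373648) (nat_lit 76) (nat_lit 122101543334) (nat_lit 88) (nat_lit 5) (nat_lit 93) (nat_lit 5) (nat_lit 89) (nat_lit 5) (nat_lit 501) (nat_lit 476) (nat_lit 223)) (XT.lf (nat_lit 0) (nat_lit 189909244230) (nat_lit 228) (nat_lit 76112120914) (nat_lit 304) (nat_lit 68775273692) (nat_lit 85) (nat_lit 5) (nat_lit 88) (nat_lit 5) (nat_lit 89) (nat_lit 5) (nat_lit 502) (nat_lit 476) (nat_lit 222)))) (XT.nd (nat_lit 156) (nat_lit 228) (nat_lit 0) (XT.nd (nat_lit 78) (nat_lit 76) (nat_lit 0) (XT.lf (nat_lit 0) (nat_lit 47234447224) (nat_lit 228) (nat_lit 288802410890) (nat_lit 304) (nat_lit 8843404793) (nat_lit 82) (nat_lit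 5) (nat_lit 85) (nat_lit 5) (nat_lit 86) (nat_lit 5) (nat_lit 503) (nat_lit 476) (nat_lit 221)) (XT.lf (nat_lit 0) (nat_lit 56095645570) (nat_lit 304) (nat_lit 103485299235) (nat_lit 76) (nat_lit 195657820045) (nat_lit 81) (nat_lit 5) (nat_lit 85) (nat_lit 5) (nat_lit 82) (nat_lit 5) (nat_lit 504) (nat_lit 476) (nat_lit 220))) (XT.nd (nat_lit 78) (nat_lit 0) (nat_lit 0) (XT.lf (nat_lit 0) (nat_lit 103552522255) (nat_lit 228) (nat_lit 22048622115) (nat_lit 304) (nat_lit 240425964224) (nat_lit 78) (nat_lit 5) (nat_lit 81) (nat_lit 5) (nat_lit 82) (nat_lit 5) (nat_lit 505) (nat_lit 476) (nat_lit 219)) (XT.lf (nat_lit 0) (nat_lit 202273558165) (nat_lit 304) (nat_lit 54671423670) (nat_lit 76) (nat_lit 120225305703) (nat_lit 78) (nat_lit 5) (nat_lit 82) (nat_lit 5) (nat_lit 79) (nat_lit 5) (nat_lit 506) (nat_lit 476) (nat_lit 218))))) (XT.nd (nat_lit 234) (nat_lit 380) (nat_lit 0) (XT.nd (nat_lit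 78) (nat_lit 228) (nat_lit 0) (XT.lf (nat_lit 0) (nat_lit 168555191286) (nat_lit 228) (nat_lit 117217423821) (nat_lit 304) (nat_lit 102948359209) (nat_lit 75) (nat_lit 5) (nat_lit 78) (nat_lit 5) (nat_lit 79) (nat_lit 5) (nat_lit 507) (nat_lit 476) (nat_lit 217)) (XT.nd (nat_lit 78) (nat_lit 76) (nat_lit 0) (XT.lf (nat_lit 0) (nat_lit 3680323222) (nat_lit 152) (nat_lit 371225302160) (nat_lit 228) (nat_lit 25870620040) (nat_lit 73) (nat_lit 5) (nat_lit 75) (nat_lit 5) (nat_lit 76) (nat_lit 5) (nat_lit 508) (nat_lit 476) (nat_lit 216)) (XT.lf (nat_lit 0) (nat_lit 59009998049) (nat_lit 228) (nat_lit 169727907420) (nat_lit 76) (nat_lit 184367827392) (nat_lit 72) (nat_lit 5) (nat_lit 75) (nat_lit 5) (nat_lit 73) (nat_lit 5) (nat_lit 509) (nat_lit 476) (nat_lit 215)))) (XT.nd (nat_lit 156) (nat_lit 152) (nat_lit 0) (XT.nd (nat_lit 78) (nat_lit 0) (nat_lit 0) (XT.lf (nat_lit 0) (nat_lit 70852037617)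 (nat_lit 228) (nat_lit 77519340123) (nat_lit 304) (nat_lit 277603803857) (nat_lit 69) (nat_lit 5) (nat_lit 72) (nat_lit 5) (nat_lit 73) (nat_lit 5) (nat_lit 510) (nat_lit 476) (nat_lit 214)) (XT.lf (nat_lit 0) (nat_lit 246391026130) (nat_lit 304) (nat_lit 111306722780) (nat_lit 76) (nat_lit 81580843884) (nat_lit 69) (nat_lit 5) (nat_lit 73) (nat_lit 5) (nat_lit 70) (nat_lit 5) (nat_lit 511) (nat_lit 476) (nat_lit 213))) (XT.nd (nat_lit 78) (nat_lit 0) (nat_lit 0) (XT.lf (nat_lit 0) (nat_lit 148172075360) (nat_lit 152) (nat_lit 204723728960) (nat_lit 228) (nat_lit 100172162872) (nat_lit 67) (nat_lit 5) (nat_lit 69) (nat_lit 5) (nat_lit 70) (nat_lit 5) (nat_lit 512) (nat_lit 476) (nat_lit 212)) (XT.lf (nat_lit 0) (nat_lit 424489065536) (nat_lit 152) (nat_lit 42121747279) (nat_lit 228) (nat_lit 841747932) (nat_lit 67) (nat_lit 5) (nat_lit 69) (nat_lit 5) (nat_lit 70) (nat_lit 5) (nat_lit 513)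 (nat_lit 476) (nat_lit 211)))))) (XT.nd (nat_lit 546) (nat_lit 684) (nat_lit 0) (XT.nd (nat_lit 234) (nat_lit 380) (nat_lit 0) (XT.nd (nat_lit 78) (nat_lit 152) (nat_lit 0) (XT.lf (nat_lit 0) (nat_lit 105956254296) (nat_lit 228) (nat_lit 246315200610) (nat_lit 76) (nat_lit 129913553880) (nat_lit 64) (nat_lit 5) (nat_lit 67) (nat_lit 5) (nat_lit 65) (nat_lit 5) (nat_lit 514) (nat_lit 476) (nat_lit 210)) (XT.nd (nat_lit 78) (nat_lit 0) (nat_lit 0) (XT.lf (nat_lit 0) (nat_lit 32853890785) (nat_lit 152) (nat_lit 187154935022) (nat_lit 228) (nat_lit 277547415599) (nat_lit 62) (nat_lit 5) (nat_lit 64) (nat_lit 5) (nat_lit 65) (nat_lit 5) (nat_lit 515) (nat_lit 476) (nat_lit 209)) (XT.lf (nat_lit 0) (nat_lit 334532880627) (nat_lit 152) (nat_lit 9402573371) (nat_lit 228) (nat_lit 169552010259) (nat_lit 62) (nat_lit 5) (nat_lit 64) (nat_lit 5) (nat_lit 65) (nat_lit 5) (nat_lit 516) (nat_lit 476) (nat_lit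 208)))) (XT.nd (nat_lit 156) (nat_lit 152) (nat_lit 0) (XT.nd (nat_lit 78) (nat_lit 76) (nat_lit 0) (XT.lf (nat_lit 0) (nat_lit 122225310168) (nat_lit 152) (nat_lit 356508518169) (nat_lit 228) (nat_lit 51247649186) (nat_lit 60) (nat_lit 5) (nat_lit 62) (nat_lit 5) (nat_lit 63) (nat_lit 5) (nat_lit 517) (nat_lit 476) (nat_lit 207)) (XT.lf (nat_lit 0) (nat_lit 73870841507) (nat_lit 228) (nat_lit 103814742206) (nat_lit 76) (nat_lit 369395919475) (nat_lit 59) (nat_lit 5) (nat_lit 62) (nat_lit 5) (nat_lit 60) (nat_lit 5) (nat_lit 518) (nat_lit 476) (nat_lit 206))) (XT.nd (nat_lit 78) (nat_lit 0) (nat_lit 0) (XT.lf (nat_lit 0) (nat_lit 207210214014) (nat_lit 228) (nat_lit 343474027652) (nat_lit 76) (nat_lit 14125921491) (nat_lit 57) (nat_lit 5) (nat_lit 60) (nat_lit 5) (nat_lit 58) (nat_lit 5) (nat_lit 519) (nat_lit 476) (nat_lit 205)) (XT.lf (nat_lit 0) (nat_lit 351916373534) (nat_lit 228) (nat_lit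 19930338381) (nat_lit 76) (nat_lit 211343553294) (nat_lit 57) (nat_lit 5) (nat_lit 60) (nat_lit 5) (nat_lit 58) (nat_lit 5) (nat_lit 520) (nat_lit 476) (nat_lit 204))))) (XT.nd (nat_lit 234) (nat_lit 304) (nat_lit 0) (XT.nd (nat_lit 78) (nat_lit 228) (nat_lit 0) (XT.lf (nat_lit 0) (nat_lit 330364195796) (nat_lit 152) (nat_lit 178651522741) (nat_lit 228) (nat_lit 93215759957) (nat_lit 55) (nat_lit 5) (nat_lit 57) (nat_lit 5) (nat_lit 58) (nat_lit 5) (nat_lit 521) (nat_lit 476) (nat_lit 203)) (XT.nd (nat_lit 78) (nat_lit 0) (nat_lit 0) (XT.lf (nat_lit 0) (nat_lit 52072232112) (nat_lit 228) (nat_lit 544171062684) (nat_lit 76) (nat_lit 25841906921) (nat_lit 52) (nat_lit 5) (nat_lit 55) (nat_lit 5) (nat_lit 53) (nat_lit 5) (nat_lit 522) (nat_lit 476) (nat_lit 202)) (XT.lf (nat_lit 0) (nat_lit 209100326301) (nat_lit 228) (nat_lit 192610527851) (nat_lit 76) (nat_lit 240763932427) (nat_lit 52) (nat_lit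 5) (nat_lit 55) (nat_lit 5) (nat_lit 53) (nat_lit 5) (nat_lit 523) (nat_lit 476) (nat_lit 201)))) (XT.nd (nat_lit 156) (nat_lit 152) (nat_lit 0) (XT.nd (nat_lit 78) (nat_lit 0) (nat_lit 0) (XT.lf (nat_lit 0) (nat_lit 182364791157) (nat_lit 152) (nat_lit 194462228155) (nat_lit 228) (nat_lit 286914471671) (nat_lit 50) (nat_lit 5) (nat_lit 52) (nat_lit 5) (nat_lit 53) (nat_lit 5) (nat_lit 524) (nat_lit 476) (nat_lit 200)) (XT.lf (nat_lit 0) (nat_lit 556616861126) (nat_lit 228) (nat_lit 103547502062) (nat_lit 76) (nat_lit 25723326716) (nat_lit 50) (nat_lit 5) (nat_lit 53) (nat_lit 5) (nat_lit 51) (nat_lit 4) (nat_lit 525) (nat_lit 476) (nat_lit 199))) (XT.nd (nat_lit 78) (nat_lit 0) (nat_lit 0) (XT.lf (nat_lit 0) (nat_lit 43088601712) (nat_lit 152) (nat_lit 409869505387) (nat_lit 76) (nat_lit 255755089984) (nat_lit 48) (nat_lit 5) (nat_lit 50) (nat_lit 5) (nat_lit 49) (nat_lit 5) (nat_lit 526)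 (nat_lit 476) (nat_lit 198)) (XT.lf (nat_lit 0) (nat_lit 221504001778) (nat_lit 152) (nat_lit 9790912145) (nat_lit 76) (nat_lit 501189988727) (nat_lit 48) (nat_lit 5) (nat_lit 50) (nat_lit 5) (nat_lit 49) (nat_lit 5) (nat_lit 527) (nat_lit 476) (nat_lit 197))))))))
noncomputable def xc233 : XT := (XT.nd (nat_lit 60138) (nat_lit 0) (nat_lit 760) (XT.nd (nat_lit 59046) (nat_lit 0) (nat_lit 4256) (XT.nd (nat_lit 58500) (nat_lit 0) (nat_lit 6460) (XT.nd (nat_lit 234) (nat_lit 304) (nat_lit 0) (XT.nd (nat_lit 78) (nat_lit 152) (nat_lit 0) (XT.lf (nat_lit 0) (nat_lit 415588895633) (nat_lit 228) (nat_lit 333387808025) (nat_lit 76) (nat_lit 8131053650) (nat_lit 46) (nat_lit 5) (nat_lit 49) (nat_lit 5) (nat_lit 47) (nat_lit 4) (nat_lit 528) (nat_lit 476) (nat_lit 196)) (XT.nd (nat_lit 78) (nat_lit 76) (nat_lit 0) (XT.lf (nat_lit 0) (nat_lit 95556731858) (nat_lit 76) (nat_lit 529273434869) (nat_lit 152)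 (nat_lit 157858981349) (nat_lit 45) (nat_lit 5) (nat_lit 46) (nat_lit 5) (nat_lit 47) (nat_lit 4) (nat_lit 529) (nat_lit 476) (nat_lit 195)) (XT.lf (nat_lit 0) (nat_lit 39602804807) (nat_lit 152) (nat_lit 252383139347) (nat_lit 76) (nat_lit 517249423658) (nat_lit 44) (nat_lit 5) (nat_lit 46) (nat_lit 5) (nat_lit 45) (nat_lit 5) (nat_lit 530) (nat_lit 476) (nat_lit 194)))) (XT.nd (nat_lit 156) (nat_lit 152) (nat_lit 0) (XT.nd (nat_lit 78) (nat_lit 0) (nat_lit 0) (XT.lf (nat_lit 0) (nat_lit 208178720358) (nat_lit 152) (nat_lit 36704089837) (nat_lit 228) (nat_lit 591934184392) (nat_lit 42) (nat_lit 5) (nat_lit 44) (nat_lit 5) (nat_lit 45) (nat_lit 5) (nat_lit 531) (nat_lit 476) (nat_lit 193)) (XT.lf (nat_lit 0) (nat_lit 468382984297) (nat_lit 228) (nat_lit 168715157703) (nat_lit 76) (nat_lit 228281752282) (nat_lit 42) (nat_lit 5) (nat_lit 45) (nat_lit 5) (nat_lit 43) (nat_lit 4) (nat_lit 532)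 (nat_lit 476) (nat_lit 192))) (XT.nd (nat_lit 78) (nat_lit 76) (nat_lit 0) (XT.lf (nat_lit 0) (nat_lit 323971472723) (nat_lit 76) (nat_lit 384746478417) (nat_lit 152) (nat_lit 186369998621) (nat_lit 41) (nat_lit 5) (nat_lit 42) (nat_lit 5) (nat_lit 43) (nat_lit 4) (nat_lit 533) (nat_lit 476) (nat_lit 191)) (XT.lf (nat_lit 0) (nat_lit 36578905264) (nat_lit 152) (nat_lit 79578729132) (nat_lit 76) (nat_lit 809951412087) (nat_lit 40) (nat_lit 5) (nat_lit 42) (nat_lit 5) (nat_lit 41) (nat_lit 5) (nat_lit 534) (nat_lit 476) (nat_lit 190))))) (XT.nd (nat_lit 234) (nat_lit 0) (nat_lit 76) (XT.nd (nat_lit 78) (nat_lit 0) (nat_lit 0) (XT.lf (nat_lit 0) (nat_lit 29085057728) (nat_lit 836) (nat_lit 28957252318) (nat_lit 836) (nat_lit 28957252318) (nat_lit 125) (nat_lit 3) (nat_lit 136) (nat_lit 3) (nat_lit 136) (nat_lit 5) (nat_lit 477) (nat_lit 477) (nat_lit 246)) (XT.nd (nat_lit 78) (nat_lit 0) (nat_lit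 76) (XT.lf (nat_lit 76) (nat_lit 28228412261) (nat_lit 0) (nat_lit 31838795091) (nat_lit 836) (nat_lit 118259752724) (nat_lit 126) (nat_lit 5) (nat_lit 125) (nat_lit 3) (nat_lit 136) (nat_lit 5) (nat_lit 478) (nat_lit 477) (nat_lit 245)) (XT.lf (nat_lit 0) (nat_lit 63939893627) (nat_lit 760) (nat_lit 63033157279) (nat_lit 836) (nat_lit 55804099346) (nat_lit 126) (nat_lit 5) (nat_lit 136) (nat_lit 5) (nat_lit 137) (nat_lit 5) (nat_lit 479) (nat_lit 477) (nat_lit 244)))) (XT.nd (nat_lit 156) (nat_lit 0) (nat_lit 76) (XT.nd (nat_lit 78) (nat_lit 0) (nat_lit 76) (XT.lf (nat_lit 76) (nat_lit 28784770313) (nat_lit 0) (nat_lit 40192673241) (nat_lit 836) (nat_lit 118423844966) (nat_lit 127) (nat_lit 5) (nat_lit 126) (nat_lit 5) (nat_lit 137) (nat_lit 5) (nat_lit 480) (nat_lit 477) (nat_lit 243)) (XT.lf (nat_lit 0) (nat_lit 76146853467) (nat_lit 760) (nat_lit 65633987679) (nat_lit 836) (nat_lit 50381793478)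 (nat_lit 127) (nat_lit 5) (nat_lit 137) (nat_lit 5) (nat_lit 138) (nat_lit 5) (nat_lit 481) (nat_lit 477) (nat_lit 242))) (XT.nd (nat_lit 78) (nat_lit 0) (nat_lit 76) (XT.lf (nat_lit 76) (nat_lit 32374892626) (nat_lit 0) (nat_lit 52464082860) (nat_lit 836) (nat_lit 112264860513) (nat_lit 128) (nat_lit 5) (nat_lit 127) (nat_lit 5) (nat_lit 138) (nat_lit 5) (nat_lit 482) (nat_lit 477) (nat_lit 241)) (XT.lf (nat_lit 0) (nat_lit 95740454204) (nat_lit 760) (nat_lit 65337043478) (nat_lit 836) (nat_lit 41125862273) (nat_lit 128) (nat_lit 5) (nat_lit 138) (nat_lit 5) (nat_lit 139) (nat_lit 5) (nat_lit 483) (nat_lit 477) (nat_lit 240)))))) (XT.nd (nat_lit 546) (nat_lit 1444) (nat_lit 0) (XT.nd (nat_lit 234) (nat_lit 988) (nat_lit 0) (XT.nd (nat_lit 78) (nat_lit 0) (nat_lit 76) (XT.lf (nat_lit 76) (nat_lit 39426188557) (nat_lit 0) (nat_lit 69236331336) (nat_lit 836) (nat_lit 98821564607) (nat_lit 129)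 (nat_lit 5) (nat_lit 128) (nat_lit 5) (nat_lit 139) (nat_lit 5) (nat_lit 484) (nat_lit 477) (nat_lit 239)) (XT.nd (nat_lit 78) (nat_lit 0) (nat_lit 0) (XT.lf (nat_lit 0) (nat_lit 123779859682) (nat_lit 760) (nat_lit 61720426516) (nat_lit 836) (nat_lit 27451100573) (nat_lit 129) (nat_lit 5) (nat_lit 139) (nat_lit 5) (nat_lit 140) (nat_lit 5) (nat_lit 485) (nat_lit 477) (nat_lit 238)) (XT.lf (nat_lit 76) (nat_lit 50412323286) (nat_lit 0) (nat_lit 91162744609) (nat_lit 836) (nat_lit 77020886225) (nat_lit 130) (nat_lit 5) (nat_lit 129) (nat_lit 5) (nat_lit 140) (nat_lit 5) (nat_lit 486) (nat_lit 477) (nat_lit 237)))) (XT.nd (nat_lit 156) (nat_lit 380) (nat_lit 0) (XT.nd (nat_lit 78) (nat_lit 760) (nat_lit 0) (XT.lf (nat_lit 0) (nat_lit 161445554090) (nat_lit 760) (nat_lit 54316412957) (nat_lit 76) (nat_lit 8701506947) (nat_lit 130) (nat_lit 5) (nat_lit 140) (nat_lit 5) (nat_lit 131) (nat_lit 5)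 (nat_lit 487) (nat_lit 477) (nat_lit 236)) (XT.lf (nat_lit 0) (nat_lit 65857464596) (nat_lit 760) (nat_lit 118974700941) (nat_lit 836) (nat_lit 45666074311) (nat_lit 120) (nat_lit 5) (nat_lit 130) (nat_lit 5) (nat_lit 131) (nat_lit 5) (nat_lit 488) (nat_lit 477) (nat_lit 235))) (XT.nd (nat_lit 78) (nat_lit 380) (nat_lit 0) (XT.lf (nat_lit 0) (nat_lit 193925700378) (nat_lit 760) (nat_lit 16382195094) (nat_lit 836) (nat_lit 26480859160) (nat_lit 120) (nat_lit 5) (nat_lit 130) (nat_lit 5) (nat_lit 131) (nat_lit 5) (nat_lit 489) (nat_lit 477) (nat_lit 234)) (XT.lf (nat_lit 0) (nat_lit 86340847350) (nat_lit 380) (nat_lit 153490576964) (nat_lit 456) (nat_lit 3423670250) (nat_lit 115) (nat_lit 5) (nat_lit 120) (nat_lit 5) (nat_lit 121) (nat_lit 5) (nat_lit 490) (nat_lit 477) (nat_lit 233))))) (XT.nd (nat_lit 234) (nat_lit 988) (nat_lit 0) (XT.nd (nat_lit 78) (nat_lit 380) (nat_lit 0) (XT.lf (nat_lit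 0) (nat_lit 21127370245) (nat_lit 456) (nat_lit 27120478791) (nat_lit 76) (nat_lit 201730361502) (nat_lit 114) (nat_lit 5) (nat_lit 120) (nat_lit 5) (nat_lit 115) (nat_lit 5) (nat_lit 491) (nat_lit 477) (nat_lit 232)) (XT.nd (nat_lit 78) (nat_lit 0) (nat_lit 0) (XT.lf (nat_lit 0) (nat_lit 49552389914) (nat_lit 456) (nat_lit 145234128053) (nat_lit 76) (nat_lit 62110083837) (nat_lit 109) (nat_lit 5) (nat_lit 115) (nat_lit 5) (nat_lit 110) (nat_lit 5) (nat_lit 492) (nat_lit 477) (nat_lit 231)) (XT.lf (nat_lit 0) (nat_lit 80656361985) (nat_lit 456) (nat_lit 6610369314) (nat_lit 76) (nat_lit 176831296289) (nat_lit 109) (nat_lit 5) (nat_lit 115) (nat_lit 5) (nat_lit 110) (nat_lit 5) (nat_lit 493) (nat_lit 477) (nat_lit 230)))) (XT.nd (nat_lit 156) (nat_lit 304) (nat_lit 0) (XT.nd (nat_lit 78) (nat_lit 304) (nat_lit 0) (XT.lf (nat_lit 0) (nat_lit 115993381243) (nat_lit 456) (nat_lit 128445721362)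 (nat_lit 76) (nat_lit 27086529652) (nat_lit 104) (nat_lit 5) (nat_lit 110) (nat_lit 5) (nat_lit 105) (nat_lit 5) (nat_lit 494) (nat_lit 477) (nat_lit 229)) (XT.lf (nat_lit 0) (nat_lit 20385118378) (nat_lit 304) (nat_lit 134574719980) (nat_lit 380) (nat_lit 124271649479) (nat_lit 100) (nat_lit 5) (nat_lit 104) (nat_lit 5) (nat_lit 105) (nat_lit 5) (nat_lit 495) (nat_lit 477) (nat_lit 228))) (XT.nd (nat_lit 78) (nat_lit 304) (nat_lit 0) (XT.lf (nat_lit 0) (nat_lit 181116768904) (nat_lit 304) (nat_lit 16933072833) (nat_lit 380) (nat_lit 89164033310) (nat_lit 100) (nat_lit 5) (nat_lit 104) (nat_lit 5) (nat_lit 105) (nat_lit 5) (nat_lit 496) (nat_lit 477) (nat_lit 227)) (XT.lf (nat_lit 0) (nat_lit 54365397678) (nat_lit 304) (nat_lit 191441858710) (nat_lit 380) (nat_lit 49662479695) (nat_lit 96) (nat_lit 5) (nat_lit 100) (nat_lit 5) (nat_lit 101) (nat_lit 5) (nat_lit 497) (nat_lit 477) (nat_lit 226)))))))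 (XT.nd (nat_lit 1092) (nat_lit 1444) (nat_lit 0) (XT.nd (nat_lit 546) (nat_lit 988) (nat_lit 0) (XT.nd (nat_lit 234) (nat_lit 760) (nat_lit 0) (XT.nd (nat_lit 78) (nat_lit 304) (nat_lit 0) (XT.lf (nat_lit 0) (nat_lit 226247634056) (nat_lit 304) (nat_lit 71774765518) (nat_lit 380) (nat_lit 6012497727) (nat_lit 96) (nat_lit 5) (nat_lit 100) (nat_lit 5) (nat_lit 101) (nat_lit 5) (nat_lit 498) (nat_lit 477) (nat_lit 225)) (XT.nd (nat_lit 78) (nat_lit 0) (nat_lit 0) (XT.lf (nat_lit 0) (nat_lit 40922578556) (nat_lit 304) (nat_lit 217646792600) (nat_lit 76) (nat_lit 54309006198) (nat_lit 92) (nat_lit 5) (nat_lit 96) (nat_lit 5) (nat_lit 93) (nat_lit 5) (nat_lit 499) (nat_lit 477) (nat_lit 224)) (XT.lf (nat_lit 0) (nat_lit 92517887282) (nat_lit 304) (nat_lit 43793061851) (nat_lit 76) (nat_lit 185722377117) (nat_lit 92) (nat_lit 5) (nat_lit 96) (nat_lit 5) (nat_lit 93) (nat_lit 5) (nat_lit 500) (nat_lit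 477) (nat_lit 223)))) (XT.nd (nat_lit 156) (nat_lit 456) (nat_lit 0) (XT.nd (nat_lit 78) (nat_lit 0) (nat_lit 0) (XT.lf (nat_lit 0) (nat_lit 143341094408) (nat_lit 304) (nat_lit 5589767413) (nat_lit 380) (nat_lit 182603265767) (nat_lit 88) (nat_lit 5) (nat_lit 92) (nat_lit 5) (nat_lit 93) (nat_lit 5) (nat_lit 501) (nat_lit 477) (nat_lit 222)) (XT.lf (nat_lit 0) (nat_lit 210973943841) (nat_lit 380) (nat_lit 2188460585) (nat_lit 76) (nat_lit 128207091645) (nat_lit 88) (nat_lit 5) (nat_lit 93) (nat_lit 5) (nat_lit 89) (nat_lit 5) (nat_lit 502) (nat_lit 477) (nat_lit 221))) (XT.nd (nat_lit 78) (nat_lit 228) (nat_lit 0) (XT.lf (nat_lit 0) (nat_lit 199406902191) (nat_lit 228) (nat_lit 79917161974) (nat_lit 304) (nat_lit 72212324618) (nat_lit 85) (nat_lit 5) (nat_lit 88) (nat_lit 5) (nat_lit 89) (nat_lit 5) (nat_lit 503) (nat_lit 477) (nat_lit 220)) (XT.lf (nat_lit 0) (nat_lit 49598401913) (nat_lit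 228) (nat_lit 303241895471) (nat_lit 304) (nat_lit 9283898418) (nat_lit 82) (nat_lit 5) (nat_lit 85) (nat_lit 5) (nat_lit 86) (nat_lit 5) (nat_lit 504) (nat_lit 477) (nat_lit 219))))) (XT.nd (nat_lit 234) (nat_lit 684) (nat_lit 0) (XT.nd (nat_lit 78) (nat_lit 228) (nat_lit 0) (XT.lf (nat_lit 0) (nat_lit 58901973518) (nat_lit 304) (nat_lit 108657386671) (nat_lit 76) (nat_lit 205441265226) (nat_lit 81) (nat_lit 5) (nat_lit 85) (nat_lit 5) (nat_lit 82) (nat_lit 5) (nat_lit 505) (nat_lit 477) (nat_lit 218)) (XT.nd (nat_lit 78) (nat_lit 0) (nat_lit 0) (XT.lf (nat_lit 0) (nat_lit 108732290773) (nat_lit 228) (nat_lit 23150416331) (nat_lit 304) (nat_lit 252445681270) (nat_lit 78) (nat_lit 5) (nat_lit 81) (nat_lit 5) (nat_lit 82) (nat_lit 5) (nat_lit 506) (nat_lit 477) (nat_lit 217)) (XT.lf (nat_lit 0) (nat_lit 212388679367) (nat_lit 304) (nat_lit 57402891890) (nat_lit 76) (nat_lit 126237158136) (nat_lit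 78) (nat_lit 5) (nat_lit 82) (nat_lit 5) (nat_lit 79) (nat_lit 5) (nat_lit 507) (nat_lit 477) (nat_lit 216)))) (XT.nd (nat_lit 156) (nat_lit 304) (nat_lit 0) (XT.nd (nat_lit 78) (nat_lit 152) (nat_lit 0) (XT.lf (nat_lit 0) (nat_lit 176985019895) (nat_lit 228) (nat_lit 123077632837) (nat_lit 304) (nat_lit 108094299617) (nat_lit 75) (nat_lit 5) (nat_lit 78) (nat_lit 5) (nat_lit 79) (nat_lit 5) (nat_lit 508) (nat_lit 477) (nat_lit 215)) (XT.lf (nat_lit 0) (nat_lit 3866434427) (nat_lit 152) (nat_lit 389785854654) (nat_lit 228) (nat_lit 27162699166) (nat_lit 73) (nat_lit 5) (nat_lit 75) (nat_lit 5) (nat_lit 76) (nat_lit 5) (nat_lit 509) (nat_lit 477) (nat_lit 214))) (XT.nd (nat_lit 78) (nat_lit 228) (nat_lit 0) (XT.lf (nat_lit 0) (nat_lit 61961836434) (nat_lit 228) (nat_lit 178212262961) (nat_lit 76) (nat_lit 193586852891) (nat_lit 72) (nat_lit 5) (nat_lit 75) (nat_lit 5) (nat_lit 73) (nat_lit 5)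 (nat_lit 510) (nat_lit 477) (nat_lit 213)) (XT.lf (nat_lit 0) (nat_lit 74396646428) (nat_lit 228) (nat_lit 81394606279) (nat_lit 304) (nat_lit 291482622386) (nat_lit 69) (nat_lit 5) (nat_lit 72) (nat_lit 5) (nat_lit 73) (nat_lit 5) (nat_lit 511) (nat_lit 477) (nat_lit 212)))))) (XT.nd (nat_lit 546) (nat_lit 760) (nat_lit 0) (XT.nd (nat_lit 234) (nat_lit 532) (nat_lit 0) (XT.nd (nat_lit 78) (nat_lit 152) (nat_lit 0) (XT.lf (nat_lit 0) (nat_lit 258711831743) (nat_lit 304) (nat_lit 116870095518) (nat_lit 76) (nat_lit 85660532192) (nat_lit 69) (nat_lit 5) (nat_lit 73) (nat_lit 5) (nat_lit 70) (nat_lit 5) (nat_lit 512) (nat_lit 477) (nat_lit 211)) (XT.nd (nat_lit 78) (nat_lit 0) (nat_lit 0) (XT.lf (nat_lit 0) (nat_lit 155582610861) (nat_lit 152) (nat_lit 214959208412) (nat_lit 228) (nat_lit 105179484787) (nat_lit 67) (nat_lit 5) (nat_lit 69) (nat_lit 5) (nat_lit 70) (nat_lit 5) (nat_lit 513) (nat_lit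 477) (nat_lit 210)) (XT.lf (nat_lit 0) (nat_lit 445715358559) (nat_lit 152) (nat_lit 44227161314) (nat_lit 228) (nat_lit 882610349) (nat_lit 67) (nat_lit 5) (nat_lit 69) (nat_lit 5) (nat_lit 70) (nat_lit 5) (nat_lit 514) (nat_lit 477) (nat_lit 209)))) (XT.nd (nat_lit 156) (nat_lit 152) (nat_lit 0) (XT.nd (nat_lit 78) (nat_lit 152) (nat_lit 0) (XT.lf (nat_lit 0) (nat_lit 111255235968) (nat_lit 228) (nat_lit 258629064422) (nat_lit 76) (nat_lit 136409900168) (nat_lit 64) (nat_lit 5) (nat_lit 67) (nat_lit 5) (nat_lit 65) (nat_lit 5) (nat_lit 515) (nat_lit 477) (nat_lit 208)) (XT.lf (nat_lit 0) (nat_lit 34498450958) (nat_lit 152) (nat_lit 196511958559) (nat_lit 228) (nat_lit 291423586629) (nat_lit 62) (nat_lit 5) (nat_lit 64) (nat_lit 5) (nat_lit 65) (nat_lit 5) (nat_lit 516) (nat_lit 477) (nat_lit 207))) (XT.nd (nat_lit 78) (nat_lit 152) (nat_lit 0) (XT.lf (nat_lit 0) (nat_lit 351261301453) (nat_lit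 152) (nat_lit 9872013265) (nat_lit 228) (nat_lit 178028468154) (nat_lit 62) (nat_lit 5) (nat_lit 64) (nat_lit 5) (nat_lit 65) (nat_lit 5) (nat_lit 517) (nat_lit 477) (nat_lit 206)) (XT.lf (nat_lit 0) (nat_lit 128338366951) (nat_lit 152) (nat_lit 374333227220) (nat_lit 228) (nat_lit 53808903318) (nat_lit 60) (nat_lit 5) (nat_lit 62) (nat_lit 5) (nat_lit 63) (nat_lit 5) (nat_lit 518) (nat_lit 477) (nat_lit 205))))) (XT.nd (nat_lit 312) (nat_lit 380) (nat_lit 0) (XT.nd (nat_lit 156) (nat_lit 152) (nat_lit 0) (XT.nd (nat_lit 78) (nat_lit 152) (nat_lit 0) (XT.lf (nat_lit 0) (nat_lit 77565423786) (nat_lit 228) (nat_lit 109003738775) (nat_lit 76) (nat_lit 387866363605) (nat_lit 59) (nat_lit 5) (nat_lit 62) (nat_lit 5) (nat_lit 60) (nat_lit 5) (nat_lit 519) (nat_lit 477) (nat_lit 204)) (XT.lf (nat_lit 0) (nat_lit 217571752973) (nat_lit 228) (nat_lit 360645976384) (nat_lit 76) (nat_lit 14832890381)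 (nat_lit 57) (nat_lit 5) (nat_lit 60) (nat_lit 5) (nat_lit 58) (nat_lit 5) (nat_lit 520) (nat_lit 477) (nat_lit 203))) (XT.nd (nat_lit 78) (nat_lit 152) (nat_lit 0) (XT.lf (nat_lit 0) (nat_lit 369513171504) (nat_lit 228) (nat_lit 20925186110) (nat_lit 76) (nat_lit 221911371736) (nat_lit 57) (nat_lit 5) (nat_lit 60) (nat_lit 5) (nat_lit 58) (nat_lit 5) (nat_lit 521) (nat_lit 477) (nat_lit 202)) (XT.lf (nat_lit 0) (nat_lit 346884047854) (nat_lit 152) (nat_lit 187583414911) (nat_lit 228) (nat_lit 97875541590) (nat_lit 55) (nat_lit 5) (nat_lit 57) (nat_lit 5) (nat_lit 58) (nat_lit 5) (nat_lit 522) (nat_lit 477) (nat_lit 201)))) (XT.nd (nat_lit 156) (nat_lit 152) (nat_lit 0) (XT.nd (nat_lit 78) (nat_lit 0) (nat_lit 0) (XT.lf (nat_lit 0) (nat_lit 54676808045) (nat_lit 228) (nat_lit 571377931237) (nat_lit 76) (nat_lit 27134674170) (nat_lit 52) (nat_lit 5) (nat_lit 55) (nat_lit 5) (nat_lit 53) (nat_lit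 5) (nat_lit 523) (nat_lit 477) (nat_lit 200)) (XT.lf (nat_lit 0) (nat_lit 219556261023) (nat_lit 228) (nat_lit 202239449881) (nat_lit 76) (nat_lit 252802768956) (nat_lit 52) (nat_lit 5) (nat_lit 55) (nat_lit 5) (nat_lit 53) (nat_lit 5) (nat_lit 524) (nat_lit 477) (nat_lit 199))) (XT.nd (nat_lit 78) (nat_lit 0) (nat_lit 0) (XT.lf (nat_lit 0) (nat_lit 191484609201) (nat_lit 152) (nat_lit 204184660394) (nat_lit 228) (nat_lit 301259250849) (nat_lit 50) (nat_lit 5) (nat_lit 52) (nat_lit 5) (nat_lit 53) (nat_lit 5) (nat_lit 525) (nat_lit 477) (nat_lit 198)) (XT.lf (nat_lit 0) (nat_lit 584448570774) (nat_lit 228) (nat_lit 108723341003) (nat_lit 76) (nat_lit 27010119177) (nat_lit 50) (nat_lit 5) (nat_lit 53) (nat_lit 5) (nat_lit 51) (nat_lit 4) (nat_lit 526) (nat_lit 477) (nat_lit 197))))))))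
noncomputable def xc234 : XT := (XT.nd (nat_lit 60216) (nat_lit 0) (nat_lit 684) (XT.nd (nat_lit 59124) (nat_lit 0) (nat_lit 4484) (XT.nd (nat_lit 546) (nat_lit 76) (nat_lit 0) (XT.nd (nat_lit 234) (nat_lit 304) (nat_lit 0) (XT.nd (nat_lit 78) (nat_lit 152) (nat_lit 0) (XT.lf (nat_lit 0) (nat_lit 45243894744) (nat_lit 152) (nat_lit 430361440633) (nat_lit 76) (nat_lit 268543478308) (nat_lit 48) (nat_lit 5) (nat_lit 50) (nat_lit 5) (nat_lit 49) (nat_lit 5) (nat_lit 527) (nat_lit 477) (nat_lit 196)) (XT.nd (nat_lit 78) (nat_lit 152) (nat_lit 0) (XT.lf (nat_lit 0) (nat_lit 232580023720) (nat_lit 152) (nat_lit 10278991063) (nat_lit 76) (nat_lit 526250091806) (nat_lit 48) (nat_lit 5) (nat_lit 50) (nat_lit 5) (nat_lit 49) (nat_lit 5) (nat_lit 528) (nat_lit 477) (nat_lit 195)) (XT.lf (nat_lit 0) (nat_lit 436369155620) (nat_lit 228) (nat_lit 350055724992) (nat_lit 76) (nat_lit 8538223705) (nat_lit 46)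 (nat_lit 5) (nat_lit 49) (nat_lit 5) (nat_lit 47) (nat_lit 4) (nat_lit 529) (nat_lit 477) (nat_lit 194)))) (XT.nd (nat_lit 156) (nat_lit 152) (nat_lit 0) (XT.nd (nat_lit 78) (nat_lit 76) (nat_lit 0) (XT.lf (nat_lit 0) (nat_lit 100336018119) (nat_lit 76) (nat_lit 555736455964) (nat_lit 152) (nat_lit 165751091355) (nat_lit 45) (nat_lit 5) (nat_lit 46) (nat_lit 5) (nat_lit 47) (nat_lit 4) (nat_lit 530) (nat_lit 477) (nat_lit 193)) (XT.lf (nat_lit 0) (nat_lit 41583718577) (nat_lit 152) (nat_lit 265000890019) (nat_lit 76) (nat_lit 543112488848) (nat_lit 44) (nat_lit 5) (nat_lit 46) (nat_lit 5) (nat_lit 45) (nat_lit 5) (nat_lit 531) (nat_lit 477) (nat_lit 192))) (XT.nd (nat_lit 78) (nat_lit 0) (nat_lit 0) (XT.lf (nat_lit 0) (nat_lit 218589039989) (nat_lit 152) (nat_lit 38538669012) (nat_lit 228) (nat_lit 621530097322) (nat_lit 42) (nat_lit 5) (nat_lit 44) (nat_lit 5) (nat_lit 45) (nat_lit 5) (nat_lit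 532) (nat_lit 477) (nat_lit 191)) (XT.lf (nat_lit 0) (nat_lit 491802864997) (nat_lit 228) (nat_lit 177149570975) (nat_lit 76) (nat_lit 239696416375) (nat_lit 42) (nat_lit 5) (nat_lit 45) (nat_lit 5) (nat_lit 43) (nat_lit 4) (nat_lit 533) (nat_lit 477) (nat_lit 190))))) (XT.nd (nat_lit 58266) (nat_lit 0) (nat_lit 6460) (XT.nd (nat_lit 58110) (nat_lit 0) (nat_lit 6384) (XT.lf (nat_lit 0) (nat_lit 340171369285) (nat_lit 76) (nat_lit 403983196720) (nat_lit 152) (nat_lit 195687745308) (nat_lit 41) (nat_lit 5) (nat_lit 42) (nat_lit 5) (nat_lit 43) (nat_lit 4) (nat_lit 534) (nat_lit 477) (nat_lit 189)) (XT.nd (nat_lit 78) (nat_lit 0) (nat_lit 0) (XT.lf (nat_lit 0) (nat_lit 30541391987) (nat_lit 836) (nat_lit 30404021809) (nat_lit 836) (nat_lit 30404021809) (nat_lit 125) (nat_lit 3) (nat_lit 136) (nat_lit 3) (nat_lit 136) (nat_lit 5) (nat_lit 478) (nat_lit 478) (nat_lit 244)) (XT.lf (nat_lit 76) (nat_lit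 29641983863) (nat_lit 0) (nat_lit 33432581958) (nat_lit 836) (nat_lit 124168540811) (nat_lit 126) (nat_lit 5) (nat_lit 125) (nat_lit 3) (nat_lit 136) (nat_lit 5) (nat_lit 479) (nat_lit 478) (nat_lit 243)))) (XT.nd (nat_lit 156) (nat_lit 0) (nat_lit 76) (XT.nd (nat_lit 78) (nat_lit 0) (nat_lit 0) (XT.lf (nat_lit 0) (nat_lit 67140668559) (nat_lit 760) (nat_lit 66182547262) (nat_lit 836) (nat_lit 58592601462) (nat_lit 126) (nat_lit 5) (nat_lit 136) (nat_lit 5) (nat_lit 137) (nat_lit 5) (nat_lit 480) (nat_lit 478) (nat_lit 242)) (XT.lf (nat_lit 76) (nat_lit 30226240130) (nat_lit 0) (nat_lit 42203710676) (nat_lit 836) (nat_lit 124341218986) (nat_lit 127) (nat_lit 5) (nat_lit 126) (nat_lit 5) (nat_lit 137) (nat_lit 5) (nat_lit 481) (nat_lit 478) (nat_lit 241))) (XT.nd (nat_lit 78) (nat_lit 0) (nat_lit 0) (XT.lf (nat_lit 0) (nat_lit 79957637244) (nat_lit 760) (nat_lit 68913366709) (nat_lit 836) (nat_lit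 52899589015) (nat_lit 127) (nat_lit 5) (nat_lit 137) (nat_lit 5) (nat_lit 138) (nat_lit 5) (nat_lit 482) (nat_lit 478) (nat_lit 240)) (XT.lf (nat_lit 76) (nat_lit 33995920186) (nat_lit 0) (nat_lit 55088316958) (nat_lit 836) (nat_lit 117874623741) (nat_lit 128) (nat_lit 5) (nat_lit 127) (nat_lit 5) (nat_lit 138) (nat_lit 5) (nat_lit 483) (nat_lit 478) (nat_lit 239)))))) (XT.nd (nat_lit 546) (nat_lit 1520) (nat_lit 0) (XT.nd (nat_lit 234) (nat_lit 608) (nat_lit 0) (XT.nd (nat_lit 78) (nat_lit 0) (nat_lit 0) (XT.lf (nat_lit 0) (nat_lit 100530616728) (nat_lit 760) (nat_lit 68601547154) (nat_lit 836) (nat_lit 43181205872) (nat_lit 128) (nat_lit 5) (nat_lit 138) (nat_lit 5) (nat_lit 139) (nat_lit 5) (nat_lit 484) (nat_lit 478) (nat_lit 238)) (XT.nd (nat_lit 78) (nat_lit 0) (nat_lit 76) (XT.lf (nat_lit 76) (nat_lit 41399808604) (nat_lit 0) (nat_lit 72698863658) (nat_lit 836) (nat_lit 103759463994)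 (nat_lit 129) (nat_lit 5) (nat_lit 128) (nat_lit 5) (nat_lit 139) (nat_lit 5) (nat_lit 485) (nat_lit 478) (nat_lit 237)) (XT.lf (nat_lit 0) (nat_lit 129971724284) (nat_lit 760) (nat_lit 64804091400) (nat_lit 836) (nat_lit 28822995748) (nat_lit 129) (nat_lit 5) (nat_lit 139) (nat_lit 5) (nat_lit 140) (nat_lit 5) (nat_lit 486) (nat_lit 478) (nat_lit 236)))) (XT.nd (nat_lit 156) (nat_lit 684) (nat_lit 0) (XT.nd (nat_lit 78) (nat_lit 0) (nat_lit 76) (XT.lf (nat_lit 76) (nat_lit 52935257884) (nat_lit 0) (nat_lit 95721334476) (nat_lit 836) (nat_lit 80869019867) (nat_lit 130) (nat_lit 5) (nat_lit 129) (nat_lit 5) (nat_lit 140) (nat_lit 5) (nat_lit 487) (nat_lit 478) (nat_lit 235)) (XT.lf (nat_lit 0) (nat_lit 169520464180) (nat_lit 760) (nat_lit 57029885891) (nat_lit 76) (nat_lit 9136165009) (nat_lit 130) (nat_lit 5) (nat_lit 140) (nat_lit 5) (nat_lit 131) (nat_lit 5) (nat_lit 488) (nat_lit 478) (nat_lit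 234))) (XT.nd (nat_lit 78) (nat_lit 0) (nat_lit 0) (XT.lf (nat_lit 0) (nat_lit 69152647672) (nat_lit 760) (nat_lit 124923669238) (nat_lit 836) (nat_lit 47946706828) (nat_lit 120) (nat_lit 5) (nat_lit 130) (nat_lit 5) (nat_lit 131) (nat_lit 5) (nat_lit 489) (nat_lit 478) (nat_lit 233)) (XT.lf (nat_lit 0) (nat_lit 203624185251) (nat_lit 760) (nat_lit 17201526991) (nat_lit 836) (nat_lit 27802358120) (nat_lit 120) (nat_lit 5) (nat_lit 130) (nat_lit 5) (nat_lit 131) (nat_lit 5) (nat_lit 490) (nat_lit 478) (nat_lit 232))))) (XT.nd (nat_lit 234) (nat_lit 684) (nat_lit 0) (XT.nd (nat_lit 78) (nat_lit 456) (nat_lit 0) (XT.lf (nat_lit 0) (nat_lit 90660177536) (nat_lit 380) (nat_lit 161165157073) (nat_lit 456) (nat_lit 3592396870) (nat_lit 115) (nat_lit 5) (nat_lit 120) (nat_lit 5) (nat_lit 121) (nat_lit 5) (nat_lit 491) (nat_lit 478) (nat_lit 231)) (XT.nd (nat_lit 78) (nat_lit 380) (nat_lit 0) (XT.lf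 (nat_lit 0) (nat_lit 22186003764) (nat_lit 456) (nat_lit 28474248185) (nat_lit 76) (nat_lit 211816755087) (nat_lit 114) (nat_lit 5) (nat_lit 120) (nat_lit 5) (nat_lit 115) (nat_lit 5) (nat_lit 492) (nat_lit 478) (nat_lit 230)) (XT.lf (nat_lit 0) (nat_lit 52032201603) (nat_lit 456) (nat_lit 152493506355) (nat_lit 76) (nat_lit 65215613584) (nat_lit 109) (nat_lit 5) (nat_lit 115) (nat_lit 5) (nat_lit 110) (nat_lit 5) (nat_lit 493) (nat_lit 478) (nat_lit 229)))) (XT.nd (nat_lit 156) (nat_lit 304) (nat_lit 0) (XT.nd (nat_lit 78) (nat_lit 380) (nat_lit 0) (XT.lf (nat_lit 0) (nat_lit 84691267888) (nat_lit 456) (nat_lit 6938670541) (nat_lit 76) (nat_lit 185672885443) (nat_lit 109) (nat_lit 5) (nat_lit 115) (nat_lit 5) (nat_lit 110) (nat_lit 5) (nat_lit 494) (nat_lit 478) (nat_lit 228)) (XT.lf (nat_lit 0) (nat_lit 121795075231) (nat_lit 456) (nat_lit 134865726641) (nat_lit 76) (nat_lit 28441010079)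 (nat_lit 104) (nat_lit 5) (nat_lit 110) (nat_lit 5) (nat_lit 105) (nat_lit 5) (nat_lit 495) (nat_lit 478) (nat_lit 227))) (XT.nd (nat_lit 78) (nat_lit 0) (nat_lit 0) (XT.lf (nat_lit 0) (nat_lit 21406618299) (nat_lit 304) (nat_lit 141303175512) (nat_lit 380) (nat_lit 130483169599) (nat_lit 100) (nat_lit 5) (nat_lit 104) (nat_lit 5) (nat_lit 105) (nat_lit 5) (nat_lit 496) (nat_lit 478) (nat_lit 226)) (XT.lf (nat_lit 0) (nat_lit 190174744494) (nat_lit 304) (nat_lit 17779459364) (nat_lit 380) (nat_lit 93620270829) (nat_lit 100) (nat_lit 5) (nat_lit 104) (nat_lit 5) (nat_lit 105) (nat_lit 5) (nat_lit 497) (nat_lit 478) (nat_lit 225))))))) (XT.nd (nat_lit 1092) (nat_lit 1672) (nat_lit 0) (XT.nd (nat_lit 546) (nat_lit 988) (nat_lit 0) (XT.nd (nat_lit 234) (nat_lit 532) (nat_lit 0) (XT.nd (nat_lit 78) (nat_lit 304) (nat_lit 0) (XT.lf (nat_lit 0) (nat_lit 57085858728) (nat_lit 304) (nat_lit 201013579647)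 (nat_lit 380) (nat_lit 52143692973) (nat_lit 96) (nat_lit 5) (nat_lit 100) (nat_lit 5) (nat_lit 101) (nat_lit 5) (nat_lit 498) (nat_lit 478) (nat_lit 224)) (XT.nd (nat_lit 78) (nat_lit 304) (nat_lit 0) (XT.lf (nat_lit 0) (nat_lit 237562102584) (nat_lit 304) (nat_lit 75363149509) (nat_lit 380) (nat_lit 6311302893) (nat_lit 96) (nat_lit 5) (nat_lit 100) (nat_lit 5) (nat_lit 101) (nat_lit 5) (nat_lit 499) (nat_lit 478) (nat_lit 223)) (XT.lf (nat_lit 0) (nat_lit 42970424292) (nat_lit 304) (nat_lit 228526941464) (nat_lit 76) (nat_lit 57024844123) (nat_lit 92) (nat_lit 5) (nat_lit 96) (nat_lit 5) (nat_lit 93) (nat_lit 5) (nat_lit 500) (nat_lit 478) (nat_lit 222)))) (XT.nd (nat_lit 156) (nat_lit 228) (nat_lit 0) (XT.nd (nat_lit 78) (nat_lit 304) (nat_lit 0) (XT.lf (nat_lit 0) (nat_lit 97145416702) (nat_lit 304) (nat_lit 45980628500) (nat_lit 76) (nat_lit 195008865130) (nat_lit 92) (nat_lit 5) (nat_lit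 96) (nat_lit 5) (nat_lit 93) (nat_lit 5) (nat_lit 501) (nat_lit 478) (nat_lit 221)) (XT.lf (nat_lit 0) (nat_lit 150510201920) (nat_lit 304) (nat_lit 5868792238) (nat_lit 380) (nat_lit 191731759892) (nat_lit 88) (nat_lit 5) (nat_lit 92) (nat_lit 5) (nat_lit 93) (nat_lit 5) (nat_lit 502) (nat_lit 478) (nat_lit 220))) (XT.nd (nat_lit 78) (nat_lit 228) (nat_lit 0) (XT.lf (nat_lit 0) (nat_lit 221524161493) (nat_lit 380) (nat_lit 2295859355) (nat_lit 76) (nat_lit 134617873570) (nat_lit 88) (nat_lit 5) (nat_lit 93) (nat_lit 5) (nat_lit 89) (nat_lit 5) (nat_lit 503) (nat_lit 478) (nat_lit 219)) (XT.lf (nat_lit 0) (nat_lit 209379238911) (nat_lit 228) (nat_lit 83912507615) (nat_lit 304) (nat_lit 75821387326) (nat_lit 85) (nat_lit 5) (nat_lit 88) (nat_lit 5) (nat_lit 89) (nat_lit 5) (nat_lit 504) (nat_lit 478) (nat_lit 218))))) (XT.nd (nat_lit 234) (nat_lit 456) (nat_lit 0) (XT.nd (nat_lit 78) (nat_lit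 304) (nat_lit 0) (XT.lf (nat_lit 0) (nat_lit 52080346795) (nat_lit 228) (nat_lit 318403413406) (nat_lit 304) (nat_lit 9746572599) (nat_lit 82) (nat_lit 5) (nat_lit 85) (nat_lit 5) (nat_lit 86) (nat_lit 5) (nat_lit 505) (nat_lit 478) (nat_lit 217)) (XT.nd (nat_lit 78) (nat_lit 228) (nat_lit 0) (XT.lf (nat_lit 0) (nat_lit 61848474162) (nat_lit 304) (nat_lit 114088280924) (nat_lit 76) (nat_lit 215713831145) (nat_lit 81) (nat_lit 5) (nat_lit 85) (nat_lit 5) (nat_lit 82) (nat_lit 5) (nat_lit 506) (nat_lit 478) (nat_lit 216)) (XT.lf (nat_lit 0) (nat_lit 114170848536) (nat_lit 228) (nat_lit 24307359470) (nat_lit 304) (nat_lit 265066531170) (nat_lit 78) (nat_lit 5) (nat_lit 81) (nat_lit 5) (nat_lit 82) (nat_lit 5) (nat_lit 507) (nat_lit 478) (nat_lit 215)))) (XT.nd (nat_lit 156) (nat_lit 228) (nat_lit 0) (XT.nd (nat_lit 78) (nat_lit 228) (nat_lit 0) (XT.lf (nat_lit 0) (nat_lit 223009422446) (nat_lit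 304) (nat_lit 60271129034) (nat_lit 76) (nat_lit 132549548603) (nat_lit 78) (nat_lit 5) (nat_lit 82) (nat_lit 5) (nat_lit 79) (nat_lit 5) (nat_lit 508) (nat_lit 478) (nat_lit 214)) (XT.lf (nat_lit 0) (nat_lit 185836147575) (nat_lit 228) (nat_lit 129230913866) (nat_lit 304) (nat_lit 113497674414) (nat_lit 75) (nat_lit 5) (nat_lit 78) (nat_lit 5) (nat_lit 79) (nat_lit 5) (nat_lit 509) (nat_lit 478) (nat_lit 213))) (XT.nd (nat_lit 78) (nat_lit 76) (nat_lit 0) (XT.lf (nat_lit 0) (nat_lit 4061656416) (nat_lit 152) (nat_lit 409274501026) (nat_lit 228) (nat_lit 28519517229) (nat_lit 73) (nat_lit 5) (nat_lit 75) (nat_lit 5) (nat_lit 76) (nat_lit 5) (nat_lit 510) (nat_lit 478) (nat_lit 212)) (XT.lf (nat_lit 0) (nat_lit 65061142300) (nat_lit 228) (nat_lit 187121025922) (nat_lit 76) (nat_lit 203266770710) (nat_lit 72) (nat_lit 5) (nat_lit 75) (nat_lit 5) (nat_lit 73) (nat_lit 5) (nat_lit 511) (nat_lit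 478) (nat_lit 211)))))) (XT.nd (nat_lit 546) (nat_lit 912) (nat_lit 0) (XT.nd (nat_lit 234) (nat_lit 380) (nat_lit 0) (XT.nd (nat_lit 78) (nat_lit 152) (nat_lit 0) (XT.lf (nat_lit 0) (nat_lit 78118299094) (nat_lit 228) (nat_lit 85463700901) (nat_lit 304) (nat_lit 306055509367) (nat_lit 69) (nat_lit 5) (nat_lit 72) (nat_lit 5) (nat_lit 73) (nat_lit 5) (nat_lit 512) (nat_lit 478) (nat_lit 210)) (XT.nd (nat_lit 78) (nat_lit 152) (nat_lit 0) (XT.lf (nat_lit 0) (nat_lit 271648561024) (nat_lit 304) (nat_lit 122711819431) (nat_lit 76) (nat_lit 89944144845) (nat_lit 69) (nat_lit 5) (nat_lit 73) (nat_lit 5) (nat_lit 70) (nat_lit 5) (nat_lit 513) (nat_lit 478) (nat_lit 209)) (XT.lf (nat_lit 0) (nat_lit 163363493544) (nat_lit 152) (nat_lit 225706527566) (nat_lit 228) (nat_lit 110437292380) (nat_lit 67) (nat_lit 5) (nat_lit 69) (nat_lit 5) (nat_lit 70) (nat_lit 5) (nat_lit 514) (nat_lit 478) (nat_lit 208))))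 (XT.nd (nat_lit 156) (nat_lit 152) (nat_lit 0) (XT.nd (nat_lit 78) (nat_lit 228) (nat_lit 0) (XT.lf (nat_lit 0) (nat_lit 468002795191) (nat_lit 152) (nat_lit 46437908650) (nat_lit 228) (nat_lit 925629775) (nat_lit 67) (nat_lit 5) (nat_lit 69) (nat_lit 5) (nat_lit 70) (nat_lit 5) (nat_lit 515) (nat_lit 478) (nat_lit 207)) (XT.lf (nat_lit 0) (nat_lit 116819058044) (nat_lit 228) (nat_lit 271558797718) (nat_lit 76) (nat_lit 143231001611) (nat_lit 64) (nat_lit 5) (nat_lit 67) (nat_lit 5) (nat_lit 65) (nat_lit 5) (nat_lit 516) (nat_lit 478) (nat_lit 206))) (XT.nd (nat_lit 78) (nat_lit 0) (nat_lit 0) (XT.lf (nat_lit 0) (nat_lit 36225065690) (nat_lit 152) (nat_lit 206336900511) (nat_lit 228) (nat_lit 305993677752) (nat_lit 62) (nat_lit 5) (nat_lit 64) (nat_lit 5) (nat_lit 65) (nat_lit 5) (nat_lit 517) (nat_lit 478) (nat_lit 205)) (XT.lf (nat_lit 0) (nat_lit 368825978130) (nat_lit 152) (nat_lit 10364989189)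 (nat_lit 228) (nat_lit 186928855173) (nat_lit 62) (nat_lit 5) (nat_lit 64) (nat_lit 5) (nat_lit 65) (nat_lit 5) (nat_lit 518) (nat_lit 478) (nat_lit 204))))) (XT.nd (nat_lit 312) (nat_lit 532) (nat_lit 0) (XT.nd (nat_lit 156) (nat_lit 152) (nat_lit 0) (XT.nd (nat_lit 78) (nat_lit 76) (nat_lit 0) (XT.lf (nat_lit 0) (nat_lit 134756910038) (nat_lit 152) (nat_lit 393049238369) (nat_lit 228) (nat_lit 56498325058) (nat_lit 60) (nat_lit 5) (nat_lit 62) (nat_lit 5) (nat_lit 63) (nat_lit 5) (nat_lit 519) (nat_lit 478) (nat_lit 203)) (XT.lf (nat_lit 0) (nat_lit 81444638471) (nat_lit 228) (nat_lit 114452346991) (nat_lit 76) (nat_lit 407260269683) (nat_lit 59) (nat_lit 5) (nat_lit 62) (nat_lit 5) (nat_lit 60) (nat_lit 5) (nat_lit 520) (nat_lit 478) (nat_lit 202))) (XT.nd (nat_lit 78) (nat_lit 0) (nat_lit 0) (XT.lf (nat_lit 0) (nat_lit 228451273282) (nat_lit 228) (nat_lit 378676685498) (nat_lit 76) (nat_lit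 15575145164) (nat_lit 57) (nat_lit 5) (nat_lit 60) (nat_lit 5) (nat_lit 58) (nat_lit 5) (nat_lit 521) (nat_lit 478) (nat_lit 201)) (XT.lf (nat_lit 0) (nat_lit 387989718327) (nat_lit 228) (nat_lit 21969931410) (nat_lit 76) (nat_lit 233007521526) (nat_lit 57) (nat_lit 5) (nat_lit 60) (nat_lit 5) (nat_lit 58) (nat_lit 5) (nat_lit 522) (nat_lit 478) (nat_lit 200)))) (XT.nd (nat_lit 156) (nat_lit 152) (nat_lit 0) (XT.nd (nat_lit 78) (nat_lit 228) (nat_lit 0) (XT.lf (nat_lit 0) (nat_lit 364229739833) (nat_lit 152) (nat_lit 196961965278) (nat_lit 228) (nat_lit 102768405868) (nat_lit 55) (nat_lit 5) (nat_lit 57) (nat_lit 5) (nat_lit 58) (nat_lit 5) (nat_lit 523) (nat_lit 478) (nat_lit 199)) (XT.lf (nat_lit 0) (nat_lit 57411523120) (nat_lit 228) (nat_lit 599945299833) (nat_lit 76) (nat_lit 28492017315) (nat_lit 52) (nat_lit 5) (nat_lit 55) (nat_lit 5) (nat_lit 53) (nat_lit 5) (nat_lit 524) (nat_lit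 478) (nat_lit 198))) (XT.nd (nat_lit 78) (nat_lit 152) (nat_lit 0) (XT.lf (nat_lit 0) (nat_lit 230534907096) (nat_lit 228) (nat_lit 212349967170) (nat_lit 76) (nat_lit 265443487820) (nat_lit 52) (nat_lit 5) (nat_lit 55) (nat_lit 5) (nat_lit 53) (nat_lit 5) (nat_lit 525) (nat_lit 478) (nat_lit 197)) (XT.lf (nat_lit 0) (nat_lit 201060271395) (nat_lit 152) (nat_lit 214393277388) (nat_lit 228) (nat_lit 316321356788) (nat_lit 50) (nat_lit 5) (nat_lit 52) (nat_lit 5) (nat_lit 53) (nat_lit 5) (nat_lit 526) (nat_lit 478) (nat_lit 196))))))))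
noncomputable def xc235 : XT := (XT.nd (nat_lit 60294) (nat_lit 0) (nat_lit 608) (XT.nd (nat_lit 59202) (nat_lit 0) (nat_lit 4408) (XT.nd (nat_lit 546) (nat_lit 0) (nat_lit 0) (XT.nd (nat_lit 234) (nat_lit 456) (nat_lit 0) (XT.nd (nat_lit 78) (nat_lit 152) (nat_lit 0) (XT.lf (nat_lit 0) (nat_lit 613671785337) (nat_lit 228) (nat_lit 114158114708) (nat_lit 76) (nat_lit 28361193049) (nat_lit 50) (nat_lit 5) (nat_lit 53) (nat_lit 5) (nat_lit 51) (nat_lit 4) (nat_lit 527) (nat_lit 478) (nat_lit 195)) (XT.nd (nat_lit 78) (nat_lit 0) (nat_lit 0) (XT.lf (nat_lit 0) (nat_lit 47506872198) (nat_lit 152) (nat_lit 451878115817) (nat_lit 76) (nat_lit 281971227121) (nat_lit 48) (nat_lit 5) (nat_lit 50) (nat_lit 5) (nat_lit 49) (nat_lit 5) (nat_lit 528) (nat_lit 478) (nat_lit 194)) (XT.lf (nat_lit 0) (nat_lit 244209770352) (nat_lit 152) (nat_lit 10791610286) (nat_lit 76) (nat_lit 552563143918) (nat_lit 48)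 (nat_lit 5) (nat_lit 50) (nat_lit 5) (nat_lit 49) (nat_lit 5) (nat_lit 529) (nat_lit 478) (nat_lit 193)))) (XT.nd (nat_lit 156) (nat_lit 228) (nat_lit 0) (XT.nd (nat_lit 78) (nat_lit 76) (nat_lit 0) (XT.lf (nat_lit 0) (nat_lit 458188352816) (nat_lit 228) (nat_lit 367557174794) (nat_lit 76) (nat_lit 8965694866) (nat_lit 46) (nat_lit 5) (nat_lit 49) (nat_lit 5) (nat_lit 47) (nat_lit 4) (nat_lit 530) (nat_lit 478) (nat_lit 192)) (XT.lf (nat_lit 0) (nat_lit 105354133917) (nat_lit 76) (nat_lit 583522688604) (nat_lit 152) (nat_lit 174037884870) (nat_lit 45) (nat_lit 5) (nat_lit 46) (nat_lit 5) (nat_lit 47) (nat_lit 4) (nat_lit 531) (nat_lit 478) (nat_lit 191))) (XT.nd (nat_lit 78) (nat_lit 152) (nat_lit 0) (XT.lf (nat_lit 0) (nat_lit 43663606120) (nat_lit 152) (nat_lit 278249658968) (nat_lit 76) (nat_lit 570268652072) (nat_lit 44) (nat_lit 5) (nat_lit 46) (nat_lit 5) (nat_lit 45) (nat_lit 5) (nat_lit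 532) (nat_lit 478) (nat_lit 190)) (XT.lf (nat_lit 0) (nat_lit 229519746966) (nat_lit 152) (nat_lit 40465035282) (nat_lit 228) (nat_lit 652605879929) (nat_lit 42) (nat_lit 5) (nat_lit 44) (nat_lit 5) (nat_lit 45) (nat_lit 5) (nat_lit 533) (nat_lit 478) (nat_lit 189))))) (XT.nd (nat_lit 58344) (nat_lit 0) (nat_lit 6384) (XT.nd (nat_lit 58188) (nat_lit 0) (nat_lit 6308) (XT.lf (nat_lit 0) (nat_lit 516393671726) (nat_lit 228) (nat_lit 186005829919) (nat_lit 76) (nat_lit 251681760076) (nat_lit 42) (nat_lit 5) (nat_lit 45) (nat_lit 5) (nat_lit 43) (nat_lit 4) (nat_lit 534) (nat_lit 478) (nat_lit 188)) (XT.nd (nat_lit 78) (nat_lit 0) (nat_lit 0) (XT.lf (nat_lit 0) (nat_lit 32070349452) (nat_lit 836) (nat_lit 31923231402) (nat_lit 836) (nat_lit 31923231402) (nat_lit 125) (nat_lit 3) (nat_lit 136) (nat_lit 3) (nat_lit 136) (nat_lit 5) (nat_lit 479) (nat_lit 479) (nat_lit 242)) (XT.lf (nat_lit 76) (nat_lit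 31126034066) (nat_lit 0) (nat_lit 35105886442) (nat_lit 836) (nat_lit 130373158736) (nat_lit 126) (nat_lit 5) (nat_lit 125) (nat_lit 3) (nat_lit 136) (nat_lit 5) (nat_lit 480) (nat_lit 479) (nat_lit 241)))) (XT.nd (nat_lit 156) (nat_lit 0) (nat_lit 76) (XT.nd (nat_lit 78) (nat_lit 0) (nat_lit 0) (XT.lf (nat_lit 0) (nat_lit 70501130786) (nat_lit 760) (nat_lit 69489617590) (nat_lit 836) (nat_lit 61520686998) (nat_lit 126) (nat_lit 5) (nat_lit 136) (nat_lit 5) (nat_lit 137) (nat_lit 5) (nat_lit 481) (nat_lit 479) (nat_lit 240)) (XT.lf (nat_lit 76) (nat_lit 31739575994) (nat_lit 0) (nat_lit 44315169474) (nat_lit 836) (nat_lit 130554816690) (nat_lit 127) (nat_lit 5) (nat_lit 126) (nat_lit 5) (nat_lit 137) (nat_lit 5) (nat_lit 482) (nat_lit 479) (nat_lit 239))) (XT.nd (nat_lit 78) (nat_lit 0) (nat_lit 0) (XT.lf (nat_lit 0) (nat_lit 83958640289) (nat_lit 760) (nat_lit 72356930415) (nat_lit 836) (nat_lit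 55543394645) (nat_lit 127) (nat_lit 5) (nat_lit 137) (nat_lit 5) (nat_lit 138) (nat_lit 5) (nat_lit 483) (nat_lit 479) (nat_lit 238)) (XT.lf (nat_lit 76) (nat_lit 35697786880) (nat_lit 0) (nat_lit 57843667006) (nat_lit 836) (nat_lit 123765198649) (nat_lit 128) (nat_lit 5) (nat_lit 127) (nat_lit 5) (nat_lit 138) (nat_lit 5) (nat_lit 484) (nat_lit 479) (nat_lit 237)))))) (XT.nd (nat_lit 546) (nat_lit 1520) (nat_lit 0) (XT.nd (nat_lit 234) (nat_lit 608) (nat_lit 0) (XT.nd (nat_lit 78) (nat_lit 0) (nat_lit 0) (XT.lf (nat_lit 0) (nat_lit 105559995468) (nat_lit 760) (nat_lit 72029494355) (nat_lit 836) (nat_lit 45339404928) (nat_lit 128) (nat_lit 5) (nat_lit 138) (nat_lit 5) (nat_lit 139) (nat_lit 5) (nat_lit 485) (nat_lit 479) (nat_lit 236)) (XT.nd (nat_lit 78) (nat_lit 0) (nat_lit 76) (XT.lf (nat_lit 76) (nat_lit 43471894834) (nat_lit 0) (nat_lit 76334456051) (nat_lit 836) (nat_lit 108944553889)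 (nat_lit 129) (nat_lit 5) (nat_lit 128) (nat_lit 5) (nat_lit 139) (nat_lit 5) (nat_lit 486) (nat_lit 479) (nat_lit 235)) (XT.lf (nat_lit 0) (nat_lit 136472915140) (nat_lit 760) (nat_lit 68042158608) (nat_lit 836) (nat_lit 30263547029) (nat_lit 129) (nat_lit 5) (nat_lit 139) (nat_lit 5) (nat_lit 140) (nat_lit 5) (nat_lit 487) (nat_lit 479) (nat_lit 234)))) (XT.nd (nat_lit 156) (nat_lit 684) (nat_lit 0) (XT.nd (nat_lit 78) (nat_lit 0) (nat_lit 76) (XT.lf (nat_lit 76) (nat_lit 55584123667) (nat_lit 0) (nat_lit 100507811755) (nat_lit 836) (nat_lit 84909830798) (nat_lit 130) (nat_lit 5) (nat_lit 129) (nat_lit 5) (nat_lit 140) (nat_lit 5) (nat_lit 488) (nat_lit 479) (nat_lit 233)) (XT.lf (nat_lit 0) (nat_lit 177998875039) (nat_lit 760) (nat_lit 59879250741) (nat_lit 76) (nat_lit 9592594769) (nat_lit 130) (nat_lit 5) (nat_lit 140) (nat_lit 5) (nat_lit 131) (nat_lit 5) (nat_lit 489) (nat_lit 479) (nat_lit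 232))) (XT.nd (nat_lit 78) (nat_lit 0) (nat_lit 0) (XT.lf (nat_lit 0) (nat_lit 72612375155) (nat_lit 760) (nat_lit 131170064264) (nat_lit 836) (nat_lit 50341619314) (nat_lit 120) (nat_lit 5) (nat_lit 130) (nat_lit 5) (nat_lit 131) (nat_lit 5) (nat_lit 490) (nat_lit 479) (nat_lit 231)) (XT.lf (nat_lit 0) (nat_lit 213807389846) (nat_lit 760) (nat_lit 18061804830) (nat_lit 836) (nat_lit 29190168544) (nat_lit 120) (nat_lit 5) (nat_lit 130) (nat_lit 5) (nat_lit 131) (nat_lit 5) (nat_lit 491) (nat_lit 479) (nat_lit 230))))) (XT.nd (nat_lit 234) (nat_lit 684) (nat_lit 0) (XT.nd (nat_lit 78) (nat_lit 456) (nat_lit 0) (XT.lf (nat_lit 0) (nat_lit 95195261532) (nat_lit 380) (nat_lit 169223461422) (nat_lit 456) (nat_lit 3769788240) (nat_lit 115) (nat_lit 5) (nat_lit 120) (nat_lit 5) (nat_lit 121) (nat_lit 5) (nat_lit 492) (nat_lit 479) (nat_lit 229)) (XT.nd (nat_lit 78) (nat_lit 380) (nat_lit 0) (XT.lf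 (nat_lit 0) (nat_lit 23297358380) (nat_lit 456) (nat_lit 29895915655) (nat_lit 76) (nat_lit 222407479925) (nat_lit 114) (nat_lit 5) (nat_lit 120) (nat_lit 5) (nat_lit 115) (nat_lit 5) (nat_lit 493) (nat_lit 479) (nat_lit 228)) (XT.lf (nat_lit 0) (nat_lit 54635800068) (nat_lit 456) (nat_lit 160116070017) (nat_lit 76) (nat_lit 68476417444) (nat_lit 109) (nat_lit 5) (nat_lit 115) (nat_lit 5) (nat_lit 110) (nat_lit 5) (nat_lit 494) (nat_lit 479) (nat_lit 227)))) (XT.nd (nat_lit 156) (nat_lit 304) (nat_lit 0) (XT.nd (nat_lit 78) (nat_lit 380) (nat_lit 0) (XT.lf (nat_lit 0) (nat_lit 88927724981) (nat_lit 456) (nat_lit 7283592967) (nat_lit 76) (nat_lit 194956551791) (nat_lit 109) (nat_lit 5) (nat_lit 115) (nat_lit 5) (nat_lit 110) (nat_lit 5) (nat_lit 495) (nat_lit 479) (nat_lit 226)) (XT.lf (nat_lit 0) (nat_lit 127886665660) (nat_lit 456) (nat_lit 141606944230) (nat_lit 76) (nat_lit 29863200215)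 (nat_lit 104) (nat_lit 5) (nat_lit 110) (nat_lit 5) (nat_lit 105) (nat_lit 5) (nat_lit 496) (nat_lit 479) (nat_lit 225))) (XT.nd (nat_lit 78) (nat_lit 0) (nat_lit 0) (XT.lf (nat_lit 0) (nat_lit 22478984590) (nat_lit 304) (nat_lit 148368079897) (nat_lit 380) (nat_lit 137005457464) (nat_lit 100) (nat_lit 5) (nat_lit 104) (nat_lit 5) (nat_lit 105) (nat_lit 5) (nat_lit 497) (nat_lit 479) (nat_lit 224)) (XT.lf (nat_lit 0) (nat_lit 199685420172) (nat_lit 304) (nat_lit 18668190055) (nat_lit 380) (nat_lit 98299502832) (nat_lit 100) (nat_lit 5) (nat_lit 104) (nat_lit 5) (nat_lit 105) (nat_lit 5) (nat_lit 498) (nat_lit 479) (nat_lit 223))))))) (XT.nd (nat_lit 1092) (nat_lit 1672) (nat_lit 0) (XT.nd (nat_lit 546) (nat_lit 988) (nat_lit 0) (XT.nd (nat_lit 234) (nat_lit 532) (nat_lit 0) (XT.nd (nat_lit 78) (nat_lit 304) (nat_lit 0) (XT.lf (nat_lit 0) (nat_lit 59942139117) (nat_lit 304) (nat_lit 211063921215)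 (nat_lit 380) (nat_lit 54749144555) (nat_lit 96) (nat_lit 5) (nat_lit 100) (nat_lit 5) (nat_lit 101) (nat_lit 5) (nat_lit 499) (nat_lit 479) (nat_lit 222)) (XT.nd (nat_lit 78) (nat_lit 304) (nat_lit 0) (XT.lf (nat_lit 0) (nat_lit 249442100525) (nat_lit 304) (nat_lit 79130985638) (nat_lit 380) (nat_lit 6625217498) (nat_lit 96) (nat_lit 5) (nat_lit 100) (nat_lit 5) (nat_lit 101) (nat_lit 5) (nat_lit 500) (nat_lit 479) (nat_lit 221)) (XT.lf (nat_lit 0) (nat_lit 45120502703) (nat_lit 304) (nat_lit 239951301448) (nat_lit 76) (nat_lit 59876437907) (nat_lit 92) (nat_lit 5) (nat_lit 96) (nat_lit 5) (nat_lit 93) (nat_lit 5) (nat_lit 501) (nat_lit 479) (nat_lit 220)))) (XT.nd (nat_lit 156) (nat_lit 228) (nat_lit 0) (XT.nd (nat_lit 78) (nat_lit 304) (nat_lit 0) (XT.lf (nat_lit 0) (nat_lit 102004170581) (nat_lit 304) (nat_lit 48277767458) (nat_lit 76) (nat_lit 204759643223) (nat_lit 92) (nat_lit 5) (nat_lit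 96) (nat_lit 5) (nat_lit 93) (nat_lit 5) (nat_lit 502) (nat_lit 479) (nat_lit 219)) (XT.lf (nat_lit 0) (nat_lit 158037573959) (nat_lit 304) (nat_lit 6161811400) (nat_lit 380) (nat_lit 201316833906) (nat_lit 88) (nat_lit 5) (nat_lit 92) (nat_lit 5) (nat_lit 93) (nat_lit 5) (nat_lit 503) (nat_lit 479) (nat_lit 218))) (XT.nd (nat_lit 78) (nat_lit 228) (nat_lit 0) (XT.lf (nat_lit 0) (nat_lit 232601748670) (nat_lit 380) (nat_lit 2408816260) (nat_lit 76) (nat_lit 141349154860) (nat_lit 88) (nat_lit 5) (nat_lit 93) (nat_lit 5) (nat_lit 89) (nat_lit 5) (nat_lit 504) (nat_lit 479) (nat_lit 217)) (XT.lf (nat_lit 0) (nat_lit 219850007305) (nat_lit 228) (nat_lit 88107668181) (nat_lit 304) (nat_lit 79611047601) (nat_lit 85) (nat_lit 5) (nat_lit 88) (nat_lit 5) (nat_lit 89) (nat_lit 5) (nat_lit 505) (nat_lit 479) (nat_lit 216))))) (XT.nd (nat_lit 234) (nat_lit 456) (nat_lit 0) (XT.nd (nat_lit 78) (nat_lit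 304) (nat_lit 0) (XT.lf (nat_lit 0) (nat_lit 54686200676) (nat_lit 228) (nat_lit 334323060867) (nat_lit 304) (nat_lit 10232521874) (nat_lit 82) (nat_lit 5) (nat_lit 85) (nat_lit 5) (nat_lit 86) (nat_lit 5) (nat_lit 506) (nat_lit 479) (nat_lit 215)) (XT.nd (nat_lit 78) (nat_lit 228) (nat_lit 0) (XT.lf (nat_lit 0) (nat_lit 64942169496) (nat_lit 304) (nat_lit 119790903514) (nat_lit 76) (nat_lit 226499978627) (nat_lit 81) (nat_lit 5) (nat_lit 85) (nat_lit 5) (nat_lit 82) (nat_lit 5) (nat_lit 507) (nat_lit 479) (nat_lit 214)) (XT.lf (nat_lit 0) (nat_lit 119881153524) (nat_lit 228) (nat_lit 25522203473) (nat_lit 304) (nat_lit 278318556899) (nat_lit 78) (nat_lit 5) (nat_lit 81) (nat_lit 5) (nat_lit 82) (nat_lit 5) (nat_lit 508) (nat_lit 479) (nat_lit 213)))) (XT.nd (nat_lit 156) (nat_lit 228) (nat_lit 0) (XT.nd (nat_lit 78) (nat_lit 228) (nat_lit 0) (XT.lf (nat_lit 0) (nat_lit 234161080970) (nat_lit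 304) (nat_lit 63282955373) (nat_lit 76) (nat_lit 139177509081) (nat_lit 78) (nat_lit 5) (nat_lit 82) (nat_lit 5) (nat_lit 79) (nat_lit 5) (nat_lit 509) (nat_lit 479) (nat_lit 212)) (XT.lf (nat_lit 0) (nat_lit 195129657162) (nat_lit 228) (nat_lit 135691914786) (nat_lit 304) (nat_lit 119171342548) (nat_lit 75) (nat_lit 5) (nat_lit 78) (nat_lit 5) (nat_lit 79) (nat_lit 5) (nat_lit 510) (nat_lit 479) (nat_lit 211))) (XT.nd (nat_lit 78) (nat_lit 76) (nat_lit 0) (XT.lf (nat_lit 0) (nat_lit 4266462835) (nat_lit 152) (nat_lit 429737639808) (nat_lit 228) (nat_lit 29944298628) (nat_lit 73) (nat_lit 5) (nat_lit 75) (nat_lit 5) (nat_lit 76) (nat_lit 5) (nat_lit 511) (nat_lit 479) (nat_lit 210)) (XT.lf (nat_lit 0) (nat_lit 68315300588) (nat_lit 228) (nat_lit 196475399045) (nat_lit 76) (nat_lit 213430630945) (nat_lit 72) (nat_lit 5) (nat_lit 75) (nat_lit 5) (nat_lit 73) (nat_lit 5) (nat_lit 512) (nat_lit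 479) (nat_lit 209)))))) (XT.nd (nat_lit 546) (nat_lit 912) (nat_lit 0) (XT.nd (nat_lit 234) (nat_lit 380) (nat_lit 0) (XT.nd (nat_lit 78) (nat_lit 152) (nat_lit 0) (XT.lf (nat_lit 0) (nat_lit 82025865155) (nat_lit 228) (nat_lit 89736309355) (nat_lit 304) (nat_lit 321357156364) (nat_lit 69) (nat_lit 5) (nat_lit 72) (nat_lit 5) (nat_lit 73) (nat_lit 5) (nat_lit 513) (nat_lit 479) (nat_lit 208)) (XT.nd (nat_lit 78) (nat_lit 152) (nat_lit 0) (XT.lf (nat_lit 0) (nat_lit 285232020996) (nat_lit 304) (nat_lit 128845795107) (nat_lit 76) (nat_lit 94441883646) (nat_lit 69) (nat_lit 5) (nat_lit 73) (nat_lit 5) (nat_lit 70) (nat_lit 5) (nat_lit 514) (nat_lit 479) (nat_lit 207)) (XT.lf (nat_lit 0) (nat_lit 171533257463) (nat_lit 152) (nat_lit 236991272297) (nat_lit 228) (nat_lit 115958098816) (nat_lit 67) (nat_lit 5) (nat_lit 69) (nat_lit 5) (nat_lit 70) (nat_lit 5) (nat_lit 515) (nat_lit 479) (nat_lit 206))))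 (XT.nd (nat_lit 156) (nat_lit 152) (nat_lit 0) (XT.nd (nat_lit 78) (nat_lit 228) (nat_lit 0) (XT.lf (nat_lit 0) (nat_lit 491404448515) (nat_lit 152) (nat_lit 48759250132) (nat_lit 228) (nat_lit 970903470) (nat_lit 67) (nat_lit 5) (nat_lit 69) (nat_lit 5) (nat_lit 70) (nat_lit 5) (nat_lit 516) (nat_lit 479) (nat_lit 205)) (XT.lf (nat_lit 0) (nat_lit 122660972650) (nat_lit 228) (nat_lit 285135177581) (nat_lit 76) (nat_lit 150393101746) (nat_lit 64) (nat_lit 5) (nat_lit 67) (nat_lit 5) (nat_lit 65) (nat_lit 5) (nat_lit 517) (nat_lit 479) (nat_lit 204))) (XT.nd (nat_lit 78) (nat_lit 0) (nat_lit 0) (XT.lf (nat_lit 0) (nat_lit 38037853836) (nat_lit 152) (nat_lit 216653150547) (nat_lit 228) (nat_lit 321292374603) (nat_lit 62) (nat_lit 5) (nat_lit 64) (nat_lit 5) (nat_lit 65) (nat_lit 5) (nat_lit 518) (nat_lit 479) (nat_lit 203)) (XT.lf (nat_lit 0) (nat_lit 387268738809) (nat_lit 152) (nat_lit 10882671991)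 (nat_lit 228) (nat_lit 196274357896) (nat_lit 62) (nat_lit 5) (nat_lit 64) (nat_lit 5) (nat_lit 65) (nat_lit 5) (nat_lit 519) (nat_lit 479) (nat_lit 202))))) (XT.nd (nat_lit 312) (nat_lit 532) (nat_lit 0) (XT.nd (nat_lit 156) (nat_lit 152) (nat_lit 0) (XT.nd (nat_lit 78) (nat_lit 76) (nat_lit 0) (XT.lf (nat_lit 0) (nat_lit 141496229226) (nat_lit 152) (nat_lit 412701110527) (nat_lit 228) (nat_lit 59322313033) (nat_lit 60) (nat_lit 5) (nat_lit 62) (nat_lit 5) (nat_lit 63) (nat_lit 5) (nat_lit 520) (nat_lit 479) (nat_lit 201)) (XT.lf (nat_lit 0) (nat_lit 85517726172) (nat_lit 228) (nat_lit 120173532393) (nat_lit 76) (nat_lit 427623816407) (nat_lit 59) (nat_lit 5) (nat_lit 62) (nat_lit 5) (nat_lit 60) (nat_lit 5) (nat_lit 521) (nat_lit 479) (nat_lit 200))) (XT.nd (nat_lit 78) (nat_lit 0) (nat_lit 0) (XT.lf (nat_lit 0) (nat_lit 239874682896) (nat_lit 228) (nat_lit 397609077863) (nat_lit 76) (nat_lit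 16354455950) (nat_lit 57) (nat_lit 5) (nat_lit 60) (nat_lit 5) (nat_lit 58) (nat_lit 5) (nat_lit 522) (nat_lit 479) (nat_lit 199)) (XT.lf (nat_lit 0) (nat_lit 407390009911) (nat_lit 228) (nat_lit 23067054733) (nat_lit 76) (nat_lit 244658424771) (nat_lit 57) (nat_lit 5) (nat_lit 60) (nat_lit 5) (nat_lit 58) (nat_lit 5) (nat_lit 523) (nat_lit 479) (nat_lit 198)))) (XT.nd (nat_lit 156) (nat_lit 152) (nat_lit 0) (XT.nd (nat_lit 78) (nat_lit 228) (nat_lit 0) (XT.lf (nat_lit 0) (nat_lit 382442577923) (nat_lit 152) (nat_lit 206809500840) (nat_lit 228) (nat_lit 107905998223) (nat_lit 55) (nat_lit 5) (nat_lit 57) (nat_lit 5) (nat_lit 58) (nat_lit 5) (nat_lit 524) (nat_lit 479) (nat_lit 197)) (XT.lf (nat_lit 0) (nat_lit 60282892630) (nat_lit 228) (nat_lit 629941178916) (nat_lit 76) (nat_lit 29917170958) (nat_lit 52) (nat_lit 5) (nat_lit 55) (nat_lit 5) (nat_lit 53) (nat_lit 5) (nat_lit 525) (nat_lit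 479) (nat_lit 196))) (XT.nd (nat_lit 78) (nat_lit 152) (nat_lit 0) (XT.lf (nat_lit 0) (nat_lit 242062408026) (nat_lit 228) (nat_lit 222966145615) (nat_lit 76) (nat_lit 278716188664) (nat_lit 52) (nat_lit 5) (nat_lit 55) (nat_lit 5) (nat_lit 53) (nat_lit 5) (nat_lit 526) (nat_lit 479) (nat_lit 195)) (XT.lf (nat_lit 0) (nat_lit 211114583589) (nat_lit 152) (nat_lit 225112382504) (nat_lit 228) (nat_lit 332136647663) (nat_lit 50) (nat_lit 5) (nat_lit 52) (nat_lit 5) (nat_lit 53) (nat_lit 5) (nat_lit 527) (nat_lit 479) (nat_lit 194))))))))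
noncomputable def xc236 : XT := (XT.nd (nat_lit 60450) (nat_lit 0) (nat_lit 456) (XT.nd (nat_lit 59358) (nat_lit 0) (nat_lit 3952) (XT.nd (nat_lit 58812) (nat_lit 0) (nat_lit 6156) (XT.nd (nat_lit 234) (nat_lit 304) (nat_lit 0) (XT.nd (nat_lit 78) (nat_lit 152) (nat_lit 0) (XT.lf (nat_lit 0) (nat_lit 644356087551) (nat_lit 228) (nat_lit 119864756639) (nat_lit 76) (nat_lit 29779767816) (nat_lit 50) (nat_lit 5) (nat_lit 53) (nat_lit 5) (nat_lit 51) (nat_lit 4) (nat_lit 528) (nat_lit 479) (nat_lit 193)) (XT.nd (nat_lit 78) (nat_lit 0) (nat_lit 0) (XT.lf (nat_lit 0) (nat_lit 49882925756) (nat_lit 152) (nat_lit 474470754627) (nat_lit 76) (nat_lit 296070309927) (nat_lit 48) (nat_lit 5) (nat_lit 50) (nat_lit 5) (nat_lit 49) (nat_lit 5) (nat_lit 529) (nat_lit 479) (nat_lit 192)) (XT.lf (nat_lit 0) (nat_lit 256420935010) (nat_lit 152) (nat_lit 11329984151) (nat_lit 76) (nat_lit 580191797732) (nat_lit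 48) (nat_lit 5) (nat_lit 50) (nat_lit 5) (nat_lit 49) (nat_lit 5) (nat_lit 530) (nat_lit 479) (nat_lit 191)))) (XT.nd (nat_lit 156) (nat_lit 76) (nat_lit 0) (XT.nd (nat_lit 78) (nat_lit 76) (nat_lit 0) (XT.lf (nat_lit 0) (nat_lit 481098441128) (nat_lit 228) (nat_lit 385933821337) (nat_lit 76) (nat_lit 9414487523) (nat_lit 46) (nat_lit 5) (nat_lit 49) (nat_lit 5) (nat_lit 47) (nat_lit 4) (nat_lit 531) (nat_lit 479) (nat_lit 190)) (XT.lf (nat_lit 0) (nat_lit 110623033258) (nat_lit 76) (nat_lit 612698287744) (nat_lit 152) (nat_lit 182739088816) (nat_lit 45) (nat_lit 5) (nat_lit 46) (nat_lit 5) (nat_lit 47) (nat_lit 4) (nat_lit 532) (nat_lit 479) (nat_lit 189))) (XT.nd (nat_lit 58344) (nat_lit 0) (nat_lit 6156) (XT.lf (nat_lit 0) (nat_lit 45847422810) (nat_lit 152) (nat_lit 292160984954) (nat_lit 76) (nat_lit 598782573366) (nat_lit 44) (nat_lit 5) (nat_lit 46) (nat_lit 5) (nat_lit 45) (nat_lit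 5) (nat_lit 533) (nat_lit 479) (nat_lit 188)) (XT.lf (nat_lit 0) (nat_lit 33675579275) (nat_lit 836) (nat_lit 33518493655) (nat_lit 836) (nat_lit 33518493655) (nat_lit 125) (nat_lit 3) (nat_lit 136) (nat_lit 3) (nat_lit 136) (nat_lit 5) (nat_lit 480) (nat_lit 480) (nat_lit 240))))) (XT.nd (nat_lit 234) (nat_lit 0) (nat_lit 152) (XT.nd (nat_lit 78) (nat_lit 0) (nat_lit 76) (XT.lf (nat_lit 76) (nat_lit 32684105393) (nat_lit 0) (nat_lit 36862700389) (nat_lit 836) (nat_lit 136888361694) (nat_lit 126) (nat_lit 5) (nat_lit 125) (nat_lit 3) (nat_lit 136) (nat_lit 5) (nat_lit 481) (nat_lit 480) (nat_lit 239)) (XT.nd (nat_lit 78) (nat_lit 0) (nat_lit 0) (XT.lf (nat_lit 0) (nat_lit 74029297347) (nat_lit 760) (nat_lit 72962232679) (nat_lit 836) (nat_lit 64595320408) (nat_lit 126) (nat_lit 5) (nat_lit 136) (nat_lit 5) (nat_lit 137) (nat_lit 5) (nat_lit 482) (nat_lit 480) (nat_lit 238)) (XT.lf (nat_lit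 76) (nat_lit 33328390491) (nat_lit 0) (nat_lit 46532082836) (nat_lit 836) (nat_lit 137079416259) (nat_lit 127) (nat_lit 5) (nat_lit 126) (nat_lit 5) (nat_lit 137) (nat_lit 5) (nat_lit 483) (nat_lit 480) (nat_lit 237)))) (XT.nd (nat_lit 156) (nat_lit 0) (nat_lit 76) (XT.nd (nat_lit 78) (nat_lit 0) (nat_lit 0) (XT.lf (nat_lit 0) (nat_lit 88159403308) (nat_lit 760) (nat_lit 75972867974) (nat_lit 836) (nat_lit 58319499688) (nat_lit 127) (nat_lit 5) (nat_lit 137) (nat_lit 5) (nat_lit 138) (nat_lit 5) (nat_lit 484) (nat_lit 480) (nat_lit 236)) (XT.lf (nat_lit 76) (nat_lit 37484554395) (nat_lit 0) (nat_lit 60736697703) (nat_lit 836) (nat_lit 129950595744) (nat_lit 128) (nat_lit 5) (nat_lit 127) (nat_lit 5) (nat_lit 138) (nat_lit 5) (nat_lit 485) (nat_lit 480) (nat_lit 235))) (XT.nd (nat_lit 78) (nat_lit 0) (nat_lit 0) (XT.lf (nat_lit 0) (nat_lit 110840578373) (nat_lit 760) (nat_lit 75629036958) (nat_lit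 836) (nat_lit 47605594007) (nat_lit 128) (nat_lit 5) (nat_lit 138) (nat_lit 5) (nat_lit 139) (nat_lit 5) (nat_lit 486) (nat_lit 480) (nat_lit 234)) (XT.lf (nat_lit 76) (nat_lit 45647390527) (nat_lit 0) (nat_lit 80151767707) (nat_lit 836) (nat_lit 114389166341) (nat_lit 129) (nat_lit 5) (nat_lit 128) (nat_lit 5) (nat_lit 139) (nat_lit 5) (nat_lit 487) (nat_lit 480) (nat_lit 233)))))) (XT.nd (nat_lit 546) (nat_lit 1368) (nat_lit 0) (XT.nd (nat_lit 234) (nat_lit 1140) (nat_lit 0) (XT.nd (nat_lit 78) (nat_lit 0) (nat_lit 0) (XT.lf (nat_lit 0) (nat_lit 143298923384) (nat_lit 760) (nat_lit 71442327889) (nat_lit 836) (nat_lit 31776181518) (nat_lit 129) (nat_lit 5) (nat_lit 139) (nat_lit 5) (nat_lit 140) (nat_lit 5) (nat_lit 488) (nat_lit 480) (nat_lit 232)) (XT.nd (nat_lit 78) (nat_lit 0) (nat_lit 76) (XT.lf (nat_lit 76) (nat_lit 58365237232) (nat_lit 0) (nat_lit 105533574729) (nat_lit 836) (nat_lit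 89152927724) (nat_lit 130) (nat_lit 5) (nat_lit 129) (nat_lit 5) (nat_lit 140) (nat_lit 5) (nat_lit 489) (nat_lit 480) (nat_lit 231)) (XT.lf (nat_lit 0) (nat_lit 186900984461) (nat_lit 760) (nat_lit 62871281809) (nat_lit 76) (nat_lit 10071881205) (nat_lit 130) (nat_lit 5) (nat_lit 140) (nat_lit 5) (nat_lit 131) (nat_lit 5) (nat_lit 490) (nat_lit 480) (nat_lit 230)))) (XT.nd (nat_lit 156) (nat_lit 456) (nat_lit 0) (XT.nd (nat_lit 78) (nat_lit 0) (nat_lit 0) (XT.lf (nat_lit 0) (nat_lit 76244894230) (nat_lit 760) (nat_lit 137728759372) (nat_lit 836) (nat_lit 52856502678) (nat_lit 120) (nat_lit 5) (nat_lit 130) (nat_lit 5) (nat_lit 131) (nat_lit 5) (nat_lit 491) (nat_lit 480) (nat_lit 229)) (XT.lf (nat_lit 0) (nat_lit 224499569163) (nat_lit 760) (nat_lit 18965077829) (nat_lit 836) (nat_lit 30647584018) (nat_lit 120) (nat_lit 5) (nat_lit 130) (nat_lit 5) (nat_lit 131) (nat_lit 5) (nat_lit 492) (nat_lit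 480) (nat_lit 228))) (XT.nd (nat_lit 78) (nat_lit 76) (nat_lit 0) (XT.lf (nat_lit 0) (nat_lit 99956906803) (nat_lit 380) (nat_lit 177684676665) (nat_lit 456) (nat_lit 3956256360) (nat_lit 115) (nat_lit 5) (nat_lit 120) (nat_lit 5) (nat_lit 121) (nat_lit 5) (nat_lit 493) (nat_lit 480) (nat_lit 227)) (XT.lf (nat_lit 0) (nat_lit 24464089725) (nat_lit 456) (nat_lit 31388856618) (nat_lit 76) (nat_lit 233527751503) (nat_lit 114) (nat_lit 5) (nat_lit 120) (nat_lit 5) (nat_lit 115) (nat_lit 5) (nat_lit 494) (nat_lit 480) (nat_lit 226))))) (XT.nd (nat_lit 234) (nat_lit 608) (nat_lit 0) (XT.nd (nat_lit 78) (nat_lit 380) (nat_lit 0) (XT.lf (nat_lit 0) (nat_lit 57369393594) (nat_lit 456) (nat_lit 168119958184) (nat_lit 76) (nat_lit 71900259341) (nat_lit 109) (nat_lit 5) (nat_lit 115) (nat_lit 5) (nat_lit 110) (nat_lit 5) (nat_lit 495) (nat_lit 480) (nat_lit 225)) (XT.nd (nat_lit 78) (nat_lit 380) (nat_lit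 0) (XT.lf (nat_lit 0) (nat_lit 93375828871) (nat_lit 456) (nat_lit 7645948488) (nat_lit 76) (nat_lit 204704399404) (nat_lit 109) (nat_lit 5) (nat_lit 115) (nat_lit 5) (nat_lit 110) (nat_lit 5) (nat_lit 496) (nat_lit 480) (nat_lit 224)) (XT.lf (nat_lit 0) (nat_lit 134282664854) (nat_lit 456) (nat_lit 148685415031) (nat_lit 76) (nat_lit 31356486875) (nat_lit 104) (nat_lit 5) (nat_lit 110) (nat_lit 5) (nat_lit 105) (nat_lit 5) (nat_lit 497) (nat_lit 480) (nat_lit 223)))) (XT.nd (nat_lit 156) (nat_lit 304) (nat_lit 0) (XT.nd (nat_lit 78) (nat_lit 0) (nat_lit 0) (XT.lf (nat_lit 0) (nat_lit 23604779966) (nat_lit 304) (nat_lit 155786253152) (nat_lit 380) (nat_lit 143854033634) (nat_lit 100) (nat_lit 5) (nat_lit 104) (nat_lit 5) (nat_lit 105) (nat_lit 5) (nat_lit 498) (nat_lit 480) (nat_lit 222)) (XT.lf (nat_lit 0) (nat_lit 209671449415) (nat_lit 304) (nat_lit 19601379805) (nat_lit 380) (nat_lit 103212862066)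 (nat_lit 100) (nat_lit 5) (nat_lit 104) (nat_lit 5) (nat_lit 105) (nat_lit 5) (nat_lit 499) (nat_lit 480) (nat_lit 221))) (XT.nd (nat_lit 78) (nat_lit 0) (nat_lit 0) (XT.lf (nat_lit 0) (nat_lit 62941048750) (nat_lit 304) (nat_lit 221616811231) (nat_lit 380) (nat_lit 57485029840) (nat_lit 96) (nat_lit 5) (nat_lit 100) (nat_lit 5) (nat_lit 101) (nat_lit 5) (nat_lit 500) (nat_lit 480) (nat_lit 220)) (XT.lf (nat_lit 0) (nat_lit 261915922387) (nat_lit 304) (nat_lit 83087243449) (nat_lit 380) (nat_lit 6954981284) (nat_lit 96) (nat_lit 5) (nat_lit 100) (nat_lit 5) (nat_lit 101) (nat_lit 5) (nat_lit 501) (nat_lit 480) (nat_lit 219))))))) (XT.nd (nat_lit 1092) (nat_lit 1444) (nat_lit 0) (XT.nd (nat_lit 546) (nat_lit 912) (nat_lit 0) (XT.nd (nat_lit 234) (nat_lit 532) (nat_lit 0) (XT.nd (nat_lit 78) (nat_lit 304) (nat_lit 0) (XT.lf (nat_lit 0) (nat_lit 47377940261) (nat_lit 304) (nat_lit 251947064172)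 (nat_lit 76) (nat_lit 62870578694) (nat_lit 92) (nat_lit 5) (nat_lit 96) (nat_lit 5) (nat_lit 93) (nat_lit 5) (nat_lit 502) (nat_lit 480) (nat_lit 218)) (XT.nd (nat_lit 78) (nat_lit 304) (nat_lit 0) (XT.lf (nat_lit 0) (nat_lit 107105724274) (nat_lit 304) (nat_lit 50689939309) (nat_lit 76) (nat_lit 214997929090) (nat_lit 92) (nat_lit 5) (nat_lit 96) (nat_lit 5) (nat_lit 93) (nat_lit 5) (nat_lit 503) (nat_lit 480) (nat_lit 217)) (XT.lf (nat_lit 0) (nat_lit 165941141493) (nat_lit 304) (nat_lit 6469520610) (nat_lit 380) (nat_lit 211381302376) (nat_lit 88) (nat_lit 5) (nat_lit 92) (nat_lit 5) (nat_lit 93) (nat_lit 5) (nat_lit 504) (nat_lit 480) (nat_lit 216)))) (XT.nd (nat_lit 156) (nat_lit 304) (nat_lit 0) (XT.nd (nat_lit 78) (nat_lit 228) (nat_lit 0) (XT.lf (nat_lit 0) (nat_lit 244233086990) (nat_lit 380) (nat_lit 2527591710) (nat_lit 76) (nat_lit 148416964179) (nat_lit 88) (nat_lit 5) (nat_lit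 93) (nat_lit 5) (nat_lit 89) (nat_lit 5) (nat_lit 505) (nat_lit 480) (nat_lit 215)) (XT.lf (nat_lit 0) (nat_lit 230844146173) (nat_lit 228) (nat_lit 92512629990) (nat_lit 304) (nat_lit 83590321895) (nat_lit 85) (nat_lit 5) (nat_lit 88) (nat_lit 5) (nat_lit 89) (nat_lit 5) (nat_lit 506) (nat_lit 480) (nat_lit 214))) (XT.nd (nat_lit 78) (nat_lit 76) (nat_lit 0) (XT.lf (nat_lit 0) (nat_lit 57422176506) (nat_lit 228) (nat_lit 351038739345) (nat_lit 304) (nat_lit 10742896851) (nat_lit 82) (nat_lit 5) (nat_lit 85) (nat_lit 5) (nat_lit 86) (nat_lit 5) (nat_lit 507) (nat_lit 480) (nat_lit 213)) (XT.lf (nat_lit 0) (nat_lit 68190431373) (nat_lit 304) (nat_lit 125778823787) (nat_lit 76) (nat_lit 237825391096) (nat_lit 81) (nat_lit 5) (nat_lit 85) (nat_lit 5) (nat_lit 82) (nat_lit 5) (nat_lit 508) (nat_lit 480) (nat_lit 212))))) (XT.nd (nat_lit 234) (nat_lit 456) (nat_lit 0) (XT.nd (nat_lit 78) (nat_lit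 228) (nat_lit 0) (XT.lf (nat_lit 0) (nat_lit 125876809896) (nat_lit 228) (nat_lit 26797838390) (nat_lit 304) (nat_lit 292233304854) (nat_lit 78) (nat_lit 5) (nat_lit 81) (nat_lit 5) (nat_lit 82) (nat_lit 5) (nat_lit 509) (nat_lit 480) (nat_lit 211)) (XT.nd (nat_lit 78) (nat_lit 228) (nat_lit 0) (XT.lf (nat_lit 0) (nat_lit 245870212027) (nat_lit 304) (nat_lit 66445533878) (nat_lit 76) (nat_lit 146136822674) (nat_lit 78) (nat_lit 5) (nat_lit 82) (nat_lit 5) (nat_lit 79) (nat_lit 5) (nat_lit 510) (nat_lit 480) (nat_lit 210)) (XT.lf (nat_lit 0) (nat_lit 204887683973) (nat_lit 228) (nat_lit 142476016400) (nat_lit 304) (nat_lit 125128807103) (nat_lit 75) (nat_lit 5) (nat_lit 78) (nat_lit 5) (nat_lit 79) (nat_lit 5) (nat_lit 511) (nat_lit 480) (nat_lit 209)))) (XT.nd (nat_lit 156) (nat_lit 228) (nat_lit 0) (XT.nd (nat_lit 78) (nat_lit 76) (nat_lit 0) (XT.lf (nat_lit 0) (nat_lit 4481349332) (nat_lit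 152) (nat_lit 451223990036) (nat_lit 228) (nat_lit 31440430147) (nat_lit 73) (nat_lit 5) (nat_lit 75) (nat_lit 5) (nat_lit 76) (nat_lit 5) (nat_lit 512) (nat_lit 480) (nat_lit 208)) (XT.lf (nat_lit 0) (nat_lit 71732064415) (nat_lit 228) (nat_lit 206297646844) (nat_lit 76) (nat_lit 224102635690) (nat_lit 72) (nat_lit 5) (nat_lit 75) (nat_lit 5) (nat_lit 73) (nat_lit 5) (nat_lit 513) (nat_lit 480) (nat_lit 207))) (XT.nd (nat_lit 78) (nat_lit 0) (nat_lit 0) (XT.lf (nat_lit 0) (nat_lit 86128656015) (nat_lit 228) (nat_lit 94222601838) (nat_lit 304) (nat_lit 337423990626) (nat_lit 69) (nat_lit 5) (nat_lit 72) (nat_lit 5) (nat_lit 73) (nat_lit 5) (nat_lit 514) (nat_lit 480) (nat_lit 206)) (XT.lf (nat_lit 0) (nat_lit 299494558029) (nat_lit 304) (nat_lit 135286619742) (nat_lit 76) (nat_lit 99164459968) (nat_lit 69) (nat_lit 5) (nat_lit 73) (nat_lit 5) (nat_lit 70) (nat_lit 5) (nat_lit 515) (nat_lit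 480) (nat_lit 205)))))) (XT.nd (nat_lit 546) (nat_lit 684) (nat_lit 0) (XT.nd (nat_lit 234) (nat_lit 380) (nat_lit 0) (XT.nd (nat_lit 78) (nat_lit 228) (nat_lit 0) (XT.lf (nat_lit 0) (nat_lit 180111361825) (nat_lit 152) (nat_lit 248840308341) (nat_lit 228) (nat_lit 121755043954) (nat_lit 67) (nat_lit 5) (nat_lit 69) (nat_lit 5) (nat_lit 70) (nat_lit 5) (nat_lit 516) (nat_lit 480) (nat_lit 204)) (XT.nd (nat_lit 78) (nat_lit 228) (nat_lit 0) (XT.lf (nat_lit 0) (nat_lit 515976043787) (nat_lit 152) (nat_lit 51196710190) (nat_lit 228) (nat_lit 1018534545) (nat_lit 67) (nat_lit 5) (nat_lit 69) (nat_lit 5) (nat_lit 70) (nat_lit 5) (nat_lit 517) (nat_lit 480) (nat_lit 203)) (XT.lf (nat_lit 0) (nat_lit 128794893576) (nat_lit 228) (nat_lit 299390521473) (nat_lit 76) (nat_lit 157913255749) (nat_lit 64) (nat_lit 5) (nat_lit 67) (nat_lit 5) (nat_lit 65) (nat_lit 5) (nat_lit 518) (nat_lit 480) (nat_lit 202))))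 (XT.nd (nat_lit 156) (nat_lit 228) (nat_lit 0) (XT.nd (nat_lit 78) (nat_lit 0) (nat_lit 0) (XT.lf (nat_lit 0) (nat_lit 39941138693) (nat_lit 152) (nat_lit 227485268401) (nat_lit 228) (nat_lit 337356098062) (nat_lit 62) (nat_lit 5) (nat_lit 64) (nat_lit 5) (nat_lit 65) (nat_lit 5) (nat_lit 519) (nat_lit 480) (nat_lit 201)) (XT.lf (nat_lit 0) (nat_lit 406633501621) (nat_lit 152) (nat_lit 11426291616) (nat_lit 228) (nat_lit 206087223151) (nat_lit 62) (nat_lit 5) (nat_lit 64) (nat_lit 5) (nat_lit 65) (nat_lit 5) (nat_lit 520) (nat_lit 480) (nat_lit 200))) (XT.nd (nat_lit 78) (nat_lit 76) (nat_lit 0) (XT.lf (nat_lit 0) (nat_lit 148572377364) (nat_lit 152) (nat_lit 433335631123) (nat_lit 228) (nat_lit 62287586710) (nat_lit 60) (nat_lit 5) (nat_lit 62) (nat_lit 5) (nat_lit 63) (nat_lit 5) (nat_lit 521) (nat_lit 480) (nat_lit 199)) (XT.lf (nat_lit 0) (nat_lit 89794388696) (nat_lit 228) (nat_lit 126180910194)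 (nat_lit 76) (nat_lit 449005490891) (nat_lit 59) (nat_lit 5) (nat_lit 62) (nat_lit 5) (nat_lit 60) (nat_lit 5) (nat_lit 522) (nat_lit 480) (nat_lit 198))))) (XT.nd (nat_lit 234) (nat_lit 380) (nat_lit 0) (XT.nd (nat_lit 78) (nat_lit 152) (nat_lit 0) (XT.lf (nat_lit 0) (nat_lit 251869184343) (nat_lit 228) (nat_lit 417488223902) (nat_lit 76) (nat_lit 17172680812) (nat_lit 57) (nat_lit 5) (nat_lit 60) (nat_lit 5) (nat_lit 58) (nat_lit 5) (nat_lit 523) (nat_lit 480) (nat_lit 197)) (XT.nd (nat_lit 78) (nat_lit 152) (nat_lit 0) (XT.lf (nat_lit 0) (nat_lit 427760241170) (nat_lit 228) (nat_lit 24219161894) (nat_lit 76) (nat_lit 256891824167) (nat_lit 57) (nat_lit 5) (nat_lit 60) (nat_lit 5) (nat_lit 58) (nat_lit 5) (nat_lit 524) (nat_lit 480) (nat_lit 196)) (XT.lf (nat_lit 0) (nat_lit 401565932305) (nat_lit 152) (nat_lit 217149465495) (nat_lit 228) (nat_lit 113300547170) (nat_lit 55) (nat_lit 5) (nat_lit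 57) (nat_lit 5) (nat_lit 58) (nat_lit 5) (nat_lit 525) (nat_lit 480) (nat_lit 195)))) (XT.nd (nat_lit 156) (nat_lit 152) (nat_lit 0) (XT.nd (nat_lit 78) (nat_lit 0) (nat_lit 0) (XT.lf (nat_lit 0) (nat_lit 63297756857) (nat_lit 228) (nat_lit 661436980801) (nat_lit 76) (nat_lit 31413530890) (nat_lit 52) (nat_lit 5) (nat_lit 55) (nat_lit 5) (nat_lit 53) (nat_lit 5) (nat_lit 526) (nat_lit 480) (nat_lit 194)) (XT.lf (nat_lit 0) (nat_lit 254166213757) (nat_lit 228) (nat_lit 234113255695) (nat_lit 76) (nat_lit 292652475607) (nat_lit 52) (nat_lit 5) (nat_lit 55) (nat_lit 5) (nat_lit 53) (nat_lit 5) (nat_lit 527) (nat_lit 480) (nat_lit 193))) (XT.nd (nat_lit 78) (nat_lit 0) (nat_lit 0) (XT.lf (nat_lit 0) (nat_lit 221671490659) (nat_lit 152) (nat_lit 236367494823) (nat_lit 228) (nat_lit 348742775316) (nat_lit 50) (nat_lit 5) (nat_lit 52) (nat_lit 5) (nat_lit 53) (nat_lit 5) (nat_lit 528) (nat_lit 480)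 (nat_lit 192)) (XT.lf (nat_lit 0) (nat_lit 676574538593) (nat_lit 228) (nat_lit 125856848163) (nat_lit 76) (nat_lit 31269223431) (nat_lit 50) (nat_lit 5) (nat_lit 53) (nat_lit 5) (nat_lit 51) (nat_lit 4) (nat_lit 529) (nat_lit 480) (nat_lit 191))))))))
noncomputable def xc237 : XT := (XT.nd (nat_lit 60528) (nat_lit 0) (nat_lit 76) (XT.nd (nat_lit 59436) (nat_lit 0) (nat_lit 3572) (XT.nd (nat_lit 58890) (nat_lit 0) (nat_lit 6156) (XT.nd (nat_lit 234) (nat_lit 76) (nat_lit 0) (XT.nd (nat_lit 78) (nat_lit 152) (nat_lit 0) (XT.lf (nat_lit 0) (nat_lit 52377715988) (nat_lit 152) (nat_lit 498193143169) (nat_lit 76) (nat_lit 310874298393) (nat_lit 48) (nat_lit 5) (nat_lit 50) (nat_lit 5) (nat_lit 49) (nat_lit 5) (nat_lit 530) (nat_lit 480) (nat_lit 190)) (XT.nd (nat_lit 78) (nat_lit 152) (nat_lit 0) (XT.lf (nat_lit 0) (nat_lit 269242595040) (nat_lit 152) (nat_lit 11895388892) (nat_lit 76) (nat_lit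 609201838066) (nat_lit 48) (nat_lit 5) (nat_lit 50) (nat_lit 5) (nat_lit 49) (nat_lit 5) (nat_lit 531) (nat_lit 480) (nat_lit 189)) (XT.lf (nat_lit 0) (nat_lit 505153971503) (nat_lit 228) (nat_lit 405229412905) (nat_lit 76) (nat_lit 9885672592) (nat_lit 46) (nat_lit 5) (nat_lit 49) (nat_lit 5) (nat_lit 47) (nat_lit 4) (nat_lit 532) (nat_lit 480) (nat_lit 188)))) (XT.nd (nat_lit 58500) (nat_lit 0) (nat_lit 6080) (XT.nd (nat_lit 58422) (nat_lit 0) (nat_lit 6080) (XT.lf (nat_lit 0) (nat_lit 116155266686) (nat_lit 76) (nat_lit 643332716606) (nat_lit 152) (nat_lit 191875417136) (nat_lit 45) (nat_lit 5) (nat_lit 46) (nat_lit 5) (nat_lit 47) (nat_lit 4) (nat_lit 533) (nat_lit 480) (nat_lit 187)) (XT.lf (nat_lit 0) (nat_lit 35360911391) (nat_lit 836) (nat_lit 35193602631) (nat_lit 836) (nat_lit 35193602631) (nat_lit 125) (nat_lit 3) (nat_lit 136) (nat_lit 3) (nat_lit 136) (nat_lit 5) (nat_lit 481)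 (nat_lit 481) (nat_lit 238))) (XT.nd (nat_lit 78) (nat_lit 0) (nat_lit 76) (XT.lf (nat_lit 76) (nat_lit 34319915764) (nat_lit 0) (nat_lit 38707213753) (nat_lit 836) (nat_lit 143729646010) (nat_lit 126) (nat_lit 5) (nat_lit 125) (nat_lit 3) (nat_lit 136) (nat_lit 5) (nat_lit 482) (nat_lit 481) (nat_lit 237)) (XT.lf (nat_lit 0) (nat_lit 77733583095) (nat_lit 760) (nat_lit 76608651985) (nat_lit 836) (nat_lit 67823815735) (nat_lit 126) (nat_lit 5) (nat_lit 136) (nat_lit 5) (nat_lit 137) (nat_lit 5) (nat_lit 483) (nat_lit 481) (nat_lit 236))))) (XT.nd (nat_lit 234) (nat_lit 0) (nat_lit 152) (XT.nd (nat_lit 78) (nat_lit 0) (nat_lit 76) (XT.lf (nat_lit 76) (nat_lit 34996475048) (nat_lit 0) (nat_lit 48859734495) (nat_lit 836) (nat_lit 143930537851) (nat_lit 127) (nat_lit 5) (nat_lit 126) (nat_lit 5) (nat_lit 137) (nat_lit 5) (nat_lit 484) (nat_lit 481) (nat_lit 235)) (XT.nd (nat_lit 78) (nat_lit 0)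 (nat_lit 0) (XT.lf (nat_lit 0) (nat_lit 92569941278) (nat_lit 760) (nat_lit 79769779889) (nat_lit 836) (nat_lit 61234508967) (nat_lit 127) (nat_lit 5) (nat_lit 137) (nat_lit 5) (nat_lit 138) (nat_lit 5) (nat_lit 485) (nat_lit 481) (nat_lit 234)) (XT.lf (nat_lit 76) (nat_lit 39360485672) (nat_lit 0) (nat_lit 63774301157) (nat_lit 836) (nat_lit 136445528852) (nat_lit 128) (nat_lit 5) (nat_lit 127) (nat_lit 5) (nat_lit 138) (nat_lit 5) (nat_lit 486) (nat_lit 481) (nat_lit 233)))) (XT.nd (nat_lit 156) (nat_lit 0) (nat_lit 76) (XT.nd (nat_lit 78) (nat_lit 0) (nat_lit 0) (XT.lf (nat_lit 0) (nat_lit 116384950269) (nat_lit 760) (nat_lit 79408736321) (nat_lit 836) (nat_lit 49985165165) (nat_lit 128) (nat_lit 5) (nat_lit 138) (nat_lit 5) (nat_lit 139) (nat_lit 5) (nat_lit 487) (nat_lit 481) (nat_lit 232)) (XT.lf (nat_lit 76) (nat_lit 47931484273) (nat_lit 0) (nat_lit 84159890200) (nat_lit 836) (nat_lit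 120106252556) (nat_lit 129) (nat_lit 5) (nat_lit 128) (nat_lit 5) (nat_lit 139) (nat_lit 5) (nat_lit 488) (nat_lit 481) (nat_lit 231))) (XT.nd (nat_lit 78) (nat_lit 0) (nat_lit 0) (XT.lf (nat_lit 0) (nat_lit 150466012398) (nat_lit 760) (nat_lit 75012685870) (nat_lit 836) (nat_lit 33364498201) (nat_lit 129) (nat_lit 5) (nat_lit 139) (nat_lit 5) (nat_lit 140) (nat_lit 5) (nat_lit 489) (nat_lit 481) (nat_lit 230)) (XT.lf (nat_lit 76) (nat_lit 61285229145) (nat_lit 0) (nat_lit 110810591230) (nat_lit 836) (nat_lit 93608402124) (nat_lit 130) (nat_lit 5) (nat_lit 129) (nat_lit 5) (nat_lit 140) (nat_lit 5) (nat_lit 490) (nat_lit 481) (nat_lit 229)))))) (XT.nd (nat_lit 546) (nat_lit 1292) (nat_lit 0) (XT.nd (nat_lit 234) (nat_lit 836) (nat_lit 0) (XT.nd (nat_lit 78) (nat_lit 760) (nat_lit 0) (XT.lf (nat_lit 0) (nat_lit 196247998011) (nat_lit 760) (nat_lit 66013093999) (nat_lit 76) (nat_lit 10575163881)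 (nat_lit 130) (nat_lit 5) (nat_lit 140) (nat_lit 5) (nat_lit 131) (nat_lit 5) (nat_lit 491) (nat_lit 481) (nat_lit 228)) (XT.nd (nat_lit 78) (nat_lit 0) (nat_lit 0) (XT.lf (nat_lit 0) (nat_lit 80058862584) (nat_lit 760) (nat_lit 144615371395) (nat_lit 836) (nat_lit 55497334523) (nat_lit 120) (nat_lit 5) (nat_lit 130) (nat_lit 5) (nat_lit 131) (nat_lit 5) (nat_lit 492) (nat_lit 481) (nat_lit 227)) (XT.lf (nat_lit 0) (nat_lit 235726189187) (nat_lit 760) (nat_lit 19913497487) (nat_lit 836) (nat_lit 32178064848) (nat_lit 120) (nat_lit 5) (nat_lit 130) (nat_lit 5) (nat_lit 131) (nat_lit 5) (nat_lit 493) (nat_lit 481) (nat_lit 226)))) (XT.nd (nat_lit 156) (nat_lit 380) (nat_lit 0) (XT.nd (nat_lit 78) (nat_lit 76) (nat_lit 0) (XT.lf (nat_lit 0) (nat_lit 104956459349) (nat_lit 380) (nat_lit 186568948750) (nat_lit 456) (nat_lit 4152235807) (nat_lit 115) (nat_lit 5) (nat_lit 120) (nat_lit 5) (nat_lit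 121) (nat_lit 5) (nat_lit 494) (nat_lit 481) (nat_lit 225)) (XT.lf (nat_lit 0) (nat_lit 25688984394) (nat_lit 456) (nat_lit 32956617072) (nat_lit 76) (nat_lit 245204046181) (nat_lit 114) (nat_lit 5) (nat_lit 120) (nat_lit 5) (nat_lit 115) (nat_lit 5) (nat_lit 495) (nat_lit 481) (nat_lit 224))) (XT.nd (nat_lit 78) (nat_lit 0) (nat_lit 0) (XT.lf (nat_lit 0) (nat_lit 60239499122) (nat_lit 456) (nat_lit 176524218828) (nat_lit 76) (nat_lit 75495291378) (nat_lit 109) (nat_lit 5) (nat_lit 115) (nat_lit 5) (nat_lit 110) (nat_lit 5) (nat_lit 496) (nat_lit 481) (nat_lit 223)) (XT.lf (nat_lit 0) (nat_lit 98046178265) (nat_lit 456) (nat_lit 8026591375) (nat_lit 76) (nat_lit 214939637536) (nat_lit 109) (nat_lit 5) (nat_lit 115) (nat_lit 5) (nat_lit 110) (nat_lit 5) (nat_lit 497) (nat_lit 481) (nat_lit 222))))) (XT.nd (nat_lit 234) (nat_lit 608) (nat_lit 0) (XT.nd (nat_lit 78) (nat_lit 304) (nat_lit 0) (XT.lf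 (nat_lit 0) (nat_lit 140998309128) (nat_lit 456) (nat_lit 156117983823) (nat_lit 76) (nat_lit 32924426094) (nat_lit 104) (nat_lit 5) (nat_lit 110) (nat_lit 5) (nat_lit 105) (nat_lit 5) (nat_lit 498) (nat_lit 481) (nat_lit 221)) (XT.nd (nat_lit 78) (nat_lit 0) (nat_lit 0) (XT.lf (nat_lit 0) (nat_lit 24786693473) (nat_lit 304) (nat_lit 163575356521) (nat_lit 380) (nat_lit 151045196355) (nat_lit 100) (nat_lit 5) (nat_lit 104) (nat_lit 5) (nat_lit 105) (nat_lit 5) (nat_lit 499) (nat_lit 481) (nat_lit 220)) (XT.lf (nat_lit 0) (nat_lit 220156616656) (nat_lit 304) (nat_lit 20581249474) (nat_lit 380) (nat_lit 108372039493) (nat_lit 100) (nat_lit 5) (nat_lit 104) (nat_lit 5) (nat_lit 105) (nat_lit 5) (nat_lit 500) (nat_lit 481) (nat_lit 219)))) (XT.nd (nat_lit 156) (nat_lit 304) (nat_lit 0) (XT.nd (nat_lit 78) (nat_lit 0) (nat_lit 0) (XT.lf (nat_lit 0) (nat_lit 66089736269) (nat_lit 304) (nat_lit 232697374202)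 (nat_lit 380) (nat_lit 60357855533) (nat_lit 96) (nat_lit 5) (nat_lit 100) (nat_lit 5) (nat_lit 101) (nat_lit 5) (nat_lit 501) (nat_lit 481) (nat_lit 218)) (XT.lf (nat_lit 0) (nat_lit 275013275727) (nat_lit 304) (nat_lit 87241341249) (nat_lit 380) (nat_lit 7301372445) (nat_lit 96) (nat_lit 5) (nat_lit 100) (nat_lit 5) (nat_lit 101) (nat_lit 5) (nat_lit 502) (nat_lit 481) (nat_lit 217))) (XT.nd (nat_lit 78) (nat_lit 0) (nat_lit 0) (XT.lf (nat_lit 0) (nat_lit 49748118383) (nat_lit 304) (nat_lit 264542782597) (nat_lit 76) (nat_lit 66014396873) (nat_lit 92) (nat_lit 5) (nat_lit 96) (nat_lit 5) (nat_lit 93) (nat_lit 5) (nat_lit 503) (nat_lit 481) (nat_lit 216)) (XT.lf (nat_lit 0) (nat_lit 112462230592) (nat_lit 304) (nat_lit 53222879338) (nat_lit 76) (nat_lit 225748101015) (nat_lit 92) (nat_lit 5) (nat_lit 96) (nat_lit 5) (nat_lit 93) (nat_lit 5) (nat_lit 504) (nat_lit 481) (nat_lit 215))))))) (XT.nd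 (nat_lit 1092) (nat_lit 1596) (nat_lit 0) (XT.nd (nat_lit 546) (nat_lit 836) (nat_lit 0) (XT.nd (nat_lit 234) (nat_lit 532) (nat_lit 0) (XT.nd (nat_lit 78) (nat_lit 228) (nat_lit 0) (XT.lf (nat_lit 0) (nat_lit 174239730393) (nat_lit 304) (nat_lit 6792650735) (nat_lit 380) (nat_lit 221949121939) (nat_lit 88) (nat_lit 5) (nat_lit 92) (nat_lit 5) (nat_lit 93) (nat_lit 5) (nat_lit 505) (nat_lit 481) (nat_lit 214)) (XT.nd (nat_lit 78) (nat_lit 228) (nat_lit 0) (XT.lf (nat_lit 0) (nat_lit 256445875930) (nat_lit 380) (nat_lit 2652460762) (nat_lit 76) (nat_lit 155838131278) (nat_lit 88) (nat_lit 5) (nat_lit 93) (nat_lit 5) (nat_lit 89) (nat_lit 5) (nat_lit 506) (nat_lit 481) (nat_lit 213)) (XT.lf (nat_lit 0) (nat_lit 242387839652) (nat_lit 228) (nat_lit 97137879085) (nat_lit 304) (nat_lit 87768678727) (nat_lit 85) (nat_lit 5) (nat_lit 88) (nat_lit 5) (nat_lit 89) (nat_lit 5) (nat_lit 507) (nat_lit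 481) (nat_lit 212)))) (XT.nd (nat_lit 156) (nat_lit 228) (nat_lit 0) (XT.nd (nat_lit 78) (nat_lit 76) (nat_lit 0) (XT.lf (nat_lit 0) (nat_lit 60294796259) (nat_lit 228) (nat_lit 368590245867) (nat_lit 304) (nat_lit 11278906895) (nat_lit 82) (nat_lit 5) (nat_lit 85) (nat_lit 5) (nat_lit 86) (nat_lit 5) (nat_lit 508) (nat_lit 481) (nat_lit 211)) (XT.lf (nat_lit 0) (nat_lit 71600999112) (nat_lit 304) (nat_lit 132066291141) (nat_lit 76) (nat_lit 249717035741) (nat_lit 81) (nat_lit 5) (nat_lit 85) (nat_lit 5) (nat_lit 82) (nat_lit 5) (nat_lit 509) (nat_lit 481) (nat_lit 210))) (XT.nd (nat_lit 78) (nat_lit 0) (nat_lit 0) (XT.lf (nat_lit 0) (nat_lit 132172100455) (nat_lit 228) (nat_lit 28137299238) (nat_lit 304) (nat_lit 306843899901) (nat_lit 78) (nat_lit 5) (nat_lit 81) (nat_lit 5) (nat_lit 82) (nat_lit 5) (nat_lit 510) (nat_lit 481) (nat_lit 209)) (XT.lf (nat_lit 0) (nat_lit 258164699506) (nat_lit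 304) (nat_lit 69766387203) (nat_lit 76) (nat_lit 153444061212) (nat_lit 78) (nat_lit 5) (nat_lit 82) (nat_lit 5) (nat_lit 79) (nat_lit 5) (nat_lit 511) (nat_lit 481) (nat_lit 208))))) (XT.nd (nat_lit 234) (nat_lit 380) (nat_lit 0) (XT.nd (nat_lit 78) (nat_lit 228) (nat_lit 0) (XT.lf (nat_lit 0) (nat_lit 215133468582) (nat_lit 228) (nat_lit 149599369034) (nat_lit 304) (nat_lit 131384247392) (nat_lit 75) (nat_lit 5) (nat_lit 78) (nat_lit 5) (nat_lit 79) (nat_lit 5) (nat_lit 512) (nat_lit 481) (nat_lit 207)) (XT.nd (nat_lit 78) (nat_lit 76) (nat_lit 0) (XT.lf (nat_lit 0) (nat_lit 4706834807) (nat_lit 152) (nat_lit 473784707213) (nat_lit 228) (nat_lit 33011468967) (nat_lit 73) (nat_lit 5) (nat_lit 75) (nat_lit 5) (nat_lit 76) (nat_lit 5) (nat_lit 513) (nat_lit 481) (nat_lit 206)) (XT.lf (nat_lit 0) (nat_lit 75319573574) (nat_lit 228) (nat_lit 216611148549) (nat_lit 76) (nat_lit 235308196678) (nat_lit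 72) (nat_lit 5) (nat_lit 75) (nat_lit 5) (nat_lit 73) (nat_lit 5) (nat_lit 514) (nat_lit 481) (nat_lit 205)))) (XT.nd (nat_lit 156) (nat_lit 152) (nat_lit 0) (XT.nd (nat_lit 78) (nat_lit 0) (nat_lit 0) (XT.lf (nat_lit 0) (nat_lit 90436447185) (nat_lit 228) (nat_lit 98933257567) (nat_lit 304) (nat_lit 354294261761) (nat_lit 69) (nat_lit 5) (nat_lit 72) (nat_lit 5) (nat_lit 73) (nat_lit 5) (nat_lit 515) (nat_lit 481) (nat_lit 204)) (XT.lf (nat_lit 0) (nat_lit 314470134894) (nat_lit 304) (nat_lit 142049621822) (nat_lit 76) (nat_lit 104123120281) (nat_lit 69) (nat_lit 5) (nat_lit 73) (nat_lit 5) (nat_lit 70) (nat_lit 5) (nat_lit 516) (nat_lit 481) (nat_lit 203))) (XT.nd (nat_lit 78) (nat_lit 0) (nat_lit 0) (XT.lf (nat_lit 0) (nat_lit 189118237390) (nat_lit 152) (nat_lit 261281845235) (nat_lit 228) (nat_lit 127841925582) (nat_lit 67) (nat_lit 5) (nat_lit 69) (nat_lit 5) (nat_lit 70) (nat_lit 5)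 (nat_lit 517) (nat_lit 481) (nat_lit 202)) (XT.lf (nat_lit 0) (nat_lit 541776091189) (nat_lit 152) (nat_lit 53756089963) (nat_lit 228) (nat_lit 1068632158) (nat_lit 67) (nat_lit 5) (nat_lit 69) (nat_lit 5) (nat_lit 70) (nat_lit 5) (nat_lit 518) (nat_lit 481) (nat_lit 201)))))) (XT.nd (nat_lit 546) (nat_lit 836) (nat_lit 0) (XT.nd (nat_lit 234) (nat_lit 380) (nat_lit 0) (XT.nd (nat_lit 78) (nat_lit 152) (nat_lit 0) (XT.lf (nat_lit 0) (nat_lit 135235429451) (nat_lit 228) (nat_lit 314358764111) (nat_lit 76) (nat_lit 165809371067) (nat_lit 64) (nat_lit 5) (nat_lit 67) (nat_lit 5) (nat_lit 65) (nat_lit 5) (nat_lit 519) (nat_lit 481) (nat_lit 200)) (XT.nd (nat_lit 78) (nat_lit 0) (nat_lit 0) (XT.lf (nat_lit 0) (nat_lit 41939458362) (nat_lit 152) (nat_lit 238859042321) (nat_lit 228) (nat_lit 354223090927) (nat_lit 62) (nat_lit 5) (nat_lit 64) (nat_lit 5) (nat_lit 65) (nat_lit 5) (nat_lit 520) (nat_lit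 481) (nat_lit 199)) (XT.lf (nat_lit 0) (nat_lit 426966379306) (nat_lit 152) (nat_lit 11997140007) (nat_lit 228) (nat_lit 216390810940) (nat_lit 62) (nat_lit 5) (nat_lit 64) (nat_lit 5) (nat_lit 65) (nat_lit 5) (nat_lit 521) (nat_lit 481) (nat_lit 198)))) (XT.nd (nat_lit 156) (nat_lit 152) (nat_lit 0) (XT.nd (nat_lit 78) (nat_lit 76) (nat_lit 0) (XT.lf (nat_lit 0) (nat_lit 156002208638) (nat_lit 152) (nat_lit 455001927482) (nat_lit 228) (nat_lit 65401202349) (nat_lit 60) (nat_lit 5) (nat_lit 62) (nat_lit 5) (nat_lit 63) (nat_lit 5) (nat_lit 522) (nat_lit 481) (nat_lit 197)) (XT.lf (nat_lit 0) (nat_lit 94284812182) (nat_lit 228) (nat_lit 132488777636) (nat_lit 76) (nat_lit 471456204133) (nat_lit 59) (nat_lit 5) (nat_lit 62) (nat_lit 5) (nat_lit 60) (nat_lit 5) (nat_lit 523) (nat_lit 481) (nat_lit 196))) (XT.nd (nat_lit 78) (nat_lit 0) (nat_lit 0) (XT.lf (nat_lit 0) (nat_lit 264463339526) (nat_lit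 228) (nat_lit 438361448834) (nat_lit 76) (nat_lit 18031770241) (nat_lit 57) (nat_lit 5) (nat_lit 60) (nat_lit 5) (nat_lit 58) (nat_lit 5) (nat_lit 524) (nat_lit 481) (nat_lit 195)) (XT.lf (nat_lit 0) (nat_lit 449148916053) (nat_lit 228) (nat_lit 25428990215) (nat_lit 76) (nat_lit 269736849079) (nat_lit 57) (nat_lit 5) (nat_lit 60) (nat_lit 5) (nat_lit 58) (nat_lit 5) (nat_lit 525) (nat_lit 481) (nat_lit 194))))) (XT.nd (nat_lit 312) (nat_lit 304) (nat_lit 0) (XT.nd (nat_lit 156) (nat_lit 152) (nat_lit 0) (XT.nd (nat_lit 78) (nat_lit 228) (nat_lit 0) (XT.lf (nat_lit 0) (nat_lit 421645340472) (nat_lit 152) (nat_lit 228006475834) (nat_lit 228) (nat_lit 118964893381) (nat_lit 55) (nat_lit 5) (nat_lit 57) (nat_lit 5) (nat_lit 58) (nat_lit 5) (nat_lit 526) (nat_lit 481) (nat_lit 193)) (XT.lf (nat_lit 0) (nat_lit 66463297395) (nat_lit 228) (nat_lit 694507689650) (nat_lit 76) (nat_lit 32984662206)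 (nat_lit 52) (nat_lit 5) (nat_lit 55) (nat_lit 5) (nat_lit 53) (nat_lit 5) (nat_lit 527) (nat_lit 481) (nat_lit 192))) (XT.nd (nat_lit 78) (nat_lit 152) (nat_lit 0) (XT.lf (nat_lit 0) (nat_lit 266875146058) (nat_lit 228) (nat_lit 245817832584) (nat_lit 76) (nat_lit 307285532502) (nat_lit 52) (nat_lit 5) (nat_lit 55) (nat_lit 5) (nat_lit 53) (nat_lit 5) (nat_lit 528) (nat_lit 481) (nat_lit 191)) (XT.lf (nat_lit 0) (nat_lit 232756133574) (nat_lit 152) (nat_lit 248185409876) (nat_lit 228) (nat_lit 366179274871) (nat_lit 50) (nat_lit 5) (nat_lit 52) (nat_lit 5) (nat_lit 53) (nat_lit 5) (nat_lit 529) (nat_lit 481) (nat_lit 190)))) (XT.nd (nat_lit 156) (nat_lit 152) (nat_lit 0) (XT.nd (nat_lit 78) (nat_lit 152) (nat_lit 0) (XT.lf (nat_lit 0) (nat_lit 710403852066) (nat_lit 228) (nat_lit 132148650836) (nat_lit 76) (nat_lit 32833108389) (nat_lit 50) (nat_lit 5) (nat_lit 53) (nat_lit 5) (nat_lit 51)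 (nat_lit 4) (nat_lit 530) (nat_lit 481) (nat_lit 189)) (XT.lf (nat_lit 0) (nat_lit 54997185863) (nat_lit 152) (nat_lit 523101757979) (nat_lit 76) (nat_lit 326418442310) (nat_lit 48) (nat_lit 5) (nat_lit 50) (nat_lit 5) (nat_lit 49) (nat_lit 5) (nat_lit 531) (nat_lit 481) (nat_lit 188))) (XT.nd (nat_lit 78) (nat_lit 152) (nat_lit 0) (XT.lf (nat_lit 0) (nat_lit 282705281055) (nat_lit 152) (nat_lit 12489165624) (nat_lit 76) (nat_lit 639662338539) (nat_lit 48) (nat_lit 5) (nat_lit 50) (nat_lit 5) (nat_lit 49) (nat_lit 5) (nat_lit 532) (nat_lit 481) (nat_lit 187)) (XT.lf (nat_lit 0) (nat_lit 530412221841) (nat_lit 228) (nat_lit 425489886273) (nat_lit 76) (nat_lit 10380374084) (nat_lit 46) (nat_lit 5) (nat_lit 49) (nat_lit 5) (nat_lit 47) (nat_lit 4) (nat_lit 533) (nat_lit 481) (nat_lit 186))))))))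
noncomputable def xc238 : XT := (XT.nd (nat_lit 2184) (nat_lit 2584) (nat_lit 0) (XT.nd (nat_lit 1092) (nat_lit 2508) (nat_lit 0) (XT.nd (nat_lit 546) (nat_lit 760) (nat_lit 0) (XT.nd (nat_lit 234) (nat_lit 0) (nat_lit 76) (XT.nd (nat_lit 78) (nat_lit 0) (nat_lit 0) (XT.lf (nat_lit 0) (nat_lit 37130365715) (nat_lit 836) (nat_lit 36952542893) (nat_lit 836) (nat_lit 36952542893) (nat_lit 125) (nat_lit 3) (nat_lit 136) (nat_lit 3) (nat_lit 136) (nat_lit 5) (nat_lit 482) (nat_lit 482) (nat_lit 236)) (XT.nd (nat_lit 78) (nat_lit 0) (nat_lit 76) (XT.lf (nat_lit 76) (nat_lit 36037367426) (nat_lit 0) (nat_lit 40643824639) (nat_lit 836) (nat_lit 150913285890) (nat_lit 126) (nat_lit 5) (nat_lit 125) (nat_lit 3) (nat_lit 136) (nat_lit 5) (nat_lit 483) (nat_lit 482) (nat_lit 235)) (XT.lf (nat_lit 0) (nat_lit 81622820872) (nat_lit 760) (nat_lit 80437549593) (nat_lit 836) (nat_lit 71213853965) (nat_lit 126)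 (nat_lit 5) (nat_lit 136) (nat_lit 5) (nat_lit 137) (nat_lit 5) (nat_lit 484) (nat_lit 482) (nat_lit 234)))) (XT.nd (nat_lit 156) (nat_lit 0) (nat_lit 76) (XT.nd (nat_lit 78) (nat_lit 0) (nat_lit 76) (XT.lf (nat_lit 76) (nat_lit 36747809033) (nat_lit 0) (nat_lit 51303671349) (nat_lit 836) (nat_lit 151124480416) (nat_lit 127) (nat_lit 5) (nat_lit 126) (nat_lit 5) (nat_lit 137) (nat_lit 5) (nat_lit 485) (nat_lit 482) (nat_lit 233)) (XT.lf (nat_lit 0) (nat_lit 97200767416) (nat_lit 760) (nat_lit 83756698376) (nat_lit 836) (nat_lit 64295358492) (nat_lit 127) (nat_lit 5) (nat_lit 137) (nat_lit 5) (nat_lit 138) (nat_lit 5) (nat_lit 486) (nat_lit 482) (nat_lit 232))) (XT.nd (nat_lit 78) (nat_lit 0) (nat_lit 76) (XT.lf (nat_lit 76) (nat_lit 41330055132) (nat_lit 0) (nat_lit 66963713329) (nat_lit 836) (nat_lit 143265450031) (nat_lit 128) (nat_lit 5) (nat_lit 127) (nat_lit 5) (nat_lit 138) (nat_lit 5)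 (nat_lit 487) (nat_lit 482) (nat_lit 231)) (XT.lf (nat_lit 0) (nat_lit 122206322931) (nat_lit 760) (nat_lit 83377583581) (nat_lit 836) (nat_lit 52483780754) (nat_lit 128) (nat_lit 5) (nat_lit 138) (nat_lit 5) (nat_lit 139) (nat_lit 5) (nat_lit 488) (nat_lit 482) (nat_lit 230))))) (XT.nd (nat_lit 234) (nat_lit 988) (nat_lit 0) (XT.nd (nat_lit 78) (nat_lit 0) (nat_lit 76) (XT.lf (nat_lit 76) (nat_lit 50329622404) (nat_lit 0) (nat_lit 88368369161) (nat_lit 836) (nat_lit 126109413618) (nat_lit 129) (nat_lit 5) (nat_lit 128) (nat_lit 5) (nat_lit 139) (nat_lit 5) (nat_lit 489) (nat_lit 482) (nat_lit 229)) (XT.nd (nat_lit 78) (nat_lit 0) (nat_lit 0) (XT.lf (nat_lit 0) (nat_lit 157991256642) (nat_lit 760) (nat_lit 78761725231) (nat_lit 836) (nat_lit 35032276496) (nat_lit 129) (nat_lit 5) (nat_lit 139) (nat_lit 5) (nat_lit 140) (nat_lit 5) (nat_lit 490) (nat_lit 482) (nat_lit 228)) (XT.lf (nat_lit 76)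 (nat_lit 64351059810) (nat_lit 0) (nat_lit 116351427154) (nat_lit 836) (nat_lit 98286852175) (nat_lit 130) (nat_lit 5) (nat_lit 129) (nat_lit 5) (nat_lit 140) (nat_lit 5) (nat_lit 491) (nat_lit 482) (nat_lit 227)))) (XT.nd (nat_lit 156) (nat_lit 380) (nat_lit 0) (XT.nd (nat_lit 78) (nat_lit 760) (nat_lit 0) (XT.lf (nat_lit 0) (nat_lit 206062179613) (nat_lit 760) (nat_lit 69312159675) (nat_lit 76) (nat_lit 11103639640) (nat_lit 130) (nat_lit 5) (nat_lit 140) (nat_lit 5) (nat_lit 131) (nat_lit 5) (nat_lit 492) (nat_lit 482) (nat_lit 226)) (XT.lf (nat_lit 0) (nat_lit 84063369109) (nat_lit 760) (nat_lit 151846297838) (nat_lit 836) (nat_lit 58270393277) (nat_lit 120) (nat_lit 5) (nat_lit 130) (nat_lit 5) (nat_lit 131) (nat_lit 5) (nat_lit 493) (nat_lit 482) (nat_lit 225))) (XT.nd (nat_lit 78) (nat_lit 380) (nat_lit 0) (XT.lf (nat_lit 0) (nat_lit 247513987594) (nat_lit 760) (nat_lit 20909322716)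 (nat_lit 836) (nat_lit 33785246212) (nat_lit 120) (nat_lit 5) (nat_lit 130) (nat_lit 5) (nat_lit 131) (nat_lit 5) (nat_lit 494) (nat_lit 482) (nat_lit 224)) (XT.lf (nat_lit 0) (nat_lit 110205830803) (nat_lit 380) (nat_lit 195897430883) (nat_lit 456) (nat_lit 4358184676) (nat_lit 115) (nat_lit 5) (nat_lit 120) (nat_lit 5) (nat_lit 121) (nat_lit 5) (nat_lit 495) (nat_lit 482) (nat_lit 223)))))) (XT.nd (nat_lit 546) (nat_lit 1064) (nat_lit 0) (XT.nd (nat_lit 234) (nat_lit 988) (nat_lit 0) (XT.nd (nat_lit 78) (nat_lit 380) (nat_lit 0) (XT.lf (nat_lit 0) (nat_lit 26974966659) (nat_lit 456) (nat_lit 34602921961) (nat_lit 76) (nat_lit 257464164230) (nat_lit 114) (nat_lit 5) (nat_lit 120) (nat_lit 5) (nat_lit 115) (nat_lit 5) (nat_lit 496) (nat_lit 482) (nat_lit 222)) (XT.nd (nat_lit 78) (nat_lit 0) (nat_lit 0) (XT.lf (nat_lit 0) (nat_lit 63252957840) (nat_lit 456) (nat_lit 185348854020) (nat_lit 76)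 (nat_lit 79270073244) (nat_lit 109) (nat_lit 5) (nat_lit 115) (nat_lit 5) (nat_lit 110) (nat_lit 5) (nat_lit 497) (nat_lit 482) (nat_lit 221)) (XT.lf (nat_lit 0) (nat_lit 102949900286) (nat_lit 456) (nat_lit 8426420229) (nat_lit 76) (nat_lit 225686635887) (nat_lit 109) (nat_lit 5) (nat_lit 115) (nat_lit 5) (nat_lit 110) (nat_lit 5) (nat_lit 498) (nat_lit 482) (nat_lit 220)))) (XT.nd (nat_lit 156) (nat_lit 304) (nat_lit 0) (XT.nd (nat_lit 78) (nat_lit 304) (nat_lit 0) (XT.lf (nat_lit 0) (nat_lit 148049595133) (nat_lit 456) (nat_lit 163922339286) (nat_lit 76) (nat_lit 34570751595) (nat_lit 104) (nat_lit 5) (nat_lit 110) (nat_lit 5) (nat_lit 105) (nat_lit 5) (nat_lit 499) (nat_lit 482) (nat_lit 219)) (XT.lf (nat_lit 0) (nat_lit 26027546976) (nat_lit 304) (nat_lit 171753934517) (nat_lit 380) (nat_lit 158596060291) (nat_lit 100) (nat_lit 5) (nat_lit 104) (nat_lit 5) (nat_lit 105) (nat_lit 5) (nat_lit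 500) (nat_lit 482) (nat_lit 218))) (XT.nd (nat_lit 78) (nat_lit 304) (nat_lit 0) (XT.lf (nat_lit 0) (nat_lit 231165893993) (nat_lit 304) (nat_lit 21610131156) (nat_lit 380) (nat_lit 113789312056) (nat_lit 100) (nat_lit 5) (nat_lit 104) (nat_lit 5) (nat_lit 105) (nat_lit 5) (nat_lit 501) (nat_lit 482) (nat_lit 217)) (XT.lf (nat_lit 0) (nat_lit 69395706150) (nat_lit 304) (nat_lit 244331991128) (nat_lit 380) (nat_lit 63374455068) (nat_lit 96) (nat_lit 5) (nat_lit 100) (nat_lit 5) (nat_lit 101) (nat_lit 5) (nat_lit 502) (nat_lit 482) (nat_lit 216))))) (XT.nd (nat_lit 234) (nat_lit 760) (nat_lit 0) (XT.nd (nat_lit 78) (nat_lit 304) (nat_lit 0) (XT.lf (nat_lit 0) (nat_lit 288765351958) (nat_lit 304) (nat_lit 91603168518) (nat_lit 380) (nat_lit 7665209408) (nat_lit 96) (nat_lit 5) (nat_lit 100) (nat_lit 5) (nat_lit 101) (nat_lit 5) (nat_lit 503) (nat_lit 482) (nat_lit 215)) (XT.nd (nat_lit 78) (nat_lit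 0) (nat_lit 0) (XT.lf (nat_lit 0) (nat_lit 52236686305) (nat_lit 304) (nat_lit 277768438930) (nat_lit 76) (nat_lit 69315379070) (nat_lit 92) (nat_lit 5) (nat_lit 96) (nat_lit 5) (nat_lit 93) (nat_lit 5) (nat_lit 504) (nat_lit 482) (nat_lit 214)) (XT.lf (nat_lit 0) (nat_lit 118086448792) (nat_lit 304) (nat_lit 55882611117) (nat_lit 76) (nat_lit 237035755926) (nat_lit 92) (nat_lit 5) (nat_lit 96) (nat_lit 5) (nat_lit 93) (nat_lit 5) (nat_lit 505) (nat_lit 482) (nat_lit 213)))) (XT.nd (nat_lit 156) (nat_lit 456) (nat_lit 0) (XT.nd (nat_lit 78) (nat_lit 0) (nat_lit 0) (XT.lf (nat_lit 0) (nat_lit 182953106323) (nat_lit 304) (nat_lit 7131969526) (nat_lit 380) (nat_lit 233045448281) (nat_lit 88) (nat_lit 5) (nat_lit 92) (nat_lit 5) (nat_lit 93) (nat_lit 5) (nat_lit 506) (nat_lit 482) (nat_lit 212)) (XT.lf (nat_lit 0) (nat_lit 269269198834) (nat_lit 380) (nat_lit 2783713702) (nat_lit 76) (nat_lit 163630327084)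 (nat_lit 88) (nat_lit 5) (nat_lit 93) (nat_lit 5) (nat_lit 89) (nat_lit 5) (nat_lit 507) (nat_lit 482) (nat_lit 211))) (XT.nd (nat_lit 78) (nat_lit 228) (nat_lit 0) (XT.lf (nat_lit 0) (nat_lit 254508579634) (nat_lit 228) (nat_lit 101994426188) (nat_lit 304) (nat_lit 92156061178) (nat_lit 85) (nat_lit 5) (nat_lit 88) (nat_lit 5) (nat_lit 89) (nat_lit 5) (nat_lit 508) (nat_lit 482) (nat_lit 210)) (XT.lf (nat_lit 0) (nat_lit 63310906527) (nat_lit 228) (nat_lit 387019367733) (nat_lit 304) (nat_lit 11841822943) (nat_lit 82) (nat_lit 5) (nat_lit 85) (nat_lit 5) (nat_lit 86) (nat_lit 5) (nat_lit 509) (nat_lit 482) (nat_lit 209))))))) (XT.nd (nat_lit 1092) (nat_lit 912) (nat_lit 0) (XT.nd (nat_lit 546) (nat_lit 684) (nat_lit 0) (XT.nd (nat_lit 234) (nat_lit 684) (nat_lit 0) (XT.nd (nat_lit 78) (nat_lit 228) (nat_lit 0) (XT.lf (nat_lit 0) (nat_lit 75181997975) (nat_lit 304) (nat_lit 138668268885) (nat_lit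 76) (nat_lit 262203227747) (nat_lit 81) (nat_lit 5) (nat_lit 85) (nat_lit 5) (nat_lit 82) (nat_lit 5) (nat_lit 510) (nat_lit 482) (nat_lit 208)) (XT.nd (nat_lit 78) (nat_lit 0) (nat_lit 0) (XT.lf (nat_lit 0) (nat_lit 138782020728) (nat_lit 228) (nat_lit 29543773205) (nat_lit 304) (nat_lit 322185124198) (nat_lit 78) (nat_lit 5) (nat_lit 81) (nat_lit 5) (nat_lit 82) (nat_lit 5) (nat_lit 511) (nat_lit 482) (nat_lit 207)) (XT.lf (nat_lit 0) (nat_lit 271073820539) (nat_lit 304) (nat_lit 73253415526) (nat_lit 76) (nat_lit 161116624731) (nat_lit 78) (nat_lit 5) (nat_lit 82) (nat_lit 5) (nat_lit 79) (nat_lit 5) (nat_lit 512) (nat_lit 482) (nat_lit 206)))) (XT.nd (nat_lit 156) (nat_lit 304) (nat_lit 0) (XT.nd (nat_lit 78) (nat_lit 152) (nat_lit 0) (XT.lf (nat_lit 0) (nat_lit 225891412225) (nat_lit 228) (nat_lit 157078930968) (nat_lit 304) (nat_lit 137952552672) (nat_lit 75) (nat_lit 5) (nat_lit 78)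 (nat_lit 5) (nat_lit 79) (nat_lit 5) (nat_lit 513) (nat_lit 482) (nat_lit 205)) (XT.lf (nat_lit 0) (nat_lit 4943462723) (nat_lit 152) (nat_lit 497473505090) (nat_lit 228) (nat_lit 34661151089) (nat_lit 73) (nat_lit 5) (nat_lit 75) (nat_lit 5) (nat_lit 76) (nat_lit 5) (nat_lit 514) (nat_lit 482) (nat_lit 204))) (XT.nd (nat_lit 78) (nat_lit 228) (nat_lit 0) (XT.lf (nat_lit 0) (nat_lit 79086373965) (nat_lit 228) (nat_lit 227440453697) (nat_lit 76) (nat_lit 247073995813) (nat_lit 72) (nat_lit 5) (nat_lit 75) (nat_lit 5) (nat_lit 73) (nat_lit 5) (nat_lit 515) (nat_lit 482) (nat_lit 203)) (XT.lf (nat_lit 0) (nat_lit 94959501625) (nat_lit 228) (nat_lit 103879490184) (nat_lit 304) (nat_lit 372008132767) (nat_lit 69) (nat_lit 5) (nat_lit 72) (nat_lit 5) (nat_lit 73) (nat_lit 5) (nat_lit 516) (nat_lit 482) (nat_lit 202))))) (XT.nd (nat_lit 234) (nat_lit 532) (nat_lit 0) (XT.nd (nat_lit 78) (nat_lit 152)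 (nat_lit 0) (XT.lf (nat_lit 0) (nat_lit 330194411675) (nat_lit 304) (nat_lit 149150897555) (nat_lit 76) (nat_lit 109329672952) (nat_lit 69) (nat_lit 5) (nat_lit 73) (nat_lit 5) (nat_lit 70) (nat_lit 5) (nat_lit 517) (nat_lit 482) (nat_lit 201)) (XT.nd (nat_lit 78) (nat_lit 0) (nat_lit 0) (XT.lf (nat_lit 0) (nat_lit 198575335176) (nat_lit 152) (nat_lit 274345503462) (nat_lit 228) (nat_lit 134233232228) (nat_lit 67) (nat_lit 5) (nat_lit 69) (nat_lit 5) (nat_lit 70) (nat_lit 5) (nat_lit 518) (nat_lit 482) (nat_lit 200)) (XT.lf (nat_lit 0) (nat_lit 568866025194) (nat_lit 152) (nat_lit 56443481096) (nat_lit 228) (nat_lit 1121311736) (nat_lit 67) (nat_lit 5) (nat_lit 69) (nat_lit 5) (nat_lit 70) (nat_lit 5) (nat_lit 519) (nat_lit 482) (nat_lit 199)))) (XT.nd (nat_lit 156) (nat_lit 152) (nat_lit 0) (XT.nd (nat_lit 78) (nat_lit 152) (nat_lit 0) (XT.lf (nat_lit 0) (nat_lit 141997918561) (nat_lit 228)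 (nat_lit 330075538204) (nat_lit 76) (nat_lit 174100250080) (nat_lit 64) (nat_lit 5) (nat_lit 67) (nat_lit 5) (nat_lit 65) (nat_lit 5) (nat_lit 520) (nat_lit 482) (nat_lit 198)) (XT.lf (nat_lit 0) (nat_lit 44037576617) (nat_lit 152) (nat_lit 250801550447) (nat_lit 228) (nat_lit 371933508932) (nat_lit 62) (nat_lit 5) (nat_lit 64) (nat_lit 5) (nat_lit 65) (nat_lit 5) (nat_lit 521) (nat_lit 482) (nat_lit 197))) (XT.nd (nat_lit 78) (nat_lit 152) (nat_lit 0) (XT.lf (nat_lit 0) (nat_lit 448315789069) (nat_lit 152) (nat_lit 12596574159) (nat_lit 228) (nat_lit 227209650018) (nat_lit 62) (nat_lit 5) (nat_lit 64) (nat_lit 5) (nat_lit 65) (nat_lit 5) (nat_lit 522) (nat_lit 482) (nat_lit 196)) (XT.lf (nat_lit 0) (nat_lit 163803418757) (nat_lit 152) (nat_lit 477751583767) (nat_lit 228) (nat_lit 68670569772) (nat_lit 60) (nat_lit 5) (nat_lit 62) (nat_lit 5) (nat_lit 63) (nat_lit 5) (nat_lit 523) (nat_lit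 482) (nat_lit 195)))))) (XT.nd (nat_lit 546) (nat_lit 152) (nat_lit 0) (XT.nd (nat_lit 234) (nat_lit 532) (nat_lit 0) (XT.nd (nat_lit 78) (nat_lit 152) (nat_lit 0) (XT.lf (nat_lit 0) (nat_lit 98999691386) (nat_lit 228) (nat_lit 139112147977) (nat_lit 76) (nat_lit 495029412252) (nat_lit 59) (nat_lit 5) (nat_lit 62) (nat_lit 5) (nat_lit 60) (nat_lit 5) (nat_lit 524) (nat_lit 482) (nat_lit 194)) (XT.nd (nat_lit 78) (nat_lit 0) (nat_lit 0) (XT.lf (nat_lit 0) (nat_lit 277687137764) (nat_lit 228) (nat_lit 460278445301) (nat_lit 76) (nat_lit 18933771804) (nat_lit 57) (nat_lit 5) (nat_lit 60) (nat_lit 5) (nat_lit 58) (nat_lit 5) (nat_lit 525) (nat_lit 482) (nat_lit 193)) (XT.lf (nat_lit 0) (nat_lit 471606963057) (nat_lit 228) (nat_lit 26699414987) (nat_lit 76) (nat_lit 283224084914) (nat_lit 57) (nat_lit 5) (nat_lit 60) (nat_lit 5) (nat_lit 58) (nat_lit 5) (nat_lit 526) (nat_lit 482) (nat_lit 192))))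 (XT.nd (nat_lit 156) (nat_lit 152) (nat_lit 0) (XT.nd (nat_lit 78) (nat_lit 228) (nat_lit 0) (XT.lf (nat_lit 0) (nat_lit 442728615706) (nat_lit 152) (nat_lit 239406379729) (nat_lit 228) (nat_lit 124912520230) (nat_lit 55) (nat_lit 5) (nat_lit 57) (nat_lit 5) (nat_lit 58) (nat_lit 5) (nat_lit 527) (nat_lit 482) (nat_lit 191)) (XT.lf (nat_lit 0) (nat_lit 69787054278) (nat_lit 228) (nat_lit 729232039946) (nat_lit 76) (nat_lit 34634307806) (nat_lit 52) (nat_lit 5) (nat_lit 55) (nat_lit 5) (nat_lit 53) (nat_lit 5) (nat_lit 528) (nat_lit 482) (nat_lit 190))) (XT.nd (nat_lit 78) (nat_lit 152) (nat_lit 0) (XT.lf (nat_lit 0) (nat_lit 280219467183) (nat_lit 228) (nat_lit 258107739273) (nat_lit 76) (nat_lit 322650201976) (nat_lit 52) (nat_lit 5) (nat_lit 55) (nat_lit 5) (nat_lit 53) (nat_lit 5) (nat_lit 529) (nat_lit 482) (nat_lit 189)) (XT.lf (nat_lit 0) (nat_lit 244394909306) (nat_lit 152) (nat_lit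 260594263419) (nat_lit 228) (nat_lit 384487658832) (nat_lit 50) (nat_lit 5) (nat_lit 52) (nat_lit 5) (nat_lit 53) (nat_lit 5) (nat_lit 530) (nat_lit 482) (nat_lit 188))))) (XT.nd (nat_lit 58812) (nat_lit 0) (nat_lit 5852) (XT.nd (nat_lit 156) (nat_lit 0) (nat_lit 0) (XT.nd (nat_lit 78) (nat_lit 152) (nat_lit 0) (XT.lf (nat_lit 0) (nat_lit 745924576682) (nat_lit 228) (nat_lit 138755140308) (nat_lit 76) (nat_lit 34475148194) (nat_lit 50) (nat_lit 5) (nat_lit 53) (nat_lit 5) (nat_lit 51) (nat_lit 4) (nat_lit 531) (nat_lit 482) (nat_lit 187)) (XT.lf (nat_lit 0) (nat_lit 57747574931) (nat_lit 152) (nat_lit 549255900436) (nat_lit 76) (nat_lit 342739753539) (nat_lit 48) (nat_lit 5) (nat_lit 50) (nat_lit 5) (nat_lit 49) (nat_lit 5) (nat_lit 532) (nat_lit 482) (nat_lit 186))) (XT.nd (nat_lit 58578) (nat_lit 0) (nat_lit 5852) (XT.lf (nat_lit 0) (nat_lit 296841049655) (nat_lit 152) (nat_lit 13112723485)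 (nat_lit 76) (nat_lit 671645826050) (nat_lit 48) (nat_lit 5) (nat_lit 50) (nat_lit 5) (nat_lit 49) (nat_lit 5) (nat_lit 533) (nat_lit 482) (nat_lit 185)) (XT.lf (nat_lit 0) (nat_lit 38988161783) (nat_lit 836) (nat_lit 38799498953) (nat_lit 836) (nat_lit 38799498953) (nat_lit 125) (nat_lit 3) (nat_lit 136) (nat_lit 3) (nat_lit 136) (nat_lit 5) (nat_lit 483) (nat_lit 483) (nat_lit 234)))) (XT.nd (nat_lit 156) (nat_lit 0) (nat_lit 76) (XT.nd (nat_lit 78) (nat_lit 0) (nat_lit 76) (XT.lf (nat_lit 76) (nat_lit 37840556318) (nat_lit 0) (nat_lit 42677149838) (nat_lit 836) (nat_lit 158456372026) (nat_lit 126) (nat_lit 5) (nat_lit 125) (nat_lit 3) (nat_lit 136) (nat_lit 5) (nat_lit 484) (nat_lit 483) (nat_lit 233)) (XT.lf (nat_lit 0) (nat_lit 85706282662) (nat_lit 760) (nat_lit 84458034791) (nat_lit 836) (nat_lit 74773501260) (nat_lit 126) (nat_lit 5) (nat_lit 136) (nat_lit 5) (nat_lit 137) (nat_lit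 5) (nat_lit 485) (nat_lit 483) (nat_lit 232))) (XT.nd (nat_lit 78) (nat_lit 0) (nat_lit 76) (XT.lf (nat_lit 76) (nat_lit 38586569311) (nat_lit 0) (nat_lit 53869716711) (nat_lit 836) (nat_lit 158678360376) (nat_lit 127) (nat_lit 5) (nat_lit 126) (nat_lit 5) (nat_lit 137) (nat_lit 5) (nat_lit 486) (nat_lit 483) (nat_lit 231)) (XT.lf (nat_lit 0) (nat_lit 102062918326) (nat_lit 760) (nat_lit 87943108799) (nat_lit 836) (nat_lit 67509331929) (nat_lit 127) (nat_lit 5) (nat_lit 137) (nat_lit 5) (nat_lit 138) (nat_lit 5) (nat_lit 487) (nat_lit 483) (nat_lit 230))))))))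
noncomputable def xc239 : XT := (XT.nd (nat_lit 2184) (nat_lit 1748) (nat_lit 0) (XT.nd (nat_lit 1092) (nat_lit 2052) (nat_lit 0) (XT.nd (nat_lit 546) (nat_lit 1520) (nat_lit 0) (XT.nd (nat_lit 234) (nat_lit 532) (nat_lit 0) (XT.nd (nat_lit 78) (nat_lit 0) (nat_lit 76) (XT.lf (nat_lit 76) (nat_lit 43397959409) (nat_lit 0) (nat_lit 70312531298) (nat_lit 836) (nat_lit 150426586239) (nat_lit 128) (nat_lit 5) (nat_lit 127) (nat_lit 5) (nat_lit 138) (nat_lit 5) (nat_lit 488) (nat_lit 483) (nat_lit 229)) (XT.nd (nat_lit 78) (nat_lit 0) (nat_lit 0) (XT.lf (nat_lit 0) (nat_lit 128318566651) (nat_lit 760) (nat_lit 87545020986) (nat_lit 836) (nat_lit 55107386872) (nat_lit 128) (nat_lit 5) (nat_lit 138) (nat_lit 5) (nat_lit 139) (nat_lit 5) (nat_lit 489) (nat_lit 483) (nat_lit 228)) (XT.lf (nat_lit 76) (nat_lit 52847522044) (nat_lit 0) (nat_lit 92787227030) (nat_lit 836) (nat_lit 132412932765) (nat_lit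 129) (nat_lit 5) (nat_lit 128) (nat_lit 5) (nat_lit 139) (nat_lit 5) (nat_lit 490) (nat_lit 483) (nat_lit 227)))) (XT.nd (nat_lit 156) (nat_lit 684) (nat_lit 0) (XT.nd (nat_lit 78) (nat_lit 0) (nat_lit 0) (XT.lf (nat_lit 0) (nat_lit 165892582398) (nat_lit 760) (nat_lit 82698364842) (nat_lit 836) (nat_lit 36783485228) (nat_lit 129) (nat_lit 5) (nat_lit 139) (nat_lit 5) (nat_lit 140) (nat_lit 5) (nat_lit 491) (nat_lit 483) (nat_lit 226)) (XT.lf (nat_lit 76) (nat_lit 67570036118) (nat_lit 0) (nat_lit 122169276391) (nat_lit 836) (nat_lit 103199407886) (nat_lit 130) (nat_lit 5) (nat_lit 129) (nat_lit 5) (nat_lit 140) (nat_lit 5) (nat_lit 492) (nat_lit 483) (nat_lit 225))) (XT.nd (nat_lit 78) (nat_lit 760) (nat_lit 0) (XT.lf (nat_lit 0) (nat_lit 216366904650) (nat_lit 760) (nat_lit 72776326366) (nat_lit 76) (nat_lit 11658565445) (nat_lit 130) (nat_lit 5) (nat_lit 140) (nat_lit 5) (nat_lit 131) (nat_lit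 5) (nat_lit 493) (nat_lit 483) (nat_lit 224)) (XT.lf (nat_lit 0) (nat_lit 88267955610) (nat_lit 760) (nat_lit 159438755925) (nat_lit 836) (nat_lit 61182273057) (nat_lit 120) (nat_lit 5) (nat_lit 130) (nat_lit 5) (nat_lit 131) (nat_lit 5) (nat_lit 494) (nat_lit 483) (nat_lit 223))))) (XT.nd (nat_lit 234) (nat_lit 1064) (nat_lit 0) (XT.nd (nat_lit 78) (nat_lit 456) (nat_lit 0) (XT.lf (nat_lit 0) (nat_lit 259891037493) (nat_lit 760) (nat_lit 21954925228) (nat_lit 836) (nat_lit 35472946728) (nat_lit 120) (nat_lit 5) (nat_lit 130) (nat_lit 5) (nat_lit 131) (nat_lit 5) (nat_lit 495) (nat_lit 483) (nat_lit 222)) (XT.nd (nat_lit 78) (nat_lit 76) (nat_lit 0) (XT.lf (nat_lit 0) (nat_lit 115717526865) (nat_lit 380) (nat_lit 205692333897) (nat_lit 456) (nat_lit 4574585591) (nat_lit 115) (nat_lit 5) (nat_lit 120) (nat_lit 5) (nat_lit 121) (nat_lit 5) (nat_lit 496) (nat_lit 483) (nat_lit 221)) (XT.lf (nat_lit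 0) (nat_lit 28325105510) (nat_lit 456) (nat_lit 36331683963) (nat_lit 76) (nat_lit 270337296016) (nat_lit 114) (nat_lit 5) (nat_lit 120) (nat_lit 5) (nat_lit 115) (nat_lit 5) (nat_lit 497) (nat_lit 483) (nat_lit 220)))) (XT.nd (nat_lit 156) (nat_lit 684) (nat_lit 0) (XT.nd (nat_lit 78) (nat_lit 0) (nat_lit 0) (XT.lf (nat_lit 0) (nat_lit 66416951549) (nat_lit 456) (nat_lit 194614867469) (nat_lit 76) (nat_lit 83233592596) (nat_lit 109) (nat_lit 5) (nat_lit 115) (nat_lit 5) (nat_lit 110) (nat_lit 5) (nat_lit 498) (nat_lit 483) (nat_lit 219)) (XT.lf (nat_lit 0) (nat_lit 108098677030) (nat_lit 456) (nat_lit 8846380048) (nat_lit 76) (nat_lit 236970982623) (nat_lit 109) (nat_lit 5) (nat_lit 115) (nat_lit 5) (nat_lit 110) (nat_lit 5) (nat_lit 499) (nat_lit 483) (nat_lit 218))) (XT.nd (nat_lit 78) (nat_lit 304) (nat_lit 0) (XT.lf (nat_lit 0) (nat_lit 155453318019) (nat_lit 456) (nat_lit 172117056044)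 (nat_lit 76) (nat_lit 36299383683) (nat_lit 104) (nat_lit 5) (nat_lit 110) (nat_lit 5) (nat_lit 105) (nat_lit 5) (nat_lit 500) (nat_lit 483) (nat_lit 217)) (XT.lf (nat_lit 0) (nat_lit 27330301947) (nat_lit 304) (nat_lit 180341459060) (nat_lit 380) (nat_lit 166524597199) (nat_lit 100) (nat_lit 5) (nat_lit 104) (nat_lit 5) (nat_lit 105) (nat_lit 5) (nat_lit 501) (nat_lit 483) (nat_lit 216)))))) (XT.nd (nat_lit 546) (nat_lit 1140) (nat_lit 0) (XT.nd (nat_lit 234) (nat_lit 608) (nat_lit 0) (XT.nd (nat_lit 78) (nat_lit 304) (nat_lit 0) (XT.lf (nat_lit 0) (nat_lit 242725500714) (nat_lit 304) (nat_lit 22690473731) (nat_lit 380) (nat_lit 119477571843) (nat_lit 100) (nat_lit 5) (nat_lit 104) (nat_lit 5) (nat_lit 105) (nat_lit 5) (nat_lit 502) (nat_lit 483) (nat_lit 215)) (XT.nd (nat_lit 78) (nat_lit 0) (nat_lit 0) (XT.lf (nat_lit 0) (nat_lit 72866836643) (nat_lit 304) (nat_lit 256548362310) (nat_lit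 380) (nat_lit 66542004813) (nat_lit 96) (nat_lit 5) (nat_lit 100) (nat_lit 5) (nat_lit 101) (nat_lit 5) (nat_lit 503) (nat_lit 483) (nat_lit 214)) (XT.lf (nat_lit 0) (nat_lit 303204900685) (nat_lit 304) (nat_lit 96183109443) (nat_lit 380) (nat_lit 8047352728) (nat_lit 96) (nat_lit 5) (nat_lit 100) (nat_lit 5) (nat_lit 101) (nat_lit 5) (nat_lit 504) (nat_lit 483) (nat_lit 213)))) (XT.nd (nat_lit 156) (nat_lit 304) (nat_lit 0) (XT.nd (nat_lit 78) (nat_lit 0) (nat_lit 0) (XT.lf (nat_lit 0) (nat_lit 54849574592) (nat_lit 304) (nat_lit 291655515936) (nat_lit 76) (nat_lit 72781385985) (nat_lit 92) (nat_lit 5) (nat_lit 96) (nat_lit 5) (nat_lit 93) (nat_lit 5) (nat_lit 505) (nat_lit 483) (nat_lit 212)) (XT.lf (nat_lit 0) (nat_lit 123991775014) (nat_lit 304) (nat_lit 58675460777) (nat_lit 76) (nat_lit 248887770353) (nat_lit 92) (nat_lit 5) (nat_lit 96) (nat_lit 5) (nat_lit 93) (nat_lit 5) (nat_lit 506)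 (nat_lit 483) (nat_lit 211))) (XT.nd (nat_lit 78) (nat_lit 0) (nat_lit 0) (XT.lf (nat_lit 0) (nat_lit 192102021875) (nat_lit 304) (nat_lit 7488283425) (nat_lit 380) (nat_lit 244696695973) (nat_lit 88) (nat_lit 5) (nat_lit 92) (nat_lit 5) (nat_lit 93) (nat_lit 5) (nat_lit 507) (nat_lit 483) (nat_lit 210)) (XT.lf (nat_lit 0) (nat_lit 282733592206) (nat_lit 380) (nat_lit 2921656667) (nat_lit 76) (nat_lit 171812105789) (nat_lit 88) (nat_lit 5) (nat_lit 93) (nat_lit 5) (nat_lit 89) (nat_lit 5) (nat_lit 508) (nat_lit 483) (nat_lit 209))))) (XT.nd (nat_lit 234) (nat_lit 608) (nat_lit 0) (XT.nd (nat_lit 78) (nat_lit 304) (nat_lit 0) (XT.lf (nat_lit 0) (nat_lit 267235231292) (nat_lit 228) (nat_lit 107093832892) (nat_lit 304) (nat_lit 96762910509) (nat_lit 85) (nat_lit 5) (nat_lit 88) (nat_lit 5) (nat_lit 89) (nat_lit 5) (nat_lit 509) (nat_lit 483) (nat_lit 208)) (XT.nd (nat_lit 78) (nat_lit 76) (nat_lit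 0) (XT.lf (nat_lit 0) (nat_lit 66477694896) (nat_lit 228) (nat_lit 406369981991) (nat_lit 304) (nat_lit 12432980488) (nat_lit 82) (nat_lit 5) (nat_lit 85) (nat_lit 5) (nat_lit 86) (nat_lit 5) (nat_lit 510) (nat_lit 483) (nat_lit 207)) (XT.lf (nat_lit 0) (nat_lit 78941958560) (nat_lit 304) (nat_lit 145600469802) (nat_lit 76) (nat_lit 275313697722) (nat_lit 81) (nat_lit 5) (nat_lit 85) (nat_lit 5) (nat_lit 82) (nat_lit 5) (nat_lit 511) (nat_lit 483) (nat_lit 206)))) (XT.nd (nat_lit 156) (nat_lit 380) (nat_lit 0) (XT.nd (nat_lit 78) (nat_lit 0) (nat_lit 0) (XT.lf (nat_lit 0) (nat_lit 145722314736) (nat_lit 228) (nat_lit 31020607221) (nat_lit 304) (nat_lit 338293499956) (nat_lit 78) (nat_lit 5) (nat_lit 81) (nat_lit 5) (nat_lit 82) (nat_lit 5) (nat_lit 512) (nat_lit 483) (nat_lit 205)) (XT.lf (nat_lit 0) (nat_lit 284628315246) (nat_lit 304) (nat_lit 76914915294) (nat_lit 76) (nat_lit 169172782913)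 (nat_lit 78) (nat_lit 5) (nat_lit 82) (nat_lit 5) (nat_lit 79) (nat_lit 5) (nat_lit 513) (nat_lit 483) (nat_lit 204))) (XT.nd (nat_lit 78) (nat_lit 152) (nat_lit 0) (XT.lf (nat_lit 0) (nat_lit 237187134958) (nat_lit 228) (nat_lit 164932508792) (nat_lit 304) (nat_lit 144849357549) (nat_lit 75) (nat_lit 5) (nat_lit 78) (nat_lit 5) (nat_lit 79) (nat_lit 5) (nat_lit 514) (nat_lit 483) (nat_lit 203)) (XT.lf (nat_lit 0) (nat_lit 5191802458) (nat_lit 152) (nat_lit 522346783535) (nat_lit 228) (nat_lit 36393400185) (nat_lit 73) (nat_lit 5) (nat_lit 75) (nat_lit 5) (nat_lit 76) (nat_lit 5) (nat_lit 515) (nat_lit 483) (nat_lit 202))))))) (XT.nd (nat_lit 1092) (nat_lit 152) (nat_lit 0) (XT.nd (nat_lit 546) (nat_lit 760) (nat_lit 0) (XT.nd (nat_lit 234) (nat_lit 532) (nat_lit 0) (XT.nd (nat_lit 78) (nat_lit 228) (nat_lit 0) (XT.lf (nat_lit 0) (nat_lit 83041437981) (nat_lit 228) (nat_lit 238811340528) (nat_lit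 76) (nat_lit 259428048710) (nat_lit 72) (nat_lit 5) (nat_lit 75) (nat_lit 5) (nat_lit 73) (nat_lit 5) (nat_lit 516) (nat_lit 483) (nat_lit 201)) (XT.nd (nat_lit 78) (nat_lit 0) (nat_lit 0) (XT.lf (nat_lit 0) (nat_lit 99708594240) (nat_lit 228) (nat_lit 109073074433) (nat_lit 304) (nat_lit 390607775612) (nat_lit 69) (nat_lit 5) (nat_lit 72) (nat_lit 5) (nat_lit 73) (nat_lit 5) (nat_lit 517) (nat_lit 483) (nat_lit 200)) (XT.lf (nat_lit 0) (nat_lit 346704830703) (nat_lit 304) (nat_lit 156607349137) (nat_lit 76) (nat_lit 114796516380) (nat_lit 69) (nat_lit 5) (nat_lit 73) (nat_lit 5) (nat_lit 70) (nat_lit 5) (nat_lit 518) (nat_lit 483) (nat_lit 199)))) (XT.nd (nat_lit 156) (nat_lit 380) (nat_lit 0) (XT.nd (nat_lit 78) (nat_lit 0) (nat_lit 0) (XT.lf (nat_lit 0) (nat_lit 208505177597) (nat_lit 152) (nat_lit 288062384954) (nat_lit 228) (nat_lit 140944177620) (nat_lit 67) (nat_lit 5) (nat_lit 69) (nat_lit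 5) (nat_lit 70) (nat_lit 5) (nat_lit 519) (nat_lit 483) (nat_lit 198)) (XT.lf (nat_lit 0) (nat_lit 597310350893) (nat_lit 152) (nat_lit 59265280215) (nat_lit 228) (nat_lit 1176695208) (nat_lit 67) (nat_lit 5) (nat_lit 69) (nat_lit 5) (nat_lit 70) (nat_lit 5) (nat_lit 520) (nat_lit 483) (nat_lit 197))) (XT.nd (nat_lit 78) (nat_lit 152) (nat_lit 0) (XT.lf (nat_lit 0) (nat_lit 149098465408) (nat_lit 228) (nat_lit 346578259229) (nat_lit 76) (nat_lit 182805634882) (nat_lit 64) (nat_lit 5) (nat_lit 67) (nat_lit 5) (nat_lit 65) (nat_lit 5) (nat_lit 521) (nat_lit 483) (nat_lit 196)) (XT.lf (nat_lit 0) (nat_lit 46240494303) (nat_lit 152) (nat_lit 263341225256) (nat_lit 228) (nat_lit 390529516313) (nat_lit 62) (nat_lit 5) (nat_lit 64) (nat_lit 5) (nat_lit 65) (nat_lit 5) (nat_lit 522) (nat_lit 483) (nat_lit 195))))) (XT.nd (nat_lit 234) (nat_lit 532) (nat_lit 0) (XT.nd (nat_lit 78) (nat_lit 228) (nat_lit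 0) (XT.lf (nat_lit 0) (nat_lit 470732567907) (nat_lit 152) (nat_lit 13226019331) (nat_lit 228) (nat_lit 238569496266) (nat_lit 62) (nat_lit 5) (nat_lit 64) (nat_lit 5) (nat_lit 65) (nat_lit 5) (nat_lit 523) (nat_lit 483) (nat_lit 194)) (XT.nd (nat_lit 78) (nat_lit 76) (nat_lit 0) (XT.lf (nat_lit 0) (nat_lit 171994587144) (nat_lit 152) (nat_lit 501638763782) (nat_lit 228) (nat_lit 72103469966) (nat_lit 60) (nat_lit 5) (nat_lit 62) (nat_lit 5) (nat_lit 63) (nat_lit 5) (nat_lit 524) (nat_lit 483) (nat_lit 193)) (XT.lf (nat_lit 0) (nat_lit 103950255179) (nat_lit 228) (nat_lit 146066786177) (nat_lit 76) (nat_lit 519781243782) (nat_lit 59) (nat_lit 5) (nat_lit 62) (nat_lit 5) (nat_lit 60) (nat_lit 5) (nat_lit 525) (nat_lit 483) (nat_lit 192)))) (XT.nd (nat_lit 156) (nat_lit 380) (nat_lit 0) (XT.nd (nat_lit 78) (nat_lit 0) (nat_lit 0) (XT.lf (nat_lit 0) (nat_lit 291572067225) (nat_lit 228) (nat_lit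 483291391624) (nat_lit 76) (nat_lit 19880835043) (nat_lit 57) (nat_lit 5) (nat_lit 60) (nat_lit 5) (nat_lit 58) (nat_lit 5) (nat_lit 526) (nat_lit 483) (nat_lit 191)) (XT.lf (nat_lit 0) (nat_lit 495187856517) (nat_lit 228) (nat_lit 28033456269) (nat_lit 76) (nat_lit 297385645968) (nat_lit 57) (nat_lit 5) (nat_lit 60) (nat_lit 5) (nat_lit 58) (nat_lit 5) (nat_lit 527) (nat_lit 483) (nat_lit 190))) (XT.nd (nat_lit 78) (nat_lit 228) (nat_lit 0) (XT.lf (nat_lit 0) (nat_lit 464865960967) (nat_lit 152) (nat_lit 251376317857) (nat_lit 228) (nat_lit 131157585860) (nat_lit 55) (nat_lit 5) (nat_lit 57) (nat_lit 5) (nat_lit 58) (nat_lit 5) (nat_lit 528) (nat_lit 483) (nat_lit 189)) (XT.lf (nat_lit 0) (nat_lit 73276943965) (nat_lit 228) (nat_lit 765692703906) (nat_lit 76) (nat_lit 36366397338) (nat_lit 52) (nat_lit 5) (nat_lit 55) (nat_lit 5) (nat_lit 53) (nat_lit 5) (nat_lit 529) (nat_lit 483) (nat_lit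 188)))))) (XT.nd (nat_lit 59202) (nat_lit 0) (nat_lit 5320) (XT.nd (nat_lit 58890) (nat_lit 0) (nat_lit 5700) (XT.nd (nat_lit 78) (nat_lit 152) (nat_lit 0) (XT.lf (nat_lit 0) (nat_lit 294230951946) (nat_lit 228) (nat_lit 271012232868) (nat_lit 76) (nat_lit 338783068399) (nat_lit 52) (nat_lit 5) (nat_lit 55) (nat_lit 5) (nat_lit 53) (nat_lit 5) (nat_lit 530) (nat_lit 483) (nat_lit 187)) (XT.nd (nat_lit 78) (nat_lit 0) (nat_lit 0) (XT.lf (nat_lit 0) (nat_lit 256615533732) (nat_lit 152) (nat_lit 273623598403) (nat_lit 228) (nat_lit 403711515893) (nat_lit 50) (nat_lit 5) (nat_lit 52) (nat_lit 5) (nat_lit 53) (nat_lit 5) (nat_lit 531) (nat_lit 483) (nat_lit 186)) (XT.lf (nat_lit 0) (nat_lit 783221288066) (nat_lit 228) (nat_lit 145692041930) (nat_lit 76) (nat_lit 36199254254) (nat_lit 50) (nat_lit 5) (nat_lit 53) (nat_lit 5) (nat_lit 51) (nat_lit 4) (nat_lit 532) (nat_lit 483) (nat_lit 185)))) (XT.nd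 (nat_lit 156) (nat_lit 0) (nat_lit 76) (XT.nd (nat_lit 78) (nat_lit 0) (nat_lit 0) (XT.lf (nat_lit 0) (nat_lit 40938728858) (nat_lit 836) (nat_lit 40738865208) (nat_lit 836) (nat_lit 40738865208) (nat_lit 125) (nat_lit 3) (nat_lit 136) (nat_lit 3) (nat_lit 136) (nat_lit 5) (nat_lit 484) (nat_lit 484) (nat_lit 232)) (XT.lf (nat_lit 76) (nat_lit 39733781885) (nat_lit 0) (nat_lit 44812035872) (nat_lit 836) (nat_lit 166376852161) (nat_lit 126) (nat_lit 5) (nat_lit 125) (nat_lit 3) (nat_lit 136) (nat_lit 5) (nat_lit 485) (nat_lit 484) (nat_lit 231))) (XT.nd (nat_lit 78) (nat_lit 0) (nat_lit 0) (XT.lf (nat_lit 0) (nat_lit 89993701780) (nat_lit 760) (nat_lit 88679673690) (nat_lit 836) (nat_lit 78511228112) (nat_lit 126) (nat_lit 5) (nat_lit 136) (nat_lit 5) (nat_lit 137) (nat_lit 5) (nat_lit 486) (nat_lit 484) (nat_lit 230)) (XT.lf (nat_lit 76) (nat_lit 40517140249) (nat_lit 0) (nat_lit 56563984220)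 (nat_lit 836) (nat_lit 166610152262) (nat_lit 127) (nat_lit 5) (nat_lit 126) (nat_lit 5) (nat_lit 137) (nat_lit 5) (nat_lit 487) (nat_lit 484) (nat_lit 229))))) (XT.nd (nat_lit 312) (nat_lit 532) (nat_lit 0) (XT.nd (nat_lit 156) (nat_lit 0) (nat_lit 76) (XT.nd (nat_lit 78) (nat_lit 0) (nat_lit 0) (XT.lf (nat_lit 0) (nat_lit 107167980377) (nat_lit 760) (nat_lit 92338972179) (nat_lit 836) (nat_lit 70884077902) (nat_lit 127) (nat_lit 5) (nat_lit 137) (nat_lit 5) (nat_lit 138) (nat_lit 5) (nat_lit 488) (nat_lit 484) (nat_lit 228)) (XT.lf (nat_lit 76) (nat_lit 45569128599) (nat_lit 0) (nat_lit 73828731381) (nat_lit 836) (nat_lit 157945977869) (nat_lit 128) (nat_lit 5) (nat_lit 127) (nat_lit 5) (nat_lit 138) (nat_lit 5) (nat_lit 489) (nat_lit 484) (nat_lit 227))) (XT.nd (nat_lit 78) (nat_lit 0) (nat_lit 0) (XT.lf (nat_lit 0) (nat_lit 134736243349) (nat_lit 760) (nat_lit 91920964304) (nat_lit 836)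 (nat_lit 57862227491) (nat_lit 128) (nat_lit 5) (nat_lit 138) (nat_lit 5) (nat_lit 139) (nat_lit 5) (nat_lit 490) (nat_lit 484) (nat_lit 226)) (XT.lf (nat_lit 76) (nat_lit 55491184785) (nat_lit 0) (nat_lit 97426986941) (nat_lit 836) (nat_lit 139031809304) (nat_lit 129) (nat_lit 5) (nat_lit 128) (nat_lit 5) (nat_lit 139) (nat_lit 5) (nat_lit 491) (nat_lit 484) (nat_lit 225)))) (XT.nd (nat_lit 156) (nat_lit 684) (nat_lit 0) (XT.nd (nat_lit 78) (nat_lit 0) (nat_lit 0) (XT.lf (nat_lit 0) (nat_lit 174188810543) (nat_lit 760) (nat_lit 86831970930) (nat_lit 836) (nat_lit 38622292058) (nat_lit 129) (nat_lit 5) (nat_lit 139) (nat_lit 5) (nat_lit 140) (nat_lit 5) (nat_lit 492) (nat_lit 484) (nat_lit 224)) (XT.lf (nat_lit 76) (nat_lit 70949828915) (nat_lit 0) (nat_lit 128277992256) (nat_lit 836) (nat_lit 108357757511) (nat_lit 130) (nat_lit 5) (nat_lit 129) (nat_lit 5) (nat_lit 140) (nat_lit 5) (nat_lit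 493) (nat_lit 484) (nat_lit 223))) (XT.nd (nat_lit 78) (nat_lit 760) (nat_lit 0) (XT.lf (nat_lit 0) (nat_lit 227186715693) (nat_lit 760) (nat_lit 76413835390) (nat_lit 76) (nat_lit 12241261357) (nat_lit 130) (nat_lit 5) (nat_lit 140) (nat_lit 5) (nat_lit 131) (nat_lit 5) (nat_lit 494) (nat_lit 484) (nat_lit 222)) (XT.lf (nat_lit 0) (nat_lit 92682639600) (nat_lit 760) (nat_lit 167410823603) (nat_lit 836) (nat_lit 64239899286) (nat_lit 120) (nat_lit 5) (nat_lit 130) (nat_lit 5) (nat_lit 131) (nat_lit 5) (nat_lit 495) (nat_lit 484) (nat_lit 221))))))))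
noncomputable def xc240 : XT := (XT.nd (nat_lit 2184) (nat_lit 912) (nat_lit 0) (XT.nd (nat_lit 1092) (nat_lit 1976) (nat_lit 0) (XT.nd (nat_lit 546) (nat_lit 912) (nat_lit 0) (XT.nd (nat_lit 234) (nat_lit 1064) (nat_lit 0) (XT.nd (nat_lit 78) (nat_lit 456) (nat_lit 0) (XT.lf (nat_lit 0) (nat_lit 272886814329) (nat_lit 760) (nat_lit 23052795187) (nat_lit 836) (nat_lit 37245177471) (nat_lit 120) (nat_lit 5) (nat_lit 130) (nat_lit 5) (nat_lit 131) (nat_lit 5) (nat_lit 496) (nat_lit 484) (nat_lit 220)) (XT.nd (nat_lit 78) (nat_lit 76) (nat_lit 0) (XT.lf (nat_lit 0) (nat_lit 121504677151) (nat_lit 380) (nat_lit 215976979136) (nat_lit 456) (nat_lit 4801946780) (nat_lit 115) (nat_lit 5) (nat_lit 120) (nat_lit 5) (nat_lit 121) (nat_lit 5) (nat_lit 497) (nat_lit 484) (nat_lit 219)) (XT.lf (nat_lit 0) (nat_lit 29742622026) (nat_lit 456) (nat_lit 38147012746) (nat_lit 76) (nat_lit 283854091496) (nat_lit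 114) (nat_lit 5) (nat_lit 120) (nat_lit 5) (nat_lit 115) (nat_lit 5) (nat_lit 498) (nat_lit 484) (nat_lit 218)))) (XT.nd (nat_lit 156) (nat_lit 684) (nat_lit 0) (XT.nd (nat_lit 78) (nat_lit 0) (nat_lit 0) (XT.lf (nat_lit 0) (nat_lit 69739019822) (nat_lit 456) (nat_lit 204344314469) (nat_lit 76) (nat_lit 87395286456) (nat_lit 109) (nat_lit 5) (nat_lit 115) (nat_lit 5) (nat_lit 110) (nat_lit 5) (nat_lit 499) (nat_lit 484) (nat_lit 217)) (XT.lf (nat_lit 0) (nat_lit 113504773448) (nat_lit 456) (nat_lit 9287464409) (nat_lit 76) (nat_lit 248819545307) (nat_lit 109) (nat_lit 5) (nat_lit 115) (nat_lit 5) (nat_lit 110) (nat_lit 5) (nat_lit 500) (nat_lit 484) (nat_lit 216))) (XT.nd (nat_lit 78) (nat_lit 304) (nat_lit 0) (XT.lf (nat_lit 0) (nat_lit 163227111474) (nat_lit 456) (nat_lit 180721638817) (nat_lit 76) (nat_lit 38114438588) (nat_lit 104) (nat_lit 5) (nat_lit 110) (nat_lit 5) (nat_lit 105) (nat_lit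 5) (nat_lit 501) (nat_lit 484) (nat_lit 215)) (XT.lf (nat_lit 0) (nat_lit 28698066589) (nat_lit 304) (nat_lit 189358375839) (nat_lit 380) (nat_lit 174849678664) (nat_lit 100) (nat_lit 5) (nat_lit 104) (nat_lit 5) (nat_lit 105) (nat_lit 5) (nat_lit 502) (nat_lit 484) (nat_lit 214))))) (XT.nd (nat_lit 234) (nat_lit 608) (nat_lit 0) (XT.nd (nat_lit 78) (nat_lit 304) (nat_lit 0) (XT.lf (nat_lit 0) (nat_lit 254862965792) (nat_lit 304) (nat_lit 23824848681) (nat_lit 380) (nat_lit 125450356725) (nat_lit 100) (nat_lit 5) (nat_lit 104) (nat_lit 5) (nat_lit 105) (nat_lit 5) (nat_lit 503) (nat_lit 484) (nat_lit 213)) (XT.nd (nat_lit 78) (nat_lit 0) (nat_lit 0) (XT.lf (nat_lit 0) (nat_lit 76511398599) (nat_lit 304) (nat_lit 269375573282) (nat_lit 380) (nat_lit 69868041101) (nat_lit 96) (nat_lit 5) (nat_lit 100) (nat_lit 5) (nat_lit 101) (nat_lit 5) (nat_lit 504) (nat_lit 484) (nat_lit 212)) (XT.lf (nat_lit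 0) (nat_lit 318366307742) (nat_lit 304) (nat_lit 100992067637) (nat_lit 380) (nat_lit 8448707076) (nat_lit 96) (nat_lit 5) (nat_lit 100) (nat_lit 5) (nat_lit 101) (nat_lit 5) (nat_lit 505) (nat_lit 484) (nat_lit 211)))) (XT.nd (nat_lit 156) (nat_lit 304) (nat_lit 0) (XT.nd (nat_lit 78) (nat_lit 0) (nat_lit 0) (XT.lf (nat_lit 0) (nat_lit 57593009305) (nat_lit 304) (nat_lit 306237071832) (nat_lit 76) (nat_lit 76420671123) (nat_lit 92) (nat_lit 5) (nat_lit 96) (nat_lit 5) (nat_lit 93) (nat_lit 5) (nat_lit 506) (nat_lit 484) (nat_lit 210)) (XT.lf (nat_lit 0) (nat_lit 130192274225) (nat_lit 304) (nat_lit 61608072006) (nat_lit 76) (nat_lit 261332364431) (nat_lit 92) (nat_lit 5) (nat_lit 96) (nat_lit 5) (nat_lit 93) (nat_lit 5) (nat_lit 507) (nat_lit 484) (nat_lit 209))) (XT.nd (nat_lit 78) (nat_lit 0) (nat_lit 0) (XT.lf (nat_lit 0) (nat_lit 201708266040) (nat_lit 304) (nat_lit 7862439477) (nat_lit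 380) (nat_lit 256930601319) (nat_lit 88) (nat_lit 5) (nat_lit 92) (nat_lit 5) (nat_lit 93) (nat_lit 5) (nat_lit 508) (nat_lit 484) (nat_lit 208)) (XT.lf (nat_lit 0) (nat_lit 296871118466) (nat_lit 380) (nat_lit 3066612317) (nat_lit 76) (nat_lit 180402949039) (nat_lit 88) (nat_lit 5) (nat_lit 93) (nat_lit 5) (nat_lit 89) (nat_lit 5) (nat_lit 509) (nat_lit 484) (nat_lit 207)))))) (XT.nd (nat_lit 546) (nat_lit 836) (nat_lit 0) (XT.nd (nat_lit 234) (nat_lit 608) (nat_lit 0) (XT.nd (nat_lit 78) (nat_lit 304) (nat_lit 0) (XT.lf (nat_lit 0) (nat_lit 280598101859) (nat_lit 228) (nat_lit 112448239181) (nat_lit 304) (nat_lit 101600190975) (nat_lit 85) (nat_lit 5) (nat_lit 88) (nat_lit 5) (nat_lit 89) (nat_lit 5) (nat_lit 510) (nat_lit 484) (nat_lit 206)) (XT.nd (nat_lit 78) (nat_lit 76) (nat_lit 0) (XT.lf (nat_lit 0) (nat_lit 69802707118) (nat_lit 228) (nat_lit 426688159886) (nat_lit 304) (nat_lit 13053782708)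 (nat_lit 82) (nat_lit 5) (nat_lit 85) (nat_lit 5) (nat_lit 86) (nat_lit 5) (nat_lit 511) (nat_lit 484) (nat_lit 205)) (XT.lf (nat_lit 0) (nat_lit 82889837156) (nat_lit 304) (nat_lit 152879393493) (nat_lit 76) (nat_lit 289079662506) (nat_lit 81) (nat_lit 5) (nat_lit 85) (nat_lit 5) (nat_lit 82) (nat_lit 5) (nat_lit 512) (nat_lit 484) (nat_lit 204)))) (XT.nd (nat_lit 156) (nat_lit 380) (nat_lit 0) (XT.nd (nat_lit 78) (nat_lit 0) (nat_lit 0) (XT.lf (nat_lit 0) (nat_lit 153009512533) (nat_lit 228) (nat_lit 32571315910) (nat_lit 304) (nat_lit 355207376357) (nat_lit 78) (nat_lit 5) (nat_lit 81) (nat_lit 5) (nat_lit 82) (nat_lit 5) (nat_lit 513) (nat_lit 484) (nat_lit 203)) (XT.lf (nat_lit 0) (nat_lit 298860459970) (nat_lit 304) (nat_lit 80759598919) (nat_lit 76) (nat_lit 177631718608) (nat_lit 78) (nat_lit 5) (nat_lit 82) (nat_lit 5) (nat_lit 79) (nat_lit 5) (nat_lit 514) (nat_lit 484) (nat_lit 202)))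 (XT.nd (nat_lit 78) (nat_lit 152) (nat_lit 0) (XT.lf (nat_lit 0) (nat_lit 249047536714) (nat_lit 228) (nat_lit 173178799788) (nat_lit 304) (nat_lit 152091079162) (nat_lit 75) (nat_lit 5) (nat_lit 78) (nat_lit 5) (nat_lit 79) (nat_lit 5) (nat_lit 515) (nat_lit 484) (nat_lit 201)) (XT.lf (nat_lit 0) (nat_lit 5452450721) (nat_lit 152) (nat_lit 548463762794) (nat_lit 228) (nat_lit 38212336898) (nat_lit 73) (nat_lit 5) (nat_lit 75) (nat_lit 5) (nat_lit 76) (nat_lit 5) (nat_lit 516) (nat_lit 484) (nat_lit 200))))) (XT.nd (nat_lit 234) (nat_lit 532) (nat_lit 0) (XT.nd (nat_lit 78) (nat_lit 228) (nat_lit 0) (XT.lf (nat_lit 0) (nat_lit 87194185905) (nat_lit 228) (nat_lit 250750877302) (nat_lit 76) (nat_lit 272399771424) (nat_lit 72) (nat_lit 5) (nat_lit 75) (nat_lit 5) (nat_lit 73) (nat_lit 5) (nat_lit 517) (nat_lit 484) (nat_lit 199)) (XT.nd (nat_lit 78) (nat_lit 0) (nat_lit 0) (XT.lf (nat_lit 0) (nat_lit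 104695037589) (nat_lit 228) (nat_lit 114526374178) (nat_lit 304) (nat_lit 410137471610) (nat_lit 69) (nat_lit 5) (nat_lit 72) (nat_lit 5) (nat_lit 73) (nat_lit 5) (nat_lit 518) (nat_lit 484) (nat_lit 198)) (XT.lf (nat_lit 0) (nat_lit 364040705749) (nat_lit 304) (nat_lit 164436724943) (nat_lit 76) (nat_lit 120536668530) (nat_lit 69) (nat_lit 5) (nat_lit 73) (nat_lit 5) (nat_lit 70) (nat_lit 5) (nat_lit 519) (nat_lit 484) (nat_lit 197)))) (XT.nd (nat_lit 156) (nat_lit 380) (nat_lit 0) (XT.nd (nat_lit 78) (nat_lit 0) (nat_lit 0) (XT.lf (nat_lit 0) (nat_lit 218931412134) (nat_lit 152) (nat_lit 302465147120) (nat_lit 228) (nat_lit 147990736868) (nat_lit 67) (nat_lit 5) (nat_lit 69) (nat_lit 5) (nat_lit 70) (nat_lit 5) (nat_lit 520) (nat_lit 484) (nat_lit 196)) (XT.lf (nat_lit 0) (nat_lit 627176797634) (nat_lit 152) (nat_lit 62228204149) (nat_lit 228) (nat_lit 1234911271) (nat_lit 67) (nat_lit 5)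 (nat_lit 69) (nat_lit 5) (nat_lit 70) (nat_lit 5) (nat_lit 521) (nat_lit 484) (nat_lit 195))) (XT.nd (nat_lit 78) (nat_lit 152) (nat_lit 0) (XT.lf (nat_lit 0) (nat_lit 156553979081) (nat_lit 228) (nat_lit 363906214471) (nat_lit 76) (nat_lit 191946254311) (nat_lit 64) (nat_lit 5) (nat_lit 67) (nat_lit 5) (nat_lit 65) (nat_lit 5) (nat_lit 522) (nat_lit 484) (nat_lit 194)) (XT.lf (nat_lit 0) (nat_lit 48553461290) (nat_lit 152) (nat_lit 276507921247) (nat_lit 228) (nat_lit 410055386173) (nat_lit 62) (nat_lit 5) (nat_lit 64) (nat_lit 5) (nat_lit 65) (nat_lit 5) (nat_lit 523) (nat_lit 484) (nat_lit 193))))))) (XT.nd (nat_lit 59826) (nat_lit 0) (nat_lit 3800) (XT.nd (nat_lit 546) (nat_lit 152) (nat_lit 0) (XT.nd (nat_lit 234) (nat_lit 532) (nat_lit 0) (XT.nd (nat_lit 78) (nat_lit 228) (nat_lit 0) (XT.lf (nat_lit 0) (nat_lit 494270093705) (nat_lit 152) (nat_lit 13886972420) (nat_lit 228) (nat_lit 250497393979)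 (nat_lit 62) (nat_lit 5) (nat_lit 64) (nat_lit 5) (nat_lit 65) (nat_lit 5) (nat_lit 524) (nat_lit 484) (nat_lit 192)) (XT.nd (nat_lit 78) (nat_lit 76) (nat_lit 0) (XT.lf (nat_lit 0) (nat_lit 180595221217) (nat_lit 152) (nat_lit 526720339910) (nat_lit 228) (nat_lit 75708073582) (nat_lit 60) (nat_lit 5) (nat_lit 62) (nat_lit 5) (nat_lit 63) (nat_lit 5) (nat_lit 525) (nat_lit 484) (nat_lit 191)) (XT.lf (nat_lit 0) (nat_lit 109148293311) (nat_lit 228) (nat_lit 153369246394) (nat_lit 76) (nat_lit 545770633334) (nat_lit 59) (nat_lit 5) (nat_lit 62) (nat_lit 5) (nat_lit 60) (nat_lit 5) (nat_lit 526) (nat_lit 484) (nat_lit 190)))) (XT.nd (nat_lit 156) (nat_lit 380) (nat_lit 0) (XT.nd (nat_lit 78) (nat_lit 0) (nat_lit 0) (XT.lf (nat_lit 0) (nat_lit 306151189926) (nat_lit 228) (nat_lit 507455075998) (nat_lit 76) (nat_lit 20875216613) (nat_lit 57) (nat_lit 5) (nat_lit 60) (nat_lit 5) (nat_lit 58) (nat_lit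 5) (nat_lit 527) (nat_lit 484) (nat_lit 189)) (XT.lf (nat_lit 0) (nat_lit 519947743953) (nat_lit 228) (nat_lit 29434286027) (nat_lit 76) (nat_lit 312255251903) (nat_lit 57) (nat_lit 5) (nat_lit 60) (nat_lit 5) (nat_lit 58) (nat_lit 5) (nat_lit 528) (nat_lit 484) (nat_lit 188))) (XT.nd (nat_lit 78) (nat_lit 228) (nat_lit 0) (XT.lf (nat_lit 0) (nat_lit 488110088473) (nat_lit 152) (nat_lit 263944788300) (nat_lit 228) (nat_lit 137714956871) (nat_lit 55) (nat_lit 5) (nat_lit 57) (nat_lit 5) (nat_lit 58) (nat_lit 5) (nat_lit 529) (nat_lit 484) (nat_lit 187)) (XT.lf (nat_lit 0) (nat_lit 76941278214) (nat_lit 228) (nat_lit 803976488273) (nat_lit 76) (nat_lit 38185056562) (nat_lit 52) (nat_lit 5) (nat_lit 55) (nat_lit 5) (nat_lit 53) (nat_lit 5) (nat_lit 530) (nat_lit 484) (nat_lit 186))))) (XT.nd (nat_lit 58968) (nat_lit 0) (nat_lit 5700) (XT.nd (nat_lit 78) (nat_lit 152) (nat_lit 0) (XT.lf (nat_lit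 0) (nat_lit 308942963401) (nat_lit 228) (nat_lit 284562034199) (nat_lit 76) (nat_lit 355722545016) (nat_lit 52) (nat_lit 5) (nat_lit 55) (nat_lit 5) (nat_lit 53) (nat_lit 5) (nat_lit 531) (nat_lit 484) (nat_lit 185)) (XT.nd (nat_lit 58812) (nat_lit 0) (nat_lit 5700) (XT.lf (nat_lit 0) (nat_lit 269447107662) (nat_lit 152) (nat_lit 287304435297) (nat_lit 228) (nat_lit 423896614699) (nat_lit 50) (nat_lit 5) (nat_lit 52) (nat_lit 5) (nat_lit 53) (nat_lit 5) (nat_lit 532) (nat_lit 484) (nat_lit 184)) (XT.lf (nat_lit 0) (nat_lit 42986716536) (nat_lit 836) (nat_lit 42775256365) (nat_lit 836) (nat_lit 42775256365) (nat_lit 125) (nat_lit 3) (nat_lit 136) (nat_lit 3) (nat_lit 136) (nat_lit 5) (nat_lit 485) (nat_lit 485) (nat_lit 230)))) (XT.nd (nat_lit 156) (nat_lit 0) (nat_lit 76) (XT.nd (nat_lit 78) (nat_lit 0) (nat_lit 76) (XT.lf (nat_lit 76) (nat_lit 41721557374) (nat_lit 0) (nat_lit 47053570583)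 (nat_lit 836) (nat_lit 174693573711) (nat_lit 126) (nat_lit 5) (nat_lit 125) (nat_lit 3) (nat_lit 136) (nat_lit 5) (nat_lit 486) (nat_lit 485) (nat_lit 229)) (XT.lf (nat_lit 0) (nat_lit 94495296153) (nat_lit 760) (nat_lit 93112511940) (nat_lit 836) (nat_lit 82435929462) (nat_lit 126) (nat_lit 5) (nat_lit 136) (nat_lit 5) (nat_lit 137) (nat_lit 5) (nat_lit 487) (nat_lit 485) (nat_lit 228))) (XT.nd (nat_lit 78) (nat_lit 0) (nat_lit 76) (XT.lf (nat_lit 76) (nat_lit 42544124221) (nat_lit 0) (nat_lit 59392892432) (nat_lit 836) (nat_lit 174938731410) (nat_lit 127) (nat_lit 5) (nat_lit 126) (nat_lit 5) (nat_lit 137) (nat_lit 5) (nat_lit 488) (nat_lit 485) (nat_lit 227)) (XT.lf (nat_lit 0) (nat_lit 112528117388) (nat_lit 760) (nat_lit 96954748852) (nat_lit 836) (nat_lit 74427628170) (nat_lit 127) (nat_lit 5) (nat_lit 137) (nat_lit 5) (nat_lit 138) (nat_lit 5) (nat_lit 489) (nat_lit 485) (nat_lit 226))))))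 (XT.nd (nat_lit 546) (nat_lit 1520) (nat_lit 0) (XT.nd (nat_lit 234) (nat_lit 532) (nat_lit 0) (XT.nd (nat_lit 78) (nat_lit 0) (nat_lit 76) (XT.lf (nat_lit 76) (nat_lit 47848738064) (nat_lit 0) (nat_lit 77520688148) (nat_lit 836) (nat_lit 165841519228) (nat_lit 128) (nat_lit 5) (nat_lit 127) (nat_lit 5) (nat_lit 138) (nat_lit 5) (nat_lit 490) (nat_lit 485) (nat_lit 225)) (XT.nd (nat_lit 78) (nat_lit 0) (nat_lit 0) (XT.lf (nat_lit 0) (nat_lit 141474641336) (nat_lit 760) (nat_lit 96515826368) (nat_lit 836) (nat_lit 60754859296) (nat_lit 128) (nat_lit 5) (nat_lit 138) (nat_lit 5) (nat_lit 139) (nat_lit 5) (nat_lit 491) (nat_lit 485) (nat_lit 224)) (XT.lf (nat_lit 76) (nat_lit 58266911044) (nat_lit 0) (nat_lit 102298697792) (nat_lit 836) (nat_lit 145981794238) (nat_lit 129) (nat_lit 5) (nat_lit 128) (nat_lit 5) (nat_lit 139) (nat_lit 5) (nat_lit 492) (nat_lit 485) (nat_lit 223)))) (XT.nd (nat_lit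 156) (nat_lit 684) (nat_lit 0) (XT.nd (nat_lit 78) (nat_lit 0) (nat_lit 0) (XT.lf (nat_lit 0) (nat_lit 182899701432) (nat_lit 760) (nat_lit 91172379313) (nat_lit 836) (nat_lit 40553073391) (nat_lit 129) (nat_lit 5) (nat_lit 139) (nat_lit 5) (nat_lit 140) (nat_lit 5) (nat_lit 493) (nat_lit 485) (nat_lit 222)) (XT.lf (nat_lit 76) (nat_lit 74498491327) (nat_lit 0) (nat_lit 134692120481) (nat_lit 836) (nat_lit 113774175301) (nat_lit 130) (nat_lit 5) (nat_lit 129) (nat_lit 5) (nat_lit 140) (nat_lit 5) (nat_lit 494) (nat_lit 485) (nat_lit 221))) (XT.nd (nat_lit 78) (nat_lit 760) (nat_lit 0) (XT.lf (nat_lit 0) (nat_lit 238547381011) (nat_lit 760) (nat_lit 80233341405) (nat_lit 76) (nat_lit 12853113667) (nat_lit 130) (nat_lit 5) (nat_lit 140) (nat_lit 5) (nat_lit 131) (nat_lit 5) (nat_lit 495) (nat_lit 485) (nat_lit 220)) (XT.lf (nat_lit 0) (nat_lit 97317938209) (nat_lit 760) (nat_lit 175781482591)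 (nat_lit 836) (nat_lit 67450545114) (nat_lit 120) (nat_lit 5) (nat_lit 130) (nat_lit 5) (nat_lit 131) (nat_lit 5) (nat_lit 496) (nat_lit 485) (nat_lit 219))))) (XT.nd (nat_lit 234) (nat_lit 1064) (nat_lit 0) (XT.nd (nat_lit 78) (nat_lit 456) (nat_lit 0) (XT.lf (nat_lit 0) (nat_lit 286532266121) (nat_lit 760) (nat_lit 24205547144) (nat_lit 836) (nat_lit 39106151452) (nat_lit 120) (nat_lit 5) (nat_lit 130) (nat_lit 5) (nat_lit 131) (nat_lit 5) (nat_lit 497) (nat_lit 485) (nat_lit 218)) (XT.nd (nat_lit 78) (nat_lit 76) (nat_lit 0) (XT.lf (nat_lit 0) (nat_lit 127581066513) (nat_lit 380) (nat_lit 226775853983) (nat_lit 456) (nat_lit 5040803222) (nat_lit 115) (nat_lit 5) (nat_lit 120) (nat_lit 5) (nat_lit 121) (nat_lit 5) (nat_lit 498) (nat_lit 485) (nat_lit 217)) (XT.lf (nat_lit 0) (nat_lit 31230897109) (nat_lit 456) (nat_lit 40053224685) (nat_lit 76) (nat_lit 298046733194) (nat_lit 114) (nat_lit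 5) (nat_lit 120) (nat_lit 5) (nat_lit 115) (nat_lit 5) (nat_lit 499) (nat_lit 485) (nat_lit 216)))) (XT.nd (nat_lit 156) (nat_lit 684) (nat_lit 0) (XT.nd (nat_lit 78) (nat_lit 0) (nat_lit 0) (XT.lf (nat_lit 0) (nat_lit 73227078019) (nat_lit 456) (nat_lit 214560354343) (nat_lit 76) (nat_lit 91765063686) (nat_lit 109) (nat_lit 5) (nat_lit 115) (nat_lit 5) (nat_lit 110) (nat_lit 5) (nat_lit 500) (nat_lit 485) (nat_lit 215)) (XT.lf (nat_lit 0) (nat_lit 119181066603) (nat_lit 456) (nat_lit 9750717773) (nat_lit 76) (nat_lit 261260534865) (nat_lit 109) (nat_lit 5) (nat_lit 115) (nat_lit 5) (nat_lit 110) (nat_lit 5) (nat_lit 501) (nat_lit 485) (nat_lit 214))) (XT.nd (nat_lit 78) (nat_lit 304) (nat_lit 0) (XT.lf (nat_lit 0) (nat_lit 171389489773) (nat_lit 456) (nat_lit 189756568805) (nat_lit 76) (nat_lit 40020238270) (nat_lit 104) (nat_lit 5) (nat_lit 110) (nat_lit 5) (nat_lit 105) (nat_lit 5) (nat_lit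 502) (nat_lit 485) (nat_lit 213)) (XT.lf (nat_lit 0) (nat_lit 30134103292) (nat_lit 304) (nat_lit 198826152977) (nat_lit 380) (nat_lit 183591120968) (nat_lit 100) (nat_lit 5) (nat_lit 104) (nat_lit 5) (nat_lit 105) (nat_lit 5) (nat_lit 503) (nat_lit 485) (nat_lit 212))))))))
noncomputable def xc241 : XT := (XT.nd (nat_lit 2184) (nat_lit 0) (nat_lit 0) (XT.nd (nat_lit 1092) (nat_lit 1596) (nat_lit 0) (XT.nd (nat_lit 546) (nat_lit 1140) (nat_lit 0) (XT.nd (nat_lit 234) (nat_lit 608) (nat_lit 0) (XT.nd (nat_lit 78) (nat_lit 304) (nat_lit 0) (XT.lf (nat_lit 0) (nat_lit 267607193485) (nat_lit 304) (nat_lit 25015956206) (nat_lit 380) (nat_lit 131721882534) (nat_lit 100) (nat_lit 5) (nat_lit 104) (nat_lit 5) (nat_lit 105) (nat_lit 5) (nat_lit 504) (nat_lit 485) (nat_lit 211)) (XT.nd (nat_lit 78) (nat_lit 0) (nat_lit 0) (XT.lf (nat_lit 0) (nat_lit 80338075216) (nat_lit 304) (nat_lit 282844164061) (nat_lit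 380) (nat_lit 73360478119) (nat_lit 96) (nat_lit 5) (nat_lit 100) (nat_lit 5) (nat_lit 101) (nat_lit 5) (nat_lit 505) (nat_lit 485) (nat_lit 210)) (XT.lf (nat_lit 0) (nat_lit 334285677117) (nat_lit 304) (nat_lit 106041492081) (nat_lit 380) (nat_lit 8870223347) (nat_lit 96) (nat_lit 5) (nat_lit 100) (nat_lit 5) (nat_lit 101) (nat_lit 5) (nat_lit 506) (nat_lit 485) (nat_lit 209)))) (XT.nd (nat_lit 156) (nat_lit 304) (nat_lit 0) (XT.nd (nat_lit 78) (nat_lit 0) (nat_lit 0) (XT.lf (nat_lit 0) (nat_lit 60473526875) (nat_lit 304) (nat_lit 321547818938) (nat_lit 76) (nat_lit 80241900451) (nat_lit 92) (nat_lit 5) (nat_lit 96) (nat_lit 5) (nat_lit 93) (nat_lit 5) (nat_lit 507) (nat_lit 485) (nat_lit 208)) (XT.lf (nat_lit 0) (nat_lit 136702713750) (nat_lit 304) (nat_lit 64687421811) (nat_lit 76) (nat_lit 274399169102) (nat_lit 92) (nat_lit 5) (nat_lit 96) (nat_lit 5) (nat_lit 93) (nat_lit 5) (nat_lit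 508) (nat_lit 485) (nat_lit 207))) (XT.nd (nat_lit 78) (nat_lit 0) (nat_lit 0) (XT.lf (nat_lit 0) (nat_lit 211794716141) (nat_lit 304) (nat_lit 8255327329) (nat_lit 380) (nat_lit 269776288344) (nat_lit 88) (nat_lit 5) (nat_lit 92) (nat_lit 5) (nat_lit 93) (nat_lit 5) (nat_lit 509) (nat_lit 485) (nat_lit 206)) (XT.lf (nat_lit 0) (nat_lit 311715442325) (nat_lit 380) (nat_lit 3218920545) (nat_lit 76) (nat_lit 189423312328) (nat_lit 88) (nat_lit 5) (nat_lit 93) (nat_lit 5) (nat_lit 89) (nat_lit 5) (nat_lit 510) (nat_lit 485) (nat_lit 205))))) (XT.nd (nat_lit 234) (nat_lit 608) (nat_lit 0) (XT.nd (nat_lit 78) (nat_lit 304) (nat_lit 0) (XT.lf (nat_lit 0) (nat_lit 294629012850) (nat_lit 228) (nat_lit 118070392314) (nat_lit 304) (nat_lit 106679415889) (nat_lit 85) (nat_lit 5) (nat_lit 88) (nat_lit 5) (nat_lit 89) (nat_lit 5) (nat_lit 511) (nat_lit 485) (nat_lit 204)) (XT.nd (nat_lit 78) (nat_lit 76)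 (nat_lit 0) (XT.lf (nat_lit 0) (nat_lit 73293865129) (nat_lit 228) (nat_lit 448022276538) (nat_lit 304) (nat_lit 13705703767) (nat_lit 82) (nat_lit 5) (nat_lit 85) (nat_lit 5) (nat_lit 86) (nat_lit 5) (nat_lit 512) (nat_lit 485) (nat_lit 203)) (XT.lf (nat_lit 0) (nat_lit 87035037103) (nat_lit 304) (nat_lit 160522365618) (nat_lit 76) (nat_lit 303533899508) (nat_lit 81) (nat_lit 5) (nat_lit 85) (nat_lit 5) (nat_lit 82) (nat_lit 5) (nat_lit 513) (nat_lit 485) (nat_lit 202)))) (XT.nd (nat_lit 156) (nat_lit 380) (nat_lit 0) (XT.nd (nat_lit 78) (nat_lit 0) (nat_lit 0) (XT.lf (nat_lit 0) (nat_lit 160660969620) (nat_lit 228) (nat_lit 34199589939) (nat_lit 304) (nat_lit 372967020825) (nat_lit 78) (nat_lit 5) (nat_lit 81) (nat_lit 5) (nat_lit 82) (nat_lit 5) (nat_lit 514) (nat_lit 485) (nat_lit 201)) (XT.lf (nat_lit 0) (nat_lit 313804144158) (nat_lit 304) (nat_lit 84796615473) (nat_lit 76) (nat_lit 186513573518)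 (nat_lit 78) (nat_lit 5) (nat_lit 82) (nat_lit 5) (nat_lit 79) (nat_lit 5) (nat_lit 515) (nat_lit 485) (nat_lit 200))) (XT.nd (nat_lit 78) (nat_lit 152) (nat_lit 0) (XT.lf (nat_lit 0) (nat_lit 261500861403) (nat_lit 228) (nat_lit 181837436428) (nat_lit 304) (nat_lit 159694956237) (nat_lit 75) (nat_lit 5) (nat_lit 78) (nat_lit 5) (nat_lit 79) (nat_lit 5) (nat_lit 516) (nat_lit 485) (nat_lit 199)) (XT.lf (nat_lit 0) (nat_lit 5726033022) (nat_lit 152) (nat_lit 575886624477) (nat_lit 228) (nat_lit 40122288621) (nat_lit 73) (nat_lit 5) (nat_lit 75) (nat_lit 5) (nat_lit 76) (nat_lit 5) (nat_lit 517) (nat_lit 485) (nat_lit 198)))))) (XT.nd (nat_lit 546) (nat_lit 760) (nat_lit 0) (XT.nd (nat_lit 234) (nat_lit 532) (nat_lit 0) (XT.nd (nat_lit 78) (nat_lit 228) (nat_lit 0) (XT.lf (nat_lit 0) (nat_lit 91554508375) (nat_lit 228) (nat_lit 263287486697) (nat_lit 76) (nat_lit 286020050498) (nat_lit 72) (nat_lit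 5) (nat_lit 75) (nat_lit 5) (nat_lit 73) (nat_lit 5) (nat_lit 518) (nat_lit 485) (nat_lit 197)) (XT.nd (nat_lit 78) (nat_lit 0) (nat_lit 0) (XT.lf (nat_lit 0) (nat_lit 109930708866) (nat_lit 228) (nat_lit 120252371819) (nat_lit 304) (nat_lit 430643716815) (nat_lit 69) (nat_lit 5) (nat_lit 72) (nat_lit 5) (nat_lit 73) (nat_lit 5) (nat_lit 519) (nat_lit 485) (nat_lit 196)) (XT.lf (nat_lit 0) (nat_lit 382243315648) (nat_lit 304) (nat_lit 172657661733) (nat_lit 76) (nat_lit 126563797948) (nat_lit 69) (nat_lit 5) (nat_lit 73) (nat_lit 5) (nat_lit 70) (nat_lit 5) (nat_lit 520) (nat_lit 485) (nat_lit 195)))) (XT.nd (nat_lit 156) (nat_lit 380) (nat_lit 0) (XT.nd (nat_lit 78) (nat_lit 0) (nat_lit 0) (XT.lf (nat_lit 0) (nat_lit 229878867690) (nat_lit 152) (nat_lit 317588080593) (nat_lit 228) (nat_lit 155389684476) (nat_lit 67) (nat_lit 5) (nat_lit 69) (nat_lit 5) (nat_lit 70) (nat_lit 5) (nat_lit 521)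 (nat_lit 485) (nat_lit 194)) (XT.lf (nat_lit 0) (nat_lit 658536480325) (nat_lit 152) (nat_lit 65339305897) (nat_lit 228) (nat_lit 1296095657) (nat_lit 67) (nat_lit 5) (nat_lit 69) (nat_lit 5) (nat_lit 70) (nat_lit 5) (nat_lit 522) (nat_lit 485) (nat_lit 193))) (XT.nd (nat_lit 78) (nat_lit 152) (nat_lit 0) (XT.lf (nat_lit 0) (nat_lit 164382213548) (nat_lit 228) (nat_lit 382100656516) (nat_lit 76) (nat_lit 201543873318) (nat_lit 64) (nat_lit 5) (nat_lit 67) (nat_lit 5) (nat_lit 65) (nat_lit 5) (nat_lit 523) (nat_lit 485) (nat_lit 192)) (XT.lf (nat_lit 0) (nat_lit 50981989022) (nat_lit 152) (nat_lit 290332985997) (nat_lit 228) (nat_lit 430557605863) (nat_lit 62) (nat_lit 5) (nat_lit 64) (nat_lit 5) (nat_lit 65) (nat_lit 5) (nat_lit 524) (nat_lit 485) (nat_lit 191))))) (XT.nd (nat_lit 234) (nat_lit 532) (nat_lit 0) (XT.nd (nat_lit 78) (nat_lit 228) (nat_lit 0) (XT.lf (nat_lit 0) (nat_lit 518984412360)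 (nat_lit 152) (nat_lit 14581005505) (nat_lit 228) (nat_lit 263021740232) (nat_lit 62) (nat_lit 5) (nat_lit 64) (nat_lit 5) (nat_lit 65) (nat_lit 5) (nat_lit 525) (nat_lit 485) (nat_lit 190)) (XT.nd (nat_lit 78) (nat_lit 76) (nat_lit 0) (XT.lf (nat_lit 0) (nat_lit 189625802881) (nat_lit 152) (nat_lit 553056028504) (nat_lit 228) (nat_lit 79492960362) (nat_lit 60) (nat_lit 5) (nat_lit 62) (nat_lit 5) (nat_lit 63) (nat_lit 5) (nat_lit 526) (nat_lit 485) (nat_lit 189)) (XT.lf (nat_lit 0) (nat_lit 114606184506) (nat_lit 228) (nat_lit 161036911351) (nat_lit 76) (nat_lit 573059461929) (nat_lit 59) (nat_lit 5) (nat_lit 62) (nat_lit 5) (nat_lit 60) (nat_lit 5) (nat_lit 527) (nat_lit 485) (nat_lit 188)))) (XT.nd (nat_lit 156) (nat_lit 380) (nat_lit 0) (XT.nd (nat_lit 78) (nat_lit 0) (nat_lit 0) (XT.lf (nat_lit 0) (nat_lit 321459220479) (nat_lit 228) (nat_lit 532827026889) (nat_lit 76) (nat_lit 21919285668)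 (nat_lit 57) (nat_lit 5) (nat_lit 60) (nat_lit 5) (nat_lit 58) (nat_lit 5) (nat_lit 528) (nat_lit 485) (nat_lit 187)) (XT.lf (nat_lit 0) (nat_lit 545945579776) (nat_lit 228) (nat_lit 30905235653) (nat_lit 76) (nat_lit 327868308045) (nat_lit 57) (nat_lit 5) (nat_lit 60) (nat_lit 5) (nat_lit 58) (nat_lit 5) (nat_lit 529) (nat_lit 485) (nat_lit 186))) (XT.nd (nat_lit 78) (nat_lit 228) (nat_lit 0) (XT.lf (nat_lit 0) (nat_lit 512516345238) (nat_lit 152) (nat_lit 277141714382) (nat_lit 228) (nat_lit 144600243688) (nat_lit 55) (nat_lit 5) (nat_lit 57) (nat_lit 5) (nat_lit 58) (nat_lit 5) (nat_lit 530) (nat_lit 485) (nat_lit 185)) (XT.lf (nat_lit 0) (nat_lit 80788783894) (nat_lit 228) (nat_lit 844174540960) (nat_lit 76) (nat_lit 40094617196) (nat_lit 52) (nat_lit 5) (nat_lit 55) (nat_lit 5) (nat_lit 53) (nat_lit 5) (nat_lit 531) (nat_lit 485) (nat_lit 184))))))) (XT.nd (nat_lit 59904) (nat_lit 0) (nat_lit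 2280) (XT.nd (nat_lit 59358) (nat_lit 0) (nat_lit 5168) (XT.nd (nat_lit 59046) (nat_lit 0) (nat_lit 5624) (XT.nd (nat_lit 58890) (nat_lit 0) (nat_lit 5548) (XT.lf (nat_lit 0) (nat_lit 324390532303) (nat_lit 228) (nat_lit 298789400931) (nat_lit 76) (nat_lit 373508965416) (nat_lit 52) (nat_lit 5) (nat_lit 55) (nat_lit 5) (nat_lit 53) (nat_lit 5) (nat_lit 532) (nat_lit 485) (nat_lit 183)) (XT.nd (nat_lit 78) (nat_lit 0) (nat_lit 0) (XT.lf (nat_lit 0) (nat_lit 45137005863) (nat_lit 836) (nat_lit 44913518410) (nat_lit 836) (nat_lit 44913518410) (nat_lit 125) (nat_lit 3) (nat_lit 136) (nat_lit 3) (nat_lit 136) (nat_lit 5) (nat_lit 486) (nat_lit 486) (nat_lit 228)) (XT.lf (nat_lit 76) (nat_lit 43808620636) (nat_lit 0) (nat_lit 49407095296) (nat_lit 836) (nat_lit 183426328535) (nat_lit 126) (nat_lit 5) (nat_lit 125) (nat_lit 3) (nat_lit 136) (nat_lit 5) (nat_lit 487) (nat_lit 486) (nat_lit 227))))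 (XT.nd (nat_lit 156) (nat_lit 0) (nat_lit 76) (XT.nd (nat_lit 78) (nat_lit 0) (nat_lit 0) (XT.lf (nat_lit 0) (nat_lit 99221792737) (nat_lit 760) (nat_lit 97767098595) (nat_lit 836) (nat_lit 86556945839) (nat_lit 126) (nat_lit 5) (nat_lit 136) (nat_lit 5) (nat_lit 137) (nat_lit 5) (nat_lit 488) (nat_lit 486) (nat_lit 226)) (XT.lf (nat_lit 76) (nat_lit 44672352617) (nat_lit 0) (nat_lit 62363180139) (nat_lit 836) (nat_lit 183683918806) (nat_lit 127) (nat_lit 5) (nat_lit 126) (nat_lit 5) (nat_lit 137) (nat_lit 5) (nat_lit 489) (nat_lit 486) (nat_lit 225))) (XT.nd (nat_lit 78) (nat_lit 0) (nat_lit 0) (XT.lf (nat_lit 0) (nat_lit 118156099666) (nat_lit 760) (nat_lit 101801423313) (nat_lit 836) (nat_lit 78148416719) (nat_lit 127) (nat_lit 5) (nat_lit 137) (nat_lit 5) (nat_lit 138) (nat_lit 5) (nat_lit 490) (nat_lit 486) (nat_lit 224)) (XT.lf (nat_lit 76) (nat_lit 50242220803) (nat_lit 0) (nat_lit 81397194389)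 (nat_lit 836) (nat_lit 174132001054) (nat_lit 128) (nat_lit 5) (nat_lit 127) (nat_lit 5) (nat_lit 138) (nat_lit 5) (nat_lit 491) (nat_lit 486) (nat_lit 223))))) (XT.nd (nat_lit 234) (nat_lit 608) (nat_lit 0) (XT.nd (nat_lit 78) (nat_lit 0) (nat_lit 0) (XT.lf (nat_lit 0) (nat_lit 148549811787) (nat_lit 760) (nat_lit 101340541812) (nat_lit 836) (nat_lit 63792167277) (nat_lit 128) (nat_lit 5) (nat_lit 138) (nat_lit 5) (nat_lit 139) (nat_lit 5) (nat_lit 492) (nat_lit 486) (nat_lit 222)) (XT.nd (nat_lit 78) (nat_lit 0) (nat_lit 76) (XT.lf (nat_lit 76) (nat_lit 61181315118) (nat_lit 0) (nat_lit 107413960577) (nat_lit 836) (nat_lit 153279427685) (nat_lit 129) (nat_lit 5) (nat_lit 128) (nat_lit 5) (nat_lit 139) (nat_lit 5) (nat_lit 493) (nat_lit 486) (nat_lit 221)) (XT.lf (nat_lit 0) (nat_lit 192046002025) (nat_lit 760) (nat_lit 95729918766) (nat_lit 836) (nat_lit 42580424774) (nat_lit 129) (nat_lit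 5) (nat_lit 139) (nat_lit 5) (nat_lit 140) (nat_lit 5) (nat_lit 494) (nat_lit 486) (nat_lit 220)))) (XT.nd (nat_lit 156) (nat_lit 684) (nat_lit 0) (XT.nd (nat_lit 78) (nat_lit 0) (nat_lit 76) (XT.lf (nat_lit 76) (nat_lit 78224477995) (nat_lit 0) (nat_lit 141426933864) (nat_lit 836) (nat_lit 119461550655) (nat_lit 130) (nat_lit 5) (nat_lit 129) (nat_lit 5) (nat_lit 140) (nat_lit 5) (nat_lit 495) (nat_lit 486) (nat_lit 219)) (XT.lf (nat_lit 0) (nat_lit 250475955987) (nat_lit 760) (nat_lit 84243932961) (nat_lit 76) (nat_lit 13495578187) (nat_lit 130) (nat_lit 5) (nat_lit 140) (nat_lit 5) (nat_lit 131) (nat_lit 5) (nat_lit 496) (nat_lit 486) (nat_lit 218))) (XT.nd (nat_lit 78) (nat_lit 0) (nat_lit 0) (XT.lf (nat_lit 0) (nat_lit 102184893287) (nat_lit 760) (nat_lit 184570663575) (nat_lit 836) (nat_lit 70821848663) (nat_lit 120) (nat_lit 5) (nat_lit 130) (nat_lit 5) (nat_lit 131) (nat_lit 5) (nat_lit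 497) (nat_lit 486) (nat_lit 217)) (XT.lf (nat_lit 0) (nat_lit 300859887206) (nat_lit 760) (nat_lit 25415926267) (nat_lit 836) (nat_lit 41060293590) (nat_lit 120) (nat_lit 5) (nat_lit 130) (nat_lit 5) (nat_lit 131) (nat_lit 5) (nat_lit 498) (nat_lit 486) (nat_lit 216)))))) (XT.nd (nat_lit 546) (nat_lit 1368) (nat_lit 0) (XT.nd (nat_lit 234) (nat_lit 684) (nat_lit 0) (XT.nd (nat_lit 78) (nat_lit 456) (nat_lit 0) (XT.lf (nat_lit 0) (nat_lit 133961167915) (nat_lit 380) (nat_lit 238114670165) (nat_lit 456) (nat_lit 5291717852) (nat_lit 115) (nat_lit 5) (nat_lit 120) (nat_lit 5) (nat_lit 121) (nat_lit 5) (nat_lit 499) (nat_lit 486) (nat_lit 215)) (XT.nd (nat_lit 78) (nat_lit 380) (nat_lit 0) (XT.lf (nat_lit 0) (nat_lit 32793479590) (nat_lit 456) (nat_lit 42054853086) (nat_lit 76) (nat_lit 312949012824) (nat_lit 114) (nat_lit 5) (nat_lit 120) (nat_lit 5) (nat_lit 115) (nat_lit 5) (nat_lit 500) (nat_lit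 486) (nat_lit 214)) (XT.lf (nat_lit 0) (nat_lit 76889436189) (nat_lit 456) (nat_lit 225287305531) (nat_lit 76) (nat_lit 96353328578) (nat_lit 109) (nat_lit 5) (nat_lit 115) (nat_lit 5) (nat_lit 110) (nat_lit 5) (nat_lit 501) (nat_lit 486) (nat_lit 213)))) (XT.nd (nat_lit 156) (nat_lit 304) (nat_lit 0) (XT.nd (nat_lit 78) (nat_lit 380) (nat_lit 0) (XT.lf (nat_lit 0) (nat_lit 125141076380) (nat_lit 456) (nat_lit 10237237919) (nat_lit 76) (nat_lit 274323572759) (nat_lit 109) (nat_lit 5) (nat_lit 115) (nat_lit 5) (nat_lit 110) (nat_lit 5) (nat_lit 502) (nat_lit 486) (nat_lit 212)) (XT.lf (nat_lit 0) (nat_lit 179959891904) (nat_lit 456) (nat_lit 199243352389) (nat_lit 76) (nat_lit 42021320707) (nat_lit 104) (nat_lit 5) (nat_lit 110) (nat_lit 5) (nat_lit 105) (nat_lit 5) (nat_lit 503) (nat_lit 486) (nat_lit 211))) (XT.nd (nat_lit 78) (nat_lit 0) (nat_lit 0) (XT.lf (nat_lit 0) (nat_lit 31641836460)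 (nat_lit 304) (nat_lit 208767332141) (nat_lit 380) (nat_lit 192769732229) (nat_lit 100) (nat_lit 5) (nat_lit 104) (nat_lit 5) (nat_lit 105) (nat_lit 5) (nat_lit 504) (nat_lit 486) (nat_lit 210)) (XT.lf (nat_lit 0) (nat_lit 280988532210) (nat_lit 304) (nat_lit 26266631650) (nat_lit 380) (nat_lit 138307076863) (nat_lit 100) (nat_lit 5) (nat_lit 104) (nat_lit 5) (nat_lit 105) (nat_lit 5) (nat_lit 505) (nat_lit 486) (nat_lit 209))))) (XT.nd (nat_lit 312) (nat_lit 760) (nat_lit 0) (XT.nd (nat_lit 156) (nat_lit 304) (nat_lit 0) (XT.nd (nat_lit 78) (nat_lit 0) (nat_lit 0) (XT.lf (nat_lit 0) (nat_lit 84355982776) (nat_lit 304) (nat_lit 296986201848) (nat_lit 380) (nat_lit 77027626709) (nat_lit 96) (nat_lit 5) (nat_lit 100) (nat_lit 5) (nat_lit 101) (nat_lit 5) (nat_lit 506) (nat_lit 486) (nat_lit 208)) (XT.lf (nat_lit 0) (nat_lit 351000916971) (nat_lit 304) (nat_lit 111343404383) (nat_lit 380) (nat_lit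 9312900880) (nat_lit 96) (nat_lit 5) (nat_lit 100) (nat_lit 5) (nat_lit 101) (nat_lit 5) (nat_lit 507) (nat_lit 486) (nat_lit 207))) (XT.nd (nat_lit 78) (nat_lit 0) (nat_lit 0) (XT.lf (nat_lit 0) (nat_lit 63497989709) (nat_lit 304) (nat_lit 337624206270) (nat_lit 76) (nat_lit 84254173045) (nat_lit 92) (nat_lit 5) (nat_lit 96) (nat_lit 5) (nat_lit 93) (nat_lit 5) (nat_lit 508) (nat_lit 486) (nat_lit 206)) (XT.lf (nat_lit 0) (nat_lit 143538598476) (nat_lit 304) (nat_lit 67920837077) (nat_lit 76) (nat_lit 288119296673) (nat_lit 92) (nat_lit 5) (nat_lit 96) (nat_lit 5) (nat_lit 93) (nat_lit 5) (nat_lit 509) (nat_lit 486) (nat_lit 205)))) (XT.nd (nat_lit 156) (nat_lit 456) (nat_lit 0) (XT.nd (nat_lit 78) (nat_lit 0) (nat_lit 0) (XT.lf (nat_lit 0) (nat_lit 222385392356) (nat_lit 304) (nat_lit 8667881339) (nat_lit 380) (nat_lit 283264338098) (nat_lit 88) (nat_lit 5) (nat_lit 92) (nat_lit 5) (nat_lit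 93) (nat_lit 5) (nat_lit 510) (nat_lit 486) (nat_lit 204)) (XT.lf (nat_lit 0) (nat_lit 327301910981) (nat_lit 380) (nat_lit 3378939236) (nat_lit 76) (nat_lit 198894673714) (nat_lit 88) (nat_lit 5) (nat_lit 93) (nat_lit 5) (nat_lit 89) (nat_lit 5) (nat_lit 511) (nat_lit 486) (nat_lit 203))) (XT.nd (nat_lit 78) (nat_lit 228) (nat_lit 0) (XT.lf (nat_lit 0) (nat_lit 309361375872) (nat_lit 228) (nat_lit 123973677167) (nat_lit 304) (nat_lit 112012674997) (nat_lit 85) (nat_lit 5) (nat_lit 88) (nat_lit 5) (nat_lit 89) (nat_lit 5) (nat_lit 512) (nat_lit 486) (nat_lit 202)) (XT.lf (nat_lit 0) (nat_lit 76959485963) (nat_lit 228) (nat_lit 470423126109) (nat_lit 304) (nat_lit 14390292287) (nat_lit 82) (nat_lit 5) (nat_lit 85) (nat_lit 5) (nat_lit 86) (nat_lit 5) (nat_lit 513) (nat_lit 486) (nat_lit 201))))))))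
noncomputable def xc242 : XT := (XT.nd (nat_lit 61074) (nat_lit 0) (nat_lit 1140) (XT.nd (nat_lit 1092) (nat_lit 608) (nat_lit 0) (XT.nd (nat_lit 546) (nat_lit 684) (nat_lit 0) (XT.nd (nat_lit 234) (nat_lit 684) (nat_lit 0) (XT.nd (nat_lit 78) (nat_lit 228) (nat_lit 0) (XT.lf (nat_lit 0) (nat_lit 91387431216) (nat_lit 304) (nat_lit 168547579092) (nat_lit 76) (nat_lit 318710824756) (nat_lit 81) (nat_lit 5) (nat_lit 85) (nat_lit 5) (nat_lit 82) (nat_lit 5) (nat_lit 514) (nat_lit 486) (nat_lit 200)) (XT.nd (nat_lit 78) (nat_lit 0) (nat_lit 0) (XT.lf (nat_lit 0) (nat_lit 168694908314) (nat_lit 228) (nat_lit 35909304795) (nat_lit 304) (nat_lit 391614714859) (nat_lit 78) (nat_lit 5) (nat_lit 81) (nat_lit 5) (nat_lit 82) (nat_lit 5) (nat_lit 515) (nat_lit 486) (nat_lit 199)) (XT.lf (nat_lit 0) (nat_lit 329494951085) (nat_lit 304) (nat_lit 89035572422) (nat_lit 76) (nat_lit 195839496166) (nat_lit 78)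 (nat_lit 5) (nat_lit 82) (nat_lit 5) (nat_lit 79) (nat_lit 5) (nat_lit 516) (nat_lit 486) (nat_lit 198)))) (XT.nd (nat_lit 156) (nat_lit 304) (nat_lit 0) (XT.nd (nat_lit 78) (nat_lit 152) (nat_lit 0) (XT.lf (nat_lit 0) (nat_lit 274576764204) (nat_lit 228) (nat_lit 190929033101) (nat_lit 304) (nat_lit 167679090095) (nat_lit 75) (nat_lit 5) (nat_lit 78) (nat_lit 5) (nat_lit 79) (nat_lit 5) (nat_lit 517) (nat_lit 486) (nat_lit 197)) (XT.lf (nat_lit 0) (nat_lit 6013205207) (nat_lit 152) (nat_lit 604680659595) (nat_lit 228) (nat_lit 42127799768) (nat_lit 73) (nat_lit 5) (nat_lit 75) (nat_lit 5) (nat_lit 76) (nat_lit 5) (nat_lit 518) (nat_lit 486) (nat_lit 196))) (XT.nd (nat_lit 78) (nat_lit 228) (nat_lit 0) (XT.lf (nat_lit 0) (nat_lit 96132789961) (nat_lit 228) (nat_lit 276451013440) (nat_lit 76) (nat_lit 300321316516) (nat_lit 72) (nat_lit 5) (nat_lit 75) (nat_lit 5) (nat_lit 73) (nat_lit 5) (nat_lit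 519) (nat_lit 486) (nat_lit 195)) (XT.lf (nat_lit 0) (nat_lit 115428078230) (nat_lit 228) (nat_lit 126264699192) (nat_lit 304) (nat_lit 452175332702) (nat_lit 69) (nat_lit 5) (nat_lit 72) (nat_lit 5) (nat_lit 73) (nat_lit 5) (nat_lit 520) (nat_lit 486) (nat_lit 194))))) (XT.nd (nat_lit 234) (nat_lit 532) (nat_lit 0) (XT.nd (nat_lit 78) (nat_lit 152) (nat_lit 0) (XT.lf (nat_lit 0) (nat_lit 401356002621) (nat_lit 304) (nat_lit 181289728986) (nat_lit 76) (nat_lit 132892256319) (nat_lit 69) (nat_lit 5) (nat_lit 73) (nat_lit 5) (nat_lit 70) (nat_lit 5) (nat_lit 521) (nat_lit 486) (nat_lit 193)) (XT.nd (nat_lit 78) (nat_lit 0) (nat_lit 0) (XT.lf (nat_lit 0) (nat_lit 241373613749) (nat_lit 152) (nat_lit 333467190852) (nat_lit 228) (nat_lit 163158634245) (nat_lit 67) (nat_lit 5) (nat_lit 69) (nat_lit 5) (nat_lit 70) (nat_lit 5) (nat_lit 522) (nat_lit 486) (nat_lit 192)) (XT.lf (nat_lit 0) (nat_lit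 691464068794) (nat_lit 152) (nat_lit 68605991409) (nat_lit 228) (nat_lit 1360391436) (nat_lit 67) (nat_lit 5) (nat_lit 69) (nat_lit 5) (nat_lit 70) (nat_lit 5) (nat_lit 523) (nat_lit 486) (nat_lit 191)))) (XT.nd (nat_lit 156) (nat_lit 152) (nat_lit 0) (XT.nd (nat_lit 78) (nat_lit 152) (nat_lit 0) (XT.lf (nat_lit 0) (nat_lit 172601809951) (nat_lit 228) (nat_lit 401204901424) (nat_lit 76) (nat_lit 211621344798) (nat_lit 64) (nat_lit 5) (nat_lit 67) (nat_lit 5) (nat_lit 65) (nat_lit 5) (nat_lit 524) (nat_lit 486) (nat_lit 190)) (XT.lf (nat_lit 0) (nat_lit 53531863683) (nat_lit 152) (nat_lit 304849334786) (nat_lit 228) (nat_lit 452084987635) (nat_lit 62) (nat_lit 5) (nat_lit 64) (nat_lit 5) (nat_lit 65) (nat_lit 5) (nat_lit 525) (nat_lit 486) (nat_lit 189))) (XT.nd (nat_lit 78) (nat_lit 152) (nat_lit 0) (XT.lf (nat_lit 0) (nat_lit 544934371272) (nat_lit 152) (nat_lit 15309769580) (nat_lit 228)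 (nat_lit 276172352462) (nat_lit 62) (nat_lit 5) (nat_lit 64) (nat_lit 5) (nat_lit 65) (nat_lit 5) (nat_lit 526) (nat_lit 486) (nat_lit 188)) (XT.lf (nat_lit 0) (nat_lit 199107837337) (nat_lit 152) (nat_lit 580708532060) (nat_lit 228) (nat_lit 83467139537) (nat_lit 60) (nat_lit 5) (nat_lit 62) (nat_lit 5) (nat_lit 63) (nat_lit 5) (nat_lit 527) (nat_lit 486) (nat_lit 187)))))) (XT.nd (nat_lit 59436) (nat_lit 0) (nat_lit 5624) (XT.nd (nat_lit 234) (nat_lit 380) (nat_lit 0) (XT.nd (nat_lit 78) (nat_lit 152) (nat_lit 0) (XT.lf (nat_lit 0) (nat_lit 120336925957) (nat_lit 228) (nat_lit 169088033688) (nat_lit 76) (nat_lit 601712704348) (nat_lit 59) (nat_lit 5) (nat_lit 62) (nat_lit 5) (nat_lit 60) (nat_lit 5) (nat_lit 528) (nat_lit 486) (nat_lit 186)) (XT.nd (nat_lit 78) (nat_lit 0) (nat_lit 0) (XT.lf (nat_lit 0) (nat_lit 337532608766) (nat_lit 228) (nat_lit 559467649971) (nat_lit 76) (nat_lit 23015529520)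 (nat_lit 57) (nat_lit 5) (nat_lit 60) (nat_lit 5) (nat_lit 58) (nat_lit 5) (nat_lit 529) (nat_lit 486) (nat_lit 185)) (XT.lf (nat_lit 0) (nat_lit 573243265682) (nat_lit 228) (nat_lit 32449803853) (nat_lit 76) (nat_lit 344261989703) (nat_lit 57) (nat_lit 5) (nat_lit 60) (nat_lit 5) (nat_lit 58) (nat_lit 5) (nat_lit 530) (nat_lit 486) (nat_lit 184)))) (XT.nd (nat_lit 59046) (nat_lit 0) (nat_lit 5548) (XT.nd (nat_lit 78) (nat_lit 228) (nat_lit 0) (XT.lf (nat_lit 0) (nat_lit 538142844897) (nat_lit 152) (nat_lit 290998515898) (nat_lit 228) (nat_lit 151829837707) (nat_lit 55) (nat_lit 5) (nat_lit 57) (nat_lit 5) (nat_lit 58) (nat_lit 5) (nat_lit 531) (nat_lit 486) (nat_lit 183)) (XT.lf (nat_lit 0) (nat_lit 84828623786) (nat_lit 228) (nat_lit 886382568030) (nat_lit 76) (nat_lit 42099627246) (nat_lit 52) (nat_lit 5) (nat_lit 55) (nat_lit 5) (nat_lit 53) (nat_lit 5) (nat_lit 532) (nat_lit 486) (nat_lit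 182))) (XT.nd (nat_lit 78) (nat_lit 0) (nat_lit 0) (XT.lf (nat_lit 0) (nat_lit 47394721010) (nat_lit 836) (nat_lit 47158740115) (nat_lit 836) (nat_lit 47158740115) (nat_lit 125) (nat_lit 3) (nat_lit 136) (nat_lit 3) (nat_lit 136) (nat_lit 5) (nat_lit 487) (nat_lit 487) (nat_lit 226)) (XT.lf (nat_lit 76) (nat_lit 45999945448) (nat_lit 0) (nat_lit 51878217575) (nat_lit 836) (nat_lit 192595899962) (nat_lit 126) (nat_lit 5) (nat_lit 125) (nat_lit 3) (nat_lit 136) (nat_lit 5) (nat_lit 488) (nat_lit 487) (nat_lit 225))))) (XT.nd (nat_lit 234) (nat_lit 0) (nat_lit 76) (XT.nd (nat_lit 78) (nat_lit 0) (nat_lit 0) (XT.lf (nat_lit 0) (nat_lit 104184453146) (nat_lit 760) (nat_lit 102654511173) (nat_lit 836) (nat_lit 90884085561) (nat_lit 126) (nat_lit 5) (nat_lit 136) (nat_lit 5) (nat_lit 137) (nat_lit 5) (nat_lit 489) (nat_lit 487) (nat_lit 224)) (XT.nd (nat_lit 78) (nat_lit 0) (nat_lit 76) (XT.lf (nat_lit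 76) (nat_lit 46906897400) (nat_lit 0) (nat_lit 65481922443) (nat_lit 836) (nat_lit 192866528194) (nat_lit 127) (nat_lit 5) (nat_lit 126) (nat_lit 5) (nat_lit 137) (nat_lit 5) (nat_lit 490) (nat_lit 487) (nat_lit 223)) (XT.lf (nat_lit 0) (nat_lit 124065334499) (nat_lit 760) (nat_lit 106890530324) (nat_lit 836) (nat_lit 82055299814) (nat_lit 127) (nat_lit 5) (nat_lit 137) (nat_lit 5) (nat_lit 138) (nat_lit 5) (nat_lit 491) (nat_lit 487) (nat_lit 222)))) (XT.nd (nat_lit 156) (nat_lit 0) (nat_lit 76) (XT.nd (nat_lit 78) (nat_lit 0) (nat_lit 76) (XT.lf (nat_lit 76) (nat_lit 52755280447) (nat_lit 0) (nat_lit 85467482077) (nat_lit 836) (nat_lit 182837155179) (nat_lit 128) (nat_lit 5) (nat_lit 127) (nat_lit 5) (nat_lit 138) (nat_lit 5) (nat_lit 492) (nat_lit 487) (nat_lit 221)) (XT.lf (nat_lit 0) (nat_lit 155978607034) (nat_lit 760) (nat_lit 106406593054) (nat_lit 836) (nat_lit 66981381098) (nat_lit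 128) (nat_lit 5) (nat_lit 138) (nat_lit 5) (nat_lit 139) (nat_lit 5) (nat_lit 493) (nat_lit 487) (nat_lit 220))) (XT.nd (nat_lit 78) (nat_lit 0) (nat_lit 76) (XT.lf (nat_lit 76) (nat_lit 64241340983) (nat_lit 0) (nat_lit 112784956017) (nat_lit 836) (nat_lit 160942078194) (nat_lit 129) (nat_lit 5) (nat_lit 128) (nat_lit 5) (nat_lit 139) (nat_lit 5) (nat_lit 494) (nat_lit 487) (nat_lit 219)) (XT.lf (nat_lit 0) (nat_lit 201649495342) (nat_lit 760) (nat_lit 100515435554) (nat_lit 836) (nat_lit 44709171830) (nat_lit 129) (nat_lit 5) (nat_lit 139) (nat_lit 5) (nat_lit 140) (nat_lit 5) (nat_lit 495) (nat_lit 487) (nat_lit 218))))))) (XT.nd (nat_lit 1092) (nat_lit 1900) (nat_lit 0) (XT.nd (nat_lit 546) (nat_lit 1292) (nat_lit 0) (XT.nd (nat_lit 234) (nat_lit 836) (nat_lit 0) (XT.nd (nat_lit 78) (nat_lit 684) (nat_lit 0) (XT.lf (nat_lit 76) (nat_lit 82136665252) (nat_lit 0) (nat_lit 148498468637) (nat_lit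 836) (nat_lit 125433418744) (nat_lit 130) (nat_lit 5) (nat_lit 129) (nat_lit 5) (nat_lit 140) (nat_lit 5) (nat_lit 496) (nat_lit 487) (nat_lit 217)) (XT.nd (nat_lit 78) (nat_lit 760) (nat_lit 0) (XT.lf (nat_lit 0) (nat_lit 263000847597) (nat_lit 760) (nat_lit 88455154085) (nat_lit 76) (nat_lit 14170183706) (nat_lit 130) (nat_lit 5) (nat_lit 140) (nat_lit 5) (nat_lit 131) (nat_lit 5) (nat_lit 497) (nat_lit 487) (nat_lit 216)) (XT.lf (nat_lit 0) (nat_lit 107295097741) (nat_lit 760) (nat_lit 193799293673) (nat_lit 836) (nat_lit 74361831158) (nat_lit 120) (nat_lit 5) (nat_lit 130) (nat_lit 5) (nat_lit 131) (nat_lit 5) (nat_lit 498) (nat_lit 487) (nat_lit 215)))) (XT.nd (nat_lit 156) (nat_lit 456) (nat_lit 0) (XT.nd (nat_lit 78) (nat_lit 380) (nat_lit 0) (XT.lf (nat_lit 0) (nat_lit 315903795651) (nat_lit 760) (nat_lit 26686814885) (nat_lit 836) (nat_lit 43112251185) (nat_lit 120) (nat_lit 5) (nat_lit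 130) (nat_lit 5) (nat_lit 131) (nat_lit 5) (nat_lit 499) (nat_lit 487) (nat_lit 214)) (XT.lf (nat_lit 0) (nat_lit 140660176947) (nat_lit 380) (nat_lit 250020424973) (nat_lit 456) (nat_lit 5555282855) (nat_lit 115) (nat_lit 5) (nat_lit 120) (nat_lit 5) (nat_lit 121) (nat_lit 5) (nat_lit 500) (nat_lit 487) (nat_lit 213))) (XT.nd (nat_lit 78) (nat_lit 380) (nat_lit 0) (XT.lf (nat_lit 0) (nat_lit 34434094727) (nat_lit 456) (nat_lit 44156658930) (nat_lit 76) (nat_lit 328596411737) (nat_lit 114) (nat_lit 5) (nat_lit 120) (nat_lit 5) (nat_lit 115) (nat_lit 5) (nat_lit 501) (nat_lit 487) (nat_lit 212)) (XT.lf (nat_lit 0) (nat_lit 80734818900) (nat_lit 456) (nat_lit 236550703433) (nat_lit 76) (nat_lit 101171005626) (nat_lit 109) (nat_lit 5) (nat_lit 115) (nat_lit 5) (nat_lit 110) (nat_lit 5) (nat_lit 502) (nat_lit 487) (nat_lit 211))))) (XT.nd (nat_lit 234) (nat_lit 608) (nat_lit 0) (XT.nd (nat_lit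 78) (nat_lit 684) (nat_lit 0) (XT.lf (nat_lit 0) (nat_lit 131398997724) (nat_lit 456) (nat_lit 10748178507) (nat_lit 76) (nat_lit 288039761510) (nat_lit 109) (nat_lit 5) (nat_lit 115) (nat_lit 5) (nat_lit 110) (nat_lit 5) (nat_lit 503) (nat_lit 487) (nat_lit 210)) (XT.nd (nat_lit 78) (nat_lit 304) (nat_lit 0) (XT.lf (nat_lit 0) (nat_lit 188958727898) (nat_lit 456) (nat_lit 209204572294) (nat_lit 76) (nat_lit 44122450709) (nat_lit 104) (nat_lit 5) (nat_lit 110) (nat_lit 5) (nat_lit 105) (nat_lit 5) (nat_lit 504) (nat_lit 487) (nat_lit 209)) (XT.lf (nat_lit 0) (nat_lit 33224860712) (nat_lit 304) (nat_lit 219205582209) (nat_lit 380) (nat_lit 202407361889) (nat_lit 100) (nat_lit 5) (nat_lit 104) (nat_lit 5) (nat_lit 105) (nat_lit 5) (nat_lit 505) (nat_lit 487) (nat_lit 208)))) (XT.nd (nat_lit 156) (nat_lit 304) (nat_lit 0) (XT.nd (nat_lit 78) (nat_lit 304) (nat_lit 0) (XT.lf (nat_lit 0) (nat_lit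 295038846848) (nat_lit 304) (nat_lit 27579852242) (nat_lit 380) (nat_lit 145221614563) (nat_lit 100) (nat_lit 5) (nat_lit 104) (nat_lit 5) (nat_lit 105) (nat_lit 5) (nat_lit 506) (nat_lit 487) (nat_lit 207)) (XT.lf (nat_lit 0) (nat_lit 88574692389) (nat_lit 304) (nat_lit 311835357367) (nat_lit 380) (nat_lit 80878214106) (nat_lit 96) (nat_lit 5) (nat_lit 100) (nat_lit 5) (nat_lit 101) (nat_lit 5) (nat_lit 507) (nat_lit 487) (nat_lit 206))) (XT.nd (nat_lit 78) (nat_lit 304) (nat_lit 0) (XT.lf (nat_lit 0) (nat_lit 368551829939) (nat_lit 304) (nat_lit 116910427389) (nat_lit 380) (nat_lit 9777789792) (nat_lit 96) (nat_lit 5) (nat_lit 100) (nat_lit 5) (nat_lit 101) (nat_lit 5) (nat_lit 508) (nat_lit 487) (nat_lit 205)) (XT.lf (nat_lit 0) (nat_lit 66673602564) (nat_lit 304) (nat_lit 354504506275) (nat_lit 76) (nat_lit 88467042759) (nat_lit 92) (nat_lit 5) (nat_lit 96) (nat_lit 5) (nat_lit 93) (nat_lit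 5) (nat_lit 509) (nat_lit 487) (nat_lit 204)))))) (XT.nd (nat_lit 546) (nat_lit 836) (nat_lit 0) (XT.nd (nat_lit 234) (nat_lit 760) (nat_lit 0) (XT.nd (nat_lit 78) (nat_lit 304) (nat_lit 0) (XT.lf (nat_lit 0) (nat_lit 150716207799) (nat_lit 304) (nat_lit 71316011970) (nat_lit 76) (nat_lit 302525414899) (nat_lit 92) (nat_lit 5) (nat_lit 96) (nat_lit 5) (nat_lit 93) (nat_lit 5) (nat_lit 510) (nat_lit 487) (nat_lit 203)) (XT.nd (nat_lit 78) (nat_lit 0) (nat_lit 0) (XT.lf (nat_lit 0) (nat_lit 233505514951) (nat_lit 304) (nat_lit 9101082793) (nat_lit 380) (nat_lit 297426861431) (nat_lit 88) (nat_lit 5) (nat_lit 92) (nat_lit 5) (nat_lit 93) (nat_lit 5) (nat_lit 511) (nat_lit 487) (nat_lit 202)) (XT.lf (nat_lit 0) (nat_lit 343667638313) (nat_lit 380) (nat_lit 3547045076) (nat_lit 76) (nat_lit 208839584970) (nat_lit 88) (nat_lit 5) (nat_lit 93) (nat_lit 5) (nat_lit 89) (nat_lit 5) (nat_lit 512) (nat_lit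 487) (nat_lit 201)))) (XT.nd (nat_lit 156) (nat_lit 304) (nat_lit 0) (XT.nd (nat_lit 78) (nat_lit 228) (nat_lit 0) (XT.lf (nat_lit 0) (nat_lit 324830272221) (nat_lit 228) (nat_lit 130172148088) (nat_lit 304) (nat_lit 117612663226) (nat_lit 85) (nat_lit 5) (nat_lit 88) (nat_lit 5) (nat_lit 89) (nat_lit 5) (nat_lit 513) (nat_lit 487) (nat_lit 200)) (XT.lf (nat_lit 0) (nat_lit 80808301602) (nat_lit 228) (nat_lit 493944042726) (nat_lit 304) (nat_lit 15109175002) (nat_lit 82) (nat_lit 5) (nat_lit 85) (nat_lit 5) (nat_lit 86) (nat_lit 5) (nat_lit 514) (nat_lit 487) (nat_lit 199))) (XT.nd (nat_lit 78) (nat_lit 228) (nat_lit 0) (XT.lf (nat_lit 0) (nat_lit 95957385323) (nat_lit 304) (nat_lit 176974137360) (nat_lit 76) (nat_lit 334646574859) (nat_lit 81) (nat_lit 5) (nat_lit 85) (nat_lit 5) (nat_lit 82) (nat_lit 5) (nat_lit 515) (nat_lit 487) (nat_lit 198)) (XT.lf (nat_lit 0) (nat_lit 177130461179) (nat_lit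 228) (nat_lit 37704529998) (nat_lit 304) (nat_lit 411194854677) (nat_lit 78) (nat_lit 5) (nat_lit 81) (nat_lit 5) (nat_lit 82) (nat_lit 5) (nat_lit 516) (nat_lit 487) (nat_lit 197))))) (XT.nd (nat_lit 312) (nat_lit 380) (nat_lit 0) (XT.nd (nat_lit 156) (nat_lit 228) (nat_lit 0) (XT.nd (nat_lit 78) (nat_lit 228) (nat_lit 0) (XT.lf (nat_lit 0) (nat_lit 345970242601) (nat_lit 304) (nat_lit 93486558459) (nat_lit 76) (nat_lit 205631692264) (nat_lit 78) (nat_lit 5) (nat_lit 82) (nat_lit 5) (nat_lit 79) (nat_lit 5) (nat_lit 517) (nat_lit 487) (nat_lit 196)) (XT.lf (nat_lit 0) (nat_lit 288306382216) (nat_lit 228) (nat_lit 200475235190) (nat_lit 304) (nat_lit 176062487725) (nat_lit 75) (nat_lit 5) (nat_lit 78) (nat_lit 5) (nat_lit 79) (nat_lit 5) (nat_lit 518) (nat_lit 487) (nat_lit 195))) (XT.nd (nat_lit 78) (nat_lit 76) (nat_lit 0) (XT.lf (nat_lit 0) (nat_lit 6314655068) (nat_lit 152) (nat_lit 634914423999)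 (nat_lit 228) (nat_lit 44233642559) (nat_lit 73) (nat_lit 5) (nat_lit 75) (nat_lit 5) (nat_lit 76) (nat_lit 5) (nat_lit 519) (nat_lit 487) (nat_lit 194)) (XT.lf (nat_lit 0) (nat_lit 100939933919) (nat_lit 228) (nat_lit 290272795321) (nat_lit 76) (nat_lit 315337621339) (nat_lit 72) (nat_lit 5) (nat_lit 75) (nat_lit 5) (nat_lit 73) (nat_lit 5) (nat_lit 520) (nat_lit 487) (nat_lit 193)))) (XT.nd (nat_lit 156) (nat_lit 152) (nat_lit 0) (XT.nd (nat_lit 78) (nat_lit 0) (nat_lit 0) (XT.lf (nat_lit 0) (nat_lit 121200238532) (nat_lit 228) (nat_lit 132577670009) (nat_lit 304) (nat_lit 474783582371) (nat_lit 69) (nat_lit 5) (nat_lit 72) (nat_lit 5) (nat_lit 73) (nat_lit 5) (nat_lit 521) (nat_lit 487) (nat_lit 192)) (XT.lf (nat_lit 0) (nat_lit 421424275487) (nat_lit 304) (nat_lit 190353475450) (nat_lit 76) (nat_lit 139537112648) (nat_lit 69) (nat_lit 5) (nat_lit 73) (nat_lit 5) (nat_lit 70) (nat_lit 5)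 (nat_lit 522) (nat_lit 487) (nat_lit 191))) (XT.nd (nat_lit 78) (nat_lit 0) (nat_lit 0) (XT.lf (nat_lit 0) (nat_lit 253443022487) (nat_lit 152) (nat_lit 350140283935) (nat_lit 228) (nat_lit 171316081192) (nat_lit 67) (nat_lit 5) (nat_lit 69) (nat_lit 5) (nat_lit 70) (nat_lit 5) (nat_lit 523) (nat_lit 487) (nat_lit 190)) (XT.lf (nat_lit 0) (nat_lit 726037965615) (nat_lit 152) (nat_lit 72036037209) (nat_lit 228) (nat_lit 1427949326) (nat_lit 67) (nat_lit 5) (nat_lit 69) (nat_lit 5) (nat_lit 70) (nat_lit 5) (nat_lit 524) (nat_lit 487) (nat_lit 189))))))))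
noncomputable def xc243 : XT := (XT.nd (nat_lit 61230) (nat_lit 0) (nat_lit 0) (XT.nd (nat_lit 60138) (nat_lit 0) (nat_lit 2964) (XT.nd (nat_lit 59592) (nat_lit 0) (nat_lit 5168) (XT.nd (nat_lit 234) (nat_lit 380) (nat_lit 0) (XT.nd (nat_lit 78) (nat_lit 152) (nat_lit 0) (XT.lf (nat_lit 0) (nat_lit 181232341016) (nat_lit 228) (nat_lit 421264431831) (nat_lit 76) (nat_lit 222202664025) (nat_lit 64) (nat_lit 5) (nat_lit 67) (nat_lit 5) (nat_lit 65) (nat_lit 5) (nat_lit 525) (nat_lit 487) (nat_lit 188)) (XT.nd (nat_lit 78) (nat_lit 0) (nat_lit 0) (XT.lf (nat_lit 0) (nat_lit 56209160005) (nat_lit 152) (nat_lit 320091528954) (nat_lit 228) (nat_lit 474688784844) (nat_lit 62) (nat_lit 5) (nat_lit 64) (nat_lit 5) (nat_lit 65) (nat_lit 5) (nat_lit 526) (nat_lit 487) (nat_lit 187)) (XT.lf (nat_lit 0) (nat_lit 572181759491) (nat_lit 152) (nat_lit 16074998467) (nat_lit 228) (nat_lit 289980539444) (nat_lit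 62) (nat_lit 5) (nat_lit 64) (nat_lit 5) (nat_lit 65) (nat_lit 5) (nat_lit 527) (nat_lit 487) (nat_lit 186)))) (XT.nd (nat_lit 156) (nat_lit 152) (nat_lit 0) (XT.nd (nat_lit 78) (nat_lit 76) (nat_lit 0) (XT.lf (nat_lit 0) (nat_lit 209063904317) (nat_lit 152) (nat_lit 609743688487) (nat_lit 228) (nat_lit 87640071259) (nat_lit 60) (nat_lit 5) (nat_lit 62) (nat_lit 5) (nat_lit 63) (nat_lit 5) (nat_lit 528) (nat_lit 487) (nat_lit 185)) (XT.lf (nat_lit 0) (nat_lit 126354164297) (nat_lit 228) (nat_lit 177541779381) (nat_lit 76) (nat_lit 631798583848) (nat_lit 59) (nat_lit 5) (nat_lit 62) (nat_lit 5) (nat_lit 60) (nat_lit 5) (nat_lit 529) (nat_lit 487) (nat_lit 184))) (XT.nd (nat_lit 78) (nat_lit 0) (nat_lit 0) (XT.lf (nat_lit 0) (nat_lit 354409626744) (nat_lit 228) (nat_lit 587440371914) (nat_lit 76) (nat_lit 24166559573) (nat_lit 57) (nat_lit 5) (nat_lit 60) (nat_lit 5) (nat_lit 58) (nat_lit 5)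 (nat_lit 530) (nat_lit 487) (nat_lit 183)) (XT.lf (nat_lit 0) (nat_lit 601905798051) (nat_lit 228) (nat_lit 34071664945) (nat_lit 76) (nat_lit 361475330691) (nat_lit 57) (nat_lit 5) (nat_lit 60) (nat_lit 5) (nat_lit 58) (nat_lit 5) (nat_lit 531) (nat_lit 487) (nat_lit 182))))) (XT.nd (nat_lit 234) (nat_lit 0) (nat_lit 76) (XT.nd (nat_lit 78) (nat_lit 0) (nat_lit 0) (XT.lf (nat_lit 0) (nat_lit 49765241508) (nat_lit 836) (nat_lit 49516265133) (nat_lit 836) (nat_lit 49516265133) (nat_lit 125) (nat_lit 3) (nat_lit 136) (nat_lit 3) (nat_lit 136) (nat_lit 5) (nat_lit 488) (nat_lit 488) (nat_lit 224)) (XT.nd (nat_lit 78) (nat_lit 0) (nat_lit 76) (XT.lf (nat_lit 76) (nat_lit 48300753405) (nat_lit 0) (nat_lit 54472824611) (nat_lit 836) (nat_lit 202224112194) (nat_lit 126) (nat_lit 5) (nat_lit 125) (nat_lit 3) (nat_lit 136) (nat_lit 5) (nat_lit 489) (nat_lit 488) (nat_lit 223)) (XT.lf (nat_lit 0) (nat_lit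 109395100540) (nat_lit 760) (nat_lit 107786381992) (nat_lit 836) (nat_lit 95427648052) (nat_lit 126) (nat_lit 5) (nat_lit 136) (nat_lit 5) (nat_lit 137) (nat_lit 5) (nat_lit 490) (nat_lit 488) (nat_lit 222)))) (XT.nd (nat_lit 156) (nat_lit 0) (nat_lit 76) (XT.nd (nat_lit 78) (nat_lit 0) (nat_lit 76) (XT.lf (nat_lit 76) (nat_lit 49253083224) (nat_lit 0) (nat_lit 68756547632) (nat_lit 836) (nat_lit 202508415554) (nat_lit 127) (nat_lit 5) (nat_lit 126) (nat_lit 5) (nat_lit 137) (nat_lit 5) (nat_lit 491) (nat_lit 488) (nat_lit 221)) (XT.lf (nat_lit 0) (nat_lit 130269898140) (nat_lit 760) (nat_lit 112234182323) (nat_lit 836) (nat_lit 86157577058) (nat_lit 127) (nat_lit 5) (nat_lit 137) (nat_lit 5) (nat_lit 138) (nat_lit 5) (nat_lit 492) (nat_lit 488) (nat_lit 220))) (XT.nd (nat_lit 78) (nat_lit 0) (nat_lit 76) (XT.lf (nat_lit 76) (nat_lit 55393904882) (nat_lit 0) (nat_lit 89741244360) (nat_lit 836)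 (nat_lit 191977701439) (nat_lit 128) (nat_lit 5) (nat_lit 127) (nat_lit 5) (nat_lit 138) (nat_lit 5) (nat_lit 493) (nat_lit 488) (nat_lit 219)) (XT.lf (nat_lit 0) (nat_lit 163778720748) (nat_lit 760) (nat_lit 111726037582) (nat_lit 836) (nat_lit 70330092291) (nat_lit 128) (nat_lit 5) (nat_lit 138) (nat_lit 5) (nat_lit 139) (nat_lit 5) (nat_lit 494) (nat_lit 488) (nat_lit 218)))))) (XT.nd (nat_lit 546) (nat_lit 1444) (nat_lit 0) (XT.nd (nat_lit 234) (nat_lit 988) (nat_lit 0) (XT.nd (nat_lit 78) (nat_lit 0) (nat_lit 76) (XT.lf (nat_lit 76) (nat_lit 67454278881) (nat_lit 0) (nat_lit 118424473579) (nat_lit 836) (nat_lit 168987984031) (nat_lit 129) (nat_lit 5) (nat_lit 128) (nat_lit 5) (nat_lit 139) (nat_lit 5) (nat_lit 495) (nat_lit 488) (nat_lit 217)) (XT.nd (nat_lit 78) (nat_lit 0) (nat_lit 0) (XT.lf (nat_lit 0) (nat_lit 211733052392) (nat_lit 760) (nat_lit 105540319214) (nat_lit 836) (nat_lit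 46944381729) (nat_lit 129) (nat_lit 5) (nat_lit 139) (nat_lit 5) (nat_lit 140) (nat_lit 5) (nat_lit 496) (nat_lit 488) (nat_lit 216)) (XT.lf (nat_lit 76) (nat_lit 86244372308) (nat_lit 0) (nat_lit 155923562663) (nat_lit 836) (nat_lit 131703992681) (nat_lit 130) (nat_lit 5) (nat_lit 129) (nat_lit 5) (nat_lit 140) (nat_lit 5) (nat_lit 497) (nat_lit 488) (nat_lit 215)))) (XT.nd (nat_lit 156) (nat_lit 380) (nat_lit 0) (XT.nd (nat_lit 78) (nat_lit 760) (nat_lit 0) (XT.lf (nat_lit 0) (nat_lit 276151882095) (nat_lit 760) (nat_lit 92877026961) (nat_lit 76) (nat_lit 14878535621) (nat_lit 130) (nat_lit 5) (nat_lit 140) (nat_lit 5) (nat_lit 131) (nat_lit 5) (nat_lit 498) (nat_lit 488) (nat_lit 214)) (XT.lf (nat_lit 0) (nat_lit 112660723185) (nat_lit 760) (nat_lit 203489346267) (nat_lit 836) (nat_lit 78078915969) (nat_lit 120) (nat_lit 5) (nat_lit 130) (nat_lit 5) (nat_lit 131) (nat_lit 5) (nat_lit 499)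 (nat_lit 488) (nat_lit 213))) (XT.nd (nat_lit 78) (nat_lit 380) (nat_lit 0) (XT.lf (nat_lit 0) (nat_lit 331699814536) (nat_lit 760) (nat_lit 28021239353) (nat_lit 836) (nat_lit 45266904939) (nat_lit 120) (nat_lit 5) (nat_lit 130) (nat_lit 5) (nat_lit 131) (nat_lit 5) (nat_lit 500) (nat_lit 488) (nat_lit 212)) (XT.lf (nat_lit 0) (nat_lit 147694048049) (nat_lit 380) (nat_lit 262521465542) (nat_lit 456) (nat_lit 5832121021) (nat_lit 115) (nat_lit 5) (nat_lit 120) (nat_lit 5) (nat_lit 121) (nat_lit 5) (nat_lit 501) (nat_lit 488) (nat_lit 211))))) (XT.nd (nat_lit 234) (nat_lit 988) (nat_lit 0) (XT.nd (nat_lit 78) (nat_lit 380) (nat_lit 0) (XT.lf (nat_lit 0) (nat_lit 36156653120) (nat_lit 456) (nat_lit 46363642162) (nat_lit 76) (nat_lit 345026185404) (nat_lit 114) (nat_lit 5) (nat_lit 120) (nat_lit 5) (nat_lit 115) (nat_lit 5) (nat_lit 502) (nat_lit 488) (nat_lit 210)) (XT.nd (nat_lit 78) (nat_lit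 0) (nat_lit 0) (XT.lf (nat_lit 0) (nat_lit 84772386060) (nat_lit 456) (nat_lit 248377361168) (nat_lit 76) (nat_lit 106229565539) (nat_lit 109) (nat_lit 5) (nat_lit 115) (nat_lit 5) (nat_lit 110) (nat_lit 5) (nat_lit 503) (nat_lit 488) (nat_lit 209)) (XT.lf (nat_lit 0) (nat_lit 137969734481) (nat_lit 456) (nat_lit 11284751778) (nat_lit 76) (nat_lit 302441758759) (nat_lit 109) (nat_lit 5) (nat_lit 115) (nat_lit 5) (nat_lit 110) (nat_lit 5) (nat_lit 504) (nat_lit 488) (nat_lit 208)))) (XT.nd (nat_lit 156) (nat_lit 304) (nat_lit 0) (XT.nd (nat_lit 78) (nat_lit 304) (nat_lit 0) (XT.lf (nat_lit 0) (nat_lit 198407427466) (nat_lit 456) (nat_lit 219663941303) (nat_lit 76) (nat_lit 46328631265) (nat_lit 104) (nat_lit 5) (nat_lit 110) (nat_lit 5) (nat_lit 105) (nat_lit 5) (nat_lit 505) (nat_lit 488) (nat_lit 207)) (XT.lf (nat_lit 0) (nat_lit 34886949488) (nat_lit 304) (nat_lit 230165755614) (nat_lit 380)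 (nat_lit 212526952705) (nat_lit 100) (nat_lit 5) (nat_lit 104) (nat_lit 5) (nat_lit 105) (nat_lit 5) (nat_lit 506) (nat_lit 488) (nat_lit 206))) (XT.nd (nat_lit 78) (nat_lit 304) (nat_lit 0) (XT.lf (nat_lit 0) (nat_lit 309791594658) (nat_lit 304) (nat_lit 28958744183) (nat_lit 380) (nat_lit 152481955025) (nat_lit 100) (nat_lit 5) (nat_lit 104) (nat_lit 5) (nat_lit 105) (nat_lit 5) (nat_lit 507) (nat_lit 488) (nat_lit 205)) (XT.lf (nat_lit 0) (nat_lit 93004252836) (nat_lit 304) (nat_lit 327426985033) (nat_lit 380) (nat_lit 84921404686) (nat_lit 96) (nat_lit 5) (nat_lit 100) (nat_lit 5) (nat_lit 101) (nat_lit 5) (nat_lit 508) (nat_lit 488) (nat_lit 204))))))) (XT.nd (nat_lit 1092) (nat_lit 912) (nat_lit 0) (XT.nd (nat_lit 546) (nat_lit 988) (nat_lit 0) (XT.nd (nat_lit 234) (nat_lit 760) (nat_lit 0) (XT.nd (nat_lit 78) (nat_lit 304) (nat_lit 0) (XT.lf (nat_lit 0) (nat_lit 386980207938) (nat_lit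 304) (nat_lit 122755815233) (nat_lit 380) (nat_lit 10265993448) (nat_lit 96) (nat_lit 5) (nat_lit 100) (nat_lit 5) (nat_lit 101) (nat_lit 5) (nat_lit 509) (nat_lit 488) (nat_lit 203)) (XT.nd (nat_lit 78) (nat_lit 0) (nat_lit 0) (XT.lf (nat_lit 0) (nat_lit 70007929739) (nat_lit 304) (nat_lit 372228905912) (nat_lit 76) (nat_lit 92890540985) (nat_lit 92) (nat_lit 5) (nat_lit 96) (nat_lit 5) (nat_lit 93) (nat_lit 5) (nat_lit 510) (nat_lit 488) (nat_lit 202)) (XT.lf (nat_lit 0) (nat_lit 158252634424) (nat_lit 304) (nat_lit 74881026210) (nat_lit 76) (nat_lit 317651824775) (nat_lit 92) (nat_lit 5) (nat_lit 96) (nat_lit 5) (nat_lit 93) (nat_lit 5) (nat_lit 511) (nat_lit 488) (nat_lit 201)))) (XT.nd (nat_lit 156) (nat_lit 456) (nat_lit 0) (XT.nd (nat_lit 78) (nat_lit 0) (nat_lit 0) (XT.lf (nat_lit 0) (nat_lit 245181564374) (nat_lit 304) (nat_lit 9555962228) (nat_lit 380) (nat_lit 312297575413) (nat_lit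 88) (nat_lit 5) (nat_lit 92) (nat_lit 5) (nat_lit 93) (nat_lit 5) (nat_lit 512) (nat_lit 488) (nat_lit 200)) (XT.lf (nat_lit 0) (nat_lit 360851593274) (nat_lit 380) (nat_lit 3723634408) (nat_lit 76) (nat_lit 219281725279) (nat_lit 88) (nat_lit 5) (nat_lit 93) (nat_lit 5) (nat_lit 89) (nat_lit 5) (nat_lit 513) (nat_lit 488) (nat_lit 199))) (XT.nd (nat_lit 78) (nat_lit 228) (nat_lit 0) (XT.lf (nat_lit 0) (nat_lit 341072536449) (nat_lit 228) (nat_lit 136680562352) (nat_lit 304) (nat_lit 123492710881) (nat_lit 85) (nat_lit 5) (nat_lit 88) (nat_lit 5) (nat_lit 89) (nat_lit 5) (nat_lit 514) (nat_lit 488) (nat_lit 198)) (XT.lf (nat_lit 0) (nat_lit 84849479803) (nat_lit 228) (nat_lit 518641027458) (nat_lit 304) (nat_lit 15864060602) (nat_lit 82) (nat_lit 5) (nat_lit 85) (nat_lit 5) (nat_lit 86) (nat_lit 5) (nat_lit 515) (nat_lit 488) (nat_lit 197))))) (XT.nd (nat_lit 234) (nat_lit 684) (nat_lit 0)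 (XT.nd (nat_lit 78) (nat_lit 228) (nat_lit 0) (XT.lf (nat_lit 0) (nat_lit 100755782977) (nat_lit 304) (nat_lit 185822099841) (nat_lit 76) (nat_lit 351379093048) (nat_lit 81) (nat_lit 5) (nat_lit 85) (nat_lit 5) (nat_lit 82) (nat_lit 5) (nat_lit 516) (nat_lit 488) (nat_lit 196)) (XT.nd (nat_lit 78) (nat_lit 0) (nat_lit 0) (XT.lf (nat_lit 0) (nat_lit 185987716619) (nat_lit 228) (nat_lit 39589538777) (nat_lit 304) (nat_lit 431754056890) (nat_lit 78) (nat_lit 5) (nat_lit 81) (nat_lit 5) (nat_lit 82) (nat_lit 5) (nat_lit 517) (nat_lit 488) (nat_lit 195)) (XT.lf (nat_lit 0) (nat_lit 363269248121) (nat_lit 304) (nat_lit 98160167484) (nat_lit 76) (nat_lit 215913477594) (nat_lit 78) (nat_lit 5) (nat_lit 82) (nat_lit 5) (nat_lit 79) (nat_lit 5) (nat_lit 518) (nat_lit 488) (nat_lit 194)))) (XT.nd (nat_lit 156) (nat_lit 304) (nat_lit 0) (XT.nd (nat_lit 78) (nat_lit 152) (nat_lit 0) (XT.lf (nat_lit 0) (nat_lit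 302722408629) (nat_lit 228) (nat_lit 210498770585) (nat_lit 304) (nat_lit 184865107010) (nat_lit 75) (nat_lit 5) (nat_lit 78) (nat_lit 5) (nat_lit 79) (nat_lit 5) (nat_lit 519) (nat_lit 488) (nat_lit 193)) (XT.lf (nat_lit 0) (nat_lit 6631104012) (nat_lit 152) (nat_lit 666659901592) (nat_lit 228) (nat_lit 46444828363) (nat_lit 73) (nat_lit 5) (nat_lit 75) (nat_lit 5) (nat_lit 76) (nat_lit 5) (nat_lit 520) (nat_lit 488) (nat_lit 192))) (XT.nd (nat_lit 78) (nat_lit 228) (nat_lit 0) (XT.lf (nat_lit 0) (nat_lit 105987388176) (nat_lit 228) (nat_lit 304785737772) (nat_lit 76) (nat_lit 331104719183) (nat_lit 72) (nat_lit 5) (nat_lit 75) (nat_lit 5) (nat_lit 73) (nat_lit 5) (nat_lit 521) (nat_lit 488) (nat_lit 191)) (XT.lf (nat_lit 0) (nat_lit 127260936528) (nat_lit 228) (nat_lit 139206313924) (nat_lit 304) (nat_lit 498522292587) (nat_lit 69) (nat_lit 5) (nat_lit 72) (nat_lit 5) (nat_lit 73) (nat_lit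 5) (nat_lit 522) (nat_lit 488) (nat_lit 190)))))) (XT.nd (nat_lit 546) (nat_lit 228) (nat_lit 0) (XT.nd (nat_lit 234) (nat_lit 532) (nat_lit 0) (XT.nd (nat_lit 78) (nat_lit 152) (nat_lit 0) (XT.lf (nat_lit 0) (nat_lit 442495918046) (nat_lit 304) (nat_lit 199870478034) (nat_lit 76) (nat_lit 146514189154) (nat_lit 69) (nat_lit 5) (nat_lit 73) (nat_lit 5) (nat_lit 70) (nat_lit 5) (nat_lit 523) (nat_lit 488) (nat_lit 189)) (XT.nd (nat_lit 78) (nat_lit 0) (nat_lit 0) (XT.lf (nat_lit 0) (nat_lit 266115833974) (nat_lit 152) (nat_lit 367647056445) (nat_lit 228) (nat_lit 179881445554) (nat_lit 67) (nat_lit 5) (nat_lit 69) (nat_lit 5) (nat_lit 70) (nat_lit 5) (nat_lit 524) (nat_lit 488) (nat_lit 188)) (XT.lf (nat_lit 0) (nat_lit 762340492813) (nat_lit 152) (nat_lit 75637608892) (nat_lit 228) (nat_lit 1498928034) (nat_lit 67) (nat_lit 5) (nat_lit 69) (nat_lit 5) (nat_lit 70) (nat_lit 5) (nat_lit 525)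 (nat_lit 488) (nat_lit 187)))) (XT.nd (nat_lit 156) (nat_lit 152) (nat_lit 0) (XT.nd (nat_lit 78) (nat_lit 152) (nat_lit 0) (XT.lf (nat_lit 0) (nat_lit 190294357674) (nat_lit 228) (nat_lit 442327005200) (nat_lit 76) (nat_lit 233313025785) (nat_lit 64) (nat_lit 5) (nat_lit 67) (nat_lit 5) (nat_lit 65) (nat_lit 5) (nat_lit 526) (nat_lit 488) (nat_lit 186)) (XT.lf (nat_lit 0) (nat_lit 59020255772) (nat_lit 152) (nat_lit 336095858171) (nat_lit 228) (nat_lit 498422813952) (nat_lit 62) (nat_lit 5) (nat_lit 64) (nat_lit 5) (nat_lit 65) (nat_lit 5) (nat_lit 527) (nat_lit 488) (nat_lit 185))) (XT.nd (nat_lit 78) (nat_lit 152) (nat_lit 0) (XT.lf (nat_lit 0) (nat_lit 600791454862) (nat_lit 152) (nat_lit 16878512933) (nat_lit 228) (nat_lit 304479175812) (nat_lit 62) (nat_lit 5) (nat_lit 64) (nat_lit 5) (nat_lit 65) (nat_lit 5) (nat_lit 528) (nat_lit 488) (nat_lit 184)) (XT.lf (nat_lit 0) (nat_lit 219517711880)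 (nat_lit 152) (nat_lit 640230627854) (nat_lit 228) (nat_lit 92021689103) (nat_lit 60) (nat_lit 5) (nat_lit 62) (nat_lit 5) (nat_lit 63) (nat_lit 5) (nat_lit 529) (nat_lit 488) (nat_lit 183))))) (XT.nd (nat_lit 59436) (nat_lit 0) (nat_lit 5244) (XT.nd (nat_lit 59280) (nat_lit 0) (nat_lit 5168) (XT.nd (nat_lit 78) (nat_lit 152) (nat_lit 0) (XT.lf (nat_lit 0) (nat_lit 132672228105) (nat_lit 228) (nat_lit 186418273346) (nat_lit 76) (nat_lit 663388734613) (nat_lit 59) (nat_lit 5) (nat_lit 62) (nat_lit 5) (nat_lit 60) (nat_lit 5) (nat_lit 530) (nat_lit 488) (nat_lit 182)) (XT.lf (nat_lit 0) (nat_lit 372130459591) (nat_lit 228) (nat_lit 616811791367) (nat_lit 76) (nat_lit 25375117554) (nat_lit 57) (nat_lit 5) (nat_lit 60) (nat_lit 5) (nat_lit 58) (nat_lit 5) (nat_lit 531) (nat_lit 488) (nat_lit 181))) (XT.nd (nat_lit 78) (nat_lit 0) (nat_lit 0) (XT.lf (nat_lit 0) (nat_lit 52254215100) (nat_lit 836)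 (nat_lit 51991704705) (nat_lit 836) (nat_lit 51991704705) (nat_lit 125) (nat_lit 3) (nat_lit 136) (nat_lit 3) (nat_lit 136) (nat_lit 5) (nat_lit 489) (nat_lit 489) (nat_lit 222)) (XT.lf (nat_lit 76) (nat_lit 50716526391) (nat_lit 0) (nat_lit 57197097277) (nat_lit 836) (nat_lit 212333882188) (nat_lit 126) (nat_lit 5) (nat_lit 125) (nat_lit 3) (nat_lit 136) (nat_lit 5) (nat_lit 490) (nat_lit 489) (nat_lit 221)))) (XT.nd (nat_lit 156) (nat_lit 0) (nat_lit 76) (XT.nd (nat_lit 78) (nat_lit 0) (nat_lit 0) (XT.lf (nat_lit 0) (nat_lit 114866147845) (nat_lit 760) (nat_lit 113174925816) (nat_lit 836) (nat_lit 100198448336) (nat_lit 126) (nat_lit 5) (nat_lit 136) (nat_lit 5) (nat_lit 137) (nat_lit 5) (nat_lit 491) (nat_lit 489) (nat_lit 220)) (XT.lf (nat_lit 76) (nat_lit 51716500156) (nat_lit 0) (nat_lit 72194854894) (nat_lit 836) (nat_lit 212632531070) (nat_lit 127) (nat_lit 5) (nat_lit 126) (nat_lit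 5) (nat_lit 137) (nat_lit 5) (nat_lit 492) (nat_lit 489) (nat_lit 219))) (XT.nd (nat_lit 78) (nat_lit 0) (nat_lit 0) (XT.lf (nat_lit 0) (nat_lit 136784569388) (nat_lit 760) (nat_lit 117845098226) (nat_lit 836) (nat_lit 90465013511) (nat_lit 127) (nat_lit 5) (nat_lit 137) (nat_lit 5) (nat_lit 138) (nat_lit 5) (nat_lit 493) (nat_lit 489) (nat_lit 218)) (XT.lf (nat_lit 76) (nat_lit 58164380545) (nat_lit 0) (nat_lit 94228658668) (nat_lit 836) (nat_lit 201575396943) (nat_lit 128) (nat_lit 5) (nat_lit 127) (nat_lit 5) (nat_lit 138) (nat_lit 5) (nat_lit 494) (nat_lit 489) (nat_lit 217))))))))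
noncomputable def xc244 : XT := (XT.nd (nat_lit 2184) (nat_lit 988) (nat_lit 0) (XT.nd (nat_lit 1092) (nat_lit 2128) (nat_lit 0) (XT.nd (nat_lit 546) (nat_lit 1520) (nat_lit 0) (XT.nd (nat_lit 234) (nat_lit 608) (nat_lit 0) (XT.nd (nat_lit 78) (nat_lit 0) (nat_lit 0) (XT.lf (nat_lit 0) (nat_lit 171968730130) (nat_lit 760) (nat_lit 117311536628) (nat_lit 836) (nat_lit 73846272314) (nat_lit 128) (nat_lit 5) (nat_lit 138) (nat_lit 5) (nat_lit 139) (nat_lit 5) (nat_lit 495) (nat_lit 489) (nat_lit 216)) (XT.nd (nat_lit 78) (nat_lit 0) (nat_lit 76) (XT.lf (nat_lit 76) (nat_lit 70827782709) (nat_lit 0) (nat_lit 124345941938) (nat_lit 836) (nat_lit 177436296546) (nat_lit 129) (nat_lit 5) (nat_lit 128) (nat_lit 5) (nat_lit 139) (nat_lit 5) (nat_lit 496) (nat_lit 489) (nat_lit 215)) (XT.lf (nat_lit 0) (nat_lit 222320686674) (nat_lit 760) (nat_lit 110816529625) (nat_lit 836) (nat_lit 49291375245) (nat_lit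 129) (nat_lit 5) (nat_lit 139) (nat_lit 5) (nat_lit 140) (nat_lit 5) (nat_lit 497) (nat_lit 489) (nat_lit 214)))) (XT.nd (nat_lit 156) (nat_lit 684) (nat_lit 0) (XT.nd (nat_lit 78) (nat_lit 0) (nat_lit 76) (XT.lf (nat_lit 76) (nat_lit 90557383480) (nat_lit 0) (nat_lit 163719895530) (nat_lit 836) (nat_lit 138288197303) (nat_lit 130) (nat_lit 5) (nat_lit 129) (nat_lit 5) (nat_lit 140) (nat_lit 5) (nat_lit 498) (nat_lit 489) (nat_lit 213)) (XT.lf (nat_lit 0) (nat_lit 289960376081) (nat_lit 760) (nat_lit 97520075744) (nat_lit 76) (nat_lit 15622319753) (nat_lit 130) (nat_lit 5) (nat_lit 140) (nat_lit 5) (nat_lit 131) (nat_lit 5) (nat_lit 499) (nat_lit 489) (nat_lit 212))) (XT.nd (nat_lit 78) (nat_lit 0) (nat_lit 0) (XT.lf (nat_lit 0) (nat_lit 118294548965) (nat_lit 760) (nat_lit 213663893316) (nat_lit 836) (nat_lit 81981948619) (nat_lit 120) (nat_lit 5) (nat_lit 130) (nat_lit 5) (nat_lit 131) (nat_lit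 5) (nat_lit 500) (nat_lit 489) (nat_lit 211)) (XT.lf (nat_lit 0) (nat_lit 348285557282) (nat_lit 760) (nat_lit 29422377260) (nat_lit 836) (nat_lit 47529380520) (nat_lit 120) (nat_lit 5) (nat_lit 130) (nat_lit 5) (nat_lit 131) (nat_lit 5) (nat_lit 501) (nat_lit 489) (nat_lit 210))))) (XT.nd (nat_lit 234) (nat_lit 684) (nat_lit 0) (XT.nd (nat_lit 78) (nat_lit 456) (nat_lit 0) (XT.lf (nat_lit 0) (nat_lit 155079532542) (nat_lit 380) (nat_lit 275647556342) (nat_lit 456) (nat_lit 6122887183) (nat_lit 115) (nat_lit 5) (nat_lit 120) (nat_lit 5) (nat_lit 121) (nat_lit 5) (nat_lit 502) (nat_lit 489) (nat_lit 209)) (XT.nd (nat_lit 78) (nat_lit 380) (nat_lit 0) (XT.lf (nat_lit 0) (nat_lit 37965260068) (nat_lit 456) (nat_lit 48681053554) (nat_lit 76) (nat_lit 362277452118) (nat_lit 114) (nat_lit 5) (nat_lit 120) (nat_lit 5) (nat_lit 115) (nat_lit 5) (nat_lit 503) (nat_lit 489) (nat_lit 208)) (XT.lf (nat_lit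 0) (nat_lit 89011754764) (nat_lit 456) (nat_lit 260795433366) (nat_lit 76) (nat_lit 111541052552) (nat_lit 109) (nat_lit 5) (nat_lit 115) (nat_lit 5) (nat_lit 110) (nat_lit 5) (nat_lit 504) (nat_lit 489) (nat_lit 207)))) (XT.nd (nat_lit 156) (nat_lit 304) (nat_lit 0) (XT.nd (nat_lit 78) (nat_lit 380) (nat_lit 0) (XT.lf (nat_lit 0) (nat_lit 144868934921) (nat_lit 456) (nat_lit 11848231404) (nat_lit 76) (nat_lit 317563855017) (nat_lit 109) (nat_lit 5) (nat_lit 115) (nat_lit 5) (nat_lit 110) (nat_lit 5) (nat_lit 505) (nat_lit 489) (nat_lit 206)) (XT.lf (nat_lit 0) (nat_lit 208328491060) (nat_lit 456) (nat_lit 230646358681) (nat_lit 76) (nat_lit 48645115454) (nat_lit 104) (nat_lit 5) (nat_lit 110) (nat_lit 5) (nat_lit 105) (nat_lit 5) (nat_lit 506) (nat_lit 489) (nat_lit 205))) (XT.nd (nat_lit 78) (nat_lit 0) (nat_lit 0) (XT.lf (nat_lit 0) (nat_lit 36632064075) (nat_lit 304) (nat_lit 241673947518)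 (nat_lit 380) (nat_lit 223152595324) (nat_lit 100) (nat_lit 5) (nat_lit 104) (nat_lit 5) (nat_lit 105) (nat_lit 5) (nat_lit 507) (nat_lit 489) (nat_lit 204)) (XT.lf (nat_lit 0) (nat_lit 325281904974) (nat_lit 304) (nat_lit 30406590080) (nat_lit 380) (nat_lit 160105381333) (nat_lit 100) (nat_lit 5) (nat_lit 104) (nat_lit 5) (nat_lit 105) (nat_lit 5) (nat_lit 508) (nat_lit 489) (nat_lit 203)))))) (XT.nd (nat_lit 546) (nat_lit 988) (nat_lit 0) (XT.nd (nat_lit 234) (nat_lit 532) (nat_lit 0) (XT.nd (nat_lit 78) (nat_lit 304) (nat_lit 0) (XT.lf (nat_lit 0) (nat_lit 97655214528) (nat_lit 304) (nat_lit 343798207117) (nat_lit 380) (nat_lit 89166821746) (nat_lit 96) (nat_lit 5) (nat_lit 100) (nat_lit 5) (nat_lit 101) (nat_lit 5) (nat_lit 509) (nat_lit 489) (nat_lit 202)) (XT.nd (nat_lit 78) (nat_lit 304) (nat_lit 0) (XT.lf (nat_lit 0) (nat_lit 406329931716) (nat_lit 304) (nat_lit 128893484882) (nat_lit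 380) (nat_lit 10778671049) (nat_lit 96) (nat_lit 5) (nat_lit 100) (nat_lit 5) (nat_lit 101) (nat_lit 5) (nat_lit 510) (nat_lit 489) (nat_lit 201)) (XT.lf (nat_lit 0) (nat_lit 73508913117) (nat_lit 304) (nat_lit 390839602294) (nat_lit 76) (nat_lit 97535200540) (nat_lit 92) (nat_lit 5) (nat_lit 96) (nat_lit 5) (nat_lit 93) (nat_lit 5) (nat_lit 511) (nat_lit 489) (nat_lit 200)))) (XT.nd (nat_lit 156) (nat_lit 228) (nat_lit 0) (XT.nd (nat_lit 78) (nat_lit 304) (nat_lit 0) (XT.lf (nat_lit 0) (nat_lit 166165825089) (nat_lit 304) (nat_lit 78624364270) (nat_lit 76) (nat_lit 333534542210) (nat_lit 92) (nat_lit 5) (nat_lit 96) (nat_lit 5) (nat_lit 93) (nat_lit 5) (nat_lit 512) (nat_lit 489) (nat_lit 199)) (XT.lf (nat_lit 0) (nat_lit 257441344339) (nat_lit 304) (nat_lit 10033601876) (nat_lit 380) (nat_lit 327911883580) (nat_lit 88) (nat_lit 5) (nat_lit 92) (nat_lit 5) (nat_lit 93) (nat_lit 5) (nat_lit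 513) (nat_lit 489) (nat_lit 198))) (XT.nd (nat_lit 78) (nat_lit 228) (nat_lit 0) (XT.lf (nat_lit 0) (nat_lit 378894692707) (nat_lit 380) (nat_lit 3909124135) (nat_lit 76) (nat_lit 230245957630) (nat_lit 88) (nat_lit 5) (nat_lit 93) (nat_lit 5) (nat_lit 89) (nat_lit 5) (nat_lit 514) (nat_lit 489) (nat_lit 197)) (XT.lf (nat_lit 0) (nat_lit 358126844103) (nat_lit 228) (nat_lit 143514415286) (nat_lit 304) (nat_lit 129666815354) (nat_lit 85) (nat_lit 5) (nat_lit 88) (nat_lit 5) (nat_lit 89) (nat_lit 5) (nat_lit 515) (nat_lit 489) (nat_lit 196))))) (XT.nd (nat_lit 234) (nat_lit 456) (nat_lit 0) (XT.nd (nat_lit 78) (nat_lit 304) (nat_lit 0) (XT.lf (nat_lit 0) (nat_lit 89092645966) (nat_lit 228) (nat_lit 544572881639) (nat_lit 304) (nat_lit 16656743767) (nat_lit 82) (nat_lit 5) (nat_lit 85) (nat_lit 5) (nat_lit 86) (nat_lit 5) (nat_lit 516) (nat_lit 489) (nat_lit 195)) (XT.nd (nat_lit 78) (nat_lit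 228) (nat_lit 0) (XT.lf (nat_lit 0) (nat_lit 105794051388) (nat_lit 304) (nat_lit 195112529652) (nat_lit 76) (nat_lit 368948219534) (nat_lit 81) (nat_lit 5) (nat_lit 85) (nat_lit 5) (nat_lit 82) (nat_lit 5) (nat_lit 517) (nat_lit 489) (nat_lit 194)) (XT.lf (nat_lit 0) (nat_lit 195287766741) (nat_lit 228) (nat_lit 41568818237) (nat_lit 304) (nat_lit 453341269466) (nat_lit 78) (nat_lit 5) (nat_lit 81) (nat_lit 5) (nat_lit 82) (nat_lit 5) (nat_lit 518) (nat_lit 489) (nat_lit 193)))) (XT.nd (nat_lit 156) (nat_lit 228) (nat_lit 0) (XT.nd (nat_lit 78) (nat_lit 228) (nat_lit 0) (XT.lf (nat_lit 0) (nat_lit 381433158047) (nat_lit 304) (nat_lit 103067523797) (nat_lit 76) (nat_lit 226709333529) (nat_lit 78) (nat_lit 5) (nat_lit 82) (nat_lit 5) (nat_lit 79) (nat_lit 5) (nat_lit 519) (nat_lit 489) (nat_lit 192)) (XT.lf (nat_lit 0) (nat_lit 317859170605) (nat_lit 228) (nat_lit 221023503795) (nat_lit 304)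 (nat_lit 194107904219) (nat_lit 75) (nat_lit 5) (nat_lit 78) (nat_lit 5) (nat_lit 79) (nat_lit 5) (nat_lit 520) (nat_lit 489) (nat_lit 191))) (XT.nd (nat_lit 78) (nat_lit 76) (nat_lit 0) (XT.lf (nat_lit 0) (nat_lit 6963308818) (nat_lit 152) (nat_lit 699992675713) (nat_lit 228) (nat_lit 48766619601) (nat_lit 73) (nat_lit 5) (nat_lit 75) (nat_lit 5) (nat_lit 76) (nat_lit 5) (nat_lit 521) (nat_lit 489) (nat_lit 190)) (XT.lf (nat_lit 0) (nat_lit 111287172605) (nat_lit 228) (nat_lit 320024392174) (nat_lit 76) (nat_lit 347660151765) (nat_lit 72) (nat_lit 5) (nat_lit 75) (nat_lit 5) (nat_lit 73) (nat_lit 5) (nat_lit 522) (nat_lit 489) (nat_lit 189))))))) (XT.nd (nat_lit 60294) (nat_lit 0) (nat_lit 3116) (XT.nd (nat_lit 546) (nat_lit 228) (nat_lit 0) (XT.nd (nat_lit 234) (nat_lit 380) (nat_lit 0) (XT.nd (nat_lit 78) (nat_lit 152) (nat_lit 0) (XT.lf (nat_lit 0) (nat_lit 133624605639) (nat_lit 228) (nat_lit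 146166412309) (nat_lit 304) (nat_lit 523447981907) (nat_lit 69) (nat_lit 5) (nat_lit 72) (nat_lit 5) (nat_lit 73) (nat_lit 5) (nat_lit 523) (nat_lit 489) (nat_lit 188)) (XT.nd (nat_lit 78) (nat_lit 152) (nat_lit 0) (XT.lf (nat_lit 0) (nat_lit 464621102869) (nat_lit 304) (nat_lit 209863393148) (nat_lit 76) (nat_lit 153840098951) (nat_lit 69) (nat_lit 5) (nat_lit 73) (nat_lit 5) (nat_lit 70) (nat_lit 5) (nat_lit 524) (nat_lit 489) (nat_lit 187)) (XT.lf (nat_lit 0) (nat_lit 279422224642) (nat_lit 152) (nat_lit 386029190051) (nat_lit 228) (nat_lit 188875119014) (nat_lit 67) (nat_lit 5) (nat_lit 69) (nat_lit 5) (nat_lit 70) (nat_lit 5) (nat_lit 525) (nat_lit 489) (nat_lit 186)))) (XT.nd (nat_lit 156) (nat_lit 152) (nat_lit 0) (XT.nd (nat_lit 78) (nat_lit 228) (nat_lit 0) (XT.lf (nat_lit 0) (nat_lit 800458087900) (nat_lit 152) (nat_lit 79419280558) (nat_lit 228) (nat_lit 1573494609) (nat_lit 67)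 (nat_lit 5) (nat_lit 69) (nat_lit 5) (nat_lit 70) (nat_lit 5) (nat_lit 526) (nat_lit 489) (nat_lit 185)) (XT.lf (nat_lit 0) (nat_lit 199809438014) (nat_lit 228) (nat_lit 464442767504) (nat_lit 76) (nat_lit 244978884384) (nat_lit 64) (nat_lit 5) (nat_lit 67) (nat_lit 5) (nat_lit 65) (nat_lit 5) (nat_lit 527) (nat_lit 489) (nat_lit 184))) (XT.nd (nat_lit 78) (nat_lit 0) (nat_lit 0) (XT.lf (nat_lit 0) (nat_lit 61971847034) (nat_lit 152) (nat_lit 352900426834) (nat_lit 228) (nat_lit 523343582646) (nat_lit 62) (nat_lit 5) (nat_lit 64) (nat_lit 5) (nat_lit 65) (nat_lit 5) (nat_lit 528) (nat_lit 489) (nat_lit 183)) (XT.lf (nat_lit 0) (nat_lit 630831578532) (nat_lit 152) (nat_lit 17722225012) (nat_lit 228) (nat_lit 319702780313) (nat_lit 62) (nat_lit 5) (nat_lit 64) (nat_lit 5) (nat_lit 65) (nat_lit 5) (nat_lit 529) (nat_lit 489) (nat_lit 182))))) (XT.nd (nat_lit 59436) (nat_lit 0) (nat_lit 5016) (XT.nd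 (nat_lit 78) (nat_lit 76) (nat_lit 0) (XT.lf (nat_lit 0) (nat_lit 230494152890) (nat_lit 152) (nat_lit 672241936972) (nat_lit 228) (nat_lit 96622423701) (nat_lit 60) (nat_lit 5) (nat_lit 62) (nat_lit 5) (nat_lit 63) (nat_lit 5) (nat_lit 530) (nat_lit 489) (nat_lit 181)) (XT.nd (nat_lit 59280) (nat_lit 0) (nat_lit 5016) (XT.lf (nat_lit 0) (nat_lit 139306162044) (nat_lit 228) (nat_lit 195738647327) (nat_lit 76) (nat_lit 696558372316) (nat_lit 59) (nat_lit 5) (nat_lit 62) (nat_lit 5) (nat_lit 60) (nat_lit 5) (nat_lit 531) (nat_lit 489) (nat_lit 180)) (XT.lf (nat_lit 0) (nat_lit 54867571222) (nat_lit 836) (nat_lit 54590950997) (nat_lit 836) (nat_lit 54590950997) (nat_lit 125) (nat_lit 3) (nat_lit 136) (nat_lit 3) (nat_lit 136) (nat_lit 5) (nat_lit 490) (nat_lit 490) (nat_lit 220)))) (XT.nd (nat_lit 156) (nat_lit 0) (nat_lit 76) (XT.nd (nat_lit 78) (nat_lit 0) (nat_lit 76) (XT.lf (nat_lit 76) (nat_lit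 53253019663) (nat_lit 0) (nat_lit 60057524871) (nat_lit 836) (nat_lit 222949274152) (nat_lit 126) (nat_lit 5) (nat_lit 125) (nat_lit 3) (nat_lit 136) (nat_lit 5) (nat_lit 491) (nat_lit 490) (nat_lit 219)) (XT.lf (nat_lit 0) (nat_lit 120610627372) (nat_lit 760) (nat_lit 118832968910) (nat_lit 836) (nat_lit 105207842753) (nat_lit 126) (nat_lit 5) (nat_lit 136) (nat_lit 5) (nat_lit 137) (nat_lit 5) (nat_lit 492) (nat_lit 490) (nat_lit 218))) (XT.nd (nat_lit 78) (nat_lit 0) (nat_lit 76) (XT.lf (nat_lit 76) (nat_lit 54303017019) (nat_lit 0) (nat_lit 75805032903) (nat_lit 836) (nat_lit 223262973714) (nat_lit 127) (nat_lit 5) (nat_lit 126) (nat_lit 5) (nat_lit 137) (nat_lit 5) (nat_lit 493) (nat_lit 490) (nat_lit 217)) (XT.lf (nat_lit 0) (nat_lit 143624864833) (nat_lit 760) (nat_lit 123736633670) (nat_lit 836) (nat_lit 94987862916) (nat_lit 127) (nat_lit 5) (nat_lit 137) (nat_lit 5) (nat_lit 138)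 (nat_lit 5) (nat_lit 494) (nat_lit 490) (nat_lit 216)))))) (XT.nd (nat_lit 546) (nat_lit 1520) (nat_lit 0) (XT.nd (nat_lit 234) (nat_lit 532) (nat_lit 0) (XT.nd (nat_lit 78) (nat_lit 0) (nat_lit 76) (XT.lf (nat_lit 76) (nat_lit 61073307435) (nat_lit 0) (nat_lit 98940410958) (nat_lit 836) (nat_lit 211653087817) (nat_lit 128) (nat_lit 5) (nat_lit 127) (nat_lit 5) (nat_lit 138) (nat_lit 5) (nat_lit 495) (nat_lit 490) (nat_lit 215)) (XT.nd (nat_lit 78) (nat_lit 0) (nat_lit 0) (XT.lf (nat_lit 0) (nat_lit 180568140192) (nat_lit 760) (nat_lit 123176385265) (nat_lit 836) (nat_lit 77538291516) (nat_lit 128) (nat_lit 5) (nat_lit 138) (nat_lit 5) (nat_lit 139) (nat_lit 5) (nat_lit 496) (nat_lit 490) (nat_lit 214)) (XT.lf (nat_lit 76) (nat_lit 74369888294) (nat_lit 0) (nat_lit 130563460968) (nat_lit 836) (nat_lit 186307125716) (nat_lit 129) (nat_lit 5) (nat_lit 128) (nat_lit 5) (nat_lit 139) (nat_lit 5)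 (nat_lit 497) (nat_lit 490) (nat_lit 213)))) (XT.nd (nat_lit 156) (nat_lit 684) (nat_lit 0) (XT.nd (nat_lit 78) (nat_lit 0) (nat_lit 0) (XT.lf (nat_lit 0) (nat_lit 233437611404) (nat_lit 760) (nat_lit 116356625450) (nat_lit 836) (nat_lit 51755739408) (nat_lit 129) (nat_lit 5) (nat_lit 139) (nat_lit 5) (nat_lit 140) (nat_lit 5) (nat_lit 498) (nat_lit 490) (nat_lit 212)) (XT.lf (nat_lit 76) (nat_lit 95085971526) (nat_lit 0) (nat_lit 171906030655) (nat_lit 836) (nat_lit 145201704664) (nat_lit 130) (nat_lit 5) (nat_lit 129) (nat_lit 5) (nat_lit 140) (nat_lit 5) (nat_lit 499) (nat_lit 490) (nat_lit 211))) (XT.nd (nat_lit 78) (nat_lit 760) (nat_lit 0) (XT.lf (nat_lit 0) (nat_lit 304459211103) (nat_lit 760) (nat_lit 102395351581) (nat_lit 76) (nat_lit 16403306353) (nat_lit 130) (nat_lit 5) (nat_lit 140) (nat_lit 5) (nat_lit 131) (nat_lit 5) (nat_lit 500) (nat_lit 490) (nat_lit 210)) (XT.lf (nat_lit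 0) (nat_lit 124209992622) (nat_lit 760) (nat_lit 224347160305) (nat_lit 836) (nat_lit 86080217797) (nat_lit 120) (nat_lit 5) (nat_lit 130) (nat_lit 5) (nat_lit 131) (nat_lit 5) (nat_lit 501) (nat_lit 490) (nat_lit 209))))) (XT.nd (nat_lit 234) (nat_lit 1064) (nat_lit 0) (XT.nd (nat_lit 78) (nat_lit 456) (nat_lit 0) (XT.lf (nat_lit 0) (nat_lit 365700517250) (nat_lit 760) (nat_lit 30893565002) (nat_lit 836) (nat_lit 49905060734) (nat_lit 120) (nat_lit 5) (nat_lit 130) (nat_lit 5) (nat_lit 131) (nat_lit 5) (nat_lit 502) (nat_lit 490) (nat_lit 208)) (XT.nd (nat_lit 78) (nat_lit 76) (nat_lit 0) (XT.lf (nat_lit 0) (nat_lit 162834218548) (nat_lit 380) (nat_lit 289429950054) (nat_lit 456) (nat_lit 6428269739) (nat_lit 115) (nat_lit 5) (nat_lit 120) (nat_lit 5) (nat_lit 121) (nat_lit 5) (nat_lit 503) (nat_lit 490) (nat_lit 207)) (XT.lf (nat_lit 0) (nat_lit 39864225378) (nat_lit 456) (nat_lit 51114407169)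 (nat_lit 76) (nat_lit 380391286123) (nat_lit 114) (nat_lit 5) (nat_lit 120) (nat_lit 5) (nat_lit 115) (nat_lit 5) (nat_lit 504) (nat_lit 490) (nat_lit 206)))) (XT.nd (nat_lit 156) (nat_lit 684) (nat_lit 0) (XT.nd (nat_lit 78) (nat_lit 0) (nat_lit 0) (XT.lf (nat_lit 0) (nat_lit 93463022231) (nat_lit 456) (nat_lit 273834483165) (nat_lit 76) (nat_lit 117118113104) (nat_lit 109) (nat_lit 5) (nat_lit 115) (nat_lit 5) (nat_lit 110) (nat_lit 5) (nat_lit 505) (nat_lit 490) (nat_lit 205)) (XT.lf (nat_lit 0) (nat_lit 152113029028) (nat_lit 456) (nat_lit 12439955480) (nat_lit 76) (nat_lit 333442055314) (nat_lit 109) (nat_lit 5) (nat_lit 115) (nat_lit 5) (nat_lit 110) (nat_lit 5) (nat_lit 506) (nat_lit 490) (nat_lit 204))) (XT.nd (nat_lit 78) (nat_lit 304) (nat_lit 0) (XT.lf (nat_lit 0) (nat_lit 218745543477) (nat_lit 456) (nat_lit 242177969416) (nat_lit 76) (nat_lit 51077418959) (nat_lit 104) (nat_lit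 5) (nat_lit 110) (nat_lit 5) (nat_lit 105) (nat_lit 5) (nat_lit 507) (nat_lit 490) (nat_lit 203)) (XT.lf (nat_lit 0) (nat_lit 38464363071) (nat_lit 304) (nat_lit 253757557930) (nat_lit 380) (nat_lit 234309585621) (nat_lit 100) (nat_lit 5) (nat_lit 104) (nat_lit 5) (nat_lit 105) (nat_lit 5) (nat_lit 508) (nat_lit 490) (nat_lit 202))))))))
noncomputable def xc245 : XT := (XT.nd (nat_lit 61464) (nat_lit 0) (nat_lit 912) (XT.nd (nat_lit 1092) (nat_lit 988) (nat_lit 0) (XT.nd (nat_lit 546) (nat_lit 1140) (nat_lit 0) (XT.nd (nat_lit 234) (nat_lit 608) (nat_lit 0) (XT.nd (nat_lit 78) (nat_lit 304) (nat_lit 0) (XT.lf (nat_lit 0) (nat_lit 341546662883) (nat_lit 304) (nat_lit 31926836762) (nat_lit 380) (nat_lit 168110041381) (nat_lit 100) (nat_lit 5) (nat_lit 104) (nat_lit 5) (nat_lit 105) (nat_lit 5) (nat_lit 509) (nat_lit 490) (nat_lit 201)) (XT.nd (nat_lit 78) (nat_lit 0) (nat_lit 0) (XT.lf (nat_lit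 0) (nat_lit 102538654664) (nat_lit 304) (nat_lit 360988002127) (nat_lit 380) (nat_lit 93624570384) (nat_lit 96) (nat_lit 5) (nat_lit 100) (nat_lit 5) (nat_lit 101) (nat_lit 5) (nat_lit 510) (nat_lit 490) (nat_lit 200)) (XT.lf (nat_lit 0) (nat_lit 426647075359) (nat_lit 304) (nat_lit 135338049274) (nat_lit 380) (nat_lit 11317040365) (nat_lit 96) (nat_lit 5) (nat_lit 100) (nat_lit 5) (nat_lit 101) (nat_lit 5) (nat_lit 511) (nat_lit 490) (nat_lit 199)))) (XT.nd (nat_lit 156) (nat_lit 304) (nat_lit 0) (XT.nd (nat_lit 78) (nat_lit 0) (nat_lit 0) (XT.lf (nat_lit 0) (nat_lit 77184891100) (nat_lit 304) (nat_lit 410380903123) (nat_lit 76) (nat_lit 102412080754) (nat_lit 92) (nat_lit 5) (nat_lit 96) (nat_lit 5) (nat_lit 93) (nat_lit 5) (nat_lit 512) (nat_lit 490) (nat_lit 198)) (XT.lf (nat_lit 0) (nat_lit 174474623322) (nat_lit 304) (nat_lit 82554935544) (nat_lit 76) (nat_lit 350211383785) (nat_lit 92)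 (nat_lit 5) (nat_lit 96) (nat_lit 5) (nat_lit 93) (nat_lit 5) (nat_lit 513) (nat_lit 490) (nat_lit 197))) (XT.nd (nat_lit 78) (nat_lit 0) (nat_lit 0) (XT.lf (nat_lit 0) (nat_lit 270314048061) (nat_lit 304) (nat_lit 10535138239) (nat_lit 380) (nat_lit 344306960205) (nat_lit 88) (nat_lit 5) (nat_lit 92) (nat_lit 5) (nat_lit 93) (nat_lit 5) (nat_lit 514) (nat_lit 490) (nat_lit 196)) (XT.lf (nat_lit 0) (nat_lit 397839898788) (nat_lit 380) (nat_lit 4103952684) (nat_lit 76) (nat_lit 241758388017) (nat_lit 88) (nat_lit 5) (nat_lit 93) (nat_lit 5) (nat_lit 89) (nat_lit 5) (nat_lit 515) (nat_lit 490) (nat_lit 195))))) (XT.nd (nat_lit 234) (nat_lit 608) (nat_lit 0) (XT.nd (nat_lit 78) (nat_lit 304) (nat_lit 0) (XT.lf (nat_lit 0) (nat_lit 376033803843) (nat_lit 228) (nat_lit 150689977154) (nat_lit 304) (nat_lit 136149674424) (nat_lit 85) (nat_lit 5) (nat_lit 88) (nat_lit 5) (nat_lit 89) (nat_lit 5) (nat_lit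 516) (nat_lit 490) (nat_lit 194)) (XT.nd (nat_lit 78) (nat_lit 76) (nat_lit 0) (XT.lf (nat_lit 0) (nat_lit 93547906086) (nat_lit 228) (nat_lit 571801346862) (nat_lit 304) (nat_lit 17489109423) (nat_lit 82) (nat_lit 5) (nat_lit 85) (nat_lit 5) (nat_lit 86) (nat_lit 5) (nat_lit 517) (nat_lit 490) (nat_lit 193)) (XT.lf (nat_lit 0) (nat_lit 111084188663) (nat_lit 304) (nat_lit 204867543725) (nat_lit 76) (nat_lit 387395786368) (nat_lit 81) (nat_lit 5) (nat_lit 85) (nat_lit 5) (nat_lit 82) (nat_lit 5) (nat_lit 518) (nat_lit 490) (nat_lit 192)))) (XT.nd (nat_lit 156) (nat_lit 380) (nat_lit 0) (XT.nd (nat_lit 78) (nat_lit 0) (nat_lit 0) (XT.lf (nat_lit 0) (nat_lit 205052757610) (nat_lit 228) (nat_lit 43647080030) (nat_lit 304) (nat_lit 476007888251) (nat_lit 78) (nat_lit 5) (nat_lit 81) (nat_lit 5) (nat_lit 82) (nat_lit 5) (nat_lit 519) (nat_lit 490) (nat_lit 191)) (XT.lf (nat_lit 0) (nat_lit 400505221862)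 (nat_lit 304) (nat_lit 108220308547) (nat_lit 76) (nat_lit 238044965335) (nat_lit 78) (nat_lit 5) (nat_lit 82) (nat_lit 5) (nat_lit 79) (nat_lit 5) (nat_lit 520) (nat_lit 490) (nat_lit 190))) (XT.nd (nat_lit 78) (nat_lit 152) (nat_lit 0) (XT.lf (nat_lit 0) (nat_lit 333752711035) (nat_lit 228) (nat_lit 232074492754) (nat_lit 304) (nat_lit 203812883882) (nat_lit 75) (nat_lit 5) (nat_lit 78) (nat_lit 5) (nat_lit 79) (nat_lit 5) (nat_lit 521) (nat_lit 490) (nat_lit 189)) (XT.lf (nat_lit 0) (nat_lit 7312063471) (nat_lit 152) (nat_lit 734992109083) (nat_lit 228) (nat_lit 51204542254) (nat_lit 73) (nat_lit 5) (nat_lit 75) (nat_lit 5) (nat_lit 76) (nat_lit 5) (nat_lit 522) (nat_lit 490) (nat_lit 188)))))) (XT.nd (nat_lit 546) (nat_lit 152) (nat_lit 0) (XT.nd (nat_lit 234) (nat_lit 532) (nat_lit 0) (XT.nd (nat_lit 78) (nat_lit 228) (nat_lit 0) (XT.lf (nat_lit 0) (nat_lit 116851907671) (nat_lit 228)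 (nat_lit 336025038100) (nat_lit 76) (nat_lit 365043337697) (nat_lit 72) (nat_lit 5) (nat_lit 75) (nat_lit 5) (nat_lit 73) (nat_lit 5) (nat_lit 523) (nat_lit 490) (nat_lit 187)) (XT.nd (nat_lit 78) (nat_lit 0) (nat_lit 0) (XT.lf (nat_lit 0) (nat_lit 140306400351) (nat_lit 228) (nat_lit 153474535817) (nat_lit 304) (nat_lit 549619995235) (nat_lit 69) (nat_lit 5) (nat_lit 72) (nat_lit 5) (nat_lit 73) (nat_lit 5) (nat_lit 524) (nat_lit 490) (nat_lit 186)) (XT.lf (nat_lit 0) (nat_lit 487852510774) (nat_lit 304) (nat_lit 220356010617) (nat_lit 76) (nat_lit 161532285612) (nat_lit 69) (nat_lit 5) (nat_lit 73) (nat_lit 5) (nat_lit 70) (nat_lit 5) (nat_lit 525) (nat_lit 490) (nat_lit 185)))) (XT.nd (nat_lit 156) (nat_lit 380) (nat_lit 0) (XT.nd (nat_lit 78) (nat_lit 0) (nat_lit 0) (XT.lf (nat_lit 0) (nat_lit 293393879156) (nat_lit 152) (nat_lit 405330450717) (nat_lit 228) (nat_lit 198318513225) (nat_lit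 67) (nat_lit 5) (nat_lit 69) (nat_lit 5) (nat_lit 70) (nat_lit 5) (nat_lit 526) (nat_lit 490) (nat_lit 184)) (XT.lf (nat_lit 0) (nat_lit 840481509706) (nat_lit 152) (nat_lit 83390055218) (nat_lit 228) (nat_lit 1651824825) (nat_lit 67) (nat_lit 5) (nat_lit 69) (nat_lit 5) (nat_lit 70) (nat_lit 5) (nat_lit 527) (nat_lit 490) (nat_lit 183))) (XT.nd (nat_lit 78) (nat_lit 152) (nat_lit 0) (XT.lf (nat_lit 0) (nat_lit 209800238673) (nat_lit 228) (nat_lit 487664372585) (nat_lit 76) (nat_lit 257228016639) (nat_lit 64) (nat_lit 5) (nat_lit 67) (nat_lit 5) (nat_lit 65) (nat_lit 5) (nat_lit 528) (nat_lit 490) (nat_lit 182)) (XT.lf (nat_lit 0) (nat_lit 65070964077) (nat_lit 152) (nat_lit 370545244779) (nat_lit 228) (nat_lit 549510424360) (nat_lit 62) (nat_lit 5) (nat_lit 64) (nat_lit 5) (nat_lit 65) (nat_lit 5) (nat_lit 529) (nat_lit 490) (nat_lit 181))))) (XT.nd (nat_lit 59514) (nat_lit 0) (nat_lit 4940)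 (XT.nd (nat_lit 78) (nat_lit 152) (nat_lit 0) (XT.lf (nat_lit 0) (nat_lit 662373657166) (nat_lit 152) (nat_lit 18608142551) (nat_lit 228) (nat_lit 335687597978) (nat_lit 62) (nat_lit 5) (nat_lit 64) (nat_lit 5) (nat_lit 65) (nat_lit 5) (nat_lit 530) (nat_lit 490) (nat_lit 180)) (XT.nd (nat_lit 59358) (nat_lit 0) (nat_lit 4940) (XT.lf (nat_lit 0) (nat_lit 242019364314) (nat_lit 152) (nat_lit 705853832211) (nat_lit 228) (nat_lit 101453227554) (nat_lit 60) (nat_lit 5) (nat_lit 62) (nat_lit 5) (nat_lit 63) (nat_lit 5) (nat_lit 531) (nat_lit 490) (nat_lit 179)) (XT.lf (nat_lit 0) (nat_lit 57611535150) (nat_lit 836) (nat_lit 57320191116) (nat_lit 836) (nat_lit 57320191116) (nat_lit 125) (nat_lit 3) (nat_lit 136) (nat_lit 3) (nat_lit 136) (nat_lit 5) (nat_lit 491) (nat_lit 491) (nat_lit 218)))) (XT.nd (nat_lit 156) (nat_lit 0) (nat_lit 76) (XT.nd (nat_lit 78) (nat_lit 0) (nat_lit 76) (XT.lf (nat_lit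 76) (nat_lit 55916275592) (nat_lit 0) (nat_lit 63060920598) (nat_lit 836) (nat_lit 234095556776) (nat_lit 126) (nat_lit 5) (nat_lit 125) (nat_lit 3) (nat_lit 136) (nat_lit 5) (nat_lit 492) (nat_lit 491) (nat_lit 217)) (XT.lf (nat_lit 0) (nat_lit 126642221901) (nat_lit 760) (nat_lit 124773979535) (nat_lit 836) (nat_lit 110467755979) (nat_lit 126) (nat_lit 5) (nat_lit 136) (nat_lit 5) (nat_lit 137) (nat_lit 5) (nat_lit 493) (nat_lit 491) (nat_lit 216))) (XT.nd (nat_lit 78) (nat_lit 0) (nat_lit 76) (XT.lf (nat_lit 76) (nat_lit 57018795403) (nat_lit 0) (nat_lit 79595679347) (nat_lit 836) (nat_lit 234425048558) (nat_lit 127) (nat_lit 5) (nat_lit 126) (nat_lit 5) (nat_lit 137) (nat_lit 5) (nat_lit 494) (nat_lit 491) (nat_lit 215)) (XT.lf (nat_lit 0) (nat_lit 150807075853) (nat_lit 760) (nat_lit 129922812776) (nat_lit 836) (nat_lit 99736892098) (nat_lit 127) (nat_lit 5) (nat_lit 137) (nat_lit 5) (nat_lit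 138) (nat_lit 5) (nat_lit 495) (nat_lit 491) (nat_lit 214))))))) (XT.nd (nat_lit 1092) (nat_lit 2128) (nat_lit 0) (XT.nd (nat_lit 546) (nat_lit 1520) (nat_lit 0) (XT.nd (nat_lit 234) (nat_lit 532) (nat_lit 0) (XT.nd (nat_lit 78) (nat_lit 0) (nat_lit 76) (XT.lf (nat_lit 76) (nat_lit 64127614859) (nat_lit 0) (nat_lit 103887721171) (nat_lit 836) (nat_lit 222234763547) (nat_lit 128) (nat_lit 5) (nat_lit 127) (nat_lit 5) (nat_lit 138) (nat_lit 5) (nat_lit 496) (nat_lit 491) (nat_lit 213)) (XT.nd (nat_lit 78) (nat_lit 0) (nat_lit 0) (XT.lf (nat_lit 0) (nat_lit 189597430245) (nat_lit 760) (nat_lit 129334544035) (nat_lit 836) (nat_lit 81414939049) (nat_lit 128) (nat_lit 5) (nat_lit 138) (nat_lit 5) (nat_lit 139) (nat_lit 5) (nat_lit 497) (nat_lit 491) (nat_lit 212)) (XT.lf (nat_lit 76) (nat_lit 78089032549) (nat_lit 0) (nat_lit 137091835315) (nat_lit 836) (nat_lit 195621587981) (nat_lit 129) (nat_lit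 5) (nat_lit 128) (nat_lit 5) (nat_lit 139) (nat_lit 5) (nat_lit 498) (nat_lit 491) (nat_lit 211)))) (XT.nd (nat_lit 156) (nat_lit 684) (nat_lit 0) (XT.nd (nat_lit 78) (nat_lit 0) (nat_lit 0) (XT.lf (nat_lit 0) (nat_lit 245110299590) (nat_lit 760) (nat_lit 122173793995) (nat_lit 836) (nat_lit 54343340801) (nat_lit 129) (nat_lit 5) (nat_lit 139) (nat_lit 5) (nat_lit 140) (nat_lit 5) (nat_lit 499) (nat_lit 491) (nat_lit 210)) (XT.lf (nat_lit 76) (nat_lit 99840922141) (nat_lit 0) (nat_lit 180501459487) (nat_lit 836) (nat_lit 152460971298) (nat_lit 130) (nat_lit 5) (nat_lit 129) (nat_lit 5) (nat_lit 140) (nat_lit 5) (nat_lit 500) (nat_lit 491) (nat_lit 209))) (XT.nd (nat_lit 78) (nat_lit 760) (nat_lit 0) (XT.lf (nat_lit 0) (nat_lit 319682911992) (nat_lit 760) (nat_lit 107514458887) (nat_lit 76) (nat_lit 17223354313) (nat_lit 130) (nat_lit 5) (nat_lit 140) (nat_lit 5) (nat_lit 131) (nat_lit 5) (nat_lit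 501) (nat_lit 491) (nat_lit 208)) (XT.lf (nat_lit 0) (nat_lit 130421141877) (nat_lit 760) (nat_lit 235564583920) (nat_lit 836) (nat_lit 90383477437) (nat_lit 120) (nat_lit 5) (nat_lit 130) (nat_lit 5) (nat_lit 131) (nat_lit 5) (nat_lit 502) (nat_lit 491) (nat_lit 207))))) (XT.nd (nat_lit 234) (nat_lit 1064) (nat_lit 0) (XT.nd (nat_lit 78) (nat_lit 456) (nat_lit 0) (XT.lf (nat_lit 0) (nat_lit 383986161802) (nat_lit 760) (nat_lit 32438305728) (nat_lit 836) (nat_lit 52399598294) (nat_lit 120) (nat_lit 5) (nat_lit 130) (nat_lit 5) (nat_lit 131) (nat_lit 5) (nat_lit 503) (nat_lit 491) (nat_lit 206)) (XT.nd (nat_lit 78) (nat_lit 76) (nat_lit 0) (XT.lf (nat_lit 0) (nat_lit 170976572904) (nat_lit 380) (nat_lit 303901461973) (nat_lit 456) (nat_lit 6748992248) (nat_lit 115) (nat_lit 5) (nat_lit 120) (nat_lit 5) (nat_lit 121) (nat_lit 5) (nat_lit 504) (nat_lit 491) (nat_lit 205)) (XT.lf (nat_lit 0) (nat_lit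 41858073658) (nat_lit 456) (nat_lit 53669493458) (nat_lit 76) (nat_lit 399410815418) (nat_lit 114) (nat_lit 5) (nat_lit 120) (nat_lit 5) (nat_lit 115) (nat_lit 5) (nat_lit 505) (nat_lit 491) (nat_lit 204)))) (XT.nd (nat_lit 156) (nat_lit 684) (nat_lit 0) (XT.nd (nat_lit 78) (nat_lit 0) (nat_lit 0) (XT.lf (nat_lit 0) (nat_lit 98136789876) (nat_lit 456) (nat_lit 287525552566) (nat_lit 76) (nat_lit 122974025946) (nat_lit 109) (nat_lit 5) (nat_lit 115) (nat_lit 5) (nat_lit 110) (nat_lit 5) (nat_lit 506) (nat_lit 491) (nat_lit 203)) (XT.lf (nat_lit 0) (nat_lit 159719267654) (nat_lit 456) (nat_lit 13061329676) (nat_lit 76) (nat_lit 350114164925) (nat_lit 109) (nat_lit 5) (nat_lit 115) (nat_lit 5) (nat_lit 110) (nat_lit 5) (nat_lit 507) (nat_lit 491) (nat_lit 202))) (XT.nd (nat_lit 78) (nat_lit 304) (nat_lit 0) (XT.lf (nat_lit 0) (nat_lit 229683390143) (nat_lit 456) (nat_lit 254286226436) (nat_lit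 76) (nat_lit 53631333203) (nat_lit 104) (nat_lit 5) (nat_lit 110) (nat_lit 5) (nat_lit 105) (nat_lit 5) (nat_lit 508) (nat_lit 491) (nat_lit 201)) (XT.lf (nat_lit 0) (nat_lit 40388212330) (nat_lit 304) (nat_lit 266445356948) (nat_lit 380) (nat_lit 246024484884) (nat_lit 100) (nat_lit 5) (nat_lit 104) (nat_lit 5) (nat_lit 105) (nat_lit 5) (nat_lit 509) (nat_lit 491) (nat_lit 200)))))) (XT.nd (nat_lit 546) (nat_lit 1216) (nat_lit 0) (XT.nd (nat_lit 234) (nat_lit 608) (nat_lit 0) (XT.nd (nat_lit 78) (nat_lit 304) (nat_lit 0) (XT.lf (nat_lit 0) (nat_lit 358624597079) (nat_lit 304) (nat_lit 33523103478) (nat_lit 380) (nat_lit 176514991052) (nat_lit 100) (nat_lit 5) (nat_lit 104) (nat_lit 5) (nat_lit 105) (nat_lit 5) (nat_lit 510) (nat_lit 491) (nat_lit 199)) (XT.nd (nat_lit 78) (nat_lit 0) (nat_lit 0) (XT.lf (nat_lit 0) (nat_lit 107666203643) (nat_lit 304) (nat_lit 379037297613) (nat_lit 380) (nat_lit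 98305261535) (nat_lit 96) (nat_lit 5) (nat_lit 100) (nat_lit 5) (nat_lit 101) (nat_lit 5) (nat_lit 511) (nat_lit 491) (nat_lit 198)) (XT.lf (nat_lit 0) (nat_lit 447980016027) (nat_lit 304) (nat_lit 142104852098) (nat_lit 380) (nat_lit 11882380604) (nat_lit 96) (nat_lit 5) (nat_lit 100) (nat_lit 5) (nat_lit 101) (nat_lit 5) (nat_lit 512) (nat_lit 491) (nat_lit 197)))) (XT.nd (nat_lit 156) (nat_lit 304) (nat_lit 0) (XT.nd (nat_lit 78) (nat_lit 0) (nat_lit 0) (XT.lf (nat_lit 0) (nat_lit 81044618492) (nat_lit 304) (nat_lit 430899332146) (nat_lit 76) (nat_lit 107532793805) (nat_lit 92) (nat_lit 5) (nat_lit 96) (nat_lit 5) (nat_lit 93) (nat_lit 5) (nat_lit 513) (nat_lit 491) (nat_lit 196)) (XT.lf (nat_lit 0) (nat_lit 183198814332) (nat_lit 304) (nat_lit 86682095528) (nat_lit 76) (nat_lit 367722056796) (nat_lit 92) (nat_lit 5) (nat_lit 96) (nat_lit 5) (nat_lit 93) (nat_lit 5) (nat_lit 514) (nat_lit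 491) (nat_lit 195))) (XT.nd (nat_lit 78) (nat_lit 0) (nat_lit 0) (XT.lf (nat_lit 0) (nat_lit 283830327793) (nat_lit 304) (nat_lit 11061764783) (nat_lit 380) (nat_lit 361521838778) (nat_lit 88) (nat_lit 5) (nat_lit 92) (nat_lit 5) (nat_lit 93) (nat_lit 5) (nat_lit 515) (nat_lit 491) (nat_lit 194)) (XT.lf (nat_lit 0) (nat_lit 417732321343) (nat_lit 380) (nat_lit 4308581014) (nat_lit 76) (nat_lit 253846427604) (nat_lit 88) (nat_lit 5) (nat_lit 93) (nat_lit 5) (nat_lit 89) (nat_lit 5) (nat_lit 516) (nat_lit 491) (nat_lit 193))))) (XT.nd (nat_lit 312) (nat_lit 456) (nat_lit 0) (XT.nd (nat_lit 156) (nat_lit 304) (nat_lit 0) (XT.nd (nat_lit 78) (nat_lit 228) (nat_lit 0) (XT.lf (nat_lit 0) (nat_lit 394836054157) (nat_lit 228) (nat_lit 158224331887) (nat_lit 304) (nat_lit 142956721232) (nat_lit 85) (nat_lit 5) (nat_lit 88) (nat_lit 5) (nat_lit 89) (nat_lit 5) (nat_lit 517) (nat_lit 491) (nat_lit 192))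 (XT.lf (nat_lit 0) (nat_lit 98225870843) (nat_lit 228) (nat_lit 600391251975) (nat_lit 304) (nat_lit 18363137201) (nat_lit 82) (nat_lit 5) (nat_lit 85) (nat_lit 5) (nat_lit 86) (nat_lit 5) (nat_lit 518) (nat_lit 491) (nat_lit 191))) (XT.nd (nat_lit 78) (nat_lit 228) (nat_lit 0) (XT.lf (nat_lit 0) (nat_lit 116638792386) (nat_lit 304) (nat_lit 215110365439) (nat_lit 76) (nat_lit 406765717054) (nat_lit 81) (nat_lit 5) (nat_lit 85) (nat_lit 5) (nat_lit 82) (nat_lit 5) (nat_lit 519) (nat_lit 491) (nat_lit 190)) (XT.lf (nat_lit 0) (nat_lit 215305942004) (nat_lit 228) (nat_lit 45829271565) (nat_lit 304) (nat_lit 499807879318) (nat_lit 78) (nat_lit 5) (nat_lit 81) (nat_lit 5) (nat_lit 82) (nat_lit 5) (nat_lit 520) (nat_lit 491) (nat_lit 189)))) (XT.nd (nat_lit 156) (nat_lit 228) (nat_lit 0) (XT.nd (nat_lit 78) (nat_lit 228) (nat_lit 0) (XT.lf (nat_lit 0) (nat_lit 420530851131) (nat_lit 304) (nat_lit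 113630787522) (nat_lit 76) (nat_lit 249947363380) (nat_lit 78) (nat_lit 5) (nat_lit 82) (nat_lit 5) (nat_lit 79) (nat_lit 5) (nat_lit 521) (nat_lit 491) (nat_lit 188)) (XT.lf (nat_lit 0) (nat_lit 350440874387) (nat_lit 228) (nat_lit 243678048475) (nat_lit 304) (nat_lit 214003151162) (nat_lit 75) (nat_lit 5) (nat_lit 78) (nat_lit 5) (nat_lit 79) (nat_lit 5) (nat_lit 522) (nat_lit 491) (nat_lit 187))) (XT.nd (nat_lit 78) (nat_lit 76) (nat_lit 0) (XT.lf (nat_lit 0) (nat_lit 7678201077) (nat_lit 152) (nat_lit 771741532754) (nat_lit 228) (nat_lit 53764399003) (nat_lit 73) (nat_lit 5) (nat_lit 75) (nat_lit 5) (nat_lit 76) (nat_lit 5) (nat_lit 523) (nat_lit 491) (nat_lit 186)) (XT.lf (nat_lit 0) (nat_lit 122694844494) (nat_lit 228) (nat_lit 352825769657) (nat_lit 76) (nat_lit 383295666344) (nat_lit 72) (nat_lit 5) (nat_lit 75) (nat_lit 5) (nat_lit 73) (nat_lit 5) (nat_lit 524) (nat_lit 491) (nat_lit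 185))))))))
noncomputable def xc246 : XT := (XT.nd (nat_lit 61698) (nat_lit 0) (nat_lit 152) (XT.nd (nat_lit 60606) (nat_lit 0) (nat_lit 2280) (XT.nd (nat_lit 60060) (nat_lit 0) (nat_lit 4864) (XT.nd (nat_lit 312) (nat_lit 380) (nat_lit 0) (XT.nd (nat_lit 78) (nat_lit 152) (nat_lit 0) (XT.lf (nat_lit 0) (nat_lit 147322232324) (nat_lit 228) (nat_lit 161148083825) (nat_lit 304) (nat_lit 577100645094) (nat_lit 69) (nat_lit 5) (nat_lit 72) (nat_lit 5) (nat_lit 73) (nat_lit 5) (nat_lit 525) (nat_lit 491) (nat_lit 184)) (XT.nd (nat_lit 156) (nat_lit 152) (nat_lit 0) (XT.lf (nat_lit 0) (nat_lit 512245456279) (nat_lit 304) (nat_lit 231373310297) (nat_lit 76) (nat_lit 169609064712) (nat_lit 69) (nat_lit 5) (nat_lit 73) (nat_lit 5) (nat_lit 70) (nat_lit 5) (nat_lit 526) (nat_lit 491) (nat_lit 183)) (XT.lf (nat_lit 0) (nat_lit 882506054499) (nat_lit 152) (nat_lit 87559386217) (nat_lit 228) (nat_lit 1734103582)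 (nat_lit 67) (nat_lit 5) (nat_lit 69) (nat_lit 5) (nat_lit 70) (nat_lit 5) (nat_lit 528) (nat_lit 491) (nat_lit 181)))) (XT.nd (nat_lit 59592) (nat_lit 0) (nat_lit 4788) (XT.nd (nat_lit 78) (nat_lit 152) (nat_lit 0) (XT.lf (nat_lit 0) (nat_lit 220290548800) (nat_lit 228) (nat_lit 512047107502) (nat_lit 76) (nat_lit 270089588025) (nat_lit 64) (nat_lit 5) (nat_lit 67) (nat_lit 5) (nat_lit 65) (nat_lit 5) (nat_lit 529) (nat_lit 491) (nat_lit 180)) (XT.lf (nat_lit 0) (nat_lit 68324988193) (nat_lit 152) (nat_lit 389072322531) (nat_lit 228) (nat_lit 576985639530) (nat_lit 62) (nat_lit 5) (nat_lit 64) (nat_lit 5) (nat_lit 65) (nat_lit 5) (nat_lit 530) (nat_lit 491) (nat_lit 179))) (XT.nd (nat_lit 78) (nat_lit 0) (nat_lit 0) (XT.lf (nat_lit 0) (nat_lit 60492642852) (nat_lit 836) (nat_lit 60185921822) (nat_lit 836) (nat_lit 60185921822) (nat_lit 125) (nat_lit 3) (nat_lit 136) (nat_lit 3) (nat_lit 136)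 (nat_lit 5) (nat_lit 492) (nat_lit 492) (nat_lit 216)) (XT.lf (nat_lit 76) (nat_lit 58712638075) (nat_lit 0) (nat_lit 66214437815) (nat_lit 836) (nat_lit 245799263336) (nat_lit 126) (nat_lit 5) (nat_lit 125) (nat_lit 3) (nat_lit 136) (nat_lit 5) (nat_lit 493) (nat_lit 492) (nat_lit 215))))) (XT.nd (nat_lit 234) (nat_lit 0) (nat_lit 76) (XT.nd (nat_lit 78) (nat_lit 0) (nat_lit 0) (XT.lf (nat_lit 0) (nat_lit 132975297314) (nat_lit 760) (nat_lit 131012099990) (nat_lit 836) (nat_lit 115990709392) (nat_lit 126) (nat_lit 5) (nat_lit 136) (nat_lit 5) (nat_lit 137) (nat_lit 5) (nat_lit 494) (nat_lit 492) (nat_lit 214)) (XT.nd (nat_lit 78) (nat_lit 0) (nat_lit 76) (XT.lf (nat_lit 76) (nat_lit 59870304364) (nat_lit 0) (nat_lit 83575821408) (nat_lit 836) (nat_lit 246145326980) (nat_lit 127) (nat_lit 5) (nat_lit 126) (nat_lit 5) (nat_lit 137) (nat_lit 5) (nat_lit 495) (nat_lit 492) (nat_lit 213)) (XT.lf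 (nat_lit 0) (nat_lit 158348307449) (nat_lit 760) (nat_lit 136418361507) (nat_lit 836) (nat_lit 104723406577) (nat_lit 127) (nat_lit 5) (nat_lit 137) (nat_lit 5) (nat_lit 138) (nat_lit 5) (nat_lit 496) (nat_lit 492) (nat_lit 212)))) (XT.nd (nat_lit 156) (nat_lit 0) (nat_lit 76) (XT.nd (nat_lit 78) (nat_lit 0) (nat_lit 76) (XT.lf (nat_lit 76) (nat_lit 67334577963) (nat_lit 0) (nat_lit 109082369964) (nat_lit 836) (nat_lit 233345614050) (nat_lit 128) (nat_lit 5) (nat_lit 127) (nat_lit 5) (nat_lit 138) (nat_lit 5) (nat_lit 497) (nat_lit 492) (nat_lit 211)) (XT.lf (nat_lit 0) (nat_lit 199078102704) (nat_lit 760) (nat_lit 135800672150) (nat_lit 836) (nat_lit 85485443786) (nat_lit 128) (nat_lit 5) (nat_lit 138) (nat_lit 5) (nat_lit 139) (nat_lit 5) (nat_lit 498) (nat_lit 492) (nat_lit 210))) (XT.nd (nat_lit 78) (nat_lit 0) (nat_lit 76) (XT.lf (nat_lit 76) (nat_lit 81994073600) (nat_lit 0) (nat_lit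 143946609666) (nat_lit 836) (nat_lit 205401856478) (nat_lit 129) (nat_lit 5) (nat_lit 128) (nat_lit 5) (nat_lit 139) (nat_lit 5) (nat_lit 499) (nat_lit 492) (nat_lit 209)) (XT.lf (nat_lit 0) (nat_lit 257366547101) (nat_lit 760) (nat_lit 128281882581) (nat_lit 836) (nat_lit 57060339516) (nat_lit 129) (nat_lit 5) (nat_lit 139) (nat_lit 5) (nat_lit 140) (nat_lit 5) (nat_lit 500) (nat_lit 492) (nat_lit 208)))))) (XT.nd (nat_lit 546) (nat_lit 1292) (nat_lit 0) (XT.nd (nat_lit 234) (nat_lit 836) (nat_lit 0) (XT.nd (nat_lit 78) (nat_lit 684) (nat_lit 0) (XT.lf (nat_lit 76) (nat_lit 104833559666) (nat_lit 0) (nat_lit 189526647927) (nat_lit 836) (nat_lit 160083277370) (nat_lit 130) (nat_lit 5) (nat_lit 129) (nat_lit 5) (nat_lit 140) (nat_lit 5) (nat_lit 501) (nat_lit 492) (nat_lit 207)) (XT.nd (nat_lit 78) (nat_lit 760) (nat_lit 0) (XT.lf (nat_lit 0) (nat_lit 335667729096) (nat_lit 760) (nat_lit 112889582945)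 (nat_lit 76) (nat_lit 18084415582) (nat_lit 130) (nat_lit 5) (nat_lit 140) (nat_lit 5) (nat_lit 131) (nat_lit 5) (nat_lit 502) (nat_lit 492) (nat_lit 206)) (XT.lf (nat_lit 0) (nat_lit 136942788198) (nat_lit 760) (nat_lit 247342872617) (nat_lit 836) (nat_lit 94901969903) (nat_lit 120) (nat_lit 5) (nat_lit 130) (nat_lit 5) (nat_lit 131) (nat_lit 5) (nat_lit 503) (nat_lit 492) (nat_lit 205)))) (XT.nd (nat_lit 156) (nat_lit 456) (nat_lit 0) (XT.nd (nat_lit 78) (nat_lit 380) (nat_lit 0) (XT.lf (nat_lit 0) (nat_lit 403186031060) (nat_lit 760) (nat_lit 34060277681) (nat_lit 836) (nat_lit 55018929251) (nat_lit 120) (nat_lit 5) (nat_lit 130) (nat_lit 5) (nat_lit 131) (nat_lit 5) (nat_lit 504) (nat_lit 492) (nat_lit 204)) (XT.lf (nat_lit 0) (nat_lit 179525985157) (nat_lit 380) (nat_lit 319096548148) (nat_lit 456) (nat_lit 7085815122) (nat_lit 115) (nat_lit 5) (nat_lit 120) (nat_lit 5) (nat_lit 121) (nat_lit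 5) (nat_lit 505) (nat_lit 492) (nat_lit 203))) (XT.nd (nat_lit 78) (nat_lit 380) (nat_lit 0) (XT.lf (nat_lit 0) (nat_lit 43951555130) (nat_lit 456) (nat_lit 56352393011) (nat_lit 76) (nat_lit 419381324432) (nat_lit 114) (nat_lit 5) (nat_lit 120) (nat_lit 5) (nat_lit 115) (nat_lit 5) (nat_lit 506) (nat_lit 492) (nat_lit 202)) (XT.lf (nat_lit 0) (nat_lit 103044188585) (nat_lit 456) (nat_lit 301901236311) (nat_lit 76) (nat_lit 129122733763) (nat_lit 109) (nat_lit 5) (nat_lit 115) (nat_lit 5) (nat_lit 110) (nat_lit 5) (nat_lit 507) (nat_lit 492) (nat_lit 201))))) (XT.nd (nat_lit 234) (nat_lit 608) (nat_lit 0) (XT.nd (nat_lit 78) (nat_lit 684) (nat_lit 0) (XT.lf (nat_lit 0) (nat_lit 167705763622) (nat_lit 456) (nat_lit 13713830557) (nat_lit 76) (nat_lit 367619879380) (nat_lit 109) (nat_lit 5) (nat_lit 115) (nat_lit 5) (nat_lit 110) (nat_lit 5) (nat_lit 508) (nat_lit 492) (nat_lit 200)) (XT.nd (nat_lit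 78) (nat_lit 304) (nat_lit 0) (XT.lf (nat_lit 0) (nat_lit 241168076195) (nat_lit 456) (nat_lit 266999955943) (nat_lit 76) (nat_lit 56312939133) (nat_lit 104) (nat_lit 5) (nat_lit 110) (nat_lit 5) (nat_lit 105) (nat_lit 5) (nat_lit 509) (nat_lit 492) (nat_lit 199)) (XT.lf (nat_lit 0) (nat_lit 42408195377) (nat_lit 304) (nat_lit 279767553250) (nat_lit 380) (nat_lit 258325183035) (nat_lit 100) (nat_lit 5) (nat_lit 104) (nat_lit 5) (nat_lit 105) (nat_lit 5) (nat_lit 510) (nat_lit 492) (nat_lit 198)))) (XT.nd (nat_lit 156) (nat_lit 304) (nat_lit 0) (XT.nd (nat_lit 78) (nat_lit 304) (nat_lit 0) (XT.lf (nat_lit 0) (nat_lit 376556372105) (nat_lit 304) (nat_lit 35199190513) (nat_lit 380) (nat_lit 185340239563) (nat_lit 100) (nat_lit 5) (nat_lit 104) (nat_lit 5) (nat_lit 105) (nat_lit 5) (nat_lit 511) (nat_lit 492) (nat_lit 197)) (XT.lf (nat_lit 0) (nat_lit 113050072777) (nat_lit 304) (nat_lit 397989067599)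 (nat_lit 380) (nat_lit 103220037203) (nat_lit 96) (nat_lit 5) (nat_lit 100) (nat_lit 5) (nat_lit 101) (nat_lit 5) (nat_lit 512) (nat_lit 492) (nat_lit 196))) (XT.nd (nat_lit 78) (nat_lit 304) (nat_lit 0) (XT.lf (nat_lit 0) (nat_lit 470379549164) (nat_lit 304) (nat_lit 149210004328) (nat_lit 380) (nat_lit 12476035435) (nat_lit 96) (nat_lit 5) (nat_lit 100) (nat_lit 5) (nat_lit 101) (nat_lit 5) (nat_lit 513) (nat_lit 492) (nat_lit 195)) (XT.lf (nat_lit 0) (nat_lit 85097287363) (nat_lit 304) (nat_lit 452443739903) (nat_lit 76) (nat_lit 112909532374) (nat_lit 92) (nat_lit 5) (nat_lit 96) (nat_lit 5) (nat_lit 93) (nat_lit 5) (nat_lit 514) (nat_lit 492) (nat_lit 194))))))) (XT.nd (nat_lit 1170) (nat_lit 228) (nat_lit 0) (XT.nd (nat_lit 546) (nat_lit 836) (nat_lit 0) (XT.nd (nat_lit 234) (nat_lit 760) (nat_lit 0) (XT.nd (nat_lit 78) (nat_lit 304) (nat_lit 0) (XT.lf (nat_lit 0) (nat_lit 192359172141)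 (nat_lit 304) (nat_lit 91015668066) (nat_lit 76) (nat_lit 386108253805) (nat_lit 92) (nat_lit 5) (nat_lit 96) (nat_lit 5) (nat_lit 93) (nat_lit 5) (nat_lit 515) (nat_lit 492) (nat_lit 193)) (XT.nd (nat_lit 78) (nat_lit 0) (nat_lit 0) (XT.lf (nat_lit 0) (nat_lit 298022367837) (nat_lit 304) (nat_lit 11614734775) (nat_lit 380) (nat_lit 379597504924) (nat_lit 88) (nat_lit 5) (nat_lit 92) (nat_lit 5) (nat_lit 93) (nat_lit 5) (nat_lit 516) (nat_lit 492) (nat_lit 192)) (XT.lf (nat_lit 0) (nat_lit 438619325269) (nat_lit 380) (nat_lit 4523493689) (nat_lit 76) (nat_lit 266538857996) (nat_lit 88) (nat_lit 5) (nat_lit 93) (nat_lit 5) (nat_lit 89) (nat_lit 5) (nat_lit 517) (nat_lit 492) (nat_lit 191)))) (XT.nd (nat_lit 156) (nat_lit 304) (nat_lit 0) (XT.nd (nat_lit 78) (nat_lit 228) (nat_lit 0) (XT.lf (nat_lit 0) (nat_lit 414578364912) (nat_lit 228) (nat_lit 166135417757) (nat_lit 304) (nat_lit 150104160999)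 (nat_lit 85) (nat_lit 5) (nat_lit 88) (nat_lit 5) (nat_lit 89) (nat_lit 5) (nat_lit 518) (nat_lit 492) (nat_lit 190)) (XT.lf (nat_lit 0) (nat_lit 103137680895) (nat_lit 228) (nat_lit 630410667426) (nat_lit 304) (nat_lit 19280906130) (nat_lit 82) (nat_lit 5) (nat_lit 85) (nat_lit 5) (nat_lit 86) (nat_lit 5) (nat_lit 519) (nat_lit 492) (nat_lit 189))) (XT.nd (nat_lit 78) (nat_lit 228) (nat_lit 0) (XT.lf (nat_lit 0) (nat_lit 122471089639) (nat_lit 304) (nat_lit 225865379880) (nat_lit 76) (nat_lit 427104131132) (nat_lit 81) (nat_lit 5) (nat_lit 85) (nat_lit 5) (nat_lit 82) (nat_lit 5) (nat_lit 520) (nat_lit 492) (nat_lit 188)) (XT.lf (nat_lit 0) (nat_lit 226071734809) (nat_lit 228) (nat_lit 48120587781) (nat_lit 304) (nat_lit 524797907438) (nat_lit 78) (nat_lit 5) (nat_lit 81) (nat_lit 5) (nat_lit 82) (nat_lit 5) (nat_lit 521) (nat_lit 492) (nat_lit 187))))) (XT.nd (nat_lit 234) (nat_lit 456) (nat_lit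 0) (XT.nd (nat_lit 78) (nat_lit 380) (nat_lit 0) (XT.lf (nat_lit 0) (nat_lit 441557727633) (nat_lit 304) (nat_lit 119311840320) (nat_lit 76) (nat_lit 262444867402) (nat_lit 78) (nat_lit 5) (nat_lit 82) (nat_lit 5) (nat_lit 79) (nat_lit 5) (nat_lit 522) (nat_lit 492) (nat_lit 186)) (XT.nd (nat_lit 78) (nat_lit 152) (nat_lit 0) (XT.lf (nat_lit 0) (nat_lit 367963396836) (nat_lit 228) (nat_lit 255861797686) (nat_lit 304) (nat_lit 224702966848) (nat_lit 75) (nat_lit 5) (nat_lit 78) (nat_lit 5) (nat_lit 79) (nat_lit 5) (nat_lit 523) (nat_lit 492) (nat_lit 185)) (XT.lf (nat_lit 0) (nat_lit 8062595877) (nat_lit 152) (nat_lit 810328444509) (nat_lit 228) (nat_lit 56452283021) (nat_lit 73) (nat_lit 5) (nat_lit 75) (nat_lit 5) (nat_lit 76) (nat_lit 5) (nat_lit 524) (nat_lit 492) (nat_lit 184)))) (XT.nd (nat_lit 234) (nat_lit 152) (nat_lit 0) (XT.nd (nat_lit 78) (nat_lit 228) (nat_lit 0) (XT.lf (nat_lit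 0) (nat_lit 128829896413) (nat_lit 228) (nat_lit 370466586169) (nat_lit 76) (nat_lit 402460596384) (nat_lit 72) (nat_lit 5) (nat_lit 75) (nat_lit 5) (nat_lit 73) (nat_lit 5) (nat_lit 525) (nat_lit 492) (nat_lit 183)) (XT.lf (nat_lit 0) (nat_lit 154688808298) (nat_lit 228) (nat_lit 169205325855) (nat_lit 304) (nat_lit 605955359977) (nat_lit 69) (nat_lit 5) (nat_lit 72) (nat_lit 5) (nat_lit 73) (nat_lit 5) (nat_lit 526) (nat_lit 492) (nat_lit 182))) (XT.nd (nat_lit 78) (nat_lit 0) (nat_lit 0) (XT.lf (nat_lit 0) (nat_lit 323467716141) (nat_lit 152) (nat_lit 446876468965) (nat_lit 228) (nat_lit 218645518713) (nat_lit 67) (nat_lit 5) (nat_lit 69) (nat_lit 5) (nat_lit 70) (nat_lit 5) (nat_lit 528) (nat_lit 492) (nat_lit 180)) (XT.lf (nat_lit 0) (nat_lit 926631782900) (nat_lit 152) (nat_lit 91937199735) (nat_lit 228) (nat_lit 1820525328) (nat_lit 67) (nat_lit 5) (nat_lit 69) (nat_lit 5) (nat_lit 70)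 (nat_lit 5) (nat_lit 529) (nat_lit 492) (nat_lit 179)))))) (XT.nd (nat_lit 60060) (nat_lit 0) (nat_lit 3876) (XT.nd (nat_lit 59748) (nat_lit 0) (nat_lit 4712) (XT.nd (nat_lit 59592) (nat_lit 0) (nat_lit 4636) (XT.lf (nat_lit 0) (nat_lit 231305346710) (nat_lit 228) (nat_lit 537649024135) (nat_lit 76) (nat_lit 283594222124) (nat_lit 64) (nat_lit 5) (nat_lit 67) (nat_lit 5) (nat_lit 65) (nat_lit 5) (nat_lit 530) (nat_lit 492) (nat_lit 178)) (XT.nd (nat_lit 78) (nat_lit 0) (nat_lit 0) (XT.lf (nat_lit 0) (nat_lit 63517756577) (nat_lit 836) (nat_lit 63194964989) (nat_lit 836) (nat_lit 63194964989) (nat_lit 125) (nat_lit 3) (nat_lit 136) (nat_lit 3) (nat_lit 136) (nat_lit 5) (nat_lit 493) (nat_lit 493) (nat_lit 214)) (XT.lf (nat_lit 76) (nat_lit 61648767669) (nat_lit 0) (nat_lit 69525587086) (nat_lit 836) (nat_lit 258088254822) (nat_lit 126) (nat_lit 5) (nat_lit 125) (nat_lit 3) (nat_lit 136) (nat_lit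 5) (nat_lit 494) (nat_lit 493) (nat_lit 213)))) (XT.nd (nat_lit 156) (nat_lit 0) (nat_lit 76) (XT.nd (nat_lit 78) (nat_lit 0) (nat_lit 0) (XT.lf (nat_lit 0) (nat_lit 139624936844) (nat_lit 760) (nat_lit 137562180253) (nat_lit 836) (nat_lit 121789850860) (nat_lit 126) (nat_lit 5) (nat_lit 136) (nat_lit 5) (nat_lit 137) (nat_lit 5) (nat_lit 495) (nat_lit 493) (nat_lit 212)) (XT.lf (nat_lit 76) (nat_lit 62864335855) (nat_lit 0) (nat_lit 87754937280) (nat_lit 836) (nat_lit 258451709877) (nat_lit 127) (nat_lit 5) (nat_lit 126) (nat_lit 5) (nat_lit 137) (nat_lit 5) (nat_lit 496) (nat_lit 493) (nat_lit 211))) (XT.nd (nat_lit 78) (nat_lit 0) (nat_lit 0) (XT.lf (nat_lit 0) (nat_lit 166266519015) (nat_lit 760) (nat_lit 143238742705) (nat_lit 836) (nat_lit 109959277471) (nat_lit 127) (nat_lit 5) (nat_lit 137) (nat_lit 5) (nat_lit 138) (nat_lit 5) (nat_lit 497) (nat_lit 493) (nat_lit 210)) (XT.lf (nat_lit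 76) (nat_lit 70701835080) (nat_lit 0) (nat_lit 114536726771) (nat_lit 836) (nat_lit 245012089605) (nat_lit 128) (nat_lit 5) (nat_lit 127) (nat_lit 5) (nat_lit 138) (nat_lit 5) (nat_lit 498) (nat_lit 493) (nat_lit 209))))) (XT.nd (nat_lit 312) (nat_lit 988) (nat_lit 0) (XT.nd (nat_lit 156) (nat_lit 0) (nat_lit 76) (XT.nd (nat_lit 78) (nat_lit 0) (nat_lit 0) (XT.lf (nat_lit 0) (nat_lit 209032734321) (nat_lit 760) (nat_lit 142590162368) (nat_lit 836) (nat_lit 89759496280) (nat_lit 128) (nat_lit 5) (nat_lit 138) (nat_lit 5) (nat_lit 139) (nat_lit 5) (nat_lit 499) (nat_lit 493) (nat_lit 208)) (XT.lf (nat_lit 76) (nat_lit 86094311905) (nat_lit 0) (nat_lit 151144105758) (nat_lit 836) (nat_lit 215671213789) (nat_lit 129) (nat_lit 5) (nat_lit 128) (nat_lit 5) (nat_lit 139) (nat_lit 5) (nat_lit 500) (nat_lit 493) (nat_lit 207))) (XT.nd (nat_lit 78) (nat_lit 0) (nat_lit 0) (XT.lf (nat_lit 0) (nat_lit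 270235538884) (nat_lit 760) (nat_lit 134695431483) (nat_lit 836) (nat_lit 59913203817) (nat_lit 129) (nat_lit 5) (nat_lit 139) (nat_lit 5) (nat_lit 140) (nat_lit 5) (nat_lit 501) (nat_lit 493) (nat_lit 206)) (XT.lf (nat_lit 76) (nat_lit 110075774083) (nat_lit 0) (nat_lit 199003085053) (nat_lit 836) (nat_lit 168086767775) (nat_lit 130) (nat_lit 5) (nat_lit 129) (nat_lit 5) (nat_lit 140) (nat_lit 5) (nat_lit 502) (nat_lit 493) (nat_lit 205)))) (XT.nd (nat_lit 156) (nat_lit 380) (nat_lit 0) (XT.nd (nat_lit 78) (nat_lit 760) (nat_lit 0) (XT.lf (nat_lit 0) (nat_lit 352451724626) (nat_lit 760) (nat_lit 118533518884) (nat_lit 76) (nat_lit 18988539811) (nat_lit 130) (nat_lit 5) (nat_lit 140) (nat_lit 5) (nat_lit 131) (nat_lit 5) (nat_lit 503) (nat_lit 493) (nat_lit 204)) (XT.lf (nat_lit 0) (nat_lit 143790462054) (nat_lit 760) (nat_lit 259710070216) (nat_lit 836) (nat_lit 99646450343) (nat_lit 120)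 (nat_lit 5) (nat_lit 130) (nat_lit 5) (nat_lit 131) (nat_lit 5) (nat_lit 504) (nat_lit 493) (nat_lit 203))) (XT.nd (nat_lit 78) (nat_lit 380) (nat_lit 0) (XT.lf (nat_lit 0) (nat_lit 423345841610) (nat_lit 760) (nat_lit 35763342964) (nat_lit 836) (nat_lit 57769287090) (nat_lit 120) (nat_lit 5) (nat_lit 130) (nat_lit 5) (nat_lit 131) (nat_lit 5) (nat_lit 505) (nat_lit 493) (nat_lit 202)) (XT.lf (nat_lit 0) (nat_lit 188502813764) (nat_lit 380) (nat_lit 335051387416) (nat_lit 456) (nat_lit 7439537409) (nat_lit 115) (nat_lit 5) (nat_lit 120) (nat_lit 5) (nat_lit 121) (nat_lit 5) (nat_lit 506) (nat_lit 493) (nat_lit 201))))))))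
noncomputable def xc247 : XT := (XT.nd (nat_lit 61776) (nat_lit 0) (nat_lit 456) (XT.nd (nat_lit 1092) (nat_lit 1140) (nat_lit 0) (XT.nd (nat_lit 546) (nat_lit 1064) (nat_lit 0) (XT.nd (nat_lit 234) (nat_lit 988) (nat_lit 0) (XT.nd (nat_lit 78) (nat_lit 380) (nat_lit 0) (XT.lf (nat_lit 0) (nat_lit 46149656958) (nat_lit 456) (nat_lit 59169491010) (nat_lit 76) (nat_lit 440350361849) (nat_lit 114) (nat_lit 5) (nat_lit 120) (nat_lit 5) (nat_lit 115) (nat_lit 5) (nat_lit 507) (nat_lit 493) (nat_lit 200)) (XT.nd (nat_lit 78) (nat_lit 0) (nat_lit 0) (XT.lf (nat_lit 0) (nat_lit 108196905238) (nat_lit 456) (nat_lit 316995759456) (nat_lit 76) (nat_lit 135578876364) (nat_lit 109) (nat_lit 5) (nat_lit 115) (nat_lit 5) (nat_lit 110) (nat_lit 5) (nat_lit 508) (nat_lit 493) (nat_lit 199)) (XT.lf (nat_lit 0) (nat_lit 176091534874) (nat_lit 456) (nat_lit 14399009065) (nat_lit 76) (nat_lit 386000878981) (nat_lit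 109) (nat_lit 5) (nat_lit 115) (nat_lit 5) (nat_lit 110) (nat_lit 5) (nat_lit 509) (nat_lit 493) (nat_lit 198)))) (XT.nd (nat_lit 156) (nat_lit 304) (nat_lit 0) (XT.nd (nat_lit 78) (nat_lit 304) (nat_lit 0) (XT.lf (nat_lit 0) (nat_lit 253226948527) (nat_lit 456) (nat_lit 280349426017) (nat_lit 76) (nat_lit 59128621709) (nat_lit 104) (nat_lit 5) (nat_lit 110) (nat_lit 5) (nat_lit 105) (nat_lit 5) (nat_lit 510) (nat_lit 493) (nat_lit 197)) (XT.lf (nat_lit 0) (nat_lit 44529124357) (nat_lit 304) (nat_lit 293755866019) (nat_lit 380) (nat_lit 271240965005) (nat_lit 100) (nat_lit 5) (nat_lit 104) (nat_lit 5) (nat_lit 105) (nat_lit 5) (nat_lit 511) (nat_lit 493) (nat_lit 196))) (XT.nd (nat_lit 78) (nat_lit 304) (nat_lit 0) (XT.lf (nat_lit 0) (nat_lit 395384685198) (nat_lit 304) (nat_lit 36959088236) (nat_lit 380) (nat_lit 194606797082) (nat_lit 100) (nat_lit 5) (nat_lit 104) (nat_lit 5) (nat_lit 105)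 (nat_lit 5) (nat_lit 512) (nat_lit 493) (nat_lit 195)) (XT.lf (nat_lit 0) (nat_lit 118703083402) (nat_lit 304) (nat_lit 417888434906) (nat_lit 380) (nat_lit 108380596968) (nat_lit 96) (nat_lit 5) (nat_lit 100) (nat_lit 5) (nat_lit 101) (nat_lit 5) (nat_lit 513) (nat_lit 493) (nat_lit 194))))) (XT.nd (nat_lit 234) (nat_lit 760) (nat_lit 0) (XT.nd (nat_lit 78) (nat_lit 304) (nat_lit 0) (XT.lf (nat_lit 0) (nat_lit 493899009466) (nat_lit 304) (nat_lit 156670422570) (nat_lit 380) (nat_lit 13099416164) (nat_lit 96) (nat_lit 5) (nat_lit 100) (nat_lit 5) (nat_lit 101) (nat_lit 5) (nat_lit 514) (nat_lit 493) (nat_lit 193)) (XT.nd (nat_lit 78) (nat_lit 0) (nat_lit 0) (XT.lf (nat_lit 0) (nat_lit 89352548962) (nat_lit 304) (nat_lit 475065420004) (nat_lit 76) (nat_lit 118555098678) (nat_lit 92) (nat_lit 5) (nat_lit 96) (nat_lit 5) (nat_lit 93) (nat_lit 5) (nat_lit 515) (nat_lit 493) (nat_lit 192)) (XT.lf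 (nat_lit 0) (nat_lit 201977509063) (nat_lit 304) (nat_lit 95565968714) (nat_lit 76) (nat_lit 405413751910) (nat_lit 92) (nat_lit 5) (nat_lit 96) (nat_lit 5) (nat_lit 93) (nat_lit 5) (nat_lit 516) (nat_lit 493) (nat_lit 191)))) (XT.nd (nat_lit 156) (nat_lit 456) (nat_lit 0) (XT.nd (nat_lit 78) (nat_lit 0) (nat_lit 0) (XT.lf (nat_lit 0) (nat_lit 312923961198) (nat_lit 304) (nat_lit 12195364259) (nat_lit 380) (nat_lit 398576993964) (nat_lit 88) (nat_lit 5) (nat_lit 92) (nat_lit 5) (nat_lit 93) (nat_lit 5) (nat_lit 517) (nat_lit 493) (nat_lit 190)) (XT.lf (nat_lit 0) (nat_lit 460550643333) (nat_lit 380) (nat_lit 4749200006) (nat_lit 76) (nat_lit 279865899773) (nat_lit 88) (nat_lit 5) (nat_lit 93) (nat_lit 5) (nat_lit 89) (nat_lit 5) (nat_lit 518) (nat_lit 493) (nat_lit 189))) (XT.nd (nat_lit 78) (nat_lit 228) (nat_lit 0) (XT.lf (nat_lit 0) (nat_lit 435307743971) (nat_lit 228) (nat_lit 174442070074)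 (nat_lit 304) (nat_lit 157609009599) (nat_lit 85) (nat_lit 5) (nat_lit 88) (nat_lit 5) (nat_lit 89) (nat_lit 5) (nat_lit 519) (nat_lit 493) (nat_lit 188)) (XT.lf (nat_lit 0) (nat_lit 108295033430) (nat_lit 228) (nat_lit 661931067330) (nat_lit 304) (nat_lit 20244599571) (nat_lit 82) (nat_lit 5) (nat_lit 85) (nat_lit 5) (nat_lit 86) (nat_lit 5) (nat_lit 520) (nat_lit 493) (nat_lit 187)))))) (XT.nd (nat_lit 546) (nat_lit 152) (nat_lit 0) (XT.nd (nat_lit 234) (nat_lit 684) (nat_lit 0) (XT.nd (nat_lit 78) (nat_lit 228) (nat_lit 0) (XT.lf (nat_lit 0) (nat_lit 128594968504) (nat_lit 304) (nat_lit 237158191885) (nat_lit 76) (nat_lit 448459453992) (nat_lit 81) (nat_lit 5) (nat_lit 85) (nat_lit 5) (nat_lit 82) (nat_lit 5) (nat_lit 521) (nat_lit 493) (nat_lit 186)) (XT.nd (nat_lit 78) (nat_lit 0) (nat_lit 0) (XT.lf (nat_lit 0) (nat_lit 237375771167) (nat_lit 228) (nat_lit 50526483509) (nat_lit 304) (nat_lit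 551037470977) (nat_lit 78) (nat_lit 5) (nat_lit 81) (nat_lit 5) (nat_lit 82) (nat_lit 5) (nat_lit 522) (nat_lit 493) (nat_lit 185)) (XT.lf (nat_lit 0) (nat_lit 463635916913) (nat_lit 304) (nat_lit 125276990995) (nat_lit 76) (nat_lit 275567233994) (nat_lit 78) (nat_lit 5) (nat_lit 82) (nat_lit 5) (nat_lit 79) (nat_lit 5) (nat_lit 523) (nat_lit 493) (nat_lit 184)))) (XT.nd (nat_lit 156) (nat_lit 304) (nat_lit 0) (XT.nd (nat_lit 78) (nat_lit 152) (nat_lit 0) (XT.lf (nat_lit 0) (nat_lit 386362000901) (nat_lit 228) (nat_lit 268654748602) (nat_lit 304) (nat_lit 235937805102) (nat_lit 75) (nat_lit 5) (nat_lit 78) (nat_lit 5) (nat_lit 79) (nat_lit 5) (nat_lit 524) (nat_lit 493) (nat_lit 183)) (XT.lf (nat_lit 0) (nat_lit 8466165350) (nat_lit 152) (nat_lit 850844717181) (nat_lit 228) (nat_lit 59274592473) (nat_lit 73) (nat_lit 5) (nat_lit 75) (nat_lit 5) (nat_lit 76) (nat_lit 5) (nat_lit 525) (nat_lit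 493) (nat_lit 182))) (XT.nd (nat_lit 78) (nat_lit 228) (nat_lit 0) (XT.lf (nat_lit 0) (nat_lit 135271672136) (nat_lit 228) (nat_lit 388989487386) (nat_lit 76) (nat_lit 422583759286) (nat_lit 72) (nat_lit 5) (nat_lit 75) (nat_lit 5) (nat_lit 73) (nat_lit 5) (nat_lit 526) (nat_lit 493) (nat_lit 181)) (XT.lf (nat_lit 0) (nat_lit 162423669900) (nat_lit 228) (nat_lit 177665445064) (nat_lit 304) (nat_lit 636252840110) (nat_lit 69) (nat_lit 5) (nat_lit 72) (nat_lit 5) (nat_lit 73) (nat_lit 5) (nat_lit 527) (nat_lit 493) (nat_lit 180))))) (XT.nd (nat_lit 59826) (nat_lit 0) (nat_lit 4408) (XT.nd (nat_lit 78) (nat_lit 152) (nat_lit 0) (XT.lf (nat_lit 0) (nat_lit 564751183513) (nat_lit 304) (nat_lit 255088185550) (nat_lit 76) (nat_lit 186994286413) (nat_lit 69) (nat_lit 5) (nat_lit 73) (nat_lit 5) (nat_lit 70) (nat_lit 5) (nat_lit 528) (nat_lit 493) (nat_lit 179)) (XT.nd (nat_lit 78) (nat_lit 0) (nat_lit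 0) (XT.lf (nat_lit 0) (nat_lit 339641507353) (nat_lit 152) (nat_lit 469220144039) (nat_lit 228) (nat_lit 229577524712) (nat_lit 67) (nat_lit 5) (nat_lit 69) (nat_lit 5) (nat_lit 70) (nat_lit 5) (nat_lit 529) (nat_lit 493) (nat_lit 178)) (XT.lf (nat_lit 0) (nat_lit 972963758145) (nat_lit 152) (nat_lit 96533918413) (nat_lit 228) (nat_lit 1911294513) (nat_lit 67) (nat_lit 5) (nat_lit 69) (nat_lit 5) (nat_lit 70) (nat_lit 5) (nat_lit 530) (nat_lit 493) (nat_lit 177)))) (XT.nd (nat_lit 156) (nat_lit 0) (nat_lit 76) (XT.nd (nat_lit 78) (nat_lit 0) (nat_lit 0) (XT.lf (nat_lit 0) (nat_lit 66694081216) (nat_lit 836) (nat_lit 66354483828) (nat_lit 836) (nat_lit 66354483828) (nat_lit 125) (nat_lit 3) (nat_lit 136) (nat_lit 3) (nat_lit 136) (nat_lit 5) (nat_lit 494) (nat_lit 494) (nat_lit 212)) (XT.lf (nat_lit 76) (nat_lit 64731657472) (nat_lit 0) (nat_lit 73002254087) (nat_lit 836) (nat_lit 270991786220)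 (nat_lit 126) (nat_lit 5) (nat_lit 125) (nat_lit 3) (nat_lit 136) (nat_lit 5) (nat_lit 495) (nat_lit 494) (nat_lit 211))) (XT.nd (nat_lit 78) (nat_lit 0) (nat_lit 0) (XT.lf (nat_lit 0) (nat_lit 146606977033) (nat_lit 760) (nat_lit 144439813314) (nat_lit 836) (nat_lit 127878986032) (nat_lit 126) (nat_lit 5) (nat_lit 136) (nat_lit 5) (nat_lit 137) (nat_lit 5) (nat_lit 496) (nat_lit 494) (nat_lit 210)) (XT.lf (nat_lit 76) (nat_lit 66008020923) (nat_lit 0) (nat_lit 92142978748) (nat_lit 836) (nat_lit 271373494054) (nat_lit 127) (nat_lit 5) (nat_lit 126) (nat_lit 5) (nat_lit 137) (nat_lit 5) (nat_lit 497) (nat_lit 494) (nat_lit 209))))))) (XT.nd (nat_lit 1092) (nat_lit 2356) (nat_lit 0) (XT.nd (nat_lit 546) (nat_lit 1748) (nat_lit 0) (XT.nd (nat_lit 234) (nat_lit 0) (nat_lit 76) (XT.nd (nat_lit 78) (nat_lit 0) (nat_lit 0) (XT.lf (nat_lit 0) (nat_lit 174580567137) (nat_lit 760) (nat_lit 150400192876)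 (nat_lit 836) (nat_lit 115456969749) (nat_lit 127) (nat_lit 5) (nat_lit 137) (nat_lit 5) (nat_lit 138) (nat_lit 5) (nat_lit 498) (nat_lit 494) (nat_lit 208)) (XT.nd (nat_lit 78) (nat_lit 0) (nat_lit 76) (XT.lf (nat_lit 76) (nat_lit 74237405943) (nat_lit 0) (nat_lit 120263779263) (nat_lit 836) (nat_lit 257261963794) (nat_lit 128) (nat_lit 5) (nat_lit 127) (nat_lit 5) (nat_lit 138) (nat_lit 5) (nat_lit 499) (nat_lit 494) (nat_lit 207)) (XT.lf (nat_lit 0) (nat_lit 219485029977) (nat_lit 760) (nat_lit 149719177617) (nat_lit 836) (nat_lit 94247271823) (nat_lit 128) (nat_lit 5) (nat_lit 138) (nat_lit 5) (nat_lit 139) (nat_lit 5) (nat_lit 500) (nat_lit 494) (nat_lit 206)))) (XT.nd (nat_lit 156) (nat_lit 0) (nat_lit 76) (XT.nd (nat_lit 78) (nat_lit 0) (nat_lit 76) (XT.lf (nat_lit 76) (nat_lit 90399512421) (nat_lit 0) (nat_lit 158701461259) (nat_lit 836) (nat_lit 226454107347) (nat_lit 129) (nat_lit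 5) (nat_lit 128) (nat_lit 5) (nat_lit 139) (nat_lit 5) (nat_lit 501) (nat_lit 494) (nat_lit 205)) (XT.lf (nat_lit 0) (nat_lit 283747918484) (nat_lit 760) (nat_lit 141429708520) (nat_lit 836) (nat_lit 62908725527) (nat_lit 129) (nat_lit 5) (nat_lit 139) (nat_lit 5) (nat_lit 140) (nat_lit 5) (nat_lit 502) (nat_lit 494) (nat_lit 204))) (XT.nd (nat_lit 78) (nat_lit 0) (nat_lit 76) (XT.lf (nat_lit 76) (nat_lit 115580049348) (nat_lit 0) (nat_lit 208953334299) (nat_lit 836) (nat_lit 176490495313) (nat_lit 130) (nat_lit 5) (nat_lit 129) (nat_lit 5) (nat_lit 140) (nat_lit 5) (nat_lit 503) (nat_lit 494) (nat_lit 203)) (XT.lf (nat_lit 0) (nat_lit 370074863305) (nat_lit 760) (nat_lit 124459702123) (nat_lit 76) (nat_lit 19937879227) (nat_lit 130) (nat_lit 5) (nat_lit 140) (nat_lit 5) (nat_lit 131) (nat_lit 5) (nat_lit 504) (nat_lit 494) (nat_lit 202))))) (XT.nd (nat_lit 234) (nat_lit 836) (nat_lit 0) (XT.nd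 (nat_lit 78) (nat_lit 380) (nat_lit 0) (XT.lf (nat_lit 0) (nat_lit 150980469916) (nat_lit 760) (nat_lit 272695622678) (nat_lit 836) (nat_lit 104628212266) (nat_lit 120) (nat_lit 5) (nat_lit 130) (nat_lit 5) (nat_lit 131) (nat_lit 5) (nat_lit 505) (nat_lit 494) (nat_lit 201)) (XT.nd (nat_lit 78) (nat_lit 380) (nat_lit 0) (XT.lf (nat_lit 0) (nat_lit 444513595366) (nat_lit 760) (nat_lit 37551556733) (nat_lit 836) (nat_lit 60657217545) (nat_lit 120) (nat_lit 5) (nat_lit 130) (nat_lit 5) (nat_lit 131) (nat_lit 5) (nat_lit 506) (nat_lit 494) (nat_lit 200)) (XT.lf (nat_lit 0) (nat_lit 197928434588) (nat_lit 380) (nat_lit 351803967545) (nat_lit 456) (nat_lit 7810998661) (nat_lit 115) (nat_lit 5) (nat_lit 120) (nat_lit 5) (nat_lit 121) (nat_lit 5) (nat_lit 507) (nat_lit 494) (nat_lit 199)))) (XT.nd (nat_lit 156) (nat_lit 380) (nat_lit 0) (XT.nd (nat_lit 78) (nat_lit 380) (nat_lit 0) (XT.lf (nat_lit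 0) (nat_lit 48457615154) (nat_lit 456) (nat_lit 62127492408) (nat_lit 76) (nat_lit 462367853815) (nat_lit 114) (nat_lit 5) (nat_lit 120) (nat_lit 5) (nat_lit 115) (nat_lit 5) (nat_lit 508) (nat_lit 494) (nat_lit 198)) (XT.lf (nat_lit 0) (nat_lit 113607210567) (nat_lit 456) (nat_lit 332845058840) (nat_lit 76) (nat_lit 142357825546) (nat_lit 109) (nat_lit 5) (nat_lit 115) (nat_lit 5) (nat_lit 110) (nat_lit 5) (nat_lit 509) (nat_lit 494) (nat_lit 197))) (XT.nd (nat_lit 78) (nat_lit 380) (nat_lit 0) (XT.lf (nat_lit 0) (nat_lit 184896549777) (nat_lit 456) (nat_lit 15118494195) (nat_lit 76) (nat_lit 405300928038) (nat_lit 109) (nat_lit 5) (nat_lit 115) (nat_lit 5) (nat_lit 110) (nat_lit 5) (nat_lit 510) (nat_lit 494) (nat_lit 196)) (XT.lf (nat_lit 0) (nat_lit 265888720917) (nat_lit 456) (nat_lit 294366418657) (nat_lit 76) (nat_lit 62085085102) (nat_lit 104) (nat_lit 5) (nat_lit 110) (nat_lit 5) (nat_lit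 105) (nat_lit 5) (nat_lit 511) (nat_lit 494) (nat_lit 195)))))) (XT.nd (nat_lit 546) (nat_lit 1140) (nat_lit 0) (XT.nd (nat_lit 234) (nat_lit 608) (nat_lit 0) (XT.nd (nat_lit 78) (nat_lit 304) (nat_lit 0) (XT.lf (nat_lit 0) (nat_lit 46756051515) (nat_lit 304) (nat_lit 308443600460) (nat_lit 380) (nat_lit 284802580437) (nat_lit 100) (nat_lit 5) (nat_lit 104) (nat_lit 5) (nat_lit 105) (nat_lit 5) (nat_lit 512) (nat_lit 494) (nat_lit 194)) (XT.nd (nat_lit 78) (nat_lit 304) (nat_lit 0) (XT.lf (nat_lit 0) (nat_lit 415154367972) (nat_lit 304) (nat_lit 38806986590) (nat_lit 380) (nat_lit 204336724728) (nat_lit 100) (nat_lit 5) (nat_lit 104) (nat_lit 5) (nat_lit 105) (nat_lit 5) (nat_lit 513) (nat_lit 494) (nat_lit 193)) (XT.lf (nat_lit 0) (nat_lit 124638697424) (nat_lit 304) (nat_lit 438782778582) (nat_lit 380) (nat_lit 113799225824) (nat_lit 96) (nat_lit 5) (nat_lit 100) (nat_lit 5) (nat_lit 101)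 (nat_lit 5) (nat_lit 514) (nat_lit 494) (nat_lit 192)))) (XT.nd (nat_lit 156) (nat_lit 304) (nat_lit 0) (XT.nd (nat_lit 78) (nat_lit 304) (nat_lit 0) (XT.lf (nat_lit 0) (nat_lit 518594397893) (nat_lit 304) (nat_lit 164503869347) (nat_lit 380) (nat_lit 13754005075) (nat_lit 96) (nat_lit 5) (nat_lit 100) (nat_lit 5) (nat_lit 101) (nat_lit 5) (nat_lit 515) (nat_lit 494) (nat_lit 191)) (XT.lf (nat_lit 0) (nat_lit 93820536710) (nat_lit 304) (nat_lit 498818231237) (nat_lit 76) (nat_lit 124482934959) (nat_lit 92) (nat_lit 5) (nat_lit 96) (nat_lit 5) (nat_lit 93) (nat_lit 5) (nat_lit 516) (nat_lit 494) (nat_lit 190))) (XT.nd (nat_lit 78) (nat_lit 304) (nat_lit 0) (XT.lf (nat_lit 0) (nat_lit 212076727659) (nat_lit 304) (nat_lit 100343829275) (nat_lit 76) (nat_lit 425684516979) (nat_lit 92) (nat_lit 5) (nat_lit 96) (nat_lit 5) (nat_lit 93) (nat_lit 5) (nat_lit 517) (nat_lit 494) (nat_lit 189)) (XT.lf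 (nat_lit 0) (nat_lit 328570590070) (nat_lit 304) (nat_lit 12805035190) (nat_lit 380) (nat_lit 418505493361) (nat_lit 88) (nat_lit 5) (nat_lit 92) (nat_lit 5) (nat_lit 93) (nat_lit 5) (nat_lit 518) (nat_lit 494) (nat_lit 188))))) (XT.nd (nat_lit 312) (nat_lit 608) (nat_lit 0) (XT.nd (nat_lit 156) (nat_lit 304) (nat_lit 0) (XT.nd (nat_lit 78) (nat_lit 228) (nat_lit 0) (XT.lf (nat_lit 0) (nat_lit 483578494593) (nat_lit 380) (nat_lit 4986235183) (nat_lit 76) (nat_lit 293859284447) (nat_lit 88) (nat_lit 5) (nat_lit 93) (nat_lit 5) (nat_lit 89) (nat_lit 5) (nat_lit 519) (nat_lit 494) (nat_lit 187)) (XT.lf (nat_lit 0) (nat_lit 457073549141) (nat_lit 228) (nat_lit 183164066030) (nat_lit 304) (nat_lit 165489134048) (nat_lit 85) (nat_lit 5) (nat_lit 88) (nat_lit 5) (nat_lit 89) (nat_lit 5) (nat_lit 520) (nat_lit 494) (nat_lit 186))) (XT.nd (nat_lit 78) (nat_lit 76) (nat_lit 0) (XT.lf (nat_lit 0) (nat_lit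 113710210036) (nat_lit 228) (nat_lit 695027499638) (nat_lit 304) (nat_lit 21256510398) (nat_lit 82) (nat_lit 5) (nat_lit 85) (nat_lit 5) (nat_lit 86) (nat_lit 5) (nat_lit 521) (nat_lit 494) (nat_lit 185)) (XT.lf (nat_lit 0) (nat_lit 135025011155) (nat_lit 304) (nat_lit 249015686977) (nat_lit 76) (nat_lit 470882532182) (nat_lit 81) (nat_lit 5) (nat_lit 85) (nat_lit 5) (nat_lit 82) (nat_lit 5) (nat_lit 522) (nat_lit 494) (nat_lit 184)))) (XT.nd (nat_lit 156) (nat_lit 380) (nat_lit 0) (XT.nd (nat_lit 78) (nat_lit 0) (nat_lit 0) (XT.lf (nat_lit 0) (nat_lit 249244967543) (nat_lit 228) (nat_lit 53052686449) (nat_lit 304) (nat_lit 578589043543) (nat_lit 78) (nat_lit 5) (nat_lit 81) (nat_lit 5) (nat_lit 82) (nat_lit 5) (nat_lit 523) (nat_lit 494) (nat_lit 183)) (XT.lf (nat_lit 0) (nat_lit 486817987497) (nat_lit 304) (nat_lit 131540440236) (nat_lit 76) (nat_lit 289345707460) (nat_lit 78) (nat_lit 5)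 (nat_lit 82) (nat_lit 5) (nat_lit 79) (nat_lit 5) (nat_lit 524) (nat_lit 494) (nat_lit 182))) (XT.nd (nat_lit 78) (nat_lit 152) (nat_lit 0) (XT.lf (nat_lit 0) (nat_lit 405680494798) (nat_lit 228) (nat_lit 282087359984) (nat_lit 304) (nat_lit 247734414098) (nat_lit 75) (nat_lit 5) (nat_lit 78) (nat_lit 5) (nat_lit 79) (nat_lit 5) (nat_lit 525) (nat_lit 494) (nat_lit 181)) (XT.lf (nat_lit 0) (nat_lit 8889872420) (nat_lit 152) (nat_lit 893386817391) (nat_lit 228) (nat_lit 62238045724) (nat_lit 73) (nat_lit 5) (nat_lit 75) (nat_lit 5) (nat_lit 76) (nat_lit 5) (nat_lit 526) (nat_lit 494) (nat_lit 180))))))))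
noncomputable def xc248 : XT := (XT.nd (nat_lit 61932) (nat_lit 0) (nat_lit 0) (XT.nd (nat_lit 60840) (nat_lit 0) (nat_lit 1444) (XT.nd (nat_lit 60294) (nat_lit 0) (nat_lit 4408) (XT.nd (nat_lit 59982) (nat_lit 0) (nat_lit 4256) (XT.nd (nat_lit 78) (nat_lit 228) (nat_lit 0) (XT.lf (nat_lit 0) (nat_lit 142035510530) (nat_lit 228) (nat_lit 408438573464) (nat_lit 76) (nat_lit 443713067960) (nat_lit 72) (nat_lit 5) (nat_lit 75) (nat_lit 5) (nat_lit 73) (nat_lit 5) (nat_lit 527) (nat_lit 494) (nat_lit 179)) (XT.nd (nat_lit 78) (nat_lit 0) (nat_lit 0) (XT.lf (nat_lit 0) (nat_lit 170545235424) (nat_lit 228) (nat_lit 186548583907) (nat_lit 304) (nat_lit 668065221013) (nat_lit 69) (nat_lit 5) (nat_lit 72) (nat_lit 5) (nat_lit 73) (nat_lit 5) (nat_lit 528) (nat_lit 494) (nat_lit 178)) (XT.lf (nat_lit 0) (nat_lit 592988981452) (nat_lit 304) (nat_lit 267842221085) (nat_lit 76) (nat_lit 196344123724) (nat_lit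 69) (nat_lit 5) (nat_lit 73) (nat_lit 5) (nat_lit 70) (nat_lit 5) (nat_lit 529) (nat_lit 494) (nat_lit 177)))) (XT.nd (nat_lit 156) (nat_lit 0) (nat_lit 76) (XT.nd (nat_lit 78) (nat_lit 0) (nat_lit 0) (XT.lf (nat_lit 0) (nat_lit 70029181476) (nat_lit 836) (nat_lit 69671999938) (nat_lit 836) (nat_lit 69671999938) (nat_lit 125) (nat_lit 3) (nat_lit 136) (nat_lit 3) (nat_lit 136) (nat_lit 5) (nat_lit 495) (nat_lit 495) (nat_lit 210)) (XT.lf (nat_lit 76) (nat_lit 67968649797) (nat_lit 0) (nat_lit 76652718398) (nat_lit 836) (nat_lit 284540576126) (nat_lit 126) (nat_lit 5) (nat_lit 125) (nat_lit 3) (nat_lit 136) (nat_lit 5) (nat_lit 496) (nat_lit 495) (nat_lit 209))) (XT.nd (nat_lit 78) (nat_lit 0) (nat_lit 0) (XT.lf (nat_lit 0) (nat_lit 153938045474) (nat_lit 760) (nat_lit 151661372278) (nat_lit 836) (nat_lit 134272611188) (nat_lit 126) (nat_lit 5) (nat_lit 136) (nat_lit 5) (nat_lit 137) (nat_lit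 5) (nat_lit 497) (nat_lit 495) (nat_lit 208)) (XT.lf (nat_lit 76) (nat_lit 69308846708) (nat_lit 0) (nat_lit 96750394901) (nat_lit 836) (nat_lit 284941441939) (nat_lit 127) (nat_lit 5) (nat_lit 126) (nat_lit 5) (nat_lit 137) (nat_lit 5) (nat_lit 498) (nat_lit 495) (nat_lit 207))))) (XT.nd (nat_lit 234) (nat_lit 0) (nat_lit 76) (XT.nd (nat_lit 78) (nat_lit 0) (nat_lit 0) (XT.lf (nat_lit 0) (nat_lit 183310250525) (nat_lit 760) (nat_lit 157919760830) (nat_lit 836) (nat_lit 121229571891) (nat_lit 127) (nat_lit 5) (nat_lit 137) (nat_lit 5) (nat_lit 138) (nat_lit 5) (nat_lit 499) (nat_lit 495) (nat_lit 206)) (XT.nd (nat_lit 78) (nat_lit 0) (nat_lit 76) (XT.lf (nat_lit 76) (nat_lit 77949710807) (nat_lit 0) (nat_lit 126277164283) (nat_lit 836) (nat_lit 270124399588) (nat_lit 128) (nat_lit 5) (nat_lit 127) (nat_lit 5) (nat_lit 138) (nat_lit 5) (nat_lit 500) (nat_lit 495) (nat_lit 205)) (XT.lf (nat_lit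 0) (nat_lit 230459879155) (nat_lit 760) (nat_lit 157204689450) (nat_lit 836) (nat_lit 98959454669) (nat_lit 128) (nat_lit 5) (nat_lit 138) (nat_lit 5) (nat_lit 139) (nat_lit 5) (nat_lit 501) (nat_lit 495) (nat_lit 204)))) (XT.nd (nat_lit 156) (nat_lit 0) (nat_lit 76) (XT.nd (nat_lit 78) (nat_lit 0) (nat_lit 76) (XT.lf (nat_lit 76) (nat_lit 94919927880) (nat_lit 0) (nat_lit 166636670569) (nat_lit 836) (nat_lit 237776207606) (nat_lit 129) (nat_lit 5) (nat_lit 128) (nat_lit 5) (nat_lit 139) (nat_lit 5) (nat_lit 502) (nat_lit 495) (nat_lit 203)) (XT.lf (nat_lit 0) (nat_lit 297935861034) (nat_lit 760) (nat_lit 148500745386) (nat_lit 836) (nat_lit 66054036197) (nat_lit 129) (nat_lit 5) (nat_lit 139) (nat_lit 5) (nat_lit 140) (nat_lit 5) (nat_lit 503) (nat_lit 495) (nat_lit 202))) (XT.nd (nat_lit 78) (nat_lit 0) (nat_lit 76) (XT.lf (nat_lit 76) (nat_lit 121359493140) (nat_lit 0) (nat_lit 219401087175)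 (nat_lit 836) (nat_lit 185314466019) (nat_lit 130) (nat_lit 5) (nat_lit 129) (nat_lit 5) (nat_lit 140) (nat_lit 5) (nat_lit 504) (nat_lit 495) (nat_lit 201)) (XT.lf (nat_lit 0) (nat_lit 388579107558) (nat_lit 760) (nat_lit 130682240330) (nat_lit 76) (nat_lit 20934693756) (nat_lit 130) (nat_lit 5) (nat_lit 140) (nat_lit 5) (nat_lit 131) (nat_lit 5) (nat_lit 505) (nat_lit 495) (nat_lit 200)))))) (XT.nd (nat_lit 546) (nat_lit 1216) (nat_lit 0) (XT.nd (nat_lit 234) (nat_lit 836) (nat_lit 0) (XT.nd (nat_lit 78) (nat_lit 380) (nat_lit 0) (XT.lf (nat_lit 0) (nat_lit 158529933102) (nat_lit 760) (nat_lit 286330448212) (nat_lit 836) (nat_lit 109859114404) (nat_lit 120) (nat_lit 5) (nat_lit 130) (nat_lit 5) (nat_lit 131) (nat_lit 5) (nat_lit 506) (nat_lit 495) (nat_lit 199)) (XT.nd (nat_lit 78) (nat_lit 380) (nat_lit 0) (XT.lf (nat_lit 0) (nat_lit 466739693887) (nat_lit 760) (nat_lit 39429176855) (nat_lit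 836) (nat_lit 63689594160) (nat_lit 120) (nat_lit 5) (nat_lit 130) (nat_lit 5) (nat_lit 131) (nat_lit 5) (nat_lit 507) (nat_lit 495) (nat_lit 198)) (XT.lf (nat_lit 0) (nat_lit 207825291815) (nat_lit 380) (nat_lit 369394175680) (nat_lit 456) (nat_lit 8201080913) (nat_lit 115) (nat_lit 5) (nat_lit 120) (nat_lit 5) (nat_lit 121) (nat_lit 5) (nat_lit 508) (nat_lit 495) (nat_lit 197)))) (XT.nd (nat_lit 156) (nat_lit 380) (nat_lit 0) (XT.nd (nat_lit 78) (nat_lit 380) (nat_lit 0) (XT.lf (nat_lit 0) (nat_lit 50880927067) (nat_lit 456) (nat_lit 65233437865) (nat_lit 76) (nat_lit 485486222809) (nat_lit 114) (nat_lit 5) (nat_lit 120) (nat_lit 5) (nat_lit 115) (nat_lit 5) (nat_lit 509) (nat_lit 495) (nat_lit 196)) (XT.lf (nat_lit 0) (nat_lit 119287988390) (nat_lit 456) (nat_lit 349486868617) (nat_lit 76) (nat_lit 149475721687) (nat_lit 109) (nat_lit 5) (nat_lit 115) (nat_lit 5) (nat_lit 110) (nat_lit 5)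 (nat_lit 510) (nat_lit 495) (nat_lit 195))) (XT.nd (nat_lit 78) (nat_lit 380) (nat_lit 0) (XT.lf (nat_lit 0) (nat_lit 194141774689) (nat_lit 456) (nat_lit 15873996843) (nat_lit 76) (nat_lit 425565979073) (nat_lit 109) (nat_lit 5) (nat_lit 115) (nat_lit 5) (nat_lit 110) (nat_lit 5) (nat_lit 511) (nat_lit 495) (nat_lit 194)) (XT.lf (nat_lit 0) (nat_lit 279183542417) (nat_lit 456) (nat_lit 309084305431) (nat_lit 76) (nat_lit 65189368661) (nat_lit 104) (nat_lit 5) (nat_lit 110) (nat_lit 5) (nat_lit 105) (nat_lit 5) (nat_lit 512) (nat_lit 495) (nat_lit 193))))) (XT.nd (nat_lit 234) (nat_lit 608) (nat_lit 0) (XT.nd (nat_lit 78) (nat_lit 304) (nat_lit 0) (XT.lf (nat_lit 0) (nat_lit 49094281248) (nat_lit 304) (nat_lit 323865727095) (nat_lit 380) (nat_lit 299042316880) (nat_lit 100) (nat_lit 5) (nat_lit 104) (nat_lit 5) (nat_lit 105) (nat_lit 5) (nat_lit 513) (nat_lit 495) (nat_lit 192)) (XT.nd (nat_lit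 78) (nat_lit 304) (nat_lit 0) (XT.lf (nat_lit 0) (nat_lit 435912493186) (nat_lit 304) (nat_lit 40747285074) (nat_lit 380) (nat_lit 214553187080) (nat_lit 100) (nat_lit 5) (nat_lit 104) (nat_lit 5) (nat_lit 105) (nat_lit 5) (nat_lit 514) (nat_lit 495) (nat_lit 191)) (XT.lf (nat_lit 0) (nat_lit 130871049394) (nat_lit 304) (nat_lit 460721846699) (nat_lit 380) (nat_lit 119488823403) (nat_lit 96) (nat_lit 5) (nat_lit 100) (nat_lit 5) (nat_lit 101) (nat_lit 5) (nat_lit 515) (nat_lit 495) (nat_lit 190)))) (XT.nd (nat_lit 156) (nat_lit 304) (nat_lit 0) (XT.nd (nat_lit 78) (nat_lit 304) (nat_lit 0) (XT.lf (nat_lit 0) (nat_lit 544524515025) (nat_lit 304) (nat_lit 172728995374) (nat_lit 380) (nat_lit 14441358936) (nat_lit 96) (nat_lit 5) (nat_lit 100) (nat_lit 5) (nat_lit 101) (nat_lit 5) (nat_lit 516) (nat_lit 495) (nat_lit 189)) (XT.lf (nat_lit 0) (nat_lit 98511890349) (nat_lit 304) (nat_lit 523758725776)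 (nat_lit 76) (nat_lit 130707155491) (nat_lit 92) (nat_lit 5) (nat_lit 96) (nat_lit 5) (nat_lit 93) (nat_lit 5) (nat_lit 517) (nat_lit 495) (nat_lit 188))) (XT.nd (nat_lit 78) (nat_lit 304) (nat_lit 0) (XT.lf (nat_lit 0) (nat_lit 222680875283) (nat_lit 304) (nat_lit 105360623574) (nat_lit 76) (nat_lit 446968813099) (nat_lit 92) (nat_lit 5) (nat_lit 96) (nat_lit 5) (nat_lit 93) (nat_lit 5) (nat_lit 518) (nat_lit 495) (nat_lit 187)) (XT.lf (nat_lit 0) (nat_lit 344999510332) (nat_lit 304) (nat_lit 13445198711) (nat_lit 380) (nat_lit 439430450296) (nat_lit 88) (nat_lit 5) (nat_lit 92) (nat_lit 5) (nat_lit 93) (nat_lit 5) (nat_lit 519) (nat_lit 495) (nat_lit 186))))))) (XT.nd (nat_lit 60996) (nat_lit 0) (nat_lit 2356) (XT.nd (nat_lit 624) (nat_lit 304) (nat_lit 0) (XT.nd (nat_lit 234) (nat_lit 684) (nat_lit 0) (XT.nd (nat_lit 78) (nat_lit 456) (nat_lit 0) (XT.lf (nat_lit 0) (nat_lit 507757708749)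 (nat_lit 380) (nat_lit 5235161614) (nat_lit 76) (nat_lit 308552330016) (nat_lit 88) (nat_lit 5) (nat_lit 93) (nat_lit 5) (nat_lit 89) (nat_lit 5) (nat_lit 520) (nat_lit 495) (nat_lit 185)) (XT.nd (nat_lit 78) (nat_lit 228) (nat_lit 0) (XT.lf (nat_lit 0) (nat_lit 479927605710) (nat_lit 228) (nat_lit 192322171782) (nat_lit 304) (nat_lit 173763295029) (nat_lit 85) (nat_lit 5) (nat_lit 88) (nat_lit 5) (nat_lit 89) (nat_lit 5) (nat_lit 521) (nat_lit 495) (nat_lit 184)) (XT.lf (nat_lit 0) (nat_lit 119396105965) (nat_lit 228) (nat_lit 729778764816) (nat_lit 304) (nat_lit 22319046438) (nat_lit 82) (nat_lit 5) (nat_lit 85) (nat_lit 5) (nat_lit 86) (nat_lit 5) (nat_lit 522) (nat_lit 495) (nat_lit 183)))) (XT.nd (nat_lit 156) (nat_lit 380) (nat_lit 0) (XT.nd (nat_lit 78) (nat_lit 228) (nat_lit 0) (XT.lf (nat_lit 0) (nat_lit 141776528584) (nat_lit 304) (nat_lit 261466095360) (nat_lit 76) (nat_lit 494426754475)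 (nat_lit 81) (nat_lit 5) (nat_lit 85) (nat_lit 5) (nat_lit 82) (nat_lit 5) (nat_lit 523) (nat_lit 495) (nat_lit 182)) (XT.lf (nat_lit 0) (nat_lit 261707585822) (nat_lit 228) (nat_lit 55705210808) (nat_lit 304) (nat_lit 607518222720) (nat_lit 78) (nat_lit 5) (nat_lit 81) (nat_lit 5) (nat_lit 82) (nat_lit 5) (nat_lit 524) (nat_lit 495) (nat_lit 181))) (XT.nd (nat_lit 156) (nat_lit 380) (nat_lit 0) (XT.lf (nat_lit 0) (nat_lit 511159136067) (nat_lit 304) (nat_lit 138117099155) (nat_lit 76) (nat_lit 303813094209) (nat_lit 78) (nat_lit 5) (nat_lit 82) (nat_lit 5) (nat_lit 79) (nat_lit 5) (nat_lit 525) (nat_lit 495) (nat_lit 180)) (XT.lf (nat_lit 0) (nat_lit 9334727766) (nat_lit 152) (nat_lit 938056035222) (nat_lit 228) (nat_lit 65349697333) (nat_lit 73) (nat_lit 5) (nat_lit 75) (nat_lit 5) (nat_lit 76) (nat_lit 5) (nat_lit 527) (nat_lit 495) (nat_lit 178))))) (XT.nd (nat_lit 60060) (nat_lit 0) (nat_lit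 4256) (XT.nd (nat_lit 78) (nat_lit 228) (nat_lit 0) (XT.lf (nat_lit 0) (nat_lit 149137517155) (nat_lit 228) (nat_lit 428860149945) (nat_lit 76) (nat_lit 465898830845) (nat_lit 72) (nat_lit 5) (nat_lit 75) (nat_lit 5) (nat_lit 73) (nat_lit 5) (nat_lit 528) (nat_lit 495) (nat_lit 177)) (XT.nd (nat_lit 59904) (nat_lit 0) (nat_lit 4256) (XT.lf (nat_lit 0) (nat_lit 179072843706) (nat_lit 228) (nat_lit 195875892095) (nat_lit 304) (nat_lit 701468245236) (nat_lit 69) (nat_lit 5) (nat_lit 72) (nat_lit 5) (nat_lit 73) (nat_lit 5) (nat_lit 529) (nat_lit 495) (nat_lit 176)) (XT.lf (nat_lit 0) (nat_lit 73530999914) (nat_lit 836) (nat_lit 73155411198) (nat_lit 836) (nat_lit 73155411198) (nat_lit 125) (nat_lit 3) (nat_lit 136) (nat_lit 3) (nat_lit 136) (nat_lit 5) (nat_lit 496) (nat_lit 496) (nat_lit 208)))) (XT.nd (nat_lit 156) (nat_lit 0) (nat_lit 76) (XT.nd (nat_lit 78) (nat_lit 0) (nat_lit 76) (XT.lf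 (nat_lit 76) (nat_lit 71367453671) (nat_lit 0) (nat_lit 80485673236) (nat_lit 836) (nat_lit 298766879849) (nat_lit 126) (nat_lit 5) (nat_lit 125) (nat_lit 3) (nat_lit 136) (nat_lit 5) (nat_lit 497) (nat_lit 496) (nat_lit 207)) (XT.lf (nat_lit 0) (nat_lit 161635600436) (nat_lit 760) (nat_lit 159244049326) (nat_lit 836) (nat_lit 140985947737) (nat_lit 126) (nat_lit 5) (nat_lit 136) (nat_lit 5) (nat_lit 137) (nat_lit 5) (nat_lit 498) (nat_lit 496) (nat_lit 206))) (XT.nd (nat_lit 78) (nat_lit 0) (nat_lit 76) (XT.lf (nat_lit 76) (nat_lit 72774674294) (nat_lit 0) (nat_lit 101588157018) (nat_lit 836) (nat_lit 299187854790) (nat_lit 127) (nat_lit 5) (nat_lit 126) (nat_lit 5) (nat_lit 137) (nat_lit 5) (nat_lit 499) (nat_lit 496) (nat_lit 205)) (XT.lf (nat_lit 0) (nat_lit 192476357183) (nat_lit 760) (nat_lit 165815348245) (nat_lit 836) (nat_lit 127290827044) (nat_lit 127) (nat_lit 5) (nat_lit 137) (nat_lit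 5) (nat_lit 138) (nat_lit 5) (nat_lit 500) (nat_lit 496) (nat_lit 204)))))) (XT.nd (nat_lit 546) (nat_lit 1520) (nat_lit 0) (XT.nd (nat_lit 234) (nat_lit 532) (nat_lit 0) (XT.nd (nat_lit 78) (nat_lit 0) (nat_lit 76) (XT.lf (nat_lit 76) (nat_lit 81847590512) (nat_lit 0) (nat_lit 132591200326) (nat_lit 836) (nat_lit 283630018754) (nat_lit 128) (nat_lit 5) (nat_lit 127) (nat_lit 5) (nat_lit 138) (nat_lit 5) (nat_lit 501) (nat_lit 496) (nat_lit 203)) (XT.nd (nat_lit 78) (nat_lit 0) (nat_lit 0) (XT.lf (nat_lit 0) (nat_lit 241983415225) (nat_lit 760) (nat_lit 165064518436) (nat_lit 836) (nat_lit 103907263462) (nat_lit 128) (nat_lit 5) (nat_lit 138) (nat_lit 5) (nat_lit 139) (nat_lit 5) (nat_lit 502) (nat_lit 496) (nat_lit 202)) (XT.lf (nat_lit 76) (nat_lit 99666323219) (nat_lit 0) (nat_lit 174968627678) (nat_lit 836) (nat_lit 249664469136) (nat_lit 129) (nat_lit 5) (nat_lit 128) (nat_lit 5) (nat_lit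 139) (nat_lit 5) (nat_lit 503) (nat_lit 496) (nat_lit 201)))) (XT.nd (nat_lit 156) (nat_lit 684) (nat_lit 0) (XT.nd (nat_lit 78) (nat_lit 0) (nat_lit 0) (XT.lf (nat_lit 0) (nat_lit 312833149892) (nat_lit 760) (nat_lit 155925375798) (nat_lit 836) (nat_lit 69356624079) (nat_lit 129) (nat_lit 5) (nat_lit 139) (nat_lit 5) (nat_lit 140) (nat_lit 5) (nat_lit 504) (nat_lit 496) (nat_lit 200)) (XT.lf (nat_lit 76) (nat_lit 127427868092) (nat_lit 0) (nat_lit 230371219685) (nat_lit 836) (nat_lit 194579686772) (nat_lit 130) (nat_lit 5) (nat_lit 129) (nat_lit 5) (nat_lit 140) (nat_lit 5) (nat_lit 505) (nat_lit 496) (nat_lit 199))) (XT.nd (nat_lit 78) (nat_lit 760) (nat_lit 0) (XT.lf (nat_lit 0) (nat_lit 408008517437) (nat_lit 760) (nat_lit 137215946997) (nat_lit 76) (nat_lit 21981356397) (nat_lit 130) (nat_lit 5) (nat_lit 140) (nat_lit 5) (nat_lit 131) (nat_lit 5) (nat_lit 506) (nat_lit 496) (nat_lit 198))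 (XT.lf (nat_lit 0) (nat_lit 166456828569) (nat_lit 760) (nat_lit 300647010895) (nat_lit 836) (nat_lit 115351608922) (nat_lit 120) (nat_lit 5) (nat_lit 130) (nat_lit 5) (nat_lit 131) (nat_lit 5) (nat_lit 507) (nat_lit 496) (nat_lit 197))))) (XT.nd (nat_lit 234) (nat_lit 1064) (nat_lit 0) (XT.nd (nat_lit 78) (nat_lit 456) (nat_lit 0) (XT.lf (nat_lit 0) (nat_lit 490077058402) (nat_lit 760) (nat_lit 41400674053) (nat_lit 836) (nat_lit 66873634628) (nat_lit 120) (nat_lit 5) (nat_lit 130) (nat_lit 5) (nat_lit 131) (nat_lit 5) (nat_lit 508) (nat_lit 496) (nat_lit 196)) (XT.nd (nat_lit 78) (nat_lit 76) (nat_lit 0) (XT.lf (nat_lit 0) (nat_lit 218216951415) (nat_lit 380) (nat_lit 387863893315) (nat_lit 456) (nat_lit 8610710758) (nat_lit 115) (nat_lit 5) (nat_lit 120) (nat_lit 5) (nat_lit 121) (nat_lit 5) (nat_lit 509) (nat_lit 496) (nat_lit 195)) (XT.lf (nat_lit 0) (nat_lit 53425364490) (nat_lit 456)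 (nat_lit 68494720494) (nat_lit 76) (nat_lit 509760512455) (nat_lit 114) (nat_lit 5) (nat_lit 120) (nat_lit 5) (nat_lit 115) (nat_lit 5) (nat_lit 510) (nat_lit 496) (nat_lit 194)))) (XT.nd (nat_lit 156) (nat_lit 684) (nat_lit 0) (XT.nd (nat_lit 78) (nat_lit 0) (nat_lit 0) (XT.lf (nat_lit 0) (nat_lit 125252766308) (nat_lit 456) (nat_lit 366960810084) (nat_lit 76) (nat_lit 156949512184) (nat_lit 109) (nat_lit 5) (nat_lit 115) (nat_lit 5) (nat_lit 110) (nat_lit 5) (nat_lit 511) (nat_lit 496) (nat_lit 193)) (XT.lf (nat_lit 0) (nat_lit 203849223898) (nat_lit 456) (nat_lit 16667313863) (nat_lit 76) (nat_lit 446844282229) (nat_lit 109) (nat_lit 5) (nat_lit 115) (nat_lit 5) (nat_lit 110) (nat_lit 5) (nat_lit 512) (nat_lit 496) (nat_lit 192))) (XT.nd (nat_lit 78) (nat_lit 304) (nat_lit 0) (XT.lf (nat_lit 0) (nat_lit 293143069157) (nat_lit 456) (nat_lit 324538126907) (nat_lit 76) (nat_lit 68448863674)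 (nat_lit 104) (nat_lit 5) (nat_lit 110) (nat_lit 5) (nat_lit 105) (nat_lit 5) (nat_lit 513) (nat_lit 496) (nat_lit 191)) (XT.lf (nat_lit 0) (nat_lit 51549382754) (nat_lit 304) (nat_lit 340058965025) (nat_lit 380) (nat_lit 313994076643) (nat_lit 100) (nat_lit 5) (nat_lit 104) (nat_lit 5) (nat_lit 105) (nat_lit 5) (nat_lit 514) (nat_lit 496) (nat_lit 190))))))))
noncomputable def xc249 : XT := (XT.nd (nat_lit 62166) (nat_lit 0) (nat_lit 76) (XT.nd (nat_lit 61074) (nat_lit 0) (nat_lit 3268) (XT.nd (nat_lit 546) (nat_lit 1216) (nat_lit 0) (XT.nd (nat_lit 234) (nat_lit 608) (nat_lit 0) (XT.nd (nat_lit 78) (nat_lit 304) (nat_lit 0) (XT.lf (nat_lit 0) (nat_lit 457708486839) (nat_lit 304) (nat_lit 42784603209) (nat_lit 380) (nat_lit 225280507310) (nat_lit 100) (nat_lit 5) (nat_lit 104) (nat_lit 5) (nat_lit 105) (nat_lit 5) (nat_lit 515) (nat_lit 496) (nat_lit 189)) (XT.nd (nat_lit 78) (nat_lit 0) (nat_lit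 0) (XT.lf (nat_lit 0) (nat_lit 137414980185) (nat_lit 304) (nat_lit 483757874806) (nat_lit 380) (nat_lit 125462934676) (nat_lit 96) (nat_lit 5) (nat_lit 100) (nat_lit 5) (nat_lit 101) (nat_lit 5) (nat_lit 516) (nat_lit 496) (nat_lit 188)) (XT.lf (nat_lit 0) (nat_lit 571751101082) (nat_lit 304) (nat_lit 181365383973) (nat_lit 380) (nat_lit 15163112694) (nat_lit 96) (nat_lit 5) (nat_lit 100) (nat_lit 5) (nat_lit 101) (nat_lit 5) (nat_lit 517) (nat_lit 496) (nat_lit 187)))) (XT.nd (nat_lit 156) (nat_lit 304) (nat_lit 0) (XT.nd (nat_lit 78) (nat_lit 0) (nat_lit 0) (XT.lf (nat_lit 0) (nat_lit 103437781286) (nat_lit 304) (nat_lit 549946283813) (nat_lit 76) (nat_lit 137242580191) (nat_lit 92) (nat_lit 5) (nat_lit 96) (nat_lit 5) (nat_lit 93) (nat_lit 5) (nat_lit 518) (nat_lit 496) (nat_lit 186)) (XT.lf (nat_lit 0) (nat_lit 233815201352) (nat_lit 304) (nat_lit 110628294513) (nat_lit 76) (nat_lit 469317317492)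 (nat_lit 92) (nat_lit 5) (nat_lit 96) (nat_lit 5) (nat_lit 93) (nat_lit 5) (nat_lit 519) (nat_lit 496) (nat_lit 185))) (XT.nd (nat_lit 78) (nat_lit 0) (nat_lit 0) (XT.lf (nat_lit 0) (nat_lit 362249840278) (nat_lit 304) (nat_lit 14117378612) (nat_lit 380) (nat_lit 461401684617) (nat_lit 88) (nat_lit 5) (nat_lit 92) (nat_lit 5) (nat_lit 93) (nat_lit 5) (nat_lit 520) (nat_lit 496) (nat_lit 184)) (XT.lf (nat_lit 0) (nat_lit 533145856706) (nat_lit 380) (nat_lit 5496570192) (nat_lit 76) (nat_lit 323980020300) (nat_lit 88) (nat_lit 5) (nat_lit 93) (nat_lit 5) (nat_lit 89) (nat_lit 5) (nat_lit 521) (nat_lit 496) (nat_lit 183))))) (XT.nd (nat_lit 234) (nat_lit 684) (nat_lit 0) (XT.nd (nat_lit 78) (nat_lit 304) (nat_lit 0) (XT.lf (nat_lit 0) (nat_lit 503924329862) (nat_lit 228) (nat_lit 201938191892) (nat_lit 304) (nat_lit 182451191554) (nat_lit 85) (nat_lit 5) (nat_lit 88) (nat_lit 5) (nat_lit 89) (nat_lit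 5) (nat_lit 522) (nat_lit 496) (nat_lit 182)) (XT.nd (nat_lit 78) (nat_lit 76) (nat_lit 0) (XT.lf (nat_lit 0) (nat_lit 125366260858) (nat_lit 228) (nat_lit 766267603461) (nat_lit 304) (nat_lit 23434736193) (nat_lit 82) (nat_lit 5) (nat_lit 85) (nat_lit 5) (nat_lit 86) (nat_lit 5) (nat_lit 523) (nat_lit 496) (nat_lit 181)) (XT.lf (nat_lit 0) (nat_lit 148865597074) (nat_lit 304) (nat_lit 274539059115) (nat_lit 76) (nat_lit 519148178986) (nat_lit 81) (nat_lit 5) (nat_lit 85) (nat_lit 5) (nat_lit 82) (nat_lit 5) (nat_lit 524) (nat_lit 496) (nat_lit 180)))) (XT.nd (nat_lit 234) (nat_lit 228) (nat_lit 0) (XT.nd (nat_lit 156) (nat_lit 228) (nat_lit 0) (XT.lf (nat_lit 0) (nat_lit 274793300625) (nat_lit 228) (nat_lit 58490371608) (nat_lit 304) (nat_lit 637893886237) (nat_lit 78) (nat_lit 5) (nat_lit 81) (nat_lit 5) (nat_lit 82) (nat_lit 5) (nat_lit 525) (nat_lit 496) (nat_lit 179)) (XT.lf (nat_lit 0)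 (nat_lit 447263444636) (nat_lit 228) (nat_lit 311001090636) (nat_lit 304) (nat_lit 273126692284) (nat_lit 75) (nat_lit 5) (nat_lit 78) (nat_lit 5) (nat_lit 79) (nat_lit 5) (nat_lit 527) (nat_lit 496) (nat_lit 177))) (XT.nd (nat_lit 78) (nat_lit 76) (nat_lit 0) (XT.lf (nat_lit 0) (nat_lit 9801792249) (nat_lit 152) (nat_lit 984958725384) (nat_lit 228) (nat_lit 68616954829) (nat_lit 73) (nat_lit 5) (nat_lit 75) (nat_lit 5) (nat_lit 76) (nat_lit 5) (nat_lit 528) (nat_lit 496) (nat_lit 176)) (XT.lf (nat_lit 0) (nat_lit 156594602627) (nat_lit 228) (nat_lit 450302837994) (nat_lit 76) (nat_lit 489193871695) (nat_lit 72) (nat_lit 5) (nat_lit 75) (nat_lit 5) (nat_lit 73) (nat_lit 5) (nat_lit 529) (nat_lit 496) (nat_lit 175)))))) (XT.nd (nat_lit 546) (nat_lit 760) (nat_lit 0) (XT.nd (nat_lit 234) (nat_lit 0) (nat_lit 76) (XT.nd (nat_lit 78) (nat_lit 0) (nat_lit 0) (XT.lf (nat_lit 0) (nat_lit 77207875864)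 (nat_lit 836) (nat_lit 76813010569) (nat_lit 836) (nat_lit 76813010569) (nat_lit 125) (nat_lit 3) (nat_lit 136) (nat_lit 3) (nat_lit 136) (nat_lit 5) (nat_lit 497) (nat_lit 497) (nat_lit 206)) (XT.nd (nat_lit 78) (nat_lit 0) (nat_lit 76) (XT.lf (nat_lit 76) (nat_lit 74936163211) (nat_lit 0) (nat_lit 84510246165) (nat_lit 836) (nat_lit 313704566170) (nat_lit 126) (nat_lit 5) (nat_lit 125) (nat_lit 3) (nat_lit 136) (nat_lit 5) (nat_lit 498) (nat_lit 497) (nat_lit 205)) (XT.lf (nat_lit 0) (nat_lit 169717972465) (nat_lit 760) (nat_lit 167205896630) (nat_lit 836) (nat_lit 148034978448) (nat_lit 126) (nat_lit 5) (nat_lit 136) (nat_lit 5) (nat_lit 137) (nat_lit 5) (nat_lit 499) (nat_lit 497) (nat_lit 204)))) (XT.nd (nat_lit 156) (nat_lit 0) (nat_lit 76) (XT.nd (nat_lit 78) (nat_lit 0) (nat_lit 76) (XT.lf (nat_lit 76) (nat_lit 76413757443) (nat_lit 0) (nat_lit 106667784707) (nat_lit 836) (nat_lit 314146649575)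 (nat_lit 127) (nat_lit 5) (nat_lit 126) (nat_lit 5) (nat_lit 137) (nat_lit 5) (nat_lit 500) (nat_lit 497) (nat_lit 203)) (XT.lf (nat_lit 0) (nat_lit 202100713938) (nat_lit 760) (nat_lit 174105752277) (nat_lit 836) (nat_lit 133655165727) (nat_lit 127) (nat_lit 5) (nat_lit 137) (nat_lit 5) (nat_lit 138) (nat_lit 5) (nat_lit 501) (nat_lit 497) (nat_lit 202))) (XT.nd (nat_lit 78) (nat_lit 0) (nat_lit 76) (XT.lf (nat_lit 76) (nat_lit 85940327556) (nat_lit 0) (nat_lit 139220921639) (nat_lit 836) (nat_lit 297810974737) (nat_lit 128) (nat_lit 5) (nat_lit 127) (nat_lit 5) (nat_lit 138) (nat_lit 5) (nat_lit 502) (nat_lit 497) (nat_lit 201)) (XT.lf (nat_lit 0) (nat_lit 254083077698) (nat_lit 760) (nat_lit 173317376571) (nat_lit 836) (nat_lit 109102477936) (nat_lit 128) (nat_lit 5) (nat_lit 138) (nat_lit 5) (nat_lit 139) (nat_lit 5) (nat_lit 503) (nat_lit 497) (nat_lit 200))))) (XT.nd (nat_lit 234) (nat_lit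 988) (nat_lit 0) (XT.nd (nat_lit 78) (nat_lit 0) (nat_lit 76) (XT.lf (nat_lit 76) (nat_lit 104650001236) (nat_lit 0) (nat_lit 183717171153) (nat_lit 836) (nat_lit 262147194768) (nat_lit 129) (nat_lit 5) (nat_lit 128) (nat_lit 5) (nat_lit 139) (nat_lit 5) (nat_lit 504) (nat_lit 497) (nat_lit 199)) (XT.nd (nat_lit 78) (nat_lit 0) (nat_lit 0) (XT.lf (nat_lit 0) (nat_lit 328475257097) (nat_lit 760) (nat_lit 163721275557) (nat_lit 836) (nat_lit 72824351946) (nat_lit 129) (nat_lit 5) (nat_lit 139) (nat_lit 5) (nat_lit 140) (nat_lit 5) (nat_lit 505) (nat_lit 497) (nat_lit 198)) (XT.lf (nat_lit 76) (nat_lit 133799624576) (nat_lit 0) (nat_lit 241889851555) (nat_lit 836) (nat_lit 204308215284) (nat_lit 130) (nat_lit 5) (nat_lit 129) (nat_lit 5) (nat_lit 140) (nat_lit 5) (nat_lit 506) (nat_lit 497) (nat_lit 197)))) (XT.nd (nat_lit 156) (nat_lit 380) (nat_lit 0) (XT.nd (nat_lit 78) (nat_lit 760) (nat_lit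 0) (XT.lf (nat_lit 0) (nat_lit 428409355554) (nat_lit 760) (nat_lit 144076376682) (nat_lit 76) (nat_lit 23080358868) (nat_lit 130) (nat_lit 5) (nat_lit 140) (nat_lit 5) (nat_lit 131) (nat_lit 5) (nat_lit 507) (nat_lit 497) (nat_lit 196)) (XT.lf (nat_lit 0) (nat_lit 174780031732) (nat_lit 760) (nat_lit 315679397968) (nat_lit 836) (nat_lit 121118771044) (nat_lit 120) (nat_lit 5) (nat_lit 130) (nat_lit 5) (nat_lit 131) (nat_lit 5) (nat_lit 508) (nat_lit 497) (nat_lit 195))) (XT.nd (nat_lit 78) (nat_lit 380) (nat_lit 0) (XT.lf (nat_lit 0) (nat_lit 514581255831) (nat_lit 760) (nat_lit 43470742544) (nat_lit 836) (nat_lit 70216917956) (nat_lit 120) (nat_lit 5) (nat_lit 130) (nat_lit 5) (nat_lit 131) (nat_lit 5) (nat_lit 509) (nat_lit 497) (nat_lit 194)) (XT.lf (nat_lit 0) (nat_lit 229128157270) (nat_lit 380) (nat_lit 407257096008) (nat_lit 456) (nat_lit 9040861533) (nat_lit 115) (nat_lit 5) (nat_lit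 120) (nat_lit 5) (nat_lit 121) (nat_lit 5) (nat_lit 510) (nat_lit 497) (nat_lit 193))))))) (XT.nd (nat_lit 1092) (nat_lit 684) (nat_lit 0) (XT.nd (nat_lit 546) (nat_lit 1064) (nat_lit 0) (XT.nd (nat_lit 234) (nat_lit 988) (nat_lit 0) (XT.nd (nat_lit 78) (nat_lit 380) (nat_lit 0) (XT.lf (nat_lit 0) (nat_lit 56096987427) (nat_lit 456) (nat_lit 71919103445) (nat_lit 76) (nat_lit 535248518582) (nat_lit 114) (nat_lit 5) (nat_lit 120) (nat_lit 5) (nat_lit 115) (nat_lit 5) (nat_lit 511) (nat_lit 497) (nat_lit 192)) (XT.nd (nat_lit 78) (nat_lit 0) (nat_lit 0) (XT.lf (nat_lit 0) (nat_lit 131515747933) (nat_lit 456) (nat_lit 385308485995) (nat_lit 76) (nat_lit 164796991796) (nat_lit 109) (nat_lit 5) (nat_lit 115) (nat_lit 5) (nat_lit 110) (nat_lit 5) (nat_lit 512) (nat_lit 497) (nat_lit 191)) (XT.lf (nat_lit 0) (nat_lit 214042012054) (nat_lit 456) (nat_lit 17500332324) (nat_lit 76) (nat_lit 469186500152)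 (nat_lit 109) (nat_lit 5) (nat_lit 115) (nat_lit 5) (nat_lit 110) (nat_lit 5) (nat_lit 513) (nat_lit 497) (nat_lit 190)))) (XT.nd (nat_lit 156) (nat_lit 304) (nat_lit 0) (XT.nd (nat_lit 78) (nat_lit 304) (nat_lit 0) (XT.lf (nat_lit 0) (nat_lit 307800539729) (nat_lit 456) (nat_lit 340764676069) (nat_lit 76) (nat_lit 71871330966) (nat_lit 104) (nat_lit 5) (nat_lit 110) (nat_lit 5) (nat_lit 105) (nat_lit 5) (nat_lit 514) (nat_lit 497) (nat_lit 189)) (XT.lf (nat_lit 0) (nat_lit 54127203314) (nat_lit 304) (nat_lit 357061869354) (nat_lit 380) (nat_lit 329693457500) (nat_lit 100) (nat_lit 5) (nat_lit 104) (nat_lit 5) (nat_lit 105) (nat_lit 5) (nat_lit 515) (nat_lit 497) (nat_lit 188))) (XT.nd (nat_lit 78) (nat_lit 304) (nat_lit 0) (XT.lf (nat_lit 0) (nat_lit 480594245870) (nat_lit 304) (nat_lit 44923791538) (nat_lit 380) (nat_lit 236544225079) (nat_lit 100) (nat_lit 5) (nat_lit 104) (nat_lit 5) (nat_lit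 105) (nat_lit 5) (nat_lit 516) (nat_lit 497) (nat_lit 187)) (XT.lf (nat_lit 0) (nat_lit 144286072343) (nat_lit 304) (nat_lit 507945710289) (nat_lit 380) (nat_lit 131735782183) (nat_lit 96) (nat_lit 5) (nat_lit 100) (nat_lit 5) (nat_lit 101) (nat_lit 5) (nat_lit 517) (nat_lit 497) (nat_lit 186))))) (XT.nd (nat_lit 234) (nat_lit 760) (nat_lit 0) (XT.nd (nat_lit 78) (nat_lit 304) (nat_lit 0) (XT.lf (nat_lit 0) (nat_lit 600338982944) (nat_lit 304) (nat_lit 190433597689) (nat_lit 380) (nat_lit 15920983351) (nat_lit 96) (nat_lit 5) (nat_lit 100) (nat_lit 5) (nat_lit 101) (nat_lit 5) (nat_lit 518) (nat_lit 497) (nat_lit 185)) (XT.nd (nat_lit 78) (nat_lit 0) (nat_lit 0) (XT.lf (nat_lit 0) (nat_lit 108609939212) (nat_lit 304) (nat_lit 577443254918) (nat_lit 76) (nat_lit 144104769903) (nat_lit 92) (nat_lit 5) (nat_lit 96) (nat_lit 5) (nat_lit 93) (nat_lit 5) (nat_lit 519) (nat_lit 497) (nat_lit 184))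 (XT.lf (nat_lit 0) (nat_lit 245506217478) (nat_lit 304) (nat_lit 116159382491) (nat_lit 76) (nat_lit 492783241178) (nat_lit 92) (nat_lit 5) (nat_lit 96) (nat_lit 5) (nat_lit 93) (nat_lit 5) (nat_lit 520) (nat_lit 497) (nat_lit 183)))) (XT.nd (nat_lit 156) (nat_lit 456) (nat_lit 0) (XT.nd (nat_lit 78) (nat_lit 0) (nat_lit 0) (XT.lf (nat_lit 0) (nat_lit 380362653770) (nat_lit 304) (nat_lit 14823174949) (nat_lit 380) (nat_lit 484471507448) (nat_lit 88) (nat_lit 5) (nat_lit 92) (nat_lit 5) (nat_lit 93) (nat_lit 5) (nat_lit 521) (nat_lit 497) (nat_lit 182)) (XT.lf (nat_lit 0) (nat_lit 559803387653) (nat_lit 380) (nat_lit 5771081691) (nat_lit 76) (nat_lit 340179088240) (nat_lit 88) (nat_lit 5) (nat_lit 93) (nat_lit 5) (nat_lit 89) (nat_lit 5) (nat_lit 522) (nat_lit 497) (nat_lit 181))) (XT.nd (nat_lit 78) (nat_lit 228) (nat_lit 0) (XT.lf (nat_lit 0) (nat_lit 529120858252) (nat_lit 228) (nat_lit 212035021233)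 (nat_lit 304) (nat_lit 191573507842) (nat_lit 85) (nat_lit 5) (nat_lit 88) (nat_lit 5) (nat_lit 89) (nat_lit 5) (nat_lit 523) (nat_lit 497) (nat_lit 180)) (XT.lf (nat_lit 0) (nat_lit 131634890993) (nat_lit 228) (nat_lit 804580893299) (nat_lit 304) (nat_lit 24606234847) (nat_lit 82) (nat_lit 5) (nat_lit 85) (nat_lit 5) (nat_lit 86) (nat_lit 5) (nat_lit 524) (nat_lit 497) (nat_lit 179)))))) (XT.nd (nat_lit 60606) (nat_lit 0) (nat_lit 4028) (XT.nd (nat_lit 312) (nat_lit 152) (nat_lit 0) (XT.nd (nat_lit 156) (nat_lit 456) (nat_lit 0) (XT.lf (nat_lit 0) (nat_lit 156309096483) (nat_lit 304) (nat_lit 288265702763) (nat_lit 76) (nat_lit 545105666654) (nat_lit 81) (nat_lit 5) (nat_lit 85) (nat_lit 5) (nat_lit 82) (nat_lit 5) (nat_lit 525) (nat_lit 497) (nat_lit 178)) (XT.nd (nat_lit 78) (nat_lit 228) (nat_lit 0) (XT.lf (nat_lit 0) (nat_lit 563553389857) (nat_lit 304) (nat_lit 152273457300) (nat_lit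 76) (nat_lit 334954116315) (nat_lit 78) (nat_lit 5) (nat_lit 82) (nat_lit 5) (nat_lit 79) (nat_lit 5) (nat_lit 527) (nat_lit 497) (nat_lit 176)) (XT.lf (nat_lit 0) (nat_lit 469626910767) (nat_lit 228) (nat_lit 326551051109) (nat_lit 304) (nat_lit 286782817018) (nat_lit 75) (nat_lit 5) (nat_lit 78) (nat_lit 5) (nat_lit 79) (nat_lit 5) (nat_lit 528) (nat_lit 497) (nat_lit 175)))) (XT.nd (nat_lit 60138) (nat_lit 0) (nat_lit 3952) (XT.nd (nat_lit 60060) (nat_lit 0) (nat_lit 3952) (XT.lf (nat_lit 0) (nat_lit 10292179454) (nat_lit 152) (nat_lit 1034206560430) (nat_lit 228) (nat_lit 72047596337) (nat_lit 73) (nat_lit 5) (nat_lit 75) (nat_lit 5) (nat_lit 76) (nat_lit 5) (nat_lit 529) (nat_lit 497) (nat_lit 174)) (XT.lf (nat_lit 0) (nat_lit 81068565307) (nat_lit 836) (nat_lit 80653505824) (nat_lit 836) (nat_lit 80653505824) (nat_lit 125) (nat_lit 3) (nat_lit 136) (nat_lit 3) (nat_lit 136) (nat_lit 5)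 (nat_lit 498) (nat_lit 498) (nat_lit 204))) (XT.nd (nat_lit 78) (nat_lit 0) (nat_lit 76) (XT.lf (nat_lit 76) (nat_lit 78683276910) (nat_lit 0) (nat_lit 88736020848) (nat_lit 836) (nat_lit 329389197951) (nat_lit 126) (nat_lit 5) (nat_lit 125) (nat_lit 3) (nat_lit 136) (nat_lit 5) (nat_lit 499) (nat_lit 498) (nat_lit 203)) (XT.lf (nat_lit 0) (nat_lit 178204408056) (nat_lit 760) (nat_lit 175565869318) (nat_lit 836) (nat_lit 155436485488) (nat_lit 126) (nat_lit 5) (nat_lit 136) (nat_lit 5) (nat_lit 137) (nat_lit 5) (nat_lit 500) (nat_lit 498) (nat_lit 202))))) (XT.nd (nat_lit 312) (nat_lit 0) (nat_lit 152) (XT.nd (nat_lit 156) (nat_lit 0) (nat_lit 76) (XT.nd (nat_lit 78) (nat_lit 0) (nat_lit 76) (XT.lf (nat_lit 76) (nat_lit 80234762262) (nat_lit 0) (nat_lit 112001373343) (nat_lit 836) (nat_lit 329853439691) (nat_lit 127) (nat_lit 5) (nat_lit 126) (nat_lit 5) (nat_lit 137) (nat_lit 5) (nat_lit 501)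 (nat_lit 498) (nat_lit 201)) (XT.lf (nat_lit 0) (nat_lit 212206238429) (nat_lit 760) (nat_lit 182810710295) (nat_lit 836) (nat_lit 140337740187) (nat_lit 127) (nat_lit 5) (nat_lit 137) (nat_lit 5) (nat_lit 138) (nat_lit 5) (nat_lit 502) (nat_lit 498) (nat_lit 200))) (XT.nd (nat_lit 78) (nat_lit 0) (nat_lit 76) (XT.lf (nat_lit 76) (nat_lit 90237668215) (nat_lit 0) (nat_lit 146182114022) (nat_lit 836) (nat_lit 312701029183) (nat_lit 128) (nat_lit 5) (nat_lit 127) (nat_lit 5) (nat_lit 138) (nat_lit 5) (nat_lit 503) (nat_lit 498) (nat_lit 199)) (XT.lf (nat_lit 0) (nat_lit 266787677579) (nat_lit 760) (nat_lit 181982911806) (nat_lit 836) (nat_lit 114557466958) (nat_lit 128) (nat_lit 5) (nat_lit 138) (nat_lit 5) (nat_lit 139) (nat_lit 5) (nat_lit 504) (nat_lit 498) (nat_lit 198)))) (XT.nd (nat_lit 156) (nat_lit 0) (nat_lit 76) (XT.nd (nat_lit 78) (nat_lit 0) (nat_lit 76) (XT.lf (nat_lit 76) (nat_lit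 109882829511) (nat_lit 0) (nat_lit 192903131381) (nat_lit 836) (nat_lit 275254102966) (nat_lit 129) (nat_lit 5) (nat_lit 128) (nat_lit 5) (nat_lit 139) (nat_lit 5) (nat_lit 505) (nat_lit 498) (nat_lit 197)) (XT.lf (nat_lit 0) (nat_lit 344899427853) (nat_lit 760) (nat_lit 171907004612) (nat_lit 836) (nat_lit 76465475814) (nat_lit 129) (nat_lit 5) (nat_lit 139) (nat_lit 5) (nat_lit 140) (nat_lit 5) (nat_lit 506) (nat_lit 498) (nat_lit 196))) (XT.nd (nat_lit 78) (nat_lit 0) (nat_lit 76) (XT.lf (nat_lit 76) (nat_lit 140489935128) (nat_lit 0) (nat_lit 253984408428) (nat_lit 836) (nat_lit 214523212600) (nat_lit 130) (nat_lit 5) (nat_lit 129) (nat_lit 5) (nat_lit 140) (nat_lit 5) (nat_lit 507) (nat_lit 498) (nat_lit 195)) (XT.lf (nat_lit 0) (nat_lit 449830197251) (nat_lit 760) (nat_lit 151279862034) (nat_lit 76) (nat_lit 24234317537) (nat_lit 130) (nat_lit 5) (nat_lit 140) (nat_lit 5) (nat_lit 131)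 (nat_lit 5) (nat_lit 508) (nat_lit 498) (nat_lit 194))))))))
noncomputable def xc250 : XT := (XT.nd (nat_lit 62400) (nat_lit 0) (nat_lit 0) (XT.nd (nat_lit 1092) (nat_lit 760) (nat_lit 0) (XT.nd (nat_lit 546) (nat_lit 1216) (nat_lit 0) (XT.nd (nat_lit 234) (nat_lit 836) (nat_lit 0) (XT.nd (nat_lit 78) (nat_lit 380) (nat_lit 0) (XT.lf (nat_lit 0) (nat_lit 183519361422) (nat_lit 760) (nat_lit 331463400999) (nat_lit 836) (nat_lit 127174330165) (nat_lit 120) (nat_lit 5) (nat_lit 130) (nat_lit 5) (nat_lit 131) (nat_lit 5) (nat_lit 509) (nat_lit 498) (nat_lit 193)) (XT.nd (nat_lit 78) (nat_lit 380) (nat_lit 0) (XT.lf (nat_lit 0) (nat_lit 540310631103) (nat_lit 760) (nat_lit 45644311226) (nat_lit 836) (nat_lit 73727402490) (nat_lit 120) (nat_lit 5) (nat_lit 130) (nat_lit 5) (nat_lit 131) (nat_lit 5) (nat_lit 510) (nat_lit 498) (nat_lit 192)) (XT.lf (nat_lit 0) (nat_lit 240584890109) (nat_lit 380)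 (nat_lit 427619958090) (nat_lit 456) (nat_lit 9492555619) (nat_lit 115) (nat_lit 5) (nat_lit 120) (nat_lit 5) (nat_lit 121) (nat_lit 5) (nat_lit 511) (nat_lit 498) (nat_lit 191)))) (XT.nd (nat_lit 156) (nat_lit 380) (nat_lit 0) (XT.nd (nat_lit 78) (nat_lit 380) (nat_lit 0) (XT.lf (nat_lit 0) (nat_lit 58902158533) (nat_lit 456) (nat_lit 75514738368) (nat_lit 76) (nat_lit 562010926828) (nat_lit 114) (nat_lit 5) (nat_lit 120) (nat_lit 5) (nat_lit 115) (nat_lit 5) (nat_lit 512) (nat_lit 498) (nat_lit 190)) (XT.lf (nat_lit 0) (nat_lit 138091846721) (nat_lit 456) (nat_lit 404573579598) (nat_lit 76) (nat_lit 173036845016) (nat_lit 109) (nat_lit 5) (nat_lit 115) (nat_lit 5) (nat_lit 110) (nat_lit 5) (nat_lit 513) (nat_lit 498) (nat_lit 189))) (XT.nd (nat_lit 78) (nat_lit 380) (nat_lit 0) (XT.lf (nat_lit 0) (nat_lit 224744409220) (nat_lit 456) (nat_lit 18375033991) (nat_lit 76) (nat_lit 492645828617)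 (nat_lit 109) (nat_lit 5) (nat_lit 115) (nat_lit 5) (nat_lit 110) (nat_lit 5) (nat_lit 514) (nat_lit 498) (nat_lit 188)) (XT.lf (nat_lit 0) (nat_lit 323190854347) (nat_lit 456) (nat_lit 357802585896) (nat_lit 76) (nat_lit 75464919381) (nat_lit 104) (nat_lit 5) (nat_lit 110) (nat_lit 5) (nat_lit 105) (nat_lit 5) (nat_lit 515) (nat_lit 498) (nat_lit 187))))) (XT.nd (nat_lit 234) (nat_lit 608) (nat_lit 0) (XT.nd (nat_lit 78) (nat_lit 304) (nat_lit 0) (XT.lf (nat_lit 0) (nat_lit 56833882231) (nat_lit 304) (nat_lit 374914922983) (nat_lit 380) (nat_lit 346177837426) (nat_lit 100) (nat_lit 5) (nat_lit 104) (nat_lit 5) (nat_lit 105) (nat_lit 5) (nat_lit 516) (nat_lit 498) (nat_lit 186)) (XT.nd (nat_lit 78) (nat_lit 304) (nat_lit 0) (XT.lf (nat_lit 0) (nat_lit 504624261736) (nat_lit 304) (nat_lit 47169943174) (nat_lit 380) (nat_lit 248371157335) (nat_lit 100) (nat_lit 5) (nat_lit 104) (nat_lit 5) (nat_lit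 105) (nat_lit 5) (nat_lit 517) (nat_lit 498) (nat_lit 185)) (XT.lf (nat_lit 0) (nat_lit 151500687206) (nat_lit 304) (nat_lit 533342942963) (nat_lit 380) (nat_lit 138322299884) (nat_lit 96) (nat_lit 5) (nat_lit 100) (nat_lit 5) (nat_lit 101) (nat_lit 5) (nat_lit 518) (nat_lit 498) (nat_lit 184)))) (XT.nd (nat_lit 156) (nat_lit 304) (nat_lit 0) (XT.nd (nat_lit 78) (nat_lit 304) (nat_lit 0) (XT.lf (nat_lit 0) (nat_lit 630356228516) (nat_lit 304) (nat_lit 199955227249) (nat_lit 380) (nat_lit 16716774035) (nat_lit 96) (nat_lit 5) (nat_lit 100) (nat_lit 5) (nat_lit 101) (nat_lit 5) (nat_lit 519) (nat_lit 498) (nat_lit 183)) (XT.lf (nat_lit 0) (nat_lit 114040680037) (nat_lit 304) (nat_lit 606315106475) (nat_lit 76) (nat_lit 151310063457) (nat_lit 92) (nat_lit 5) (nat_lit 96) (nat_lit 5) (nat_lit 93) (nat_lit 5) (nat_lit 520) (nat_lit 498) (nat_lit 182))) (XT.nd (nat_lit 78) (nat_lit 304) (nat_lit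 0) (XT.lf (nat_lit 0) (nat_lit 257781760605) (nat_lit 304) (nat_lit 121967055245) (nat_lit 76) (nat_lit 517422455675) (nat_lit 92) (nat_lit 5) (nat_lit 96) (nat_lit 5) (nat_lit 93) (nat_lit 5) (nat_lit 521) (nat_lit 498) (nat_lit 181)) (XT.lf (nat_lit 0) (nat_lit 399381078049) (nat_lit 304) (nat_lit 15564267852) (nat_lit 380) (nat_lit 508694845723) (nat_lit 88) (nat_lit 5) (nat_lit 92) (nat_lit 5) (nat_lit 93) (nat_lit 5) (nat_lit 522) (nat_lit 498) (nat_lit 180)))))) (XT.nd (nat_lit 60762) (nat_lit 0) (nat_lit 3648) (XT.nd (nat_lit 312) (nat_lit 228) (nat_lit 0) (XT.nd (nat_lit 78) (nat_lit 532) (nat_lit 0) (XT.lf (nat_lit 0) (nat_lit 587793773011) (nat_lit 380) (nat_lit 6059348239) (nat_lit 76) (nat_lit 357188103354) (nat_lit 88) (nat_lit 5) (nat_lit 93) (nat_lit 5) (nat_lit 89) (nat_lit 5) (nat_lit 523) (nat_lit 498) (nat_lit 179)) (XT.nd (nat_lit 156) (nat_lit 304) (nat_lit 0) (XT.lf (nat_lit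 0) (nat_lit 555577184064) (nat_lit 228) (nat_lit 222636699502) (nat_lit 304) (nat_lit 201151962562) (nat_lit 85) (nat_lit 5) (nat_lit 88) (nat_lit 5) (nat_lit 89) (nat_lit 5) (nat_lit 524) (nat_lit 498) (nat_lit 178)) (XT.lf (nat_lit 0) (nat_lit 164124750451) (nat_lit 304) (nat_lit 302678707349) (nat_lit 76) (nat_lit 572361021387) (nat_lit 81) (nat_lit 5) (nat_lit 85) (nat_lit 5) (nat_lit 82) (nat_lit 5) (nat_lit 526) (nat_lit 498) (nat_lit 176)))) (XT.nd (nat_lit 60294) (nat_lit 0) (nat_lit 3572) (XT.nd (nat_lit 78) (nat_lit 0) (nat_lit 0) (XT.lf (nat_lit 0) (nat_lit 302960209501) (nat_lit 228) (nat_lit 64485457650) (nat_lit 304) (nat_lit 703277570032) (nat_lit 78) (nat_lit 5) (nat_lit 81) (nat_lit 5) (nat_lit 82) (nat_lit 5) (nat_lit 527) (nat_lit 498) (nat_lit 175)) (XT.lf (nat_lit 0) (nat_lit 591731245303) (nat_lit 304) (nat_lit 159886859220) (nat_lit 76) (nat_lit 351701897778) (nat_lit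 78) (nat_lit 5) (nat_lit 82) (nat_lit 5) (nat_lit 79) (nat_lit 5) (nat_lit 528) (nat_lit 498) (nat_lit 174))) (XT.nd (nat_lit 78) (nat_lit 0) (nat_lit 0) (XT.lf (nat_lit 0) (nat_lit 85122261735) (nat_lit 836) (nat_lit 84686040277) (nat_lit 836) (nat_lit 84686040277) (nat_lit 125) (nat_lit 3) (nat_lit 136) (nat_lit 3) (nat_lit 136) (nat_lit 5) (nat_lit 499) (nat_lit 499) (nat_lit 202)) (XT.lf (nat_lit 76) (nat_lit 82617717888) (nat_lit 0) (nat_lit 93173059872) (nat_lit 836) (nat_lit 345858116780) (nat_lit 126) (nat_lit 5) (nat_lit 125) (nat_lit 3) (nat_lit 136) (nat_lit 5) (nat_lit 500) (nat_lit 499) (nat_lit 201))))) (XT.nd (nat_lit 234) (nat_lit 0) (nat_lit 76) (XT.nd (nat_lit 78) (nat_lit 0) (nat_lit 0) (XT.lf (nat_lit 0) (nat_lit 187115115505) (nat_lit 760) (nat_lit 184343870592) (nat_lit 836) (nat_lit 163208090368) (nat_lit 126) (nat_lit 5) (nat_lit 136) (nat_lit 5) (nat_lit 137) (nat_lit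 5) (nat_lit 501) (nat_lit 499) (nat_lit 200)) (XT.nd (nat_lit 78) (nat_lit 0) (nat_lit 76) (XT.lf (nat_lit 76) (nat_lit 84246787855) (nat_lit 0) (nat_lit 117601622871) (nat_lit 836) (nat_lit 346345619736) (nat_lit 127) (nat_lit 5) (nat_lit 126) (nat_lit 5) (nat_lit 137) (nat_lit 5) (nat_lit 502) (nat_lit 499) (nat_lit 199)) (XT.lf (nat_lit 0) (nat_lit 222816993700) (nat_lit 760) (nat_lit 191950946856) (nat_lit 836) (nat_lit 147354460460) (nat_lit 127) (nat_lit 5) (nat_lit 137) (nat_lit 5) (nat_lit 138) (nat_lit 5) (nat_lit 503) (nat_lit 499) (nat_lit 198)))) (XT.nd (nat_lit 156) (nat_lit 0) (nat_lit 76) (XT.nd (nat_lit 78) (nat_lit 0) (nat_lit 76) (XT.lf (nat_lit 76) (nat_lit 94749845757) (nat_lit 0) (nat_lit 153491352422) (nat_lit 836) (nat_lit 328335632307) (nat_lit 128) (nat_lit 5) (nat_lit 127) (nat_lit 5) (nat_lit 138) (nat_lit 5) (nat_lit 504) (nat_lit 499) (nat_lit 197)) (XT.lf (nat_lit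 0) (nat_lit 280127465991) (nat_lit 760) (nat_lit 191081754816) (nat_lit 836) (nat_lit 120285217971) (nat_lit 128) (nat_lit 5) (nat_lit 138) (nat_lit 5) (nat_lit 139) (nat_lit 5) (nat_lit 505) (nat_lit 499) (nat_lit 196))) (XT.nd (nat_lit 78) (nat_lit 0) (nat_lit 76) (XT.lf (nat_lit 76) (nat_lit 115377268686) (nat_lit 0) (nat_lit 202548380167) (nat_lit 836) (nat_lit 289016398553) (nat_lit 129) (nat_lit 5) (nat_lit 128) (nat_lit 5) (nat_lit 139) (nat_lit 5) (nat_lit 506) (nat_lit 499) (nat_lit 195)) (XT.lf (nat_lit 0) (nat_lit 362144769224) (nat_lit 760) (nat_lit 180502051240) (nat_lit 836) (nat_lit 80288664589) (nat_lit 129) (nat_lit 5) (nat_lit 139) (nat_lit 5) (nat_lit 140) (nat_lit 5) (nat_lit 507) (nat_lit 499) (nat_lit 194))))))) (XT.nd (nat_lit 1092) (nat_lit 1064) (nat_lit 0) (XT.nd (nat_lit 546) (nat_lit 1292) (nat_lit 0) (XT.nd (nat_lit 234) (nat_lit 836) (nat_lit 0) (XT.nd (nat_lit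 78) (nat_lit 684) (nat_lit 0) (XT.lf (nat_lit 76) (nat_lit 147514730591) (nat_lit 0) (nat_lit 266683687167) (nat_lit 836) (nat_lit 225248998221) (nat_lit 130) (nat_lit 5) (nat_lit 129) (nat_lit 5) (nat_lit 140) (nat_lit 5) (nat_lit 508) (nat_lit 499) (nat_lit 193)) (XT.nd (nat_lit 78) (nat_lit 760) (nat_lit 0) (XT.lf (nat_lit 0) (nat_lit 472322046269) (nat_lit 760) (nat_lit 158843552657) (nat_lit 76) (nat_lit 25445979651) (nat_lit 130) (nat_lit 5) (nat_lit 140) (nat_lit 5) (nat_lit 131) (nat_lit 5) (nat_lit 509) (nat_lit 499) (nat_lit 192)) (XT.lf (nat_lit 0) (nat_lit 192695627093) (nat_lit 760) (nat_lit 348036601101) (nat_lit 836) (nat_lit 133532702517) (nat_lit 120) (nat_lit 5) (nat_lit 130) (nat_lit 5) (nat_lit 131) (nat_lit 5) (nat_lit 510) (nat_lit 499) (nat_lit 191)))) (XT.nd (nat_lit 156) (nat_lit 456) (nat_lit 0) (XT.nd (nat_lit 78) (nat_lit 380) (nat_lit 0) (XT.lf (nat_lit 0) (nat_lit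 567326446086) (nat_lit 760) (nat_lit 47926555408) (nat_lit 836) (nat_lit 77413444846) (nat_lit 120) (nat_lit 5) (nat_lit 130) (nat_lit 5) (nat_lit 131) (nat_lit 5) (nat_lit 511) (nat_lit 499) (nat_lit 190)) (XT.lf (nat_lit 0) (nat_lit 252614429376) (nat_lit 380) (nat_lit 449000962599) (nat_lit 456) (nat_lit 9966866854) (nat_lit 115) (nat_lit 5) (nat_lit 120) (nat_lit 5) (nat_lit 121) (nat_lit 5) (nat_lit 512) (nat_lit 499) (nat_lit 189))) (XT.nd (nat_lit 78) (nat_lit 380) (nat_lit 0) (XT.lf (nat_lit 0) (nat_lit 61847558282) (nat_lit 456) (nat_lit 79290184812) (nat_lit 76) (nat_lit 590111457130) (nat_lit 114) (nat_lit 5) (nat_lit 120) (nat_lit 5) (nat_lit 115) (nat_lit 5) (nat_lit 513) (nat_lit 499) (nat_lit 188)) (XT.lf (nat_lit 0) (nat_lit 144996721498) (nat_lit 456) (nat_lit 424801958626) (nat_lit 76) (nat_lit 181688690559) (nat_lit 109) (nat_lit 5) (nat_lit 115) (nat_lit 5) (nat_lit 110)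 (nat_lit 5) (nat_lit 514) (nat_lit 499) (nat_lit 187))))) (XT.nd (nat_lit 234) (nat_lit 608) (nat_lit 0) (XT.nd (nat_lit 78) (nat_lit 684) (nat_lit 0) (XT.lf (nat_lit 0) (nat_lit 235981898673) (nat_lit 456) (nat_lit 19293500023) (nat_lit 76) (nat_lit 517278123183) (nat_lit 109) (nat_lit 5) (nat_lit 115) (nat_lit 5) (nat_lit 110) (nat_lit 5) (nat_lit 515) (nat_lit 499) (nat_lit 186)) (XT.nd (nat_lit 78) (nat_lit 304) (nat_lit 0) (XT.lf (nat_lit 0) (nat_lit 339350657955) (nat_lit 456) (nat_lit 375692421335) (nat_lit 76) (nat_lit 79238185184) (nat_lit 104) (nat_lit 5) (nat_lit 110) (nat_lit 5) (nat_lit 105) (nat_lit 5) (nat_lit 516) (nat_lit 499) (nat_lit 185)) (XT.lf (nat_lit 0) (nat_lit 59675865459) (nat_lit 304) (nat_lit 393660632997) (nat_lit 380) (nat_lit 363486463585) (nat_lit 100) (nat_lit 5) (nat_lit 104) (nat_lit 5) (nat_lit 105) (nat_lit 5) (nat_lit 517) (nat_lit 499) (nat_lit 184))))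 (XT.nd (nat_lit 156) (nat_lit 304) (nat_lit 0) (XT.nd (nat_lit 78) (nat_lit 304) (nat_lit 0) (XT.lf (nat_lit 0) (nat_lit 529855750171) (nat_lit 304) (nat_lit 49528405918) (nat_lit 380) (nat_lit 260789462142) (nat_lit 100) (nat_lit 5) (nat_lit 104) (nat_lit 5) (nat_lit 105) (nat_lit 5) (nat_lit 518) (nat_lit 499) (nat_lit 183)) (XT.lf (nat_lit 0) (nat_lit 159076003875) (nat_lit 304) (nat_lit 560010042183) (nat_lit 380) (nat_lit 145238168704) (nat_lit 96) (nat_lit 5) (nat_lit 100) (nat_lit 5) (nat_lit 101) (nat_lit 5) (nat_lit 519) (nat_lit 499) (nat_lit 182))) (XT.nd (nat_lit 78) (nat_lit 304) (nat_lit 0) (XT.lf (nat_lit 0) (nat_lit 661874308808) (nat_lit 304) (nat_lit 209952942965) (nat_lit 380) (nat_lit 17552378285) (nat_lit 96) (nat_lit 5) (nat_lit 100) (nat_lit 5) (nat_lit 101) (nat_lit 5) (nat_lit 520) (nat_lit 499) (nat_lit 181)) (XT.lf (nat_lit 0) (nat_lit 119742935232) (nat_lit 304)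 (nat_lit 636630579541) (nat_lit 76) (nat_lit 158875616570) (nat_lit 92) (nat_lit 5) (nat_lit 96) (nat_lit 5) (nat_lit 93) (nat_lit 5) (nat_lit 521) (nat_lit 499) (nat_lit 180)))))) (XT.nd (nat_lit 60840) (nat_lit 0) (nat_lit 3572) (XT.nd (nat_lit 312) (nat_lit 760) (nat_lit 0) (XT.nd (nat_lit 78) (nat_lit 304) (nat_lit 0) (XT.lf (nat_lit 0) (nat_lit 270671059295) (nat_lit 304) (nat_lit 128065139190) (nat_lit 76) (nat_lit 543293626020) (nat_lit 92) (nat_lit 5) (nat_lit 96) (nat_lit 5) (nat_lit 93) (nat_lit 5) (nat_lit 522) (nat_lit 499) (nat_lit 179)) (XT.nd (nat_lit 78) (nat_lit 0) (nat_lit 0) (XT.lf (nat_lit 0) (nat_lit 419350396432) (nat_lit 304) (nat_lit 16342421521) (nat_lit 380) (nat_lit 534129372955) (nat_lit 88) (nat_lit 5) (nat_lit 92) (nat_lit 5) (nat_lit 93) (nat_lit 5) (nat_lit 523) (nat_lit 499) (nat_lit 178)) (XT.lf (nat_lit 0) (nat_lit 617183657557) (nat_lit 380) (nat_lit 6362054846)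 (nat_lit 76) (nat_lit 375047563580) (nat_lit 88) (nat_lit 5) (nat_lit 93) (nat_lit 5) (nat_lit 89) (nat_lit 5) (nat_lit 524) (nat_lit 499) (nat_lit 177)))) (XT.nd (nat_lit 156) (nat_lit 228) (nat_lit 0) (XT.nd (nat_lit 78) (nat_lit 76) (nat_lit 0) (XT.lf (nat_lit 0) (nat_lit 145128030186) (nat_lit 228) (nat_lit 887050274508) (nat_lit 304) (nat_lit 27127951172) (nat_lit 82) (nat_lit 5) (nat_lit 85) (nat_lit 5) (nat_lit 86) (nat_lit 5) (nat_lit 526) (nat_lit 499) (nat_lit 175)) (XT.lf (nat_lit 0) (nat_lit 172331168602) (nat_lit 304) (nat_lit 317812388248) (nat_lit 76) (nat_lit 600979137219) (nat_lit 81) (nat_lit 5) (nat_lit 85) (nat_lit 5) (nat_lit 82) (nat_lit 5) (nat_lit 527) (nat_lit 499) (nat_lit 174))) (XT.nd (nat_lit 60294) (nat_lit 0) (nat_lit 3572) (XT.lf (nat_lit 0) (nat_lit 318108470340) (nat_lit 228) (nat_lit 67709656105) (nat_lit 304) (nat_lit 738441263757) (nat_lit 78) (nat_lit 5)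 (nat_lit 81) (nat_lit 5) (nat_lit 82) (nat_lit 5) (nat_lit 528) (nat_lit 499) (nat_lit 173)) (XT.lf (nat_lit 0) (nat_lit 89378618054) (nat_lit 836) (nat_lit 88920214547) (nat_lit 836) (nat_lit 88920214547) (nat_lit 125) (nat_lit 3) (nat_lit 136) (nat_lit 3) (nat_lit 136) (nat_lit 5) (nat_lit 500) (nat_lit 500) (nat_lit 200))))) (XT.nd (nat_lit 312) (nat_lit 0) (nat_lit 152) (XT.nd (nat_lit 156) (nat_lit 0) (nat_lit 76) (XT.nd (nat_lit 78) (nat_lit 0) (nat_lit 76) (XT.lf (nat_lit 76) (nat_lit 86748855150) (nat_lit 0) (nat_lit 97831928722) (nat_lit 836) (nat_lit 363150531854) (nat_lit 126) (nat_lit 5) (nat_lit 125) (nat_lit 3) (nat_lit 136) (nat_lit 5) (nat_lit 501) (nat_lit 500) (nat_lit 199)) (XT.lf (nat_lit 0) (nat_lit 196471313046) (nat_lit 760) (nat_lit 193560799094) (nat_lit 836) (nat_lit 171368295889) (nat_lit 126) (nat_lit 5) (nat_lit 136) (nat_lit 5) (nat_lit 137) (nat_lit 5) (nat_lit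 502) (nat_lit 500) (nat_lit 198))) (XT.nd (nat_lit 78) (nat_lit 0) (nat_lit 76) (XT.lf (nat_lit 76) (nat_lit 88459388001) (nat_lit 0) (nat_lit 123481868062) (nat_lit 836) (nat_lit 363662454520) (nat_lit 127) (nat_lit 5) (nat_lit 126) (nat_lit 5) (nat_lit 137) (nat_lit 5) (nat_lit 503) (nat_lit 500) (nat_lit 197)) (XT.lf (nat_lit 0) (nat_lit 233958245517) (nat_lit 760) (nat_lit 201548223039) (nat_lit 836) (nat_lit 154722032249) (nat_lit 127) (nat_lit 5) (nat_lit 137) (nat_lit 5) (nat_lit 138) (nat_lit 5) (nat_lit 504) (nat_lit 500) (nat_lit 196)))) (XT.nd (nat_lit 156) (nat_lit 0) (nat_lit 76) (XT.nd (nat_lit 78) (nat_lit 0) (nat_lit 76) (XT.lf (nat_lit 76) (nat_lit 99487604831) (nat_lit 0) (nat_lit 161166040405) (nat_lit 836) (nat_lit 344752007268) (nat_lit 128) (nat_lit 5) (nat_lit 127) (nat_lit 5) (nat_lit 138) (nat_lit 5) (nat_lit 505) (nat_lit 500) (nat_lit 195)) (XT.lf (nat_lit 0) (nat_lit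 294134206213) (nat_lit 760) (nat_lit 200635568109) (nat_lit 836) (nat_lit 126299367908) (nat_lit 128) (nat_lit 5) (nat_lit 138) (nat_lit 5) (nat_lit 139) (nat_lit 5) (nat_lit 506) (nat_lit 500) (nat_lit 194))) (XT.nd (nat_lit 78) (nat_lit 0) (nat_lit 76) (XT.lf (nat_lit 76) (nat_lit 121146402142) (nat_lit 0) (nat_lit 212675882820) (nat_lit 836) (nat_lit 303466846997) (nat_lit 129) (nat_lit 5) (nat_lit 128) (nat_lit 5) (nat_lit 139) (nat_lit 5) (nat_lit 507) (nat_lit 500) (nat_lit 193)) (XT.lf (nat_lit 0) (nat_lit 380252343266) (nat_lit 760) (nat_lit 189526878425) (nat_lit 836) (nat_lit 84303020707) (nat_lit 129) (nat_lit 5) (nat_lit 139) (nat_lit 5) (nat_lit 140) (nat_lit 5) (nat_lit 508) (nat_lit 500) (nat_lit 192))))))))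
noncomputable def xc251 : XT := (XT.nd (nat_lit 62556) (nat_lit 0) (nat_lit 304) (XT.nd (nat_lit 1092) (nat_lit 836) (nat_lit 0) (XT.nd (nat_lit 546) (nat_lit 1292) (nat_lit 0) (XT.nd (nat_lit 234) (nat_lit 836) (nat_lit 0) (XT.nd (nat_lit 78) (nat_lit 684) (nat_lit 0) (XT.lf (nat_lit 76) (nat_lit 154890738056) (nat_lit 0) (nat_lit 280017924421) (nat_lit 836) (nat_lit 236511107987) (nat_lit 130) (nat_lit 5) (nat_lit 129) (nat_lit 5) (nat_lit 140) (nat_lit 5) (nat_lit 509) (nat_lit 500) (nat_lit 191)) (XT.nd (nat_lit 78) (nat_lit 760) (nat_lit 0) (XT.lf (nat_lit 0) (nat_lit 495938456206) (nat_lit 760) (nat_lit 166785455933) (nat_lit 76) (nat_lit 26718229869) (nat_lit 130) (nat_lit 5) (nat_lit 140) (nat_lit 5) (nat_lit 131) (nat_lit 5) (nat_lit 510) (nat_lit 500) (nat_lit 190)) (XT.lf (nat_lit 0) (nat_lit 202330678380) (nat_lit 760) (nat_lit 365438458414) (nat_lit 836) (nat_lit 140209025483)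 (nat_lit 120) (nat_lit 5) (nat_lit 130) (nat_lit 5) (nat_lit 131) (nat_lit 5) (nat_lit 511) (nat_lit 500) (nat_lit 189)))) (XT.nd (nat_lit 156) (nat_lit 456) (nat_lit 0) (XT.nd (nat_lit 78) (nat_lit 380) (nat_lit 0) (XT.lf (nat_lit 0) (nat_lit 595693025468) (nat_lit 760) (nat_lit 50322909138) (nat_lit 836) (nat_lit 81283819793) (nat_lit 120) (nat_lit 5) (nat_lit 130) (nat_lit 5) (nat_lit 131) (nat_lit 5) (nat_lit 512) (nat_lit 500) (nat_lit 188)) (XT.lf (nat_lit 0) (nat_lit 265245418202) (nat_lit 380) (nat_lit 471451016720) (nat_lit 456) (nat_lit 10464923081) (nat_lit 115) (nat_lit 5) (nat_lit 120) (nat_lit 5) (nat_lit 121) (nat_lit 5) (nat_lit 513) (nat_lit 500) (nat_lit 187))) (XT.nd (nat_lit 78) (nat_lit 380) (nat_lit 0) (XT.lf (nat_lit 0) (nat_lit 64940200888) (nat_lit 456) (nat_lit 83254430584) (nat_lit 76) (nat_lit 619617015438) (nat_lit 114) (nat_lit 5) (nat_lit 120) (nat_lit 5) (nat_lit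 115) (nat_lit 5) (nat_lit 514) (nat_lit 500) (nat_lit 186)) (XT.lf (nat_lit 0) (nat_lit 152246813756) (nat_lit 456) (nat_lit 446041784492) (nat_lit 76) (nat_lit 190773128074) (nat_lit 109) (nat_lit 5) (nat_lit 115) (nat_lit 5) (nat_lit 110) (nat_lit 5) (nat_lit 515) (nat_lit 500) (nat_lit 185))))) (XT.nd (nat_lit 234) (nat_lit 608) (nat_lit 0) (XT.nd (nat_lit 78) (nat_lit 684) (nat_lit 0) (XT.lf (nat_lit 0) (nat_lit 247781237590) (nat_lit 456) (nat_lit 20257915914) (nat_lit 76) (nat_lit 543142032187) (nat_lit 109) (nat_lit 5) (nat_lit 115) (nat_lit 5) (nat_lit 110) (nat_lit 5) (nat_lit 516) (nat_lit 500) (nat_lit 184)) (XT.nd (nat_lit 78) (nat_lit 304) (nat_lit 0) (XT.lf (nat_lit 0) (nat_lit 356318427489) (nat_lit 456) (nat_lit 394476775866) (nat_lit 76) (nat_lit 83200112434) (nat_lit 104) (nat_lit 5) (nat_lit 110) (nat_lit 5) (nat_lit 105) (nat_lit 5) (nat_lit 517) (nat_lit 500) (nat_lit 183))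 (XT.lf (nat_lit 0) (nat_lit 62659920969) (nat_lit 304) (nat_lit 413343631871) (nat_lit 380) (nat_lit 381660545755) (nat_lit 100) (nat_lit 5) (nat_lit 104) (nat_lit 5) (nat_lit 105) (nat_lit 5) (nat_lit 518) (nat_lit 500) (nat_lit 182)))) (XT.nd (nat_lit 156) (nat_lit 304) (nat_lit 0) (XT.nd (nat_lit 78) (nat_lit 304) (nat_lit 0) (XT.lf (nat_lit 0) (nat_lit 556348787429) (nat_lit 304) (nat_lit 52004794999) (nat_lit 380) (nat_lit 273828705716) (nat_lit 100) (nat_lit 5) (nat_lit 104) (nat_lit 5) (nat_lit 105) (nat_lit 5) (nat_lit 519) (nat_lit 500) (nat_lit 181)) (XT.lf (nat_lit 0) (nat_lit 167030060131) (nat_lit 304) (nat_lit 588010500820) (nat_lit 380) (nat_lit 152499853851) (nat_lit 96) (nat_lit 5) (nat_lit 100) (nat_lit 5) (nat_lit 101) (nat_lit 5) (nat_lit 520) (nat_lit 500) (nat_lit 180))) (XT.nd (nat_lit 78) (nat_lit 304) (nat_lit 0) (XT.lf (nat_lit 0) (nat_lit 694968268117) (nat_lit 304)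 (nat_lit 220450548711) (nat_lit 380) (nat_lit 18429784544) (nat_lit 96) (nat_lit 5) (nat_lit 100) (nat_lit 5) (nat_lit 101) (nat_lit 5) (nat_lit 521) (nat_lit 500) (nat_lit 179)) (XT.lf (nat_lit 0) (nat_lit 125730282622) (nat_lit 304) (nat_lit 668461852502) (nat_lit 76) (nat_lit 166819442696) (nat_lit 92) (nat_lit 5) (nat_lit 96) (nat_lit 5) (nat_lit 93) (nat_lit 5) (nat_lit 522) (nat_lit 500) (nat_lit 178)))))) (XT.nd (nat_lit 60918) (nat_lit 0) (nat_lit 3420) (XT.nd (nat_lit 312) (nat_lit 304) (nat_lit 0) (XT.nd (nat_lit 78) (nat_lit 532) (nat_lit 0) (XT.lf (nat_lit 0) (nat_lit 284204803334) (nat_lit 304) (nat_lit 134468152325) (nat_lit 76) (nat_lit 570458350462) (nat_lit 92) (nat_lit 5) (nat_lit 96) (nat_lit 5) (nat_lit 93) (nat_lit 5) (nat_lit 523) (nat_lit 500) (nat_lit 177)) (XT.nd (nat_lit 156) (nat_lit 228) (nat_lit 0) (XT.lf (nat_lit 0) (nat_lit 440318156146) (nat_lit 304) (nat_lit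 17159488427) (nat_lit 380) (nat_lit 560835646542) (nat_lit 88) (nat_lit 5) (nat_lit 92) (nat_lit 5) (nat_lit 93) (nat_lit 5) (nat_lit 524) (nat_lit 500) (nat_lit 176)) (XT.lf (nat_lit 0) (nat_lit 612524347601) (nat_lit 228) (nat_lit 245456831988) (nat_lit 304) (nat_lit 221769647015) (nat_lit 85) (nat_lit 5) (nat_lit 88) (nat_lit 5) (nat_lit 89) (nat_lit 5) (nat_lit 526) (nat_lit 500) (nat_lit 174)))) (XT.nd (nat_lit 60450) (nat_lit 0) (nat_lit 3344) (XT.nd (nat_lit 78) (nat_lit 76) (nat_lit 0) (XT.lf (nat_lit 0) (nat_lit 152384668314) (nat_lit 228) (nat_lit 931402720823) (nat_lit 304) (nat_lit 28484171015) (nat_lit 82) (nat_lit 5) (nat_lit 85) (nat_lit 5) (nat_lit 86) (nat_lit 5) (nat_lit 527) (nat_lit 500) (nat_lit 173)) (XT.lf (nat_lit 0) (nat_lit 180947890868) (nat_lit 304) (nat_lit 333702776850) (nat_lit 76) (nat_lit 631028152821) (nat_lit 81) (nat_lit 5) (nat_lit 85) (nat_lit 5) (nat_lit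 82) (nat_lit 5) (nat_lit 528) (nat_lit 500) (nat_lit 172))) (XT.nd (nat_lit 78) (nat_lit 0) (nat_lit 0) (XT.lf (nat_lit 0) (nat_lit 93847769576) (nat_lit 836) (nat_lit 93366109407) (nat_lit 836) (nat_lit 93366109407) (nat_lit 125) (nat_lit 3) (nat_lit 136) (nat_lit 3) (nat_lit 136) (nat_lit 5) (nat_lit 501) (nat_lit 501) (nat_lit 198)) (XT.lf (nat_lit 76) (nat_lit 91086525905) (nat_lit 0) (nat_lit 102723720946) (nat_lit 836) (nat_lit 381307613308) (nat_lit 126) (nat_lit 5) (nat_lit 125) (nat_lit 3) (nat_lit 136) (nat_lit 5) (nat_lit 502) (nat_lit 501) (nat_lit 197))))) (XT.nd (nat_lit 234) (nat_lit 0) (nat_lit 76) (XT.nd (nat_lit 78) (nat_lit 0) (nat_lit 0) (XT.lf (nat_lit 0) (nat_lit 206295279392) (nat_lit 760) (nat_lit 203238598660) (nat_lit 836) (nat_lit 179936530187) (nat_lit 126) (nat_lit 5) (nat_lit 136) (nat_lit 5) (nat_lit 137) (nat_lit 5) (nat_lit 503) (nat_lit 501) (nat_lit 196))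 (XT.nd (nat_lit 78) (nat_lit 0) (nat_lit 76) (XT.lf (nat_lit 76) (nat_lit 92882593911) (nat_lit 0) (nat_lit 129656110260) (nat_lit 836) (nat_lit 381845172526) (nat_lit 127) (nat_lit 5) (nat_lit 126) (nat_lit 5) (nat_lit 137) (nat_lit 5) (nat_lit 504) (nat_lit 501) (nat_lit 195)) (XT.lf (nat_lit 0) (nat_lit 245656522539) (nat_lit 760) (nat_lit 211625388241) (nat_lit 836) (nat_lit 162457996687) (nat_lit 127) (nat_lit 5) (nat_lit 137) (nat_lit 5) (nat_lit 138) (nat_lit 5) (nat_lit 505) (nat_lit 501) (nat_lit 194)))) (XT.nd (nat_lit 156) (nat_lit 0) (nat_lit 76) (XT.nd (nat_lit 78) (nat_lit 0) (nat_lit 76) (XT.lf (nat_lit 76) (nat_lit 104462227055) (nat_lit 0) (nat_lit 169224451597) (nat_lit 836) (nat_lit 361989238785) (nat_lit 128) (nat_lit 5) (nat_lit 127) (nat_lit 5) (nat_lit 138) (nat_lit 5) (nat_lit 506) (nat_lit 501) (nat_lit 193)) (XT.lf (nat_lit 0) (nat_lit 308841249333) (nat_lit 760) (nat_lit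 210667097581) (nat_lit 836) (nat_lit 132614235658) (nat_lit 128) (nat_lit 5) (nat_lit 138) (nat_lit 5) (nat_lit 139) (nat_lit 5) (nat_lit 507) (nat_lit 501) (nat_lit 192))) (XT.nd (nat_lit 78) (nat_lit 0) (nat_lit 76) (XT.lf (nat_lit 76) (nat_lit 127203967167) (nat_lit 0) (nat_lit 223309752829) (nat_lit 836) (nat_lit 318639852400) (nat_lit 129) (nat_lit 5) (nat_lit 128) (nat_lit 5) (nat_lit 139) (nat_lit 5) (nat_lit 508) (nat_lit 501) (nat_lit 191)) (XT.lf (nat_lit 0) (nat_lit 399265264811) (nat_lit 760) (nat_lit 199002972571) (nat_lit 836) (nat_lit 88518101801) (nat_lit 129) (nat_lit 5) (nat_lit 139) (nat_lit 5) (nat_lit 140) (nat_lit 5) (nat_lit 509) (nat_lit 501) (nat_lit 190))))))) (XT.nd (nat_lit 1248) (nat_lit 532) (nat_lit 0) (XT.nd (nat_lit 546) (nat_lit 1292) (nat_lit 0) (XT.nd (nat_lit 234) (nat_lit 836) (nat_lit 0) (XT.nd (nat_lit 78) (nat_lit 684) (nat_lit 0) (XT.lf (nat_lit 76)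 (nat_lit 162635520705) (nat_lit 0) (nat_lit 294018868620) (nat_lit 836) (nat_lit 248336354865) (nat_lit 130) (nat_lit 5) (nat_lit 129) (nat_lit 5) (nat_lit 140) (nat_lit 5) (nat_lit 510) (nat_lit 501) (nat_lit 189)) (XT.nd (nat_lit 78) (nat_lit 760) (nat_lit 0) (XT.lf (nat_lit 0) (nat_lit 520735658041) (nat_lit 760) (nat_lit 175124479880) (nat_lit 76) (nat_lit 28054097132) (nat_lit 130) (nat_lit 5) (nat_lit 140) (nat_lit 5) (nat_lit 131) (nat_lit 5) (nat_lit 511) (nat_lit 501) (nat_lit 188)) (XT.lf (nat_lit 0) (nat_lit 212447457135) (nat_lit 760) (nat_lit 383710406058) (nat_lit 836) (nat_lit 147219193619) (nat_lit 120) (nat_lit 5) (nat_lit 130) (nat_lit 5) (nat_lit 131) (nat_lit 5) (nat_lit 512) (nat_lit 501) (nat_lit 187)))) (XT.nd (nat_lit 156) (nat_lit 456) (nat_lit 0) (XT.nd (nat_lit 78) (nat_lit 380) (nat_lit 0) (XT.lf (nat_lit 0) (nat_lit 625477909919) (nat_lit 760) (nat_lit 52839078141)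 (nat_lit 836) (nat_lit 85347741128) (nat_lit 120) (nat_lit 5) (nat_lit 130) (nat_lit 5) (nat_lit 131) (nat_lit 5) (nat_lit 513) (nat_lit 501) (nat_lit 186)) (XT.lf (nat_lit 0) (nat_lit 278507931614) (nat_lit 380) (nat_lit 495023572989) (nat_lit 456) (nat_lit 10987908813) (nat_lit 115) (nat_lit 5) (nat_lit 120) (nat_lit 5) (nat_lit 121) (nat_lit 5) (nat_lit 514) (nat_lit 501) (nat_lit 185))) (XT.nd (nat_lit 78) (nat_lit 380) (nat_lit 0) (XT.lf (nat_lit 0) (nat_lit 68187451015) (nat_lit 456) (nat_lit 87416913138) (nat_lit 76) (nat_lit 650597853015) (nat_lit 114) (nat_lit 5) (nat_lit 120) (nat_lit 5) (nat_lit 115) (nat_lit 5) (nat_lit 515) (nat_lit 501) (nat_lit 184)) (XT.lf (nat_lit 0) (nat_lit 159859386809) (nat_lit 456) (nat_lit 468343626946) (nat_lit 76) (nat_lit 200311787186) (nat_lit 109) (nat_lit 5) (nat_lit 115) (nat_lit 5) (nat_lit 110) (nat_lit 5) (nat_lit 516) (nat_lit 501) (nat_lit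 183))))) (XT.nd (nat_lit 234) (nat_lit 608) (nat_lit 0) (XT.nd (nat_lit 78) (nat_lit 684) (nat_lit 0) (XT.lf (nat_lit 0) (nat_lit 260170520770) (nat_lit 456) (nat_lit 21270576690) (nat_lit 76) (nat_lit 570299136376) (nat_lit 109) (nat_lit 5) (nat_lit 115) (nat_lit 5) (nat_lit 110) (nat_lit 5) (nat_lit 517) (nat_lit 501) (nat_lit 182)) (XT.nd (nat_lit 78) (nat_lit 304) (nat_lit 0) (XT.lf (nat_lit 0) (nat_lit 374134563499) (nat_lit 456) (nat_lit 414200372903) (nat_lit 76) (nat_lit 87360134373) (nat_lit 104) (nat_lit 5) (nat_lit 110) (nat_lit 5) (nat_lit 105) (nat_lit 5) (nat_lit 518) (nat_lit 501) (nat_lit 181)) (XT.lf (nat_lit 0) (nat_lit 65793154874) (nat_lit 304) (nat_lit 434010783736) (nat_lit 380) (nat_lit 400743354440) (nat_lit 100) (nat_lit 5) (nat_lit 104) (nat_lit 5) (nat_lit 105) (nat_lit 5) (nat_lit 519) (nat_lit 501) (nat_lit 180)))) (XT.nd (nat_lit 156) (nat_lit 304) (nat_lit 0)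 (XT.nd (nat_lit 78) (nat_lit 304) (nat_lit 0) (XT.lf (nat_lit 0) (nat_lit 584166453331) (nat_lit 304) (nat_lit 54605006436) (nat_lit 380) (nat_lit 287519932809) (nat_lit 100) (nat_lit 5) (nat_lit 104) (nat_lit 5) (nat_lit 105) (nat_lit 5) (nat_lit 520) (nat_lit 501) (nat_lit 179)) (XT.lf (nat_lit 0) (nat_lit 175381795394) (nat_lit 304) (nat_lit 617410986430) (nat_lit 380) (nat_lit 160124644015) (nat_lit 96) (nat_lit 5) (nat_lit 100) (nat_lit 5) (nat_lit 101) (nat_lit 5) (nat_lit 521) (nat_lit 501) (nat_lit 178))) (XT.nd (nat_lit 78) (nat_lit 304) (nat_lit 0) (XT.lf (nat_lit 0) (nat_lit 729716902719) (nat_lit 304) (nat_lit 231473038594) (nat_lit 380) (nat_lit 19351080887) (nat_lit 96) (nat_lit 5) (nat_lit 100) (nat_lit 5) (nat_lit 101) (nat_lit 5) (nat_lit 522) (nat_lit 501) (nat_lit 177)) (XT.lf (nat_lit 0) (nat_lit 132016978730) (nat_lit 304) (nat_lit 701884712913) (nat_lit 76) (nat_lit 175160455916)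 (nat_lit 92) (nat_lit 5) (nat_lit 96) (nat_lit 5) (nat_lit 93) (nat_lit 5) (nat_lit 523) (nat_lit 501) (nat_lit 176)))))) (XT.nd (nat_lit 60996) (nat_lit 0) (nat_lit 2660) (XT.nd (nat_lit 60684) (nat_lit 0) (nat_lit 3040) (XT.nd (nat_lit 78) (nat_lit 228) (nat_lit 0) (XT.lf (nat_lit 0) (nat_lit 680445330187) (nat_lit 380) (nat_lit 7013702517) (nat_lit 76) (nat_lit 413490036581) (nat_lit 88) (nat_lit 5) (nat_lit 93) (nat_lit 5) (nat_lit 89) (nat_lit 5) (nat_lit 526) (nat_lit 501) (nat_lit 173)) (XT.nd (nat_lit 60528) (nat_lit 0) (nat_lit 3040) (XT.lf (nat_lit 0) (nat_lit 643150776085) (nat_lit 228) (nat_lit 257729619269) (nat_lit 304) (nat_lit 232857964698) (nat_lit 85) (nat_lit 5) (nat_lit 88) (nat_lit 5) (nat_lit 89) (nat_lit 5) (nat_lit 527) (nat_lit 501) (nat_lit 172)) (XT.lf (nat_lit 0) (nat_lit 98540358162) (nat_lit 836) (nat_lit 98034309782) (nat_lit 836) (nat_lit 98034309782) (nat_lit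 125) (nat_lit 3) (nat_lit 136) (nat_lit 3) (nat_lit 136) (nat_lit 5) (nat_lit 502) (nat_lit 502) (nat_lit 196)))) (XT.nd (nat_lit 156) (nat_lit 0) (nat_lit 76) (XT.nd (nat_lit 78) (nat_lit 0) (nat_lit 76) (XT.lf (nat_lit 76) (nat_lit 95641059001) (nat_lit 0) (nat_lit 107860084578) (nat_lit 836) (nat_lit 400372590220) (nat_lit 126) (nat_lit 5) (nat_lit 125) (nat_lit 3) (nat_lit 136) (nat_lit 5) (nat_lit 503) (nat_lit 502) (nat_lit 195)) (XT.lf (nat_lit 0) (nat_lit 216610406803) (nat_lit 760) (nat_lit 213400310555) (nat_lit 836) (nat_lit 188933192980) (nat_lit 126) (nat_lit 5) (nat_lit 136) (nat_lit 5) (nat_lit 137) (nat_lit 5) (nat_lit 504) (nat_lit 502) (nat_lit 194))) (XT.nd (nat_lit 78) (nat_lit 0) (nat_lit 76) (XT.lf (nat_lit 76) (nat_lit 97526938129) (nat_lit 0) (nat_lit 136139050735) (nat_lit 836) (nat_lit 400937064060) (nat_lit 127) (nat_lit 5) (nat_lit 126) (nat_lit 5) (nat_lit 137)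 (nat_lit 5) (nat_lit 505) (nat_lit 502) (nat_lit 193)) (XT.lf (nat_lit 0) (nat_lit 257939679501) (nat_lit 760) (nat_lit 222206434570) (nat_lit 836) (nat_lit 170580772100) (nat_lit 127) (nat_lit 5) (nat_lit 137) (nat_lit 5) (nat_lit 138) (nat_lit 5) (nat_lit 506) (nat_lit 502) (nat_lit 192))))) (XT.nd (nat_lit 312) (nat_lit 532) (nat_lit 0) (XT.nd (nat_lit 156) (nat_lit 0) (nat_lit 76) (XT.nd (nat_lit 78) (nat_lit 0) (nat_lit 76) (XT.lf (nat_lit 76) (nat_lit 109685557894) (nat_lit 0) (nat_lit 177685773199) (nat_lit 836) (nat_lit 380088366169) (nat_lit 128) (nat_lit 5) (nat_lit 127) (nat_lit 5) (nat_lit 138) (nat_lit 5) (nat_lit 507) (nat_lit 502) (nat_lit 191)) (XT.lf (nat_lit 0) (nat_lit 324283613668) (nat_lit 760) (nat_lit 221200226671) (nat_lit 836) (nat_lit 139244856153) (nat_lit 128) (nat_lit 5) (nat_lit 138) (nat_lit 5) (nat_lit 139) (nat_lit 5) (nat_lit 508) (nat_lit 502) (nat_lit 190)))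 (XT.nd (nat_lit 78) (nat_lit 0) (nat_lit 76) (XT.lf (nat_lit 76) (nat_lit 133564387673) (nat_lit 0) (nat_lit 234475309284) (nat_lit 836) (nat_lit 334571539400) (nat_lit 129) (nat_lit 5) (nat_lit 128) (nat_lit 5) (nat_lit 139) (nat_lit 5) (nat_lit 509) (nat_lit 502) (nat_lit 189)) (XT.lf (nat_lit 0) (nat_lit 419228804135) (nat_lit 760) (nat_lit 208952894647) (nat_lit 836) (nat_lit 92943943451) (nat_lit 129) (nat_lit 5) (nat_lit 139) (nat_lit 5) (nat_lit 140) (nat_lit 5) (nat_lit 510) (nat_lit 502) (nat_lit 188)))) (XT.nd (nat_lit 156) (nat_lit 684) (nat_lit 0) (XT.nd (nat_lit 78) (nat_lit 0) (nat_lit 76) (XT.lf (nat_lit 76) (nat_lit 170767519640) (nat_lit 0) (nat_lit 308719855569) (nat_lit 836) (nat_lit 260752892771) (nat_lit 130) (nat_lit 5) (nat_lit 129) (nat_lit 5) (nat_lit 140) (nat_lit 5) (nat_lit 511) (nat_lit 502) (nat_lit 187)) (XT.lf (nat_lit 0) (nat_lit 546772694026) (nat_lit 760)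 (nat_lit 183880478160) (nat_lit 76) (nat_lit 29456761870) (nat_lit 130) (nat_lit 5) (nat_lit 140) (nat_lit 5) (nat_lit 131) (nat_lit 5) (nat_lit 512) (nat_lit 502) (nat_lit 186))) (XT.nd (nat_lit 78) (nat_lit 0) (nat_lit 0) (XT.lf (nat_lit 0) (nat_lit 223070052065) (nat_lit 760) (nat_lit 402895948786) (nat_lit 836) (nat_lit 154579896485) (nat_lit 120) (nat_lit 5) (nat_lit 130) (nat_lit 5) (nat_lit 131) (nat_lit 5) (nat_lit 513) (nat_lit 502) (nat_lit 185)) (XT.lf (nat_lit 0) (nat_lit 656752016914) (nat_lit 760) (nat_lit 55481053406) (nat_lit 836) (nat_lit 89614883599) (nat_lit 120) (nat_lit 5) (nat_lit 130) (nat_lit 5) (nat_lit 131) (nat_lit 5) (nat_lit 514) (nat_lit 502) (nat_lit 184))))))))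
noncomputable def xc252 : XT := (XT.nd (nat_lit 62790) (nat_lit 0) (nat_lit 0) (XT.nd (nat_lit 61698) (nat_lit 0) (nat_lit 1596) (XT.nd (nat_lit 546) (nat_lit 912) (nat_lit 0) (XT.nd (nat_lit 234) (nat_lit 684) (nat_lit 0) (XT.nd (nat_lit 78) (nat_lit 456) (nat_lit 0) (XT.lf (nat_lit 0) (nat_lit 292433548150) (nat_lit 380) (nat_lit 519774756567) (nat_lit 456) (nat_lit 11537068043) (nat_lit 115) (nat_lit 5) (nat_lit 120) (nat_lit 5) (nat_lit 121) (nat_lit 5) (nat_lit 515) (nat_lit 502) (nat_lit 183)) (XT.nd (nat_lit 78) (nat_lit 380) (nat_lit 0) (XT.lf (nat_lit 0) (nat_lit 71597041329) (nat_lit 456) (nat_lit 91787542039) (nat_lit 76) (nat_lit 683127733697) (nat_lit 114) (nat_lit 5) (nat_lit 120) (nat_lit 5) (nat_lit 115) (nat_lit 5) (nat_lit 516) (nat_lit 502) (nat_lit 182)) (XT.lf (nat_lit 0) (nat_lit 167852566912) (nat_lit 456) (nat_lit 491760584465) (nat_lit 76) (nat_lit 210327379002) (nat_lit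 109) (nat_lit 5) (nat_lit 115) (nat_lit 5) (nat_lit 110) (nat_lit 5) (nat_lit 517) (nat_lit 502) (nat_lit 181)))) (XT.nd (nat_lit 156) (nat_lit 304) (nat_lit 0) (XT.nd (nat_lit 78) (nat_lit 380) (nat_lit 0) (XT.lf (nat_lit 0) (nat_lit 273179247534) (nat_lit 456) (nat_lit 22333892355) (nat_lit 76) (nat_lit 598814095535) (nat_lit 109) (nat_lit 5) (nat_lit 115) (nat_lit 5) (nat_lit 110) (nat_lit 5) (nat_lit 518) (nat_lit 502) (nat_lit 180)) (XT.lf (nat_lit 0) (nat_lit 392841486354) (nat_lit 456) (nat_lit 434910172268) (nat_lit 76) (nat_lit 91728155892) (nat_lit 104) (nat_lit 5) (nat_lit 110) (nat_lit 5) (nat_lit 105) (nat_lit 5) (nat_lit 519) (nat_lit 502) (nat_lit 179))) (XT.nd (nat_lit 78) (nat_lit 0) (nat_lit 0) (XT.lf (nat_lit 0) (nat_lit 69083028361) (nat_lit 304) (nat_lit 455711295958) (nat_lit 380) (nat_lit 420780323883) (nat_lit 100) (nat_lit 5) (nat_lit 104) (nat_lit 5) (nat_lit 105)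 (nat_lit 5) (nat_lit 520) (nat_lit 502) (nat_lit 178)) (XT.lf (nat_lit 0) (nat_lit 613374981467) (nat_lit 304) (nat_lit 57335231077) (nat_lit 380) (nat_lit 301895740612) (nat_lit 100) (nat_lit 5) (nat_lit 104) (nat_lit 5) (nat_lit 105) (nat_lit 5) (nat_lit 521) (nat_lit 502) (nat_lit 177))))) (XT.nd (nat_lit 312) (nat_lit 304) (nat_lit 0) (XT.nd (nat_lit 78) (nat_lit 304) (nat_lit 0) (XT.lf (nat_lit 0) (nat_lit 184151095827) (nat_lit 304) (nat_lit 648281499987) (nat_lit 380) (nat_lit 168130692516) (nat_lit 96) (nat_lit 5) (nat_lit 100) (nat_lit 5) (nat_lit 101) (nat_lit 5) (nat_lit 522) (nat_lit 502) (nat_lit 176)) (XT.nd (nat_lit 156) (nat_lit 304) (nat_lit 0) (XT.lf (nat_lit 0) (nat_lit 766202948487) (nat_lit 304) (nat_lit 243046656462) (nat_lit 380) (nat_lit 20318459980) (nat_lit 96) (nat_lit 5) (nat_lit 100) (nat_lit 5) (nat_lit 101) (nat_lit 5) (nat_lit 523) (nat_lit 502) (nat_lit 175))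 (XT.lf (nat_lit 0) (nat_lit 313336134850) (nat_lit 304) (nat_lit 148250705130) (nat_lit 76) (nat_lit 628930407961) (nat_lit 92) (nat_lit 5) (nat_lit 96) (nat_lit 5) (nat_lit 93) (nat_lit 5) (nat_lit 525) (nat_lit 502) (nat_lit 173)))) (XT.nd (nat_lit 60684) (nat_lit 0) (nat_lit 2812) (XT.nd (nat_lit 78) (nat_lit 0) (nat_lit 0) (XT.lf (nat_lit 0) (nat_lit 485451192979) (nat_lit 304) (nat_lit 18918239833) (nat_lit 380) (nat_lit 618320954063) (nat_lit 88) (nat_lit 5) (nat_lit 92) (nat_lit 5) (nat_lit 93) (nat_lit 5) (nat_lit 526) (nat_lit 502) (nat_lit 172)) (XT.lf (nat_lit 0) (nat_lit 714467742877) (nat_lit 380) (nat_lit 7364193027) (nat_lit 76) (nat_lit 434164579495) (nat_lit 88) (nat_lit 5) (nat_lit 93) (nat_lit 5) (nat_lit 89) (nat_lit 5) (nat_lit 527) (nat_lit 502) (nat_lit 171))) (XT.nd (nat_lit 78) (nat_lit 0) (nat_lit 0) (XT.lf (nat_lit 0) (nat_lit 103467557573) (nat_lit 836) (nat_lit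 102935929946) (nat_lit 836) (nat_lit 102935929946) (nat_lit 125) (nat_lit 3) (nat_lit 136) (nat_lit 3) (nat_lit 136) (nat_lit 5) (nat_lit 503) (nat_lit 503) (nat_lit 194)) (XT.lf (nat_lit 76) (nat_lit 100423299525) (nat_lit 0) (nat_lit 113253249882) (nat_lit 836) (nat_lit 420390853515) (nat_lit 126) (nat_lit 5) (nat_lit 125) (nat_lit 3) (nat_lit 136) (nat_lit 5) (nat_lit 504) (nat_lit 503) (nat_lit 193)))))) (XT.nd (nat_lit 546) (nat_lit 1292) (nat_lit 0) (XT.nd (nat_lit 234) (nat_lit 0) (nat_lit 76) (XT.nd (nat_lit 78) (nat_lit 0) (nat_lit 0) (XT.lf (nat_lit 0) (nat_lit 227441256795) (nat_lit 760) (nat_lit 224070128315) (nat_lit 836) (nat_lit 198379704135) (nat_lit 126) (nat_lit 5) (nat_lit 136) (nat_lit 5) (nat_lit 137) (nat_lit 5) (nat_lit 505) (nat_lit 503) (nat_lit 192)) (XT.nd (nat_lit 78) (nat_lit 0) (nat_lit 76) (XT.lf (nat_lit 76) (nat_lit 102403479613) (nat_lit 0) (nat_lit 142946125686)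 (nat_lit 836) (nat_lit 420983584300) (nat_lit 127) (nat_lit 5) (nat_lit 126) (nat_lit 5) (nat_lit 137) (nat_lit 5) (nat_lit 506) (nat_lit 503) (nat_lit 191)) (XT.lf (nat_lit 0) (nat_lit 270836963553) (nat_lit 760) (nat_lit 233316553955) (nat_lit 836) (nat_lit 179109697852) (nat_lit 127) (nat_lit 5) (nat_lit 137) (nat_lit 5) (nat_lit 138) (nat_lit 5) (nat_lit 507) (nat_lit 503) (nat_lit 190)))) (XT.nd (nat_lit 156) (nat_lit 0) (nat_lit 76) (XT.nd (nat_lit 78) (nat_lit 0) (nat_lit 76) (XT.lf (nat_lit 76) (nat_lit 115170034869) (nat_lit 0) (nat_lit 186570151675) (nat_lit 836) (nat_lit 399092481026) (nat_lit 128) (nat_lit 5) (nat_lit 127) (nat_lit 5) (nat_lit 138) (nat_lit 5) (nat_lit 508) (nat_lit 503) (nat_lit 189)) (XT.lf (nat_lit 0) (nat_lit 340498068155) (nat_lit 760) (nat_lit 232260033206) (nat_lit 836) (nat_lit 146207016159) (nat_lit 128) (nat_lit 5) (nat_lit 138) (nat_lit 5) (nat_lit 139)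 (nat_lit 5) (nat_lit 509) (nat_lit 503) (nat_lit 188))) (XT.nd (nat_lit 78) (nat_lit 0) (nat_lit 76) (XT.lf (nat_lit 76) (nat_lit 140242808551) (nat_lit 0) (nat_lit 246199137165) (nat_lit 836) (nat_lit 351299839163) (nat_lit 129) (nat_lit 5) (nat_lit 128) (nat_lit 5) (nat_lit 139) (nat_lit 5) (nat_lit 510) (nat_lit 503) (nat_lit 187)) (XT.lf (nat_lit 0) (nat_lit 440190494758) (nat_lit 760) (nat_lit 219400333889) (nat_lit 836) (nat_lit 97591083082) (nat_lit 129) (nat_lit 5) (nat_lit 139) (nat_lit 5) (nat_lit 140) (nat_lit 5) (nat_lit 511) (nat_lit 503) (nat_lit 186))))) (XT.nd (nat_lit 234) (nat_lit 836) (nat_lit 0) (XT.nd (nat_lit 78) (nat_lit 684) (nat_lit 0) (XT.lf (nat_lit 76) (nat_lit 179306097798) (nat_lit 0) (nat_lit 324155887819) (nat_lit 836) (nat_lit 273790283588) (nat_lit 130) (nat_lit 5) (nat_lit 129) (nat_lit 5) (nat_lit 140) (nat_lit 5) (nat_lit 512) (nat_lit 503) (nat_lit 185))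 (XT.nd (nat_lit 78) (nat_lit 760) (nat_lit 0) (XT.lf (nat_lit 0) (nat_lit 574111558281) (nat_lit 760) (nat_lit 193074297339) (nat_lit 76) (nat_lit 30929563575) (nat_lit 130) (nat_lit 5) (nat_lit 140) (nat_lit 5) (nat_lit 131) (nat_lit 5) (nat_lit 513) (nat_lit 503) (nat_lit 184)) (XT.lf (nat_lit 0) (nat_lit 234223756096) (nat_lit 760) (nat_lit 423040766566) (nat_lit 836) (nat_lit 162308658371) (nat_lit 120) (nat_lit 5) (nat_lit 130) (nat_lit 5) (nat_lit 131) (nat_lit 5) (nat_lit 514) (nat_lit 503) (nat_lit 183)))) (XT.nd (nat_lit 156) (nat_lit 456) (nat_lit 0) (XT.nd (nat_lit 78) (nat_lit 380) (nat_lit 0) (XT.lf (nat_lit 0) (nat_lit 689589809595) (nat_lit 760) (nat_lit 58255125448) (nat_lit 836) (nat_lit 94095405933) (nat_lit 120) (nat_lit 5) (nat_lit 130) (nat_lit 5) (nat_lit 131) (nat_lit 5) (nat_lit 515) (nat_lit 503) (nat_lit 182)) (XT.lf (nat_lit 0) (nat_lit 307055425064) (nat_lit 380)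 (nat_lit 545763498865) (nat_lit 456) (nat_lit 12113707195) (nat_lit 115) (nat_lit 5) (nat_lit 120) (nat_lit 5) (nat_lit 121) (nat_lit 5) (nat_lit 516) (nat_lit 503) (nat_lit 181))) (XT.nd (nat_lit 78) (nat_lit 380) (nat_lit 0) (XT.lf (nat_lit 0) (nat_lit 75177090912) (nat_lit 456) (nat_lit 96376722536) (nat_lit 76) (nat_lit 717284109526) (nat_lit 114) (nat_lit 5) (nat_lit 120) (nat_lit 5) (nat_lit 115) (nat_lit 5) (nat_lit 517) (nat_lit 503) (nat_lit 180)) (XT.lf (nat_lit 0) (nat_lit 176245386425) (nat_lit 456) (nat_lit 516348410669) (nat_lit 76) (nat_lit 220843750181) (nat_lit 109) (nat_lit 5) (nat_lit 115) (nat_lit 5) (nat_lit 110) (nat_lit 5) (nat_lit 518) (nat_lit 503) (nat_lit 179))))))) (XT.nd (nat_lit 61776) (nat_lit 0) (nat_lit 304) (XT.nd (nat_lit 624) (nat_lit 304) (nat_lit 0) (XT.nd (nat_lit 234) (nat_lit 608) (nat_lit 0) (XT.nd (nat_lit 78) (nat_lit 684) (nat_lit 0) (XT.lf (nat_lit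 0) (nat_lit 286838391975) (nat_lit 456) (nat_lit 23450393621) (nat_lit 76) (nat_lit 628754802434) (nat_lit 109) (nat_lit 5) (nat_lit 115) (nat_lit 5) (nat_lit 110) (nat_lit 5) (nat_lit 519) (nat_lit 503) (nat_lit 178)) (XT.nd (nat_lit 78) (nat_lit 304) (nat_lit 0) (XT.lf (nat_lit 0) (nat_lit 412483737253) (nat_lit 456) (nat_lit 456655481988) (nat_lit 76) (nat_lit 96314577111) (nat_lit 104) (nat_lit 5) (nat_lit 110) (nat_lit 5) (nat_lit 105) (nat_lit 5) (nat_lit 520) (nat_lit 503) (nat_lit 177)) (XT.lf (nat_lit 0) (nat_lit 72537375464) (nat_lit 304) (nat_lit 478496836299) (nat_lit 380) (nat_lit 441819160232) (nat_lit 100) (nat_lit 5) (nat_lit 104) (nat_lit 5) (nat_lit 105) (nat_lit 5) (nat_lit 521) (nat_lit 503) (nat_lit 176)))) (XT.nd (nat_lit 234) (nat_lit 304) (nat_lit 0) (XT.nd (nat_lit 78) (nat_lit 304) (nat_lit 0) (XT.lf (nat_lit 0) (nat_lit 644043916908) (nat_lit 304) (nat_lit 60201969338)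 (nat_lit 380) (nat_lit 316990356362) (nat_lit 100) (nat_lit 5) (nat_lit 104) (nat_lit 5) (nat_lit 105) (nat_lit 5) (nat_lit 522) (nat_lit 503) (nat_lit 175)) (XT.lf (nat_lit 0) (nat_lit 193358841696) (nat_lit 304) (nat_lit 680695542546) (nat_lit 380) (nat_lit 176537060522) (nat_lit 96) (nat_lit 5) (nat_lit 100) (nat_lit 5) (nat_lit 101) (nat_lit 5) (nat_lit 523) (nat_lit 503) (nat_lit 174))) (XT.nd (nat_lit 78) (nat_lit 0) (nat_lit 0) (XT.lf (nat_lit 0) (nat_lit 145549042072) (nat_lit 304) (nat_lit 773827483788) (nat_lit 76) (nat_lit 193114475579) (nat_lit 92) (nat_lit 5) (nat_lit 96) (nat_lit 5) (nat_lit 93) (nat_lit 5) (nat_lit 525) (nat_lit 503) (nat_lit 172)) (XT.lf (nat_lit 0) (nat_lit 329003084175) (nat_lit 304) (nat_lit 155663058440) (nat_lit 76) (nat_lit 660376960551) (nat_lit 92) (nat_lit 5) (nat_lit 96) (nat_lit 5) (nat_lit 93) (nat_lit 5) (nat_lit 526) (nat_lit 503) (nat_lit 171)))))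 (XT.nd (nat_lit 60840) (nat_lit 0) (nat_lit 2888) (XT.nd (nat_lit 60684) (nat_lit 0) (nat_lit 2812) (XT.lf (nat_lit 0) (nat_lit 509723931639) (nat_lit 304) (nat_lit 19864111402) (nat_lit 380) (nat_lit 649236856209) (nat_lit 88) (nat_lit 5) (nat_lit 92) (nat_lit 5) (nat_lit 93) (nat_lit 5) (nat_lit 527) (nat_lit 503) (nat_lit 170)) (XT.nd (nat_lit 78) (nat_lit 0) (nat_lit 0) (XT.lf (nat_lit 0) (nat_lit 108641100081) (nat_lit 836) (nat_lit 108082639981) (nat_lit 836) (nat_lit 108082639981) (nat_lit 125) (nat_lit 3) (nat_lit 136) (nat_lit 3) (nat_lit 136) (nat_lit 5) (nat_lit 504) (nat_lit 504) (nat_lit 192)) (XT.lf (nat_lit 76) (nat_lit 105444634637) (nat_lit 0) (nat_lit 118916058476) (nat_lit 836) (nat_lit 441410064022) (nat_lit 126) (nat_lit 5) (nat_lit 125) (nat_lit 3) (nat_lit 136) (nat_lit 5) (nat_lit 505) (nat_lit 504) (nat_lit 191)))) (XT.nd (nat_lit 156) (nat_lit 0) (nat_lit 76) (XT.nd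 (nat_lit 78) (nat_lit 0) (nat_lit 0) (XT.lf (nat_lit 0) (nat_lit 238813618639) (nat_lit 760) (nat_lit 235273455349) (nat_lit 836) (nat_lit 208298554652) (nat_lit 126) (nat_lit 5) (nat_lit 136) (nat_lit 5) (nat_lit 137) (nat_lit 5) (nat_lit 506) (nat_lit 504) (nat_lit 190)) (XT.lf (nat_lit 76) (nat_lit 107523830082) (nat_lit 0) (nat_lit 150093543004) (nat_lit 836) (nat_lit 442032461507) (nat_lit 127) (nat_lit 5) (nat_lit 126) (nat_lit 5) (nat_lit 137) (nat_lit 5) (nat_lit 507) (nat_lit 504) (nat_lit 189))) (XT.nd (nat_lit 78) (nat_lit 0) (nat_lit 0) (XT.lf (nat_lit 0) (nat_lit 284379083909) (nat_lit 760) (nat_lit 244982198121) (nat_lit 836) (nat_lit 188065080383) (nat_lit 127) (nat_lit 5) (nat_lit 137) (nat_lit 5) (nat_lit 138) (nat_lit 5) (nat_lit 508) (nat_lit 504) (nat_lit 188)) (XT.lf (nat_lit 76) (nat_lit 120928717183) (nat_lit 0) (nat_lit 195898740725) (nat_lit 836) (nat_lit 419046829838)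 (nat_lit 128) (nat_lit 5) (nat_lit 127) (nat_lit 5) (nat_lit 138) (nat_lit 5) (nat_lit 509) (nat_lit 504) (nat_lit 187)))))) (XT.nd (nat_lit 546) (nat_lit 2128) (nat_lit 0) (XT.nd (nat_lit 234) (nat_lit 608) (nat_lit 0) (XT.nd (nat_lit 78) (nat_lit 0) (nat_lit 0) (XT.lf (nat_lit 0) (nat_lit 357523219911) (nat_lit 760) (nat_lit 243872849109) (nat_lit 836) (nat_lit 153517291864) (nat_lit 128) (nat_lit 5) (nat_lit 138) (nat_lit 5) (nat_lit 139) (nat_lit 5) (nat_lit 510) (nat_lit 504) (nat_lit 186)) (XT.nd (nat_lit 78) (nat_lit 0) (nat_lit 76) (XT.lf (nat_lit 76) (nat_lit 147255131741) (nat_lit 0) (nat_lit 258509150637) (nat_lit 836) (nat_lit 368864579686) (nat_lit 129) (nat_lit 5) (nat_lit 128) (nat_lit 5) (nat_lit 139) (nat_lit 5) (nat_lit 511) (nat_lit 504) (nat_lit 185)) (XT.lf (nat_lit 0) (nat_lit 462200246630) (nat_lit 760) (nat_lit 230370164197) (nat_lit 836) (nat_lit 102470585044) (nat_lit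 129) (nat_lit 5) (nat_lit 139) (nat_lit 5) (nat_lit 140) (nat_lit 5) (nat_lit 512) (nat_lit 504) (nat_lit 184)))) (XT.nd (nat_lit 156) (nat_lit 684) (nat_lit 0) (XT.nd (nat_lit 78) (nat_lit 0) (nat_lit 76) (XT.lf (nat_lit 76) (nat_lit 188271586067) (nat_lit 0) (nat_lit 340363718012) (nat_lit 836) (nat_lit 287479567544) (nat_lit 130) (nat_lit 5) (nat_lit 129) (nat_lit 5) (nat_lit 140) (nat_lit 5) (nat_lit 513) (nat_lit 504) (nat_lit 183)) (XT.lf (nat_lit 0) (nat_lit 602817344407) (nat_lit 760) (nat_lit 202727826510) (nat_lit 76) (nat_lit 32476008748) (nat_lit 130) (nat_lit 5) (nat_lit 140) (nat_lit 5) (nat_lit 131) (nat_lit 5) (nat_lit 514) (nat_lit 504) (nat_lit 182))) (XT.nd (nat_lit 78) (nat_lit 0) (nat_lit 0) (XT.lf (nat_lit 0) (nat_lit 245935126601) (nat_lit 760) (nat_lit 444192823343) (nat_lit 836) (nat_lit 170423880007) (nat_lit 120) (nat_lit 5) (nat_lit 130) (nat_lit 5) (nat_lit 131)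 (nat_lit 5) (nat_lit 515) (nat_lit 504) (nat_lit 181)) (XT.lf (nat_lit 0) (nat_lit 724069474075) (nat_lit 760) (nat_lit 61167899291) (nat_lit 836) (nat_lit 98799975008) (nat_lit 120) (nat_lit 5) (nat_lit 130) (nat_lit 5) (nat_lit 131) (nat_lit 5) (nat_lit 516) (nat_lit 504) (nat_lit 180))))) (XT.nd (nat_lit 312) (nat_lit 1292) (nat_lit 0) (XT.nd (nat_lit 156) (nat_lit 380) (nat_lit 0) (XT.nd (nat_lit 78) (nat_lit 76) (nat_lit 0) (XT.lf (nat_lit 0) (nat_lit 322408377275) (nat_lit 380) (nat_lit 573051677863) (nat_lit 456) (nat_lit 12719198223) (nat_lit 115) (nat_lit 5) (nat_lit 120) (nat_lit 5) (nat_lit 121) (nat_lit 5) (nat_lit 517) (nat_lit 504) (nat_lit 179)) (XT.lf (nat_lit 0) (nat_lit 78936124612) (nat_lit 456) (nat_lit 101195380336) (nat_lit 76) (nat_lit 753148305155) (nat_lit 114) (nat_lit 5) (nat_lit 120) (nat_lit 5) (nat_lit 115) (nat_lit 5) (nat_lit 518) (nat_lit 504) (nat_lit 178)))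 (XT.nd (nat_lit 78) (nat_lit 0) (nat_lit 0) (XT.lf (nat_lit 0) (nat_lit 185057829140) (nat_lit 456) (nat_lit 542165647058) (nat_lit 76) (nat_lit 231885939712) (nat_lit 109) (nat_lit 5) (nat_lit 115) (nat_lit 5) (nat_lit 110) (nat_lit 5) (nat_lit 519) (nat_lit 504) (nat_lit 177)) (XT.lf (nat_lit 0) (nat_lit 301180476712) (nat_lit 456) (nat_lit 24622737926) (nat_lit 76) (nat_lit 660192544481) (nat_lit 109) (nat_lit 5) (nat_lit 115) (nat_lit 5) (nat_lit 110) (nat_lit 5) (nat_lit 520) (nat_lit 504) (nat_lit 176)))) (XT.nd (nat_lit 312) (nat_lit 608) (nat_lit 0) (XT.nd (nat_lit 78) (nat_lit 304) (nat_lit 0) (XT.lf (nat_lit 0) (nat_lit 433108084280) (nat_lit 456) (nat_lit 479488075686) (nat_lit 76) (nat_lit 101130318143) (nat_lit 104) (nat_lit 5) (nat_lit 110) (nat_lit 5) (nat_lit 105) (nat_lit 5) (nat_lit 521) (nat_lit 504) (nat_lit 175)) (XT.lf (nat_lit 0) (nat_lit 76164421730) (nat_lit 304) (nat_lit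 502421655930) (nat_lit 380) (nat_lit 463909955119) (nat_lit 100) (nat_lit 5) (nat_lit 104) (nat_lit 5) (nat_lit 105) (nat_lit 5) (nat_lit 522) (nat_lit 504) (nat_lit 174))) (XT.nd (nat_lit 78) (nat_lit 304) (nat_lit 0) (XT.lf (nat_lit 0) (nat_lit 844739106845) (nat_lit 304) (nat_lit 267958878287) (nat_lit 380) (nat_lit 22400791574) (nat_lit 96) (nat_lit 5) (nat_lit 100) (nat_lit 5) (nat_lit 101) (nat_lit 5) (nat_lit 525) (nat_lit 504) (nat_lit 171)) (XT.lf (nat_lit 0) (nat_lit 152826629969) (nat_lit 304) (nat_lit 812518684696) (nat_lit 76) (nat_lit 202770230017) (nat_lit 92) (nat_lit 5) (nat_lit 96) (nat_lit 5) (nat_lit 93) (nat_lit 5) (nat_lit 526) (nat_lit 504) (nat_lit 170))))))))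
noncomputable def xc253 : XT := (XT.nd (nat_lit 63102) (nat_lit 0) (nat_lit 0) (XT.nd (nat_lit 1092) (nat_lit 1444) (nat_lit 0) (XT.nd (nat_lit 546) (nat_lit 760) (nat_lit 0) (XT.nd (nat_lit 234) (nat_lit 0) (nat_lit 76) (XT.nd (nat_lit 78) (nat_lit 0) (nat_lit 0) (XT.lf (nat_lit 0) (nat_lit 114073304408) (nat_lit 836) (nat_lit 113486693557) (nat_lit 836) (nat_lit 113486693557) (nat_lit 125) (nat_lit 3) (nat_lit 136) (nat_lit 3) (nat_lit 136) (nat_lit 5) (nat_lit 505) (nat_lit 505) (nat_lit 190)) (XT.nd (nat_lit 78) (nat_lit 0) (nat_lit 76) (XT.lf (nat_lit 76) (nat_lit 110717020686) (nat_lit 0) (nat_lit 124861993917) (nat_lit 836) (nat_lit 463480265936) (nat_lit 126) (nat_lit 5) (nat_lit 125) (nat_lit 3) (nat_lit 136) (nat_lit 5) (nat_lit 506) (nat_lit 505) (nat_lit 189)) (XT.lf (nat_lit 0) (nat_lit 250754570776) (nat_lit 760) (nat_lit 247036965413) (nat_lit 836) (nat_lit 218713360217) (nat_lit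 126) (nat_lit 5) (nat_lit 136) (nat_lit 5) (nat_lit 137) (nat_lit 5) (nat_lit 507) (nat_lit 505) (nat_lit 188)))) (XT.nd (nat_lit 156) (nat_lit 0) (nat_lit 76) (XT.nd (nat_lit 78) (nat_lit 0) (nat_lit 76) (XT.lf (nat_lit 76) (nat_lit 112900181666) (nat_lit 0) (nat_lit 157598320865) (nat_lit 836) (nat_lit 464133810652) (nat_lit 127) (nat_lit 5) (nat_lit 126) (nat_lit 5) (nat_lit 137) (nat_lit 5) (nat_lit 508) (nat_lit 505) (nat_lit 187)) (XT.lf (nat_lit 0) (nat_lit 298598284979) (nat_lit 760) (nat_lit 257231141559) (nat_lit 836) (nat_lit 197468241557) (nat_lit 127) (nat_lit 5) (nat_lit 137) (nat_lit 5) (nat_lit 138) (nat_lit 5) (nat_lit 509) (nat_lit 505) (nat_lit 186))) (XT.nd (nat_lit 78) (nat_lit 0) (nat_lit 76) (XT.lf (nat_lit 76) (nat_lit 126975316826) (nat_lit 0) (nat_lit 205693751653) (nat_lit 836) (nat_lit 439998921680) (nat_lit 128) (nat_lit 5) (nat_lit 127) (nat_lit 5) (nat_lit 138)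 (nat_lit 5) (nat_lit 510) (nat_lit 505) (nat_lit 185)) (XT.lf (nat_lit 0) (nat_lit 375399606165) (nat_lit 760) (nat_lit 256066323077) (nat_lit 836) (nat_lit 161193088336) (nat_lit 128) (nat_lit 5) (nat_lit 138) (nat_lit 5) (nat_lit 139) (nat_lit 5) (nat_lit 511) (nat_lit 505) (nat_lit 184))))) (XT.nd (nat_lit 234) (nat_lit 988) (nat_lit 0) (XT.nd (nat_lit 78) (nat_lit 0) (nat_lit 76) (XT.lf (nat_lit 76) (nat_lit 154618054098) (nat_lit 0) (nat_lit 271434659519) (nat_lit 836) (nat_lit 387307580611) (nat_lit 129) (nat_lit 5) (nat_lit 128) (nat_lit 5) (nat_lit 139) (nat_lit 5) (nat_lit 512) (nat_lit 505) (nat_lit 183)) (XT.nd (nat_lit 78) (nat_lit 0) (nat_lit 0) (XT.lf (nat_lit 0) (nat_lit 485310464979) (nat_lit 760) (nat_lit 241888503349) (nat_lit 836) (nat_lit 107594066957) (nat_lit 129) (nat_lit 5) (nat_lit 139) (nat_lit 5) (nat_lit 140) (nat_lit 5) (nat_lit 513) (nat_lit 505) (nat_lit 182))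 (XT.lf (nat_lit 76) (nat_lit 197685331701) (nat_lit 0) (nat_lit 357381936386) (nat_lit 836) (nat_lit 301853337102) (nat_lit 130) (nat_lit 5) (nat_lit 129) (nat_lit 5) (nat_lit 140) (nat_lit 5) (nat_lit 514) (nat_lit 505) (nat_lit 181)))) (XT.nd (nat_lit 156) (nat_lit 380) (nat_lit 0) (XT.nd (nat_lit 78) (nat_lit 760) (nat_lit 0) (XT.lf (nat_lit 0) (nat_lit 632958400482) (nat_lit 760) (nat_lit 212864049404) (nat_lit 76) (nat_lit 34099779248) (nat_lit 130) (nat_lit 5) (nat_lit 140) (nat_lit 5) (nat_lit 131) (nat_lit 5) (nat_lit 515) (nat_lit 505) (nat_lit 180)) (XT.lf (nat_lit 0) (nat_lit 258232048646) (nat_lit 760) (nat_lit 466402481244) (nat_lit 836) (nat_lit 178944882369) (nat_lit 120) (nat_lit 5) (nat_lit 130) (nat_lit 5) (nat_lit 131) (nat_lit 5) (nat_lit 516) (nat_lit 505) (nat_lit 179))) (XT.nd (nat_lit 78) (nat_lit 380) (nat_lit 0) (XT.lf (nat_lit 0) (nat_lit 760273105602) (nat_lit 760)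 (nat_lit 64226310193) (nat_lit 836) (nat_lit 103739791245) (nat_lit 120) (nat_lit 5) (nat_lit 130) (nat_lit 5) (nat_lit 131) (nat_lit 5) (nat_lit 517) (nat_lit 505) (nat_lit 178)) (XT.lf (nat_lit 0) (nat_lit 338528960273) (nat_lit 380) (nat_lit 601704265434) (nat_lit 456) (nat_lit 13354981870) (nat_lit 115) (nat_lit 5) (nat_lit 120) (nat_lit 5) (nat_lit 121) (nat_lit 5) (nat_lit 518) (nat_lit 505) (nat_lit 177)))))) (XT.nd (nat_lit 61464) (nat_lit 0) (nat_lit 2204) (XT.nd (nat_lit 234) (nat_lit 988) (nat_lit 0) (XT.nd (nat_lit 78) (nat_lit 380) (nat_lit 0) (XT.lf (nat_lit 0) (nat_lit 82883093340) (nat_lit 456) (nat_lit 106254987606) (nat_lit 76) (nat_lit 790805711482) (nat_lit 114) (nat_lit 5) (nat_lit 120) (nat_lit 5) (nat_lit 115) (nat_lit 5) (nat_lit 519) (nat_lit 505) (nat_lit 176)) (XT.nd (nat_lit 78) (nat_lit 0) (nat_lit 0) (XT.lf (nat_lit 0) (nat_lit 194310877871) (nat_lit 456) (nat_lit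 569273762387) (nat_lit 76) (nat_lit 243480238531) (nat_lit 109) (nat_lit 5) (nat_lit 115) (nat_lit 5) (nat_lit 110) (nat_lit 5) (nat_lit 520) (nat_lit 505) (nat_lit 175)) (XT.lf (nat_lit 0) (nat_lit 316239650332) (nat_lit 456) (nat_lit 25853715752) (nat_lit 76) (nat_lit 693202173451) (nat_lit 109) (nat_lit 5) (nat_lit 115) (nat_lit 5) (nat_lit 110) (nat_lit 5) (nat_lit 521) (nat_lit 505) (nat_lit 174)))) (XT.nd (nat_lit 234) (nat_lit 304) (nat_lit 0) (XT.nd (nat_lit 156) (nat_lit 304) (nat_lit 0) (XT.lf (nat_lit 0) (nat_lit 454763633768) (nat_lit 456) (nat_lit 503462315840) (nat_lit 76) (nat_lit 106186845095) (nat_lit 104) (nat_lit 5) (nat_lit 110) (nat_lit 5) (nat_lit 105) (nat_lit 5) (nat_lit 522) (nat_lit 505) (nat_lit 173)) (XT.lf (nat_lit 0) (nat_lit 710058749208) (nat_lit 304) (nat_lit 66372629848) (nat_lit 380) (nat_lit 349481563852) (nat_lit 100) (nat_lit 5) (nat_lit 104) (nat_lit 5)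 (nat_lit 105) (nat_lit 5) (nat_lit 524) (nat_lit 505) (nat_lit 171))) (XT.nd (nat_lit 78) (nat_lit 0) (nat_lit 0) (XT.lf (nat_lit 0) (nat_lit 213178462149) (nat_lit 304) (nat_lit 750466778074) (nat_lit 380) (nat_lit 194631813459) (nat_lit 96) (nat_lit 5) (nat_lit 100) (nat_lit 5) (nat_lit 101) (nat_lit 5) (nat_lit 525) (nat_lit 505) (nat_lit 170)) (XT.lf (nat_lit 0) (nat_lit 886976211902) (nat_lit 304) (nat_lit 281356796784) (nat_lit 380) (nat_lit 23520700601) (nat_lit 96) (nat_lit 5) (nat_lit 100) (nat_lit 5) (nat_lit 101) (nat_lit 5) (nat_lit 526) (nat_lit 505) (nat_lit 169))))) (XT.nd (nat_lit 234) (nat_lit 0) (nat_lit 76) (XT.nd (nat_lit 78) (nat_lit 0) (nat_lit 0) (XT.lf (nat_lit 0) (nat_lit 119777105070) (nat_lit 836) (nat_lit 119160957102) (nat_lit 836) (nat_lit 119160957102) (nat_lit 125) (nat_lit 3) (nat_lit 136) (nat_lit 3) (nat_lit 136) (nat_lit 5) (nat_lit 506) (nat_lit 506) (nat_lit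 188)) (XT.nd (nat_lit 78) (nat_lit 0) (nat_lit 76) (XT.lf (nat_lit 76) (nat_lit 116253011691) (nat_lit 0) (nat_lit 131105213810) (nat_lit 836) (nat_lit 486654005956) (nat_lit 126) (nat_lit 5) (nat_lit 125) (nat_lit 3) (nat_lit 136) (nat_lit 5) (nat_lit 507) (nat_lit 506) (nat_lit 187)) (XT.lf (nat_lit 0) (nat_lit 263292545307) (nat_lit 760) (nat_lit 259388666106) (nat_lit 836) (nat_lit 229648917419) (nat_lit 126) (nat_lit 5) (nat_lit 136) (nat_lit 5) (nat_lit 137) (nat_lit 5) (nat_lit 508) (nat_lit 506) (nat_lit 186)))) (XT.nd (nat_lit 156) (nat_lit 0) (nat_lit 76) (XT.nd (nat_lit 78) (nat_lit 0) (nat_lit 76) (XT.lf (nat_lit 76) (nat_lit 118545335946) (nat_lit 0) (nat_lit 165478328255) (nat_lit 836) (nat_lit 487340252722) (nat_lit 127) (nat_lit 5) (nat_lit 126) (nat_lit 5) (nat_lit 137) (nat_lit 5) (nat_lit 509) (nat_lit 506) (nat_lit 185)) (XT.lf (nat_lit 0) (nat_lit 313528423150) (nat_lit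 760) (nat_lit 270092547645) (nat_lit 836) (nat_lit 207341569422) (nat_lit 127) (nat_lit 5) (nat_lit 137) (nat_lit 5) (nat_lit 138) (nat_lit 5) (nat_lit 510) (nat_lit 506) (nat_lit 184))) (XT.nd (nat_lit 78) (nat_lit 0) (nat_lit 76) (XT.lf (nat_lit 76) (nat_lit 133324231224) (nat_lit 0) (nat_lit 215978506257) (nat_lit 836) (nat_lit 461998641324) (nat_lit 128) (nat_lit 5) (nat_lit 127) (nat_lit 5) (nat_lit 138) (nat_lit 5) (nat_lit 511) (nat_lit 506) (nat_lit 183)) (XT.lf (nat_lit 0) (nat_lit 394169790790) (nat_lit 760) (nat_lit 268869486408) (nat_lit 836) (nat_lit 169252680966) (nat_lit 128) (nat_lit 5) (nat_lit 138) (nat_lit 5) (nat_lit 139) (nat_lit 5) (nat_lit 512) (nat_lit 506) (nat_lit 182))))))) (XT.nd (nat_lit 62088) (nat_lit 0) (nat_lit 988) (XT.nd (nat_lit 546) (nat_lit 1444) (nat_lit 0) (XT.nd (nat_lit 234) (nat_lit 988) (nat_lit 0) (XT.nd (nat_lit 78) (nat_lit 0) (nat_lit 76) (XT.lf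 (nat_lit 76) (nat_lit 162349107161) (nat_lit 0) (nat_lit 285006439071) (nat_lit 836) (nat_lit 406672752786) (nat_lit 129) (nat_lit 5) (nat_lit 128) (nat_lit 5) (nat_lit 139) (nat_lit 5) (nat_lit 513) (nat_lit 506) (nat_lit 181)) (XT.nd (nat_lit 78) (nat_lit 0) (nat_lit 0) (XT.lf (nat_lit 0) (nat_lit 509576175092) (nat_lit 760) (nat_lit 253982775177) (nat_lit 836) (nat_lit 112973727366) (nat_lit 129) (nat_lit 5) (nat_lit 139) (nat_lit 5) (nat_lit 140) (nat_lit 5) (nat_lit 514) (nat_lit 506) (nat_lit 180)) (XT.lf (nat_lit 76) (nat_lit 207569749153) (nat_lit 0) (nat_lit 375251062659) (nat_lit 836) (nat_lit 316945814552) (nat_lit 130) (nat_lit 5) (nat_lit 129) (nat_lit 5) (nat_lit 140) (nat_lit 5) (nat_lit 515) (nat_lit 506) (nat_lit 179)))) (XT.nd (nat_lit 156) (nat_lit 380) (nat_lit 0) (XT.nd (nat_lit 78) (nat_lit 760) (nat_lit 0) (XT.lf (nat_lit 0) (nat_lit 664606491803) (nat_lit 760) (nat_lit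 223507099102) (nat_lit 76) (nat_lit 35804741056) (nat_lit 130) (nat_lit 5) (nat_lit 140) (nat_lit 5) (nat_lit 131) (nat_lit 5) (nat_lit 516) (nat_lit 506) (nat_lit 178)) (XT.lf (nat_lit 0) (nat_lit 271143801386) (nat_lit 760) (nat_lit 489722620485) (nat_lit 836) (nat_lit 187891952665) (nat_lit 120) (nat_lit 5) (nat_lit 130) (nat_lit 5) (nat_lit 131) (nat_lit 5) (nat_lit 517) (nat_lit 506) (nat_lit 177))) (XT.nd (nat_lit 78) (nat_lit 380) (nat_lit 0) (XT.lf (nat_lit 0) (nat_lit 798286904033) (nat_lit 760) (nat_lit 67437640158) (nat_lit 836) (nat_lit 108926615263) (nat_lit 120) (nat_lit 5) (nat_lit 130) (nat_lit 5) (nat_lit 131) (nat_lit 5) (nat_lit 518) (nat_lit 506) (nat_lit 176)) (XT.lf (nat_lit 0) (nat_lit 355455557162) (nat_lit 380) (nat_lit 631789482041) (nat_lit 456) (nat_lit 14022571087) (nat_lit 115) (nat_lit 5) (nat_lit 120) (nat_lit 5) (nat_lit 121) (nat_lit 5) (nat_lit 519) (nat_lit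 506) (nat_lit 175))))) (XT.nd (nat_lit 312) (nat_lit 988) (nat_lit 0) (XT.nd (nat_lit 78) (nat_lit 380) (nat_lit 0) (XT.lf (nat_lit 0) (nat_lit 87027395397) (nat_lit 456) (nat_lit 111567590277) (nat_lit 76) (nat_lit 830345988955) (nat_lit 114) (nat_lit 5) (nat_lit 120) (nat_lit 5) (nat_lit 115) (nat_lit 5) (nat_lit 520) (nat_lit 506) (nat_lit 174)) (XT.nd (nat_lit 78) (nat_lit 0) (nat_lit 0) (XT.lf (nat_lit 0) (nat_lit 204026564417) (nat_lit 456) (nat_lit 597737299010) (nat_lit 76) (nat_lit 255654252120) (nat_lit 109) (nat_lit 5) (nat_lit 115) (nat_lit 5) (nat_lit 110) (nat_lit 5) (nat_lit 521) (nat_lit 506) (nat_lit 173)) (XT.lf (nat_lit 0) (nat_lit 332051768708) (nat_lit 456) (nat_lit 27146257258) (nat_lit 76) (nat_lit 727862283707) (nat_lit 109) (nat_lit 5) (nat_lit 115) (nat_lit 5) (nat_lit 110) (nat_lit 5) (nat_lit 522) (nat_lit 506) (nat_lit 172)))) (XT.nd (nat_lit 156) (nat_lit 304)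 (nat_lit 0) (XT.nd (nat_lit 78) (nat_lit 0) (nat_lit 0) (XT.lf (nat_lit 0) (nat_lit 83971590021) (nat_lit 304) (nat_lit 553919836284) (nat_lit 380) (nat_lit 511460435959) (nat_lit 100) (nat_lit 5) (nat_lit 104) (nat_lit 5) (nat_lit 105) (nat_lit 5) (nat_lit 524) (nat_lit 506) (nat_lit 170)) (XT.lf (nat_lit 0) (nat_lit 745561825738) (nat_lit 304) (nat_lit 69691243959) (nat_lit 380) (nat_lit 366955514232) (nat_lit 100) (nat_lit 5) (nat_lit 104) (nat_lit 5) (nat_lit 105) (nat_lit 5) (nat_lit 525) (nat_lit 506) (nat_lit 169))) (XT.nd (nat_lit 60996) (nat_lit 0) (nat_lit 2204) (XT.lf (nat_lit 0) (nat_lit 223837527842) (nat_lit 304) (nat_lit 787990092771) (nat_lit 380) (nat_lit 204363279797) (nat_lit 96) (nat_lit 5) (nat_lit 100) (nat_lit 5) (nat_lit 101) (nat_lit 5) (nat_lit 526) (nat_lit 506) (nat_lit 168)) (XT.lf (nat_lit 0) (nat_lit 125766083172) (nat_lit 836) (nat_lit 125118940437) (nat_lit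 836) (nat_lit 125118940437) (nat_lit 125) (nat_lit 3) (nat_lit 136) (nat_lit 3) (nat_lit 136) (nat_lit 5) (nat_lit 507) (nat_lit 507) (nat_lit 186)))))) (XT.nd (nat_lit 546) (nat_lit 1216) (nat_lit 0) (XT.nd (nat_lit 234) (nat_lit 0) (nat_lit 152) (XT.nd (nat_lit 78) (nat_lit 0) (nat_lit 76) (XT.lf (nat_lit 76) (nat_lit 122065789233) (nat_lit 0) (nat_lit 137660583522) (nat_lit 836) (nat_lit 510986458384) (nat_lit 126) (nat_lit 5) (nat_lit 125) (nat_lit 3) (nat_lit 136) (nat_lit 5) (nat_lit 508) (nat_lit 507) (nat_lit 185)) (XT.nd (nat_lit 78) (nat_lit 0) (nat_lit 0) (XT.lf (nat_lit 0) (nat_lit 276457395693) (nat_lit 760) (nat_lit 272357965555) (nat_lit 836) (nat_lit 241131262783) (nat_lit 126) (nat_lit 5) (nat_lit 136) (nat_lit 5) (nat_lit 137) (nat_lit 5) (nat_lit 509) (nat_lit 507) (nat_lit 184)) (XT.lf (nat_lit 76) (nat_lit 124472734441) (nat_lit 0) (nat_lit 173752327523) (nat_lit 836) (nat_lit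 511707039995) (nat_lit 127) (nat_lit 5) (nat_lit 126) (nat_lit 5) (nat_lit 137) (nat_lit 5) (nat_lit 510) (nat_lit 507) (nat_lit 183)))) (XT.nd (nat_lit 156) (nat_lit 0) (nat_lit 76) (XT.nd (nat_lit 78) (nat_lit 0) (nat_lit 0) (XT.lf (nat_lit 0) (nat_lit 329205047412) (nat_lit 760) (nat_lit 283597038073) (nat_lit 836) (nat_lit 217708571509) (nat_lit 127) (nat_lit 5) (nat_lit 137) (nat_lit 5) (nat_lit 138) (nat_lit 5) (nat_lit 511) (nat_lit 507) (nat_lit 182)) (XT.lf (nat_lit 76) (nat_lit 139990577530) (nat_lit 0) (nat_lit 226777492361) (nat_lit 836) (nat_lit 485098368002) (nat_lit 128) (nat_lit 5) (nat_lit 127) (nat_lit 5) (nat_lit 138) (nat_lit 5) (nat_lit 512) (nat_lit 507) (nat_lit 181))) (XT.nd (nat_lit 78) (nat_lit 0) (nat_lit 0) (XT.lf (nat_lit 0) (nat_lit 413878465650) (nat_lit 760) (nat_lit 282312822113) (nat_lit 836) (nat_lit 177715258971) (nat_lit 128) (nat_lit 5) (nat_lit 138) (nat_lit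 5) (nat_lit 139) (nat_lit 5) (nat_lit 513) (nat_lit 507) (nat_lit 180)) (XT.lf (nat_lit 76) (nat_lit 170466698899) (nat_lit 0) (nat_lit 299256803270) (nat_lit 836) (nat_lit 427006202800) (nat_lit 129) (nat_lit 5) (nat_lit 128) (nat_lit 5) (nat_lit 139) (nat_lit 5) (nat_lit 514) (nat_lit 507) (nat_lit 179))))) (XT.nd (nat_lit 312) (nat_lit 836) (nat_lit 0) (XT.nd (nat_lit 156) (nat_lit 684) (nat_lit 0) (XT.nd (nat_lit 78) (nat_lit 0) (nat_lit 0) (XT.lf (nat_lit 0) (nat_lit 535055153338) (nat_lit 760) (nat_lit 266681774852) (nat_lit 836) (nat_lit 118622374788) (nat_lit 129) (nat_lit 5) (nat_lit 139) (nat_lit 5) (nat_lit 140) (nat_lit 5) (nat_lit 515) (nat_lit 507) (nat_lit 178)) (XT.lf (nat_lit 76) (nat_lit 217948373452) (nat_lit 0) (nat_lit 394013642508) (nat_lit 836) (nat_lit 332792933483) (nat_lit 130) (nat_lit 5) (nat_lit 129) (nat_lit 5) (nat_lit 140) (nat_lit 5) (nat_lit 516) (nat_lit 507)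 (nat_lit 177))) (XT.nd (nat_lit 78) (nat_lit 760) (nat_lit 0) (XT.lf (nat_lit 0) (nat_lit 697836971764) (nat_lit 760) (nat_lit 234682315489) (nat_lit 76) (nat_lit 37594953480) (nat_lit 130) (nat_lit 5) (nat_lit 140) (nat_lit 5) (nat_lit 131) (nat_lit 5) (nat_lit 517) (nat_lit 507) (nat_lit 176)) (XT.lf (nat_lit 0) (nat_lit 284701127789) (nat_lit 760) (nat_lit 514208765276) (nat_lit 836) (nat_lit 197286392636) (nat_lit 120) (nat_lit 5) (nat_lit 130) (nat_lit 5) (nat_lit 131) (nat_lit 5) (nat_lit 518) (nat_lit 507) (nat_lit 175)))) (XT.nd (nat_lit 156) (nat_lit 456) (nat_lit 0) (XT.nd (nat_lit 78) (nat_lit 380) (nat_lit 0) (XT.lf (nat_lit 0) (nat_lit 838201379077) (nat_lit 760) (nat_lit 70809535277) (nat_lit 836) (nat_lit 114372795872) (nat_lit 120) (nat_lit 5) (nat_lit 130) (nat_lit 5) (nat_lit 131) (nat_lit 5) (nat_lit 519) (nat_lit 507) (nat_lit 174)) (XT.lf (nat_lit 0) (nat_lit 373228470054)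 (nat_lit 380) (nat_lit 663378959169) (nat_lit 456) (nat_lit 14723554629) (nat_lit 115) (nat_lit 5) (nat_lit 120) (nat_lit 5) (nat_lit 121) (nat_lit 5) (nat_lit 520) (nat_lit 507) (nat_lit 173))) (XT.nd (nat_lit 156) (nat_lit 380) (nat_lit 0) (XT.lf (nat_lit 0) (nat_lit 91378898854) (nat_lit 456) (nat_lit 117145836721) (nat_lit 76) (nat_lit 871863281055) (nat_lit 114) (nat_lit 5) (nat_lit 120) (nat_lit 5) (nat_lit 115) (nat_lit 5) (nat_lit 521) (nat_lit 507) (nat_lit 172)) (XT.lf (nat_lit 0) (nat_lit 348654480371) (nat_lit 456) (nat_lit 28503439253) (nat_lit 76) (nat_lit 764255399329) (nat_lit 109) (nat_lit 5) (nat_lit 115) (nat_lit 5) (nat_lit 110) (nat_lit 5) (nat_lit 523) (nat_lit 507) (nat_lit 170))))))))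
noncomputable def xc254 : XT := (XT.nd (nat_lit 124488) (nat_lit 0) (nat_lit 684) (XT.nd (nat_lit 62166) (nat_lit 0) (nat_lit 304) (XT.nd (nat_lit 61620) (nat_lit 0) (nat_lit 1520) (XT.nd (nat_lit 61308) (nat_lit 0) (nat_lit 1900) (XT.nd (nat_lit 78) (nat_lit 304) (nat_lit 0) (XT.lf (nat_lit 0) (nat_lit 501377164102) (nat_lit 456) (nat_lit 555066912757) (nat_lit 76) (nat_lit 117071016322) (nat_lit 104) (nat_lit 5) (nat_lit 110) (nat_lit 5) (nat_lit 105) (nat_lit 5) (nat_lit 524) (nat_lit 507) (nat_lit 169)) (XT.nd (nat_lit 61152) (nat_lit 0) (nat_lit 1900) (XT.lf (nat_lit 0) (nat_lit 88170301969) (nat_lit 304) (nat_lit 581615811545) (nat_lit 380) (nat_lit 537033336031) (nat_lit 100) (nat_lit 5) (nat_lit 104) (nat_lit 5) (nat_lit 105) (nat_lit 5) (nat_lit 525) (nat_lit 507) (nat_lit 168)) (XT.lf (nat_lit 0) (nat_lit 132054498758) (nat_lit 836) (nat_lit 131374828938) (nat_lit 836) (nat_lit 131374828938)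 (nat_lit 125) (nat_lit 3) (nat_lit 136) (nat_lit 3) (nat_lit 136) (nat_lit 5) (nat_lit 508) (nat_lit 508) (nat_lit 184)))) (XT.nd (nat_lit 156) (nat_lit 0) (nat_lit 76) (XT.nd (nat_lit 78) (nat_lit 0) (nat_lit 76) (XT.lf (nat_lit 76) (nat_lit 128169193849) (nat_lit 0) (nat_lit 144543711585) (nat_lit 836) (nat_lit 536535556479) (nat_lit 126) (nat_lit 5) (nat_lit 125) (nat_lit 3) (nat_lit 136) (nat_lit 5) (nat_lit 509) (nat_lit 508) (nat_lit 183)) (XT.lf (nat_lit 0) (nat_lit 290280467856) (nat_lit 760) (nat_lit 285975742420) (nat_lit 836) (nat_lit 253187734759) (nat_lit 126) (nat_lit 5) (nat_lit 136) (nat_lit 5) (nat_lit 137) (nat_lit 5) (nat_lit 510) (nat_lit 508) (nat_lit 182))) (XT.nd (nat_lit 78) (nat_lit 0) (nat_lit 76) (XT.lf (nat_lit 76) (nat_lit 130696490617) (nat_lit 0) (nat_lit 182440019051) (nat_lit 836) (nat_lit 537292187584) (nat_lit 127) (nat_lit 5) (nat_lit 126) (nat_lit 5) (nat_lit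 137) (nat_lit 5) (nat_lit 511) (nat_lit 508) (nat_lit 181)) (XT.lf (nat_lit 0) (nat_lit 345665484003) (nat_lit 760) (nat_lit 297776765755) (nat_lit 836) (nat_lit 228593930802) (nat_lit 127) (nat_lit 5) (nat_lit 137) (nat_lit 5) (nat_lit 138) (nat_lit 5) (nat_lit 512) (nat_lit 508) (nat_lit 180))))) (XT.nd (nat_lit 234) (nat_lit 532) (nat_lit 0) (XT.nd (nat_lit 78) (nat_lit 0) (nat_lit 76) (XT.lf (nat_lit 76) (nat_lit 146990228625) (nat_lit 0) (nat_lit 238116422118) (nat_lit 836) (nat_lit 509353100110) (nat_lit 128) (nat_lit 5) (nat_lit 127) (nat_lit 5) (nat_lit 138) (nat_lit 5) (nat_lit 513) (nat_lit 508) (nat_lit 179)) (XT.nd (nat_lit 78) (nat_lit 0) (nat_lit 0) (XT.lf (nat_lit 0) (nat_lit 434572557024) (nat_lit 760) (nat_lit 296428337490) (nat_lit 836) (nat_lit 186600971087) (nat_lit 128) (nat_lit 5) (nat_lit 138) (nat_lit 5) (nat_lit 139) (nat_lit 5) (nat_lit 514) (nat_lit 508) (nat_lit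 178)) (XT.lf (nat_lit 76) (nat_lit 178990157544) (nat_lit 0) (nat_lit 314219681752) (nat_lit 836) (nat_lit 448356342759) (nat_lit 129) (nat_lit 5) (nat_lit 128) (nat_lit 5) (nat_lit 139) (nat_lit 5) (nat_lit 515) (nat_lit 508) (nat_lit 177)))) (XT.nd (nat_lit 156) (nat_lit 684) (nat_lit 0) (XT.nd (nat_lit 78) (nat_lit 0) (nat_lit 0) (XT.lf (nat_lit 0) (nat_lit 561808064739) (nat_lit 760) (nat_lit 280015737441) (nat_lit 836) (nat_lit 124553458202) (nat_lit 129) (nat_lit 5) (nat_lit 139) (nat_lit 5) (nat_lit 140) (nat_lit 5) (nat_lit 516) (nat_lit 508) (nat_lit 176)) (XT.lf (nat_lit 76) (nat_lit 228845916243) (nat_lit 0) (nat_lit 413714348866) (nat_lit 836) (nat_lit 349432424333) (nat_lit 130) (nat_lit 5) (nat_lit 129) (nat_lit 5) (nat_lit 140) (nat_lit 5) (nat_lit 517) (nat_lit 508) (nat_lit 175))) (XT.nd (nat_lit 78) (nat_lit 760) (nat_lit 0) (XT.lf (nat_lit 0) (nat_lit 732728961278) (nat_lit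 760) (nat_lit 246416305577) (nat_lit 76) (nat_lit 39474678814) (nat_lit 130) (nat_lit 5) (nat_lit 140) (nat_lit 5) (nat_lit 131) (nat_lit 5) (nat_lit 518) (nat_lit 508) (nat_lit 174)) (XT.lf (nat_lit 0) (nat_lit 298936307838) (nat_lit 760) (nat_lit 539919216027) (nat_lit 836) (nat_lit 207150569264) (nat_lit 120) (nat_lit 5) (nat_lit 130) (nat_lit 5) (nat_lit 131) (nat_lit 5) (nat_lit 519) (nat_lit 508) (nat_lit 173)))))) (XT.nd (nat_lit 61776) (nat_lit 0) (nat_lit 1672) (XT.nd (nat_lit 312) (nat_lit 380) (nat_lit 0) (XT.nd (nat_lit 78) (nat_lit 836) (nat_lit 0) (XT.lf (nat_lit 0) (nat_lit 880111565801) (nat_lit 760) (nat_lit 74350023934) (nat_lit 836) (nat_lit 120091299471) (nat_lit 120) (nat_lit 5) (nat_lit 130) (nat_lit 5) (nat_lit 131) (nat_lit 5) (nat_lit 520) (nat_lit 508) (nat_lit 172)) (XT.nd (nat_lit 156) (nat_lit 456) (nat_lit 0) (XT.lf (nat_lit 0) (nat_lit 391890016036) (nat_lit 380)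 (nat_lit 696547909872) (nat_lit 456) (nat_lit 15459600829) (nat_lit 115) (nat_lit 5) (nat_lit 120) (nat_lit 5) (nat_lit 121) (nat_lit 5) (nat_lit 521) (nat_lit 508) (nat_lit 171)) (XT.lf (nat_lit 0) (nat_lit 224939540489) (nat_lit 456) (nat_lit 659005103241) (nat_lit 76) (nat_lit 281858815915) (nat_lit 109) (nat_lit 5) (nat_lit 115) (nat_lit 5) (nat_lit 110) (nat_lit 5) (nat_lit 523) (nat_lit 508) (nat_lit 169)))) (XT.nd (nat_lit 61308) (nat_lit 0) (nat_lit 1596) (XT.nd (nat_lit 78) (nat_lit 380) (nat_lit 0) (XT.lf (nat_lit 0) (nat_lit 366087316162) (nat_lit 456) (nat_lit 29928492514) (nat_lit 76) (nat_lit 802468170599) (nat_lit 109) (nat_lit 5) (nat_lit 115) (nat_lit 5) (nat_lit 110) (nat_lit 5) (nat_lit 524) (nat_lit 508) (nat_lit 168)) (XT.lf (nat_lit 0) (nat_lit 526446130712) (nat_lit 456) (nat_lit 582820136291) (nat_lit 76) (nat_lit 122924575379) (nat_lit 104) (nat_lit 5) (nat_lit 110)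 (nat_lit 5) (nat_lit 105) (nat_lit 5) (nat_lit 525) (nat_lit 508) (nat_lit 167))) (XT.nd (nat_lit 78) (nat_lit 0) (nat_lit 0) (XT.lf (nat_lit 0) (nat_lit 138657324763) (nat_lit 836) (nat_lit 137943517305) (nat_lit 836) (nat_lit 137943517305) (nat_lit 125) (nat_lit 3) (nat_lit 136) (nat_lit 3) (nat_lit 136) (nat_lit 5) (nat_lit 509) (nat_lit 509) (nat_lit 182)) (XT.lf (nat_lit 76) (nat_lit 134577757990) (nat_lit 0) (nat_lit 151770986856) (nat_lit 836) (nat_lit 563362130380) (nat_lit 126) (nat_lit 5) (nat_lit 125) (nat_lit 3) (nat_lit 136) (nat_lit 5) (nat_lit 510) (nat_lit 509) (nat_lit 181))))) (XT.nd (nat_lit 234) (nat_lit 0) (nat_lit 76) (XT.nd (nat_lit 78) (nat_lit 0) (nat_lit 0) (XT.lf (nat_lit 0) (nat_lit 304794674811) (nat_lit 760) (nat_lit 300274419417) (nat_lit 836) (nat_lit 265847038809) (nat_lit 126) (nat_lit 5) (nat_lit 136) (nat_lit 5) (nat_lit 137) (nat_lit 5) (nat_lit 511) (nat_lit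 509) (nat_lit 180)) (XT.nd (nat_lit 78) (nat_lit 0) (nat_lit 76) (XT.lf (nat_lit 76) (nat_lit 137231423497) (nat_lit 0) (nat_lit 191562088168) (nat_lit 836) (nat_lit 564156611556) (nat_lit 127) (nat_lit 5) (nat_lit 126) (nat_lit 5) (nat_lit 137) (nat_lit 5) (nat_lit 512) (nat_lit 509) (nat_lit 179)) (XT.lf (nat_lit 0) (nat_lit 362948925298) (nat_lit 760) (nat_lit 312665491370) (nat_lit 836) (nat_lit 240023564501) (nat_lit 127) (nat_lit 5) (nat_lit 137) (nat_lit 5) (nat_lit 138) (nat_lit 5) (nat_lit 513) (nat_lit 509) (nat_lit 178)))) (XT.nd (nat_lit 156) (nat_lit 0) (nat_lit 76) (XT.nd (nat_lit 78) (nat_lit 0) (nat_lit 76) (XT.lf (nat_lit 76) (nat_lit 154339850911) (nat_lit 0) (nat_lit 250022293237) (nat_lit 836) (nat_lit 534820586142) (nat_lit 128) (nat_lit 5) (nat_lit 127) (nat_lit 5) (nat_lit 138) (nat_lit 5) (nat_lit 514) (nat_lit 509) (nat_lit 177)) (XT.lf (nat_lit 0) (nat_lit 456301337339)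 (nat_lit 760) (nat_lit 311249640326) (nat_lit 836) (nat_lit 195930973534) (nat_lit 128) (nat_lit 5) (nat_lit 138) (nat_lit 5) (nat_lit 139) (nat_lit 5) (nat_lit 515) (nat_lit 509) (nat_lit 176))) (XT.nd (nat_lit 78) (nat_lit 0) (nat_lit 76) (XT.lf (nat_lit 76) (nat_lit 187939777621) (nat_lit 0) (nat_lit 329930700596) (nat_lit 836) (nat_lit 470774005538) (nat_lit 129) (nat_lit 5) (nat_lit 128) (nat_lit 5) (nat_lit 139) (nat_lit 5) (nat_lit 516) (nat_lit 509) (nat_lit 175)) (XT.lf (nat_lit 0) (nat_lit 589898607417) (nat_lit 760) (nat_lit 294016409888) (nat_lit 836) (nat_lit 130781099070) (nat_lit 129) (nat_lit 5) (nat_lit 139) (nat_lit 5) (nat_lit 140) (nat_lit 5) (nat_lit 517) (nat_lit 509) (nat_lit 174))))))) (XT.nd (nat_lit 62478) (nat_lit 0) (nat_lit 380) (XT.nd (nat_lit 61932) (nat_lit 0) (nat_lit 1216) (XT.nd (nat_lit 312) (nat_lit 836) (nat_lit 0) (XT.nd (nat_lit 78) (nat_lit 684) (nat_lit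 0) (XT.lf (nat_lit 76) (nat_lit 240288324635) (nat_lit 0) (nat_lit 434400088289) (nat_lit 836) (nat_lit 366903904213) (nat_lit 130) (nat_lit 5) (nat_lit 129) (nat_lit 5) (nat_lit 140) (nat_lit 5) (nat_lit 518) (nat_lit 509) (nat_lit 173)) (XT.nd (nat_lit 78) (nat_lit 760) (nat_lit 0) (XT.lf (nat_lit 0) (nat_lit 769365537166) (nat_lit 760) (nat_lit 258737006855) (nat_lit 76) (nat_lit 41448392492) (nat_lit 130) (nat_lit 5) (nat_lit 140) (nat_lit 5) (nat_lit 131) (nat_lit 5) (nat_lit 519) (nat_lit 509) (nat_lit 172)) (XT.lf (nat_lit 0) (nat_lit 313883235392) (nat_lit 760) (nat_lit 566915188155) (nat_lit 836) (nat_lit 217507968018) (nat_lit 120) (nat_lit 5) (nat_lit 130) (nat_lit 5) (nat_lit 131) (nat_lit 5) (nat_lit 520) (nat_lit 509) (nat_lit 171)))) (XT.nd (nat_lit 156) (nat_lit 380) (nat_lit 0) (XT.nd (nat_lit 78) (nat_lit 76) (nat_lit 0) (XT.lf (nat_lit 0) (nat_lit 411484627930) (nat_lit 380)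 (nat_lit 731375307854) (nat_lit 456) (nat_lit 16232461568) (nat_lit 115) (nat_lit 5) (nat_lit 120) (nat_lit 5) (nat_lit 121) (nat_lit 5) (nat_lit 522) (nat_lit 509) (nat_lit 169)) (XT.lf (nat_lit 0) (nat_lit 100745473293) (nat_lit 456) (nat_lit 129153048775) (nat_lit 76) (nat_lit 961229254320) (nat_lit 114) (nat_lit 5) (nat_lit 120) (nat_lit 5) (nat_lit 115) (nat_lit 5) (nat_lit 523) (nat_lit 509) (nat_lit 168))) (XT.nd (nat_lit 61386) (nat_lit 0) (nat_lit 1216) (XT.lf (nat_lit 0) (nat_lit 236186623963) (nat_lit 456) (nat_lit 691955245355) (nat_lit 76) (nat_lit 295951757951) (nat_lit 109) (nat_lit 5) (nat_lit 115) (nat_lit 5) (nat_lit 110) (nat_lit 5) (nat_lit 524) (nat_lit 509) (nat_lit 167)) (XT.lf (nat_lit 0) (nat_lit 145590282673) (nat_lit 836) (nat_lit 144840645025) (nat_lit 836) (nat_lit 144840645025) (nat_lit 125) (nat_lit 3) (nat_lit 136) (nat_lit 3) (nat_lit 136) (nat_lit 5) (nat_lit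 510) (nat_lit 510) (nat_lit 180))))) (XT.nd (nat_lit 234) (nat_lit 0) (nat_lit 152) (XT.nd (nat_lit 78) (nat_lit 0) (nat_lit 76) (XT.lf (nat_lit 76) (nat_lit 141306740628) (nat_lit 0) (nat_lit 159359617553) (nat_lit 836) (nat_lit 591530051934) (nat_lit 126) (nat_lit 5) (nat_lit 125) (nat_lit 3) (nat_lit 136) (nat_lit 5) (nat_lit 511) (nat_lit 510) (nat_lit 179)) (XT.nd (nat_lit 78) (nat_lit 0) (nat_lit 0) (XT.lf (nat_lit 0) (nat_lit 320034575048) (nat_lit 760) (nat_lit 315288040502) (nat_lit 836) (nat_lit 279139315750) (nat_lit 126) (nat_lit 5) (nat_lit 136) (nat_lit 5) (nat_lit 137) (nat_lit 5) (nat_lit 512) (nat_lit 510) (nat_lit 178)) (XT.lf (nat_lit 76) (nat_lit 144093092946) (nat_lit 0) (nat_lit 201140254404) (nat_lit 836) (nat_lit 592364273965) (nat_lit 127) (nat_lit 5) (nat_lit 126) (nat_lit 5) (nat_lit 137) (nat_lit 5) (nat_lit 513) (nat_lit 510) (nat_lit 177)))) (XT.nd (nat_lit 156)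 (nat_lit 0) (nat_lit 76) (XT.nd (nat_lit 78) (nat_lit 0) (nat_lit 0) (XT.lf (nat_lit 0) (nat_lit 381096523122) (nat_lit 760) (nat_lit 328298663742) (nat_lit 836) (nat_lit 252024685728) (nat_lit 127) (nat_lit 5) (nat_lit 137) (nat_lit 5) (nat_lit 138) (nat_lit 5) (nat_lit 514) (nat_lit 510) (nat_lit 176)) (XT.lf (nat_lit 76) (nat_lit 162056944005) (nat_lit 0) (nat_lit 262523453262) (nat_lit 836) (nat_lit 561561462186) (nat_lit 128) (nat_lit 5) (nat_lit 127) (nat_lit 5) (nat_lit 138) (nat_lit 5) (nat_lit 515) (nat_lit 510) (nat_lit 175))) (XT.nd (nat_lit 78) (nat_lit 0) (nat_lit 0) (XT.lf (nat_lit 0) (nat_lit 479116542496) (nat_lit 760) (nat_lit 326812018905) (nat_lit 836) (nat_lit 205727480391) (nat_lit 128) (nat_lit 5) (nat_lit 138) (nat_lit 5) (nat_lit 139) (nat_lit 5) (nat_lit 516) (nat_lit 510) (nat_lit 174)) (XT.lf (nat_lit 76) (nat_lit 197336868270) (nat_lit 0) (nat_lit 346427267150) (nat_lit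 836) (nat_lit 494312565807) (nat_lit 129) (nat_lit 5) (nat_lit 128) (nat_lit 5) (nat_lit 139) (nat_lit 5) (nat_lit 517) (nat_lit 510) (nat_lit 173)))))) (XT.nd (nat_lit 62010) (nat_lit 0) (nat_lit 836) (XT.nd (nat_lit 312) (nat_lit 1140) (nat_lit 0) (XT.nd (nat_lit 78) (nat_lit 0) (nat_lit 0) (XT.lf (nat_lit 0) (nat_lit 619393664265) (nat_lit 760) (nat_lit 308717126596) (nat_lit 836) (nat_lit 137320124961) (nat_lit 129) (nat_lit 5) (nat_lit 139) (nat_lit 5) (nat_lit 140) (nat_lit 5) (nat_lit 518) (nat_lit 510) (nat_lit 172)) (XT.nd (nat_lit 78) (nat_lit 0) (nat_lit 76) (XT.lf (nat_lit 76) (nat_lit 252302842979) (nat_lit 0) (nat_lit 456120112639) (nat_lit 836) (nat_lit 385248971227) (nat_lit 130) (nat_lit 5) (nat_lit 129) (nat_lit 5) (nat_lit 140) (nat_lit 5) (nat_lit 519) (nat_lit 510) (nat_lit 171)) (XT.lf (nat_lit 0) (nat_lit 807833929965) (nat_lit 760) (nat_lit 271673753796) (nat_lit 76)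 (nat_lit 43520793738) (nat_lit 130) (nat_lit 5) (nat_lit 140) (nat_lit 5) (nat_lit 131) (nat_lit 5) (nat_lit 520) (nat_lit 510) (nat_lit 170)))) (XT.nd (nat_lit 156) (nat_lit 76) (nat_lit 0) (XT.nd (nat_lit 78) (nat_lit 380) (nat_lit 0) (XT.lf (nat_lit 0) (nat_lit 970323210348) (nat_lit 760) (nat_lit 81970922497) (nat_lit 836) (nat_lit 132400415911) (nat_lit 120) (nat_lit 5) (nat_lit 130) (nat_lit 5) (nat_lit 131) (nat_lit 5) (nat_lit 522) (nat_lit 510) (nat_lit 168)) (XT.lf (nat_lit 0) (nat_lit 432058960091) (nat_lit 380) (nat_lit 767944075505) (nat_lit 456) (nat_lit 17043976435) (nat_lit 115) (nat_lit 5) (nat_lit 120) (nat_lit 5) (nat_lit 121) (nat_lit 5) (nat_lit 523) (nat_lit 510) (nat_lit 167))) (XT.nd (nat_lit 61464) (nat_lit 0) (nat_lit 836) (XT.lf (nat_lit 0) (nat_lit 105782846717) (nat_lit 456) (nat_lit 135610601915) (nat_lit 76) (nat_lit 1009290711553) (nat_lit 114) (nat_lit 5) (nat_lit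 120) (nat_lit 5) (nat_lit 115) (nat_lit 5) (nat_lit 524) (nat_lit 510) (nat_lit 166)) (XT.lf (nat_lit 0) (nat_lit 152869879956) (nat_lit 836) (nat_lit 152082633607) (nat_lit 836) (nat_lit 152082633607) (nat_lit 125) (nat_lit 3) (nat_lit 136) (nat_lit 3) (nat_lit 136) (nat_lit 5) (nat_lit 511) (nat_lit 511) (nat_lit 178))))) (XT.nd (nat_lit 312) (nat_lit 0) (nat_lit 152) (XT.nd (nat_lit 156) (nat_lit 0) (nat_lit 76) (XT.nd (nat_lit 78) (nat_lit 0) (nat_lit 76) (XT.lf (nat_lit 76) (nat_lit 148372163589) (nat_lit 0) (nat_lit 167327672221) (nat_lit 836) (nat_lit 621106386763) (nat_lit 126) (nat_lit 5) (nat_lit 125) (nat_lit 3) (nat_lit 136) (nat_lit 5) (nat_lit 512) (nat_lit 511) (nat_lit 177)) (XT.lf (nat_lit 0) (nat_lit 336036454818) (nat_lit 760) (nat_lit 331052351927) (nat_lit 836) (nat_lit 293096213510) (nat_lit 126) (nat_lit 5) (nat_lit 136) (nat_lit 5) (nat_lit 137) (nat_lit 5) (nat_lit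 513) (nat_lit 511) (nat_lit 176))) (XT.nd (nat_lit 78) (nat_lit 0) (nat_lit 76) (XT.lf (nat_lit 76) (nat_lit 151297836732) (nat_lit 0) (nat_lit 211197323204) (nat_lit 836) (nat_lit 621982335129) (nat_lit 127) (nat_lit 5) (nat_lit 126) (nat_lit 5) (nat_lit 137) (nat_lit 5) (nat_lit 514) (nat_lit 511) (nat_lit 175)) (XT.lf (nat_lit 0) (nat_lit 400151486747) (nat_lit 760) (nat_lit 344713504233) (nat_lit 836) (nat_lit 264625868315) (nat_lit 127) (nat_lit 5) (nat_lit 137) (nat_lit 5) (nat_lit 138) (nat_lit 5) (nat_lit 515) (nat_lit 511) (nat_lit 174)))) (XT.nd (nat_lit 156) (nat_lit 0) (nat_lit 76) (XT.nd (nat_lit 78) (nat_lit 0) (nat_lit 76) (XT.lf (nat_lit 76) (nat_lit 170159882407) (nat_lit 0) (nat_lit 275649667071) (nat_lit 836) (nat_lit 589639396281) (nat_lit 128) (nat_lit 5) (nat_lit 127) (nat_lit 5) (nat_lit 138) (nat_lit 5) (nat_lit 516) (nat_lit 511) (nat_lit 173)) (XT.lf (nat_lit 0) (nat_lit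 503072495053) (nat_lit 760) (nat_lit 343152526030) (nat_lit 836) (nat_lit 216013816478) (nat_lit 128) (nat_lit 5) (nat_lit 138) (nat_lit 5) (nat_lit 139) (nat_lit 5) (nat_lit 517) (nat_lit 511) (nat_lit 172))) (XT.nd (nat_lit 78) (nat_lit 0) (nat_lit 76) (XT.lf (nat_lit 76) (nat_lit 207203803991) (nat_lit 0) (nat_lit 363748659101) (nat_lit 836) (nat_lit 519028067106) (nat_lit 129) (nat_lit 5) (nat_lit 128) (nat_lit 5) (nat_lit 139) (nat_lit 5) (nat_lit 518) (nat_lit 511) (nat_lit 171)) (XT.lf (nat_lit 0) (nat_lit 650363462196) (nat_lit 760) (nat_lit 324152888788) (nat_lit 836) (nat_lit 144186104849) (nat_lit 129) (nat_lit 5) (nat_lit 139) (nat_lit 5) (nat_lit 140) (nat_lit 5) (nat_lit 519) (nat_lit 511) (nat_lit 170))))))))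
noncomputable def xc255 : XT := (XT.nd (nat_lit 186966) (nat_lit 0) (nat_lit 760) (XT.nd (nat_lit 62556) (nat_lit 0) (nat_lit 380) (XT.nd (nat_lit 62010) (nat_lit 0) (nat_lit 836) (XT.nd (nat_lit 234) (nat_lit 380) (nat_lit 0) (XT.nd (nat_lit 78) (nat_lit 684) (nat_lit 0) (XT.lf (nat_lit 76) (nat_lit 264918077747) (nat_lit 0) (nat_lit 478926136353) (nat_lit 836) (nat_lit 404511303510) (nat_lit 130) (nat_lit 5) (nat_lit 129) (nat_lit 5) (nat_lit 140) (nat_lit 5) (nat_lit 520) (nat_lit 511) (nat_lit 169)) (XT.nd (nat_lit 78) (nat_lit 760) (nat_lit 0) (XT.lf (nat_lit 0) (nat_lit 848225731624) (nat_lit 760) (nat_lit 285257347696) (nat_lit 76) (nat_lit 45696816755) (nat_lit 130) (nat_lit 5) (nat_lit 140) (nat_lit 5) (nat_lit 131) (nat_lit 5) (nat_lit 521) (nat_lit 511) (nat_lit 168)) (XT.lf (nat_lit 0) (nat_lit 346056466117) (nat_lit 760) (nat_lit 625024015046) (nat_lit 836) (nat_lit 239802304496)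 (nat_lit 120) (nat_lit 5) (nat_lit 130) (nat_lit 5) (nat_lit 131) (nat_lit 5) (nat_lit 522) (nat_lit 511) (nat_lit 167)))) (XT.nd (nat_lit 61620) (nat_lit 0) (nat_lit 760) (XT.nd (nat_lit 78) (nat_lit 380) (nat_lit 0) (XT.lf (nat_lit 0) (nat_lit 1018839458747) (nat_lit 760) (nat_lit 86069477496) (nat_lit 836) (nat_lit 139020335076) (nat_lit 120) (nat_lit 5) (nat_lit 130) (nat_lit 5) (nat_lit 131) (nat_lit 5) (nat_lit 523) (nat_lit 511) (nat_lit 166)) (XT.lf (nat_lit 0) (nat_lit 453661999492) (nat_lit 380) (nat_lit 806341281328) (nat_lit 456) (nat_lit 17896077107) (nat_lit 115) (nat_lit 5) (nat_lit 120) (nat_lit 5) (nat_lit 121) (nat_lit 5) (nat_lit 524) (nat_lit 511) (nat_lit 165))) (XT.nd (nat_lit 78) (nat_lit 0) (nat_lit 0) (XT.lf (nat_lit 0) (nat_lit 160513449372) (nat_lit 836) (nat_lit 159686725678) (nat_lit 836) (nat_lit 159686725678) (nat_lit 125) (nat_lit 3) (nat_lit 136) (nat_lit 3)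 (nat_lit 136) (nat_lit 5) (nat_lit 512) (nat_lit 512) (nat_lit 176)) (XT.lf (nat_lit 76) (nat_lit 155790849709) (nat_lit 0) (nat_lit 175694122762) (nat_lit 836) (nat_lit 652161553931) (nat_lit 126) (nat_lit 5) (nat_lit 125) (nat_lit 3) (nat_lit 136) (nat_lit 5) (nat_lit 513) (nat_lit 512) (nat_lit 175))))) (XT.nd (nat_lit 234) (nat_lit 0) (nat_lit 76) (XT.nd (nat_lit 78) (nat_lit 0) (nat_lit 0) (XT.lf (nat_lit 0) (nat_lit 352838414536) (nat_lit 760) (nat_lit 347604887347) (nat_lit 836) (nat_lit 307750962483) (nat_lit 126) (nat_lit 5) (nat_lit 136) (nat_lit 5) (nat_lit 137) (nat_lit 5) (nat_lit 514) (nat_lit 512) (nat_lit 174)) (XT.nd (nat_lit 78) (nat_lit 0) (nat_lit 76) (XT.lf (nat_lit 76) (nat_lit 158862809420) (nat_lit 0) (nat_lit 221757240230) (nat_lit 836) (nat_lit 653081313532) (nat_lit 127) (nat_lit 5) (nat_lit 126) (nat_lit 5) (nat_lit 137) (nat_lit 5) (nat_lit 515) (nat_lit 512) (nat_lit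 173)) (XT.lf (nat_lit 0) (nat_lit 420159185772) (nat_lit 760) (nat_lit 361949095367) (nat_lit 836) (nat_lit 277857114837) (nat_lit 127) (nat_lit 5) (nat_lit 137) (nat_lit 5) (nat_lit 138) (nat_lit 5) (nat_lit 516) (nat_lit 512) (nat_lit 172)))) (XT.nd (nat_lit 156) (nat_lit 0) (nat_lit 76) (XT.nd (nat_lit 78) (nat_lit 0) (nat_lit 76) (XT.lf (nat_lit 76) (nat_lit 178667959249) (nat_lit 0) (nat_lit 289432187745) (nat_lit 836) (nat_lit 619121240004) (nat_lit 128) (nat_lit 5) (nat_lit 127) (nat_lit 5) (nat_lit 138) (nat_lit 5) (nat_lit 517) (nat_lit 512) (nat_lit 171)) (XT.lf (nat_lit 0) (nat_lit 528226233577) (nat_lit 760) (nat_lit 360310067234) (nat_lit 836) (nat_lit 226814472896) (nat_lit 128) (nat_lit 5) (nat_lit 138) (nat_lit 5) (nat_lit 139) (nat_lit 5) (nat_lit 518) (nat_lit 512) (nat_lit 170))) (XT.nd (nat_lit 78) (nat_lit 0) (nat_lit 76) (XT.lf (nat_lit 76) (nat_lit 217564077915) (nat_lit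 0) (nat_lit 381936117992) (nat_lit 836) (nat_lit 544979355276) (nat_lit 129) (nat_lit 5) (nat_lit 128) (nat_lit 5) (nat_lit 139) (nat_lit 5) (nat_lit 519) (nat_lit 512) (nat_lit 169)) (XT.lf (nat_lit 0) (nat_lit 682881739359) (nat_lit 760) (nat_lit 340360447842) (nat_lit 836) (nat_lit 151395386182) (nat_lit 129) (nat_lit 5) (nat_lit 139) (nat_lit 5) (nat_lit 140) (nat_lit 5) (nat_lit 520) (nat_lit 512) (nat_lit 168)))))) (XT.nd (nat_lit 62166) (nat_lit 0) (nat_lit 532) (XT.nd (nat_lit 61854) (nat_lit 0) (nat_lit 380) (XT.nd (nat_lit 78) (nat_lit 684) (nat_lit 0) (XT.lf (nat_lit 76) (nat_lit 278164065643) (nat_lit 0) (nat_lit 502872459572) (nat_lit 836) (nat_lit 424736763217) (nat_lit 130) (nat_lit 5) (nat_lit 129) (nat_lit 5) (nat_lit 140) (nat_lit 5) (nat_lit 521) (nat_lit 512) (nat_lit 167)) (XT.nd (nat_lit 78) (nat_lit 760) (nat_lit 0) (XT.lf (nat_lit 0) (nat_lit 890637113590) (nat_lit 760)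 (nat_lit 299520130012) (nat_lit 76) (nat_lit 47981642472) (nat_lit 130) (nat_lit 5) (nat_lit 140) (nat_lit 5) (nat_lit 131) (nat_lit 5) (nat_lit 522) (nat_lit 512) (nat_lit 166)) (XT.lf (nat_lit 0) (nat_lit 363359373120) (nat_lit 760) (nat_lit 656275224250) (nat_lit 836) (nat_lit 251792322930) (nat_lit 120) (nat_lit 5) (nat_lit 130) (nat_lit 5) (nat_lit 131) (nat_lit 5) (nat_lit 523) (nat_lit 512) (nat_lit 165)))) (XT.nd (nat_lit 156) (nat_lit 0) (nat_lit 76) (XT.nd (nat_lit 78) (nat_lit 0) (nat_lit 0) (XT.lf (nat_lit 0) (nat_lit 168539190247) (nat_lit 836) (nat_lit 167671026035) (nat_lit 836) (nat_lit 167671026035) (nat_lit 125) (nat_lit 3) (nat_lit 136) (nat_lit 3) (nat_lit 136) (nat_lit 5) (nat_lit 513) (nat_lit 513) (nat_lit 174)) (XT.lf (nat_lit 76) (nat_lit 163580462890) (nat_lit 0) (nat_lit 184478889608) (nat_lit 836) (nat_lit 684769493604) (nat_lit 126) (nat_lit 5) (nat_lit 125) (nat_lit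 3) (nat_lit 136) (nat_lit 5) (nat_lit 514) (nat_lit 513) (nat_lit 173))) (XT.nd (nat_lit 78) (nat_lit 0) (nat_lit 0) (XT.lf (nat_lit 0) (nat_lit 370480459505) (nat_lit 760) (nat_lit 364985057178) (nat_lit 836) (nat_lit 323138454641) (nat_lit 126) (nat_lit 5) (nat_lit 136) (nat_lit 5) (nat_lit 137) (nat_lit 5) (nat_lit 515) (nat_lit 513) (nat_lit 172)) (XT.lf (nat_lit 76) (nat_lit 166806023225) (nat_lit 0) (nat_lit 232845148378) (nat_lit 836) (nat_lit 685735253718) (nat_lit 127) (nat_lit 5) (nat_lit 126) (nat_lit 5) (nat_lit 137) (nat_lit 5) (nat_lit 516) (nat_lit 513) (nat_lit 171))))) (XT.nd (nat_lit 234) (nat_lit 0) (nat_lit 76) (XT.nd (nat_lit 78) (nat_lit 0) (nat_lit 0) (XT.lf (nat_lit 0) (nat_lit 441167258157) (nat_lit 760) (nat_lit 380046473874) (nat_lit 836) (nat_lit 291749928046) (nat_lit 127) (nat_lit 5) (nat_lit 137) (nat_lit 5) (nat_lit 138) (nat_lit 5) (nat_lit 517) (nat_lit 513)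 (nat_lit 170)) (XT.nd (nat_lit 78) (nat_lit 0) (nat_lit 76) (XT.lf (nat_lit 76) (nat_lit 187601432242) (nat_lit 0) (nat_lit 303903830983) (nat_lit 836) (nat_lit 650077187637) (nat_lit 128) (nat_lit 5) (nat_lit 127) (nat_lit 5) (nat_lit 138) (nat_lit 5) (nat_lit 518) (nat_lit 513) (nat_lit 169)) (XT.lf (nat_lit 0) (nat_lit 554637648449) (nat_lit 760) (nat_lit 378325493410) (nat_lit 836) (nat_lit 238155165334) (nat_lit 128) (nat_lit 5) (nat_lit 138) (nat_lit 5) (nat_lit 139) (nat_lit 5) (nat_lit 519) (nat_lit 513) (nat_lit 168)))) (XT.nd (nat_lit 156) (nat_lit 0) (nat_lit 76) (XT.nd (nat_lit 78) (nat_lit 0) (nat_lit 76) (XT.lf (nat_lit 76) (nat_lit 228442357752) (nat_lit 0) (nat_lit 401032947415) (nat_lit 836) (nat_lit 572228218563) (nat_lit 129) (nat_lit 5) (nat_lit 128) (nat_lit 5) (nat_lit 139) (nat_lit 5) (nat_lit 520) (nat_lit 513) (nat_lit 167)) (XT.lf (nat_lit 0) (nat_lit 717025920706)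 (nat_lit 760) (nat_lit 357378392787) (nat_lit 836) (nat_lit 158965133804) (nat_lit 129) (nat_lit 5) (nat_lit 139) (nat_lit 5) (nat_lit 140) (nat_lit 5) (nat_lit 521) (nat_lit 513) (nat_lit 166))) (XT.nd (nat_lit 78) (nat_lit 0) (nat_lit 76) (XT.lf (nat_lit 76) (nat_lit 292072345123) (nat_lit 0) (nat_lit 528016097427) (nat_lit 836) (nat_lit 445973505716) (nat_lit 130) (nat_lit 5) (nat_lit 129) (nat_lit 5) (nat_lit 140) (nat_lit 5) (nat_lit 522) (nat_lit 513) (nat_lit 165)) (XT.lf (nat_lit 0) (nat_lit 935169055786) (nat_lit 760) (nat_lit 314496059352) (nat_lit 76) (nat_lit 50380710881) (nat_lit 130) (nat_lit 5) (nat_lit 140) (nat_lit 5) (nat_lit 131) (nat_lit 5) (nat_lit 523) (nat_lit 513) (nat_lit 164))))))) (XT.nd (nat_lit 62946) (nat_lit 0) (nat_lit 0) (XT.nd (nat_lit 546) (nat_lit 0) (nat_lit 0) (XT.nd (nat_lit 234) (nat_lit 0) (nat_lit 76) (XT.nd (nat_lit 78) (nat_lit 0) (nat_lit 0) (XT.lf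 (nat_lit 0) (nat_lit 176966211807) (nat_lit 836) (nat_lit 176054544750) (nat_lit 836) (nat_lit 176054544750) (nat_lit 125) (nat_lit 3) (nat_lit 136) (nat_lit 3) (nat_lit 136) (nat_lit 5) (nat_lit 514) (nat_lit 514) (nat_lit 172)) (XT.nd (nat_lit 78) (nat_lit 0) (nat_lit 76) (XT.lf (nat_lit 76) (nat_lit 171759550156) (nat_lit 0) (nat_lit 193702889152) (nat_lit 836) (nat_lit 719007843094) (nat_lit 126) (nat_lit 5) (nat_lit 125) (nat_lit 3) (nat_lit 136) (nat_lit 5) (nat_lit 515) (nat_lit 514) (nat_lit 171)) (XT.lf (nat_lit 0) (nat_lit 389004595172) (nat_lit 760) (nat_lit 383234242430) (nat_lit 836) (nat_lit 339295326610) (nat_lit 126) (nat_lit 5) (nat_lit 136) (nat_lit 5) (nat_lit 137) (nat_lit 5) (nat_lit 516) (nat_lit 514) (nat_lit 170)))) (XT.nd (nat_lit 156) (nat_lit 0) (nat_lit 76) (XT.nd (nat_lit 78) (nat_lit 0) (nat_lit 76) (XT.lf (nat_lit 76) (nat_lit 175146390903) (nat_lit 0) (nat_lit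 244487447644) (nat_lit 836) (nat_lit 720021902580) (nat_lit 127) (nat_lit 5) (nat_lit 126) (nat_lit 5) (nat_lit 137) (nat_lit 5) (nat_lit 517) (nat_lit 514) (nat_lit 169)) (XT.lf (nat_lit 0) (nat_lit 463225723646) (nat_lit 760) (nat_lit 399048728397) (nat_lit 836) (nat_lit 306337385869) (nat_lit 127) (nat_lit 5) (nat_lit 137) (nat_lit 5) (nat_lit 138) (nat_lit 5) (nat_lit 518) (nat_lit 514) (nat_lit 168))) (XT.nd (nat_lit 78) (nat_lit 0) (nat_lit 76) (XT.lf (nat_lit 76) (nat_lit 196981571910) (nat_lit 0) (nat_lit 319099053236) (nat_lit 836) (nat_lit 682580943284) (nat_lit 128) (nat_lit 5) (nat_lit 127) (nat_lit 5) (nat_lit 138) (nat_lit 5) (nat_lit 519) (nat_lit 514) (nat_lit 167)) (XT.lf (nat_lit 0) (nat_lit 582369624471) (nat_lit 760) (nat_lit 397241698070) (nat_lit 836) (nat_lit 250062895296) (nat_lit 128) (nat_lit 5) (nat_lit 138) (nat_lit 5) (nat_lit 139) (nat_lit 5) (nat_lit 520) (nat_lit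 514) (nat_lit 166))))) (XT.nd (nat_lit 62088) (nat_lit 0) (nat_lit 0) (XT.nd (nat_lit 78) (nat_lit 228) (nat_lit 0) (XT.lf (nat_lit 76) (nat_lit 239864544521) (nat_lit 0) (nat_lit 421084616123) (nat_lit 836) (nat_lit 600839534728) (nat_lit 129) (nat_lit 5) (nat_lit 128) (nat_lit 5) (nat_lit 139) (nat_lit 5) (nat_lit 521) (nat_lit 514) (nat_lit 165)) (XT.nd (nat_lit 61932) (nat_lit 304) (nat_lit 0) (XT.lf (nat_lit 0) (nat_lit 752877302346) (nat_lit 760) (nat_lit 375247242179) (nat_lit 836) (nat_lit 166913370824) (nat_lit 129) (nat_lit 5) (nat_lit 139) (nat_lit 5) (nat_lit 140) (nat_lit 5) (nat_lit 522) (nat_lit 514) (nat_lit 164)) (XT.lf (nat_lit 0) (nat_lit 185814578675) (nat_lit 836) (nat_lit 184857242430) (nat_lit 836) (nat_lit 184857242430) (nat_lit 125) (nat_lit 3) (nat_lit 136) (nat_lit 3) (nat_lit 136) (nat_lit 5) (nat_lit 515) (nat_lit 515) (nat_lit 170)))) (XT.nd (nat_lit 156) (nat_lit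 0) (nat_lit 76) (XT.nd (nat_lit 78) (nat_lit 0) (nat_lit 76) (XT.lf (nat_lit 76) (nat_lit 180347585825) (nat_lit 0) (nat_lit 203388083554) (nat_lit 836) (nat_lit 754958121696) (nat_lit 126) (nat_lit 5) (nat_lit 125) (nat_lit 3) (nat_lit 136) (nat_lit 5) (nat_lit 516) (nat_lit 515) (nat_lit 169)) (XT.lf (nat_lit 0) (nat_lit 408454927145) (nat_lit 760) (nat_lit 402395893230) (nat_lit 836) (nat_lit 356260046897) (nat_lit 126) (nat_lit 5) (nat_lit 136) (nat_lit 5) (nat_lit 137) (nat_lit 5) (nat_lit 517) (nat_lit 515) (nat_lit 168))) (XT.nd (nat_lit 78) (nat_lit 0) (nat_lit 76) (XT.lf (nat_lit 76) (nat_lit 183903770780) (nat_lit 0) (nat_lit 256711857983) (nat_lit 836) (nat_lit 756022894468) (nat_lit 127) (nat_lit 5) (nat_lit 126) (nat_lit 5) (nat_lit 137) (nat_lit 5) (nat_lit 518) (nat_lit 515) (nat_lit 167)) (XT.lf (nat_lit 0) (nat_lit 486387102873) (nat_lit 760) (nat_lit 419001102076) (nat_lit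 836) (nat_lit 321654220170) (nat_lit 127) (nat_lit 5) (nat_lit 137) (nat_lit 5) (nat_lit 138) (nat_lit 5) (nat_lit 519) (nat_lit 515) (nat_lit 166)))))) (XT.nd (nat_lit 62556) (nat_lit 0) (nat_lit 0) (XT.nd (nat_lit 62244) (nat_lit 152) (nat_lit 0) (XT.nd (nat_lit 78) (nat_lit 0) (nat_lit 76) (XT.lf (nat_lit 76) (nat_lit 206830712234) (nat_lit 0) (nat_lit 335054033747) (nat_lit 836) (nat_lit 716709896358) (nat_lit 128) (nat_lit 5) (nat_lit 127) (nat_lit 5) (nat_lit 138) (nat_lit 5) (nat_lit 520) (nat_lit 515) (nat_lit 165)) (XT.nd (nat_lit 78) (nat_lit 0) (nat_lit 0) (XT.lf (nat_lit 0) (nat_lit 611488190593) (nat_lit 760) (nat_lit 417103719473) (nat_lit 836) (nat_lit 262566014386) (nat_lit 128) (nat_lit 5) (nat_lit 138) (nat_lit 5) (nat_lit 139) (nat_lit 5) (nat_lit 521) (nat_lit 515) (nat_lit 164)) (XT.lf (nat_lit 76) (nat_lit 251857834224) (nat_lit 0) (nat_lit 442138866283) (nat_lit 836)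 (nat_lit 630881425511) (nat_lit 129) (nat_lit 5) (nat_lit 128) (nat_lit 5) (nat_lit 139) (nat_lit 5) (nat_lit 522) (nat_lit 515) (nat_lit 163)))) (XT.nd (nat_lit 156) (nat_lit 0) (nat_lit 76) (XT.nd (nat_lit 78) (nat_lit 0) (nat_lit 76) (XT.lf (nat_lit 76) (nat_lit 189365017870) (nat_lit 0) (nat_lit 213557533033) (nat_lit 836) (nat_lit 792705924786) (nat_lit 126) (nat_lit 5) (nat_lit 125) (nat_lit 3) (nat_lit 136) (nat_lit 5) (nat_lit 517) (nat_lit 516) (nat_lit 167)) (XT.lf (nat_lit 0) (nat_lit 428877766214) (nat_lit 760) (nat_lit 422515632271) (nat_lit 836) (nat_lit 374073007479) (nat_lit 126) (nat_lit 5) (nat_lit 136) (nat_lit 5) (nat_lit 137) (nat_lit 5) (nat_lit 518) (nat_lit 516) (nat_lit 166))) (XT.nd (nat_lit 78) (nat_lit 0) (nat_lit 76) (XT.lf (nat_lit 76) (nat_lit 193099014043) (nat_lit 0) (nat_lit 269547485310) (nat_lit 836) (nat_lit 793823945548) (nat_lit 127) (nat_lit 5) (nat_lit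 126) (nat_lit 5) (nat_lit 137) (nat_lit 5) (nat_lit 519) (nat_lit 516) (nat_lit 165)) (XT.lf (nat_lit 0) (nat_lit 510706542410) (nat_lit 760) (nat_lit 439951100273) (nat_lit 836) (nat_lit 337736899440) (nat_lit 127) (nat_lit 5) (nat_lit 137) (nat_lit 5) (nat_lit 138) (nat_lit 5) (nat_lit 520) (nat_lit 516) (nat_lit 164))))) (XT.nd (nat_lit 62478) (nat_lit 0) (nat_lit 0) (XT.nd (nat_lit 62322) (nat_lit 0) (nat_lit 76) (XT.nd (nat_lit 62244) (nat_lit 152) (nat_lit 0) (XT.lf (nat_lit 76) (nat_lit 217172303835) (nat_lit 0) (nat_lit 351806760694) (nat_lit 836) (nat_lit 752545305833) (nat_lit 128) (nat_lit 5) (nat_lit 127) (nat_lit 5) (nat_lit 138) (nat_lit 5) (nat_lit 521) (nat_lit 516) (nat_lit 163)) (XT.lf (nat_lit 76) (nat_lit 198833316612) (nat_lit 0) (nat_lit 224235450773) (nat_lit 836) (nat_lit 832341127606) (nat_lit 126) (nat_lit 5) (nat_lit 125) (nat_lit 3) (nat_lit 136) (nat_lit 5) (nat_lit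 518) (nat_lit 517) (nat_lit 165))) (XT.nd (nat_lit 78) (nat_lit 0) (nat_lit 0) (XT.lf (nat_lit 0) (nat_lit 450321738617) (nat_lit 760) (nat_lit 443641363435) (nat_lit 836) (nat_lit 392776619973) (nat_lit 126) (nat_lit 5) (nat_lit 136) (nat_lit 5) (nat_lit 137) (nat_lit 5) (nat_lit 519) (nat_lit 517) (nat_lit 164)) (XT.lf (nat_lit 76) (nat_lit 202754014381) (nat_lit 0) (nat_lit 283024890803) (nat_lit 836) (nat_lit 833515057889) (nat_lit 127) (nat_lit 5) (nat_lit 126) (nat_lit 5) (nat_lit 137) (nat_lit 5) (nat_lit 520) (nat_lit 517) (nat_lit 163)))) (XT.nd (nat_lit 62400) (nat_lit 0) (nat_lit 0) (XT.nd (nat_lit 62322) (nat_lit 152) (nat_lit 0) (XT.lf (nat_lit 0) (nat_lit 536241946079) (nat_lit 760) (nat_lit 461948603670) (nat_lit 836) (nat_lit 354623715624) (nat_lit 127) (nat_lit 5) (nat_lit 137) (nat_lit 5) (nat_lit 138) (nat_lit 5) (nat_lit 521) (nat_lit 517) (nat_lit 162)) (XT.lf (nat_lit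 76) (nat_lit 208775025843) (nat_lit 0) (nat_lit 235447260581) (nat_lit 836) (nat_lit 873958099252) (nat_lit 126) (nat_lit 5) (nat_lit 125) (nat_lit 3) (nat_lit 136) (nat_lit 5) (nat_lit 519) (nat_lit 518) (nat_lit 163))) (XT.nd (nat_lit 62478) (nat_lit 76) (nat_lit 0) (XT.lf (nat_lit 0) (nat_lit 472837901822) (nat_lit 760) (nat_lit 465823385848) (nat_lit 836) (nat_lit 412415416613) (nat_lit 126) (nat_lit 5) (nat_lit 136) (nat_lit 5) (nat_lit 137) (nat_lit 5) (nat_lit 520) (nat_lit 518) (nat_lit 162)) (XT.lf (nat_lit 76) (nat_lit 219213816501) (nat_lit 0) (nat_lit 247219657415) (nat_lit 836) (nat_lit 917655927359) (nat_lit 126) (nat_lit 5) (nat_lit 125) (nat_lit 3) (nat_lit 136) (nat_lit 5) (nat_lit 520) (nat_lit 519) (nat_lit 161))))))))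

set_option maxRecDepth 10000000 in
noncomputable def Tp : PT := (PT.nd (nat_lit 12761892) (PT.nd (nat_lit 12011532) (PT.nd (nat_lit 11075064) (PT.nd (nat_lit 10138440) pc0 pc1) (PT.nd (nat_lit 561990) pc2 pc3)) (PT.nd (nat_lit 437736) (PT.nd (nat_lit 249912) pc4 pc5) (PT.nd (nat_lit 186888) pc6 pc7))) (PT.nd (nat_lit 497640) (PT.nd (nat_lit 249600) (PT.nd (nat_lit 125112) pc8 pc9) (PT.nd (nat_lit 123864) pc10 pc11)) (PT.nd (nat_lit 440388) (PT.nd (nat_lit 189696) pc12 pc13) (PT.nd (nat_lit 375336) pc14 pc15))))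

set_option maxRecDepth 10000000 in
noncomputable def Tx : XT := (XT.nd (nat_lit 20472894) (nat_lit 0) (nat_lit 76) XT.nil (XT.nd (nat_lit 11993826) (nat_lit 0) (nat_lit 0) (XT.nd (nat_lit 5427240) (nat_lit 0) (nat_lit 228) (XT.nd (nat_lit 3741972) (nat_lit 0) (nat_lit 0) (XT.nd (nat_lit 2620722) (nat_lit 0) (nat_lit 0) (XT.nd (nat_lit 1811628) (nat_lit 0) (nat_lit 0) (XT.nd (nat_lit 1308840) (nat_lit 0) (nat_lit 0) (XT.nd (nat_lit 873990) (nat_lit 0) (nat_lit 0) (XT.nd (nat_lit 623532) (nat_lit 0) (nat_lit 0) (XT.nd (nat_lit 436332) (nat_lit 0) (nat_lit 0) xc0 xc1) (XT.nd (nat_lit 125502) (nat_lit 0) (nat_lit 0) xc2 xc3)) (XT.nd (nat_lit 248118) (nat_lit 0) (nat_lit 0) (XT.nd (nat_lit 124332) (nat_lit 0) (nat_lit 0) xc4 xc5) (XT.nd (nat_lit 63882) (nat_lit 0) (nat_lit 0) xc6 xc7))) (XT.nd (nat_lit 252642) (nat_lit 0) (nat_lit 0) (XT.nd (nat_lit 126594) (nat_lit 0) (nat_lit 0) (XT.nd (nat_lit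 63336) (nat_lit 0) (nat_lit 0) xc8 xc9) (XT.nd (nat_lit 63102) (nat_lit 0) (nat_lit 0) xc10 xc11)) (XT.nd (nat_lit 125346) (nat_lit 0) (nat_lit 0) (XT.nd (nat_lit 62712) (nat_lit 0) (nat_lit 0) xc12 xc13) (XT.nd (nat_lit 62478) (nat_lit 0) (nat_lit 0) xc14 xc15)))) (XT.nd (nat_lit 436176) (nat_lit 0) (nat_lit 0) (XT.nd (nat_lit 247650) (nat_lit 0) (nat_lit 0) (XT.nd (nat_lit 124098) (nat_lit 0) (nat_lit 0) (XT.nd (nat_lit 62088) (nat_lit 0) (nat_lit 0) xc16 xc17) (XT.nd (nat_lit 61854) (nat_lit 0) (nat_lit 0) xc18 xc19)) (XT.nd (nat_lit 122850) (nat_lit 0) (nat_lit 0) (XT.nd (nat_lit 61464) (nat_lit 0) (nat_lit 0) xc20 xc21) (XT.nd (nat_lit 4446) (nat_lit 0) (nat_lit 0) xc22 xc23))) (XT.nd (nat_lit 187122) (nat_lit 0) (nat_lit 0) (XT.nd (nat_lit 121914) (nat_lit 0) (nat_lit 0) (XT.nd (nat_lit 60996) (nat_lit 0) (nat_lit 0) xc24 xc25) (XT.nd (nat_lit 4446) (nat_lit 0) (nat_lit 0) xc26 xc27))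 (XT.nd (nat_lit 121056) (nat_lit 0) (nat_lit 0) (XT.nd (nat_lit 60606) (nat_lit 0) (nat_lit 0) xc28 xc29) (XT.nd (nat_lit 4446) (nat_lit 0) (nat_lit 0) xc30 xc31))))) (XT.nd (nat_lit 621036) (nat_lit 0) (nat_lit 0) (XT.nd (nat_lit 312312) (nat_lit 0) (nat_lit 0) (XT.nd (nat_lit 184314) (nat_lit 0) (nat_lit 0) (XT.nd (nat_lit 64506) (nat_lit 0) (nat_lit 0) (XT.nd (nat_lit 60060) (nat_lit 0) (nat_lit 0) xc32 xc33) (XT.nd (nat_lit 59982) (nat_lit 0) (nat_lit 0) xc34 xc35)) (XT.nd (nat_lit 64038) (nat_lit 0) (nat_lit 0) (XT.nd (nat_lit 4368) (nat_lit 152) (nat_lit 0) xc36 xc37) (XT.nd (nat_lit 4446) (nat_lit 0) (nat_lit 0) xc38 xc39))) (XT.nd (nat_lit 127452) (nat_lit 0) (nat_lit 0) (XT.nd (nat_lit 63726) (nat_lit 0) (nat_lit 0) (XT.nd (nat_lit 59280) (nat_lit 0) (nat_lit 152) xc40 xc41) (XT.nd (nat_lit 59280) (nat_lit 0) (nat_lit 0) xc42 xc43)) (XT.nd (nat_lit 118014) (nat_lit 0) (nat_lit 0) (XT.nd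 (nat_lit 59046) (nat_lit 0) (nat_lit 0) xc44 xc45) (XT.nd (nat_lit 4446) (nat_lit 380) (nat_lit 0) xc46 xc47)))) (XT.nd (nat_lit 251316) (nat_lit 0) (nat_lit 0) (XT.nd (nat_lit 125970) (nat_lit 0) (nat_lit 0) (XT.nd (nat_lit 63024) (nat_lit 0) (nat_lit 0) (XT.nd (nat_lit 4368) (nat_lit 228) (nat_lit 0) xc48 xc49) (XT.nd (nat_lit 4446) (nat_lit 152) (nat_lit 0) xc50 xc51)) (XT.nd (nat_lit 62712) (nat_lit 0) (nat_lit 0) (XT.nd (nat_lit 4368) (nat_lit 152) (nat_lit 0) xc52 xc53) (XT.nd (nat_lit 4446) (nat_lit 152) (nat_lit 0) xc54 xc55))) (XT.nd (nat_lit 124722) (nat_lit 0) (nat_lit 0) (XT.nd (nat_lit 62400) (nat_lit 0) (nat_lit 0) (XT.nd (nat_lit 4368) (nat_lit 152) (nat_lit 0) xc56 xc57) (XT.nd (nat_lit 4446) (nat_lit 152) (nat_lit 0) xc58 xc59)) (XT.nd (nat_lit 62166) (nat_lit 0) (nat_lit 0) (XT.nd (nat_lit 4446) (nat_lit 152) (nat_lit 0) xc60 xc61) (XT.nd (nat_lit 4446) (nat_lit 152) (nat_lit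 0) xc62 xc63)))))) (XT.nd (nat_lit 818532) (nat_lit 0) (nat_lit 152) (XT.nd (nat_lit 438282) (nat_lit 0) (nat_lit 76) (XT.nd (nat_lit 193830) (nat_lit 0) (nat_lit 0) (XT.nd (nat_lit 123474) (nat_lit 0) (nat_lit 0) (XT.nd (nat_lit 61776) (nat_lit 0) (nat_lit 0) (XT.nd (nat_lit 4368) (nat_lit 228) (nat_lit 0) xc64 xc65) (XT.nd (nat_lit 4446) (nat_lit 380) (nat_lit 0) xc66 xc67)) (XT.nd (nat_lit 61464) (nat_lit 0) (nat_lit 0) (XT.nd (nat_lit 4368) (nat_lit 684) (nat_lit 0) xc68 xc69) (XT.nd (nat_lit 4446) (nat_lit 1064) (nat_lit 0) xc70 xc71))) (XT.nd (nat_lit 122538) (nat_lit 0) (nat_lit 0) (XT.nd (nat_lit 61308) (nat_lit 0) (nat_lit 0) (XT.nd (nat_lit 56862) (nat_lit 0) (nat_lit 152) xc72 xc73) (XT.nd (nat_lit 56784) (nat_lit 0) (nat_lit 380) xc74 xc75)) (XT.nd (nat_lit 60996) (nat_lit 0) (nat_lit 0) (XT.nd (nat_lit 56550) (nat_lit 0) (nat_lit 912) xc76 xc77) (XT.nd (nat_lit 56472) (nat_lit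 0) (nat_lit 1824) xc78 xc79)))) (XT.nd (nat_lit 190788) (nat_lit 0) (nat_lit 76) (XT.nd (nat_lit 121446) (nat_lit 0) (nat_lit 76) (XT.nd (nat_lit 60762) (nat_lit 0) (nat_lit 76) (XT.nd (nat_lit 4368) (nat_lit 152) (nat_lit 0) xc80 xc81) (XT.nd (nat_lit 4446) (nat_lit 456) (nat_lit 0) xc82 xc83)) (XT.nd (nat_lit 8814) (nat_lit 0) (nat_lit 0) (XT.nd (nat_lit 4368) (nat_lit 1216) (nat_lit 0) xc84 xc85) (XT.nd (nat_lit 56082) (nat_lit 0) (nat_lit 304) xc86 xc87))) (XT.nd (nat_lit 120510) (nat_lit 0) (nat_lit 0) (XT.nd (nat_lit 60294) (nat_lit 0) (nat_lit 0) (XT.nd (nat_lit 55848) (nat_lit 0) (nat_lit 1140) xc88 xc89) (XT.nd (nat_lit 4446) (nat_lit 0) (nat_lit 0) xc90 xc91)) (XT.nd (nat_lit 60060) (nat_lit 0) (nat_lit 0) (XT.nd (nat_lit 4446) (nat_lit 304) (nat_lit 0) xc92 xc93) (XT.nd (nat_lit 4446) (nat_lit 1368) (nat_lit 0) xc94 xc95))))) (XT.nd (nat_lit 431184) (nat_lit 0) (nat_lit 0) (XT.nd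 (nat_lit 240864) (nat_lit 0) (nat_lit 0) (XT.nd (nat_lit 120276) (nat_lit 0) (nat_lit 0) (XT.nd (nat_lit 60060) (nat_lit 0) (nat_lit 0) (XT.nd (nat_lit 55614) (nat_lit 0) (nat_lit 456) xc96 xc97) (XT.nd (nat_lit 55770) (nat_lit 0) (nat_lit 1672) xc98 xc99)) (XT.nd (nat_lit 60216) (nat_lit 0) (nat_lit 0) (XT.nd (nat_lit 4368) (nat_lit 0) (nat_lit 0) xc100 xc101) (XT.nd (nat_lit 4446) (nat_lit 532) (nat_lit 0) xc102 xc103))) (XT.nd (nat_lit 69264) (nat_lit 0) (nat_lit 0) (XT.nd (nat_lit 8814) (nat_lit 76) (nat_lit 0) (XT.nd (nat_lit 4368) (nat_lit 1596) (nat_lit 0) xc104 xc105) (XT.nd (nat_lit 56004) (nat_lit 0) (nat_lit 532) xc106 xc107)) (XT.nd (nat_lit 60450) (nat_lit 0) (nat_lit 0) (XT.nd (nat_lit 56004) (nat_lit 0) (nat_lit 1596) xc108 xc109) (XT.nd (nat_lit 4446) (nat_lit 0) (nat_lit 0) xc110 xc111)))) (XT.nd (nat_lit 191178) (nat_lit 0) (nat_lit 76) (XT.nd (nat_lit 121446) (nat_lit 0)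 (nat_lit 0) (XT.nd (nat_lit 60606) (nat_lit 0) (nat_lit 0) (XT.nd (nat_lit 4368) (nat_lit 456) (nat_lit 0) xc112 xc113) (XT.nd (nat_lit 4446) (nat_lit 1216) (nat_lit 0) xc114 xc115)) (XT.nd (nat_lit 8814) (nat_lit 228) (nat_lit 0) (XT.nd (nat_lit 4368) (nat_lit 2204) (nat_lit 0) xc116 xc117) (XT.nd (nat_lit 56472) (nat_lit 0) (nat_lit 760) xc118 xc119))) (XT.nd (nat_lit 121992) (nat_lit 0) (nat_lit 0) (XT.nd (nat_lit 60918) (nat_lit 0) (nat_lit 0) (XT.nd (nat_lit 56472) (nat_lit 0) (nat_lit 1520) xc120 xc121) (XT.nd (nat_lit 56628) (nat_lit 0) (nat_lit 2584) xc122 xc123)) (XT.nd (nat_lit 61152) (nat_lit 0) (nat_lit 0) (XT.nd (nat_lit 4446) (nat_lit 228) (nat_lit 0) xc124 xc125) (XT.nd (nat_lit 4446) (nat_lit 684) (nat_lit 0) xc126 xc127))))))) (XT.nd (nat_lit 2003430) (nat_lit 0) (nat_lit 836) (XT.nd (nat_lit 936858) (nat_lit 0) (nat_lit 228) (XT.nd (nat_lit 439452) (nat_lit 0) (nat_lit 152)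 (XT.nd (nat_lit 192894) (nat_lit 0) (nat_lit 0) (XT.nd (nat_lit 70122) (nat_lit 0) (nat_lit 0) (XT.nd (nat_lit 61230) (nat_lit 0) (nat_lit 152) (XT.nd (nat_lit 4368) (nat_lit 1444) (nat_lit 0) xc128 xc129) (XT.nd (nat_lit 4446) (nat_lit 2128) (nat_lit 0) xc130 xc131)) (XT.nd (nat_lit 61308) (nat_lit 0) (nat_lit 0) (XT.nd (nat_lit 56862) (nat_lit 0) (nat_lit 456) xc132 xc133) (XT.nd (nat_lit 57018) (nat_lit 0) (nat_lit 912) xc134 xc135))) (XT.nd (nat_lit 123084) (nat_lit 0) (nat_lit 76) (XT.nd (nat_lit 61464) (nat_lit 0) (nat_lit 0) (XT.nd (nat_lit 57018) (nat_lit 0) (nat_lit 1596) xc136 xc137) (XT.nd (nat_lit 57174) (nat_lit 0) (nat_lit 2280) xc138 xc139)) (XT.nd (nat_lit 61620) (nat_lit 0) (nat_lit 76) (XT.nd (nat_lit 4368) (nat_lit 76) (nat_lit 0) xc140 xc141) (XT.nd (nat_lit 4446) (nat_lit 228) (nat_lit 0) xc142 xc143)))) (XT.nd (nat_lit 248040) (nat_lit 0) (nat_lit 76) (XT.nd (nat_lit 123864)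 (nat_lit 0) (nat_lit 0) (XT.nd (nat_lit 61854) (nat_lit 0) (nat_lit 0) (XT.nd (nat_lit 4368) (nat_lit 456) (nat_lit 0) xc144 xc145) (XT.nd (nat_lit 4446) (nat_lit 760) (nat_lit 0) xc146 xc147)) (XT.nd (nat_lit 62010) (nat_lit 0) (nat_lit 0) (XT.nd (nat_lit 4368) (nat_lit 1140) (nat_lit 0) xc148 xc149) (XT.nd (nat_lit 4446) (nat_lit 1368) (nat_lit 0) xc150 xc151))) (XT.nd (nat_lit 124488) (nat_lit 0) (nat_lit 0) (XT.nd (nat_lit 62166) (nat_lit 0) (nat_lit 0) (XT.nd (nat_lit 4368) (nat_lit 1596) (nat_lit 0) xc152 xc153) (XT.nd (nat_lit 4446) (nat_lit 1824) (nat_lit 0) xc154 xc155)) (XT.nd (nat_lit 62400) (nat_lit 0) (nat_lit 0) (XT.nd (nat_lit 4446) (nat_lit 2052) (nat_lit 0) xc156 xc157) (XT.nd (nat_lit 4446) (nat_lit 2128) (nat_lit 0) xc158 xc159))))) (XT.nd (nat_lit 502866) (nat_lit 0) (nat_lit 228) (XT.nd (nat_lit 250770) (nat_lit 0) (nat_lit 152) (XT.nd (nat_lit 125190) (nat_lit 0) (nat_lit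 152) (XT.nd (nat_lit 62478) (nat_lit 0) (nat_lit 152) (XT.nd (nat_lit 4368) (nat_lit 2280) (nat_lit 0) xc160 xc161) (XT.nd (nat_lit 4446) (nat_lit 2128) (nat_lit 0) xc162 xc163)) (XT.nd (nat_lit 62712) (nat_lit 0) (nat_lit 0) (XT.nd (nat_lit 4368) (nat_lit 1976) (nat_lit 0) xc164 xc165) (XT.nd (nat_lit 4446) (nat_lit 1900) (nat_lit 0) xc166 xc167))) (XT.nd (nat_lit 125892) (nat_lit 0) (nat_lit 76) (XT.nd (nat_lit 62868) (nat_lit 0) (nat_lit 0) (XT.nd (nat_lit 4368) (nat_lit 1672) (nat_lit 0) xc168 xc169) (XT.nd (nat_lit 4446) (nat_lit 1444) (nat_lit 0) xc170 xc171)) (XT.nd (nat_lit 63024) (nat_lit 0) (nat_lit 0) (XT.nd (nat_lit 4368) (nat_lit 1064) (nat_lit 0) xc172 xc173) (XT.nd (nat_lit 4446) (nat_lit 684) (nat_lit 0) xc174 xc175)))) (XT.nd (nat_lit 253578) (nat_lit 0) (nat_lit 228) (XT.nd (nat_lit 126594) (nat_lit 0) (nat_lit 152) (XT.nd (nat_lit 63180) (nat_lit 0) (nat_lit 152) (XT.nd (nat_lit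 4368) (nat_lit 456) (nat_lit 0) xc176 xc177) (XT.nd (nat_lit 4446) (nat_lit 0) (nat_lit 0) xc178 xc179)) (XT.nd (nat_lit 63414) (nat_lit 0) (nat_lit 0) (XT.nd (nat_lit 58968) (nat_lit 0) (nat_lit 1520) xc180 xc181) (XT.nd (nat_lit 59124) (nat_lit 0) (nat_lit 912) xc182 xc183))) (XT.nd (nat_lit 182208) (nat_lit 0) (nat_lit 0) (XT.nd (nat_lit 63570) (nat_lit 0) (nat_lit 0) (XT.nd (nat_lit 59124) (nat_lit 0) (nat_lit 228) xc184 xc185) (XT.nd (nat_lit 59280) (nat_lit 0) (nat_lit 0) xc186 xc187)) (XT.nd (nat_lit 63882) (nat_lit 0) (nat_lit 152) (XT.nd (nat_lit 4446) (nat_lit 1444) (nat_lit 0) xc188 xc189) (XT.nd (nat_lit 4446) (nat_lit 456) (nat_lit 0) xc190 xc191)))))) (XT.nd (nat_lit 1377090) (nat_lit 0) (nat_lit 1216) (XT.nd (nat_lit 626964) (nat_lit 0) (nat_lit 532) (XT.nd (nat_lit 312312) (nat_lit 0) (nat_lit 304) (XT.nd (nat_lit 128232) (nat_lit 0) (nat_lit 76) (XT.nd (nat_lit 64038) (nat_lit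 0) (nat_lit 76) (XT.nd (nat_lit 59592) (nat_lit 0) (nat_lit 1444) xc192 xc193) (XT.nd (nat_lit 59748) (nat_lit 0) (nat_lit 228) xc194 xc195)) (XT.nd (nat_lit 119652) (nat_lit 0) (nat_lit 152) (XT.nd (nat_lit 59748) (nat_lit 0) (nat_lit 76) xc196 xc197) (XT.nd (nat_lit 4446) (nat_lit 760) (nat_lit 0) xc198 xc199))) (XT.nd (nat_lit 185016) (nat_lit 0) (nat_lit 152) (XT.nd (nat_lit 64506) (nat_lit 0) (nat_lit 0) (XT.nd (nat_lit 60060) (nat_lit 0) (nat_lit 1140) xc200 xc201) (XT.nd (nat_lit 60216) (nat_lit 0) (nat_lit 0) xc202 xc203)) (XT.nd (nat_lit 64740) (nat_lit 0) (nat_lit 0) (XT.nd (nat_lit 4368) (nat_lit 1216) (nat_lit 0) xc204 xc205) (XT.nd (nat_lit 60450) (nat_lit 0) (nat_lit 1064) xc206 xc207)))) (XT.nd (nat_lit 373386) (nat_lit 0) (nat_lit 304) (XT.nd (nat_lit 186264) (nat_lit 0) (nat_lit 152) (XT.nd (nat_lit 121056) (nat_lit 0) (nat_lit 152) (XT.nd (nat_lit 60450) (nat_lit 0) (nat_lit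 0) xc208 xc209) (XT.nd (nat_lit 4446) (nat_lit 532) (nat_lit 0) xc210 xc211)) (XT.nd (nat_lit 121680) (nat_lit 0) (nat_lit 76) (XT.nd (nat_lit 60762) (nat_lit 0) (nat_lit 76) xc212 xc213) (XT.nd (nat_lit 4446) (nat_lit 1140) (nat_lit 0) xc214 xc215))) (XT.nd (nat_lit 187902) (nat_lit 0) (nat_lit 228) (XT.nd (nat_lit 122148) (nat_lit 0) (nat_lit 152) (XT.nd (nat_lit 60996) (nat_lit 0) (nat_lit 76) xc216 xc217) (XT.nd (nat_lit 4446) (nat_lit 988) (nat_lit 0) xc218 xc219)) (XT.nd (nat_lit 122850) (nat_lit 0) (nat_lit 152) (XT.nd (nat_lit 61386) (nat_lit 0) (nat_lit 76) xc220 xc221) (XT.nd (nat_lit 61542) (nat_lit 0) (nat_lit 836) xc222 xc223))))) (XT.nd (nat_lit 997386) (nat_lit 0) (nat_lit 1444) (XT.nd (nat_lit 437814) (nat_lit 0) (nat_lit 532) (XT.nd (nat_lit 247104) (nat_lit 0) (nat_lit 304) (XT.nd (nat_lit 123318) (nat_lit 0) (nat_lit 228) (XT.nd (nat_lit 61542) (nat_lit 0) (nat_lit 76) xc224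 xc225) (XT.nd (nat_lit 61854) (nat_lit 0) (nat_lit 0) xc226 xc227)) (XT.nd (nat_lit 124020) (nat_lit 0) (nat_lit 152) (XT.nd (nat_lit 61932) (nat_lit 0) (nat_lit 0) xc228 xc229) (XT.nd (nat_lit 4446) (nat_lit 76) (nat_lit 0) xc230 xc231))) (XT.nd (nat_lit 249678) (nat_lit 0) (nat_lit 456) (XT.nd (nat_lit 124644) (nat_lit 0) (nat_lit 228) (XT.nd (nat_lit 62244) (nat_lit 0) (nat_lit 152) xc232 xc233) (XT.nd (nat_lit 62478) (nat_lit 0) (nat_lit 76) xc234 xc235)) (XT.nd (nat_lit 183846) (nat_lit 0) (nat_lit 304) (XT.nd (nat_lit 62634) (nat_lit 0) (nat_lit 76) xc236 xc237) (XT.nd (nat_lit 62946) (nat_lit 0) (nat_lit 152) xc238 xc239)))) (XT.nd (nat_lit 627198) (nat_lit 0) (nat_lit 1444) (XT.nd (nat_lit 312312) (nat_lit 0) (nat_lit 684) (XT.nd (nat_lit 126360) (nat_lit 0) (nat_lit 152) (XT.nd (nat_lit 63102) (nat_lit 0) (nat_lit 152) xc240 xc241) (XT.nd (nat_lit 63336) (nat_lit 0) (nat_lit 380) xc242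 xc243)) (XT.nd (nat_lit 127296) (nat_lit 0) (nat_lit 228) (XT.nd (nat_lit 63570) (nat_lit 0) (nat_lit 76) xc244 xc245) (XT.nd (nat_lit 123552) (nat_lit 0) (nat_lit 380) xc246 xc247))) (XT.nd (nat_lit 498888) (nat_lit 0) (nat_lit 1444) (XT.nd (nat_lit 248508) (nat_lit 0) (nat_lit 684) (XT.nd (nat_lit 124020) (nat_lit 0) (nat_lit 228) xc248 xc249) (XT.nd (nat_lit 124956) (nat_lit 0) (nat_lit 228) xc250 xc251)) (XT.nd (nat_lit 313092) (nat_lit 0) (nat_lit 912) (XT.nd (nat_lit 186654) (nat_lit 0) (nat_lit 608) xc252 xc253) (XT.nd (nat_lit 249600) (nat_lit 0) (nat_lit 1140) xc254 xc255)))))))) XT.nil))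

set_option maxRecDepth 10000000 in
noncomputable def Te : XT := XT.nil

set_option maxRecDepth 10000000 in
noncomputable def Tz : ZL := (ZL.cons (nat_lit 76) (nat_lit 6) (nat_lit 344925594065108505402) (ZL.cons (nat_lit 152) (nat_lit 6) (nat_lit 337038326384986732208) (ZL.cons (nat_lit 228) (nat_lit 3) (nat_lit 168319848780254054459) (ZL.cons (nat_lit 304) (nat_lit 6) (nat_lit 328756695320858870354) (ZL.cons (nat_lit 380) (nat_lit 6) (nat_lit 321257818293209243906) (ZL.cons (nat_lit 456) (nat_lit 3) (nat_lit 160439085896852896576) (ZL.cons (nat_lit 532) (nat_lit 6) (nat_lit 313383997414177136134) (ZL.cons (nat_lit 608) (nat_lit 6) (nat_lit 306256328909940688210) (ZL.cons (nat_lit 684) (nat_lit 3) (nat_lit 152947380407587748509) (ZL.cons (nat_lit 760) (nat_lit 6) (nat_lit 298772276980492417892) (ZL.cons (nat_lit 836) (nat_lit 6) (nat_lit 291999587615283415234) (ZL.cons (nat_lit 912) (nat_lit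 3) (nat_lit 145827618524420188001) (ZL.cons (nat_lit 988) (nat_lit 6) (nat_lit 284888263781813962442) (ZL.cons (nat_lit 1064) (nat_lit 6) (nat_lit 278455245338301209562) (ZL.cons (nat_lit 1140) (nat_lit 3) (nat_lit 139063646208939633718) (ZL.cons (nat_lit 1216) (nat_lit 6) (nat_lit 271700575972612819038) (ZL.cons (nat_lit 1292) (nat_lit 6) (nat_lit 265592812740192554274) (ZL.cons (nat_lit 1368) (nat_lit 3) (nat_lit 132640238312752495173) (ZL.cons (nat_lit 1444) (nat_lit 6) (nat_lit 259179661346151276272) (ZL.cons (nat_lit 1520) (nat_lit 6) (nat_lit 253383604383886548926) (ZL.cons (nat_lit 1596) (nat_lit 3) (nat_lit 126543070708758720211) (ZL.cons (nat_lit 1672) (nat_lit 6) (nat_lit 247297744573508585214) (ZL.cons (nat_lit 1748) (nat_lit 6) (nat_lit 241800688916877070514) (ZL.cons (nat_lit 1824) (nat_lit 3) (nat_lit 120758695426834197874) (ZL.cons (nat_lit 1900) (nat_lit 6) (nat_lit 236028780477413980080)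 (ZL.cons (nat_lit 1976) (nat_lit 6) (nat_lit 230818845324801875310) (ZL.cons (nat_lit 2052) (nat_lit 3) (nat_lit 115274518822777759196) (ZL.cons (nat_lit 2128) (nat_lit 6) (nat_lit 225348413414559165306) (ZL.cons (nat_lit 2204) (nat_lit 6) (nat_lit 220414525345779691406) (ZL.cons (nat_lit 2280) (nat_lit 3) (nat_lit 110078782825629675741) (ZL.cons (nat_lit 2356) (nat_lit 6) (nat_lit 215233942873561243812) (ZL.cons (nat_lit 2432) (nat_lit 6) (nat_lit 210565822170089370610) (ZL.cons (nat_lit 2508) (nat_lit 3) (nat_lit 105160549325749285341) (ZL.cons (nat_lit 2584) (nat_lit 6) (nat_lit 205664295431443903746) (ZL.cons (nat_lit 2660) (nat_lit 6) (nat_lit 201252445586682827128) (ZL.cons (nat_lit 2736) (nat_lit 3) (nat_lit 100509687784488651695) (ZL.cons (nat_lit 2812) (nat_lit 6) (nat_lit 196620003249683696682) (ZL.cons (nat_lit 2888) (nat_lit 6) (nat_lit 192455703777564765512) (ZL.cons (nat_lit 2964)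 (nat_lit 3) (nat_lit 96116866166065466689) (ZL.cons (nat_lit 3040) (nat_lit 6) (nat_lit 188516562153877369568) (ZL.cons (nat_lit 3116) (nat_lit 6) (nat_lit 188083189331839887782) (ZL.cons (nat_lit 3192) (nat_lit 6) (nat_lit 184158492003571771692) (ZL.cons (nat_lit 3268) (nat_lit 3) (nat_lit 91973545313484061020) (ZL.cons (nat_lit 3344) (nat_lit 6) (nat_lit 180450295829878327688) (ZL.cons (nat_lit 3420) (nat_lit 6) (nat_lit 180037559808890249798) (ZL.cons (nat_lit 3496) (nat_lit 6) (nat_lit 176345288470896561830) (ZL.cons (nat_lit 3572) (nat_lit 3) (nat_lit 88071976913256066796) (ZL.cons (nat_lit 3648) (nat_lit 6) (nat_lit 172861485490753739836) (ZL.cons (nat_lit 3724) (nat_lit 6) (nat_lit 172468403566003189466) (ZL.cons (nat_lit 3800) (nat_lit 6) (nat_lit 169002157717219348504) (ZL.cons (nat_lit 3876) (nat_lit 3) (nat_lit 84405205218426613186) (ZL.cons (nat_lit 3952) (nat_lit 6) (nat_lit 165736963313853982514)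 (ZL.cons (nat_lit 4028) (nat_lit 6) (nat_lit 165362599575996315494) (ZL.cons (nat_lit 4104) (nat_lit 6) (nat_lit 162665046083518126338) (ZL.cons (nat_lit 4180) (nat_lit 6) (nat_lit 162116761909954226092) (ZL.cons (nat_lit 4256) (nat_lit 3) (nat_lit 80967072726231340602) (ZL.cons (nat_lit 4332) (nat_lit 6) (nat_lit 159065169253807810334) (ZL.cons (nat_lit 4408) (nat_lit 6) (nat_lit 158708632360610032220) (ZL.cons (nat_lit 4484) (nat_lit 6) (nat_lit 156200555910756719614) (ZL.cons (nat_lit 4560) (nat_lit 6) (nat_lit 155678380507362528902) (ZL.cons (nat_lit 4636) (nat_lit 3) (nat_lit 77752230035828147838) (ZL.cons (nat_lit 4712) (nat_lit 6) (nat_lit 152836175007355296240) (ZL.cons (nat_lit 4788) (nat_lit 6) (nat_lit 152496616061452650416) (ZL.cons (nat_lit 4864) (nat_lit 6) (nat_lit 150175248704635936062) (ZL.cons (nat_lit 4940) (nat_lit 6) (nat_lit 149677938796641468720) (ZL.cons (nat_lit 5016)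 (nat_lit 3) (nat_lit 74756150143222528061) (ZL.cons (nat_lit 5092) (nat_lit 6) (nat_lit 147041717140877962052) (ZL.cons (nat_lit 5168) (nat_lit 6) (nat_lit 146718327668589727936) (ZL.cons (nat_lit 5244) (nat_lit 6) (nat_lit 144581674375934122070) (ZL.cons (nat_lit 5320) (nat_lit 6) (nat_lit 144108045892129867456) (ZL.cons (nat_lit 5396) (nat_lit 3) (nat_lit 71975147465019022969) (ZL.cons (nat_lit 5472) (nat_lit 6) (nat_lit 142291953257131511056) (ZL.cons (nat_lit 5548) (nat_lit 6) (nat_lit 141675240000454855970) (ZL.cons (nat_lit 5624) (nat_lit 6) (nat_lit 141367250026847013954) (ZL.cons (nat_lit 5700) (nat_lit 6) (nat_lit 139414117598584514880) (ZL.cons (nat_lit 5776) (nat_lit 6) (nat_lit 138963042852104272392) (ZL.cons (nat_lit 5852) (nat_lit 3) (nat_lit 69406401920294125947) (ZL.cons (nat_lit 5928) (nat_lit 6) (nat_lit 137319295061752486226) (ZL.cons (nat_lit 6004) (nat_lit 6) (nat_lit 136731949103012814718)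 (ZL.cons (nat_lit 6080) (nat_lit 6) (nat_lit 136438625318624393748) (ZL.cons (nat_lit 6156) (nat_lit 6) (nat_lit 135385784717252027086) (ZL.cons (nat_lit 6232) (nat_lit 6) (nat_lit 134668656651598613652) (ZL.cons (nat_lit 6308) (nat_lit 6) (nat_lit 134239061654950763662) (ZL.cons (nat_lit 6384) (nat_lit 3) (nat_lit 67047988441039181595) (ZL.cons (nat_lit 6460) (nat_lit 6) (nat_lit 132768252896786873480) (ZL.cons (nat_lit 6536) (nat_lit 6) (nat_lit 132208875793225281564) (ZL.cons (nat_lit 6612) (nat_lit 6) (nat_lit 131929519808093452072) (ZL.cons (nat_lit 6688) (nat_lit 6) (nat_lit 131026213067732804344) (ZL.cons (nat_lit 6764) (nat_lit 6) (nat_lit 130343233957586696308) (ZL.cons (nat_lit 6840) (nat_lit 6) (nat_lit 129934095865541124890) (ZL.cons (nat_lit 6916) (nat_lit 3) (nat_lit 64898912326640847935) (ZL.cons (nat_lit 6992) (nat_lit 6) (nat_lit 129438389450557706076) (ZL.cons (nat_lit 7068)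 (nat_lit 6) (nat_lit 128637694143664439834) (ZL.cons (nat_lit 7144) (nat_lit 6) (nat_lit 128104954045034352296) (ZL.cons (nat_lit 7220) (nat_lit 6) (nat_lit 127838900725861181350) (ZL.cons (nat_lit 7296) (nat_lit 6) (nat_lit 127088195542377744862) (ZL.cons (nat_lit 7372) (nat_lit 6) (nat_lit 126437739247000499118) (ZL.cons (nat_lit 7448) (nat_lit 6) (nat_lit 126048083921242812052) (ZL.cons (nat_lit 7524) (nat_lit 3) (nat_lit 62959150907164535063) (ZL.cons (nat_lit 7600) (nat_lit 6) (nat_lit 125691048871342595454) (ZL.cons (nat_lit 7676) (nat_lit 6) (nat_lit 124928481912396627606) (ZL.cons (nat_lit 7752) (nat_lit 6) (nat_lit 124421110389891782334) (ZL.cons (nat_lit 7828) (nat_lit 6) (nat_lit 124167726276393524288) (ZL.cons (nat_lit 7904) (nat_lit 6) (nat_lit 124442927590866050780) (ZL.cons (nat_lit 7980) (nat_lit 6) (nat_lit 123573588571378442832) (ZL.cons (nat_lit 8056) (nat_lit 6) (nat_lit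 122954106385304875456) (ZL.cons (nat_lit 8132) (nat_lit 6) (nat_lit 122583006075059459204) (ZL.cons (nat_lit 8208) (nat_lit 3) (nat_lit 61229702034237471542) (ZL.cons (nat_lit 8284) (nat_lit 6) (nat_lit 123340859983613642870) (ZL.cons (nat_lit 8360) (nat_lit 6) (nat_lit 122369833287419711020) (ZL.cons (nat_lit 8436) (nat_lit 6) (nat_lit 121643579040804503544) (ZL.cons (nat_lit 8512) (nat_lit 6) (nat_lit 121160368066990365188) (ZL.cons (nat_lit 8588) (nat_lit 6) (nat_lit 120919049863658690862) (ZL.cons (nat_lit 8664) (nat_lit 6) (nat_lit 122382222079091913616) (ZL.cons (nat_lit 8740) (nat_lit 6) (nat_lit 121314349976511006620) (ZL.cons (nat_lit 8816) (nat_lit 6) (nat_lit 120486408053189475242) (ZL.cons (nat_lit 8892) (nat_lit 6) (nat_lit 119896425018833696786) (ZL.cons (nat_lit 8968) (nat_lit 6) (nat_lit 119542996151933300356) (ZL.cons (nat_lit 9044) (nat_lit 3) (nat_lit 59712639977593071075)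 (ZL.cons (nat_lit 9120) (nat_lit 6) (nat_lit 120404625583150166048) (ZL.cons (nat_lit 9196) (nat_lit 6) (nat_lit 119479838253441659524) (ZL.cons (nat_lit 9272) (nat_lit 6) (nat_lit 118788167542379557166) (ZL.cons (nat_lit 9348) (nat_lit 6) (nat_lit 118327966614937520636) (ZL.cons (nat_lit 9424) (nat_lit 6) (nat_lit 118098139754621640326) (ZL.cons (nat_lit 9500) (nat_lit 3) (nat_lit 58954815639000919652) (ZL.cons (nat_lit 9576) (nat_lit 6) (nat_lit 117978457500229926972) (ZL.cons (nat_lit 9652) (nat_lit 6) (nat_lit 118185100038871875900) (ZL.cons (nat_lit 9728) (nat_lit 6) (nat_lit 118530050899972071678) (ZL.cons (nat_lit 9804) (nat_lit 6) (nat_lit 119014131395104562392) (ZL.cons (nat_lit 9880) (nat_lit 6) (nat_lit 119638494096876806356) (ZL.cons (nat_lit 9956) (nat_lit 6) (nat_lit 118621473046799752072) (ZL.cons (nat_lit 10032) (nat_lit 6) (nat_lit 117832956929350674568) (ZL.cons (nat_lit 10108)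 (nat_lit 6) (nat_lit 117271068325202314136) (ZL.cons (nat_lit 10184) (nat_lit 6) (nat_lit 116934469404344793726) (ZL.cons (nat_lit 10260) (nat_lit 3) (nat_lit 58411179370388035811) (ZL.cons (nat_lit 10336) (nat_lit 6) (nat_lit 116493286487343670884) (ZL.cons (nat_lit 10412) (nat_lit 6) (nat_lit 116634380242911250604) (ZL.cons (nat_lit 10488) (nat_lit 6) (nat_lit 116916903691559666186) (ZL.cons (nat_lit 10564) (nat_lit 6) (nat_lit 117341529508166651950) (ZL.cons (nat_lit 10640) (nat_lit 6) (nat_lit 117909268706581272150) (ZL.cons (nat_lit 10716) (nat_lit 6) (nat_lit 117028518868763646886) (ZL.cons (nat_lit 10792) (nat_lit 6) (nat_lit 116369784858228311308) (ZL.cons (nat_lit 10868) (nat_lit 6) (nat_lit 115931498260664466996) (ZL.cons (nat_lit 10944) (nat_lit 6) (nat_lit 115712615536554104792) (ZL.cons (nat_lit 11020) (nat_lit 3) (nat_lit 57606606454472465742) (ZL.cons (nat_lit 11096) (nat_lit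 6) (nat_lit 115285480442284423536) (ZL.cons (nat_lit 11172) (nat_lit 6) (nat_lit 115502455107858469910) (ZL.cons (nat_lit 11248) (nat_lit 6) (nat_lit 115864653512013675478) (ZL.cons (nat_lit 11324) (nat_lit 6) (nat_lit 116372938031902790728) (ZL.cons (nat_lit 11400) (nat_lit 6) (nat_lit 115621970300998907390) (ZL.cons (nat_lit 11476) (nat_lit 6) (nat_lit 115086838297048087932) (ZL.cons (nat_lit 11552) (nat_lit 6) (nat_lit 114766267896231401826) (ZL.cons (nat_lit 11628) (nat_lit 3) (nat_lit 57329747917844880863) (ZL.cons (nat_lit 11704) (nat_lit 6) (nat_lit 114135188970799426062) (ZL.cons (nat_lit 11780) (nat_lit 6) (nat_lit 114283337414145384768) (ZL.cons (nat_lit 11856) (nat_lit 6) (nat_lit 114579987035226221128) (ZL.cons (nat_lit 11932) (nat_lit 6) (nat_lit 115025844142663556182) (ZL.cons (nat_lit 12008) (nat_lit 6) (nat_lit 114398478418344188964) (ZL.cons (nat_lit 12084) (nat_lit 6) (nat_lit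 113981062611140527712) (ZL.cons (nat_lit 12160) (nat_lit 6) (nat_lit 113772602873892563710) (ZL.cons (nat_lit 12236) (nat_lit 3) (nat_lit 56590383519619218380) (ZL.cons (nat_lit 12312) (nat_lit 6) (nat_lit 113256647949244903414) (ZL.cons (nat_lit 12388) (nat_lit 6) (nat_lit 113484471348097652106) (ZL.cons (nat_lit 12464) (nat_lit 6) (nat_lit 113864779672460617952) (ZL.cons (nat_lit 12540) (nat_lit 6) (nat_lit 113355130144888408940) (ZL.cons (nat_lit 12616) (nat_lit 6) (nat_lit 113049825001253469792) (ZL.cons (nat_lit 12692) (nat_lit 3) (nat_lit 56474068662273572945) (ZL.cons (nat_lit 12768) (nat_lit 6) (nat_lit 112419942214431072318) (ZL.cons (nat_lit 12844) (nat_lit 6) (nat_lit 112575498079944328958) (ZL.cons (nat_lit 12920) (nat_lit 6) (nat_lit 112886980182079207136) (ZL.cons (nat_lit 12996) (nat_lit 6) (nat_lit 112489441318075720228) (ZL.cons (nat_lit 13072) (nat_lit 6) (nat_lit 112290908234982421180)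 (ZL.cons (nat_lit 13148) (nat_lit 3) (nat_lit 55885614026596214990) (ZL.cons (nat_lit 13224) (nat_lit 6) (nat_lit 111850903008699219966) (ZL.cons (nat_lit 13300) (nat_lit 6) (nat_lit 112090117577494606092) (ZL.cons (nat_lit 13376) (nat_lit 6) (nat_lit 111799350774032759284) (ZL.cons (nat_lit 13452) (nat_lit 3) (nat_lit 55851252683822892069) (ZL.cons (nat_lit 13528) (nat_lit 6) (nat_lit 111308960908002217728) (ZL.cons (nat_lit 13604) (nat_lit 6) (nat_lit 111472294566791137200) (ZL.cons (nat_lit 13680) (nat_lit 6) (nat_lit 111283215440035614294) (ZL.cons (nat_lit 13756) (nat_lit 3) (nat_lit 55474190719759164689) (ZL.cons (nat_lit 13832) (nat_lit 6) (nat_lit 111032040142800458864) (ZL.cons (nat_lit 13908) (nat_lit 3) (nat_lit 55469903211215955552) (ZL.cons (nat_lit 13984) (nat_lit 6) (nat_lit 110768306080703545660) (ZL.cons (nat_lit 14060) (nat_lit 1) (nat_lit 18446744073709551617) ZL.nil)))))))))))))))))))))))))))))))))))))))))))))))))))))))))))))))))))))))))))))))))))))))))))))))))))))))))))))))))))))))))))))))))))))))))))))))))))))))))))))))))))))))))))))))))))))))))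

noncomputable def vl : XL := ⟨(nat_lit 0), (nat_lit 76), (nat_lit 147707822), (nat_lit 228), (nat_lit 50338171), (nat_lit 76), (nat_lit 147707822), (nat_lit 1), (nat_lit 5), (nat_lit 3), (nat_lit 4), (nat_lit 1), (nat_lit 4), (nat_lit 0), (nat_lit 0), (nat_lit 0)⟩

noncomputable def cp0 : Nat := (nat_lit 1658996538269268888933061392790581159617158745507904965095295762767847691729099022219475036406975117215206834615462648951008856278464101142779797259612982211932017925801043677904243139097639992826969150079276350782399320005290906850352102791266521431911862705059844221127500996727784690469204068597548832631046873257162251519000224761518883243612259336417893269745645327574398239236018387456682551770248500965566058318897429089965626376613209298292339749577003187447346497737965037262504020635668946900045069355485365966618092479409699127078154461570416905236464839331221635725455403313699606344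829417225644805467695643534456210427376376978227687661675810453567241790080757131459907852205376821006744198304538878972199894486773173102139510225932646324381330473748613854309219045816823587854637301916143210966967881985819569921716169837329577526105369158643946854187415376780056552830290620227628349971585971968816923162166492430363566515571067223653362984258864892280432151294095729785121682441749307192597708051715529389624404593976457493675748987260283605148110092341250899289099139428937830936774824333570211501404612246697450307179010231454195100888554059999807997957775749705000114529881501321562799448223827534704067841914018027546735361185506589823447093234588450054191086497873105805326144387303619903514640384238814398806150208930209574244311555020785221641635756027357452139537661426960737702734908832104702371814000466788855959203873375411875916748021962645036195294970694993480254701433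959474486469559709427151635185344954244253836312710521956423612303322865690386843111735814624727805441816394031202489329201197291463281189788553549429164445379107810501513263601594370762151838794547395387640859489657187553406432053276862701455036795792296061489882640000566263741439545152475376347402284875177641126792164964907384311504324840149322647883071444792520530840303022889390530809570068131909580558244290525837868708700673496183794178233467831709918055350776114088619717076938132019537247586757438952994682037503110902365431003134340178534872453385304906026887809493479815968454018287308861401100720210342316270217509868033155677196749662131696491504047966126492342769421625172943782463583170665503956964504158682198204819109108015265879094986793737551120663090264067189147337884554023403449645492312094265765789007404403156862050452463804101408018535120760667091541621693549323890241208047302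193170451868460463112207786809362154774222029692987337405033025751319400913169088899128578060383925133864995842206601966522043647746285017503661790300264111767751795914613702224267575455733955723535643875850045816006531382517042947618178832451278484277275525660246443698604301033988876662936415253384951954602863019010139329869244335870777620025914987109487042835927655921758721605307696193051143281043715513433521122735782024429031535805309890434614797564523295258369173654059754627229136619468544953998563256977124105849508335490810080133805235545610475266427699530631885340565553055035032320808746959529434136438283959109491701462227578790511672973447151365378416812033391009080587158409193904829608665743672452680513471697269701092856454814832942159130378669705610997163203425610100945821085543443014334176238373769365622446460352720047533741915055960650107412019456530046131785804326800314846923037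624052375495187222950006905574033844176858992857328840206324932659219327426818884711445149401888913739445823182958663935973030033695433399491520523602580974209425311182222275188954454431462022678781726491653970675460630755714149206265894881164970030770617311788258511446626339456234615819636026126026160816111132391871417566758846989798953166942745604208162719280920670003302680204743690948868721628695028419746609426728120336663041126027046306538287568825621665619489525186857449783344182678311846171736425356401224968888955397056236531630479890002290259370915289733744256671518209605376058461392397008862218730639695088342083354416564756059585651451544206911853104500126185817004338575855759562004813379844087735418404450404072975396159645271895909695567778122469072719173939806617453977294413904693959755759214364341170033157434255441340302825513708293804392541756950393348285752410034279738391712747628193860900953294682504539055594325843902464)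

noncomputable def cp1 : Nat := (nat_lit 189974119907813778238950897407564534377692775552959456536974936016732593188119898819361283159029747371549274802561384871217301275682521666840864452967024629187256151318902849210508598786814194745932785528777147017017947828575308522499043065889283796209007434651236326006602008325219419319941426397978045216846160357489709573561802486820591072698518347375132820139040295190465709556971908571487963476658933266688287332886466613829451023886217251421835251566171590526946565036219944183996417999983876247003908201255921770312476970343793377496315377212411799207084407166960912953191668437263153289394390812343660177451555198946204320889972575813326438013139808488458426024545078608448204465295234802677946461753517718778422669676502523756477398622420139887326301052133432182552913610067820867412096821851621676147019789500741540531686322222717998001317597191387840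552760868123508317305403711530559934427040154771650178918163909874110194413312716959197149235815092555571451582225380479203770102923233563470815985617239328475707060579298561120717818245595541070364976682139484720398277034164818070571775907541518937340306074527968101119526963505325565954510486890124506267927509735542758175559978150405957360610856832147557969669185234373007987733295912170533334624205628073411711947620980391712881726583540902842077230285504514158531286065626270449217581316959073239385039217017103687322905209197897674257823254774358926642484574562521492904347980025460357131201381659976160685611697118596973118691224334962188472584826672806851572785208664876597195748685151948953485695679579913885766250116129268177816889488062594571949059000453974566167332561786500490025302188573224262589880423617959039271704663789623155487113530507829944488190697134833562273201881696067171562127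436612175823636940469632524741113242754979658836917510901386308065927340142578986222934137322094354736207623025207849433047498507284308312550977632334778479844044390584170904913208314107512810121802741933436073090192558342492574968724096034319891155803977933342292174282490196429622309907789538777746183075710116718820368077671312655840811195047473899826383217200770080883977840934060464614040810860031372064791572997225014776048129449594941961230003523064664997473861425327829379466651059609791142976354555506095514831760881639448508370313525238425594229399387017985097466752705940519313165079128203253512222490725996548348496462392288071022037169891455752189699233948694993652476091996560829584524637528563180311339577508999393248650266768245429687208524279050481734948939365457872516682495654525564580898846175655154943636394381190685489869684645463340730076015273648712707730080214709036214576714493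417437797177871523428905404943935436690114470581639620620981139772613287000755826838911222447034573908435883226163409370584932136221470671331077959690485231087688502020993191707733505653345922914782437777191720523150410023182776474806960280309585793006025692923808532664374610685559574145425392156491073236717696931219194621321021699175600525007532913832917103625557921619514450390281433735200233112502875055473986530694117598452226931674339319524354371724890998050771315186575497825961486697234261810378858042056458214004891418235943066752453995218712839695676060485287148527679367203839796764862932717831603853644229582006283990335661751650592330289084505916804802055702430803774159349399860550923043646013450691974823254475702033742705911177670168285417318001848178961494436693972820393169041535637372324510937761716661696792461251020422522313466876273026892567622723883006126084352954390357805269844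9573696289703809272137005802287082090367126047700328969132370797780506261653531018643201795931145358295863327275775600022135256597192368029032531015458656343881976269969641614639145633561318877293778030011138104579866294811350065629303900071690318207605836918993917916218337170175558545753373397468300591236627095680836570589635583580192739433270399146269805549559845847274945771990206420616129710296941009749476249355999932410378631409047153797450505825682616868929237283756250834162873783496107834524988798233925976049586932499493469082772084212397736451487053059385393865439946352493522743845882009676246676514361003320967987594312464580873756275409540976615776863778419291193344)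

noncomputable def rc0 : Nat := (nat_lit 164989499571474074907054289710428965442313596923051940093235321644577064211311188343961995755638659295853602438982147326246184878476056869662501937198975137521814500510470895595654178042160504386514791620577754524254596919479052655115202893141495307352512913678584896893543051552538977627239464514982981473279506451111843133619724016228421003526661860702991587358496434532479292398734827899375716854109993655397569679208518957729079215059108804551648838164112162199106598636971054421012000636715829930349539533424033281871945651787776785093236077775561330485451852686073104657091206719332726128745067198976310971647793257900749928181900001303498684991532139700603877469257576156677184986847589680463266779652166050278144991209415833417655054701183280690524902828007503777001067478503134655349238601665077246132572654159886781015747057786355142007428684782220156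601705111897600495335459590338413944937219881734369632171737286875249610306404723462362897591248894223030458771641083290707461755898765720932299467597781894956692007833889518330966557052241205943954269462119373512018871856627317150127804981628807172679011436925315681013638930647024216552579536851495636903784528565039430882684209536898176804731167861028223499698292384090086438886629915468368099929997786078596859281147847090742223464429628075404130470554760151037945726659734320772926192999362707518624158030439565159289525131907525915106048227636532574832101635593301617710836337592789412221792597314730222261823826286842619153436257011697890396194355740976922408706821892489222172774334079321014083210327783257361536520045117877865538819797501786208638366024051851893491035259778592762806482625361690368374384551943359094262656227937255527069697263918145573765118260797727678461225971199396338258159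922816568007500559147397433637769951807219968217450020083825313673365706566054619079347356150698941363288934684470361524282181828567569865458852552021797315610799082322196333063918980056989479575520492423038942107270177831843031283456328110724484020799536027245835337502184677387522046738017561230464757649625050514314968829594562480700333455121512890819660360321855759343251283521018386283976243992416460833942334755079366999173889296136000693416728060774585093487479779888898750886072890468356659744364164636655476327784235856998436702392987964886215986202431682493994869105459867911672424957600924424296570508238255542414427436504760836777341636999461752231769126139344717879730995890168330025335921339490493015375761521368122299674753454522893914457324633017141418420032669443305897116230552357545121216136921120741991955546302864607598969782417512758362830793378560750669412605481818394860475074907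633070577267014690628137567372397080639558226157544892904212090934878537238559028732355260131432915349432869392547984451005601770723903972449994539896202622961326295844110256821760826626767728122736756941315950728747383588996171449938456950339992827761801971667661950275200784438459024726028549748456836873960184163508672317069512134242471940671790691480507312349157203869706387354295441837696051385348763114933280063619667648025422147292162977039265814904069931481865620248613012568710176543895695752059097421928698793680826408706316216943835989520686933862955764314516216267069063653262858198679256548628933358056790849423182697388268242223814770058324887044506685367351586275234604297627056543954176302163036336814379816328384426790397989502257502195011030138102204555494162193709746825674717345186142327665030981886715717541377411754189343445785663474684989509493320149311073708108421537842137049889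5655084965596056784598585445063699643923461156215851192486157935888966831776231184049550112393424925723776367743389560761646601095696895249393927345424300876541940796815178129139226126834724319521735007809248126812965279540697140478513064658501383621673709212016928307593047411981829934854139778893162100048054421131500266691172029666875633328394835473636274569328802338020459595841963239117135213941454752553361737694562946326553700923381679561305307393531917509937891844334196256487339556658228738136823151280473782441738827810417792786726639215283845625575633377828478058088451456205809098252625738779655760895593914923099263172752279179047412646004518167318175242340057479118848)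

noncomputable def rc1 : Nat := (nat_lit 168136474137879972957707871732898171633643538670428182534149344593869740366030793472145488468803654902761800692924607848433378290899076712199123893071165398818820708457341942387602798567617725967970308838925140853744974656985866993792741759975604921488471164557006381817899546796139380760096096969065588942996253979986887364325393265326487397669262770739162028526522706175689756800060569294775093823625947033797898445909907365804589227192959463265890089495062727758547437237050341870457722990288429052627723427021686367364702651478826182916206513925053039588058827250628795560200677745936904356926139360257500477268663568306445991900382246170256243347494675808752288607098312348597413368246143284587520908668649906899969380148917519082041229611382666371414933064472187186308970516089944850786669749489767600760151959477533071815818462987822833023047885129565218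509835125736040494658700454726117443659255073795059904278913686091739378659937179864494587853655504916031786277002345302743864179221525038167619276030079567381788098911440714787621900399866431648553203136690940394711844400562502843561211448652369428910114170100282142003950268475213520816759075739947695674112543639408466027842509257556174753774774755345544536873820246331939836396329221016943737771583902406398752102477739956247874153835187979903829243053834291918091162329513531072917760215289297297439066492080497817475277506535228375272168277330257346380362790534873978836746507758881869559065757977322703827612968273987375289448157634870962159169155698514682658973206676484286536559967567693815231303052430161049166485909717838426001569035332314477174855650902209205391897244581934661213035822309652763779512591110488829552805473549995633771902615706875299327710674552634210718836496975596837610550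360224548917293326428413016286679159954375837188502983278456040124580729185331576502322402437468754762892120900943182523024466391163909050146650030220303462234703512850571686087812023881721007418278092450002051720021359284992010758199626730182878421240228297127672355875010187091121543688924163128446608129252494158506547464852297290103736929630180717825558529989316893192685846879789853364990854551895448745207805350301125387226150678120276097607342810556786575979126700501711744406965662917609818948649123487969430798038709198312822874955836006574751413307447794385621964666938976033272094786368434157780651002226470327762547749150492901024366371250098033315441913773928053130576107263088247310438905213126751127536872692826600605641651975134433737804998999728736700633910808575392839494783734613750378746102961531596755430621337122732755361789875654583106826945854685665824789991286447470583790661182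335194578926204185212339750718659099300814659318472712554074506817523762561069848423579803727846599469257653236311477649376404584956618714631391187981692220848090472244657558720089144377750936250877665693374529802106356738815605169868936928250399187384648489285219456088293102454108458691314527403163009293563200207597911885809297991230335313504324977642299513033435985454408482056390994972525996902835677580739210642348752857194260709585424381956515820509937898111136877497619690752747807471506166359479213984666778392288961409774771716469206349805579102339793425060356049565059768631520211069815104904523500544126214585547240384586117630643119402603096663756175108462904263815466534031998050584889888010848446880148893340879901373807938928143419104508596231475476783216835515000003808211219261521272932814283380258652547028711214191654890471144637805424775507636679789985591345568907729625582804413026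6855267519096319065868214668852928390781808160387397666848019257576005301567555273774454624260170306646367763758908184210194444326650022566176221096671435702625642770825801383010864067141752993370441554060966046594116138190163754011617876990294970625414240567034982093452797942259388752798518338148442002730700696583018174511859748838055904877152979042847303592135212301447547721977405949850746930508208348903525417827105800734101389136258023848030183511370337307539309030035020535773885979636329739030182824954948810703998393964162920328351464657190198799616197574543668303697724854879319715421172125124615504798591641085385257679183448042281885914510772840406232636541150687133696)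

noncomputable def rc2 : Nat := (nat_lit 171568131272092887952590245619279649398459953795283955160022538441581535142861627436428766091431970522093097753519734682279468539045602697029033872827148869541199485973512151108224555283045142593035360657749828211496572104339275775597822677405995137661191709829872764318581052208352395870643852413892886692821939445702079690962611863371447139948298762627061113189366516750790749113262289019670918373093301519913270988945906008045840952043134500251200803649230648233845882273808032472908318598769004151078827960683325354351699189556977658067816693542010242101574307999809726468359443337931646436752326746112611869823896848281500373565000209566948262040525876795587176746357219349357208234011158662932623640843995096851470501762582328845703971576327502857170878497037749800526403970527173039303418613025272683929858116015236640493047317952393527489634511776778833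221985391802256418118464771740771974058524591803444287550815401995610040664611326677218010334982069734292748962560680037218233391532784527017044614622350975239059615072883797898799204345516704121121359654556989331164645414161291617814094050987372440859614292366837272357841205142263979799196129390920466521533487283591434497113997549767500568152604453808989608217359626784578959710134920033136483598616242164300764253931880399156874905055071424789191322313327730023170535587304378101309538136722894367198572124609169444474196927589408552066182021134615067830385080540261903623431816425271462248421104418158728815847130333202921838285328628258869480883891308339455165319073215916739274201769048757623239895719456967566331139771762794605843568919547990082986597997224975161207330944990422820247040614261322084207907560999622983084859637766444178777025176266343802659445534912512288688273396906689055743378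325967178872869779097300247477152486282499509463567598996416354237822537472884890215321670907892632246376792878086569716764449288896617290705586930925165302979478464946296166560310238918150115968866782764544963637736780557620629966042163570910091368582358577754075714268824234572250486585349828226774254521512691040112110747511509983823949075870685955318608622407413504800530774505984433025838402921193652544867763984064596487427891270380745562236837751193335386390712491498980431203703426170897434166071379923602816311287029624341620639838553840653518227159895084316039432004719568331716088175425269208211936368385603265285272821434793833889156083473530150015700966016434920969651321671409096895510762847288821658161836337118502044316906753604796752259712653337445648308453834357817350196544122768358421080856040231063639751331631660285967655112566353775346762221696963751884707069291868527669090174082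686684115715900566382020234204361341150407702040077338979118177500638889476226399230140385949344501367295948370375551740674649778850560775438258804416984532110411872360479612730861477393994459268869422398734312127966652412401841712042828719448879712854807614839574353304060684492400068149649643361837365904878109715760550212230709921036057422551357497202398183715914213210595207563567723083954797199385171963647816210479162374470366680150036831617108917395716824011335228319305379177016015050306312033624944846499058995023826595052431164479153237976635366137164453151439454156828278942494918661425608966452757216018344028529780852431194676086017157844131696909736308283444029076713076454114385527565453245436892328531646914447299206002288826180593904539560929002587303813678732779745521501796482130120559173428155294409795525608130806686372062274255617460875635280389092175014403557981783244867526840026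5842913603789801856337199484590158552416522510982733469529507075116030366122691481086489313545499831280595731028765766497734254199432113962541662113430701374827133104734857882682565610267327797096558938395081150865258773162495274099627109037902653765617934093067810098045603060822018555631119813119820700927797928081223437108765120062742611713798459684848299881671222620557355769469482416494743389827711973867118317446252895720398225677587758351086988824225715929863142769044264157862531178524673256568418082650739395216794568271854965078448130664944824285195605936465892370628953970496523745164741176997617973822644923925741679980569977616318249162133870967520282125325627692154880)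

noncomputable def rc3 : Nat := (nat_lit 175267522705379816817085365111810629248977380669217109984217324344506281853078280194337907523952660388675177964348284140500597124177805813073898223328585507298593284203678890760327798182139030709967327183081962734880098422396950493626547749140717824783592710742263516263271254988200034121853182861740514868226307479618879229486303755622183080783257188798458835528014340584988313712201164155731771607747397159342130750551331118268340450439961259746638393206437054113082287281332109279506313182136520440105898292052724658795067318259964022855452702472052746061987095448930322432714835416464436987764134989755463617363637182544090279618049225324505654629750956020403491161197117465058138820282534311297201999098751342391731751044810444586477172072440698699293192402005247433147263595107382273083578682755991351648895577890130007290973199681461746534909703594889660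503815240709918683572963002946432971264347599614111797760378458825257862707391512823037362137498708261136543058889332008220665916468517752932069723199610438658512033498756286375910613280350557986693534048271717168788078016795310911093878466012587619312897629099466047685618926865981824400377421461376377978426187591443594058690284199499219064169818676158821806850811676153648595945699967144026133775505425300423099551307791115898882606044303398432855544121723195862456345603562873625017503463587294660448640677990853772061115085863607811045753937069891238882621986181609030913612030517269863531708666386331586151680667741982343482598396610499344841986850230167459515295717484516664908994443097219201660582183109395453662113190938001206901717403039494807894727198872013271847036156758887587673587459167177477363524180031296025425502229019369221361068531200132140464379774295396834736022733824987218689119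073858320407627151397580351510302086425436985794476326944372306909073935466913280441588457677006272752911429078809300131419560763806248593145115109447351778402346800561719003672180662656340688377108874640834311190680523816449161728057463017042385817612454385191811831542257050633263284657301915142452350499780838153629734754185125009568303055111599030163909132028713159814058778009013330980795017153955662322376586890191345193260363208044373339194939018655100700384382953982801925627651412558991335214082988420479408842794105978814106985387443038234214007184692503667538592609477111087533154830451121804006378176863985003981950106148716963534097728853148991238203921103941720376083005182690409992321276039431434709257833487808033735925796656695110161323604404757644942280836896417913795178339556139613874486388623010005951276114837479490682717797547241408198250964420199662758620721826628029028038937944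513451368736198024196132035703221170378421351446800961049727688263563607962713838186171432358925757331825282819497442363257066691191212423686854161415837069627878207064858467210236012638710039095532687796669847433521357125526553434251258305024437004662431035713782350632671471727600580771916741479241260087598376809069832650426783705732940115448256293516553865066715435420454975685582217984027388989551531717029321150109136030139899518352534492571062923703463401586528476240900934734781736516452050660186661690343417559115376204229717298339905671068265290512001483364189930094162112102320327918220782170297822864630191030711069663243395935320724313462198028330969694399768540091982004245779222528149415273307052658551074747384355395334349455977388318188249029241098502553047110910548649143463056773310824478994649182004217453081592678665977213117526391540266839320798924794198912595988852793778838875046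8579923415086622015369717212562702221186181680814401246682825906156755089573629018908730033661716136516738950379964909638667920382127581192662634358568346948109167256659716317844364208174473673439886528668346005487223544669104774483495629962947090959225821819906547936804267221663856746264456232985367588338096524322950132825883197391736531935205211596305262239320305161315206025437660980950743638393354123965772338328333336204078495467188627215866317947502361002508806326840540101080781518756621233036715737771087429199456724115117539468014468787718434702056897900192219703367923388727431294277967976417839170203586241753311879792508500832127469461033835538326802949686825184133120)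

noncomputable def rc4 : Nat := (nat_lit 179212899137567306551490941150941760976646352006025014622947486599590268528204555328496334831214337286673744281664816168788169650304478035071611335783852337486195686220265276231326297818197067782865638412734384758862852157556066420921650714339674921955529029177393486242698411454597016374268585906551833651772965369023116214854553461531111381836755328539792445724400180935379715339402896707032713904578194939776877075953352173985057991964475066005216042061859465899437919885814340651825540995572186745788795374888244662066974299863932883095568550845616335746549770960745596812073733019088175451526124059086466398688206426852038318511797454627964663084111997588559038104537547528606926790759678973642191988221928131092718083603213116960515443351791301128180741666852298267167836020028867531940515177528169395860795555826806573721532209129722816363911072413577142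391027487562381468404005072411345166880380151568428252125186695115198680075457349297511091292513425036602997859820654359455149027190453464553314025242890289552655348211554634248464714374330931775948942207786224174259844625135881512891115439384425526321994047473844380174014706979039678485629487406936604139102666486351703996916852273496563566732849699859389052768369765132942968614835585463309785125982049347131546120395254270101781042375803563030814050325121280430750640644305254243665748017818278130546276204129096764072889640847109103589440247840881053960571206083215159221100716065580700320608088581823661567770849094965651495015953210423677572877280698724786208349962427559974663005413314963643924383297583075112478979275591313125365847289009008360987784240102504165967798571165247187886122667109142545614102690715800059320466194124787333163476017483151663473698949428469801499970634667142063863485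890290715124483139971409460080663586460343981512249191702423115524549330310890558606195172914324571270243447012195746057390050961374888880597978513355776095000856940825875880256844727365109778145817846108704101311256618029816098744395578342606435820206956129308876249300904335573340583438106360242720804621740406489231879843951345662550952937615838489290644619596900836405781129135399781432314044784059860650601191012157686510759000247065984498659296348407350416341802084974201922131221320749046410727002368997234575519133022594953447350574719577217243655350579770250186914083516610761908120411573065088917618797868372478430221203379372319691936555802379882377324577149479839066178629936087229428998047330872350573838292940164470462259328910819870785787844956351439346479007152605373104027450869205326053986158321464675358561299323989593577148045890884357604399799439188153380946653960656206195532476716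053264086536839368367494197817400006589517458666936127188829939989605381285013210177055224421980228720194752680294284496377846832052831997509191541643269370248234200474232399445171507277262143752945446994048295622844709609679382396325753285055368689236466175692482388622235215583441500581557720545902867533863465776929434735896061156213858798719978682496020474309231326716414646609069306679614360436801212764136703758753953522867702287494817993587734371062420915271609709467827626440560642724883299764281978518642998152294825435847873616910953912947415085176149791450501475857689196864760225647701493463649180005588195167165655251106137152419954566737401350520250164738552607769457110390516799794662336927751162717265812393834028180184080826167546626207873980244699248126536015341343203850685236742277976242726364130524507742272295448119994204433359378494465221182645965622592142770130009459252297224809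2080549980232844475014394308991631572169889284623041557068753580835735441900365793964083470421548920115583750997145900186101359947112947308490008891349697994531010017661540419869327042848503018246841089331728062079247187407760066465592476330652003894159477573445663416008028150103597090695571926183766989787999838673824865153313575871404860316791661240093592991659183678843212466395657174015040020571384585709441208162256849438385066469839378123772304146475874651997130376857440472848459445626430688803252037817790823992522807723407523733417751523239112957480409697790601727360756292241141639326052970111224239298636579705511169428930136765549970340779946169019001570498596709597184)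

noncomputable def rc5 : Nat := (nat_lit 183377927976972003752127630027828166364853955956892486718221107231909743645262098099767150248694273524683578190624076763607671863383736405685404654169354967094967009203097208938110977809392746896648646182023409227222064787870547527188544837251955371311328080637289979523858644378161729106380965713009039028455162106788479880450601638030748431192603110909831580490182097622595899065718772295940874839924225668812785974456719245009940585757434949140624024210476658801452388647332747848434269215056206079915225027205138538156012857762346429959053740755864377771783117886213651814177117489488551714960916188102525567361127629701158779577842469307240308475052581536952506726011284429818514599448671134836388586148509611923299496004071324097503526116091505343563133975525297810849667922610558657572188126962819146752003962443001408249733314986335811280874932823957327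224258698048144662360653272547822437031047562554084873999583624493218952491625080902579202574087291467264568544008146756708090537687108151019202527361983044974925258425831515828891655775458402930373444905857532637945905159642650985589561787371716868744623241920254133510255911347793606615123887557272100026768357866464066748393945672304184464393541291298109725935310797694015489409782535549512318776987946908411741860492243489838371624315102732440475066939029625002760204324696444140469119945338298204464562379862595037587309454302176452141576715484146082826216567069090382958059362395151196801838890605184451917523420362176979130973091512422456788248152296456061188105548632061052975257229012753974866712039357874198517993066072908877754849197562823606941413105989712184206160060236358107572339473851210551206729504309868361241303408055228355157202623616656407322191324561810272963435449877533461540862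852691079544730046154199640033522213518824849808140544291723480863608150307544202474679475813259262371887187512571746783777933777961633500533842070322163560581126546266041452198709481276336246000721887944007196922975252817253799919069132781625611640920504961261619562120456483934160630388130190479556400745308620561336633129011897016937922938976227456021126137166358942576045650285450541719642187033761774795514030789722775445671798308510317348864965049869688207475321357406037262058479572582981148328998787756668669948866333562812591135218306003369952205661492256257486555057094069536697169444504879908098082861377273686231427922863664505792373964028034780843386487828062963998674927061520736088900275336851047911165366668773948423019075764625785161012043480999930300735136241015433744424457250715266781231690664203540078366977631793459596022833421867312069043812164432237906025797905545740647990300694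515693855135437410011614615467599518274914948913104304421606585525331823457064784055342974738883769593686765942378455997805666461709577822133139198990390908063556148051673943838060874971738574320066749571279388793785840454411641575334735481280088067784655281241849330514095179720064146075934426439049181931244382546822083395606107264260182129206590575229807027418702531712185880264286511489108633124063278425675499347844667534132567379085840897793484221941970877156682253209326484066283634415778594260145343138806487878390267067548961089586991002404724933020060442702639416288892678159485586762873814399117835800007900590615736751373926097433832624463714670228487310812071196060864388380592235950787646225593004761238384874612566433573250369030245906722260889304742095495569229731442106561927610682305646658564777707780284017625622726475436701242605060947293164491125545268296773572921891940065031364054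9338374068062631968336258836527254788581539447353529553847220767550434157804090168450581496647974270695704583288208421211063215156979068371187169743056491791763607719546907527208295019149162290009608482503470634286849036195350396498244480057776054629339190823063465070028046232825008253210607891859785787129989923547307141694259581812619655905201911204969742179832190741604731925908553746161992334446280813638137385480372464233745927431519164326088057386763095176847535608501103133292602110413460781287124771637328475738723958930267583879828848257516287006227460193281892067568795370466289647352605372031167612187778337711074789392061266565535652644934855571148851326353637176770560)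

noncomputable def rc6 : Nat := (nat_lit 187733887718967739053361168399085111963686257018037692962700253391903956935404730155861848795887312128112664919997997964318993085277879228133109367105115017389329451799728621148599793549920400850886613426584375318317575261197326844332141309223125833343577755207220207816962267415418468060390522869456545020086880008383496759830722139091917452453704397137103627206775613823766560323097516673796435306807597032740695204410512830230315705096657591106086077961732471334969139429539042495545927720550225782300610846881192238760571768787107138440183111044534429777243932677517403493100784313255082331905290434425826730331463287132233600365940306368491806874224856367427313344078447437956744423594779003274726443127387518411419622306244875736842128446346117497163140243829306981770111782252213814255042750226295800317588702514546590420759503365013965470633695814495908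822299069305674458657003739436185246796998813127165846859103519631008793620926134925314912288986595333904839344336729615941967103473595100895987432522979163130665238460406169607468409246736364315818323322560932642546983178632504577986106038140473437711237085946156389175280827385286705845352267207656562652899529138962225127293630511963995043975149339845720756108666805283054042817488947158156579415662131095418024759480577433741932620917303629309444220020765165845538282769087370124302226500045817282656590260430186968294309369440915038338138500679231478538429971302368651702700694054606935798609458580768031143852567069033815484933142274619889291683865341004193924866329008374178186220907962328566200386987610510087947544670240381283390267010333860348356147899424832841807503064399560087384839812707818690422072664107715259252341743425919814078333300292029742077929120171634188204886428548900297828458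734176693422627161902614606514709781765575555996724345195032593700239207842873353407500729985003123168883588931130753203139227580295074134860447747724615267705615844917989947672839691895016239498948970056140987002730990296146391531891193715948051266436460539293910559911144301956012165630011110082996086443830284681522577064713530869034535119965479138346838162625987264345656419845190393168359865484423727943049088618288490897594860390364890226141605014104730769554043865950171830900185349075690487728848022594903544806582088085672918132530886380543018757044410820568233623557250143103639770851535692780759125101331385935294603431488111951783073185194371269300172399307287003581619200460400186700569350316055586701725803289020414632803331158526664388634736580194545871962464077873092997279845411806667286399886949192318191533555327652751277174346628379689035992754252647231773597471761823895295594868709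099131191369529129009513842916652027667071129572771603580576911452142402042025731718100999439537559370828223801494613161873429960230536555357177368227476352255218514551628895442144509136770230937059049547127533527730741155116421925425199598533071165759130390754802276126500131091727396477734850927245540267079307560356317651346724212719949677064079878309543137514919119503497609529615325185164049979210106564448680771117175948198761762289692638517928703358355265810326490797071691692797454002886829545671388697675838736092412814526775034056761383783327602370485679861250931095582680373031049189723688883538052258985129979303438666273615485168590392244196634680726557513303395503783534072758857454702248490545687504025714254014237601888936016117791015790174285617809489514018689602595011033235518569020714406818916845439243318401576431719048266172750035398870293580476509004959500611489747060796840621989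4449753162924079865795004650905543999317107935926007414951519470161252338225196852847427122210176002384687745002778861435694184297167142870441555103476694525373720989852093017551405837995264601253325447533257534235081088693049437030702962792012794579410986826890352813606887579667792282320519793463493424185835850358371189851882474811258496013399080654282205932586526875105709312557268541651979496972280212939339321169579784220726042796852360819563618575683776375058730195851517900828344277319335597451951104742062640606755943542576528049259817541369380908032750276993257436035290564696090276254428113984469729323127684167488308131545985386847455457399763585334997053930755462266880)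

noncomputable def rc7 : Nat := (nat_lit 189974119907813778238950897407564534377692775552959456536974936016732593188119898819361283159029747371549274802561384871217301275682521666840864452967024629187256151318902849210508598786814194745932785528777147017017947828575308522499043065889283796209007434651236326006602008325219419319941426397978045216846160357489709573561802486820591072698518347375132820139040295190465709556971908571487963476658933266688287332886466613829451023886217251421835251566171590526946565036219944183996417999983876247003908201255921770312476970343793377496315377212411799207084407166960912953191668437263153289394390812343660177451555198946204320889972575813326438013139808488458426024545078608448204465295234802677946461753517718778422669676502523756477398622420139887326301052133432182552913610067820867412096821851621676147019789500741540531686322222717998001317597191387840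552760868123508317305403711530559934427040154771650178918163909874110194413312716959197149235815092555571451582225380479203770102923233563470815985617239328475707060579298561120717818245595541070364976682139484720398277034164818070571775907541518937340306074527968101119526963505325565954510486890124506267927509735542758175559978150405957360610856832147557969669185234373007987733295912170533334624205628073411711947620980391712881726583540902842077230285504514158531286065626270449217581316959073239385039217017103687322905209197897674257823254774358926642484574562521492904347980025460357131201381659976160685611697118596973118691224334962188472584826672806851572785208664876597195748685151948953485695679579913885766250116129268177816889488062594571949059000453974566167332561786500490025302188573224262589880423617959039271704663789623155487113530507829944488190697134833562273201881696067171562127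436612175823636940469632524741113242754979658836917510901386308065927340142578986222934137322094354736207623025207849433047498507284308312550977632334778479844044390584170904913208314107512810121802741933436073090192558342492574968724096034319891155803977933342292174282490196429622309907789538777746183075710116718820368077671312655840811195047473899826383217200770080883977840934060464614040810860031372064791572997225014776048129449594941961230003523064664997473861425327829379466651059609791142976354555506095514831760881639448508370313525238425594229399387017985097466752705940519313165079128203253512222490725996548348496462392288071022037169891455752189699233948694993652476091996560829584524637528563180311339577508999393248650266768245429687208524279050481734948939365457872516682495654525564580898846175655154943636394381190685489869684645463340730076015273648712707730080214709036214576714493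417437797177871523428905404943935436690114470581639620620981139772613287000755826838911222447034573908435883226163409370584932136221470671331077959690485231087688502020993191707733505653345922914782437777191720523150410023182776474806960280309585793006025692923808532664374610685559574145425392156491073236717696931219194621321021699175600525007532913832917103625557921619514450390281433735200233112502875055473986530694117598452226931674339319524354371724890998050771315186575497825961486697234261810378858042056458214004891418235943066752453995218712839695676060485287148527679367203839796764862932717831603853644229582006283990335661751650592330289084505916804802055702430803774159349399860550923043646013450691974823254475702033742705911177670168285417318001848178961494436693972820393169041535637372324510937761716661696792461251020422522313466876273026892567622723883006126084352954390357805269844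9573696289703809272137005802287082090367126047700328969132370797780506261653531018643201795931145358295863327275775600022135256597192368029032531015458656343881976269969641614639145633561318877293778030011138104579866294811350065629303900071690318207605836918993917916218337170175558545753373397468300591236627095680836570589635583580192739433270399146269805549559845847274945771990206420616129710296941009749476249355999932410378631409047153797450505825682616868929237283756250834162873783496107834524988798233925976049586932499493469082772084212397736451487053059385393865439946352493522743845882009676246676514361003320967987594312464580873756275409540976615776863778419291193344)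

end Vale.Agent.Lib.P154.PChain.BE.S4
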