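import Vale.Agent.Lib.P154.PChain.BE.R4_0

set_option linter.all false

namespace Vale.Agent.Lib.P154.PChain.BE.S5

open Vale.Agent.Lib.P154.Chain

noncomputable def pc0 : PT := (PT.nd (nat_lit 9389172) (PT.nd (nat_lit 9014538) (PT.nd (nat_lit 8764938) (PT.nd (nat_lit 8702382) (PT.nd (nat_lit 8577582) (PT.nd (nat_lit 8577504) PT.nil (PT.lf (nat_lit 76) (nat_lit 6) (nat_lit 1) (nat_lit 3) (nat_lit 231) (nat_lit 137) (nat_lit 232))) (PT.nd (nat_lit 62400) (PT.lf (nat_lit 76) (nat_lit 6) (nat_lit 1) (nat_lit 1) (nat_lit 232) (nat_lit 137) (nat_lit 231)) (PT.lf (nat_lit 228) (nat_lit 3) (nat_lit 3) (nat_lit 1) (nat_lit 231) (nat_lit 138) (nat_lit 231)))) (PT.nd (nat_lit 62400) (PT.nd (nat_lit 78) (PT.lf (nat_lit 304) (nat_lit 6) (nat_lit 4) (nat_lit 3) (nat_lit 230) (nat_lit 139) (nat_lit 231)) (PT.lf (nat_lit 304) (nat_lit 6) (nat_lit 4) (nat_lit 1) (nat_lit 231) (nat_lit 139) (nat_lit 230))) (PT.nd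 (nat_lit 78) (PT.lf (nat_lit 380) (nat_lit 6) (nat_lit 5) (nat_lit 3) (nat_lit 229) (nat_lit 140) (nat_lit 231)) (PT.lf (nat_lit 456) (nat_lit 3) (nat_lit 6) (nat_lit 1) (nat_lit 230) (nat_lit 140) (nat_lit 230))))) (PT.nd (nat_lit 124800) (PT.nd (nat_lit 62400) (PT.nd (nat_lit 62322) (PT.lf (nat_lit 380) (nat_lit 6) (nat_lit 5) (nat_lit 1) (nat_lit 231) (nat_lit 140) (nat_lit 229)) (PT.lf (nat_lit 532) (nat_lit 6) (nat_lit 7) (nat_lit 3) (nat_lit 229) (nat_lit 141) (nat_lit 230))) (PT.nd (nat_lit 62322) (PT.lf (nat_lit 532) (nat_lit 6) (nat_lit 7) (nat_lit 1) (nat_lit 230) (nat_lit 141) (nat_lit 229)) (PT.lf (nat_lit 608) (nat_lit 6) (nat_lit 8) (nat_lit 3) (nat_lit 228) (nat_lit 142) (nat_lit 230)))) (PT.nd (nat_lit 62400) (PT.nd (nat_lit 78) (PT.lf (nat_lit 684) (nat_lit 3) (nat_lit 9) (nat_lit 1) (nat_lit 229) (nat_lit 142) (nat_lit 229)) (PT.lf (nat_lit 608) (nat_lit 6) (nat_lit 8) (nat_lit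 1) (nat_lit 230) (nat_lit 142) (nat_lit 228))) (PT.nd (nat_lit 78) (PT.lf (nat_lit 760) (nat_lit 6) (nat_lit 10) (nat_lit 3) (nat_lit 228) (nat_lit 143) (nat_lit 229)) (PT.lf (nat_lit 760) (nat_lit 6) (nat_lit 10) (nat_lit 1) (nat_lit 229) (nat_lit 143) (nat_lit 228)))))) (PT.nd (nat_lit 125034) (PT.nd (nat_lit 62478) (PT.nd (nat_lit 78) (PT.lf (nat_lit 836) (nat_lit 6) (nat_lit 11) (nat_lit 3) (nat_lit 227) (nat_lit 144) (nat_lit 229)) (PT.nd (nat_lit 78) (PT.lf (nat_lit 912) (nat_lit 3) (nat_lit 12) (nat_lit 1) (nat_lit 228) (nat_lit 144) (nat_lit 228)) (PT.lf (nat_lit 836) (nat_lit 6) (nat_lit 11) (nat_lit 1) (nat_lit 229) (nat_lit 144) (nat_lit 227)))) (PT.nd (nat_lit 62400) (PT.nd (nat_lit 78) (PT.lf (nat_lit 988) (nat_lit 6) (nat_lit 13) (nat_lit 3) (nat_lit 227) (nat_lit 145) (nat_lit 228)) (PT.lf (nat_lit 988) (nat_lit 6) (nat_lit 13) (nat_lit 1) (nat_lit 228) (nat_lit 145) (nat_lit 227)))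 (PT.nd (nat_lit 78) (PT.lf (nat_lit 1064) (nat_lit 6) (nat_lit 14) (nat_lit 3) (nat_lit 226) (nat_lit 146) (nat_lit 228)) (PT.lf (nat_lit 1140) (nat_lit 3) (nat_lit 15) (nat_lit 1) (nat_lit 227) (nat_lit 146) (nat_lit 227))))) (PT.nd (nat_lit 124800) (PT.nd (nat_lit 62400) (PT.nd (nat_lit 62322) (PT.lf (nat_lit 1064) (nat_lit 6) (nat_lit 14) (nat_lit 1) (nat_lit 228) (nat_lit 146) (nat_lit 226)) (PT.lf (nat_lit 1216) (nat_lit 6) (nat_lit 16) (nat_lit 3) (nat_lit 226) (nat_lit 147) (nat_lit 227))) (PT.nd (nat_lit 62322) (PT.lf (nat_lit 1216) (nat_lit 6) (nat_lit 16) (nat_lit 1) (nat_lit 227) (nat_lit 147) (nat_lit 226)) (PT.lf (nat_lit 1292) (nat_lit 6) (nat_lit 17) (nat_lit 3) (nat_lit 225) (nat_lit 148) (nat_lit 227)))) (PT.nd (nat_lit 62400) (PT.nd (nat_lit 78) (PT.lf (nat_lit 1368) (nat_lit 3) (nat_lit 18) (nat_lit 1) (nat_lit 226) (nat_lit 148) (nat_lit 226)) (PT.lf (nat_lit 1292) (nat_lit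 6) (nat_lit 17) (nat_lit 1) (nat_lit 227) (nat_lit 148) (nat_lit 225))) (PT.nd (nat_lit 78) (PT.lf (nat_lit 1444) (nat_lit 6) (nat_lit 19) (nat_lit 3) (nat_lit 225) (nat_lit 149) (nat_lit 226)) (PT.lf (nat_lit 1444) (nat_lit 6) (nat_lit 19) (nat_lit 1) (nat_lit 226) (nat_lit 149) (nat_lit 225))))))) (PT.nd (nat_lit 374634) (PT.nd (nat_lit 125034) (PT.nd (nat_lit 62478) (PT.nd (nat_lit 78) (PT.lf (nat_lit 1520) (nat_lit 6) (nat_lit 20) (nat_lit 3) (nat_lit 224) (nat_lit 150) (nat_lit 226)) (PT.nd (nat_lit 78) (PT.lf (nat_lit 1596) (nat_lit 3) (nat_lit 21) (nat_lit 1) (nat_lit 225) (nat_lit 150) (nat_lit 225)) (PT.lf (nat_lit 1520) (nat_lit 6) (nat_lit 20) (nat_lit 1) (nat_lit 226) (nat_lit 150) (nat_lit 224)))) (PT.nd (nat_lit 62400) (PT.nd (nat_lit 78) (PT.lf (nat_lit 1672) (nat_lit 6) (nat_lit 22) (nat_lit 3) (nat_lit 224) (nat_lit 151) (nat_lit 225)) (PT.lf (nat_lit 1672) (nat_lit 6) (nat_lit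 22) (nat_lit 1) (nat_lit 225) (nat_lit 151) (nat_lit 224))) (PT.nd (nat_lit 78) (PT.lf (nat_lit 1748) (nat_lit 6) (nat_lit 23) (nat_lit 3) (nat_lit 223) (nat_lit 152) (nat_lit 225)) (PT.lf (nat_lit 1824) (nat_lit 3) (nat_lit 24) (nat_lit 1) (nat_lit 224) (nat_lit 152) (nat_lit 224))))) (PT.nd (nat_lit 124800) (PT.nd (nat_lit 62400) (PT.nd (nat_lit 62322) (PT.lf (nat_lit 1748) (nat_lit 6) (nat_lit 23) (nat_lit 1) (nat_lit 225) (nat_lit 152) (nat_lit 223)) (PT.lf (nat_lit 1900) (nat_lit 6) (nat_lit 25) (nat_lit 3) (nat_lit 223) (nat_lit 153) (nat_lit 224))) (PT.nd (nat_lit 62322) (PT.lf (nat_lit 1900) (nat_lit 6) (nat_lit 25) (nat_lit 1) (nat_lit 224) (nat_lit 153) (nat_lit 223)) (PT.lf (nat_lit 1976) (nat_lit 6) (nat_lit 26) (nat_lit 3) (nat_lit 222) (nat_lit 154) (nat_lit 224)))) (PT.nd (nat_lit 62400) (PT.nd (nat_lit 78) (PT.lf (nat_lit 2052) (nat_lit 3) (nat_lit 27) (nat_lit 1) (nat_lit 223)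 (nat_lit 154) (nat_lit 223)) (PT.lf (nat_lit 1976) (nat_lit 6) (nat_lit 26) (nat_lit 1) (nat_lit 224) (nat_lit 154) (nat_lit 222))) (PT.nd (nat_lit 78) (PT.lf (nat_lit 2128) (nat_lit 6) (nat_lit 28) (nat_lit 3) (nat_lit 222) (nat_lit 155) (nat_lit 223)) (PT.lf (nat_lit 2128) (nat_lit 6) (nat_lit 28) (nat_lit 1) (nat_lit 223) (nat_lit 155) (nat_lit 222)))))) (PT.nd (nat_lit 187356) (PT.nd (nat_lit 62556) (PT.nd (nat_lit 156) (PT.nd (nat_lit 78) (PT.lf (nat_lit 2204) (nat_lit 6) (nat_lit 29) (nat_lit 3) (nat_lit 221) (nat_lit 156) (nat_lit 223)) (PT.lf (nat_lit 2280) (nat_lit 3) (nat_lit 30) (nat_lit 1) (nat_lit 222) (nat_lit 156) (nat_lit 222))) (PT.nd (nat_lit 62322) (PT.lf (nat_lit 2204) (nat_lit 6) (nat_lit 29) (nat_lit 1) (nat_lit 223) (nat_lit 156) (nat_lit 221)) (PT.lf (nat_lit 2356) (nat_lit 6) (nat_lit 31) (nat_lit 3) (nat_lit 221) (nat_lit 157) (nat_lit 222)))) (PT.nd (nat_lit 62400) (PT.nd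 (nat_lit 62322) (PT.lf (nat_lit 2356) (nat_lit 6) (nat_lit 31) (nat_lit 1) (nat_lit 222) (nat_lit 157) (nat_lit 221)) (PT.lf (nat_lit 2432) (nat_lit 6) (nat_lit 32) (nat_lit 3) (nat_lit 220) (nat_lit 158) (nat_lit 222))) (PT.nd (nat_lit 78) (PT.lf (nat_lit 2508) (nat_lit 3) (nat_lit 33) (nat_lit 1) (nat_lit 221) (nat_lit 158) (nat_lit 221)) (PT.lf (nat_lit 2432) (nat_lit 6) (nat_lit 32) (nat_lit 1) (nat_lit 222) (nat_lit 158) (nat_lit 220))))) (PT.nd (nat_lit 62556) (PT.nd (nat_lit 62400) (PT.nd (nat_lit 78) (PT.lf (nat_lit 2584) (nat_lit 6) (nat_lit 34) (nat_lit 3) (nat_lit 220) (nat_lit 159) (nat_lit 221)) (PT.lf (nat_lit 2584) (nat_lit 6) (nat_lit 34) (nat_lit 1) (nat_lit 221) (nat_lit 159) (nat_lit 220))) (PT.nd (nat_lit 78) (PT.lf (nat_lit 2660) (nat_lit 6) (nat_lit 35) (nat_lit 3) (nat_lit 219) (nat_lit 160) (nat_lit 221)) (PT.lf (nat_lit 2736) (nat_lit 3) (nat_lit 36) (nat_lit 1) (nat_lit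 220) (nat_lit 160) (nat_lit 220)))) (PT.nd (nat_lit 62400) (PT.nd (nat_lit 62322) (PT.lf (nat_lit 2660) (nat_lit 6) (nat_lit 35) (nat_lit 1) (nat_lit 221) (nat_lit 160) (nat_lit 219)) (PT.lf (nat_lit 2812) (nat_lit 6) (nat_lit 37) (nat_lit 3) (nat_lit 219) (nat_lit 161) (nat_lit 220))) (PT.nd (nat_lit 62322) (PT.lf (nat_lit 2812) (nat_lit 6) (nat_lit 37) (nat_lit 1) (nat_lit 220) (nat_lit 161) (nat_lit 219)) (PT.lf (nat_lit 2888) (nat_lit 6) (nat_lit 38) (nat_lit 3) (nat_lit 218) (nat_lit 162) (nat_lit 220))))))))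
noncomputable def pc1 : PT := (PT.nd (nat_lit 499668) (PT.nd (nat_lit 249834) (PT.nd (nat_lit 124878) (PT.nd (nat_lit 62400) (PT.nd (nat_lit 78) (PT.lf (nat_lit 2964) (nat_lit 3) (nat_lit 39) (nat_lit 1) (nat_lit 219) (nat_lit 162) (nat_lit 219)) (PT.nd (nat_lit 62244) (PT.lf (nat_lit 2888) (nat_lit 6) (nat_lit 38) (nat_lit 1) (nat_lit 220) (nat_lit 162) (nat_lit 218)) (PT.lf (nat_lit 3040) (nat_lit 6) (nat_lit 40) (nat_lit 3) (nat_lit 217) (nat_lit 163) (nat_lit 220)))) (PT.nd (nat_lit 156) (PT.nd (nat_lit 78) (PT.lf (nat_lit 3116) (nat_lit 6) (nat_lit 41) (nat_lit 3) (nat_lit 218) (nat_lit 163) (nat_lit 219)) (PT.lf (nat_lit 3116) (nat_lit 6) (nat_lit 41) (nat_lit 1) (nat_lit 219) (nat_lit 163) (nat_lit 218))) (PT.nd (nat_lit 62244) (PT.lf (nat_lit 3040) (nat_lit 6) (nat_lit 40) (nat_lit 1) (nat_lit 220) (nat_lit 163) (nat_lit 217)) (PT.lf (nat_lit 3192) (nat_lit 6) (nat_lit 42) (nat_lit 3)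 (nat_lit 217) (nat_lit 164) (nat_lit 219))))) (PT.nd (nat_lit 62478) (PT.nd (nat_lit 62322) (PT.nd (nat_lit 78) (PT.lf (nat_lit 3268) (nat_lit 3) (nat_lit 43) (nat_lit 1) (nat_lit 218) (nat_lit 164) (nat_lit 218)) (PT.lf (nat_lit 3192) (nat_lit 6) (nat_lit 42) (nat_lit 1) (nat_lit 219) (nat_lit 164) (nat_lit 217))) (PT.nd (nat_lit 78) (PT.lf (nat_lit 3344) (nat_lit 6) (nat_lit 44) (nat_lit 3) (nat_lit 216) (nat_lit 165) (nat_lit 219)) (PT.lf (nat_lit 3420) (nat_lit 6) (nat_lit 45) (nat_lit 3) (nat_lit 217) (nat_lit 165) (nat_lit 218)))) (PT.nd (nat_lit 62322) (PT.nd (nat_lit 78) (PT.lf (nat_lit 3420) (nat_lit 6) (nat_lit 45) (nat_lit 1) (nat_lit 218) (nat_lit 165) (nat_lit 217)) (PT.lf (nat_lit 3344) (nat_lit 6) (nat_lit 44) (nat_lit 1) (nat_lit 219) (nat_lit 165) (nat_lit 216))) (PT.nd (nat_lit 78) (PT.lf (nat_lit 3496) (nat_lit 6) (nat_lit 46) (nat_lit 3) (nat_lit 216) (nat_lit 166) (nat_lit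 218)) (PT.lf (nat_lit 3572) (nat_lit 3) (nat_lit 47) (nat_lit 1) (nat_lit 217) (nat_lit 166) (nat_lit 217)))))) (PT.nd (nat_lit 187122) (PT.nd (nat_lit 62478) (PT.nd (nat_lit 62322) (PT.nd (nat_lit 62244) (PT.lf (nat_lit 3496) (nat_lit 6) (nat_lit 46) (nat_lit 1) (nat_lit 218) (nat_lit 166) (nat_lit 216)) (PT.lf (nat_lit 3648) (nat_lit 6) (nat_lit 48) (nat_lit 3) (nat_lit 215) (nat_lit 167) (nat_lit 218))) (PT.nd (nat_lit 78) (PT.lf (nat_lit 3724) (nat_lit 6) (nat_lit 49) (nat_lit 3) (nat_lit 216) (nat_lit 167) (nat_lit 217)) (PT.lf (nat_lit 3724) (nat_lit 6) (nat_lit 49) (nat_lit 1) (nat_lit 217) (nat_lit 167) (nat_lit 216)))) (PT.nd (nat_lit 62322) (PT.nd (nat_lit 62244) (PT.lf (nat_lit 3648) (nat_lit 6) (nat_lit 48) (nat_lit 1) (nat_lit 218) (nat_lit 167) (nat_lit 215)) (PT.lf (nat_lit 3800) (nat_lit 6) (nat_lit 50) (nat_lit 3) (nat_lit 215) (nat_lit 168) (nat_lit 217))) (PT.nd (nat_lit 78)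 (PT.lf (nat_lit 3876) (nat_lit 3) (nat_lit 51) (nat_lit 1) (nat_lit 216) (nat_lit 168) (nat_lit 216)) (PT.lf (nat_lit 3800) (nat_lit 6) (nat_lit 50) (nat_lit 1) (nat_lit 217) (nat_lit 168) (nat_lit 215))))) (PT.nd (nat_lit 62400) (PT.nd (nat_lit 156) (PT.nd (nat_lit 78) (PT.lf (nat_lit 3952) (nat_lit 6) (nat_lit 52) (nat_lit 3) (nat_lit 214) (nat_lit 169) (nat_lit 217)) (PT.lf (nat_lit 4028) (nat_lit 6) (nat_lit 53) (nat_lit 3) (nat_lit 215) (nat_lit 169) (nat_lit 216))) (PT.nd (nat_lit 78) (PT.lf (nat_lit 4028) (nat_lit 6) (nat_lit 53) (nat_lit 1) (nat_lit 216) (nat_lit 169) (nat_lit 215)) (PT.lf (nat_lit 3952) (nat_lit 6) (nat_lit 52) (nat_lit 1) (nat_lit 217) (nat_lit 169) (nat_lit 214)))) (PT.nd (nat_lit 156) (PT.nd (nat_lit 78) (PT.lf (nat_lit 4104) (nat_lit 6) (nat_lit 54) (nat_lit 3) (nat_lit 213) (nat_lit 170) (nat_lit 217)) (PT.lf (nat_lit 4180) (nat_lit 6) (nat_lit 55) (nat_lit 3) (nat_lit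 214) (nat_lit 170) (nat_lit 216))) (PT.nd (nat_lit 78) (PT.lf (nat_lit 4256) (nat_lit 3) (nat_lit 56) (nat_lit 1) (nat_lit 215) (nat_lit 170) (nat_lit 215)) (PT.lf (nat_lit 4180) (nat_lit 6) (nat_lit 55) (nat_lit 1) (nat_lit 216) (nat_lit 170) (nat_lit 214))))))) (PT.nd (nat_lit 249522) (PT.nd (nat_lit 124722) (PT.nd (nat_lit 62322) (PT.nd (nat_lit 62166) (PT.lf (nat_lit 4104) (nat_lit 6) (nat_lit 54) (nat_lit 1) (nat_lit 217) (nat_lit 170) (nat_lit 213)) (PT.nd (nat_lit 78) (PT.lf (nat_lit 4332) (nat_lit 6) (nat_lit 57) (nat_lit 3) (nat_lit 213) (nat_lit 171) (nat_lit 216)) (PT.lf (nat_lit 4408) (nat_lit 6) (nat_lit 58) (nat_lit 3) (nat_lit 214) (nat_lit 171) (nat_lit 215)))) (PT.nd (nat_lit 62244) (PT.nd (nat_lit 78) (PT.lf (nat_lit 4408) (nat_lit 6) (nat_lit 58) (nat_lit 1) (nat_lit 215) (nat_lit 171) (nat_lit 214)) (PT.lf (nat_lit 4332) (nat_lit 6) (nat_lit 57) (nat_lit 1) (nat_lit 216) (nat_lit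 171) (nat_lit 213))) (PT.nd (nat_lit 78) (PT.lf (nat_lit 4484) (nat_lit 6) (nat_lit 59) (nat_lit 3) (nat_lit 212) (nat_lit 172) (nat_lit 216)) (PT.lf (nat_lit 4560) (nat_lit 6) (nat_lit 60) (nat_lit 3) (nat_lit 213) (nat_lit 172) (nat_lit 215))))) (PT.nd (nat_lit 62400) (PT.nd (nat_lit 156) (PT.nd (nat_lit 78) (PT.lf (nat_lit 4636) (nat_lit 3) (nat_lit 61) (nat_lit 1) (nat_lit 214) (nat_lit 172) (nat_lit 214)) (PT.lf (nat_lit 4560) (nat_lit 6) (nat_lit 60) (nat_lit 1) (nat_lit 215) (nat_lit 172) (nat_lit 213))) (PT.nd (nat_lit 62166) (PT.lf (nat_lit 4484) (nat_lit 6) (nat_lit 59) (nat_lit 1) (nat_lit 216) (nat_lit 172) (nat_lit 212)) (PT.lf (nat_lit 4712) (nat_lit 6) (nat_lit 62) (nat_lit 3) (nat_lit 212) (nat_lit 173) (nat_lit 215)))) (PT.nd (nat_lit 156) (PT.nd (nat_lit 78) (PT.lf (nat_lit 4788) (nat_lit 6) (nat_lit 63) (nat_lit 3) (nat_lit 213) (nat_lit 173) (nat_lit 214)) (PT.lf (nat_lit 4788)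 (nat_lit 6) (nat_lit 63) (nat_lit 1) (nat_lit 214) (nat_lit 173) (nat_lit 213))) (PT.nd (nat_lit 62166) (PT.lf (nat_lit 4712) (nat_lit 6) (nat_lit 62) (nat_lit 1) (nat_lit 215) (nat_lit 173) (nat_lit 212)) (PT.lf (nat_lit 4864) (nat_lit 6) (nat_lit 64) (nat_lit 3) (nat_lit 211) (nat_lit 174) (nat_lit 215)))))) (PT.nd (nat_lit 124800) (PT.nd (nat_lit 62400) (PT.nd (nat_lit 156) (PT.nd (nat_lit 78) (PT.lf (nat_lit 4940) (nat_lit 6) (nat_lit 65) (nat_lit 3) (nat_lit 212) (nat_lit 174) (nat_lit 214)) (PT.lf (nat_lit 5016) (nat_lit 3) (nat_lit 66) (nat_lit 1) (nat_lit 213) (nat_lit 174) (nat_lit 213))) (PT.nd (nat_lit 78) (PT.lf (nat_lit 4940) (nat_lit 6) (nat_lit 65) (nat_lit 1) (nat_lit 214) (nat_lit 174) (nat_lit 212)) (PT.lf (nat_lit 4864) (nat_lit 6) (nat_lit 64) (nat_lit 1) (nat_lit 215) (nat_lit 174) (nat_lit 211)))) (PT.nd (nat_lit 156) (PT.nd (nat_lit 78) (PT.lf (nat_lit 5092) (nat_lit 6)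 (nat_lit 67) (nat_lit 3) (nat_lit 211) (nat_lit 175) (nat_lit 214)) (PT.lf (nat_lit 5168) (nat_lit 6) (nat_lit 68) (nat_lit 3) (nat_lit 212) (nat_lit 175) (nat_lit 213))) (PT.nd (nat_lit 78) (PT.lf (nat_lit 5168) (nat_lit 6) (nat_lit 68) (nat_lit 1) (nat_lit 213) (nat_lit 175) (nat_lit 212)) (PT.lf (nat_lit 5092) (nat_lit 6) (nat_lit 67) (nat_lit 1) (nat_lit 214) (nat_lit 175) (nat_lit 211))))) (PT.nd (nat_lit 312) (PT.nd (nat_lit 156) (PT.nd (nat_lit 78) (PT.lf (nat_lit 5244) (nat_lit 6) (nat_lit 69) (nat_lit 3) (nat_lit 210) (nat_lit 176) (nat_lit 214)) (PT.lf (nat_lit 5320) (nat_lit 6) (nat_lit 70) (nat_lit 3) (nat_lit 211) (nat_lit 176) (nat_lit 213))) (PT.nd (nat_lit 78) (PT.lf (nat_lit 5396) (nat_lit 3) (nat_lit 71) (nat_lit 1) (nat_lit 212) (nat_lit 176) (nat_lit 212)) (PT.lf (nat_lit 5320) (nat_lit 6) (nat_lit 70) (nat_lit 1) (nat_lit 213) (nat_lit 176) (nat_lit 211)))) (PT.nd (nat_lit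 62166) (PT.nd (nat_lit 62088) (PT.lf (nat_lit 5244) (nat_lit 6) (nat_lit 69) (nat_lit 1) (nat_lit 214) (nat_lit 176) (nat_lit 210)) (PT.lf (nat_lit 5472) (nat_lit 6) (nat_lit 72) (nat_lit 3) (nat_lit 209) (nat_lit 177) (nat_lit 214))) (PT.nd (nat_lit 78) (PT.lf (nat_lit 5548) (nat_lit 6) (nat_lit 73) (nat_lit 3) (nat_lit 210) (nat_lit 177) (nat_lit 213)) (PT.lf (nat_lit 5624) (nat_lit 6) (nat_lit 74) (nat_lit 3) (nat_lit 211) (nat_lit 177) (nat_lit 212))))))))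
noncomputable def pc2 : PT := (PT.nd (nat_lit 312234) (PT.nd (nat_lit 187122) (PT.nd (nat_lit 62556) (PT.nd (nat_lit 62244) (PT.nd (nat_lit 78) (PT.lf (nat_lit 5624) (nat_lit 6) (nat_lit 74) (nat_lit 1) (nat_lit 212) (nat_lit 177) (nat_lit 211)) (PT.nd (nat_lit 78) (PT.lf (nat_lit 5548) (nat_lit 6) (nat_lit 73) (nat_lit 1) (nat_lit 213) (nat_lit 177) (nat_lit 210)) (PT.lf (nat_lit 5472) (nat_lit 6) (nat_lit 72) (nat_lit 1) (nat_lit 214) (nat_lit 177) (nat_lit 209)))) (PT.nd (nat_lit 156) (PT.nd (nat_lit 78) (PT.lf (nat_lit 5700) (nat_lit 6) (nat_lit 75) (nat_lit 3) (nat_lit 209) (nat_lit 178) (nat_lit 213)) (PT.lf (nat_lit 5776) (nat_lit 6) (nat_lit 76) (nat_lit 3) (nat_lit 210) (nat_lit 178) (nat_lit 212))) (PT.nd (nat_lit 78) (PT.lf (nat_lit 5852) (nat_lit 3) (nat_lit 77) (nat_lit 1) (nat_lit 211) (nat_lit 178) (nat_lit 211)) (PT.lf (nat_lit 5776) (nat_lit 6) (nat_lit 76) (nat_lit 1) (nat_lit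 212) (nat_lit 178) (nat_lit 210))))) (PT.nd (nat_lit 62322) (PT.nd (nat_lit 62166) (PT.nd (nat_lit 62088) (PT.lf (nat_lit 5700) (nat_lit 6) (nat_lit 75) (nat_lit 1) (nat_lit 213) (nat_lit 178) (nat_lit 209)) (PT.lf (nat_lit 5928) (nat_lit 6) (nat_lit 78) (nat_lit 3) (nat_lit 208) (nat_lit 179) (nat_lit 213))) (PT.nd (nat_lit 78) (PT.lf (nat_lit 6004) (nat_lit 6) (nat_lit 79) (nat_lit 3) (nat_lit 209) (nat_lit 179) (nat_lit 212)) (PT.lf (nat_lit 6080) (nat_lit 6) (nat_lit 80) (nat_lit 3) (nat_lit 210) (nat_lit 179) (nat_lit 211)))) (PT.nd (nat_lit 156) (PT.nd (nat_lit 78) (PT.lf (nat_lit 6080) (nat_lit 6) (nat_lit 80) (nat_lit 1) (nat_lit 211) (nat_lit 179) (nat_lit 210)) (PT.lf (nat_lit 6004) (nat_lit 6) (nat_lit 79) (nat_lit 1) (nat_lit 212) (nat_lit 179) (nat_lit 209))) (PT.nd (nat_lit 62010) (PT.lf (nat_lit 5928) (nat_lit 6) (nat_lit 78) (nat_lit 1) (nat_lit 213) (nat_lit 179) (nat_lit 208))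 (PT.lf (nat_lit 6156) (nat_lit 6) (nat_lit 81) (nat_lit 3) (nat_lit 207) (nat_lit 180) (nat_lit 213)))))) (PT.nd (nat_lit 62556) (PT.nd (nat_lit 312) (PT.nd (nat_lit 156) (PT.nd (nat_lit 78) (PT.lf (nat_lit 6232) (nat_lit 6) (nat_lit 82) (nat_lit 3) (nat_lit 208) (nat_lit 180) (nat_lit 212)) (PT.lf (nat_lit 6308) (nat_lit 6) (nat_lit 83) (nat_lit 3) (nat_lit 209) (nat_lit 180) (nat_lit 211))) (PT.nd (nat_lit 78) (PT.lf (nat_lit 6384) (nat_lit 3) (nat_lit 84) (nat_lit 1) (nat_lit 210) (nat_lit 180) (nat_lit 210)) (PT.lf (nat_lit 6308) (nat_lit 6) (nat_lit 83) (nat_lit 1) (nat_lit 211) (nat_lit 180) (nat_lit 209)))) (PT.nd (nat_lit 62088) (PT.nd (nat_lit 78) (PT.lf (nat_lit 6232) (nat_lit 6) (nat_lit 82) (nat_lit 1) (nat_lit 212) (nat_lit 180) (nat_lit 208)) (PT.lf (nat_lit 6156) (nat_lit 6) (nat_lit 81) (nat_lit 1) (nat_lit 213) (nat_lit 180) (nat_lit 207))) (PT.nd (nat_lit 78) (PT.lf (nat_lit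 6460) (nat_lit 6) (nat_lit 85) (nat_lit 3) (nat_lit 207) (nat_lit 181) (nat_lit 212)) (PT.lf (nat_lit 6536) (nat_lit 6) (nat_lit 86) (nat_lit 3) (nat_lit 208) (nat_lit 181) (nat_lit 211))))) (PT.nd (nat_lit 62244) (PT.nd (nat_lit 156) (PT.nd (nat_lit 78) (PT.lf (nat_lit 6612) (nat_lit 6) (nat_lit 87) (nat_lit 3) (nat_lit 209) (nat_lit 181) (nat_lit 210)) (PT.lf (nat_lit 6612) (nat_lit 6) (nat_lit 87) (nat_lit 1) (nat_lit 210) (nat_lit 181) (nat_lit 209))) (PT.nd (nat_lit 78) (PT.lf (nat_lit 6536) (nat_lit 6) (nat_lit 86) (nat_lit 1) (nat_lit 211) (nat_lit 181) (nat_lit 208)) (PT.lf (nat_lit 6460) (nat_lit 6) (nat_lit 85) (nat_lit 1) (nat_lit 212) (nat_lit 181) (nat_lit 207)))) (PT.nd (nat_lit 156) (PT.nd (nat_lit 78) (PT.lf (nat_lit 6688) (nat_lit 6) (nat_lit 88) (nat_lit 3) (nat_lit 206) (nat_lit 182) (nat_lit 212)) (PT.lf (nat_lit 6764) (nat_lit 6) (nat_lit 89) (nat_lit 3) (nat_lit 207) (nat_lit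 182) (nat_lit 211))) (PT.nd (nat_lit 78) (PT.lf (nat_lit 6840) (nat_lit 6) (nat_lit 90) (nat_lit 3) (nat_lit 208) (nat_lit 182) (nat_lit 210)) (PT.lf (nat_lit 6916) (nat_lit 3) (nat_lit 91) (nat_lit 1) (nat_lit 209) (nat_lit 182) (nat_lit 209))))))) (PT.nd (nat_lit 124878) (PT.nd (nat_lit 62400) (PT.nd (nat_lit 62088) (PT.nd (nat_lit 78) (PT.lf (nat_lit 6840) (nat_lit 6) (nat_lit 90) (nat_lit 1) (nat_lit 210) (nat_lit 182) (nat_lit 208)) (PT.nd (nat_lit 78) (PT.lf (nat_lit 6764) (nat_lit 6) (nat_lit 89) (nat_lit 1) (nat_lit 211) (nat_lit 182) (nat_lit 207)) (PT.lf (nat_lit 6688) (nat_lit 6) (nat_lit 88) (nat_lit 1) (nat_lit 212) (nat_lit 182) (nat_lit 206)))) (PT.nd (nat_lit 156) (PT.nd (nat_lit 78) (PT.lf (nat_lit 6992) (nat_lit 6) (nat_lit 92) (nat_lit 3) (nat_lit 205) (nat_lit 183) (nat_lit 212)) (PT.lf (nat_lit 7068) (nat_lit 6) (nat_lit 93) (nat_lit 3) (nat_lit 206) (nat_lit 183) (nat_lit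 211))) (PT.nd (nat_lit 78) (PT.lf (nat_lit 7144) (nat_lit 6) (nat_lit 94) (nat_lit 3) (nat_lit 207) (nat_lit 183) (nat_lit 210)) (PT.lf (nat_lit 7220) (nat_lit 6) (nat_lit 95) (nat_lit 3) (nat_lit 208) (nat_lit 183) (nat_lit 209))))) (PT.nd (nat_lit 62166) (PT.nd (nat_lit 156) (PT.nd (nat_lit 78) (PT.lf (nat_lit 7220) (nat_lit 6) (nat_lit 95) (nat_lit 1) (nat_lit 209) (nat_lit 183) (nat_lit 208)) (PT.lf (nat_lit 7144) (nat_lit 6) (nat_lit 94) (nat_lit 1) (nat_lit 210) (nat_lit 183) (nat_lit 207))) (PT.nd (nat_lit 78) (PT.lf (nat_lit 7068) (nat_lit 6) (nat_lit 93) (nat_lit 1) (nat_lit 211) (nat_lit 183) (nat_lit 206)) (PT.lf (nat_lit 6992) (nat_lit 6) (nat_lit 92) (nat_lit 1) (nat_lit 212) (nat_lit 183) (nat_lit 205)))) (PT.nd (nat_lit 156) (PT.nd (nat_lit 78) (PT.lf (nat_lit 7296) (nat_lit 6) (nat_lit 96) (nat_lit 3) (nat_lit 205) (nat_lit 184) (nat_lit 211)) (PT.lf (nat_lit 7372) (nat_lit 6)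 (nat_lit 97) (nat_lit 3) (nat_lit 206) (nat_lit 184) (nat_lit 210))) (PT.nd (nat_lit 78) (PT.lf (nat_lit 7448) (nat_lit 6) (nat_lit 98) (nat_lit 3) (nat_lit 207) (nat_lit 184) (nat_lit 209)) (PT.lf (nat_lit 7524) (nat_lit 3) (nat_lit 99) (nat_lit 1) (nat_lit 208) (nat_lit 184) (nat_lit 208)))))) (PT.nd (nat_lit 62478) (PT.nd (nat_lit 62166) (PT.nd (nat_lit 156) (PT.nd (nat_lit 78) (PT.lf (nat_lit 7448) (nat_lit 6) (nat_lit 98) (nat_lit 1) (nat_lit 209) (nat_lit 184) (nat_lit 207)) (PT.lf (nat_lit 7372) (nat_lit 6) (nat_lit 97) (nat_lit 1) (nat_lit 210) (nat_lit 184) (nat_lit 206))) (PT.nd (nat_lit 61932) (PT.lf (nat_lit 7296) (nat_lit 6) (nat_lit 96) (nat_lit 1) (nat_lit 211) (nat_lit 184) (nat_lit 205)) (PT.lf (nat_lit 7600) (nat_lit 6) (nat_lit 100) (nat_lit 3) (nat_lit 204) (nat_lit 185) (nat_lit 211)))) (PT.nd (nat_lit 156) (PT.nd (nat_lit 78) (PT.lf (nat_lit 7676) (nat_lit 6) (nat_lit 101)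 (nat_lit 3) (nat_lit 205) (nat_lit 185) (nat_lit 210)) (PT.lf (nat_lit 7752) (nat_lit 6) (nat_lit 102) (nat_lit 3) (nat_lit 206) (nat_lit 185) (nat_lit 209))) (PT.nd (nat_lit 78) (PT.lf (nat_lit 7828) (nat_lit 6) (nat_lit 103) (nat_lit 3) (nat_lit 207) (nat_lit 185) (nat_lit 208)) (PT.lf (nat_lit 7828) (nat_lit 6) (nat_lit 103) (nat_lit 1) (nat_lit 208) (nat_lit 185) (nat_lit 207))))) (PT.nd (nat_lit 62088) (PT.nd (nat_lit 156) (PT.nd (nat_lit 78) (PT.lf (nat_lit 7752) (nat_lit 6) (nat_lit 102) (nat_lit 1) (nat_lit 209) (nat_lit 185) (nat_lit 206)) (PT.lf (nat_lit 7676) (nat_lit 6) (nat_lit 101) (nat_lit 1) (nat_lit 210) (nat_lit 185) (nat_lit 205))) (PT.nd (nat_lit 61854) (PT.lf (nat_lit 7600) (nat_lit 6) (nat_lit 100) (nat_lit 1) (nat_lit 211) (nat_lit 185) (nat_lit 204)) (PT.lf (nat_lit 7904) (nat_lit 6) (nat_lit 104) (nat_lit 3) (nat_lit 203) (nat_lit 186) (nat_lit 211)))) (PT.nd (nat_lit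 156) (PT.nd (nat_lit 78) (PT.lf (nat_lit 7980) (nat_lit 6) (nat_lit 105) (nat_lit 3) (nat_lit 204) (nat_lit 186) (nat_lit 210)) (PT.lf (nat_lit 8056) (nat_lit 6) (nat_lit 106) (nat_lit 3) (nat_lit 205) (nat_lit 186) (nat_lit 209))) (PT.nd (nat_lit 78) (PT.lf (nat_lit 8132) (nat_lit 6) (nat_lit 107) (nat_lit 3) (nat_lit 206) (nat_lit 186) (nat_lit 208)) (PT.lf (nat_lit 8208) (nat_lit 3) (nat_lit 108) (nat_lit 1) (nat_lit 207) (nat_lit 186) (nat_lit 207))))))))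
noncomputable def pc3 : PT := (PT.nd (nat_lit 187356) (PT.nd (nat_lit 124488) (PT.nd (nat_lit 62244) (PT.nd (nat_lit 234) (PT.nd (nat_lit 78) (PT.lf (nat_lit 8132) (nat_lit 6) (nat_lit 107) (nat_lit 1) (nat_lit 208) (nat_lit 186) (nat_lit 206)) (PT.nd (nat_lit 78) (PT.lf (nat_lit 8056) (nat_lit 6) (nat_lit 106) (nat_lit 1) (nat_lit 209) (nat_lit 186) (nat_lit 205)) (PT.lf (nat_lit 7980) (nat_lit 6) (nat_lit 105) (nat_lit 1) (nat_lit 210) (nat_lit 186) (nat_lit 204)))) (PT.nd (nat_lit 61854) (PT.nd (nat_lit 61776) (PT.lf (nat_lit 7904) (nat_lit 6) (nat_lit 104) (nat_lit 1) (nat_lit 211) (nat_lit 186) (nat_lit 203)) (PT.lf (nat_lit 8284) (nat_lit 6) (nat_lit 109) (nat_lit 3) (nat_lit 202) (nat_lit 187) (nat_lit 211))) (PT.nd (nat_lit 78) (PT.lf (nat_lit 8360) (nat_lit 6) (nat_lit 110) (nat_lit 3) (nat_lit 203) (nat_lit 187) (nat_lit 210)) (PT.lf (nat_lit 8436) (nat_lit 6) (nat_lit 111) (nat_lit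 3) (nat_lit 204) (nat_lit 187) (nat_lit 209))))) (PT.nd (nat_lit 312) (PT.nd (nat_lit 156) (PT.nd (nat_lit 78) (PT.lf (nat_lit 8512) (nat_lit 6) (nat_lit 112) (nat_lit 3) (nat_lit 205) (nat_lit 187) (nat_lit 208)) (PT.lf (nat_lit 8588) (nat_lit 6) (nat_lit 113) (nat_lit 3) (nat_lit 206) (nat_lit 187) (nat_lit 207))) (PT.nd (nat_lit 78) (PT.lf (nat_lit 8588) (nat_lit 6) (nat_lit 113) (nat_lit 1) (nat_lit 207) (nat_lit 187) (nat_lit 206)) (PT.lf (nat_lit 8512) (nat_lit 6) (nat_lit 112) (nat_lit 1) (nat_lit 208) (nat_lit 187) (nat_lit 205)))) (PT.nd (nat_lit 156) (PT.nd (nat_lit 78) (PT.lf (nat_lit 8436) (nat_lit 6) (nat_lit 111) (nat_lit 1) (nat_lit 209) (nat_lit 187) (nat_lit 204)) (PT.lf (nat_lit 8360) (nat_lit 6) (nat_lit 110) (nat_lit 1) (nat_lit 210) (nat_lit 187) (nat_lit 203))) (PT.nd (nat_lit 61698) (PT.lf (nat_lit 8284) (nat_lit 6) (nat_lit 109) (nat_lit 1) (nat_lit 211) (nat_lit 187) (nat_lit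 202)) (PT.lf (nat_lit 8664) (nat_lit 6) (nat_lit 114) (nat_lit 3) (nat_lit 201) (nat_lit 188) (nat_lit 211)))))) (PT.nd (nat_lit 624) (PT.nd (nat_lit 312) (PT.nd (nat_lit 156) (PT.nd (nat_lit 78) (PT.lf (nat_lit 8740) (nat_lit 6) (nat_lit 115) (nat_lit 3) (nat_lit 202) (nat_lit 188) (nat_lit 210)) (PT.lf (nat_lit 8816) (nat_lit 6) (nat_lit 116) (nat_lit 3) (nat_lit 203) (nat_lit 188) (nat_lit 209))) (PT.nd (nat_lit 78) (PT.lf (nat_lit 8892) (nat_lit 6) (nat_lit 117) (nat_lit 3) (nat_lit 204) (nat_lit 188) (nat_lit 208)) (PT.lf (nat_lit 8968) (nat_lit 6) (nat_lit 118) (nat_lit 3) (nat_lit 205) (nat_lit 188) (nat_lit 207)))) (PT.nd (nat_lit 156) (PT.nd (nat_lit 78) (PT.lf (nat_lit 9044) (nat_lit 3) (nat_lit 119) (nat_lit 1) (nat_lit 206) (nat_lit 188) (nat_lit 206)) (PT.lf (nat_lit 8968) (nat_lit 6) (nat_lit 118) (nat_lit 1) (nat_lit 207) (nat_lit 188) (nat_lit 205))) (PT.nd (nat_lit 78) (PT.lf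 (nat_lit 8892) (nat_lit 6) (nat_lit 117) (nat_lit 1) (nat_lit 208) (nat_lit 188) (nat_lit 204)) (PT.lf (nat_lit 8816) (nat_lit 6) (nat_lit 116) (nat_lit 1) (nat_lit 209) (nat_lit 188) (nat_lit 203))))) (PT.nd (nat_lit 61932) (PT.nd (nat_lit 61776) (PT.nd (nat_lit 78) (PT.lf (nat_lit 8740) (nat_lit 6) (nat_lit 115) (nat_lit 1) (nat_lit 210) (nat_lit 188) (nat_lit 202)) (PT.lf (nat_lit 8664) (nat_lit 6) (nat_lit 114) (nat_lit 1) (nat_lit 211) (nat_lit 188) (nat_lit 201))) (PT.nd (nat_lit 78) (PT.lf (nat_lit 9120) (nat_lit 6) (nat_lit 120) (nat_lit 3) (nat_lit 201) (nat_lit 189) (nat_lit 210)) (PT.lf (nat_lit 9196) (nat_lit 6) (nat_lit 121) (nat_lit 3) (nat_lit 202) (nat_lit 189) (nat_lit 209)))) (PT.nd (nat_lit 156) (PT.nd (nat_lit 78) (PT.lf (nat_lit 9272) (nat_lit 6) (nat_lit 122) (nat_lit 3) (nat_lit 203) (nat_lit 189) (nat_lit 208)) (PT.lf (nat_lit 9348) (nat_lit 6) (nat_lit 123) (nat_lit 3)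 (nat_lit 204) (nat_lit 189) (nat_lit 207))) (PT.nd (nat_lit 78) (PT.lf (nat_lit 9424) (nat_lit 6) (nat_lit 124) (nat_lit 3) (nat_lit 205) (nat_lit 189) (nat_lit 206)) (PT.lf (nat_lit 9424) (nat_lit 6) (nat_lit 124) (nat_lit 1) (nat_lit 206) (nat_lit 189) (nat_lit 205))))))) (PT.nd (nat_lit 124332) (PT.nd (nat_lit 62166) (PT.nd (nat_lit 234) (PT.nd (nat_lit 78) (PT.lf (nat_lit 9348) (nat_lit 6) (nat_lit 123) (nat_lit 1) (nat_lit 207) (nat_lit 189) (nat_lit 204)) (PT.nd (nat_lit 78) (PT.lf (nat_lit 9272) (nat_lit 6) (nat_lit 122) (nat_lit 1) (nat_lit 208) (nat_lit 189) (nat_lit 203)) (PT.lf (nat_lit 9196) (nat_lit 6) (nat_lit 121) (nat_lit 1) (nat_lit 209) (nat_lit 189) (nat_lit 202)))) (PT.nd (nat_lit 61776) (PT.nd (nat_lit 61698) (PT.lf (nat_lit 9120) (nat_lit 6) (nat_lit 120) (nat_lit 1) (nat_lit 210) (nat_lit 189) (nat_lit 201)) (PT.lf (nat_lit 9880) (nat_lit 6) (nat_lit 130) (nat_lit 3) (nat_lit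 200) (nat_lit 190) (nat_lit 210))) (PT.nd (nat_lit 78) (PT.lf (nat_lit 9956) (nat_lit 6) (nat_lit 131) (nat_lit 3) (nat_lit 201) (nat_lit 190) (nat_lit 209)) (PT.lf (nat_lit 10032) (nat_lit 6) (nat_lit 132) (nat_lit 3) (nat_lit 202) (nat_lit 190) (nat_lit 208))))) (PT.nd (nat_lit 312) (PT.nd (nat_lit 156) (PT.nd (nat_lit 78) (PT.lf (nat_lit 10108) (nat_lit 6) (nat_lit 133) (nat_lit 3) (nat_lit 203) (nat_lit 190) (nat_lit 207)) (PT.lf (nat_lit 10184) (nat_lit 6) (nat_lit 134) (nat_lit 3) (nat_lit 204) (nat_lit 190) (nat_lit 206))) (PT.nd (nat_lit 78) (PT.lf (nat_lit 10260) (nat_lit 3) (nat_lit 135) (nat_lit 1) (nat_lit 205) (nat_lit 190) (nat_lit 205)) (PT.lf (nat_lit 10184) (nat_lit 6) (nat_lit 134) (nat_lit 1) (nat_lit 206) (nat_lit 190) (nat_lit 204)))) (PT.nd (nat_lit 156) (PT.nd (nat_lit 78) (PT.lf (nat_lit 10108) (nat_lit 6) (nat_lit 133) (nat_lit 1) (nat_lit 207) (nat_lit 190) (nat_lit 203))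 (PT.lf (nat_lit 10032) (nat_lit 6) (nat_lit 132) (nat_lit 1) (nat_lit 208) (nat_lit 190) (nat_lit 202))) (PT.nd (nat_lit 78) (PT.lf (nat_lit 9956) (nat_lit 6) (nat_lit 131) (nat_lit 1) (nat_lit 209) (nat_lit 190) (nat_lit 201)) (PT.lf (nat_lit 9880) (nat_lit 6) (nat_lit 130) (nat_lit 1) (nat_lit 210) (nat_lit 190) (nat_lit 200)))))) (PT.nd (nat_lit 624) (PT.nd (nat_lit 312) (PT.nd (nat_lit 156) (PT.nd (nat_lit 78) (PT.lf (nat_lit 9804) (nat_lit 6) (nat_lit 129) (nat_lit 3) (nat_lit 199) (nat_lit 191) (nat_lit 210)) (PT.lf (nat_lit 10640) (nat_lit 6) (nat_lit 140) (nat_lit 3) (nat_lit 200) (nat_lit 191) (nat_lit 209))) (PT.nd (nat_lit 78) (PT.lf (nat_lit 10716) (nat_lit 6) (nat_lit 141) (nat_lit 3) (nat_lit 201) (nat_lit 191) (nat_lit 208)) (PT.lf (nat_lit 10792) (nat_lit 6) (nat_lit 142) (nat_lit 3) (nat_lit 202) (nat_lit 191) (nat_lit 207)))) (PT.nd (nat_lit 156) (PT.nd (nat_lit 78) (PT.lf (nat_lit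 10868) (nat_lit 6) (nat_lit 143) (nat_lit 3) (nat_lit 203) (nat_lit 191) (nat_lit 206)) (PT.lf (nat_lit 10944) (nat_lit 6) (nat_lit 144) (nat_lit 3) (nat_lit 204) (nat_lit 191) (nat_lit 205))) (PT.nd (nat_lit 78) (PT.lf (nat_lit 10944) (nat_lit 6) (nat_lit 144) (nat_lit 1) (nat_lit 205) (nat_lit 191) (nat_lit 204)) (PT.lf (nat_lit 10868) (nat_lit 6) (nat_lit 143) (nat_lit 1) (nat_lit 206) (nat_lit 191) (nat_lit 203))))) (PT.nd (nat_lit 61776) (PT.nd (nat_lit 156) (PT.nd (nat_lit 78) (PT.lf (nat_lit 10792) (nat_lit 6) (nat_lit 142) (nat_lit 1) (nat_lit 207) (nat_lit 191) (nat_lit 202)) (PT.lf (nat_lit 10716) (nat_lit 6) (nat_lit 141) (nat_lit 1) (nat_lit 208) (nat_lit 191) (nat_lit 201))) (PT.nd (nat_lit 78) (PT.lf (nat_lit 10640) (nat_lit 6) (nat_lit 140) (nat_lit 1) (nat_lit 209) (nat_lit 191) (nat_lit 200)) (PT.lf (nat_lit 9804) (nat_lit 6) (nat_lit 129) (nat_lit 1) (nat_lit 210) (nat_lit 191)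 (nat_lit 199)))) (PT.nd (nat_lit 156) (PT.nd (nat_lit 78) (PT.lf (nat_lit 9728) (nat_lit 6) (nat_lit 128) (nat_lit 3) (nat_lit 198) (nat_lit 192) (nat_lit 210)) (PT.lf (nat_lit 10564) (nat_lit 6) (nat_lit 139) (nat_lit 3) (nat_lit 199) (nat_lit 192) (nat_lit 209))) (PT.nd (nat_lit 78) (PT.lf (nat_lit 11324) (nat_lit 6) (nat_lit 149) (nat_lit 3) (nat_lit 200) (nat_lit 192) (nat_lit 208)) (PT.lf (nat_lit 11400) (nat_lit 6) (nat_lit 150) (nat_lit 3) (nat_lit 201) (nat_lit 192) (nat_lit 207))))))))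
noncomputable def pc4 : PT := (PT.nd (nat_lit 125112) (PT.nd (nat_lit 62556) (PT.nd (nat_lit 546) (PT.nd (nat_lit 234) (PT.nd (nat_lit 78) (PT.lf (nat_lit 11476) (nat_lit 6) (nat_lit 151) (nat_lit 3) (nat_lit 202) (nat_lit 192) (nat_lit 206)) (PT.nd (nat_lit 78) (PT.lf (nat_lit 11552) (nat_lit 6) (nat_lit 152) (nat_lit 3) (nat_lit 203) (nat_lit 192) (nat_lit 205)) (PT.lf (nat_lit 11628) (nat_lit 3) (nat_lit 153) (nat_lit 1) (nat_lit 204) (nat_lit 192) (nat_lit 204)))) (PT.nd (nat_lit 156) (PT.nd (nat_lit 78) (PT.lf (nat_lit 11552) (nat_lit 6) (nat_lit 152) (nat_lit 1) (nat_lit 205) (nat_lit 192) (nat_lit 203)) (PT.lf (nat_lit 11476) (nat_lit 6) (nat_lit 151) (nat_lit 1) (nat_lit 206) (nat_lit 192) (nat_lit 202))) (PT.nd (nat_lit 78) (PT.lf (nat_lit 11400) (nat_lit 6) (nat_lit 150) (nat_lit 1) (nat_lit 207) (nat_lit 192) (nat_lit 201)) (PT.lf (nat_lit 11324) (nat_lit 6) (nat_lit 149) (nat_lit 1)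 (nat_lit 208) (nat_lit 192) (nat_lit 200))))) (PT.nd (nat_lit 61698) (PT.nd (nat_lit 61542) (PT.nd (nat_lit 78) (PT.lf (nat_lit 10564) (nat_lit 6) (nat_lit 139) (nat_lit 1) (nat_lit 209) (nat_lit 192) (nat_lit 199)) (PT.lf (nat_lit 9728) (nat_lit 6) (nat_lit 128) (nat_lit 1) (nat_lit 210) (nat_lit 192) (nat_lit 198))) (PT.nd (nat_lit 78) (PT.lf (nat_lit 9652) (nat_lit 6) (nat_lit 127) (nat_lit 3) (nat_lit 197) (nat_lit 193) (nat_lit 210)) (PT.lf (nat_lit 10488) (nat_lit 6) (nat_lit 138) (nat_lit 3) (nat_lit 198) (nat_lit 193) (nat_lit 209)))) (PT.nd (nat_lit 156) (PT.nd (nat_lit 78) (PT.lf (nat_lit 11248) (nat_lit 6) (nat_lit 148) (nat_lit 3) (nat_lit 199) (nat_lit 193) (nat_lit 208)) (PT.lf (nat_lit 11932) (nat_lit 6) (nat_lit 157) (nat_lit 3) (nat_lit 200) (nat_lit 193) (nat_lit 207))) (PT.nd (nat_lit 78) (PT.lf (nat_lit 12008) (nat_lit 6) (nat_lit 158) (nat_lit 3) (nat_lit 201) (nat_lit 193)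 (nat_lit 206)) (PT.lf (nat_lit 12084) (nat_lit 6) (nat_lit 159) (nat_lit 3) (nat_lit 202) (nat_lit 193) (nat_lit 205)))))) (PT.nd (nat_lit 61932) (PT.nd (nat_lit 312) (PT.nd (nat_lit 156) (PT.nd (nat_lit 78) (PT.lf (nat_lit 12160) (nat_lit 6) (nat_lit 160) (nat_lit 3) (nat_lit 203) (nat_lit 193) (nat_lit 204)) (PT.lf (nat_lit 12160) (nat_lit 6) (nat_lit 160) (nat_lit 1) (nat_lit 204) (nat_lit 193) (nat_lit 203))) (PT.nd (nat_lit 78) (PT.lf (nat_lit 12084) (nat_lit 6) (nat_lit 159) (nat_lit 1) (nat_lit 205) (nat_lit 193) (nat_lit 202)) (PT.lf (nat_lit 12008) (nat_lit 6) (nat_lit 158) (nat_lit 1) (nat_lit 206) (nat_lit 193) (nat_lit 201)))) (PT.nd (nat_lit 156) (PT.nd (nat_lit 78) (PT.lf (nat_lit 11932) (nat_lit 6) (nat_lit 157) (nat_lit 1) (nat_lit 207) (nat_lit 193) (nat_lit 200)) (PT.lf (nat_lit 11248) (nat_lit 6) (nat_lit 148) (nat_lit 1) (nat_lit 208) (nat_lit 193) (nat_lit 199))) (PT.nd (nat_lit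 78) (PT.lf (nat_lit 10488) (nat_lit 6) (nat_lit 138) (nat_lit 1) (nat_lit 209) (nat_lit 193) (nat_lit 198)) (PT.lf (nat_lit 9652) (nat_lit 6) (nat_lit 127) (nat_lit 1) (nat_lit 210) (nat_lit 193) (nat_lit 197))))) (PT.nd (nat_lit 312) (PT.nd (nat_lit 156) (PT.nd (nat_lit 78) (PT.lf (nat_lit 9576) (nat_lit 6) (nat_lit 126) (nat_lit 3) (nat_lit 196) (nat_lit 194) (nat_lit 210)) (PT.lf (nat_lit 10412) (nat_lit 6) (nat_lit 137) (nat_lit 3) (nat_lit 197) (nat_lit 194) (nat_lit 209))) (PT.nd (nat_lit 78) (PT.lf (nat_lit 11172) (nat_lit 6) (nat_lit 147) (nat_lit 3) (nat_lit 198) (nat_lit 194) (nat_lit 208)) (PT.lf (nat_lit 11856) (nat_lit 6) (nat_lit 156) (nat_lit 3) (nat_lit 199) (nat_lit 194) (nat_lit 207)))) (PT.nd (nat_lit 156) (PT.nd (nat_lit 78) (PT.lf (nat_lit 12464) (nat_lit 6) (nat_lit 164) (nat_lit 3) (nat_lit 200) (nat_lit 194) (nat_lit 206)) (PT.lf (nat_lit 12540) (nat_lit 6) (nat_lit 165)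 (nat_lit 3) (nat_lit 201) (nat_lit 194) (nat_lit 205))) (PT.nd (nat_lit 78) (PT.lf (nat_lit 12616) (nat_lit 6) (nat_lit 166) (nat_lit 3) (nat_lit 202) (nat_lit 194) (nat_lit 204)) (PT.lf (nat_lit 12692) (nat_lit 3) (nat_lit 167) (nat_lit 1) (nat_lit 203) (nat_lit 194) (nat_lit 203))))))) (PT.nd (nat_lit 62400) (PT.nd (nat_lit 61776) (PT.nd (nat_lit 234) (PT.nd (nat_lit 78) (PT.lf (nat_lit 12616) (nat_lit 6) (nat_lit 166) (nat_lit 1) (nat_lit 204) (nat_lit 194) (nat_lit 202)) (PT.nd (nat_lit 78) (PT.lf (nat_lit 12540) (nat_lit 6) (nat_lit 165) (nat_lit 1) (nat_lit 205) (nat_lit 194) (nat_lit 201)) (PT.lf (nat_lit 12464) (nat_lit 6) (nat_lit 164) (nat_lit 1) (nat_lit 206) (nat_lit 194) (nat_lit 200)))) (PT.nd (nat_lit 156) (PT.nd (nat_lit 78) (PT.lf (nat_lit 11856) (nat_lit 6) (nat_lit 156) (nat_lit 1) (nat_lit 207) (nat_lit 194) (nat_lit 199)) (PT.lf (nat_lit 11172) (nat_lit 6) (nat_lit 147) (nat_lit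 1) (nat_lit 208) (nat_lit 194) (nat_lit 198))) (PT.nd (nat_lit 78) (PT.lf (nat_lit 10412) (nat_lit 6) (nat_lit 137) (nat_lit 1) (nat_lit 209) (nat_lit 194) (nat_lit 197)) (PT.lf (nat_lit 9576) (nat_lit 6) (nat_lit 126) (nat_lit 1) (nat_lit 210) (nat_lit 194) (nat_lit 196))))) (PT.nd (nat_lit 312) (PT.nd (nat_lit 156) (PT.nd (nat_lit 78) (PT.lf (nat_lit 9500) (nat_lit 3) (nat_lit 125) (nat_lit 3) (nat_lit 195) (nat_lit 195) (nat_lit 210)) (PT.lf (nat_lit 10336) (nat_lit 6) (nat_lit 136) (nat_lit 3) (nat_lit 196) (nat_lit 195) (nat_lit 209))) (PT.nd (nat_lit 78) (PT.lf (nat_lit 11096) (nat_lit 6) (nat_lit 146) (nat_lit 3) (nat_lit 197) (nat_lit 195) (nat_lit 208)) (PT.lf (nat_lit 11780) (nat_lit 6) (nat_lit 155) (nat_lit 3) (nat_lit 198) (nat_lit 195) (nat_lit 207)))) (PT.nd (nat_lit 156) (PT.nd (nat_lit 78) (PT.lf (nat_lit 12388) (nat_lit 6) (nat_lit 163) (nat_lit 3) (nat_lit 199) (nat_lit 195)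 (nat_lit 206)) (PT.lf (nat_lit 12920) (nat_lit 6) (nat_lit 170) (nat_lit 3) (nat_lit 200) (nat_lit 195) (nat_lit 205))) (PT.nd (nat_lit 78) (PT.lf (nat_lit 12996) (nat_lit 6) (nat_lit 171) (nat_lit 3) (nat_lit 201) (nat_lit 195) (nat_lit 204)) (PT.lf (nat_lit 13072) (nat_lit 6) (nat_lit 172) (nat_lit 3) (nat_lit 202) (nat_lit 195) (nat_lit 203)))))) (PT.nd (nat_lit 61776) (PT.nd (nat_lit 312) (PT.nd (nat_lit 156) (PT.nd (nat_lit 78) (PT.lf (nat_lit 13072) (nat_lit 6) (nat_lit 172) (nat_lit 1) (nat_lit 203) (nat_lit 195) (nat_lit 202)) (PT.lf (nat_lit 12996) (nat_lit 6) (nat_lit 171) (nat_lit 1) (nat_lit 204) (nat_lit 195) (nat_lit 201))) (PT.nd (nat_lit 78) (PT.lf (nat_lit 12920) (nat_lit 6) (nat_lit 170) (nat_lit 1) (nat_lit 205) (nat_lit 195) (nat_lit 200)) (PT.lf (nat_lit 12388) (nat_lit 6) (nat_lit 163) (nat_lit 1) (nat_lit 206) (nat_lit 195) (nat_lit 199)))) (PT.nd (nat_lit 156) (PT.nd (nat_lit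 78) (PT.lf (nat_lit 11780) (nat_lit 6) (nat_lit 155) (nat_lit 1) (nat_lit 207) (nat_lit 195) (nat_lit 198)) (PT.lf (nat_lit 11096) (nat_lit 6) (nat_lit 146) (nat_lit 1) (nat_lit 208) (nat_lit 195) (nat_lit 197))) (PT.nd (nat_lit 78) (PT.lf (nat_lit 10336) (nat_lit 6) (nat_lit 136) (nat_lit 1) (nat_lit 209) (nat_lit 195) (nat_lit 196)) (PT.lf (nat_lit 9500) (nat_lit 3) (nat_lit 125) (nat_lit 0) (nat_lit 210) (nat_lit 195) (nat_lit 195))))) (PT.nd (nat_lit 312) (PT.nd (nat_lit 156) (PT.nd (nat_lit 78) (PT.lf (nat_lit 9576) (nat_lit 6) (nat_lit 126) (nat_lit 5) (nat_lit 194) (nat_lit 196) (nat_lit 210)) (PT.lf (nat_lit 10336) (nat_lit 6) (nat_lit 136) (nat_lit 5) (nat_lit 195) (nat_lit 196) (nat_lit 209))) (PT.nd (nat_lit 78) (PT.lf (nat_lit 11020) (nat_lit 3) (nat_lit 145) (nat_lit 3) (nat_lit 196) (nat_lit 196) (nat_lit 208)) (PT.lf (nat_lit 11704) (nat_lit 6) (nat_lit 154) (nat_lit 3) (nat_lit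 197) (nat_lit 196) (nat_lit 207)))) (PT.nd (nat_lit 156) (PT.nd (nat_lit 78) (PT.lf (nat_lit 12312) (nat_lit 6) (nat_lit 162) (nat_lit 3) (nat_lit 198) (nat_lit 196) (nat_lit 206)) (PT.lf (nat_lit 12844) (nat_lit 6) (nat_lit 169) (nat_lit 3) (nat_lit 199) (nat_lit 196) (nat_lit 205))) (PT.nd (nat_lit 78) (PT.lf (nat_lit 13300) (nat_lit 6) (nat_lit 175) (nat_lit 3) (nat_lit 200) (nat_lit 196) (nat_lit 204)) (PT.lf (nat_lit 13376) (nat_lit 6) (nat_lit 176) (nat_lit 3) (nat_lit 201) (nat_lit 196) (nat_lit 203))))))))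
noncomputable def pc5 : PT := (PT.nd (nat_lit 124488) (PT.nd (nat_lit 62244) (PT.nd (nat_lit 546) (PT.nd (nat_lit 234) (PT.nd (nat_lit 78) (PT.lf (nat_lit 13452) (nat_lit 3) (nat_lit 177) (nat_lit 1) (nat_lit 202) (nat_lit 196) (nat_lit 202)) (PT.nd (nat_lit 78) (PT.lf (nat_lit 13376) (nat_lit 6) (nat_lit 176) (nat_lit 1) (nat_lit 203) (nat_lit 196) (nat_lit 201)) (PT.lf (nat_lit 13300) (nat_lit 6) (nat_lit 175) (nat_lit 1) (nat_lit 204) (nat_lit 196) (nat_lit 200)))) (PT.nd (nat_lit 156) (PT.nd (nat_lit 78) (PT.lf (nat_lit 12844) (nat_lit 6) (nat_lit 169) (nat_lit 1) (nat_lit 205) (nat_lit 196) (nat_lit 199)) (PT.lf (nat_lit 12312) (nat_lit 6) (nat_lit 162) (nat_lit 1) (nat_lit 206) (nat_lit 196) (nat_lit 198))) (PT.nd (nat_lit 78) (PT.lf (nat_lit 11704) (nat_lit 6) (nat_lit 154) (nat_lit 1) (nat_lit 207) (nat_lit 196) (nat_lit 197)) (PT.lf (nat_lit 11020) (nat_lit 3) (nat_lit 145) (nat_lit 0)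 (nat_lit 208) (nat_lit 196) (nat_lit 196))))) (PT.nd (nat_lit 61386) (PT.nd (nat_lit 61230) (PT.nd (nat_lit 78) (PT.lf (nat_lit 10336) (nat_lit 6) (nat_lit 136) (nat_lit 0) (nat_lit 209) (nat_lit 196) (nat_lit 195)) (PT.lf (nat_lit 9576) (nat_lit 6) (nat_lit 126) (nat_lit 0) (nat_lit 210) (nat_lit 196) (nat_lit 194))) (PT.nd (nat_lit 78) (PT.lf (nat_lit 9652) (nat_lit 6) (nat_lit 127) (nat_lit 5) (nat_lit 193) (nat_lit 197) (nat_lit 210)) (PT.lf (nat_lit 10412) (nat_lit 6) (nat_lit 137) (nat_lit 5) (nat_lit 194) (nat_lit 197) (nat_lit 209)))) (PT.nd (nat_lit 156) (PT.nd (nat_lit 78) (PT.lf (nat_lit 11096) (nat_lit 6) (nat_lit 146) (nat_lit 5) (nat_lit 195) (nat_lit 197) (nat_lit 208)) (PT.lf (nat_lit 11704) (nat_lit 6) (nat_lit 154) (nat_lit 5) (nat_lit 196) (nat_lit 197) (nat_lit 207))) (PT.nd (nat_lit 78) (PT.lf (nat_lit 12236) (nat_lit 3) (nat_lit 161) (nat_lit 3) (nat_lit 197) (nat_lit 197)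 (nat_lit 206)) (PT.lf (nat_lit 12768) (nat_lit 6) (nat_lit 168) (nat_lit 3) (nat_lit 198) (nat_lit 197) (nat_lit 205)))))) (PT.nd (nat_lit 624) (PT.nd (nat_lit 312) (PT.nd (nat_lit 156) (PT.nd (nat_lit 78) (PT.lf (nat_lit 13224) (nat_lit 6) (nat_lit 174) (nat_lit 3) (nat_lit 199) (nat_lit 197) (nat_lit 204)) (PT.lf (nat_lit 13604) (nat_lit 6) (nat_lit 179) (nat_lit 3) (nat_lit 200) (nat_lit 197) (nat_lit 203))) (PT.nd (nat_lit 78) (PT.lf (nat_lit 13680) (nat_lit 6) (nat_lit 180) (nat_lit 3) (nat_lit 201) (nat_lit 197) (nat_lit 202)) (PT.lf (nat_lit 13680) (nat_lit 6) (nat_lit 180) (nat_lit 1) (nat_lit 202) (nat_lit 197) (nat_lit 201)))) (PT.nd (nat_lit 156) (PT.nd (nat_lit 78) (PT.lf (nat_lit 13604) (nat_lit 6) (nat_lit 179) (nat_lit 1) (nat_lit 203) (nat_lit 197) (nat_lit 200)) (PT.lf (nat_lit 13224) (nat_lit 6) (nat_lit 174) (nat_lit 1) (nat_lit 204) (nat_lit 197) (nat_lit 199))) (PT.nd (nat_lit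 78) (PT.lf (nat_lit 12768) (nat_lit 6) (nat_lit 168) (nat_lit 1) (nat_lit 205) (nat_lit 197) (nat_lit 198)) (PT.lf (nat_lit 12236) (nat_lit 3) (nat_lit 161) (nat_lit 0) (nat_lit 206) (nat_lit 197) (nat_lit 197))))) (PT.nd (nat_lit 61308) (PT.nd (nat_lit 156) (PT.nd (nat_lit 78) (PT.lf (nat_lit 11704) (nat_lit 6) (nat_lit 154) (nat_lit 0) (nat_lit 207) (nat_lit 197) (nat_lit 196)) (PT.lf (nat_lit 11096) (nat_lit 6) (nat_lit 146) (nat_lit 0) (nat_lit 208) (nat_lit 197) (nat_lit 195))) (PT.nd (nat_lit 78) (PT.lf (nat_lit 10412) (nat_lit 6) (nat_lit 137) (nat_lit 0) (nat_lit 209) (nat_lit 197) (nat_lit 194)) (PT.lf (nat_lit 9652) (nat_lit 6) (nat_lit 127) (nat_lit 0) (nat_lit 210) (nat_lit 197) (nat_lit 193)))) (PT.nd (nat_lit 156) (PT.nd (nat_lit 78) (PT.lf (nat_lit 9728) (nat_lit 6) (nat_lit 128) (nat_lit 5) (nat_lit 192) (nat_lit 198) (nat_lit 210)) (PT.lf (nat_lit 10488) (nat_lit 6) (nat_lit 138)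 (nat_lit 5) (nat_lit 193) (nat_lit 198) (nat_lit 209))) (PT.nd (nat_lit 78) (PT.lf (nat_lit 11172) (nat_lit 6) (nat_lit 147) (nat_lit 5) (nat_lit 194) (nat_lit 198) (nat_lit 208)) (PT.lf (nat_lit 11780) (nat_lit 6) (nat_lit 155) (nat_lit 5) (nat_lit 195) (nat_lit 198) (nat_lit 207))))))) (PT.nd (nat_lit 62088) (PT.nd (nat_lit 546) (PT.nd (nat_lit 234) (PT.nd (nat_lit 78) (PT.lf (nat_lit 12312) (nat_lit 6) (nat_lit 162) (nat_lit 5) (nat_lit 196) (nat_lit 198) (nat_lit 206)) (PT.nd (nat_lit 78) (PT.lf (nat_lit 12768) (nat_lit 6) (nat_lit 168) (nat_lit 5) (nat_lit 197) (nat_lit 198) (nat_lit 205)) (PT.lf (nat_lit 13148) (nat_lit 3) (nat_lit 173) (nat_lit 3) (nat_lit 198) (nat_lit 198) (nat_lit 204)))) (PT.nd (nat_lit 156) (PT.nd (nat_lit 78) (PT.lf (nat_lit 13528) (nat_lit 6) (nat_lit 178) (nat_lit 3) (nat_lit 199) (nat_lit 198) (nat_lit 203)) (PT.lf (nat_lit 13832) (nat_lit 6) (nat_lit 182) (nat_lit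 3) (nat_lit 200) (nat_lit 198) (nat_lit 202))) (PT.nd (nat_lit 78) (PT.lf (nat_lit 13908) (nat_lit 3) (nat_lit 183) (nat_lit 1) (nat_lit 201) (nat_lit 198) (nat_lit 201)) (PT.lf (nat_lit 13832) (nat_lit 6) (nat_lit 182) (nat_lit 1) (nat_lit 202) (nat_lit 198) (nat_lit 200))))) (PT.nd (nat_lit 312) (PT.nd (nat_lit 156) (PT.nd (nat_lit 78) (PT.lf (nat_lit 13528) (nat_lit 6) (nat_lit 178) (nat_lit 1) (nat_lit 203) (nat_lit 198) (nat_lit 199)) (PT.lf (nat_lit 13148) (nat_lit 3) (nat_lit 173) (nat_lit 0) (nat_lit 204) (nat_lit 198) (nat_lit 198))) (PT.nd (nat_lit 78) (PT.lf (nat_lit 12768) (nat_lit 6) (nat_lit 168) (nat_lit 0) (nat_lit 205) (nat_lit 198) (nat_lit 197)) (PT.lf (nat_lit 12312) (nat_lit 6) (nat_lit 162) (nat_lit 0) (nat_lit 206) (nat_lit 198) (nat_lit 196)))) (PT.nd (nat_lit 156) (PT.nd (nat_lit 78) (PT.lf (nat_lit 11780) (nat_lit 6) (nat_lit 155) (nat_lit 0) (nat_lit 207) (nat_lit 198)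 (nat_lit 195)) (PT.lf (nat_lit 11172) (nat_lit 6) (nat_lit 147) (nat_lit 0) (nat_lit 208) (nat_lit 198) (nat_lit 194))) (PT.nd (nat_lit 78) (PT.lf (nat_lit 10488) (nat_lit 6) (nat_lit 138) (nat_lit 0) (nat_lit 209) (nat_lit 198) (nat_lit 193)) (PT.lf (nat_lit 9728) (nat_lit 6) (nat_lit 128) (nat_lit 0) (nat_lit 210) (nat_lit 198) (nat_lit 192)))))) (PT.nd (nat_lit 624) (PT.nd (nat_lit 312) (PT.nd (nat_lit 156) (PT.nd (nat_lit 78) (PT.lf (nat_lit 9804) (nat_lit 6) (nat_lit 129) (nat_lit 5) (nat_lit 191) (nat_lit 199) (nat_lit 210)) (PT.lf (nat_lit 10564) (nat_lit 6) (nat_lit 139) (nat_lit 5) (nat_lit 192) (nat_lit 199) (nat_lit 209))) (PT.nd (nat_lit 78) (PT.lf (nat_lit 11248) (nat_lit 6) (nat_lit 148) (nat_lit 5) (nat_lit 193) (nat_lit 199) (nat_lit 208)) (PT.lf (nat_lit 11856) (nat_lit 6) (nat_lit 156) (nat_lit 5) (nat_lit 194) (nat_lit 199) (nat_lit 207)))) (PT.nd (nat_lit 156) (PT.nd (nat_lit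 78) (PT.lf (nat_lit 12388) (nat_lit 6) (nat_lit 163) (nat_lit 5) (nat_lit 195) (nat_lit 199) (nat_lit 206)) (PT.lf (nat_lit 12844) (nat_lit 6) (nat_lit 169) (nat_lit 5) (nat_lit 196) (nat_lit 199) (nat_lit 205))) (PT.nd (nat_lit 78) (PT.lf (nat_lit 13224) (nat_lit 6) (nat_lit 174) (nat_lit 5) (nat_lit 197) (nat_lit 199) (nat_lit 204)) (PT.lf (nat_lit 13528) (nat_lit 6) (nat_lit 178) (nat_lit 5) (nat_lit 198) (nat_lit 199) (nat_lit 203))))) (PT.nd (nat_lit 312) (PT.nd (nat_lit 156) (PT.nd (nat_lit 78) (PT.lf (nat_lit 13756) (nat_lit 3) (nat_lit 181) (nat_lit 3) (nat_lit 199) (nat_lit 199) (nat_lit 202)) (PT.lf (nat_lit 13984) (nat_lit 6) (nat_lit 184) (nat_lit 3) (nat_lit 200) (nat_lit 199) (nat_lit 201))) (PT.nd (nat_lit 78) (PT.lf (nat_lit 13984) (nat_lit 6) (nat_lit 184) (nat_lit 1) (nat_lit 201) (nat_lit 199) (nat_lit 200)) (PT.lf (nat_lit 13756) (nat_lit 3) (nat_lit 181) (nat_lit 0) (nat_lit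 202) (nat_lit 199) (nat_lit 199)))) (PT.nd (nat_lit 156) (PT.nd (nat_lit 78) (PT.lf (nat_lit 13528) (nat_lit 6) (nat_lit 178) (nat_lit 0) (nat_lit 203) (nat_lit 199) (nat_lit 198)) (PT.lf (nat_lit 13224) (nat_lit 6) (nat_lit 174) (nat_lit 0) (nat_lit 204) (nat_lit 199) (nat_lit 197))) (PT.nd (nat_lit 78) (PT.lf (nat_lit 12844) (nat_lit 6) (nat_lit 169) (nat_lit 0) (nat_lit 205) (nat_lit 199) (nat_lit 196)) (PT.lf (nat_lit 12388) (nat_lit 6) (nat_lit 163) (nat_lit 0) (nat_lit 206) (nat_lit 199) (nat_lit 195))))))))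
noncomputable def pc6 : PT := (PT.nd (nat_lit 123942) (PT.nd (nat_lit 62010) (PT.nd (nat_lit 61386) (PT.nd (nat_lit 234) (PT.nd (nat_lit 78) (PT.lf (nat_lit 11856) (nat_lit 6) (nat_lit 156) (nat_lit 0) (nat_lit 207) (nat_lit 199) (nat_lit 194)) (PT.nd (nat_lit 78) (PT.lf (nat_lit 11248) (nat_lit 6) (nat_lit 148) (nat_lit 0) (nat_lit 208) (nat_lit 199) (nat_lit 193)) (PT.lf (nat_lit 10564) (nat_lit 6) (nat_lit 139) (nat_lit 0) (nat_lit 209) (nat_lit 199) (nat_lit 192)))) (PT.nd (nat_lit 60996) (PT.nd (nat_lit 60918) (PT.lf (nat_lit 9804) (nat_lit 6) (nat_lit 129) (nat_lit 0) (nat_lit 210) (nat_lit 199) (nat_lit 191)) (PT.lf (nat_lit 9880) (nat_lit 6) (nat_lit 130) (nat_lit 5) (nat_lit 190) (nat_lit 200) (nat_lit 210))) (PT.nd (nat_lit 78) (PT.lf (nat_lit 10640) (nat_lit 6) (nat_lit 140) (nat_lit 5) (nat_lit 191) (nat_lit 200) (nat_lit 209)) (PT.lf (nat_lit 11324) (nat_lit 6) (nat_lit 149) (nat_lit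 5) (nat_lit 192) (nat_lit 200) (nat_lit 208))))) (PT.nd (nat_lit 312) (PT.nd (nat_lit 156) (PT.nd (nat_lit 78) (PT.lf (nat_lit 11932) (nat_lit 6) (nat_lit 157) (nat_lit 5) (nat_lit 193) (nat_lit 200) (nat_lit 207)) (PT.lf (nat_lit 12464) (nat_lit 6) (nat_lit 164) (nat_lit 5) (nat_lit 194) (nat_lit 200) (nat_lit 206))) (PT.nd (nat_lit 78) (PT.lf (nat_lit 12920) (nat_lit 6) (nat_lit 170) (nat_lit 5) (nat_lit 195) (nat_lit 200) (nat_lit 205)) (PT.lf (nat_lit 13300) (nat_lit 6) (nat_lit 175) (nat_lit 5) (nat_lit 196) (nat_lit 200) (nat_lit 204)))) (PT.nd (nat_lit 156) (PT.nd (nat_lit 78) (PT.lf (nat_lit 13604) (nat_lit 6) (nat_lit 179) (nat_lit 5) (nat_lit 197) (nat_lit 200) (nat_lit 203)) (PT.lf (nat_lit 13832) (nat_lit 6) (nat_lit 182) (nat_lit 5) (nat_lit 198) (nat_lit 200) (nat_lit 202))) (PT.nd (nat_lit 78) (PT.lf (nat_lit 13984) (nat_lit 6) (nat_lit 184) (nat_lit 5) (nat_lit 199) (nat_lit 200)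 (nat_lit 201)) (PT.lf (nat_lit 14060) (nat_lit 1) (nat_lit 185) (nat_lit 0) (nat_lit 200) (nat_lit 200) (nat_lit 200)))))) (PT.nd (nat_lit 624) (PT.nd (nat_lit 312) (PT.nd (nat_lit 156) (PT.nd (nat_lit 78) (PT.lf (nat_lit 13984) (nat_lit 6) (nat_lit 184) (nat_lit 0) (nat_lit 201) (nat_lit 200) (nat_lit 199)) (PT.lf (nat_lit 13832) (nat_lit 6) (nat_lit 182) (nat_lit 0) (nat_lit 202) (nat_lit 200) (nat_lit 198))) (PT.nd (nat_lit 78) (PT.lf (nat_lit 13604) (nat_lit 6) (nat_lit 179) (nat_lit 0) (nat_lit 203) (nat_lit 200) (nat_lit 197)) (PT.lf (nat_lit 13300) (nat_lit 6) (nat_lit 175) (nat_lit 0) (nat_lit 204) (nat_lit 200) (nat_lit 196)))) (PT.nd (nat_lit 156) (PT.nd (nat_lit 78) (PT.lf (nat_lit 12920) (nat_lit 6) (nat_lit 170) (nat_lit 0) (nat_lit 205) (nat_lit 200) (nat_lit 195)) (PT.lf (nat_lit 12464) (nat_lit 6) (nat_lit 164) (nat_lit 0) (nat_lit 206) (nat_lit 200) (nat_lit 194))) (PT.nd (nat_lit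 78) (PT.lf (nat_lit 11932) (nat_lit 6) (nat_lit 157) (nat_lit 0) (nat_lit 207) (nat_lit 200) (nat_lit 193)) (PT.lf (nat_lit 11324) (nat_lit 6) (nat_lit 149) (nat_lit 0) (nat_lit 208) (nat_lit 200) (nat_lit 192))))) (PT.nd (nat_lit 60996) (PT.nd (nat_lit 60840) (PT.nd (nat_lit 78) (PT.lf (nat_lit 10640) (nat_lit 6) (nat_lit 140) (nat_lit 0) (nat_lit 209) (nat_lit 200) (nat_lit 191)) (PT.lf (nat_lit 9880) (nat_lit 6) (nat_lit 130) (nat_lit 0) (nat_lit 210) (nat_lit 200) (nat_lit 190))) (PT.nd (nat_lit 78) (PT.lf (nat_lit 8664) (nat_lit 6) (nat_lit 114) (nat_lit 5) (nat_lit 188) (nat_lit 201) (nat_lit 211)) (PT.lf (nat_lit 9120) (nat_lit 6) (nat_lit 120) (nat_lit 5) (nat_lit 189) (nat_lit 201) (nat_lit 210)))) (PT.nd (nat_lit 156) (PT.nd (nat_lit 78) (PT.lf (nat_lit 9956) (nat_lit 6) (nat_lit 131) (nat_lit 5) (nat_lit 190) (nat_lit 201) (nat_lit 209)) (PT.lf (nat_lit 10716) (nat_lit 6) (nat_lit 141)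 (nat_lit 5) (nat_lit 191) (nat_lit 201) (nat_lit 208))) (PT.nd (nat_lit 78) (PT.lf (nat_lit 11400) (nat_lit 6) (nat_lit 150) (nat_lit 5) (nat_lit 192) (nat_lit 201) (nat_lit 207)) (PT.lf (nat_lit 12008) (nat_lit 6) (nat_lit 158) (nat_lit 5) (nat_lit 193) (nat_lit 201) (nat_lit 206))))))) (PT.nd (nat_lit 1170) (PT.nd (nat_lit 546) (PT.nd (nat_lit 234) (PT.nd (nat_lit 78) (PT.lf (nat_lit 12540) (nat_lit 6) (nat_lit 165) (nat_lit 5) (nat_lit 194) (nat_lit 201) (nat_lit 205)) (PT.nd (nat_lit 78) (PT.lf (nat_lit 12996) (nat_lit 6) (nat_lit 171) (nat_lit 5) (nat_lit 195) (nat_lit 201) (nat_lit 204)) (PT.lf (nat_lit 13376) (nat_lit 6) (nat_lit 176) (nat_lit 5) (nat_lit 196) (nat_lit 201) (nat_lit 203)))) (PT.nd (nat_lit 156) (PT.nd (nat_lit 78) (PT.lf (nat_lit 13680) (nat_lit 6) (nat_lit 180) (nat_lit 5) (nat_lit 197) (nat_lit 201) (nat_lit 202)) (PT.lf (nat_lit 13908) (nat_lit 3) (nat_lit 183) (nat_lit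 4) (nat_lit 198) (nat_lit 201) (nat_lit 201))) (PT.nd (nat_lit 78) (PT.lf (nat_lit 13984) (nat_lit 6) (nat_lit 184) (nat_lit 4) (nat_lit 199) (nat_lit 201) (nat_lit 200)) (PT.lf (nat_lit 13984) (nat_lit 6) (nat_lit 184) (nat_lit 2) (nat_lit 200) (nat_lit 201) (nat_lit 199))))) (PT.nd (nat_lit 312) (PT.nd (nat_lit 156) (PT.nd (nat_lit 78) (PT.lf (nat_lit 13908) (nat_lit 3) (nat_lit 183) (nat_lit 0) (nat_lit 201) (nat_lit 201) (nat_lit 198)) (PT.lf (nat_lit 13680) (nat_lit 6) (nat_lit 180) (nat_lit 0) (nat_lit 202) (nat_lit 201) (nat_lit 197))) (PT.nd (nat_lit 78) (PT.lf (nat_lit 13376) (nat_lit 6) (nat_lit 176) (nat_lit 0) (nat_lit 203) (nat_lit 201) (nat_lit 196)) (PT.lf (nat_lit 12996) (nat_lit 6) (nat_lit 171) (nat_lit 0) (nat_lit 204) (nat_lit 201) (nat_lit 195)))) (PT.nd (nat_lit 156) (PT.nd (nat_lit 78) (PT.lf (nat_lit 12540) (nat_lit 6) (nat_lit 165) (nat_lit 0) (nat_lit 205) (nat_lit 201)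 (nat_lit 194)) (PT.lf (nat_lit 12008) (nat_lit 6) (nat_lit 158) (nat_lit 0) (nat_lit 206) (nat_lit 201) (nat_lit 193))) (PT.nd (nat_lit 78) (PT.lf (nat_lit 11400) (nat_lit 6) (nat_lit 150) (nat_lit 0) (nat_lit 207) (nat_lit 201) (nat_lit 192)) (PT.lf (nat_lit 10716) (nat_lit 6) (nat_lit 141) (nat_lit 0) (nat_lit 208) (nat_lit 201) (nat_lit 191)))))) (PT.nd (nat_lit 61152) (PT.nd (nat_lit 60840) (PT.nd (nat_lit 156) (PT.nd (nat_lit 78) (PT.lf (nat_lit 9956) (nat_lit 6) (nat_lit 131) (nat_lit 0) (nat_lit 209) (nat_lit 201) (nat_lit 190)) (PT.lf (nat_lit 9120) (nat_lit 6) (nat_lit 120) (nat_lit 0) (nat_lit 210) (nat_lit 201) (nat_lit 189))) (PT.nd (nat_lit 60606) (PT.lf (nat_lit 8664) (nat_lit 6) (nat_lit 114) (nat_lit 0) (nat_lit 211) (nat_lit 201) (nat_lit 188)) (PT.lf (nat_lit 8284) (nat_lit 6) (nat_lit 109) (nat_lit 5) (nat_lit 187) (nat_lit 202) (nat_lit 211)))) (PT.nd (nat_lit 156) (PT.nd (nat_lit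 78) (PT.lf (nat_lit 8740) (nat_lit 6) (nat_lit 115) (nat_lit 5) (nat_lit 188) (nat_lit 202) (nat_lit 210)) (PT.lf (nat_lit 9196) (nat_lit 6) (nat_lit 121) (nat_lit 5) (nat_lit 189) (nat_lit 202) (nat_lit 209))) (PT.nd (nat_lit 78) (PT.lf (nat_lit 10032) (nat_lit 6) (nat_lit 132) (nat_lit 5) (nat_lit 190) (nat_lit 202) (nat_lit 208)) (PT.lf (nat_lit 10792) (nat_lit 6) (nat_lit 142) (nat_lit 5) (nat_lit 191) (nat_lit 202) (nat_lit 207))))) (PT.nd (nat_lit 312) (PT.nd (nat_lit 156) (PT.nd (nat_lit 78) (PT.lf (nat_lit 11476) (nat_lit 6) (nat_lit 151) (nat_lit 5) (nat_lit 192) (nat_lit 202) (nat_lit 206)) (PT.lf (nat_lit 12084) (nat_lit 6) (nat_lit 159) (nat_lit 5) (nat_lit 193) (nat_lit 202) (nat_lit 205))) (PT.nd (nat_lit 78) (PT.lf (nat_lit 12616) (nat_lit 6) (nat_lit 166) (nat_lit 5) (nat_lit 194) (nat_lit 202) (nat_lit 204)) (PT.lf (nat_lit 13072) (nat_lit 6) (nat_lit 172) (nat_lit 5) (nat_lit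 195) (nat_lit 202) (nat_lit 203)))) (PT.nd (nat_lit 156) (PT.nd (nat_lit 78) (PT.lf (nat_lit 13452) (nat_lit 3) (nat_lit 177) (nat_lit 4) (nat_lit 196) (nat_lit 202) (nat_lit 202)) (PT.lf (nat_lit 13680) (nat_lit 6) (nat_lit 180) (nat_lit 4) (nat_lit 197) (nat_lit 202) (nat_lit 201))) (PT.nd (nat_lit 78) (PT.lf (nat_lit 13832) (nat_lit 6) (nat_lit 182) (nat_lit 4) (nat_lit 198) (nat_lit 202) (nat_lit 200)) (PT.lf (nat_lit 13756) (nat_lit 3) (nat_lit 181) (nat_lit 2) (nat_lit 199) (nat_lit 202) (nat_lit 199))))))))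
noncomputable def pc7 : PT := (PT.nd (nat_lit 62868) (PT.nd (nat_lit 61620) (PT.nd (nat_lit 546) (PT.nd (nat_lit 234) (PT.nd (nat_lit 78) (PT.lf (nat_lit 13832) (nat_lit 6) (nat_lit 182) (nat_lit 2) (nat_lit 200) (nat_lit 202) (nat_lit 198)) (PT.nd (nat_lit 78) (PT.lf (nat_lit 13680) (nat_lit 6) (nat_lit 180) (nat_lit 2) (nat_lit 201) (nat_lit 202) (nat_lit 197)) (PT.lf (nat_lit 13452) (nat_lit 3) (nat_lit 177) (nat_lit 0) (nat_lit 202) (nat_lit 202) (nat_lit 196)))) (PT.nd (nat_lit 156) (PT.nd (nat_lit 78) (PT.lf (nat_lit 13072) (nat_lit 6) (nat_lit 172) (nat_lit 0) (nat_lit 203) (nat_lit 202) (nat_lit 195)) (PT.lf (nat_lit 12616) (nat_lit 6) (nat_lit 166) (nat_lit 0) (nat_lit 204) (nat_lit 202) (nat_lit 194))) (PT.nd (nat_lit 78) (PT.lf (nat_lit 12084) (nat_lit 6) (nat_lit 159) (nat_lit 0) (nat_lit 205) (nat_lit 202) (nat_lit 193)) (PT.lf (nat_lit 11476) (nat_lit 6) (nat_lit 151) (nat_lit 0)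 (nat_lit 206) (nat_lit 202) (nat_lit 192))))) (PT.nd (nat_lit 312) (PT.nd (nat_lit 156) (PT.nd (nat_lit 78) (PT.lf (nat_lit 10792) (nat_lit 6) (nat_lit 142) (nat_lit 0) (nat_lit 207) (nat_lit 202) (nat_lit 191)) (PT.lf (nat_lit 10032) (nat_lit 6) (nat_lit 132) (nat_lit 0) (nat_lit 208) (nat_lit 202) (nat_lit 190))) (PT.nd (nat_lit 78) (PT.lf (nat_lit 9196) (nat_lit 6) (nat_lit 121) (nat_lit 0) (nat_lit 209) (nat_lit 202) (nat_lit 189)) (PT.lf (nat_lit 8740) (nat_lit 6) (nat_lit 115) (nat_lit 0) (nat_lit 210) (nat_lit 202) (nat_lit 188)))) (PT.nd (nat_lit 60606) (PT.nd (nat_lit 60528) (PT.lf (nat_lit 8284) (nat_lit 6) (nat_lit 109) (nat_lit 0) (nat_lit 211) (nat_lit 202) (nat_lit 187)) (PT.lf (nat_lit 7904) (nat_lit 6) (nat_lit 104) (nat_lit 5) (nat_lit 186) (nat_lit 203) (nat_lit 211))) (PT.nd (nat_lit 78) (PT.lf (nat_lit 8360) (nat_lit 6) (nat_lit 110) (nat_lit 5) (nat_lit 187) (nat_lit 203)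 (nat_lit 210)) (PT.lf (nat_lit 8816) (nat_lit 6) (nat_lit 116) (nat_lit 5) (nat_lit 188) (nat_lit 203) (nat_lit 209)))))) (PT.nd (nat_lit 624) (PT.nd (nat_lit 312) (PT.nd (nat_lit 156) (PT.nd (nat_lit 78) (PT.lf (nat_lit 9272) (nat_lit 6) (nat_lit 122) (nat_lit 5) (nat_lit 189) (nat_lit 203) (nat_lit 208)) (PT.lf (nat_lit 10108) (nat_lit 6) (nat_lit 133) (nat_lit 5) (nat_lit 190) (nat_lit 203) (nat_lit 207))) (PT.nd (nat_lit 78) (PT.lf (nat_lit 10868) (nat_lit 6) (nat_lit 143) (nat_lit 5) (nat_lit 191) (nat_lit 203) (nat_lit 206)) (PT.lf (nat_lit 11552) (nat_lit 6) (nat_lit 152) (nat_lit 5) (nat_lit 192) (nat_lit 203) (nat_lit 205)))) (PT.nd (nat_lit 156) (PT.nd (nat_lit 78) (PT.lf (nat_lit 12160) (nat_lit 6) (nat_lit 160) (nat_lit 5) (nat_lit 193) (nat_lit 203) (nat_lit 204)) (PT.lf (nat_lit 12692) (nat_lit 3) (nat_lit 167) (nat_lit 4) (nat_lit 194) (nat_lit 203) (nat_lit 203))) (PT.nd (nat_lit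 78) (PT.lf (nat_lit 13072) (nat_lit 6) (nat_lit 172) (nat_lit 4) (nat_lit 195) (nat_lit 203) (nat_lit 202)) (PT.lf (nat_lit 13376) (nat_lit 6) (nat_lit 176) (nat_lit 4) (nat_lit 196) (nat_lit 203) (nat_lit 201))))) (PT.nd (nat_lit 312) (PT.nd (nat_lit 156) (PT.nd (nat_lit 78) (PT.lf (nat_lit 13604) (nat_lit 6) (nat_lit 179) (nat_lit 4) (nat_lit 197) (nat_lit 203) (nat_lit 200)) (PT.lf (nat_lit 13528) (nat_lit 6) (nat_lit 178) (nat_lit 4) (nat_lit 198) (nat_lit 203) (nat_lit 199))) (PT.nd (nat_lit 78) (PT.lf (nat_lit 13528) (nat_lit 6) (nat_lit 178) (nat_lit 2) (nat_lit 199) (nat_lit 203) (nat_lit 198)) (PT.lf (nat_lit 13604) (nat_lit 6) (nat_lit 179) (nat_lit 2) (nat_lit 200) (nat_lit 203) (nat_lit 197)))) (PT.nd (nat_lit 156) (PT.nd (nat_lit 78) (PT.lf (nat_lit 13376) (nat_lit 6) (nat_lit 176) (nat_lit 2) (nat_lit 201) (nat_lit 203) (nat_lit 196)) (PT.lf (nat_lit 13072) (nat_lit 6) (nat_lit 172)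 (nat_lit 2) (nat_lit 202) (nat_lit 203) (nat_lit 195))) (PT.nd (nat_lit 78) (PT.lf (nat_lit 12692) (nat_lit 3) (nat_lit 167) (nat_lit 0) (nat_lit 203) (nat_lit 203) (nat_lit 194)) (PT.lf (nat_lit 12160) (nat_lit 6) (nat_lit 160) (nat_lit 0) (nat_lit 204) (nat_lit 203) (nat_lit 193))))))) (PT.nd (nat_lit 61542) (PT.nd (nat_lit 60918) (PT.nd (nat_lit 234) (PT.nd (nat_lit 78) (PT.lf (nat_lit 11552) (nat_lit 6) (nat_lit 152) (nat_lit 0) (nat_lit 205) (nat_lit 203) (nat_lit 192)) (PT.nd (nat_lit 78) (PT.lf (nat_lit 10868) (nat_lit 6) (nat_lit 143) (nat_lit 0) (nat_lit 206) (nat_lit 203) (nat_lit 191)) (PT.lf (nat_lit 10108) (nat_lit 6) (nat_lit 133) (nat_lit 0) (nat_lit 207) (nat_lit 203) (nat_lit 190)))) (PT.nd (nat_lit 156) (PT.nd (nat_lit 78) (PT.lf (nat_lit 9272) (nat_lit 6) (nat_lit 122) (nat_lit 0) (nat_lit 208) (nat_lit 203) (nat_lit 189)) (PT.lf (nat_lit 8816) (nat_lit 6) (nat_lit 116) (nat_lit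 0) (nat_lit 209) (nat_lit 203) (nat_lit 188))) (PT.nd (nat_lit 78) (PT.lf (nat_lit 8360) (nat_lit 6) (nat_lit 110) (nat_lit 0) (nat_lit 210) (nat_lit 203) (nat_lit 187)) (PT.lf (nat_lit 7904) (nat_lit 6) (nat_lit 104) (nat_lit 0) (nat_lit 211) (nat_lit 203) (nat_lit 186))))) (PT.nd (nat_lit 312) (PT.nd (nat_lit 156) (PT.nd (nat_lit 78) (PT.lf (nat_lit 7600) (nat_lit 6) (nat_lit 100) (nat_lit 5) (nat_lit 185) (nat_lit 204) (nat_lit 211)) (PT.lf (nat_lit 7980) (nat_lit 6) (nat_lit 105) (nat_lit 5) (nat_lit 186) (nat_lit 204) (nat_lit 210))) (PT.nd (nat_lit 78) (PT.lf (nat_lit 8436) (nat_lit 6) (nat_lit 111) (nat_lit 5) (nat_lit 187) (nat_lit 204) (nat_lit 209)) (PT.lf (nat_lit 8892) (nat_lit 6) (nat_lit 117) (nat_lit 5) (nat_lit 188) (nat_lit 204) (nat_lit 208)))) (PT.nd (nat_lit 156) (PT.nd (nat_lit 78) (PT.lf (nat_lit 9348) (nat_lit 6) (nat_lit 123) (nat_lit 5) (nat_lit 189) (nat_lit 204) (nat_lit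 207)) (PT.lf (nat_lit 10184) (nat_lit 6) (nat_lit 134) (nat_lit 5) (nat_lit 190) (nat_lit 204) (nat_lit 206))) (PT.nd (nat_lit 78) (PT.lf (nat_lit 10944) (nat_lit 6) (nat_lit 144) (nat_lit 5) (nat_lit 191) (nat_lit 204) (nat_lit 205)) (PT.lf (nat_lit 11628) (nat_lit 3) (nat_lit 153) (nat_lit 4) (nat_lit 192) (nat_lit 204) (nat_lit 204)))))) (PT.nd (nat_lit 624) (PT.nd (nat_lit 312) (PT.nd (nat_lit 156) (PT.nd (nat_lit 78) (PT.lf (nat_lit 12160) (nat_lit 6) (nat_lit 160) (nat_lit 4) (nat_lit 193) (nat_lit 204) (nat_lit 203)) (PT.lf (nat_lit 12616) (nat_lit 6) (nat_lit 166) (nat_lit 4) (nat_lit 194) (nat_lit 204) (nat_lit 202))) (PT.nd (nat_lit 78) (PT.lf (nat_lit 12996) (nat_lit 6) (nat_lit 171) (nat_lit 4) (nat_lit 195) (nat_lit 204) (nat_lit 201)) (PT.lf (nat_lit 13300) (nat_lit 6) (nat_lit 175) (nat_lit 4) (nat_lit 196) (nat_lit 204) (nat_lit 200)))) (PT.nd (nat_lit 156) (PT.nd (nat_lit 78)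 (PT.lf (nat_lit 13224) (nat_lit 6) (nat_lit 174) (nat_lit 4) (nat_lit 197) (nat_lit 204) (nat_lit 199)) (PT.lf (nat_lit 13148) (nat_lit 3) (nat_lit 173) (nat_lit 2) (nat_lit 198) (nat_lit 204) (nat_lit 198))) (PT.nd (nat_lit 78) (PT.lf (nat_lit 13224) (nat_lit 6) (nat_lit 174) (nat_lit 2) (nat_lit 199) (nat_lit 204) (nat_lit 197)) (PT.lf (nat_lit 13300) (nat_lit 6) (nat_lit 175) (nat_lit 2) (nat_lit 200) (nat_lit 204) (nat_lit 196))))) (PT.nd (nat_lit 312) (PT.nd (nat_lit 156) (PT.nd (nat_lit 78) (PT.lf (nat_lit 12996) (nat_lit 6) (nat_lit 171) (nat_lit 2) (nat_lit 201) (nat_lit 204) (nat_lit 195)) (PT.lf (nat_lit 12616) (nat_lit 6) (nat_lit 166) (nat_lit 2) (nat_lit 202) (nat_lit 204) (nat_lit 194))) (PT.nd (nat_lit 78) (PT.lf (nat_lit 12160) (nat_lit 6) (nat_lit 160) (nat_lit 2) (nat_lit 203) (nat_lit 204) (nat_lit 193)) (PT.lf (nat_lit 11628) (nat_lit 3) (nat_lit 153) (nat_lit 0) (nat_lit 204)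 (nat_lit 204) (nat_lit 192)))) (PT.nd (nat_lit 156) (PT.nd (nat_lit 78) (PT.lf (nat_lit 10944) (nat_lit 6) (nat_lit 144) (nat_lit 0) (nat_lit 205) (nat_lit 204) (nat_lit 191)) (PT.lf (nat_lit 10184) (nat_lit 6) (nat_lit 134) (nat_lit 0) (nat_lit 206) (nat_lit 204) (nat_lit 190))) (PT.nd (nat_lit 78) (PT.lf (nat_lit 9348) (nat_lit 6) (nat_lit 123) (nat_lit 0) (nat_lit 207) (nat_lit 204) (nat_lit 189)) (PT.lf (nat_lit 8892) (nat_lit 6) (nat_lit 117) (nat_lit 0) (nat_lit 208) (nat_lit 204) (nat_lit 188))))))))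
noncomputable def pc8 : PT := (PT.nd (nat_lit 62634) (PT.nd (nat_lit 61386) (PT.nd (nat_lit 60762) (PT.nd (nat_lit 60450) (PT.nd (nat_lit 78) (PT.lf (nat_lit 8436) (nat_lit 6) (nat_lit 111) (nat_lit 0) (nat_lit 209) (nat_lit 204) (nat_lit 187)) (PT.nd (nat_lit 78) (PT.lf (nat_lit 7980) (nat_lit 6) (nat_lit 105) (nat_lit 0) (nat_lit 210) (nat_lit 204) (nat_lit 186)) (PT.lf (nat_lit 7600) (nat_lit 6) (nat_lit 100) (nat_lit 0) (nat_lit 211) (nat_lit 204) (nat_lit 185)))) (PT.nd (nat_lit 156) (PT.nd (nat_lit 78) (PT.lf (nat_lit 6992) (nat_lit 6) (nat_lit 92) (nat_lit 5) (nat_lit 183) (nat_lit 205) (nat_lit 212)) (PT.lf (nat_lit 7296) (nat_lit 6) (nat_lit 96) (nat_lit 5) (nat_lit 184) (nat_lit 205) (nat_lit 211))) (PT.nd (nat_lit 78) (PT.lf (nat_lit 7676) (nat_lit 6) (nat_lit 101) (nat_lit 5) (nat_lit 185) (nat_lit 205) (nat_lit 210)) (PT.lf (nat_lit 8056) (nat_lit 6) (nat_lit 106) (nat_lit 5) (nat_lit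 186) (nat_lit 205) (nat_lit 209))))) (PT.nd (nat_lit 312) (PT.nd (nat_lit 156) (PT.nd (nat_lit 78) (PT.lf (nat_lit 8512) (nat_lit 6) (nat_lit 112) (nat_lit 5) (nat_lit 187) (nat_lit 205) (nat_lit 208)) (PT.lf (nat_lit 8968) (nat_lit 6) (nat_lit 118) (nat_lit 5) (nat_lit 188) (nat_lit 205) (nat_lit 207))) (PT.nd (nat_lit 78) (PT.lf (nat_lit 9424) (nat_lit 6) (nat_lit 124) (nat_lit 5) (nat_lit 189) (nat_lit 205) (nat_lit 206)) (PT.lf (nat_lit 10260) (nat_lit 3) (nat_lit 135) (nat_lit 4) (nat_lit 190) (nat_lit 205) (nat_lit 205)))) (PT.nd (nat_lit 156) (PT.nd (nat_lit 78) (PT.lf (nat_lit 10944) (nat_lit 6) (nat_lit 144) (nat_lit 4) (nat_lit 191) (nat_lit 205) (nat_lit 204)) (PT.lf (nat_lit 11552) (nat_lit 6) (nat_lit 152) (nat_lit 4) (nat_lit 192) (nat_lit 205) (nat_lit 203))) (PT.nd (nat_lit 78) (PT.lf (nat_lit 12084) (nat_lit 6) (nat_lit 159) (nat_lit 4) (nat_lit 193) (nat_lit 205) (nat_lit 202))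 (PT.lf (nat_lit 12540) (nat_lit 6) (nat_lit 165) (nat_lit 4) (nat_lit 194) (nat_lit 205) (nat_lit 201)))))) (PT.nd (nat_lit 624) (PT.nd (nat_lit 312) (PT.nd (nat_lit 156) (PT.nd (nat_lit 78) (PT.lf (nat_lit 12920) (nat_lit 6) (nat_lit 170) (nat_lit 4) (nat_lit 195) (nat_lit 205) (nat_lit 200)) (PT.lf (nat_lit 12844) (nat_lit 6) (nat_lit 169) (nat_lit 4) (nat_lit 196) (nat_lit 205) (nat_lit 199))) (PT.nd (nat_lit 78) (PT.lf (nat_lit 12768) (nat_lit 6) (nat_lit 168) (nat_lit 4) (nat_lit 197) (nat_lit 205) (nat_lit 198)) (PT.lf (nat_lit 12768) (nat_lit 6) (nat_lit 168) (nat_lit 2) (nat_lit 198) (nat_lit 205) (nat_lit 197)))) (PT.nd (nat_lit 156) (PT.nd (nat_lit 78) (PT.lf (nat_lit 12844) (nat_lit 6) (nat_lit 169) (nat_lit 2) (nat_lit 199) (nat_lit 205) (nat_lit 196)) (PT.lf (nat_lit 12920) (nat_lit 6) (nat_lit 170) (nat_lit 2) (nat_lit 200) (nat_lit 205) (nat_lit 195))) (PT.nd (nat_lit 78) (PT.lf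 (nat_lit 12540) (nat_lit 6) (nat_lit 165) (nat_lit 2) (nat_lit 201) (nat_lit 205) (nat_lit 194)) (PT.lf (nat_lit 12084) (nat_lit 6) (nat_lit 159) (nat_lit 2) (nat_lit 202) (nat_lit 205) (nat_lit 193))))) (PT.nd (nat_lit 312) (PT.nd (nat_lit 156) (PT.nd (nat_lit 78) (PT.lf (nat_lit 11552) (nat_lit 6) (nat_lit 152) (nat_lit 2) (nat_lit 203) (nat_lit 205) (nat_lit 192)) (PT.lf (nat_lit 10944) (nat_lit 6) (nat_lit 144) (nat_lit 2) (nat_lit 204) (nat_lit 205) (nat_lit 191))) (PT.nd (nat_lit 78) (PT.lf (nat_lit 10260) (nat_lit 3) (nat_lit 135) (nat_lit 0) (nat_lit 205) (nat_lit 205) (nat_lit 190)) (PT.lf (nat_lit 9424) (nat_lit 6) (nat_lit 124) (nat_lit 0) (nat_lit 206) (nat_lit 205) (nat_lit 189)))) (PT.nd (nat_lit 156) (PT.nd (nat_lit 78) (PT.lf (nat_lit 8968) (nat_lit 6) (nat_lit 118) (nat_lit 0) (nat_lit 207) (nat_lit 205) (nat_lit 188)) (PT.lf (nat_lit 8512) (nat_lit 6) (nat_lit 112) (nat_lit 0)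 (nat_lit 208) (nat_lit 205) (nat_lit 187))) (PT.nd (nat_lit 78) (PT.lf (nat_lit 8056) (nat_lit 6) (nat_lit 106) (nat_lit 0) (nat_lit 209) (nat_lit 205) (nat_lit 186)) (PT.lf (nat_lit 7676) (nat_lit 6) (nat_lit 101) (nat_lit 0) (nat_lit 210) (nat_lit 205) (nat_lit 185))))))) (PT.nd (nat_lit 61230) (PT.nd (nat_lit 60606) (PT.nd (nat_lit 60294) (PT.nd (nat_lit 78) (PT.lf (nat_lit 7296) (nat_lit 6) (nat_lit 96) (nat_lit 0) (nat_lit 211) (nat_lit 205) (nat_lit 184)) (PT.nd (nat_lit 60138) (PT.lf (nat_lit 6992) (nat_lit 6) (nat_lit 92) (nat_lit 0) (nat_lit 212) (nat_lit 205) (nat_lit 183)) (PT.lf (nat_lit 6688) (nat_lit 6) (nat_lit 88) (nat_lit 5) (nat_lit 182) (nat_lit 206) (nat_lit 212)))) (PT.nd (nat_lit 156) (PT.nd (nat_lit 78) (PT.lf (nat_lit 7068) (nat_lit 6) (nat_lit 93) (nat_lit 5) (nat_lit 183) (nat_lit 206) (nat_lit 211)) (PT.lf (nat_lit 7372) (nat_lit 6) (nat_lit 97) (nat_lit 5) (nat_lit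 184) (nat_lit 206) (nat_lit 210))) (PT.nd (nat_lit 78) (PT.lf (nat_lit 7752) (nat_lit 6) (nat_lit 102) (nat_lit 5) (nat_lit 185) (nat_lit 206) (nat_lit 209)) (PT.lf (nat_lit 8132) (nat_lit 6) (nat_lit 107) (nat_lit 5) (nat_lit 186) (nat_lit 206) (nat_lit 208))))) (PT.nd (nat_lit 312) (PT.nd (nat_lit 156) (PT.nd (nat_lit 78) (PT.lf (nat_lit 8588) (nat_lit 6) (nat_lit 113) (nat_lit 5) (nat_lit 187) (nat_lit 206) (nat_lit 207)) (PT.lf (nat_lit 9044) (nat_lit 3) (nat_lit 119) (nat_lit 4) (nat_lit 188) (nat_lit 206) (nat_lit 206))) (PT.nd (nat_lit 78) (PT.lf (nat_lit 9424) (nat_lit 6) (nat_lit 124) (nat_lit 4) (nat_lit 189) (nat_lit 206) (nat_lit 205)) (PT.lf (nat_lit 10184) (nat_lit 6) (nat_lit 134) (nat_lit 4) (nat_lit 190) (nat_lit 206) (nat_lit 204)))) (PT.nd (nat_lit 156) (PT.nd (nat_lit 78) (PT.lf (nat_lit 10868) (nat_lit 6) (nat_lit 143) (nat_lit 4) (nat_lit 191) (nat_lit 206) (nat_lit 203))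 (PT.lf (nat_lit 11476) (nat_lit 6) (nat_lit 151) (nat_lit 4) (nat_lit 192) (nat_lit 206) (nat_lit 202))) (PT.nd (nat_lit 78) (PT.lf (nat_lit 12008) (nat_lit 6) (nat_lit 158) (nat_lit 4) (nat_lit 193) (nat_lit 206) (nat_lit 201)) (PT.lf (nat_lit 12464) (nat_lit 6) (nat_lit 164) (nat_lit 4) (nat_lit 194) (nat_lit 206) (nat_lit 200)))))) (PT.nd (nat_lit 624) (PT.nd (nat_lit 312) (PT.nd (nat_lit 156) (PT.nd (nat_lit 78) (PT.lf (nat_lit 12388) (nat_lit 6) (nat_lit 163) (nat_lit 4) (nat_lit 195) (nat_lit 206) (nat_lit 199)) (PT.lf (nat_lit 12312) (nat_lit 6) (nat_lit 162) (nat_lit 4) (nat_lit 196) (nat_lit 206) (nat_lit 198))) (PT.nd (nat_lit 78) (PT.lf (nat_lit 12236) (nat_lit 3) (nat_lit 161) (nat_lit 2) (nat_lit 197) (nat_lit 206) (nat_lit 197)) (PT.lf (nat_lit 12312) (nat_lit 6) (nat_lit 162) (nat_lit 2) (nat_lit 198) (nat_lit 206) (nat_lit 196)))) (PT.nd (nat_lit 156) (PT.nd (nat_lit 78) (PT.lf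 (nat_lit 12388) (nat_lit 6) (nat_lit 163) (nat_lit 2) (nat_lit 199) (nat_lit 206) (nat_lit 195)) (PT.lf (nat_lit 12464) (nat_lit 6) (nat_lit 164) (nat_lit 2) (nat_lit 200) (nat_lit 206) (nat_lit 194))) (PT.nd (nat_lit 78) (PT.lf (nat_lit 12008) (nat_lit 6) (nat_lit 158) (nat_lit 2) (nat_lit 201) (nat_lit 206) (nat_lit 193)) (PT.lf (nat_lit 11476) (nat_lit 6) (nat_lit 151) (nat_lit 2) (nat_lit 202) (nat_lit 206) (nat_lit 192))))) (PT.nd (nat_lit 312) (PT.nd (nat_lit 156) (PT.nd (nat_lit 78) (PT.lf (nat_lit 10868) (nat_lit 6) (nat_lit 143) (nat_lit 2) (nat_lit 203) (nat_lit 206) (nat_lit 191)) (PT.lf (nat_lit 10184) (nat_lit 6) (nat_lit 134) (nat_lit 2) (nat_lit 204) (nat_lit 206) (nat_lit 190))) (PT.nd (nat_lit 78) (PT.lf (nat_lit 9424) (nat_lit 6) (nat_lit 124) (nat_lit 2) (nat_lit 205) (nat_lit 206) (nat_lit 189)) (PT.lf (nat_lit 9044) (nat_lit 3) (nat_lit 119) (nat_lit 0) (nat_lit 206) (nat_lit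 206) (nat_lit 188)))) (PT.nd (nat_lit 156) (PT.nd (nat_lit 78) (PT.lf (nat_lit 8588) (nat_lit 6) (nat_lit 113) (nat_lit 0) (nat_lit 207) (nat_lit 206) (nat_lit 187)) (PT.lf (nat_lit 8132) (nat_lit 6) (nat_lit 107) (nat_lit 0) (nat_lit 208) (nat_lit 206) (nat_lit 186))) (PT.nd (nat_lit 78) (PT.lf (nat_lit 7752) (nat_lit 6) (nat_lit 102) (nat_lit 0) (nat_lit 209) (nat_lit 206) (nat_lit 185)) (PT.lf (nat_lit 7372) (nat_lit 6) (nat_lit 97) (nat_lit 0) (nat_lit 210) (nat_lit 206) (nat_lit 184))))))))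
noncomputable def pc9 : PT := (PT.nd (nat_lit 62322) (PT.nd (nat_lit 61074) (PT.nd (nat_lit 60450) (PT.nd (nat_lit 60138) (PT.nd (nat_lit 78) (PT.lf (nat_lit 7068) (nat_lit 6) (nat_lit 93) (nat_lit 0) (nat_lit 211) (nat_lit 206) (nat_lit 183)) (PT.nd (nat_lit 59982) (PT.lf (nat_lit 6688) (nat_lit 6) (nat_lit 88) (nat_lit 0) (nat_lit 212) (nat_lit 206) (nat_lit 182)) (PT.lf (nat_lit 6156) (nat_lit 6) (nat_lit 81) (nat_lit 5) (nat_lit 180) (nat_lit 207) (nat_lit 213)))) (PT.nd (nat_lit 156) (PT.nd (nat_lit 78) (PT.lf (nat_lit 6460) (nat_lit 6) (nat_lit 85) (nat_lit 5) (nat_lit 181) (nat_lit 207) (nat_lit 212)) (PT.lf (nat_lit 6764) (nat_lit 6) (nat_lit 89) (nat_lit 5) (nat_lit 182) (nat_lit 207) (nat_lit 211))) (PT.nd (nat_lit 78) (PT.lf (nat_lit 7144) (nat_lit 6) (nat_lit 94) (nat_lit 5) (nat_lit 183) (nat_lit 207) (nat_lit 210)) (PT.lf (nat_lit 7448) (nat_lit 6) (nat_lit 98) (nat_lit 5) (nat_lit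 184) (nat_lit 207) (nat_lit 209))))) (PT.nd (nat_lit 312) (PT.nd (nat_lit 156) (PT.nd (nat_lit 78) (PT.lf (nat_lit 7828) (nat_lit 6) (nat_lit 103) (nat_lit 5) (nat_lit 185) (nat_lit 207) (nat_lit 208)) (PT.lf (nat_lit 8208) (nat_lit 3) (nat_lit 108) (nat_lit 4) (nat_lit 186) (nat_lit 207) (nat_lit 207))) (PT.nd (nat_lit 78) (PT.lf (nat_lit 8588) (nat_lit 6) (nat_lit 113) (nat_lit 4) (nat_lit 187) (nat_lit 207) (nat_lit 206)) (PT.lf (nat_lit 8968) (nat_lit 6) (nat_lit 118) (nat_lit 4) (nat_lit 188) (nat_lit 207) (nat_lit 205)))) (PT.nd (nat_lit 156) (PT.nd (nat_lit 78) (PT.lf (nat_lit 9348) (nat_lit 6) (nat_lit 123) (nat_lit 4) (nat_lit 189) (nat_lit 207) (nat_lit 204)) (PT.lf (nat_lit 10108) (nat_lit 6) (nat_lit 133) (nat_lit 4) (nat_lit 190) (nat_lit 207) (nat_lit 203))) (PT.nd (nat_lit 78) (PT.lf (nat_lit 10792) (nat_lit 6) (nat_lit 142) (nat_lit 4) (nat_lit 191) (nat_lit 207) (nat_lit 202))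 (PT.lf (nat_lit 11400) (nat_lit 6) (nat_lit 150) (nat_lit 4) (nat_lit 192) (nat_lit 207) (nat_lit 201)))))) (PT.nd (nat_lit 624) (PT.nd (nat_lit 312) (PT.nd (nat_lit 156) (PT.nd (nat_lit 78) (PT.lf (nat_lit 11932) (nat_lit 6) (nat_lit 157) (nat_lit 4) (nat_lit 193) (nat_lit 207) (nat_lit 200)) (PT.lf (nat_lit 11856) (nat_lit 6) (nat_lit 156) (nat_lit 4) (nat_lit 194) (nat_lit 207) (nat_lit 199))) (PT.nd (nat_lit 78) (PT.lf (nat_lit 11780) (nat_lit 6) (nat_lit 155) (nat_lit 4) (nat_lit 195) (nat_lit 207) (nat_lit 198)) (PT.lf (nat_lit 11704) (nat_lit 6) (nat_lit 154) (nat_lit 4) (nat_lit 196) (nat_lit 207) (nat_lit 197)))) (PT.nd (nat_lit 156) (PT.nd (nat_lit 78) (PT.lf (nat_lit 11704) (nat_lit 6) (nat_lit 154) (nat_lit 2) (nat_lit 197) (nat_lit 207) (nat_lit 196)) (PT.lf (nat_lit 11780) (nat_lit 6) (nat_lit 155) (nat_lit 2) (nat_lit 198) (nat_lit 207) (nat_lit 195))) (PT.nd (nat_lit 78) (PT.lf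 (nat_lit 11856) (nat_lit 6) (nat_lit 156) (nat_lit 2) (nat_lit 199) (nat_lit 207) (nat_lit 194)) (PT.lf (nat_lit 11932) (nat_lit 6) (nat_lit 157) (nat_lit 2) (nat_lit 200) (nat_lit 207) (nat_lit 193))))) (PT.nd (nat_lit 312) (PT.nd (nat_lit 156) (PT.nd (nat_lit 78) (PT.lf (nat_lit 11400) (nat_lit 6) (nat_lit 150) (nat_lit 2) (nat_lit 201) (nat_lit 207) (nat_lit 192)) (PT.lf (nat_lit 10792) (nat_lit 6) (nat_lit 142) (nat_lit 2) (nat_lit 202) (nat_lit 207) (nat_lit 191))) (PT.nd (nat_lit 78) (PT.lf (nat_lit 10108) (nat_lit 6) (nat_lit 133) (nat_lit 2) (nat_lit 203) (nat_lit 207) (nat_lit 190)) (PT.lf (nat_lit 9348) (nat_lit 6) (nat_lit 123) (nat_lit 2) (nat_lit 204) (nat_lit 207) (nat_lit 189)))) (PT.nd (nat_lit 156) (PT.nd (nat_lit 78) (PT.lf (nat_lit 8968) (nat_lit 6) (nat_lit 118) (nat_lit 2) (nat_lit 205) (nat_lit 207) (nat_lit 188)) (PT.lf (nat_lit 8588) (nat_lit 6) (nat_lit 113) (nat_lit 2)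 (nat_lit 206) (nat_lit 207) (nat_lit 187))) (PT.nd (nat_lit 78) (PT.lf (nat_lit 8208) (nat_lit 3) (nat_lit 108) (nat_lit 0) (nat_lit 207) (nat_lit 207) (nat_lit 186)) (PT.lf (nat_lit 7828) (nat_lit 6) (nat_lit 103) (nat_lit 0) (nat_lit 208) (nat_lit 207) (nat_lit 185))))))) (PT.nd (nat_lit 60918) (PT.nd (nat_lit 60294) (PT.nd (nat_lit 234) (PT.nd (nat_lit 78) (PT.lf (nat_lit 7448) (nat_lit 6) (nat_lit 98) (nat_lit 0) (nat_lit 209) (nat_lit 207) (nat_lit 184)) (PT.nd (nat_lit 78) (PT.lf (nat_lit 7144) (nat_lit 6) (nat_lit 94) (nat_lit 0) (nat_lit 210) (nat_lit 207) (nat_lit 183)) (PT.lf (nat_lit 6764) (nat_lit 6) (nat_lit 89) (nat_lit 0) (nat_lit 211) (nat_lit 207) (nat_lit 182)))) (PT.nd (nat_lit 59904) (PT.nd (nat_lit 78) (PT.lf (nat_lit 6460) (nat_lit 6) (nat_lit 85) (nat_lit 0) (nat_lit 212) (nat_lit 207) (nat_lit 181)) (PT.lf (nat_lit 6156) (nat_lit 6) (nat_lit 81) (nat_lit 0) (nat_lit 213)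 (nat_lit 207) (nat_lit 180))) (PT.nd (nat_lit 78) (PT.lf (nat_lit 5928) (nat_lit 6) (nat_lit 78) (nat_lit 5) (nat_lit 179) (nat_lit 208) (nat_lit 213)) (PT.lf (nat_lit 6232) (nat_lit 6) (nat_lit 82) (nat_lit 5) (nat_lit 180) (nat_lit 208) (nat_lit 212))))) (PT.nd (nat_lit 312) (PT.nd (nat_lit 156) (PT.nd (nat_lit 78) (PT.lf (nat_lit 6536) (nat_lit 6) (nat_lit 86) (nat_lit 5) (nat_lit 181) (nat_lit 208) (nat_lit 211)) (PT.lf (nat_lit 6840) (nat_lit 6) (nat_lit 90) (nat_lit 5) (nat_lit 182) (nat_lit 208) (nat_lit 210))) (PT.nd (nat_lit 78) (PT.lf (nat_lit 7220) (nat_lit 6) (nat_lit 95) (nat_lit 5) (nat_lit 183) (nat_lit 208) (nat_lit 209)) (PT.lf (nat_lit 7524) (nat_lit 3) (nat_lit 99) (nat_lit 4) (nat_lit 184) (nat_lit 208) (nat_lit 208)))) (PT.nd (nat_lit 156) (PT.nd (nat_lit 78) (PT.lf (nat_lit 7828) (nat_lit 6) (nat_lit 103) (nat_lit 4) (nat_lit 185) (nat_lit 208) (nat_lit 207)) (PT.lf (nat_lit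 8132) (nat_lit 6) (nat_lit 107) (nat_lit 4) (nat_lit 186) (nat_lit 208) (nat_lit 206))) (PT.nd (nat_lit 78) (PT.lf (nat_lit 8512) (nat_lit 6) (nat_lit 112) (nat_lit 4) (nat_lit 187) (nat_lit 208) (nat_lit 205)) (PT.lf (nat_lit 8892) (nat_lit 6) (nat_lit 117) (nat_lit 4) (nat_lit 188) (nat_lit 208) (nat_lit 204)))))) (PT.nd (nat_lit 624) (PT.nd (nat_lit 312) (PT.nd (nat_lit 156) (PT.nd (nat_lit 78) (PT.lf (nat_lit 9272) (nat_lit 6) (nat_lit 122) (nat_lit 4) (nat_lit 189) (nat_lit 208) (nat_lit 203)) (PT.lf (nat_lit 10032) (nat_lit 6) (nat_lit 132) (nat_lit 4) (nat_lit 190) (nat_lit 208) (nat_lit 202))) (PT.nd (nat_lit 78) (PT.lf (nat_lit 10716) (nat_lit 6) (nat_lit 141) (nat_lit 4) (nat_lit 191) (nat_lit 208) (nat_lit 201)) (PT.lf (nat_lit 11324) (nat_lit 6) (nat_lit 149) (nat_lit 4) (nat_lit 192) (nat_lit 208) (nat_lit 200)))) (PT.nd (nat_lit 156) (PT.nd (nat_lit 78) (PT.lf (nat_lit 11248) (nat_lit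 6) (nat_lit 148) (nat_lit 4) (nat_lit 193) (nat_lit 208) (nat_lit 199)) (PT.lf (nat_lit 11172) (nat_lit 6) (nat_lit 147) (nat_lit 4) (nat_lit 194) (nat_lit 208) (nat_lit 198))) (PT.nd (nat_lit 78) (PT.lf (nat_lit 11096) (nat_lit 6) (nat_lit 146) (nat_lit 4) (nat_lit 195) (nat_lit 208) (nat_lit 197)) (PT.lf (nat_lit 11020) (nat_lit 3) (nat_lit 145) (nat_lit 2) (nat_lit 196) (nat_lit 208) (nat_lit 196))))) (PT.nd (nat_lit 312) (PT.nd (nat_lit 156) (PT.nd (nat_lit 78) (PT.lf (nat_lit 11096) (nat_lit 6) (nat_lit 146) (nat_lit 2) (nat_lit 197) (nat_lit 208) (nat_lit 195)) (PT.lf (nat_lit 11172) (nat_lit 6) (nat_lit 147) (nat_lit 2) (nat_lit 198) (nat_lit 208) (nat_lit 194))) (PT.nd (nat_lit 78) (PT.lf (nat_lit 11248) (nat_lit 6) (nat_lit 148) (nat_lit 2) (nat_lit 199) (nat_lit 208) (nat_lit 193)) (PT.lf (nat_lit 11324) (nat_lit 6) (nat_lit 149) (nat_lit 2) (nat_lit 200) (nat_lit 208) (nat_lit 192))))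 (PT.nd (nat_lit 156) (PT.nd (nat_lit 78) (PT.lf (nat_lit 10716) (nat_lit 6) (nat_lit 141) (nat_lit 2) (nat_lit 201) (nat_lit 208) (nat_lit 191)) (PT.lf (nat_lit 10032) (nat_lit 6) (nat_lit 132) (nat_lit 2) (nat_lit 202) (nat_lit 208) (nat_lit 190))) (PT.nd (nat_lit 78) (PT.lf (nat_lit 9272) (nat_lit 6) (nat_lit 122) (nat_lit 2) (nat_lit 203) (nat_lit 208) (nat_lit 189)) (PT.lf (nat_lit 8892) (nat_lit 6) (nat_lit 117) (nat_lit 2) (nat_lit 204) (nat_lit 208) (nat_lit 188))))))))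
noncomputable def pc10 : PT := (PT.nd (nat_lit 62010) (PT.nd (nat_lit 60762) (PT.nd (nat_lit 546) (PT.nd (nat_lit 234) (PT.nd (nat_lit 78) (PT.lf (nat_lit 8512) (nat_lit 6) (nat_lit 112) (nat_lit 2) (nat_lit 205) (nat_lit 208) (nat_lit 187)) (PT.nd (nat_lit 78) (PT.lf (nat_lit 8132) (nat_lit 6) (nat_lit 107) (nat_lit 2) (nat_lit 206) (nat_lit 208) (nat_lit 186)) (PT.lf (nat_lit 7828) (nat_lit 6) (nat_lit 103) (nat_lit 2) (nat_lit 207) (nat_lit 208) (nat_lit 185)))) (PT.nd (nat_lit 156) (PT.nd (nat_lit 78) (PT.lf (nat_lit 7524) (nat_lit 3) (nat_lit 99) (nat_lit 0) (nat_lit 208) (nat_lit 208) (nat_lit 184)) (PT.lf (nat_lit 7220) (nat_lit 6) (nat_lit 95) (nat_lit 0) (nat_lit 209) (nat_lit 208) (nat_lit 183))) (PT.nd (nat_lit 78) (PT.lf (nat_lit 6840) (nat_lit 6) (nat_lit 90) (nat_lit 0) (nat_lit 210) (nat_lit 208) (nat_lit 182)) (PT.lf (nat_lit 6536) (nat_lit 6) (nat_lit 86) (nat_lit 0) (nat_lit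 211) (nat_lit 208) (nat_lit 181))))) (PT.nd (nat_lit 59904) (PT.nd (nat_lit 59748) (PT.nd (nat_lit 78) (PT.lf (nat_lit 6232) (nat_lit 6) (nat_lit 82) (nat_lit 0) (nat_lit 212) (nat_lit 208) (nat_lit 180)) (PT.lf (nat_lit 5928) (nat_lit 6) (nat_lit 78) (nat_lit 0) (nat_lit 213) (nat_lit 208) (nat_lit 179))) (PT.nd (nat_lit 78) (PT.lf (nat_lit 5472) (nat_lit 6) (nat_lit 72) (nat_lit 5) (nat_lit 177) (nat_lit 209) (nat_lit 214)) (PT.lf (nat_lit 5700) (nat_lit 6) (nat_lit 75) (nat_lit 5) (nat_lit 178) (nat_lit 209) (nat_lit 213)))) (PT.nd (nat_lit 156) (PT.nd (nat_lit 78) (PT.lf (nat_lit 6004) (nat_lit 6) (nat_lit 79) (nat_lit 5) (nat_lit 179) (nat_lit 209) (nat_lit 212)) (PT.lf (nat_lit 6308) (nat_lit 6) (nat_lit 83) (nat_lit 5) (nat_lit 180) (nat_lit 209) (nat_lit 211))) (PT.nd (nat_lit 78) (PT.lf (nat_lit 6612) (nat_lit 6) (nat_lit 87) (nat_lit 5) (nat_lit 181) (nat_lit 209) (nat_lit 210)) (PT.lf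 (nat_lit 6916) (nat_lit 3) (nat_lit 91) (nat_lit 4) (nat_lit 182) (nat_lit 209) (nat_lit 209)))))) (PT.nd (nat_lit 624) (PT.nd (nat_lit 312) (PT.nd (nat_lit 156) (PT.nd (nat_lit 78) (PT.lf (nat_lit 7220) (nat_lit 6) (nat_lit 95) (nat_lit 4) (nat_lit 183) (nat_lit 209) (nat_lit 208)) (PT.lf (nat_lit 7448) (nat_lit 6) (nat_lit 98) (nat_lit 4) (nat_lit 184) (nat_lit 209) (nat_lit 207))) (PT.nd (nat_lit 78) (PT.lf (nat_lit 7752) (nat_lit 6) (nat_lit 102) (nat_lit 4) (nat_lit 185) (nat_lit 209) (nat_lit 206)) (PT.lf (nat_lit 8056) (nat_lit 6) (nat_lit 106) (nat_lit 4) (nat_lit 186) (nat_lit 209) (nat_lit 205)))) (PT.nd (nat_lit 156) (PT.nd (nat_lit 78) (PT.lf (nat_lit 8436) (nat_lit 6) (nat_lit 111) (nat_lit 4) (nat_lit 187) (nat_lit 209) (nat_lit 204)) (PT.lf (nat_lit 8816) (nat_lit 6) (nat_lit 116) (nat_lit 4) (nat_lit 188) (nat_lit 209) (nat_lit 203))) (PT.nd (nat_lit 78) (PT.lf (nat_lit 9196) (nat_lit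 6) (nat_lit 121) (nat_lit 4) (nat_lit 189) (nat_lit 209) (nat_lit 202)) (PT.lf (nat_lit 9956) (nat_lit 6) (nat_lit 131) (nat_lit 4) (nat_lit 190) (nat_lit 209) (nat_lit 201))))) (PT.nd (nat_lit 312) (PT.nd (nat_lit 156) (PT.nd (nat_lit 78) (PT.lf (nat_lit 10640) (nat_lit 6) (nat_lit 140) (nat_lit 4) (nat_lit 191) (nat_lit 209) (nat_lit 200)) (PT.lf (nat_lit 10564) (nat_lit 6) (nat_lit 139) (nat_lit 4) (nat_lit 192) (nat_lit 209) (nat_lit 199))) (PT.nd (nat_lit 78) (PT.lf (nat_lit 10488) (nat_lit 6) (nat_lit 138) (nat_lit 4) (nat_lit 193) (nat_lit 209) (nat_lit 198)) (PT.lf (nat_lit 10412) (nat_lit 6) (nat_lit 137) (nat_lit 4) (nat_lit 194) (nat_lit 209) (nat_lit 197)))) (PT.nd (nat_lit 156) (PT.nd (nat_lit 78) (PT.lf (nat_lit 10336) (nat_lit 6) (nat_lit 136) (nat_lit 4) (nat_lit 195) (nat_lit 209) (nat_lit 196)) (PT.lf (nat_lit 10336) (nat_lit 6) (nat_lit 136) (nat_lit 2) (nat_lit 196) (nat_lit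 209) (nat_lit 195))) (PT.nd (nat_lit 78) (PT.lf (nat_lit 10412) (nat_lit 6) (nat_lit 137) (nat_lit 2) (nat_lit 197) (nat_lit 209) (nat_lit 194)) (PT.lf (nat_lit 10488) (nat_lit 6) (nat_lit 138) (nat_lit 2) (nat_lit 198) (nat_lit 209) (nat_lit 193))))))) (PT.nd (nat_lit 1170) (PT.nd (nat_lit 546) (PT.nd (nat_lit 234) (PT.nd (nat_lit 78) (PT.lf (nat_lit 10564) (nat_lit 6) (nat_lit 139) (nat_lit 2) (nat_lit 199) (nat_lit 209) (nat_lit 192)) (PT.nd (nat_lit 78) (PT.lf (nat_lit 10640) (nat_lit 6) (nat_lit 140) (nat_lit 2) (nat_lit 200) (nat_lit 209) (nat_lit 191)) (PT.lf (nat_lit 9956) (nat_lit 6) (nat_lit 131) (nat_lit 2) (nat_lit 201) (nat_lit 209) (nat_lit 190)))) (PT.nd (nat_lit 156) (PT.nd (nat_lit 78) (PT.lf (nat_lit 9196) (nat_lit 6) (nat_lit 121) (nat_lit 2) (nat_lit 202) (nat_lit 209) (nat_lit 189)) (PT.lf (nat_lit 8816) (nat_lit 6) (nat_lit 116) (nat_lit 2) (nat_lit 203) (nat_lit 209) (nat_lit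 188))) (PT.nd (nat_lit 78) (PT.lf (nat_lit 8436) (nat_lit 6) (nat_lit 111) (nat_lit 2) (nat_lit 204) (nat_lit 209) (nat_lit 187)) (PT.lf (nat_lit 8056) (nat_lit 6) (nat_lit 106) (nat_lit 2) (nat_lit 205) (nat_lit 209) (nat_lit 186))))) (PT.nd (nat_lit 312) (PT.nd (nat_lit 156) (PT.nd (nat_lit 78) (PT.lf (nat_lit 7752) (nat_lit 6) (nat_lit 102) (nat_lit 2) (nat_lit 206) (nat_lit 209) (nat_lit 185)) (PT.lf (nat_lit 7448) (nat_lit 6) (nat_lit 98) (nat_lit 2) (nat_lit 207) (nat_lit 209) (nat_lit 184))) (PT.nd (nat_lit 78) (PT.lf (nat_lit 7220) (nat_lit 6) (nat_lit 95) (nat_lit 2) (nat_lit 208) (nat_lit 209) (nat_lit 183)) (PT.lf (nat_lit 6916) (nat_lit 3) (nat_lit 91) (nat_lit 0) (nat_lit 209) (nat_lit 209) (nat_lit 182)))) (PT.nd (nat_lit 156) (PT.nd (nat_lit 78) (PT.lf (nat_lit 6612) (nat_lit 6) (nat_lit 87) (nat_lit 0) (nat_lit 210) (nat_lit 209) (nat_lit 181)) (PT.lf (nat_lit 6308) (nat_lit 6)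 (nat_lit 83) (nat_lit 0) (nat_lit 211) (nat_lit 209) (nat_lit 180))) (PT.nd (nat_lit 78) (PT.lf (nat_lit 6004) (nat_lit 6) (nat_lit 79) (nat_lit 0) (nat_lit 212) (nat_lit 209) (nat_lit 179)) (PT.lf (nat_lit 5700) (nat_lit 6) (nat_lit 75) (nat_lit 0) (nat_lit 213) (nat_lit 209) (nat_lit 178)))))) (PT.nd (nat_lit 60060) (PT.nd (nat_lit 59748) (PT.nd (nat_lit 59592) (PT.nd (nat_lit 59514) (PT.lf (nat_lit 5472) (nat_lit 6) (nat_lit 72) (nat_lit 0) (nat_lit 214) (nat_lit 209) (nat_lit 177)) (PT.lf (nat_lit 5244) (nat_lit 6) (nat_lit 69) (nat_lit 5) (nat_lit 176) (nat_lit 210) (nat_lit 214))) (PT.nd (nat_lit 78) (PT.lf (nat_lit 5548) (nat_lit 6) (nat_lit 73) (nat_lit 5) (nat_lit 177) (nat_lit 210) (nat_lit 213)) (PT.lf (nat_lit 5776) (nat_lit 6) (nat_lit 76) (nat_lit 5) (nat_lit 178) (nat_lit 210) (nat_lit 212)))) (PT.nd (nat_lit 156) (PT.nd (nat_lit 78) (PT.lf (nat_lit 6080) (nat_lit 6) (nat_lit 80)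 (nat_lit 5) (nat_lit 179) (nat_lit 210) (nat_lit 211)) (PT.lf (nat_lit 6384) (nat_lit 3) (nat_lit 84) (nat_lit 4) (nat_lit 180) (nat_lit 210) (nat_lit 210))) (PT.nd (nat_lit 78) (PT.lf (nat_lit 6612) (nat_lit 6) (nat_lit 87) (nat_lit 4) (nat_lit 181) (nat_lit 210) (nat_lit 209)) (PT.lf (nat_lit 6840) (nat_lit 6) (nat_lit 90) (nat_lit 4) (nat_lit 182) (nat_lit 210) (nat_lit 208))))) (PT.nd (nat_lit 312) (PT.nd (nat_lit 156) (PT.nd (nat_lit 78) (PT.lf (nat_lit 7144) (nat_lit 6) (nat_lit 94) (nat_lit 4) (nat_lit 183) (nat_lit 210) (nat_lit 207)) (PT.lf (nat_lit 7372) (nat_lit 6) (nat_lit 97) (nat_lit 4) (nat_lit 184) (nat_lit 210) (nat_lit 206))) (PT.nd (nat_lit 78) (PT.lf (nat_lit 7676) (nat_lit 6) (nat_lit 101) (nat_lit 4) (nat_lit 185) (nat_lit 210) (nat_lit 205)) (PT.lf (nat_lit 7980) (nat_lit 6) (nat_lit 105) (nat_lit 4) (nat_lit 186) (nat_lit 210) (nat_lit 204)))) (PT.nd (nat_lit 156) (PT.nd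 (nat_lit 78) (PT.lf (nat_lit 8360) (nat_lit 6) (nat_lit 110) (nat_lit 4) (nat_lit 187) (nat_lit 210) (nat_lit 203)) (PT.lf (nat_lit 8740) (nat_lit 6) (nat_lit 115) (nat_lit 4) (nat_lit 188) (nat_lit 210) (nat_lit 202))) (PT.nd (nat_lit 78) (PT.lf (nat_lit 9120) (nat_lit 6) (nat_lit 120) (nat_lit 4) (nat_lit 189) (nat_lit 210) (nat_lit 201)) (PT.lf (nat_lit 9880) (nat_lit 6) (nat_lit 130) (nat_lit 4) (nat_lit 190) (nat_lit 210) (nat_lit 200))))))))
noncomputable def pc11 : PT := (PT.nd (nat_lit 61698) (PT.nd (nat_lit 1170) (PT.nd (nat_lit 546) (PT.nd (nat_lit 234) (PT.nd (nat_lit 78) (PT.lf (nat_lit 9804) (nat_lit 6) (nat_lit 129) (nat_lit 4) (nat_lit 191) (nat_lit 210) (nat_lit 199)) (PT.nd (nat_lit 78) (PT.lf (nat_lit 9728) (nat_lit 6) (nat_lit 128) (nat_lit 4) (nat_lit 192) (nat_lit 210) (nat_lit 198)) (PT.lf (nat_lit 9652) (nat_lit 6) (nat_lit 127) (nat_lit 4) (nat_lit 193) (nat_lit 210) (nat_lit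 197)))) (PT.nd (nat_lit 156) (PT.nd (nat_lit 78) (PT.lf (nat_lit 9576) (nat_lit 6) (nat_lit 126) (nat_lit 4) (nat_lit 194) (nat_lit 210) (nat_lit 196)) (PT.lf (nat_lit 9500) (nat_lit 3) (nat_lit 125) (nat_lit 2) (nat_lit 195) (nat_lit 210) (nat_lit 195))) (PT.nd (nat_lit 78) (PT.lf (nat_lit 9576) (nat_lit 6) (nat_lit 126) (nat_lit 2) (nat_lit 196) (nat_lit 210) (nat_lit 194)) (PT.lf (nat_lit 9652) (nat_lit 6) (nat_lit 127) (nat_lit 2) (nat_lit 197) (nat_lit 210) (nat_lit 193))))) (PT.nd (nat_lit 312) (PT.nd (nat_lit 156) (PT.nd (nat_lit 78) (PT.lf (nat_lit 9728) (nat_lit 6) (nat_lit 128) (nat_lit 2) (nat_lit 198) (nat_lit 210) (nat_lit 192)) (PT.lf (nat_lit 9804) (nat_lit 6) (nat_lit 129) (nat_lit 2) (nat_lit 199) (nat_lit 210) (nat_lit 191))) (PT.nd (nat_lit 78) (PT.lf (nat_lit 9880) (nat_lit 6) (nat_lit 130) (nat_lit 2) (nat_lit 200) (nat_lit 210) (nat_lit 190)) (PT.lf (nat_lit 9120) (nat_lit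 6) (nat_lit 120) (nat_lit 2) (nat_lit 201) (nat_lit 210) (nat_lit 189)))) (PT.nd (nat_lit 156) (PT.nd (nat_lit 78) (PT.lf (nat_lit 8740) (nat_lit 6) (nat_lit 115) (nat_lit 2) (nat_lit 202) (nat_lit 210) (nat_lit 188)) (PT.lf (nat_lit 8360) (nat_lit 6) (nat_lit 110) (nat_lit 2) (nat_lit 203) (nat_lit 210) (nat_lit 187))) (PT.nd (nat_lit 78) (PT.lf (nat_lit 7980) (nat_lit 6) (nat_lit 105) (nat_lit 2) (nat_lit 204) (nat_lit 210) (nat_lit 186)) (PT.lf (nat_lit 7676) (nat_lit 6) (nat_lit 101) (nat_lit 2) (nat_lit 205) (nat_lit 210) (nat_lit 185)))))) (PT.nd (nat_lit 624) (PT.nd (nat_lit 312) (PT.nd (nat_lit 156) (PT.nd (nat_lit 78) (PT.lf (nat_lit 7372) (nat_lit 6) (nat_lit 97) (nat_lit 2) (nat_lit 206) (nat_lit 210) (nat_lit 184)) (PT.lf (nat_lit 7144) (nat_lit 6) (nat_lit 94) (nat_lit 2) (nat_lit 207) (nat_lit 210) (nat_lit 183))) (PT.nd (nat_lit 78) (PT.lf (nat_lit 6840) (nat_lit 6) (nat_lit 90)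 (nat_lit 2) (nat_lit 208) (nat_lit 210) (nat_lit 182)) (PT.lf (nat_lit 6612) (nat_lit 6) (nat_lit 87) (nat_lit 2) (nat_lit 209) (nat_lit 210) (nat_lit 181)))) (PT.nd (nat_lit 156) (PT.nd (nat_lit 78) (PT.lf (nat_lit 6384) (nat_lit 3) (nat_lit 84) (nat_lit 0) (nat_lit 210) (nat_lit 210) (nat_lit 180)) (PT.lf (nat_lit 6080) (nat_lit 6) (nat_lit 80) (nat_lit 0) (nat_lit 211) (nat_lit 210) (nat_lit 179))) (PT.nd (nat_lit 78) (PT.lf (nat_lit 5776) (nat_lit 6) (nat_lit 76) (nat_lit 0) (nat_lit 212) (nat_lit 210) (nat_lit 178)) (PT.lf (nat_lit 5548) (nat_lit 6) (nat_lit 73) (nat_lit 0) (nat_lit 213) (nat_lit 210) (nat_lit 177))))) (PT.nd (nat_lit 59592) (PT.nd (nat_lit 59436) (PT.nd (nat_lit 59358) (PT.lf (nat_lit 5244) (nat_lit 6) (nat_lit 69) (nat_lit 0) (nat_lit 214) (nat_lit 210) (nat_lit 176)) (PT.lf (nat_lit 4864) (nat_lit 6) (nat_lit 64) (nat_lit 5) (nat_lit 174) (nat_lit 211) (nat_lit 215)))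 (PT.nd (nat_lit 78) (PT.lf (nat_lit 5092) (nat_lit 6) (nat_lit 67) (nat_lit 5) (nat_lit 175) (nat_lit 211) (nat_lit 214)) (PT.lf (nat_lit 5320) (nat_lit 6) (nat_lit 70) (nat_lit 5) (nat_lit 176) (nat_lit 211) (nat_lit 213)))) (PT.nd (nat_lit 156) (PT.nd (nat_lit 78) (PT.lf (nat_lit 5624) (nat_lit 6) (nat_lit 74) (nat_lit 5) (nat_lit 177) (nat_lit 211) (nat_lit 212)) (PT.lf (nat_lit 5852) (nat_lit 3) (nat_lit 77) (nat_lit 4) (nat_lit 178) (nat_lit 211) (nat_lit 211))) (PT.nd (nat_lit 78) (PT.lf (nat_lit 6080) (nat_lit 6) (nat_lit 80) (nat_lit 4) (nat_lit 179) (nat_lit 211) (nat_lit 210)) (PT.lf (nat_lit 6308) (nat_lit 6) (nat_lit 83) (nat_lit 4) (nat_lit 180) (nat_lit 211) (nat_lit 209))))))) (PT.nd (nat_lit 2106) (PT.nd (nat_lit 546) (PT.nd (nat_lit 234) (PT.nd (nat_lit 78) (PT.lf (nat_lit 6536) (nat_lit 6) (nat_lit 86) (nat_lit 4) (nat_lit 181) (nat_lit 211) (nat_lit 208)) (PT.nd (nat_lit 78)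 (PT.lf (nat_lit 6764) (nat_lit 6) (nat_lit 89) (nat_lit 4) (nat_lit 182) (nat_lit 211) (nat_lit 207)) (PT.lf (nat_lit 7068) (nat_lit 6) (nat_lit 93) (nat_lit 4) (nat_lit 183) (nat_lit 211) (nat_lit 206)))) (PT.nd (nat_lit 156) (PT.nd (nat_lit 78) (PT.lf (nat_lit 7296) (nat_lit 6) (nat_lit 96) (nat_lit 4) (nat_lit 184) (nat_lit 211) (nat_lit 205)) (PT.lf (nat_lit 7600) (nat_lit 6) (nat_lit 100) (nat_lit 4) (nat_lit 185) (nat_lit 211) (nat_lit 204))) (PT.nd (nat_lit 78) (PT.lf (nat_lit 7904) (nat_lit 6) (nat_lit 104) (nat_lit 4) (nat_lit 186) (nat_lit 211) (nat_lit 203)) (PT.lf (nat_lit 8284) (nat_lit 6) (nat_lit 109) (nat_lit 4) (nat_lit 187) (nat_lit 211) (nat_lit 202))))) (PT.nd (nat_lit 1248) (PT.nd (nat_lit 1092) (PT.nd (nat_lit 1014) (PT.lf (nat_lit 8664) (nat_lit 6) (nat_lit 114) (nat_lit 4) (nat_lit 188) (nat_lit 211) (nat_lit 201)) (PT.lf (nat_lit 8664) (nat_lit 6) (nat_lit 114) (nat_lit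 2) (nat_lit 201) (nat_lit 211) (nat_lit 188))) (PT.nd (nat_lit 78) (PT.lf (nat_lit 8284) (nat_lit 6) (nat_lit 109) (nat_lit 2) (nat_lit 202) (nat_lit 211) (nat_lit 187)) (PT.lf (nat_lit 7904) (nat_lit 6) (nat_lit 104) (nat_lit 2) (nat_lit 203) (nat_lit 211) (nat_lit 186)))) (PT.nd (nat_lit 156) (PT.nd (nat_lit 78) (PT.lf (nat_lit 7600) (nat_lit 6) (nat_lit 100) (nat_lit 2) (nat_lit 204) (nat_lit 211) (nat_lit 185)) (PT.lf (nat_lit 7296) (nat_lit 6) (nat_lit 96) (nat_lit 2) (nat_lit 205) (nat_lit 211) (nat_lit 184))) (PT.nd (nat_lit 78) (PT.lf (nat_lit 7068) (nat_lit 6) (nat_lit 93) (nat_lit 2) (nat_lit 206) (nat_lit 211) (nat_lit 183)) (PT.lf (nat_lit 6764) (nat_lit 6) (nat_lit 89) (nat_lit 2) (nat_lit 207) (nat_lit 211) (nat_lit 182)))))) (PT.nd (nat_lit 59670) (PT.nd (nat_lit 312) (PT.nd (nat_lit 156) (PT.nd (nat_lit 78) (PT.lf (nat_lit 6536) (nat_lit 6) (nat_lit 86) (nat_lit 2) (nat_lit 208)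 (nat_lit 211) (nat_lit 181)) (PT.lf (nat_lit 6308) (nat_lit 6) (nat_lit 83) (nat_lit 2) (nat_lit 209) (nat_lit 211) (nat_lit 180))) (PT.nd (nat_lit 78) (PT.lf (nat_lit 6080) (nat_lit 6) (nat_lit 80) (nat_lit 2) (nat_lit 210) (nat_lit 211) (nat_lit 179)) (PT.lf (nat_lit 5852) (nat_lit 3) (nat_lit 77) (nat_lit 0) (nat_lit 211) (nat_lit 211) (nat_lit 178)))) (PT.nd (nat_lit 156) (PT.nd (nat_lit 78) (PT.lf (nat_lit 5624) (nat_lit 6) (nat_lit 74) (nat_lit 0) (nat_lit 212) (nat_lit 211) (nat_lit 177)) (PT.lf (nat_lit 5320) (nat_lit 6) (nat_lit 70) (nat_lit 0) (nat_lit 213) (nat_lit 211) (nat_lit 176))) (PT.nd (nat_lit 78) (PT.lf (nat_lit 5092) (nat_lit 6) (nat_lit 67) (nat_lit 0) (nat_lit 214) (nat_lit 211) (nat_lit 175)) (PT.lf (nat_lit 4864) (nat_lit 6) (nat_lit 64) (nat_lit 0) (nat_lit 215) (nat_lit 211) (nat_lit 174))))) (PT.nd (nat_lit 312) (PT.nd (nat_lit 156) (PT.nd (nat_lit 78) (PT.lf (nat_lit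 4484) (nat_lit 6) (nat_lit 59) (nat_lit 5) (nat_lit 172) (nat_lit 212) (nat_lit 216)) (PT.lf (nat_lit 4712) (nat_lit 6) (nat_lit 62) (nat_lit 5) (nat_lit 173) (nat_lit 212) (nat_lit 215))) (PT.nd (nat_lit 78) (PT.lf (nat_lit 4940) (nat_lit 6) (nat_lit 65) (nat_lit 5) (nat_lit 174) (nat_lit 212) (nat_lit 214)) (PT.lf (nat_lit 5168) (nat_lit 6) (nat_lit 68) (nat_lit 5) (nat_lit 175) (nat_lit 212) (nat_lit 213)))) (PT.nd (nat_lit 156) (PT.nd (nat_lit 78) (PT.lf (nat_lit 5396) (nat_lit 3) (nat_lit 71) (nat_lit 4) (nat_lit 176) (nat_lit 212) (nat_lit 212)) (PT.lf (nat_lit 5624) (nat_lit 6) (nat_lit 74) (nat_lit 4) (nat_lit 177) (nat_lit 212) (nat_lit 211))) (PT.nd (nat_lit 78) (PT.lf (nat_lit 5776) (nat_lit 6) (nat_lit 76) (nat_lit 4) (nat_lit 178) (nat_lit 212) (nat_lit 210)) (PT.lf (nat_lit 6004) (nat_lit 6) (nat_lit 79) (nat_lit 4) (nat_lit 179) (nat_lit 212) (nat_lit 209))))))))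
noncomputable def pc12 : PT := (PT.nd (nat_lit 64896) (PT.nd (nat_lit 2808) (PT.nd (nat_lit 2184) (PT.nd (nat_lit 234) (PT.nd (nat_lit 78) (PT.lf (nat_lit 6232) (nat_lit 6) (nat_lit 82) (nat_lit 4) (nat_lit 180) (nat_lit 212) (nat_lit 208)) (PT.nd (nat_lit 78) (PT.lf (nat_lit 6460) (nat_lit 6) (nat_lit 85) (nat_lit 4) (nat_lit 181) (nat_lit 212) (nat_lit 207)) (PT.lf (nat_lit 6688) (nat_lit 6) (nat_lit 88) (nat_lit 4) (nat_lit 182) (nat_lit 212) (nat_lit 206)))) (PT.nd (nat_lit 1794) (PT.nd (nat_lit 1716) (PT.lf (nat_lit 6992) (nat_lit 6) (nat_lit 92) (nat_lit 4) (nat_lit 183) (nat_lit 212) (nat_lit 205)) (PT.lf (nat_lit 6992) (nat_lit 6) (nat_lit 92) (nat_lit 2) (nat_lit 205) (nat_lit 212) (nat_lit 183))) (PT.nd (nat_lit 78) (PT.lf (nat_lit 6688) (nat_lit 6) (nat_lit 88) (nat_lit 2) (nat_lit 206) (nat_lit 212) (nat_lit 182)) (PT.lf (nat_lit 6460) (nat_lit 6) (nat_lit 85) (nat_lit 2) (nat_lit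 207) (nat_lit 212) (nat_lit 181))))) (PT.nd (nat_lit 312) (PT.nd (nat_lit 156) (PT.nd (nat_lit 78) (PT.lf (nat_lit 6232) (nat_lit 6) (nat_lit 82) (nat_lit 2) (nat_lit 208) (nat_lit 212) (nat_lit 180)) (PT.lf (nat_lit 6004) (nat_lit 6) (nat_lit 79) (nat_lit 2) (nat_lit 209) (nat_lit 212) (nat_lit 179))) (PT.nd (nat_lit 78) (PT.lf (nat_lit 5776) (nat_lit 6) (nat_lit 76) (nat_lit 2) (nat_lit 210) (nat_lit 212) (nat_lit 178)) (PT.lf (nat_lit 5624) (nat_lit 6) (nat_lit 74) (nat_lit 2) (nat_lit 211) (nat_lit 212) (nat_lit 177)))) (PT.nd (nat_lit 156) (PT.nd (nat_lit 78) (PT.lf (nat_lit 5396) (nat_lit 3) (nat_lit 71) (nat_lit 0) (nat_lit 212) (nat_lit 212) (nat_lit 176)) (PT.lf (nat_lit 5168) (nat_lit 6) (nat_lit 68) (nat_lit 0) (nat_lit 213) (nat_lit 212) (nat_lit 175))) (PT.nd (nat_lit 78) (PT.lf (nat_lit 4940) (nat_lit 6) (nat_lit 65) (nat_lit 0) (nat_lit 214) (nat_lit 212) (nat_lit 174)) (PT.lf (nat_lit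 4712) (nat_lit 6) (nat_lit 62) (nat_lit 0) (nat_lit 215) (nat_lit 212) (nat_lit 173)))))) (PT.nd (nat_lit 59436) (PT.nd (nat_lit 59124) (PT.nd (nat_lit 58968) (PT.nd (nat_lit 58890) (PT.lf (nat_lit 4484) (nat_lit 6) (nat_lit 59) (nat_lit 0) (nat_lit 216) (nat_lit 212) (nat_lit 172)) (PT.lf (nat_lit 4104) (nat_lit 6) (nat_lit 54) (nat_lit 5) (nat_lit 170) (nat_lit 213) (nat_lit 217))) (PT.nd (nat_lit 78) (PT.lf (nat_lit 4332) (nat_lit 6) (nat_lit 57) (nat_lit 5) (nat_lit 171) (nat_lit 213) (nat_lit 216)) (PT.lf (nat_lit 4560) (nat_lit 6) (nat_lit 60) (nat_lit 5) (nat_lit 172) (nat_lit 213) (nat_lit 215)))) (PT.nd (nat_lit 156) (PT.nd (nat_lit 78) (PT.lf (nat_lit 4788) (nat_lit 6) (nat_lit 63) (nat_lit 5) (nat_lit 173) (nat_lit 213) (nat_lit 214)) (PT.lf (nat_lit 5016) (nat_lit 3) (nat_lit 66) (nat_lit 4) (nat_lit 174) (nat_lit 213) (nat_lit 213))) (PT.nd (nat_lit 78) (PT.lf (nat_lit 5168) (nat_lit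 6) (nat_lit 68) (nat_lit 4) (nat_lit 175) (nat_lit 213) (nat_lit 212)) (PT.lf (nat_lit 5320) (nat_lit 6) (nat_lit 70) (nat_lit 4) (nat_lit 176) (nat_lit 213) (nat_lit 211))))) (PT.nd (nat_lit 2340) (PT.nd (nat_lit 156) (PT.nd (nat_lit 78) (PT.lf (nat_lit 5548) (nat_lit 6) (nat_lit 73) (nat_lit 4) (nat_lit 177) (nat_lit 213) (nat_lit 210)) (PT.lf (nat_lit 5700) (nat_lit 6) (nat_lit 75) (nat_lit 4) (nat_lit 178) (nat_lit 213) (nat_lit 209))) (PT.nd (nat_lit 78) (PT.lf (nat_lit 5928) (nat_lit 6) (nat_lit 78) (nat_lit 4) (nat_lit 179) (nat_lit 213) (nat_lit 208)) (PT.lf (nat_lit 6156) (nat_lit 6) (nat_lit 81) (nat_lit 4) (nat_lit 180) (nat_lit 213) (nat_lit 207)))) (PT.nd (nat_lit 156) (PT.nd (nat_lit 78) (PT.lf (nat_lit 6156) (nat_lit 6) (nat_lit 81) (nat_lit 2) (nat_lit 207) (nat_lit 213) (nat_lit 180)) (PT.lf (nat_lit 5928) (nat_lit 6) (nat_lit 78) (nat_lit 2) (nat_lit 208) (nat_lit 213) (nat_lit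 179))) (PT.nd (nat_lit 78) (PT.lf (nat_lit 5700) (nat_lit 6) (nat_lit 75) (nat_lit 2) (nat_lit 209) (nat_lit 213) (nat_lit 178)) (PT.lf (nat_lit 5548) (nat_lit 6) (nat_lit 73) (nat_lit 2) (nat_lit 210) (nat_lit 213) (nat_lit 177))))))) (PT.nd (nat_lit 59826) (PT.nd (nat_lit 59202) (PT.nd (nat_lit 234) (PT.nd (nat_lit 78) (PT.lf (nat_lit 5320) (nat_lit 6) (nat_lit 70) (nat_lit 2) (nat_lit 211) (nat_lit 213) (nat_lit 176)) (PT.nd (nat_lit 78) (PT.lf (nat_lit 5168) (nat_lit 6) (nat_lit 68) (nat_lit 2) (nat_lit 212) (nat_lit 213) (nat_lit 175)) (PT.lf (nat_lit 5016) (nat_lit 3) (nat_lit 66) (nat_lit 0) (nat_lit 213) (nat_lit 213) (nat_lit 174)))) (PT.nd (nat_lit 156) (PT.nd (nat_lit 78) (PT.lf (nat_lit 4788) (nat_lit 6) (nat_lit 63) (nat_lit 0) (nat_lit 214) (nat_lit 213) (nat_lit 173)) (PT.lf (nat_lit 4560) (nat_lit 6) (nat_lit 60) (nat_lit 0) (nat_lit 215) (nat_lit 213) (nat_lit 172))) (PT.nd (nat_lit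 78) (PT.lf (nat_lit 4332) (nat_lit 6) (nat_lit 57) (nat_lit 0) (nat_lit 216) (nat_lit 213) (nat_lit 171)) (PT.lf (nat_lit 4104) (nat_lit 6) (nat_lit 54) (nat_lit 0) (nat_lit 217) (nat_lit 213) (nat_lit 170))))) (PT.nd (nat_lit 312) (PT.nd (nat_lit 156) (PT.nd (nat_lit 78) (PT.lf (nat_lit 3952) (nat_lit 6) (nat_lit 52) (nat_lit 5) (nat_lit 169) (nat_lit 214) (nat_lit 217)) (PT.lf (nat_lit 4180) (nat_lit 6) (nat_lit 55) (nat_lit 5) (nat_lit 170) (nat_lit 214) (nat_lit 216))) (PT.nd (nat_lit 78) (PT.lf (nat_lit 4408) (nat_lit 6) (nat_lit 58) (nat_lit 5) (nat_lit 171) (nat_lit 214) (nat_lit 215)) (PT.lf (nat_lit 4636) (nat_lit 3) (nat_lit 61) (nat_lit 4) (nat_lit 172) (nat_lit 214) (nat_lit 214)))) (PT.nd (nat_lit 156) (PT.nd (nat_lit 78) (PT.lf (nat_lit 4788) (nat_lit 6) (nat_lit 63) (nat_lit 4) (nat_lit 173) (nat_lit 214) (nat_lit 213)) (PT.lf (nat_lit 4940) (nat_lit 6) (nat_lit 65) (nat_lit 4)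 (nat_lit 174) (nat_lit 214) (nat_lit 212))) (PT.nd (nat_lit 78) (PT.lf (nat_lit 5092) (nat_lit 6) (nat_lit 67) (nat_lit 4) (nat_lit 175) (nat_lit 214) (nat_lit 211)) (PT.lf (nat_lit 5244) (nat_lit 6) (nat_lit 69) (nat_lit 4) (nat_lit 176) (nat_lit 214) (nat_lit 210)))))) (PT.nd (nat_lit 3042) (PT.nd (nat_lit 2730) (PT.nd (nat_lit 2574) (PT.nd (nat_lit 2496) (PT.lf (nat_lit 5472) (nat_lit 6) (nat_lit 72) (nat_lit 4) (nat_lit 177) (nat_lit 214) (nat_lit 209)) (PT.lf (nat_lit 5472) (nat_lit 6) (nat_lit 72) (nat_lit 2) (nat_lit 209) (nat_lit 214) (nat_lit 177))) (PT.nd (nat_lit 78) (PT.lf (nat_lit 5244) (nat_lit 6) (nat_lit 69) (nat_lit 2) (nat_lit 210) (nat_lit 214) (nat_lit 176)) (PT.lf (nat_lit 5092) (nat_lit 6) (nat_lit 67) (nat_lit 2) (nat_lit 211) (nat_lit 214) (nat_lit 175)))) (PT.nd (nat_lit 156) (PT.nd (nat_lit 78) (PT.lf (nat_lit 4940) (nat_lit 6) (nat_lit 65) (nat_lit 2) (nat_lit 212) (nat_lit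 214) (nat_lit 174)) (PT.lf (nat_lit 4788) (nat_lit 6) (nat_lit 63) (nat_lit 2) (nat_lit 213) (nat_lit 214) (nat_lit 173))) (PT.nd (nat_lit 78) (PT.lf (nat_lit 4636) (nat_lit 3) (nat_lit 61) (nat_lit 0) (nat_lit 214) (nat_lit 214) (nat_lit 172)) (PT.lf (nat_lit 4408) (nat_lit 6) (nat_lit 58) (nat_lit 0) (nat_lit 215) (nat_lit 214) (nat_lit 171))))) (PT.nd (nat_lit 58812) (PT.nd (nat_lit 58656) (PT.nd (nat_lit 78) (PT.lf (nat_lit 4180) (nat_lit 6) (nat_lit 55) (nat_lit 0) (nat_lit 216) (nat_lit 214) (nat_lit 170)) (PT.lf (nat_lit 3952) (nat_lit 6) (nat_lit 52) (nat_lit 0) (nat_lit 217) (nat_lit 214) (nat_lit 169))) (PT.nd (nat_lit 78) (PT.lf (nat_lit 3648) (nat_lit 6) (nat_lit 48) (nat_lit 5) (nat_lit 167) (nat_lit 215) (nat_lit 218)) (PT.lf (nat_lit 3800) (nat_lit 6) (nat_lit 50) (nat_lit 5) (nat_lit 168) (nat_lit 215) (nat_lit 217)))) (PT.nd (nat_lit 156) (PT.nd (nat_lit 78) (PT.lf (nat_lit 4028)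 (nat_lit 6) (nat_lit 53) (nat_lit 5) (nat_lit 169) (nat_lit 215) (nat_lit 216)) (PT.lf (nat_lit 4256) (nat_lit 3) (nat_lit 56) (nat_lit 4) (nat_lit 170) (nat_lit 215) (nat_lit 215))) (PT.nd (nat_lit 78) (PT.lf (nat_lit 4408) (nat_lit 6) (nat_lit 58) (nat_lit 4) (nat_lit 171) (nat_lit 215) (nat_lit 214)) (PT.lf (nat_lit 4560) (nat_lit 6) (nat_lit 60) (nat_lit 4) (nat_lit 172) (nat_lit 215) (nat_lit 213))))))))
noncomputable def pc13 : PT := (PT.nd (nat_lit 124566) (PT.nd (nat_lit 62244) (PT.nd (nat_lit 3354) (PT.nd (nat_lit 3042) (PT.nd (nat_lit 78) (PT.lf (nat_lit 4712) (nat_lit 6) (nat_lit 62) (nat_lit 4) (nat_lit 173) (nat_lit 215) (nat_lit 212)) (PT.nd (nat_lit 2886) (PT.lf (nat_lit 4864) (nat_lit 6) (nat_lit 64) (nat_lit 4) (nat_lit 174) (nat_lit 215) (nat_lit 211)) (PT.lf (nat_lit 4864) (nat_lit 6) (nat_lit 64) (nat_lit 2) (nat_lit 211) (nat_lit 215) (nat_lit 174)))) (PT.nd (nat_lit 156)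 (PT.nd (nat_lit 78) (PT.lf (nat_lit 4712) (nat_lit 6) (nat_lit 62) (nat_lit 2) (nat_lit 212) (nat_lit 215) (nat_lit 173)) (PT.lf (nat_lit 4560) (nat_lit 6) (nat_lit 60) (nat_lit 2) (nat_lit 213) (nat_lit 215) (nat_lit 172))) (PT.nd (nat_lit 78) (PT.lf (nat_lit 4408) (nat_lit 6) (nat_lit 58) (nat_lit 2) (nat_lit 214) (nat_lit 215) (nat_lit 171)) (PT.lf (nat_lit 4256) (nat_lit 3) (nat_lit 56) (nat_lit 0) (nat_lit 215) (nat_lit 215) (nat_lit 170))))) (PT.nd (nat_lit 58578) (PT.nd (nat_lit 156) (PT.nd (nat_lit 78) (PT.lf (nat_lit 4028) (nat_lit 6) (nat_lit 53) (nat_lit 0) (nat_lit 216) (nat_lit 215) (nat_lit 169)) (PT.lf (nat_lit 3800) (nat_lit 6) (nat_lit 50) (nat_lit 0) (nat_lit 217) (nat_lit 215) (nat_lit 168))) (PT.nd (nat_lit 58344) (PT.lf (nat_lit 3648) (nat_lit 6) (nat_lit 48) (nat_lit 0) (nat_lit 218) (nat_lit 215) (nat_lit 167)) (PT.lf (nat_lit 3344) (nat_lit 6) (nat_lit 44) (nat_lit 5) (nat_lit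 165) (nat_lit 216) (nat_lit 219)))) (PT.nd (nat_lit 156) (PT.nd (nat_lit 78) (PT.lf (nat_lit 3496) (nat_lit 6) (nat_lit 46) (nat_lit 5) (nat_lit 166) (nat_lit 216) (nat_lit 218)) (PT.lf (nat_lit 3724) (nat_lit 6) (nat_lit 49) (nat_lit 5) (nat_lit 167) (nat_lit 216) (nat_lit 217))) (PT.nd (nat_lit 78) (PT.lf (nat_lit 3876) (nat_lit 3) (nat_lit 51) (nat_lit 4) (nat_lit 168) (nat_lit 216) (nat_lit 216)) (PT.lf (nat_lit 4028) (nat_lit 6) (nat_lit 53) (nat_lit 4) (nat_lit 169) (nat_lit 216) (nat_lit 215)))))) (PT.nd (nat_lit 3666) (PT.nd (nat_lit 3354) (PT.nd (nat_lit 156) (PT.nd (nat_lit 78) (PT.lf (nat_lit 4180) (nat_lit 6) (nat_lit 55) (nat_lit 4) (nat_lit 170) (nat_lit 216) (nat_lit 214)) (PT.lf (nat_lit 4332) (nat_lit 6) (nat_lit 57) (nat_lit 4) (nat_lit 171) (nat_lit 216) (nat_lit 213))) (PT.nd (nat_lit 3120) (PT.lf (nat_lit 4484) (nat_lit 6) (nat_lit 59) (nat_lit 4) (nat_lit 172) (nat_lit 216)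 (nat_lit 212)) (PT.lf (nat_lit 4484) (nat_lit 6) (nat_lit 59) (nat_lit 2) (nat_lit 212) (nat_lit 216) (nat_lit 172)))) (PT.nd (nat_lit 156) (PT.nd (nat_lit 78) (PT.lf (nat_lit 4332) (nat_lit 6) (nat_lit 57) (nat_lit 2) (nat_lit 213) (nat_lit 216) (nat_lit 171)) (PT.lf (nat_lit 4180) (nat_lit 6) (nat_lit 55) (nat_lit 2) (nat_lit 214) (nat_lit 216) (nat_lit 170))) (PT.nd (nat_lit 78) (PT.lf (nat_lit 4028) (nat_lit 6) (nat_lit 53) (nat_lit 2) (nat_lit 215) (nat_lit 216) (nat_lit 169)) (PT.lf (nat_lit 3876) (nat_lit 3) (nat_lit 51) (nat_lit 0) (nat_lit 216) (nat_lit 216) (nat_lit 168))))) (PT.nd (nat_lit 58344) (PT.nd (nat_lit 156) (PT.nd (nat_lit 78) (PT.lf (nat_lit 3724) (nat_lit 6) (nat_lit 49) (nat_lit 0) (nat_lit 217) (nat_lit 216) (nat_lit 167)) (PT.lf (nat_lit 3496) (nat_lit 6) (nat_lit 46) (nat_lit 0) (nat_lit 218) (nat_lit 216) (nat_lit 166))) (PT.nd (nat_lit 58110) (PT.lf (nat_lit 3344)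 (nat_lit 6) (nat_lit 44) (nat_lit 0) (nat_lit 219) (nat_lit 216) (nat_lit 165)) (PT.lf (nat_lit 3040) (nat_lit 6) (nat_lit 40) (nat_lit 5) (nat_lit 163) (nat_lit 217) (nat_lit 220)))) (PT.nd (nat_lit 156) (PT.nd (nat_lit 78) (PT.lf (nat_lit 3192) (nat_lit 6) (nat_lit 42) (nat_lit 5) (nat_lit 164) (nat_lit 217) (nat_lit 219)) (PT.lf (nat_lit 3420) (nat_lit 6) (nat_lit 45) (nat_lit 5) (nat_lit 165) (nat_lit 217) (nat_lit 218))) (PT.nd (nat_lit 78) (PT.lf (nat_lit 3572) (nat_lit 3) (nat_lit 47) (nat_lit 4) (nat_lit 166) (nat_lit 217) (nat_lit 217)) (PT.lf (nat_lit 3724) (nat_lit 6) (nat_lit 49) (nat_lit 4) (nat_lit 167) (nat_lit 217) (nat_lit 216))))))) (PT.nd (nat_lit 62322) (PT.nd (nat_lit 3822) (PT.nd (nat_lit 3510) (PT.nd (nat_lit 78) (PT.lf (nat_lit 3800) (nat_lit 6) (nat_lit 50) (nat_lit 4) (nat_lit 168) (nat_lit 217) (nat_lit 215)) (PT.nd (nat_lit 78) (PT.lf (nat_lit 3952) (nat_lit 6) (nat_lit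 52) (nat_lit 4) (nat_lit 169) (nat_lit 217) (nat_lit 214)) (PT.lf (nat_lit 4104) (nat_lit 6) (nat_lit 54) (nat_lit 4) (nat_lit 170) (nat_lit 217) (nat_lit 213)))) (PT.nd (nat_lit 156) (PT.nd (nat_lit 78) (PT.lf (nat_lit 4104) (nat_lit 6) (nat_lit 54) (nat_lit 2) (nat_lit 213) (nat_lit 217) (nat_lit 170)) (PT.lf (nat_lit 3952) (nat_lit 6) (nat_lit 52) (nat_lit 2) (nat_lit 214) (nat_lit 217) (nat_lit 169))) (PT.nd (nat_lit 78) (PT.lf (nat_lit 3800) (nat_lit 6) (nat_lit 50) (nat_lit 2) (nat_lit 215) (nat_lit 217) (nat_lit 168)) (PT.lf (nat_lit 3724) (nat_lit 6) (nat_lit 49) (nat_lit 2) (nat_lit 216) (nat_lit 217) (nat_lit 167))))) (PT.nd (nat_lit 58188) (PT.nd (nat_lit 156) (PT.nd (nat_lit 78) (PT.lf (nat_lit 3572) (nat_lit 3) (nat_lit 47) (nat_lit 0) (nat_lit 217) (nat_lit 217) (nat_lit 166)) (PT.lf (nat_lit 3420) (nat_lit 6) (nat_lit 45) (nat_lit 0) (nat_lit 218) (nat_lit 217) (nat_lit 165))) (PT.nd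 (nat_lit 78) (PT.lf (nat_lit 3192) (nat_lit 6) (nat_lit 42) (nat_lit 0) (nat_lit 219) (nat_lit 217) (nat_lit 164)) (PT.lf (nat_lit 3040) (nat_lit 6) (nat_lit 40) (nat_lit 0) (nat_lit 220) (nat_lit 217) (nat_lit 163)))) (PT.nd (nat_lit 156) (PT.nd (nat_lit 78) (PT.lf (nat_lit 2888) (nat_lit 6) (nat_lit 38) (nat_lit 5) (nat_lit 162) (nat_lit 218) (nat_lit 220)) (PT.lf (nat_lit 3116) (nat_lit 6) (nat_lit 41) (nat_lit 5) (nat_lit 163) (nat_lit 218) (nat_lit 219))) (PT.nd (nat_lit 78) (PT.lf (nat_lit 3268) (nat_lit 3) (nat_lit 43) (nat_lit 4) (nat_lit 164) (nat_lit 218) (nat_lit 218)) (PT.lf (nat_lit 3420) (nat_lit 6) (nat_lit 45) (nat_lit 4) (nat_lit 165) (nat_lit 218) (nat_lit 217)))))) (PT.nd (nat_lit 62010) (PT.nd (nat_lit 3978) (PT.nd (nat_lit 3822) (PT.nd (nat_lit 78) (PT.lf (nat_lit 3496) (nat_lit 6) (nat_lit 46) (nat_lit 4) (nat_lit 166) (nat_lit 218) (nat_lit 216)) (PT.lf (nat_lit 3648) (nat_lit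 6) (nat_lit 48) (nat_lit 4) (nat_lit 167) (nat_lit 218) (nat_lit 215))) (PT.nd (nat_lit 78) (PT.lf (nat_lit 3648) (nat_lit 6) (nat_lit 48) (nat_lit 2) (nat_lit 215) (nat_lit 218) (nat_lit 167)) (PT.lf (nat_lit 3496) (nat_lit 6) (nat_lit 46) (nat_lit 2) (nat_lit 216) (nat_lit 218) (nat_lit 166)))) (PT.nd (nat_lit 156) (PT.nd (nat_lit 78) (PT.lf (nat_lit 3420) (nat_lit 6) (nat_lit 45) (nat_lit 2) (nat_lit 217) (nat_lit 218) (nat_lit 165)) (PT.lf (nat_lit 3268) (nat_lit 3) (nat_lit 43) (nat_lit 0) (nat_lit 218) (nat_lit 218) (nat_lit 164))) (PT.nd (nat_lit 78) (PT.lf (nat_lit 3116) (nat_lit 6) (nat_lit 41) (nat_lit 0) (nat_lit 219) (nat_lit 218) (nat_lit 163)) (PT.lf (nat_lit 2888) (nat_lit 6) (nat_lit 38) (nat_lit 0) (nat_lit 220) (nat_lit 218) (nat_lit 162))))) (PT.nd (nat_lit 312) (PT.nd (nat_lit 156) (PT.nd (nat_lit 78) (PT.lf (nat_lit 2660) (nat_lit 6) (nat_lit 35) (nat_lit 5) (nat_lit 160)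 (nat_lit 219) (nat_lit 221)) (PT.lf (nat_lit 2812) (nat_lit 6) (nat_lit 37) (nat_lit 5) (nat_lit 161) (nat_lit 219) (nat_lit 220))) (PT.nd (nat_lit 78) (PT.lf (nat_lit 2964) (nat_lit 3) (nat_lit 39) (nat_lit 4) (nat_lit 162) (nat_lit 219) (nat_lit 219)) (PT.lf (nat_lit 3116) (nat_lit 6) (nat_lit 41) (nat_lit 4) (nat_lit 163) (nat_lit 219) (nat_lit 218)))) (PT.nd (nat_lit 4056) (PT.nd (nat_lit 78) (PT.lf (nat_lit 3192) (nat_lit 6) (nat_lit 42) (nat_lit 4) (nat_lit 164) (nat_lit 219) (nat_lit 217)) (PT.lf (nat_lit 3344) (nat_lit 6) (nat_lit 44) (nat_lit 4) (nat_lit 165) (nat_lit 219) (nat_lit 216))) (PT.nd (nat_lit 78) (PT.lf (nat_lit 3344) (nat_lit 6) (nat_lit 44) (nat_lit 2) (nat_lit 216) (nat_lit 219) (nat_lit 165)) (PT.lf (nat_lit 3192) (nat_lit 6) (nat_lit 42) (nat_lit 2) (nat_lit 217) (nat_lit 219) (nat_lit 164))))))))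
noncomputable def pc14 : PT := (PT.nd (nat_lit 187590) (PT.nd (nat_lit 62790) (PT.nd (nat_lit 58032) (PT.nd (nat_lit 234) (PT.nd (nat_lit 78) (PT.lf (nat_lit 3116) (nat_lit 6) (nat_lit 41) (nat_lit 2) (nat_lit 218) (nat_lit 219) (nat_lit 163)) (PT.nd (nat_lit 78) (PT.lf (nat_lit 2964) (nat_lit 3) (nat_lit 39) (nat_lit 0) (nat_lit 219) (nat_lit 219) (nat_lit 162)) (PT.lf (nat_lit 2812) (nat_lit 6) (nat_lit 37) (nat_lit 0) (nat_lit 220) (nat_lit 219) (nat_lit 161)))) (PT.nd (nat_lit 57642) (PT.nd (nat_lit 57564) (PT.lf (nat_lit 2660) (nat_lit 6) (nat_lit 35) (nat_lit 0) (nat_lit 221) (nat_lit 219) (nat_lit 160)) (PT.lf (nat_lit 2432) (nat_lit 6) (nat_lit 32) (nat_lit 5) (nat_lit 158) (nat_lit 220) (nat_lit 222))) (PT.nd (nat_lit 78) (PT.lf (nat_lit 2584) (nat_lit 6) (nat_lit 34) (nat_lit 5) (nat_lit 159) (nat_lit 220) (nat_lit 221)) (PT.lf (nat_lit 2736) (nat_lit 3) (nat_lit 36) (nat_lit 4) (nat_lit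 160) (nat_lit 220) (nat_lit 220))))) (PT.nd (nat_lit 4446) (PT.nd (nat_lit 156) (PT.nd (nat_lit 78) (PT.lf (nat_lit 2812) (nat_lit 6) (nat_lit 37) (nat_lit 4) (nat_lit 161) (nat_lit 220) (nat_lit 219)) (PT.lf (nat_lit 2888) (nat_lit 6) (nat_lit 38) (nat_lit 4) (nat_lit 162) (nat_lit 220) (nat_lit 218))) (PT.nd (nat_lit 4212) (PT.lf (nat_lit 3040) (nat_lit 6) (nat_lit 40) (nat_lit 4) (nat_lit 163) (nat_lit 220) (nat_lit 217)) (PT.lf (nat_lit 3040) (nat_lit 6) (nat_lit 40) (nat_lit 2) (nat_lit 217) (nat_lit 220) (nat_lit 163)))) (PT.nd (nat_lit 156) (PT.nd (nat_lit 78) (PT.lf (nat_lit 2888) (nat_lit 6) (nat_lit 38) (nat_lit 2) (nat_lit 218) (nat_lit 220) (nat_lit 162)) (PT.lf (nat_lit 2812) (nat_lit 6) (nat_lit 37) (nat_lit 2) (nat_lit 219) (nat_lit 220) (nat_lit 161))) (PT.nd (nat_lit 78) (PT.lf (nat_lit 2736) (nat_lit 3) (nat_lit 36) (nat_lit 0) (nat_lit 220) (nat_lit 220) (nat_lit 160)) (PT.lf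 (nat_lit 2584) (nat_lit 6) (nat_lit 34) (nat_lit 0) (nat_lit 221) (nat_lit 220) (nat_lit 159)))))) (PT.nd (nat_lit 62400) (PT.nd (nat_lit 57564) (PT.nd (nat_lit 57408) (PT.nd (nat_lit 57330) (PT.lf (nat_lit 2432) (nat_lit 6) (nat_lit 32) (nat_lit 0) (nat_lit 222) (nat_lit 220) (nat_lit 158)) (PT.lf (nat_lit 2204) (nat_lit 6) (nat_lit 29) (nat_lit 5) (nat_lit 156) (nat_lit 221) (nat_lit 223))) (PT.nd (nat_lit 78) (PT.lf (nat_lit 2356) (nat_lit 6) (nat_lit 31) (nat_lit 5) (nat_lit 157) (nat_lit 221) (nat_lit 222)) (PT.lf (nat_lit 2508) (nat_lit 3) (nat_lit 33) (nat_lit 4) (nat_lit 158) (nat_lit 221) (nat_lit 221)))) (PT.nd (nat_lit 4680) (PT.nd (nat_lit 78) (PT.lf (nat_lit 2584) (nat_lit 6) (nat_lit 34) (nat_lit 4) (nat_lit 159) (nat_lit 221) (nat_lit 220)) (PT.lf (nat_lit 2660) (nat_lit 6) (nat_lit 35) (nat_lit 4) (nat_lit 160) (nat_lit 221) (nat_lit 219))) (PT.nd (nat_lit 78) (PT.lf (nat_lit 2660)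 (nat_lit 6) (nat_lit 35) (nat_lit 2) (nat_lit 219) (nat_lit 221) (nat_lit 160)) (PT.lf (nat_lit 2584) (nat_lit 6) (nat_lit 34) (nat_lit 2) (nat_lit 220) (nat_lit 221) (nat_lit 159))))) (PT.nd (nat_lit 57330) (PT.nd (nat_lit 156) (PT.nd (nat_lit 78) (PT.lf (nat_lit 2508) (nat_lit 3) (nat_lit 33) (nat_lit 0) (nat_lit 221) (nat_lit 221) (nat_lit 158)) (PT.lf (nat_lit 2356) (nat_lit 6) (nat_lit 31) (nat_lit 0) (nat_lit 222) (nat_lit 221) (nat_lit 157))) (PT.nd (nat_lit 57096) (PT.lf (nat_lit 2204) (nat_lit 6) (nat_lit 29) (nat_lit 0) (nat_lit 223) (nat_lit 221) (nat_lit 156)) (PT.lf (nat_lit 1976) (nat_lit 6) (nat_lit 26) (nat_lit 5) (nat_lit 154) (nat_lit 222) (nat_lit 224)))) (PT.nd (nat_lit 156) (PT.nd (nat_lit 78) (PT.lf (nat_lit 2128) (nat_lit 6) (nat_lit 28) (nat_lit 5) (nat_lit 155) (nat_lit 222) (nat_lit 223)) (PT.lf (nat_lit 2280) (nat_lit 3) (nat_lit 30) (nat_lit 4) (nat_lit 156) (nat_lit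 222) (nat_lit 222))) (PT.nd (nat_lit 78) (PT.lf (nat_lit 2356) (nat_lit 6) (nat_lit 31) (nat_lit 4) (nat_lit 157) (nat_lit 222) (nat_lit 221)) (PT.lf (nat_lit 2432) (nat_lit 6) (nat_lit 32) (nat_lit 4) (nat_lit 158) (nat_lit 222) (nat_lit 220))))))) (PT.nd (nat_lit 119496) (PT.nd (nat_lit 57330) (PT.nd (nat_lit 234) (PT.nd (nat_lit 78) (PT.lf (nat_lit 2432) (nat_lit 6) (nat_lit 32) (nat_lit 2) (nat_lit 220) (nat_lit 222) (nat_lit 158)) (PT.nd (nat_lit 78) (PT.lf (nat_lit 2356) (nat_lit 6) (nat_lit 31) (nat_lit 2) (nat_lit 221) (nat_lit 222) (nat_lit 157)) (PT.lf (nat_lit 2280) (nat_lit 3) (nat_lit 30) (nat_lit 0) (nat_lit 222) (nat_lit 222) (nat_lit 156)))) (PT.nd (nat_lit 56940) (PT.nd (nat_lit 78) (PT.lf (nat_lit 2128) (nat_lit 6) (nat_lit 28) (nat_lit 0) (nat_lit 223) (nat_lit 222) (nat_lit 155)) (PT.lf (nat_lit 1976) (nat_lit 6) (nat_lit 26) (nat_lit 0) (nat_lit 224) (nat_lit 222) (nat_lit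 154))) (PT.nd (nat_lit 78) (PT.lf (nat_lit 1748) (nat_lit 6) (nat_lit 23) (nat_lit 5) (nat_lit 152) (nat_lit 223) (nat_lit 225)) (PT.lf (nat_lit 1900) (nat_lit 6) (nat_lit 25) (nat_lit 5) (nat_lit 153) (nat_lit 223) (nat_lit 224))))) (PT.nd (nat_lit 5304) (PT.nd (nat_lit 156) (PT.nd (nat_lit 78) (PT.lf (nat_lit 2052) (nat_lit 3) (nat_lit 27) (nat_lit 4) (nat_lit 154) (nat_lit 223) (nat_lit 223)) (PT.lf (nat_lit 2128) (nat_lit 6) (nat_lit 28) (nat_lit 4) (nat_lit 155) (nat_lit 223) (nat_lit 222))) (PT.nd (nat_lit 5070) (PT.lf (nat_lit 2204) (nat_lit 6) (nat_lit 29) (nat_lit 4) (nat_lit 156) (nat_lit 223) (nat_lit 221)) (PT.lf (nat_lit 2204) (nat_lit 6) (nat_lit 29) (nat_lit 2) (nat_lit 221) (nat_lit 223) (nat_lit 156)))) (PT.nd (nat_lit 156) (PT.nd (nat_lit 78) (PT.lf (nat_lit 2128) (nat_lit 6) (nat_lit 28) (nat_lit 2) (nat_lit 222) (nat_lit 223) (nat_lit 155)) (PT.lf (nat_lit 2052) (nat_lit 3)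 (nat_lit 27) (nat_lit 0) (nat_lit 223) (nat_lit 223) (nat_lit 154))) (PT.nd (nat_lit 78) (PT.lf (nat_lit 1900) (nat_lit 6) (nat_lit 25) (nat_lit 0) (nat_lit 224) (nat_lit 223) (nat_lit 153)) (PT.lf (nat_lit 1748) (nat_lit 6) (nat_lit 23) (nat_lit 0) (nat_lit 225) (nat_lit 223) (nat_lit 152)))))) (PT.nd (nat_lit 5850) (PT.nd (nat_lit 312) (PT.nd (nat_lit 156) (PT.nd (nat_lit 78) (PT.lf (nat_lit 1520) (nat_lit 6) (nat_lit 20) (nat_lit 5) (nat_lit 150) (nat_lit 224) (nat_lit 226)) (PT.lf (nat_lit 1672) (nat_lit 6) (nat_lit 22) (nat_lit 5) (nat_lit 151) (nat_lit 224) (nat_lit 225))) (PT.nd (nat_lit 78) (PT.lf (nat_lit 1824) (nat_lit 3) (nat_lit 24) (nat_lit 4) (nat_lit 152) (nat_lit 224) (nat_lit 224)) (PT.lf (nat_lit 1900) (nat_lit 6) (nat_lit 25) (nat_lit 4) (nat_lit 153) (nat_lit 224) (nat_lit 223)))) (PT.nd (nat_lit 5382) (PT.nd (nat_lit 5304) (PT.lf (nat_lit 1976) (nat_lit 6) (nat_lit 26) (nat_lit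 4) (nat_lit 154) (nat_lit 224) (nat_lit 222)) (PT.lf (nat_lit 1976) (nat_lit 6) (nat_lit 26) (nat_lit 2) (nat_lit 222) (nat_lit 224) (nat_lit 154))) (PT.nd (nat_lit 78) (PT.lf (nat_lit 1900) (nat_lit 6) (nat_lit 25) (nat_lit 2) (nat_lit 223) (nat_lit 224) (nat_lit 153)) (PT.lf (nat_lit 1824) (nat_lit 3) (nat_lit 24) (nat_lit 0) (nat_lit 224) (nat_lit 224) (nat_lit 152))))) (PT.nd (nat_lit 56628) (PT.nd (nat_lit 56472) (PT.nd (nat_lit 78) (PT.lf (nat_lit 1672) (nat_lit 6) (nat_lit 22) (nat_lit 0) (nat_lit 225) (nat_lit 224) (nat_lit 151)) (PT.lf (nat_lit 1520) (nat_lit 6) (nat_lit 20) (nat_lit 0) (nat_lit 226) (nat_lit 224) (nat_lit 150))) (PT.nd (nat_lit 78) (PT.lf (nat_lit 1292) (nat_lit 6) (nat_lit 17) (nat_lit 5) (nat_lit 148) (nat_lit 225) (nat_lit 227)) (PT.lf (nat_lit 1444) (nat_lit 6) (nat_lit 19) (nat_lit 5) (nat_lit 149) (nat_lit 225) (nat_lit 226)))) (PT.nd (nat_lit 156) (PT.nd (nat_lit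 78) (PT.lf (nat_lit 1596) (nat_lit 3) (nat_lit 21) (nat_lit 4) (nat_lit 150) (nat_lit 225) (nat_lit 225)) (PT.lf (nat_lit 1672) (nat_lit 6) (nat_lit 22) (nat_lit 4) (nat_lit 151) (nat_lit 225) (nat_lit 224))) (PT.nd (nat_lit 5538) (PT.lf (nat_lit 1748) (nat_lit 6) (nat_lit 23) (nat_lit 4) (nat_lit 152) (nat_lit 225) (nat_lit 223)) (PT.lf (nat_lit 1748) (nat_lit 6) (nat_lit 23) (nat_lit 2) (nat_lit 223) (nat_lit 225) (nat_lit 152))))))))
noncomputable def pc15 : PT := (PT.nd (nat_lit 187746) (PT.nd (nat_lit 118794) (PT.nd (nat_lit 56628) (PT.nd (nat_lit 234) (PT.nd (nat_lit 78) (PT.lf (nat_lit 1672) (nat_lit 6) (nat_lit 22) (nat_lit 2) (nat_lit 224) (nat_lit 225) (nat_lit 151)) (PT.nd (nat_lit 78) (PT.lf (nat_lit 1596) (nat_lit 3) (nat_lit 21) (nat_lit 0) (nat_lit 225) (nat_lit 225) (nat_lit 150)) (PT.lf (nat_lit 1444) (nat_lit 6) (nat_lit 19) (nat_lit 0) (nat_lit 226) (nat_lit 225) (nat_lit 149))))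 (PT.nd (nat_lit 56238) (PT.nd (nat_lit 56160) (PT.lf (nat_lit 1292) (nat_lit 6) (nat_lit 17) (nat_lit 0) (nat_lit 227) (nat_lit 225) (nat_lit 148)) (PT.lf (nat_lit 1064) (nat_lit 6) (nat_lit 14) (nat_lit 5) (nat_lit 146) (nat_lit 226) (nat_lit 228))) (PT.nd (nat_lit 78) (PT.lf (nat_lit 1216) (nat_lit 6) (nat_lit 16) (nat_lit 5) (nat_lit 147) (nat_lit 226) (nat_lit 227)) (PT.lf (nat_lit 1368) (nat_lit 3) (nat_lit 18) (nat_lit 4) (nat_lit 148) (nat_lit 226) (nat_lit 226))))) (PT.nd (nat_lit 6006) (PT.nd (nat_lit 5850) (PT.nd (nat_lit 78) (PT.lf (nat_lit 1444) (nat_lit 6) (nat_lit 19) (nat_lit 4) (nat_lit 149) (nat_lit 226) (nat_lit 225)) (PT.lf (nat_lit 1520) (nat_lit 6) (nat_lit 20) (nat_lit 4) (nat_lit 150) (nat_lit 226) (nat_lit 224))) (PT.nd (nat_lit 78) (PT.lf (nat_lit 1520) (nat_lit 6) (nat_lit 20) (nat_lit 2) (nat_lit 224) (nat_lit 226) (nat_lit 150)) (PT.lf (nat_lit 1444) (nat_lit 6) (nat_lit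 19) (nat_lit 2) (nat_lit 225) (nat_lit 226) (nat_lit 149)))) (PT.nd (nat_lit 156) (PT.nd (nat_lit 78) (PT.lf (nat_lit 1368) (nat_lit 3) (nat_lit 18) (nat_lit 0) (nat_lit 226) (nat_lit 226) (nat_lit 148)) (PT.lf (nat_lit 1216) (nat_lit 6) (nat_lit 16) (nat_lit 0) (nat_lit 227) (nat_lit 226) (nat_lit 147))) (PT.nd (nat_lit 55926) (PT.lf (nat_lit 1064) (nat_lit 6) (nat_lit 14) (nat_lit 0) (nat_lit 228) (nat_lit 226) (nat_lit 146)) (PT.lf (nat_lit 836) (nat_lit 6) (nat_lit 11) (nat_lit 5) (nat_lit 144) (nat_lit 227) (nat_lit 229)))))) (PT.nd (nat_lit 6552) (PT.nd (nat_lit 6240) (PT.nd (nat_lit 156) (PT.nd (nat_lit 78) (PT.lf (nat_lit 988) (nat_lit 6) (nat_lit 13) (nat_lit 5) (nat_lit 145) (nat_lit 227) (nat_lit 228)) (PT.lf (nat_lit 1140) (nat_lit 3) (nat_lit 15) (nat_lit 4) (nat_lit 146) (nat_lit 227) (nat_lit 227))) (PT.nd (nat_lit 78) (PT.lf (nat_lit 1216) (nat_lit 6) (nat_lit 16) (nat_lit 4) (nat_lit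 147) (nat_lit 227) (nat_lit 226)) (PT.lf (nat_lit 1292) (nat_lit 6) (nat_lit 17) (nat_lit 4) (nat_lit 148) (nat_lit 227) (nat_lit 225)))) (PT.nd (nat_lit 156) (PT.nd (nat_lit 78) (PT.lf (nat_lit 1292) (nat_lit 6) (nat_lit 17) (nat_lit 2) (nat_lit 225) (nat_lit 227) (nat_lit 148)) (PT.lf (nat_lit 1216) (nat_lit 6) (nat_lit 16) (nat_lit 2) (nat_lit 226) (nat_lit 227) (nat_lit 147))) (PT.nd (nat_lit 78) (PT.lf (nat_lit 1140) (nat_lit 3) (nat_lit 15) (nat_lit 0) (nat_lit 227) (nat_lit 227) (nat_lit 146)) (PT.lf (nat_lit 988) (nat_lit 6) (nat_lit 13) (nat_lit 0) (nat_lit 228) (nat_lit 227) (nat_lit 145))))) (PT.nd (nat_lit 55926) (PT.nd (nat_lit 55770) (PT.nd (nat_lit 55692) (PT.lf (nat_lit 836) (nat_lit 6) (nat_lit 11) (nat_lit 0) (nat_lit 229) (nat_lit 227) (nat_lit 144)) (PT.lf (nat_lit 608) (nat_lit 6) (nat_lit 8) (nat_lit 5) (nat_lit 142) (nat_lit 228) (nat_lit 230))) (PT.nd (nat_lit 78) (PT.lf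 (nat_lit 760) (nat_lit 6) (nat_lit 10) (nat_lit 5) (nat_lit 143) (nat_lit 228) (nat_lit 229)) (PT.lf (nat_lit 912) (nat_lit 3) (nat_lit 12) (nat_lit 4) (nat_lit 144) (nat_lit 228) (nat_lit 228)))) (PT.nd (nat_lit 6318) (PT.nd (nat_lit 78) (PT.lf (nat_lit 988) (nat_lit 6) (nat_lit 13) (nat_lit 4) (nat_lit 145) (nat_lit 228) (nat_lit 227)) (PT.lf (nat_lit 1064) (nat_lit 6) (nat_lit 14) (nat_lit 4) (nat_lit 146) (nat_lit 228) (nat_lit 226))) (PT.nd (nat_lit 78) (PT.lf (nat_lit 1064) (nat_lit 6) (nat_lit 14) (nat_lit 2) (nat_lit 226) (nat_lit 228) (nat_lit 146)) (PT.lf (nat_lit 988) (nat_lit 6) (nat_lit 13) (nat_lit 2) (nat_lit 227) (nat_lit 228) (nat_lit 145))))))) (PT.nd (nat_lit 118170) (PT.nd (nat_lit 55926) (PT.nd (nat_lit 55614) (PT.nd (nat_lit 78) (PT.lf (nat_lit 912) (nat_lit 3) (nat_lit 12) (nat_lit 0) (nat_lit 228) (nat_lit 228) (nat_lit 144)) (PT.nd (nat_lit 78) (PT.lf (nat_lit 760) (nat_lit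 6) (nat_lit 10) (nat_lit 0) (nat_lit 229) (nat_lit 228) (nat_lit 143)) (PT.lf (nat_lit 608) (nat_lit 6) (nat_lit 8) (nat_lit 0) (nat_lit 230) (nat_lit 228) (nat_lit 142)))) (PT.nd (nat_lit 156) (PT.nd (nat_lit 78) (PT.lf (nat_lit 380) (nat_lit 6) (nat_lit 5) (nat_lit 5) (nat_lit 140) (nat_lit 229) (nat_lit 231)) (PT.lf (nat_lit 532) (nat_lit 6) (nat_lit 7) (nat_lit 5) (nat_lit 141) (nat_lit 229) (nat_lit 230))) (PT.nd (nat_lit 78) (PT.lf (nat_lit 684) (nat_lit 3) (nat_lit 9) (nat_lit 4) (nat_lit 142) (nat_lit 229) (nat_lit 229)) (PT.lf (nat_lit 760) (nat_lit 6) (nat_lit 10) (nat_lit 4) (nat_lit 143) (nat_lit 229) (nat_lit 228))))) (PT.nd (nat_lit 6708) (PT.nd (nat_lit 6552) (PT.nd (nat_lit 6474) (PT.lf (nat_lit 836) (nat_lit 6) (nat_lit 11) (nat_lit 4) (nat_lit 144) (nat_lit 229) (nat_lit 227)) (PT.lf (nat_lit 836) (nat_lit 6) (nat_lit 11) (nat_lit 2) (nat_lit 227) (nat_lit 229) (nat_lit 144)))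 (PT.nd (nat_lit 78) (PT.lf (nat_lit 760) (nat_lit 6) (nat_lit 10) (nat_lit 2) (nat_lit 228) (nat_lit 229) (nat_lit 143)) (PT.lf (nat_lit 684) (nat_lit 3) (nat_lit 9) (nat_lit 0) (nat_lit 229) (nat_lit 229) (nat_lit 142)))) (PT.nd (nat_lit 55380) (PT.nd (nat_lit 78) (PT.lf (nat_lit 532) (nat_lit 6) (nat_lit 7) (nat_lit 0) (nat_lit 230) (nat_lit 229) (nat_lit 141)) (PT.lf (nat_lit 380) (nat_lit 6) (nat_lit 5) (nat_lit 0) (nat_lit 231) (nat_lit 229) (nat_lit 140))) (PT.nd (nat_lit 78) (PT.lf (nat_lit 304) (nat_lit 6) (nat_lit 4) (nat_lit 5) (nat_lit 139) (nat_lit 230) (nat_lit 231)) (PT.lf (nat_lit 456) (nat_lit 3) (nat_lit 6) (nat_lit 4) (nat_lit 140) (nat_lit 230) (nat_lit 230)))))) (PT.nd (nat_lit 62322) (PT.nd (nat_lit 6942) (PT.nd (nat_lit 6786) (PT.nd (nat_lit 78) (PT.lf (nat_lit 532) (nat_lit 6) (nat_lit 7) (nat_lit 4) (nat_lit 141) (nat_lit 230) (nat_lit 229)) (PT.lf (nat_lit 608) (nat_lit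 6) (nat_lit 8) (nat_lit 4) (nat_lit 142) (nat_lit 230) (nat_lit 228))) (PT.nd (nat_lit 78) (PT.lf (nat_lit 608) (nat_lit 6) (nat_lit 8) (nat_lit 2) (nat_lit 228) (nat_lit 230) (nat_lit 142)) (PT.lf (nat_lit 532) (nat_lit 6) (nat_lit 7) (nat_lit 2) (nat_lit 229) (nat_lit 230) (nat_lit 141)))) (PT.nd (nat_lit 55224) (PT.nd (nat_lit 78) (PT.lf (nat_lit 456) (nat_lit 3) (nat_lit 6) (nat_lit 0) (nat_lit 230) (nat_lit 230) (nat_lit 140)) (PT.lf (nat_lit 304) (nat_lit 6) (nat_lit 4) (nat_lit 0) (nat_lit 231) (nat_lit 230) (nat_lit 139))) (PT.nd (nat_lit 78) (PT.lf (nat_lit 76) (nat_lit 6) (nat_lit 1) (nat_lit 5) (nat_lit 137) (nat_lit 231) (nat_lit 232)) (PT.lf (nat_lit 228) (nat_lit 3) (nat_lit 3) (nat_lit 4) (nat_lit 138) (nat_lit 231) (nat_lit 231))))) (PT.nd (nat_lit 7176) (PT.nd (nat_lit 7020) (PT.nd (nat_lit 78) (PT.lf (nat_lit 304) (nat_lit 6) (nat_lit 4) (nat_lit 4) (nat_lit 139) (nat_lit 231)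 (nat_lit 230)) (PT.lf (nat_lit 380) (nat_lit 6) (nat_lit 5) (nat_lit 4) (nat_lit 140) (nat_lit 231) (nat_lit 229))) (PT.nd (nat_lit 78) (PT.lf (nat_lit 380) (nat_lit 6) (nat_lit 5) (nat_lit 2) (nat_lit 229) (nat_lit 231) (nat_lit 140)) (PT.lf (nat_lit 304) (nat_lit 6) (nat_lit 4) (nat_lit 2) (nat_lit 230) (nat_lit 231) (nat_lit 139)))) (PT.nd (nat_lit 55146) (PT.nd (nat_lit 78) (PT.lf (nat_lit 228) (nat_lit 3) (nat_lit 3) (nat_lit 0) (nat_lit 231) (nat_lit 231) (nat_lit 138)) (PT.lf (nat_lit 76) (nat_lit 6) (nat_lit 1) (nat_lit 0) (nat_lit 232) (nat_lit 231) (nat_lit 137))) (PT.nd (nat_lit 7332) (PT.lf (nat_lit 76) (nat_lit 6) (nat_lit 1) (nat_lit 4) (nat_lit 137) (nat_lit 232) (nat_lit 231)) (PT.lf (nat_lit 76) (nat_lit 6) (nat_lit 1) (nat_lit 2) (nat_lit 231) (nat_lit 232) (nat_lit 137))))))))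
noncomputable def xc0 : XT := (XT.nd (nat_lit 249678) (nat_lit 0) (nat_lit 0) (XT.nd (nat_lit 186966) (nat_lit 0) (nat_lit 0) (XT.nd (nat_lit 124644) (nat_lit 0) (nat_lit 0) (XT.nd (nat_lit 62400) (nat_lit 0) (nat_lit 0) (XT.nd (nat_lit 62244) (nat_lit 0) (nat_lit 0) (XT.lf (nat_lit 0) (nat_lit 35014272583) (nat_lit 152) (nat_lit 20657553568) (nat_lit 0) (nat_lit 34909081260) (nat_lit 3) (nat_lit 5) (nat_lit 5) (nat_lit 4) (nat_lit 3) (nat_lit 4) (nat_lit 499) (nat_lit 351) (nat_lit 350)) (XT.nd (nat_lit 78) (nat_lit 0) (nat_lit 0) (XT.lf (nat_lit 0) (nat_lit 1967823950) (nat_lit 152) (nat_lit 35588921452) (nat_lit 0) (nat_lit 1967823950) (nat_lit 3) (nat_lit 5) (nat_lit 5) (nat_lit 4) (nat_lit 3) (nat_lit 4) (nat_lit 496) (nat_lit 352) (nat_lit 352)) (XT.lf (nat_lit 0) (nat_lit 14034226164) (nat_lit 152) (nat_lit 54742956839) (nat_lit 0) (nat_lit 13923775275) (nat_lit 3) (nat_lit 5) (nat_lit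 5) (nat_lit 4) (nat_lit 3) (nat_lit 4) (nat_lit 497) (nat_lit 352) (nat_lit 351)))) (XT.nd (nat_lit 78) (nat_lit 0) (nat_lit 0) (XT.lf (nat_lit 0) (nat_lit 24322273631) (nat_lit 152) (nat_lit 38115930853) (nat_lit 0) (nat_lit 24106631419) (nat_lit 3) (nat_lit 5) (nat_lit 5) (nat_lit 4) (nat_lit 3) (nat_lit 4) (nat_lit 498) (nat_lit 352) (nat_lit 350)) (XT.nd (nat_lit 62088) (nat_lit 0) (nat_lit 152) (XT.lf (nat_lit 0) (nat_lit 34824285654) (nat_lit 152) (nat_lit 21257176790) (nat_lit 0) (nat_lit 34508461230) (nat_lit 3) (nat_lit 5) (nat_lit 5) (nat_lit 4) (nat_lit 3) (nat_lit 4) (nat_lit 499) (nat_lit 352) (nat_lit 349)) (XT.lf (nat_lit 0) (nat_lit 20780870878) (nat_lit 76) (nat_lit 7675631091) (nat_lit 76) (nat_lit 7675631091) (nat_lit 5) (nat_lit 4) (nat_lit 6) (nat_lit 5) (nat_lit 6) (nat_lit 4) (nat_lit 494) (nat_lit 353) (nat_lit 353))))) (XT.nd (nat_lit 234) (nat_lit 0) (nat_lit 0) (XT.nd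 (nat_lit 78) (nat_lit 152) (nat_lit 0) (XT.lf (nat_lit 0) (nat_lit 63811220269) (nat_lit 76) (nat_lit 5941014419) (nat_lit 76) (nat_lit 5821561782) (nat_lit 5) (nat_lit 4) (nat_lit 6) (nat_lit 5) (nat_lit 6) (nat_lit 4) (nat_lit 495) (nat_lit 353) (nat_lit 352)) (XT.nd (nat_lit 78) (nat_lit 0) (nat_lit 0) (XT.lf (nat_lit 0) (nat_lit 3890044409) (nat_lit 152) (nat_lit 71500323198) (nat_lit 0) (nat_lit 3663620087) (nat_lit 3) (nat_lit 5) (nat_lit 5) (nat_lit 4) (nat_lit 3) (nat_lit 4) (nat_lit 496) (nat_lit 353) (nat_lit 351)) (XT.lf (nat_lit 0) (nat_lit 13834739888) (nat_lit 152) (nat_lit 55372561222) (nat_lit 0) (nat_lit 13503124243) (nat_lit 3) (nat_lit 5) (nat_lit 5) (nat_lit 4) (nat_lit 3) (nat_lit 4) (nat_lit 497) (nat_lit 353) (nat_lit 350)))) (XT.nd (nat_lit 78) (nat_lit 0) (nat_lit 0) (XT.lf (nat_lit 0) (nat_lit 23976232322) (nat_lit 152) (nat_lit 39038034369) (nat_lit 0) (nat_lit 23544434465)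 (nat_lit 3) (nat_lit 5) (nat_lit 5) (nat_lit 4) (nat_lit 3) (nat_lit 4) (nat_lit 498) (nat_lit 353) (nat_lit 349)) (XT.nd (nat_lit 61932) (nat_lit 0) (nat_lit 228) (XT.lf (nat_lit 0) (nat_lit 34338668122) (nat_lit 152) (nat_lit 22457850908) (nat_lit 0) (nat_lit 33811458635) (nat_lit 3) (nat_lit 5) (nat_lit 5) (nat_lit 4) (nat_lit 3) (nat_lit 4) (nat_lit 499) (nat_lit 353) (nat_lit 348)) (XT.lf (nat_lit 0) (nat_lit 16196456180) (nat_lit 152) (nat_lit 673919210) (nat_lit 0) (nat_lit 16196456180) (nat_lit 6) (nat_lit 5) (nat_lit 8) (nat_lit 4) (nat_lit 6) (nat_lit 4) (nat_lit 492) (nat_lit 354) (nat_lit 354)))))) (XT.nd (nat_lit 468) (nat_lit 0) (nat_lit 0) (XT.nd (nat_lit 234) (nat_lit 152) (nat_lit 0) (XT.nd (nat_lit 78) (nat_lit 0) (nat_lit 0) (XT.lf (nat_lit 0) (nat_lit 19736564795) (nat_lit 76) (nat_lit 24755377955) (nat_lit 76) (nat_lit 24629952687) (nat_lit 5) (nat_lit 4) (nat_lit 6) (nat_lit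 5) (nat_lit 6) (nat_lit 4) (nat_lit 493) (nat_lit 354) (nat_lit 353)) (XT.nd (nat_lit 78) (nat_lit 0) (nat_lit 0) (XT.lf (nat_lit 0) (nat_lit 41236396734) (nat_lit 76) (nat_lit 15638822702) (nat_lit 76) (nat_lit 15393944798) (nat_lit 5) (nat_lit 4) (nat_lit 6) (nat_lit 5) (nat_lit 6) (nat_lit 4) (nat_lit 494) (nat_lit 354) (nat_lit 352)) (XT.lf (nat_lit 0) (nat_lit 63176022843) (nat_lit 76) (nat_lit 6382989464) (nat_lit 76) (nat_lit 6024347144) (nat_lit 5) (nat_lit 4) (nat_lit 6) (nat_lit 5) (nat_lit 6) (nat_lit 4) (nat_lit 495) (nat_lit 354) (nat_lit 351)))) (XT.nd (nat_lit 78) (nat_lit 0) (nat_lit 0) (XT.lf (nat_lit 0) (nat_lit 3526701034) (nat_lit 152) (nat_lit 72468531890) (nat_lit 0) (nat_lit 3073313285) (nat_lit 3) (nat_lit 5) (nat_lit 5) (nat_lit 4) (nat_lit 3) (nat_lit 4) (nat_lit 496) (nat_lit 354) (nat_lit 350)) (XT.nd (nat_lit 78) (nat_lit 0) (nat_lit 0) (XT.lf (nat_lit 0) (nat_lit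 13324841480) (nat_lit 152) (nat_lit 56633269046) (nat_lit 0) (nat_lit 12771271518) (nat_lit 3) (nat_lit 5) (nat_lit 5) (nat_lit 4) (nat_lit 3) (nat_lit 4) (nat_lit 497) (nat_lit 354) (nat_lit 349)) (XT.lf (nat_lit 0) (nat_lit 23326757692) (nat_lit 152) (nat_lit 40577312795) (nat_lit 0) (nat_lit 22677776099) (nat_lit 3) (nat_lit 5) (nat_lit 5) (nat_lit 4) (nat_lit 3) (nat_lit 4) (nat_lit 498) (nat_lit 354) (nat_lit 348))))) (XT.nd (nat_lit 61932) (nat_lit 0) (nat_lit 152) (XT.nd (nat_lit 61776) (nat_lit 0) (nat_lit 228) (XT.lf (nat_lit 0) (nat_lit 33556263756) (nat_lit 152) (nat_lit 24262434670) (nat_lit 0) (nat_lit 32816413945) (nat_lit 3) (nat_lit 5) (nat_lit 5) (nat_lit 4) (nat_lit 3) (nat_lit 4) (nat_lit 499) (nat_lit 354) (nat_lit 347)) (XT.nd (nat_lit 78) (nat_lit 0) (nat_lit 0) (XT.lf (nat_lit 0) (nat_lit 4785757880) (nat_lit 152) (nat_lit 20723985701) (nat_lit 0) (nat_lit 4785757880) (nat_lit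 6) (nat_lit 5) (nat_lit 8) (nat_lit 4) (nat_lit 6) (nat_lit 4) (nat_lit 490) (nat_lit 355) (nat_lit 355)) (XT.lf (nat_lit 0) (nat_lit 20854239629) (nat_lit 152) (nat_lit 21715373119) (nat_lit 0) (nat_lit 20722543097) (nat_lit 6) (nat_lit 5) (nat_lit 8) (nat_lit 4) (nat_lit 6) (nat_lit 4) (nat_lit 491) (nat_lit 355) (nat_lit 354)))) (XT.nd (nat_lit 156) (nat_lit 0) (nat_lit 0) (XT.nd (nat_lit 78) (nat_lit 76) (nat_lit 0) (XT.lf (nat_lit 0) (nat_lit 32356522418) (nat_lit 152) (nat_lit 1682784608) (nat_lit 0) (nat_lit 32099400619) (nat_lit 6) (nat_lit 5) (nat_lit 8) (nat_lit 4) (nat_lit 6) (nat_lit 4) (nat_lit 492) (nat_lit 355) (nat_lit 353)) (XT.lf (nat_lit 0) (nat_lit 19069607498) (nat_lit 76) (nat_lit 25219451752) (nat_lit 76) (nat_lit 24842877316) (nat_lit 5) (nat_lit 4) (nat_lit 6) (nat_lit 5) (nat_lit 6) (nat_lit 4) (nat_lit 493) (nat_lit 355) (nat_lit 352))) (XT.nd (nat_lit 78) (nat_lit 0)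 (nat_lit 0) (XT.lf (nat_lit 0) (nat_lit 40259587034) (nat_lit 76) (nat_lit 16257311025) (nat_lit 76) (nat_lit 15766972174) (nat_lit 5) (nat_lit 4) (nat_lit 6) (nat_lit 5) (nat_lit 6) (nat_lit 4) (nat_lit 494) (nat_lit 355) (nat_lit 351)) (XT.lf (nat_lit 0) (nat_lit 61904115617) (nat_lit 76) (nat_lit 7148539240) (nat_lit 76) (nat_lit 6549853326) (nat_lit 5) (nat_lit 4) (nat_lit 6) (nat_lit 5) (nat_lit 6) (nat_lit 4) (nat_lit 495) (nat_lit 355) (nat_lit 350))))))) (XT.nd (nat_lit 62478) (nat_lit 0) (nat_lit 0) (XT.nd (nat_lit 62010) (nat_lit 0) (nat_lit 152) (XT.nd (nat_lit 234) (nat_lit 0) (nat_lit 0) (XT.nd (nat_lit 78) (nat_lit 0) (nat_lit 0) (XT.lf (nat_lit 0) (nat_lit 2844752673) (nat_lit 152) (nat_lit 74084774237) (nat_lit 0) (nat_lit 2163322001) (nat_lit 3) (nat_lit 5) (nat_lit 5) (nat_lit 4) (nat_lit 3) (nat_lit 4) (nat_lit 496) (nat_lit 355) (nat_lit 349)) (XT.nd (nat_lit 78) (nat_lit 0)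 (nat_lit 0) (XT.lf (nat_lit 0) (nat_lit 12503316896) (nat_lit 152) (nat_lit 58528081996) (nat_lit 0) (nat_lit 11726474593) (nat_lit 3) (nat_lit 5) (nat_lit 5) (nat_lit 4) (nat_lit 3) (nat_lit 4) (nat_lit 497) (nat_lit 355) (nat_lit 348)) (XT.lf (nat_lit 0) (nat_lit 22372303372) (nat_lit 152) (nat_lit 42737431081) (nat_lit 0) (nat_lit 21504592850) (nat_lit 3) (nat_lit 5) (nat_lit 5) (nat_lit 4) (nat_lit 3) (nat_lit 4) (nat_lit 498) (nat_lit 355) (nat_lit 347)))) (XT.nd (nat_lit 61620) (nat_lit 0) (nat_lit 380) (XT.lf (nat_lit 0) (nat_lit 32475209689) (nat_lit 152) (nat_lit 26675224705) (nat_lit 0) (nat_lit 31520958006) (nat_lit 3) (nat_lit 5) (nat_lit 5) (nat_lit 4) (nat_lit 3) (nat_lit 4) (nat_lit 499) (nat_lit 355) (nat_lit 346)) (XT.nd (nat_lit 78) (nat_lit 0) (nat_lit 0) (XT.lf (nat_lit 0) (nat_lit 15790100188) (nat_lit 76) (nat_lit 5999921945) (nat_lit 76) (nat_lit 5999921945) (nat_lit 8)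 (nat_lit 4) (nat_lit 9) (nat_lit 5) (nat_lit 9) (nat_lit 4) (nat_lit 488) (nat_lit 356) (nat_lit 356)) (XT.lf (nat_lit 0) (nat_lit 55156812053) (nat_lit 76) (nat_lit 1506377501) (nat_lit 76) (nat_lit 1363947702) (nat_lit 8) (nat_lit 4) (nat_lit 9) (nat_lit 5) (nat_lit 9) (nat_lit 4) (nat_lit 489) (nat_lit 356) (nat_lit 355))))) (XT.nd (nat_lit 234) (nat_lit 76) (nat_lit 0) (XT.nd (nat_lit 78) (nat_lit 0) (nat_lit 0) (XT.lf (nat_lit 0) (nat_lit 9533306322) (nat_lit 152) (nat_lit 41799664900) (nat_lit 0) (nat_lit 9263328432) (nat_lit 6) (nat_lit 5) (nat_lit 8) (nat_lit 4) (nat_lit 6) (nat_lit 4) (nat_lit 490) (nat_lit 356) (nat_lit 354)) (XT.nd (nat_lit 78) (nat_lit 0) (nat_lit 0) (XT.lf (nat_lit 0) (nat_lit 20647943716) (nat_lit 152) (nat_lit 22402012805) (nat_lit 0) (nat_lit 20252540558) (nat_lit 6) (nat_lit 5) (nat_lit 8) (nat_lit 4) (nat_lit 6) (nat_lit 4) (nat_lit 491) (nat_lit 356) (nat_lit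 353)) (XT.lf (nat_lit 0) (nat_lit 31990144149) (nat_lit 152) (nat_lit 2688420663) (nat_lit 0) (nat_lit 31475288356) (nat_lit 6) (nat_lit 5) (nat_lit 8) (nat_lit 4) (nat_lit 6) (nat_lit 4) (nat_lit 492) (nat_lit 356) (nat_lit 352)))) (XT.nd (nat_lit 78) (nat_lit 0) (nat_lit 0) (XT.lf (nat_lit 0) (nat_lit 17734104910) (nat_lit 76) (nat_lit 26023279017) (nat_lit 76) (nat_lit 25394658807) (nat_lit 5) (nat_lit 4) (nat_lit 6) (nat_lit 5) (nat_lit 6) (nat_lit 4) (nat_lit 493) (nat_lit 356) (nat_lit 351)) (XT.nd (nat_lit 78) (nat_lit 0) (nat_lit 0) (XT.lf (nat_lit 0) (nat_lit 38628986920) (nat_lit 76) (nat_lit 17208199742) (nat_lit 76) (nat_lit 16471232470) (nat_lit 5) (nat_lit 4) (nat_lit 6) (nat_lit 5) (nat_lit 6) (nat_lit 4) (nat_lit 494) (nat_lit 356) (nat_lit 350)) (XT.lf (nat_lit 0) (nat_lit 59992470239) (nat_lit 76) (nat_lit 8239486483) (nat_lit 76) (nat_lit 7399331533) (nat_lit 5) (nat_lit 4)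 (nat_lit 6) (nat_lit 5) (nat_lit 6) (nat_lit 4) (nat_lit 495) (nat_lit 356) (nat_lit 349)))))) (XT.nd (nat_lit 61854) (nat_lit 0) (nat_lit 152) (XT.nd (nat_lit 234) (nat_lit 0) (nat_lit 0) (XT.nd (nat_lit 78) (nat_lit 0) (nat_lit 0) (XT.lf (nat_lit 0) (nat_lit 1842575637) (nat_lit 152) (nat_lit 76352898438) (nat_lit 0) (nat_lit 931479589) (nat_lit 3) (nat_lit 5) (nat_lit 5) (nat_lit 4) (nat_lit 3) (nat_lit 4) (nat_lit 496) (nat_lit 356) (nat_lit 348)) (XT.nd (nat_lit 78) (nat_lit 0) (nat_lit 0) (XT.lf (nat_lit 0) (nat_lit 11368210125) (nat_lit 152) (nat_lit 61061511532) (nat_lit 0) (nat_lit 10366245857) (nat_lit 3) (nat_lit 5) (nat_lit 5) (nat_lit 4) (nat_lit 3) (nat_lit 4) (nat_lit 497) (nat_lit 356) (nat_lit 347)) (XT.lf (nat_lit 0) (nat_lit 21110596853) (nat_lit 152) (nat_lit 45523532366) (nat_lit 0) (nat_lit 20022091424) (nat_lit 3) (nat_lit 5) (nat_lit 5) (nat_lit 4) (nat_lit 3) (nat_lit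 4) (nat_lit 498) (nat_lit 356) (nat_lit 346)))) (XT.nd (nat_lit 61464) (nat_lit 0) (nat_lit 380) (XT.lf (nat_lit 0) (nat_lit 31092931982) (nat_lit 152) (nat_lit 29701965749) (nat_lit 0) (nat_lit 29922006399) (nat_lit 3) (nat_lit 5) (nat_lit 5) (nat_lit 4) (nat_lit 3) (nat_lit 4) (nat_lit 499) (nat_lit 356) (nat_lit 345)) (XT.nd (nat_lit 78) (nat_lit 76) (nat_lit 0) (XT.lf (nat_lit 0) (nat_lit 9339516357) (nat_lit 152) (nat_lit 6846550720) (nat_lit 0) (nat_lit 9339516357) (nat_lit 9) (nat_lit 5) (nat_lit 11) (nat_lit 4) (nat_lit 9) (nat_lit 4) (nat_lit 486) (nat_lit 357) (nat_lit 357)) (XT.lf (nat_lit 0) (nat_lit 8433579680) (nat_lit 76) (nat_lit 22487796500) (nat_lit 76) (nat_lit 22338245212) (nat_lit 8) (nat_lit 4) (nat_lit 9) (nat_lit 5) (nat_lit 9) (nat_lit 4) (nat_lit 487) (nat_lit 357) (nat_lit 356))))) (XT.nd (nat_lit 234) (nat_lit 76) (nat_lit 0) (XT.nd (nat_lit 78) (nat_lit 152) (nat_lit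 0) (XT.lf (nat_lit 0) (nat_lit 31225400350) (nat_lit 76) (nat_lit 12325909812) (nat_lit 76) (nat_lit 12033928725) (nat_lit 8) (nat_lit 4) (nat_lit 9) (nat_lit 5) (nat_lit 9) (nat_lit 4) (nat_lit 488) (nat_lit 357) (nat_lit 355)) (XT.nd (nat_lit 78) (nat_lit 152) (nat_lit 0) (XT.lf (nat_lit 0) (nat_lit 54464107239) (nat_lit 76) (nat_lit 2000552598) (nat_lit 76) (nat_lit 1572924084) (nat_lit 8) (nat_lit 4) (nat_lit 9) (nat_lit 5) (nat_lit 9) (nat_lit 4) (nat_lit 489) (nat_lit 357) (nat_lit 354)) (XT.lf (nat_lit 0) (nat_lit 9148609139) (nat_lit 152) (nat_lit 42855582758) (nat_lit 0) (nat_lit 8608010556) (nat_lit 6) (nat_lit 5) (nat_lit 8) (nat_lit 4) (nat_lit 6) (nat_lit 4) (nat_lit 490) (nat_lit 357) (nat_lit 353)))) (XT.nd (nat_lit 156) (nat_lit 76) (nat_lit 0) (XT.nd (nat_lit 78) (nat_lit 0) (nat_lit 0) (XT.lf (nat_lit 0) (nat_lit 20103164177) (nat_lit 152) (nat_lit 23776927033) (nat_lit 0) (nat_lit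 19443112957) (nat_lit 6) (nat_lit 5) (nat_lit 8) (nat_lit 4) (nat_lit 6) (nat_lit 4) (nat_lit 491) (nat_lit 357) (nat_lit 352)) (XT.lf (nat_lit 0) (nat_lit 31292905225) (nat_lit 152) (nat_lit 4367140958) (nat_lit 0) (nat_lit 30519089589) (nat_lit 6) (nat_lit 5) (nat_lit 8) (nat_lit 4) (nat_lit 6) (nat_lit 4) (nat_lit 492) (nat_lit 357) (nat_lit 351))) (XT.nd (nat_lit 78) (nat_lit 0) (nat_lit 0) (XT.lf (nat_lit 0) (nat_lit 15726877264) (nat_lit 76) (nat_lit 27168773622) (nat_lit 76) (nat_lit 26286610925) (nat_lit 5) (nat_lit 4) (nat_lit 6) (nat_lit 5) (nat_lit 6) (nat_lit 4) (nat_lit 493) (nat_lit 357) (nat_lit 350)) (XT.lf (nat_lit 0) (nat_lit 36340714010) (nat_lit 76) (nat_lit 18493752874) (nat_lit 76) (nat_lit 17508402498) (nat_lit 5) (nat_lit 4) (nat_lit 6) (nat_lit 5) (nat_lit 6) (nat_lit 4) (nat_lit 494) (nat_lit 357) (nat_lit 349))))))))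
noncomputable def xc1 : XT := (XT.nd (nat_lit 124254) (nat_lit 0) (nat_lit 0) (XT.nd (nat_lit 62166) (nat_lit 0) (nat_lit 0) (XT.nd (nat_lit 61698) (nat_lit 0) (nat_lit 228) (XT.nd (nat_lit 234) (nat_lit 0) (nat_lit 0) (XT.nd (nat_lit 78) (nat_lit 152) (nat_lit 0) (XT.lf (nat_lit 0) (nat_lit 57436535174) (nat_lit 76) (nat_lit 9658428688) (nat_lit 76) (nat_lit 8574804333) (nat_lit 5) (nat_lit 4) (nat_lit 6) (nat_lit 5) (nat_lit 6) (nat_lit 4) (nat_lit 495) (nat_lit 357) (nat_lit 348)) (XT.nd (nat_lit 78) (nat_lit 76) (nat_lit 0) (XT.lf (nat_lit 0) (nat_lit 525005406) (nat_lit 152) (nat_lit 111457646) (nat_lit 76) (nat_lit 78534261970) (nat_lit 4) (nat_lit 5) (nat_lit 6) (nat_lit 5) (nat_lit 5) (nat_lit 4) (nat_lit 496) (nat_lit 357) (nat_lit 347)) (XT.lf (nat_lit 0) (nat_lit 9916818532) (nat_lit 152) (nat_lit 64239589629) (nat_lit 0) (nat_lit 8687346670) (nat_lit 3) (nat_lit 5) (nat_lit 5) (nat_lit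 4) (nat_lit 3) (nat_lit 4) (nat_lit 497) (nat_lit 357) (nat_lit 346)))) (XT.nd (nat_lit 78) (nat_lit 0) (nat_lit 0) (XT.lf (nat_lit 0) (nat_lit 19538634072) (nat_lit 152) (nat_lit 48942250223) (nat_lit 0) (nat_lit 18226742056) (nat_lit 3) (nat_lit 5) (nat_lit 5) (nat_lit 4) (nat_lit 3) (nat_lit 4) (nat_lit 498) (nat_lit 357) (nat_lit 345)) (XT.nd (nat_lit 61308) (nat_lit 0) (nat_lit 608) (XT.lf (nat_lit 0) (nat_lit 29406139497) (nat_lit 152) (nat_lit 33349864331) (nat_lit 0) (nat_lit 28015752096) (nat_lit 3) (nat_lit 5) (nat_lit 5) (nat_lit 4) (nat_lit 3) (nat_lit 4) (nat_lit 499) (nat_lit 357) (nat_lit 344)) (XT.lf (nat_lit 0) (nat_lit 18866082849) (nat_lit 76) (nat_lit 2307292438) (nat_lit 76) (nat_lit 2307292438) (nat_lit 11) (nat_lit 4) (nat_lit 12) (nat_lit 5) (nat_lit 12) (nat_lit 4) (nat_lit 484) (nat_lit 358) (nat_lit 358))))) (XT.nd (nat_lit 234) (nat_lit 152) (nat_lit 0) (XT.nd (nat_lit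 78) (nat_lit 76) (nat_lit 0) (XT.lf (nat_lit 0) (nat_lit 6895401731) (nat_lit 152) (nat_lit 35322545239) (nat_lit 0) (nat_lit 6738372878) (nat_lit 9) (nat_lit 5) (nat_lit 11) (nat_lit 4) (nat_lit 9) (nat_lit 4) (nat_lit 485) (nat_lit 358) (nat_lit 357)) (XT.nd (nat_lit 78) (nat_lit 76) (nat_lit 0) (XT.lf (nat_lit 0) (nat_lit 18652442988) (nat_lit 152) (nat_lit 14058371871) (nat_lit 0) (nat_lit 18345862846) (nat_lit 9) (nat_lit 5) (nat_lit 11) (nat_lit 4) (nat_lit 9) (nat_lit 4) (nat_lit 486) (nat_lit 358) (nat_lit 356)) (XT.lf (nat_lit 0) (nat_lit 7706239625) (nat_lit 76) (nat_lit 23006680353) (nat_lit 76) (nat_lit 22557670412) (nat_lit 8) (nat_lit 4) (nat_lit 9) (nat_lit 5) (nat_lit 9) (nat_lit 4) (nat_lit 487) (nat_lit 358) (nat_lit 355)))) (XT.nd (nat_lit 78) (nat_lit 152) (nat_lit 0) (XT.lf (nat_lit 0) (nat_lit 30160155508) (nat_lit 76) (nat_lit 13012902840) (nat_lit 76) (nat_lit 12428245472)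 (nat_lit 8) (nat_lit 4) (nat_lit 9) (nat_lit 5) (nat_lit 9) (nat_lit 4) (nat_lit 488) (nat_lit 358) (nat_lit 354)) (XT.nd (nat_lit 78) (nat_lit 152) (nat_lit 0) (XT.lf (nat_lit 0) (nat_lit 53077048314) (nat_lit 76) (nat_lit 2847649602) (nat_lit 76) (nat_lit 2133804208) (nat_lit 8) (nat_lit 4) (nat_lit 9) (nat_lit 5) (nat_lit 9) (nat_lit 4) (nat_lit 489) (nat_lit 358) (nat_lit 353)) (XT.lf (nat_lit 0) (nat_lit 8416508268) (nat_lit 152) (nat_lit 44618239068) (nat_lit 0) (nat_lit 7604001851) (nat_lit 6) (nat_lit 5) (nat_lit 8) (nat_lit 4) (nat_lit 6) (nat_lit 4) (nat_lit 490) (nat_lit 358) (nat_lit 352)))))) (XT.nd (nat_lit 468) (nat_lit 152) (nat_lit 0) (XT.nd (nat_lit 234) (nat_lit 0) (nat_lit 0) (XT.nd (nat_lit 78) (nat_lit 76) (nat_lit 0) (XT.lf (nat_lit 0) (nat_lit 19218603920) (nat_lit 152) (nat_lit 25843389409) (nat_lit 0) (nat_lit 18292333087) (nat_lit 6) (nat_lit 5) (nat_lit 8) (nat_lit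 4) (nat_lit 6) (nat_lit 4) (nat_lit 491) (nat_lit 358) (nat_lit 351)) (XT.nd (nat_lit 78) (nat_lit 76) (nat_lit 0) (XT.lf (nat_lit 0) (nat_lit 30263145551) (nat_lit 152) (nat_lit 6722942445) (nat_lit 0) (nat_lit 29228527656) (nat_lit 6) (nat_lit 5) (nat_lit 8) (nat_lit 4) (nat_lit 6) (nat_lit 4) (nat_lit 492) (nat_lit 358) (nat_lit 350)) (XT.lf (nat_lit 0) (nat_lit 13043145445) (nat_lit 76) (nat_lit 28658662938) (nat_lit 76) (nat_lit 27520857364) (nat_lit 5) (nat_lit 4) (nat_lit 6) (nat_lit 5) (nat_lit 6) (nat_lit 4) (nat_lit 493) (nat_lit 358) (nat_lit 349)))) (XT.nd (nat_lit 78) (nat_lit 0) (nat_lit 0) (XT.lf (nat_lit 0) (nat_lit 33389320035) (nat_lit 76) (nat_lit 20117031263) (nat_lit 76) (nat_lit 18880951710) (nat_lit 5) (nat_lit 4) (nat_lit 6) (nat_lit 5) (nat_lit 6) (nat_lit 4) (nat_lit 494) (nat_lit 358) (nat_lit 348)) (XT.nd (nat_lit 78) (nat_lit 0) (nat_lit 0) (XT.lf (nat_lit 0) (nat_lit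 54230224861) (nat_lit 76) (nat_lit 11408744289) (nat_lit 76) (nat_lit 10079070470) (nat_lit 5) (nat_lit 4) (nat_lit 6) (nat_lit 5) (nat_lit 6) (nat_lit 4) (nat_lit 495) (nat_lit 358) (nat_lit 347)) (XT.lf (nat_lit 0) (nat_lit 75615481124) (nat_lit 76) (nat_lit 2513067999) (nat_lit 76) (nat_lit 1094256784) (nat_lit 5) (nat_lit 4) (nat_lit 6) (nat_lit 5) (nat_lit 6) (nat_lit 4) (nat_lit 496) (nat_lit 358) (nat_lit 346))))) (XT.nd (nat_lit 61308) (nat_lit 0) (nat_lit 456) (XT.nd (nat_lit 78) (nat_lit 0) (nat_lit 0) (XT.lf (nat_lit 0) (nat_lit 8145686423) (nat_lit 152) (nat_lit 68069883140) (nat_lit 0) (nat_lit 6685779653) (nat_lit 3) (nat_lit 5) (nat_lit 5) (nat_lit 4) (nat_lit 3) (nat_lit 4) (nat_lit 497) (nat_lit 358) (nat_lit 345)) (XT.nd (nat_lit 78) (nat_lit 0) (nat_lit 0) (XT.lf (nat_lit 0) (nat_lit 17652672260) (nat_lit 152) (nat_lit 53001724457) (nat_lit 0) (nat_lit 16114270105) (nat_lit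 3) (nat_lit 5) (nat_lit 5) (nat_lit 4) (nat_lit 3) (nat_lit 4) (nat_lit 498) (nat_lit 358) (nat_lit 344)) (XT.lf (nat_lit 0) (nat_lit 27410816062) (nat_lit 152) (nat_lit 37627605921) (nat_lit 0) (nat_lit 25797656398) (nat_lit 3) (nat_lit 5) (nat_lit 5) (nat_lit 4) (nat_lit 3) (nat_lit 4) (nat_lit 499) (nat_lit 358) (nat_lit 343)))) (XT.nd (nat_lit 156) (nat_lit 152) (nat_lit 0) (XT.nd (nat_lit 78) (nat_lit 76) (nat_lit 0) (XT.lf (nat_lit 0) (nat_lit 8357152503) (nat_lit 152) (nat_lit 4916216449) (nat_lit 0) (nat_lit 8357152503) (nat_lit 12) (nat_lit 5) (nat_lit 14) (nat_lit 4) (nat_lit 12) (nat_lit 4) (nat_lit 482) (nat_lit 359) (nat_lit 359)) (XT.lf (nat_lit 0) (nat_lit 13458313572) (nat_lit 76) (nat_lit 15888103204) (nat_lit 76) (nat_lit 15718276499) (nat_lit 11) (nat_lit 4) (nat_lit 12) (nat_lit 5) (nat_lit 12) (nat_lit 4) (nat_lit 483) (nat_lit 359) (nat_lit 358))) (XT.nd (nat_lit 78) (nat_lit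 152) (nat_lit 0) (XT.lf (nat_lit 0) (nat_lit 37363688940) (nat_lit 76) (nat_lit 4967390171) (nat_lit 76) (nat_lit 4635823748) (nat_lit 11) (nat_lit 4) (nat_lit 12) (nat_lit 5) (nat_lit 12) (nat_lit 4) (nat_lit 484) (nat_lit 359) (nat_lit 357)) (XT.lf (nat_lit 0) (nat_lit 6683863938) (nat_lit 152) (nat_lit 36071349621) (nat_lit 0) (nat_lit 6212403500) (nat_lit 9) (nat_lit 5) (nat_lit 11) (nat_lit 4) (nat_lit 9) (nat_lit 4) (nat_lit 485) (nat_lit 359) (nat_lit 356))))))) (XT.nd (nat_lit 1014) (nat_lit 0) (nat_lit 0) (XT.nd (nat_lit 468) (nat_lit 228) (nat_lit 0) (XT.nd (nat_lit 234) (nat_lit 152) (nat_lit 0) (XT.nd (nat_lit 78) (nat_lit 76) (nat_lit 0) (XT.lf (nat_lit 0) (nat_lit 18266030357) (nat_lit 152) (nat_lit 15155052854) (nat_lit 0) (nat_lit 17652140120) (nat_lit 9) (nat_lit 5) (nat_lit 11) (nat_lit 4) (nat_lit 9) (nat_lit 4) (nat_lit 486) (nat_lit 359) (nat_lit 355)) (XT.nd (nat_lit 78)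 (nat_lit 0) (nat_lit 0) (XT.lf (nat_lit 0) (nat_lit 6249827754) (nat_lit 76) (nat_lit 23896132207) (nat_lit 76) (nat_lit 23146594543) (nat_lit 8) (nat_lit 4) (nat_lit 9) (nat_lit 5) (nat_lit 9) (nat_lit 4) (nat_lit 487) (nat_lit 359) (nat_lit 354)) (XT.lf (nat_lit 0) (nat_lit 28381929553) (nat_lit 76) (nat_lit 14062458670) (nat_lit 76) (nat_lit 13183732980) (nat_lit 8) (nat_lit 4) (nat_lit 9) (nat_lit 5) (nat_lit 9) (nat_lit 4) (nat_lit 488) (nat_lit 359) (nat_lit 353)))) (XT.nd (nat_lit 78) (nat_lit 152) (nat_lit 0) (XT.lf (nat_lit 0) (nat_lit 50992332756) (nat_lit 76) (nat_lit 4049685410) (nat_lit 76) (nat_lit 3047923504) (nat_lit 8) (nat_lit 4) (nat_lit 9) (nat_lit 5) (nat_lit 9) (nat_lit 4) (nat_lit 489) (nat_lit 359) (nat_lit 352)) (XT.nd (nat_lit 78) (nat_lit 0) (nat_lit 0) (XT.lf (nat_lit 0) (nat_lit 7335260611) (nat_lit 152) (nat_lit 47091830628) (nat_lit 0) (nat_lit 6248911822) (nat_lit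 6) (nat_lit 5) (nat_lit 8) (nat_lit 4) (nat_lit 6) (nat_lit 4) (nat_lit 490) (nat_lit 359) (nat_lit 351)) (XT.lf (nat_lit 0) (nat_lit 17992156847) (nat_lit 152) (nat_lit 28606320081) (nat_lit 0) (nat_lit 16797460995) (nat_lit 6) (nat_lit 5) (nat_lit 8) (nat_lit 4) (nat_lit 6) (nat_lit 4) (nat_lit 491) (nat_lit 359) (nat_lit 350))))) (XT.nd (nat_lit 234) (nat_lit 152) (nat_lit 0) (XT.nd (nat_lit 78) (nat_lit 76) (nat_lit 0) (XT.lf (nat_lit 0) (nat_lit 28898413320) (nat_lit 152) (nat_lit 9761434174) (nat_lit 0) (nat_lit 27600529790) (nat_lit 6) (nat_lit 5) (nat_lit 8) (nat_lit 4) (nat_lit 6) (nat_lit 4) (nat_lit 492) (nat_lit 359) (nat_lit 349)) (XT.nd (nat_lit 78) (nat_lit 0) (nat_lit 0) (XT.lf (nat_lit 0) (nat_lit 9676519617) (nat_lit 76) (nat_lit 30496494318) (nat_lit 76) (nat_lit 29100336808) (nat_lit 5) (nat_lit 4) (nat_lit 6) (nat_lit 5) (nat_lit 6) (nat_lit 4) (nat_lit 493) (nat_lit 359)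 (nat_lit 348)) (XT.lf (nat_lit 0) (nat_lit 29767777868) (nat_lit 76) (nat_lit 22081899855) (nat_lit 76) (nat_lit 20592148079) (nat_lit 5) (nat_lit 4) (nat_lit 6) (nat_lit 5) (nat_lit 6) (nat_lit 4) (nat_lit 494) (nat_lit 359) (nat_lit 347)))) (XT.nd (nat_lit 156) (nat_lit 152) (nat_lit 0) (XT.nd (nat_lit 78) (nat_lit 0) (nat_lit 0) (XT.lf (nat_lit 0) (nat_lit 50365905228) (nat_lit 76) (nat_lit 13494600702) (nat_lit 76) (nat_lit 11915711530) (nat_lit 5) (nat_lit 4) (nat_lit 6) (nat_lit 5) (nat_lit 6) (nat_lit 4) (nat_lit 495) (nat_lit 359) (nat_lit 346)) (XT.lf (nat_lit 0) (nat_lit 71519944858) (nat_lit 76) (nat_lit 4714150909) (nat_lit 76) (nat_lit 3050368979) (nat_lit 5) (nat_lit 4) (nat_lit 6) (nat_lit 5) (nat_lit 6) (nat_lit 4) (nat_lit 496) (nat_lit 359) (nat_lit 345))) (XT.nd (nat_lit 78) (nat_lit 0) (nat_lit 0) (XT.lf (nat_lit 0) (nat_lit 6050596817) (nat_lit 152) (nat_lit 72561511810) (nat_lit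 0) (nat_lit 4356779169) (nat_lit 3) (nat_lit 5) (nat_lit 5) (nat_lit 4) (nat_lit 3) (nat_lit 4) (nat_lit 497) (nat_lit 359) (nat_lit 344)) (XT.lf (nat_lit 0) (nat_lit 15448221031) (nat_lit 152) (nat_lit 57711620484) (nat_lit 0) (nat_lit 13679645874) (nat_lit 3) (nat_lit 5) (nat_lit 5) (nat_lit 4) (nat_lit 3) (nat_lit 4) (nat_lit 498) (nat_lit 359) (nat_lit 343)))))) (XT.nd (nat_lit 61386) (nat_lit 0) (nat_lit 228) (XT.nd (nat_lit 61152) (nat_lit 0) (nat_lit 608) (XT.nd (nat_lit 60996) (nat_lit 0) (nat_lit 684) (XT.lf (nat_lit 0) (nat_lit 25102210908) (nat_lit 152) (nat_lit 42545375620) (nat_lit 0) (nat_lit 23262438123) (nat_lit 3) (nat_lit 5) (nat_lit 5) (nat_lit 4) (nat_lit 3) (nat_lit 4) (nat_lit 499) (nat_lit 359) (nat_lit 342)) (XT.nd (nat_lit 78) (nat_lit 152) (nat_lit 0) (XT.lf (nat_lit 0) (nat_lit 12756528983) (nat_lit 76) (nat_lit 3601550100) (nat_lit 76) (nat_lit 3601550100) (nat_lit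 14) (nat_lit 4) (nat_lit 15) (nat_lit 5) (nat_lit 15) (nat_lit 4) (nat_lit 480) (nat_lit 360) (nat_lit 360)) (XT.lf (nat_lit 0) (nat_lit 4612239400) (nat_lit 152) (nat_lit 32504618979) (nat_lit 0) (nat_lit 4433921360) (nat_lit 12) (nat_lit 5) (nat_lit 14) (nat_lit 4) (nat_lit 12) (nat_lit 4) (nat_lit 481) (nat_lit 360) (nat_lit 359)))) (XT.nd (nat_lit 78) (nat_lit 76) (nat_lit 0) (XT.lf (nat_lit 0) (nat_lit 16701569094) (nat_lit 152) (nat_lit 10211783672) (nat_lit 0) (nat_lit 16353424350) (nat_lit 12) (nat_lit 5) (nat_lit 14) (nat_lit 4) (nat_lit 12) (nat_lit 4) (nat_lit 482) (nat_lit 360) (nat_lit 358)) (XT.nd (nat_lit 78) (nat_lit 0) (nat_lit 0) (XT.lf (nat_lit 0) (nat_lit 12702936215) (nat_lit 76) (nat_lit 16441527355) (nat_lit 76) (nat_lit 15931642892) (nat_lit 11) (nat_lit 4) (nat_lit 12) (nat_lit 5) (nat_lit 12) (nat_lit 4) (nat_lit 483) (nat_lit 360) (nat_lit 357)) (XT.lf (nat_lit 0) (nat_lit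 36257381336) (nat_lit 76) (nat_lit 5695079647) (nat_lit 76) (nat_lit 5031157356) (nat_lit 11) (nat_lit 4) (nat_lit 12) (nat_lit 5) (nat_lit 12) (nat_lit 4) (nat_lit 484) (nat_lit 360) (nat_lit 356))))) (XT.nd (nat_lit 234) (nat_lit 152) (nat_lit 0) (XT.nd (nat_lit 78) (nat_lit 76) (nat_lit 0) (XT.lf (nat_lit 0) (nat_lit 6103255837) (nat_lit 152) (nat_lit 37570741253) (nat_lit 0) (nat_lit 5316241290) (nat_lit 9) (nat_lit 5) (nat_lit 11) (nat_lit 4) (nat_lit 9) (nat_lit 4) (nat_lit 485) (nat_lit 360) (nat_lit 355)) (XT.nd (nat_lit 78) (nat_lit 76) (nat_lit 0) (XT.lf (nat_lit 0) (nat_lit 17518874791) (nat_lit 152) (nat_lit 16985755533) (nat_lit 0) (nat_lit 16596212816) (nat_lit 9) (nat_lit 5) (nat_lit 11) (nat_lit 4) (nat_lit 9) (nat_lit 4) (nat_lit 486) (nat_lit 360) (nat_lit 354)) (XT.lf (nat_lit 0) (nat_lit 4060876418) (nat_lit 76) (nat_lit 25158269804) (nat_lit 76) (nat_lit 24106419804) (nat_lit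 8) (nat_lit 4) (nat_lit 9) (nat_lit 5) (nat_lit 9) (nat_lit 4) (nat_lit 487) (nat_lit 360) (nat_lit 353)))) (XT.nd (nat_lit 156) (nat_lit 152) (nat_lit 0) (XT.nd (nat_lit 78) (nat_lit 0) (nat_lit 0) (XT.lf (nat_lit 0) (nat_lit 25886488614) (nat_lit 76) (nat_lit 15477076245) (nat_lit 76) (nat_lit 14302190029) (nat_lit 8) (nat_lit 4) (nat_lit 9) (nat_lit 5) (nat_lit 9) (nat_lit 4) (nat_lit 488) (nat_lit 360) (nat_lit 352)) (XT.lf (nat_lit 0) (nat_lit 48204996957) (nat_lit 76) (nat_lit 5609522011) (nat_lit 76) (nat_lit 4317458447) (nat_lit 8) (nat_lit 4) (nat_lit 9) (nat_lit 5) (nat_lit 9) (nat_lit 4) (nat_lit 489) (nat_lit 360) (nat_lit 351))) (XT.nd (nat_lit 78) (nat_lit 0) (nat_lit 0) (XT.lf (nat_lit 0) (nat_lit 5902291769) (nat_lit 152) (nat_lit 50282246945) (nat_lit 0) (nat_lit 4539514062) (nat_lit 6) (nat_lit 5) (nat_lit 8) (nat_lit 4) (nat_lit 6) (nat_lit 4) (nat_lit 490) (nat_lit 360) (nat_lit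 350)) (XT.lf (nat_lit 0) (nat_lit 16420902847) (nat_lit 152) (nat_lit 32072297455) (nat_lit 0) (nat_lit 14954937461) (nat_lit 6) (nat_lit 5) (nat_lit 8) (nat_lit 4) (nat_lit 6) (nat_lit 4) (nat_lit 491) (nat_lit 360) (nat_lit 349))))))))
noncomputable def xc2 : XT := (XT.nd (nat_lit 62712) (nat_lit 0) (nat_lit 0) (XT.nd (nat_lit 61698) (nat_lit 0) (nat_lit 152) (XT.nd (nat_lit 468) (nat_lit 0) (nat_lit 0) (XT.nd (nat_lit 234) (nat_lit 152) (nat_lit 0) (XT.nd (nat_lit 78) (nat_lit 76) (nat_lit 0) (XT.lf (nat_lit 0) (nat_lit 27195459170) (nat_lit 152) (nat_lit 13489850651) (nat_lit 0) (nat_lit 25631219805) (nat_lit 6) (nat_lit 5) (nat_lit 8) (nat_lit 4) (nat_lit 6) (nat_lit 4) (nat_lit 492) (nat_lit 360) (nat_lit 348)) (XT.nd (nat_lit 78) (nat_lit 0) (nat_lit 0) (XT.lf (nat_lit 0) (nat_lit 5618984003) (nat_lit 76) (nat_lit 32686643553) (nat_lit 76) (nat_lit 31028809922) (nat_lit 5) (nat_lit 4) (nat_lit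 6) (nat_lit 5) (nat_lit 6) (nat_lit 4) (nat_lit 493) (nat_lit 360) (nat_lit 347)) (XT.lf (nat_lit 0) (nat_lit 25467464789) (nat_lit 76) (nat_lit 24393036911) (nat_lit 76) (nat_lit 22646065883) (nat_lit 5) (nat_lit 4) (nat_lit 6) (nat_lit 5) (nat_lit 6) (nat_lit 4) (nat_lit 494) (nat_lit 360) (nat_lit 346)))) (XT.nd (nat_lit 78) (nat_lit 152) (nat_lit 0) (XT.lf (nat_lit 0) (nat_lit 45834375515) (nat_lit 76) (nat_lit 15920964254) (nat_lit 76) (nat_lit 14089100469) (nat_lit 5) (nat_lit 4) (nat_lit 6) (nat_lit 5) (nat_lit 6) (nat_lit 4) (nat_lit 495) (nat_lit 360) (nat_lit 345)) (XT.nd (nat_lit 78) (nat_lit 152) (nat_lit 0) (XT.lf (nat_lit 0) (nat_lit 66768208827) (nat_lit 76) (nat_lit 7250253982) (nat_lit 76) (nat_lit 5337539950) (nat_lit 5) (nat_lit 4) (nat_lit 6) (nat_lit 5) (nat_lit 6) (nat_lit 4) (nat_lit 496) (nat_lit 360) (nat_lit 344)) (XT.lf (nat_lit 0) (nat_lit 3626561404) (nat_lit 152)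 (nat_lit 77725169994) (nat_lit 0) (nat_lit 1694799981) (nat_lit 3) (nat_lit 5) (nat_lit 5) (nat_lit 4) (nat_lit 3) (nat_lit 4) (nat_lit 497) (nat_lit 360) (nat_lit 343))))) (XT.nd (nat_lit 60996) (nat_lit 0) (nat_lit 684) (XT.nd (nat_lit 78) (nat_lit 0) (nat_lit 0) (XT.lf (nat_lit 0) (nat_lit 12920031692) (nat_lit 152) (nat_lit 63083152341) (nat_lit 0) (nat_lit 10917072641) (nat_lit 3) (nat_lit 5) (nat_lit 5) (nat_lit 4) (nat_lit 3) (nat_lit 4) (nat_lit 498) (nat_lit 360) (nat_lit 342)) (XT.nd (nat_lit 60840) (nat_lit 0) (nat_lit 912) (XT.lf (nat_lit 0) (nat_lit 22474827354) (nat_lit 152) (nat_lit 48114882403) (nat_lit 0) (nat_lit 20404061038) (nat_lit 3) (nat_lit 5) (nat_lit 5) (nat_lit 4) (nat_lit 3) (nat_lit 4) (nat_lit 499) (nat_lit 360) (nat_lit 341)) (XT.lf (nat_lit 0) (nat_lit 3632009850) (nat_lit 152) (nat_lit 11184549404) (nat_lit 0) (nat_lit 3632009850) (nat_lit 15) (nat_lit 5) (nat_lit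 17) (nat_lit 4) (nat_lit 15) (nat_lit 4) (nat_lit 478) (nat_lit 361) (nat_lit 361)))) (XT.nd (nat_lit 78) (nat_lit 152) (nat_lit 0) (XT.lf (nat_lit 0) (nat_lit 956022716) (nat_lit 76) (nat_lit 18804286903) (nat_lit 76) (nat_lit 18611435943) (nat_lit 14) (nat_lit 4) (nat_lit 15) (nat_lit 5) (nat_lit 15) (nat_lit 4) (nat_lit 479) (nat_lit 361) (nat_lit 360)) (XT.nd (nat_lit 78) (nat_lit 152) (nat_lit 0) (XT.lf (nat_lit 0) (nat_lit 25130400135) (nat_lit 76) (nat_lit 7585585143) (nat_lit 76) (nat_lit 7209066602) (nat_lit 14) (nat_lit 4) (nat_lit 15) (nat_lit 5) (nat_lit 15) (nat_lit 4) (nat_lit 480) (nat_lit 361) (nat_lit 359)) (XT.lf (nat_lit 0) (nat_lit 4407812740) (nat_lit 152) (nat_lit 33282288065) (nat_lit 0) (nat_lit 3872434054) (nat_lit 12) (nat_lit 5) (nat_lit 14) (nat_lit 4) (nat_lit 12) (nat_lit 4) (nat_lit 481) (nat_lit 361) (nat_lit 358)))))) (XT.nd (nat_lit 468) (nat_lit 228) (nat_lit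 0) (XT.nd (nat_lit 234) (nat_lit 228) (nat_lit 0) (XT.nd (nat_lit 78) (nat_lit 76) (nat_lit 0) (XT.lf (nat_lit 0) (nat_lit 16315186290) (nat_lit 152) (nat_lit 11350739208) (nat_lit 0) (nat_lit 15618067885) (nat_lit 12) (nat_lit 5) (nat_lit 14) (nat_lit 4) (nat_lit 12) (nat_lit 4) (nat_lit 482) (nat_lit 361) (nat_lit 357)) (XT.nd (nat_lit 78) (nat_lit 0) (nat_lit 0) (XT.lf (nat_lit 0) (nat_lit 11190382984) (nat_lit 76) (nat_lit 17379866630) (nat_lit 76) (nat_lit 16528710397) (nat_lit 11) (nat_lit 4) (nat_lit 12) (nat_lit 5) (nat_lit 12) (nat_lit 4) (nat_lit 483) (nat_lit 361) (nat_lit 356)) (XT.lf (nat_lit 0) (nat_lit 34410608821) (nat_lit 76) (nat_lit 6799385897) (nat_lit 76) (nat_lit 5801526972) (nat_lit 11) (nat_lit 4) (nat_lit 12) (nat_lit 5) (nat_lit 12) (nat_lit 4) (nat_lit 484) (nat_lit 361) (nat_lit 355)))) (XT.nd (nat_lit 78) (nat_lit 76) (nat_lit 0) (XT.lf (nat_lit 0) (nat_lit 5152195029)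 (nat_lit 152) (nat_lit 39824290115) (nat_lit 0) (nat_lit 4047752528) (nat_lit 9) (nat_lit 5) (nat_lit 11) (nat_lit 4) (nat_lit 9) (nat_lit 4) (nat_lit 485) (nat_lit 361) (nat_lit 354)) (XT.nd (nat_lit 78) (nat_lit 76) (nat_lit 0) (XT.lf (nat_lit 0) (nat_lit 16409197349) (nat_lit 152) (nat_lit 19554838726) (nat_lit 0) (nat_lit 15175566822) (nat_lit 9) (nat_lit 5) (nat_lit 11) (nat_lit 4) (nat_lit 9) (nat_lit 4) (nat_lit 486) (nat_lit 361) (nat_lit 353)) (XT.lf (nat_lit 0) (nat_lit 1134173829) (nat_lit 76) (nat_lit 26796098236) (nat_lit 76) (nat_lit 25439431494) (nat_lit 8) (nat_lit 4) (nat_lit 9) (nat_lit 5) (nat_lit 9) (nat_lit 4) (nat_lit 487) (nat_lit 361) (nat_lit 352))))) (XT.nd (nat_lit 234) (nat_lit 76) (nat_lit 0) (XT.nd (nat_lit 78) (nat_lit 152) (nat_lit 0) (XT.lf (nat_lit 0) (nat_lit 22667891165) (nat_lit 76) (nat_lit 17260123702) (nat_lit 76) (nat_lit 15786279612) (nat_lit 8) (nat_lit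 4) (nat_lit 9) (nat_lit 5) (nat_lit 9) (nat_lit 4) (nat_lit 488) (nat_lit 361) (nat_lit 351)) (XT.nd (nat_lit 78) (nat_lit 152) (nat_lit 0) (XT.lf (nat_lit 0) (nat_lit 44708404403) (nat_lit 76) (nat_lit 7530873302) (nat_lit 76) (nat_lit 5945431738) (nat_lit 8) (nat_lit 4) (nat_lit 9) (nat_lit 5) (nat_lit 9) (nat_lit 4) (nat_lit 489) (nat_lit 361) (nat_lit 350)) (XT.lf (nat_lit 0) (nat_lit 4114189911) (nat_lit 152) (nat_lit 54197084246) (nat_lit 0) (nat_lit 2471738578) (nat_lit 6) (nat_lit 5) (nat_lit 8) (nat_lit 4) (nat_lit 6) (nat_lit 4) (nat_lit 490) (nat_lit 361) (nat_lit 349)))) (XT.nd (nat_lit 156) (nat_lit 76) (nat_lit 0) (XT.nd (nat_lit 78) (nat_lit 0) (nat_lit 0) (XT.lf (nat_lit 0) (nat_lit 14501100838) (nat_lit 152) (nat_lit 36249573858) (nat_lit 0) (nat_lit 12760375526) (nat_lit 6) (nat_lit 5) (nat_lit 8) (nat_lit 4) (nat_lit 6) (nat_lit 4) (nat_lit 491) (nat_lit 361) (nat_lit 348))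 (XT.lf (nat_lit 0) (nat_lit 25150228447) (nat_lit 152) (nat_lit 17917069058) (nat_lit 0) (nat_lit 23315908868) (nat_lit 6) (nat_lit 5) (nat_lit 8) (nat_lit 4) (nat_lit 6) (nat_lit 4) (nat_lit 492) (nat_lit 361) (nat_lit 347))) (XT.nd (nat_lit 78) (nat_lit 0) (nat_lit 0) (XT.lf (nat_lit 0) (nat_lit 860877804) (nat_lit 76) (nat_lit 35234325282) (nat_lit 76) (nat_lit 33310868307) (nat_lit 5) (nat_lit 4) (nat_lit 6) (nat_lit 5) (nat_lit 6) (nat_lit 4) (nat_lit 493) (nat_lit 361) (nat_lit 346)) (XT.lf (nat_lit 0) (nat_lit 20478141956) (nat_lit 76) (nat_lit 27055945137) (nat_lit 76) (nat_lit 25047595403) (nat_lit 5) (nat_lit 4) (nat_lit 6) (nat_lit 5) (nat_lit 6) (nat_lit 4) (nat_lit 494) (nat_lit 361) (nat_lit 345))))))) (XT.nd (nat_lit 61620) (nat_lit 0) (nat_lit 152) (XT.nd (nat_lit 61074) (nat_lit 0) (nat_lit 608) (XT.nd (nat_lit 234) (nat_lit 76) (nat_lit 0) (XT.nd (nat_lit 78) (nat_lit 76) (nat_lit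 0) (XT.lf (nat_lit 0) (nat_lit 40624846365) (nat_lit 76) (nat_lit 18693612000) (nat_lit 76) (nat_lit 16604412021) (nat_lit 5) (nat_lit 4) (nat_lit 6) (nat_lit 5) (nat_lit 6) (nat_lit 4) (nat_lit 495) (nat_lit 361) (nat_lit 344)) (XT.nd (nat_lit 78) (nat_lit 76) (nat_lit 0) (XT.lf (nat_lit 0) (nat_lit 61348959374) (nat_lit 76) (nat_lit 10127415557) (nat_lit 76) (nat_lit 7961215343) (nat_lit 5) (nat_lit 4) (nat_lit 6) (nat_lit 5) (nat_lit 6) (nat_lit 4) (nat_lit 496) (nat_lit 361) (nat_lit 343)) (XT.lf (nat_lit 0) (nat_lit 884961207) (nat_lit 152) (nat_lit 443062519) (nat_lit 76) (nat_lit 81805926528) (nat_lit 4) (nat_lit 5) (nat_lit 6) (nat_lit 5) (nat_lit 5) (nat_lit 4) (nat_lit 497) (nat_lit 361) (nat_lit 342)))) (XT.nd (nat_lit 78) (nat_lit 0) (nat_lit 0) (XT.lf (nat_lit 0) (nat_lit 10062084746) (nat_lit 152) (nat_lit 69129109389) (nat_lit 0) (nat_lit 7819972850) (nat_lit 3) (nat_lit 5) (nat_lit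 5) (nat_lit 4) (nat_lit 3) (nat_lit 4) (nat_lit 498) (nat_lit 361) (nat_lit 341)) (XT.nd (nat_lit 60684) (nat_lit 0) (nat_lit 1064) (XT.lf (nat_lit 0) (nat_lit 19522409726) (nat_lit 152) (nat_lit 54349387001) (nat_lit 0) (nat_lit 17215719483) (nat_lit 3) (nat_lit 5) (nat_lit 5) (nat_lit 4) (nat_lit 3) (nat_lit 4) (nat_lit 499) (nat_lit 361) (nat_lit 340)) (XT.lf (nat_lit 0) (nat_lit 537068866) (nat_lit 76) (nat_lit 8272482484) (nat_lit 76) (nat_lit 8272482484) (nat_lit 17) (nat_lit 4) (nat_lit 18) (nat_lit 5) (nat_lit 18) (nat_lit 4) (nat_lit 476) (nat_lit 362) (nat_lit 362))))) (XT.nd (nat_lit 234) (nat_lit 228) (nat_lit 0) (XT.nd (nat_lit 78) (nat_lit 228) (nat_lit 0) (XT.lf (nat_lit 0) (nat_lit 25764083223) (nat_lit 76) (nat_lit 4971462343) (nat_lit 76) (nat_lit 4762894029) (nat_lit 17) (nat_lit 4) (nat_lit 18) (nat_lit 5) (nat_lit 18) (nat_lit 4) (nat_lit 477) (nat_lit 362) (nat_lit 361))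 (XT.nd (nat_lit 78) (nat_lit 76) (nat_lit 0) (XT.lf (nat_lit 0) (nat_lit 7267700425) (nat_lit 152) (nat_lit 22763049147) (nat_lit 0) (nat_lit 6872355956) (nat_lit 15) (nat_lit 5) (nat_lit 17) (nat_lit 4) (nat_lit 15) (nat_lit 4) (nat_lit 478) (nat_lit 362) (nat_lit 360)) (XT.lf (nat_lit 0) (nat_lit 171574161) (nat_lit 76) (nat_lit 19395530075) (nat_lit 76) (nat_lit 18816518026) (nat_lit 14) (nat_lit 4) (nat_lit 15) (nat_lit 5) (nat_lit 15) (nat_lit 4) (nat_lit 479) (nat_lit 362) (nat_lit 359)))) (XT.nd (nat_lit 156) (nat_lit 76) (nat_lit 0) (XT.nd (nat_lit 78) (nat_lit 152) (nat_lit 0) (XT.lf (nat_lit 0) (nat_lit 23981515550) (nat_lit 76) (nat_lit 8357432108) (nat_lit 76) (nat_lit 7603498553) (nat_lit 14) (nat_lit 4) (nat_lit 15) (nat_lit 5) (nat_lit 15) (nat_lit 4) (nat_lit 480) (nat_lit 362) (nat_lit 358)) (XT.lf (nat_lit 0) (nat_lit 3820154651) (nat_lit 152) (nat_lit 34839477828) (nat_lit 0)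 (nat_lit 2926440607) (nat_lit 12) (nat_lit 5) (nat_lit 14) (nat_lit 4) (nat_lit 12) (nat_lit 4) (nat_lit 481) (nat_lit 362) (nat_lit 357))) (XT.nd (nat_lit 78) (nat_lit 76) (nat_lit 0) (XT.lf (nat_lit 0) (nat_lit 15554236635) (nat_lit 152) (nat_lit 13252011306) (nat_lit 0) (nat_lit 14506484763) (nat_lit 12) (nat_lit 5) (nat_lit 14) (nat_lit 4) (nat_lit 12) (nat_lit 4) (nat_lit 482) (nat_lit 362) (nat_lit 356)) (XT.lf (nat_lit 0) (nat_lit 8917052560) (nat_lit 76) (nat_lit 18705355168) (nat_lit 76) (nat_lit 17510900603) (nat_lit 11) (nat_lit 4) (nat_lit 12) (nat_lit 5) (nat_lit 12) (nat_lit 4) (nat_lit 483) (nat_lit 362) (nat_lit 355)))))) (XT.nd (nat_lit 468) (nat_lit 228) (nat_lit 0) (XT.nd (nat_lit 234) (nat_lit 76) (nat_lit 0) (XT.nd (nat_lit 78) (nat_lit 152) (nat_lit 0) (XT.lf (nat_lit 0) (nat_lit 31818974318) (nat_lit 76) (nat_lit 8282938222) (nat_lit 76) (nat_lit 6948766807) (nat_lit 11)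 (nat_lit 4) (nat_lit 12) (nat_lit 5) (nat_lit 12) (nat_lit 4) (nat_lit 484) (nat_lit 362) (nat_lit 354)) (XT.nd (nat_lit 78) (nat_lit 0) (nat_lit 0) (XT.lf (nat_lit 0) (nat_lit 3828417082) (nat_lit 152) (nat_lit 42837361798) (nat_lit 0) (nat_lit 2403917002) (nat_lit 9) (nat_lit 5) (nat_lit 11) (nat_lit 4) (nat_lit 9) (nat_lit 4) (nat_lit 485) (nat_lit 362) (nat_lit 353)) (XT.lf (nat_lit 0) (nat_lit 14934355942) (nat_lit 152) (nat_lit 22868419297) (nat_lit 0) (nat_lit 13386819648) (nat_lit 9) (nat_lit 5) (nat_lit 11) (nat_lit 4) (nat_lit 9) (nat_lit 4) (nat_lit 486) (nat_lit 362) (nat_lit 352)))) (XT.nd (nat_lit 78) (nat_lit 76) (nat_lit 0) (XT.lf (nat_lit 0) (nat_lit 26300658323) (nat_lit 152) (nat_lit 2487737497) (nat_lit 0) (nat_lit 24635944681) (nat_lit 9) (nat_lit 5) (nat_lit 11) (nat_lit 4) (nat_lit 9) (nat_lit 4) (nat_lit 487) (nat_lit 362) (nat_lit 351)) (XT.nd (nat_lit 78) (nat_lit 0)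 (nat_lit 0) (XT.lf (nat_lit 0) (nat_lit 18718473879) (nat_lit 76) (nat_lit 19415846393) (nat_lit 76) (nat_lit 17639535276) (nat_lit 8) (nat_lit 4) (nat_lit 9) (nat_lit 5) (nat_lit 9) (nat_lit 4) (nat_lit 488) (nat_lit 362) (nat_lit 350)) (XT.lf (nat_lit 0) (nat_lit 40494229874) (nat_lit 76) (nat_lit 9818313930) (nat_lit 76) (nat_lit 7935719505) (nat_lit 8) (nat_lit 4) (nat_lit 9) (nat_lit 5) (nat_lit 9) (nat_lit 4) (nat_lit 489) (nat_lit 362) (nat_lit 349))))) (XT.nd (nat_lit 234) (nat_lit 76) (nat_lit 0) (XT.nd (nat_lit 78) (nat_lit 0) (nat_lit 0) (XT.lf (nat_lit 0) (nat_lit 1966697652) (nat_lit 152) (nat_lit 58845663572) (nat_lit 0) (nat_lit 40662094) (nat_lit 6) (nat_lit 5) (nat_lit 8) (nat_lit 4) (nat_lit 6) (nat_lit 4) (nat_lit 490) (nat_lit 362) (nat_lit 348)) (XT.nd (nat_lit 78) (nat_lit 0) (nat_lit 0) (XT.lf (nat_lit 0) (nat_lit 12228179864) (nat_lit 152) (nat_lit 41148095188) (nat_lit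 0) (nat_lit 10208550040) (nat_lit 6) (nat_lit 5) (nat_lit 8) (nat_lit 4) (nat_lit 6) (nat_lit 4) (nat_lit 491) (nat_lit 362) (nat_lit 347)) (XT.lf (nat_lit 0) (nat_lit 22757851554) (nat_lit 152) (nat_lit 23053630390) (nat_lit 0) (nat_lit 20649084334) (nat_lit 6) (nat_lit 5) (nat_lit 8) (nat_lit 4) (nat_lit 6) (nat_lit 4) (nat_lit 492) (nat_lit 362) (nat_lit 346)))) (XT.nd (nat_lit 156) (nat_lit 0) (nat_lit 0) (XT.nd (nat_lit 78) (nat_lit 76) (nat_lit 0) (XT.lf (nat_lit 0) (nat_lit 33580783368) (nat_lit 152) (nat_lit 4519187118) (nat_lit 0) (nat_lit 31387123390) (nat_lit 6) (nat_lit 5) (nat_lit 8) (nat_lit 4) (nat_lit 6) (nat_lit 4) (nat_lit 493) (nat_lit 362) (nat_lit 345)) (XT.lf (nat_lit 0) (nat_lit 14787930031) (nat_lit 76) (nat_lit 30076964790) (nat_lit 76) (nat_lit 27802454566) (nat_lit 5) (nat_lit 4) (nat_lit 6) (nat_lit 5) (nat_lit 6) (nat_lit 4) (nat_lit 494) (nat_lit 362) (nat_lit 344)))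 (XT.nd (nat_lit 78) (nat_lit 0) (nat_lit 0) (XT.lf (nat_lit 0) (nat_lit 34724914137) (nat_lit 76) (nat_lit 21819145483) (nat_lit 76) (nat_lit 19467635024) (nat_lit 5) (nat_lit 4) (nat_lit 6) (nat_lit 5) (nat_lit 6) (nat_lit 4) (nat_lit 495) (nat_lit 362) (nat_lit 343)) (XT.lf (nat_lit 0) (nat_lit 55249293524) (nat_lit 76) (nat_lit 13352486019) (nat_lit 76) (nat_lit 10927642004) (nat_lit 5) (nat_lit 4) (nat_lit 6) (nat_lit 5) (nat_lit 6) (nat_lit 4) (nat_lit 496) (nat_lit 362) (nat_lit 342))))))))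
noncomputable def xc3 : XT := (XT.nd (nat_lit 62400) (nat_lit 0) (nat_lit 0) (XT.nd (nat_lit 61386) (nat_lit 0) (nat_lit 152) (XT.nd (nat_lit 60918) (nat_lit 0) (nat_lit 684) (XT.nd (nat_lit 60684) (nat_lit 0) (nat_lit 1064) (XT.nd (nat_lit 78) (nat_lit 152) (nat_lit 0) (XT.lf (nat_lit 0) (nat_lit 76409935762) (nat_lit 76) (nat_lit 4656827686) (nat_lit 76) (nat_lit 2162142188) (nat_lit 5) (nat_lit 4) (nat_lit 6) (nat_lit 5) (nat_lit 6) (nat_lit 4) (nat_lit 497) (nat_lit 362) (nat_lit 341)) (XT.nd (nat_lit 78) (nat_lit 0) (nat_lit 0) (XT.lf (nat_lit 0) (nat_lit 6867575555) (nat_lit 152) (nat_lit 75863886765) (nat_lit 0) (nat_lit 4380972453) (nat_lit 3) (nat_lit 5) (nat_lit 5) (nat_lit 4) (nat_lit 3) (nat_lit 4) (nat_lit 498) (nat_lit 362) (nat_lit 340)) (XT.lf (nat_lit 0) (nat_lit 16237928458) (nat_lit 152) (nat_lit 61263733471) (nat_lit 0) (nat_lit 13689822168) (nat_lit 3) (nat_lit 5) (nat_lit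 5) (nat_lit 4) (nat_lit 3) (nat_lit 4) (nat_lit 499) (nat_lit 362) (nat_lit 339)))) (XT.nd (nat_lit 78) (nat_lit 228) (nat_lit 0) (XT.lf (nat_lit 0) (nat_lit 8846443212) (nat_lit 76) (nat_lit 3499343541) (nat_lit 76) (nat_lit 3499343541) (nat_lit 20) (nat_lit 4) (nat_lit 21) (nat_lit 5) (nat_lit 21) (nat_lit 4) (nat_lit 474) (nat_lit 363) (nat_lit 363)) (XT.nd (nat_lit 78) (nat_lit 76) (nat_lit 0) (XT.lf (nat_lit 0) (nat_lit 5177222526) (nat_lit 152) (nat_lit 22762865935) (nat_lit 0) (nat_lit 4958225797) (nat_lit 18) (nat_lit 5) (nat_lit 20) (nat_lit 4) (nat_lit 18) (nat_lit 4) (nat_lit 475) (nat_lit 363) (nat_lit 362)) (XT.lf (nat_lit 0) (nat_lit 676779045) (nat_lit 76) (nat_lit 16960441603) (nat_lit 76) (nat_lit 16532876560) (nat_lit 17) (nat_lit 4) (nat_lit 18) (nat_lit 5) (nat_lit 18) (nat_lit 4) (nat_lit 476) (nat_lit 363) (nat_lit 361))))) (XT.nd (nat_lit 234) (nat_lit 228) (nat_lit 0) (XT.nd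 (nat_lit 78) (nat_lit 152) (nat_lit 0) (XT.lf (nat_lit 0) (nat_lit 24988287691) (nat_lit 76) (nat_lit 5574062697) (nat_lit 76) (nat_lit 4947861165) (nat_lit 17) (nat_lit 4) (nat_lit 18) (nat_lit 5) (nat_lit 18) (nat_lit 4) (nat_lit 477) (nat_lit 363) (nat_lit 360)) (XT.nd (nat_lit 78) (nat_lit 0) (nat_lit 0) (XT.lf (nat_lit 0) (nat_lit 6883406895) (nat_lit 152) (nat_lit 23945838141) (nat_lit 0) (nat_lit 6091776661) (nat_lit 15) (nat_lit 5) (nat_lit 17) (nat_lit 4) (nat_lit 15) (nat_lit 4) (nat_lit 478) (nat_lit 363) (nat_lit 359)) (XT.lf (nat_lit 0) (nat_lit 19000832376) (nat_lit 152) (nat_lit 1371887432) (nat_lit 0) (nat_lit 18034280637) (nat_lit 15) (nat_lit 5) (nat_lit 17) (nat_lit 4) (nat_lit 15) (nat_lit 4) (nat_lit 479) (nat_lit 363) (nat_lit 358)))) (XT.nd (nat_lit 78) (nat_lit 152) (nat_lit 0) (XT.lf (nat_lit 0) (nat_lit 22063668773) (nat_lit 76) (nat_lit 9520478827) (nat_lit 76) (nat_lit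 8387335178) (nat_lit 14) (nat_lit 4) (nat_lit 15) (nat_lit 5) (nat_lit 15) (nat_lit 4) (nat_lit 480) (nat_lit 363) (nat_lit 357)) (XT.nd (nat_lit 78) (nat_lit 0) (nat_lit 0) (XT.lf (nat_lit 0) (nat_lit 2847865947) (nat_lit 152) (nat_lit 37179895865) (nat_lit 0) (nat_lit 1593688654) (nat_lit 12) (nat_lit 5) (nat_lit 14) (nat_lit 4) (nat_lit 12) (nat_lit 4) (nat_lit 481) (nat_lit 363) (nat_lit 356)) (XT.lf (nat_lit 0) (nat_lit 14416908344) (nat_lit 152) (nat_lit 15920126803) (nat_lit 0) (nat_lit 13016028358) (nat_lit 12) (nat_lit 5) (nat_lit 14) (nat_lit 4) (nat_lit 12) (nat_lit 4) (nat_lit 482) (nat_lit 363) (nat_lit 355)))))) (XT.nd (nat_lit 468) (nat_lit 228) (nat_lit 0) (XT.nd (nat_lit 234) (nat_lit 76) (nat_lit 0) (XT.nd (nat_lit 78) (nat_lit 152) (nat_lit 0) (XT.lf (nat_lit 0) (nat_lit 5877532254) (nat_lit 76) (nat_lit 20421148896) (nat_lit 76) (nat_lit 18880552060) (nat_lit 11) (nat_lit 4)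 (nat_lit 12) (nat_lit 5) (nat_lit 12) (nat_lit 4) (nat_lit 483) (nat_lit 363) (nat_lit 354)) (XT.nd (nat_lit 78) (nat_lit 152) (nat_lit 0) (XT.lf (nat_lit 0) (nat_lit 28476307270) (nat_lit 76) (nat_lit 10149268889) (nat_lit 76) (nat_lit 8475608387) (nat_lit 11) (nat_lit 4) (nat_lit 12) (nat_lit 5) (nat_lit 12) (nat_lit 4) (nat_lit 484) (nat_lit 363) (nat_lit 353)) (XT.lf (nat_lit 0) (nat_lit 2128770144) (nat_lit 152) (nat_lit 46617130285) (nat_lit 0) (nat_lit 380820819) (nat_lit 9) (nat_lit 5) (nat_lit 11) (nat_lit 4) (nat_lit 9) (nat_lit 4) (nat_lit 485) (nat_lit 363) (nat_lit 352)))) (XT.nd (nat_lit 78) (nat_lit 76) (nat_lit 0) (XT.lf (nat_lit 0) (nat_lit 13090839042) (nat_lit 152) (nat_lit 26934386723) (nat_lit 0) (nat_lit 11225712370) (nat_lit 9) (nat_lit 5) (nat_lit 11) (nat_lit 4) (nat_lit 9) (nat_lit 4) (nat_lit 486) (nat_lit 363) (nat_lit 351)) (XT.nd (nat_lit 78) (nat_lit 76) (nat_lit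 0) (XT.lf (nat_lit 0) (nat_lit 24320122412) (nat_lit 152) (nat_lit 6826275342) (nat_lit 0) (nat_lit 22343398265) (nat_lit 9) (nat_lit 5) (nat_lit 11) (nat_lit 4) (nat_lit 9) (nat_lit 4) (nat_lit 487) (nat_lit 363) (nat_lit 350)) (XT.lf (nat_lit 0) (nat_lit 14028833381) (nat_lit 76) (nat_lit 21949376990) (nat_lit 76) (nat_lit 19866369534) (nat_lit 8) (nat_lit 4) (nat_lit 9) (nat_lit 5) (nat_lit 9) (nat_lit 4) (nat_lit 488) (nat_lit 363) (nat_lit 349))))) (XT.nd (nat_lit 234) (nat_lit 76) (nat_lit 0) (XT.nd (nat_lit 78) (nat_lit 152) (nat_lit 0) (XT.lf (nat_lit 0) (nat_lit 35552439621) (nat_lit 76) (nat_lit 12477290182) (nat_lit 76) (nat_lit 10293060528) (nat_lit 8) (nat_lit 4) (nat_lit 9) (nat_lit 5) (nat_lit 9) (nat_lit 4) (nat_lit 489) (nat_lit 363) (nat_lit 348)) (XT.nd (nat_lit 78) (nat_lit 152) (nat_lit 0) (XT.lf (nat_lit 0) (nat_lit 57659933795) (nat_lit 76) (nat_lit 2776516741) (nat_lit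 76) (nat_lit 495884992) (nat_lit 8) (nat_lit 4) (nat_lit 9) (nat_lit 5) (nat_lit 9) (nat_lit 4) (nat_lit 490) (nat_lit 363) (nat_lit 347)) (XT.lf (nat_lit 0) (nat_lit 9596728208) (nat_lit 152) (nat_lit 46779524589) (nat_lit 0) (nat_lit 7293385231) (nat_lit 6) (nat_lit 5) (nat_lit 8) (nat_lit 4) (nat_lit 6) (nat_lit 4) (nat_lit 491) (nat_lit 363) (nat_lit 346)))) (XT.nd (nat_lit 156) (nat_lit 76) (nat_lit 0) (XT.nd (nat_lit 78) (nat_lit 0) (nat_lit 0) (XT.lf (nat_lit 0) (nat_lit 20012632357) (nat_lit 152) (nat_lit 28911764555) (nat_lit 0) (nat_lit 17624396621) (nat_lit 6) (nat_lit 5) (nat_lit 8) (nat_lit 4) (nat_lit 6) (nat_lit 4) (nat_lit 492) (nat_lit 363) (nat_lit 345)) (XT.lf (nat_lit 0) (nat_lit 30727214131) (nat_lit 152) (nat_lit 10593230583) (nat_lit 0) (nat_lit 28258128149) (nat_lit 6) (nat_lit 5) (nat_lit 8) (nat_lit 4) (nat_lit 6) (nat_lit 4) (nat_lit 493) (nat_lit 363) (nat_lit 344)))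 (XT.nd (nat_lit 78) (nat_lit 0) (nat_lit 0) (XT.lf (nat_lit 0) (nat_lit 8383280888) (nat_lit 76) (nat_lit 33463288776) (nat_lit 76) (nat_lit 30917202560) (nat_lit 5) (nat_lit 4) (nat_lit 6) (nat_lit 5) (nat_lit 6) (nat_lit 4) (nat_lit 494) (nat_lit 363) (nat_lit 343)) (XT.lf (nat_lit 0) (nat_lit 28120531373) (nat_lit 76) (nat_lit 25305006449) (nat_lit 76) (nat_lit 22685586676) (nat_lit 5) (nat_lit 4) (nat_lit 6) (nat_lit 5) (nat_lit 6) (nat_lit 4) (nat_lit 495) (nat_lit 363) (nat_lit 342))))))) (XT.nd (nat_lit 61308) (nat_lit 0) (nat_lit 228) (XT.nd (nat_lit 60762) (nat_lit 0) (nat_lit 836) (XT.nd (nat_lit 234) (nat_lit 0) (nat_lit 0) (XT.nd (nat_lit 78) (nat_lit 152) (nat_lit 0) (XT.lf (nat_lit 0) (nat_lit 48454688263) (nat_lit 76) (nat_lit 16933144108) (nat_lit 76) (nat_lit 14243882853) (nat_lit 5) (nat_lit 4) (nat_lit 6) (nat_lit 5) (nat_lit 6) (nat_lit 4) (nat_lit 496) (nat_lit 363) (nat_lit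 341)) (XT.nd (nat_lit 78) (nat_lit 152) (nat_lit 0) (XT.lf (nat_lit 0) (nat_lit 69434166219) (nat_lit 76) (nat_lit 8327768750) (nat_lit 76) (nat_lit 5571991797) (nat_lit 5) (nat_lit 4) (nat_lit 6) (nat_lit 5) (nat_lit 6) (nat_lit 4) (nat_lit 497) (nat_lit 363) (nat_lit 340)) (XT.lf (nat_lit 0) (nat_lit 3328898147) (nat_lit 152) (nat_lit 83303519653) (nat_lit 0) (nat_lit 591883354) (nat_lit 3) (nat_lit 5) (nat_lit 5) (nat_lit 4) (nat_lit 3) (nat_lit 4) (nat_lit 498) (nat_lit 363) (nat_lit 339)))) (XT.nd (nat_lit 60372) (nat_lit 0) (nat_lit 1368) (XT.lf (nat_lit 0) (nat_lit 12613563357) (nat_lit 152) (nat_lit 68874384544) (nat_lit 0) (nat_lit 9817974100) (nat_lit 3) (nat_lit 5) (nat_lit 5) (nat_lit 4) (nat_lit 3) (nat_lit 4) (nat_lit 499) (nat_lit 363) (nat_lit 338)) (XT.nd (nat_lit 78) (nat_lit 152) (nat_lit 0) (XT.lf (nat_lit 0) (nat_lit 14190126820) (nat_lit 76) (nat_lit 267991814) (nat_lit 76)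 (nat_lit 267991814) (nat_lit 23) (nat_lit 4) (nat_lit 24) (nat_lit 5) (nat_lit 24) (nat_lit 4) (nat_lit 472) (nat_lit 364) (nat_lit 364)) (XT.lf (nat_lit 0) (nat_lit 11900050291) (nat_lit 152) (nat_lit 6980498844) (nat_lit 0) (nat_lit 11663205329) (nat_lit 21) (nat_lit 5) (nat_lit 23) (nat_lit 4) (nat_lit 21) (nat_lit 4) (nat_lit 473) (nat_lit 364) (nat_lit 363))))) (XT.nd (nat_lit 234) (nat_lit 304) (nat_lit 0) (XT.nd (nat_lit 78) (nat_lit 152) (nat_lit 0) (XT.lf (nat_lit 0) (nat_lit 17299939007) (nat_lit 76) (nat_lit 7429355169) (nat_lit 76) (nat_lit 6966943576) (nat_lit 20) (nat_lit 4) (nat_lit 21) (nat_lit 5) (nat_lit 21) (nat_lit 4) (nat_lit 474) (nat_lit 364) (nat_lit 362)) (XT.nd (nat_lit 78) (nat_lit 0) (nat_lit 0) (XT.lf (nat_lit 0) (nat_lit 5003197882) (nat_lit 152) (nat_lit 23561555750) (nat_lit 0) (nat_lit 4345686274) (nat_lit 18) (nat_lit 5) (nat_lit 20) (nat_lit 4) (nat_lit 18) (nat_lit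 4) (nat_lit 475) (nat_lit 364) (nat_lit 361)) (XT.lf (nat_lit 0) (nat_lit 17269015030) (nat_lit 152) (nat_lit 506169346) (nat_lit 0) (nat_lit 16412866933) (nat_lit 18) (nat_lit 5) (nat_lit 20) (nat_lit 4) (nat_lit 18) (nat_lit 4) (nat_lit 476) (nat_lit 364) (nat_lit 360)))) (XT.nd (nat_lit 156) (nat_lit 76) (nat_lit 0) (XT.nd (nat_lit 78) (nat_lit 152) (nat_lit 0) (XT.lf (nat_lit 0) (nat_lit 23434849494) (nat_lit 76) (nat_lit 6572129855) (nat_lit 76) (nat_lit 5526804149) (nat_lit 17) (nat_lit 4) (nat_lit 18) (nat_lit 5) (nat_lit 18) (nat_lit 4) (nat_lit 477) (nat_lit 364) (nat_lit 359)) (XT.lf (nat_lit 0) (nat_lit 6110224125) (nat_lit 152) (nat_lit 25920281954) (nat_lit 0) (nat_lit 4920423293) (nat_lit 15) (nat_lit 5) (nat_lit 17) (nat_lit 4) (nat_lit 15) (nat_lit 4) (nat_lit 478) (nat_lit 364) (nat_lit 358))) (XT.nd (nat_lit 78) (nat_lit 76) (nat_lit 0) (XT.lf (nat_lit 0) (nat_lit 18055907649)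 (nat_lit 152) (nat_lit 3686640360) (nat_lit 0) (nat_lit 16699514907) (nat_lit 15) (nat_lit 5) (nat_lit 17) (nat_lit 4) (nat_lit 15) (nat_lit 4) (nat_lit 479) (nat_lit 364) (nat_lit 357)) (XT.lf (nat_lit 0) (nat_lit 19372293500) (nat_lit 76) (nat_lit 11077494458) (nat_lit 76) (nat_lit 9562442754) (nat_lit 14) (nat_lit 4) (nat_lit 15) (nat_lit 5) (nat_lit 15) (nat_lit 4) (nat_lit 480) (nat_lit 364) (nat_lit 356)))))) (XT.nd (nat_lit 468) (nat_lit 228) (nat_lit 0) (XT.nd (nat_lit 234) (nat_lit 152) (nat_lit 0) (XT.nd (nat_lit 78) (nat_lit 76) (nat_lit 0) (XT.lf (nat_lit 0) (nat_lit 1358334034) (nat_lit 76) (nat_lit 131562277) (nat_lit 152) (nat_lit 40178816978) (nat_lit 12) (nat_lit 5) (nat_lit 13) (nat_lit 5) (nat_lit 14) (nat_lit 4) (nat_lit 481) (nat_lit 364) (nat_lit 355)) (XT.nd (nat_lit 78) (nat_lit 76) (nat_lit 0) (XT.lf (nat_lit 0) (nat_lit 12900493492) (nat_lit 152) (nat_lit 19361438357)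 (nat_lit 0) (nat_lit 11143149964) (nat_lit 12) (nat_lit 5) (nat_lit 14) (nat_lit 4) (nat_lit 12) (nat_lit 4) (nat_lit 482) (nat_lit 364) (nat_lit 354)) (XT.lf (nat_lit 0) (nat_lit 2064585111) (nat_lit 76) (nat_lit 22531333036) (nat_lit 76) (nat_lit 20640925841) (nat_lit 11) (nat_lit 4) (nat_lit 12) (nat_lit 5) (nat_lit 12) (nat_lit 4) (nat_lit 483) (nat_lit 364) (nat_lit 353)))) (XT.nd (nat_lit 78) (nat_lit 152) (nat_lit 0) (XT.lf (nat_lit 0) (nat_lit 24374648944) (nat_lit 76) (nat_lit 12402821543) (nat_lit 76) (nat_lit 10385687047) (nat_lit 11) (nat_lit 4) (nat_lit 12) (nat_lit 5) (nat_lit 12) (nat_lit 4) (nat_lit 484) (nat_lit 364) (nat_lit 352)) (XT.nd (nat_lit 78) (nat_lit 76) (nat_lit 0) (XT.lf (nat_lit 0) (nat_lit 88275869) (nat_lit 152) (nat_lit 1958627149) (nat_lit 76) (nat_lit 47147374472) (nat_lit 10) (nat_lit 5) (nat_lit 12) (nat_lit 5) (nat_lit 11) (nat_lit 4) (nat_lit 485) (nat_lit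 364) (nat_lit 351)) (XT.lf (nat_lit 0) (nat_lit 10874257324) (nat_lit 152) (nat_lit 31762421880) (nat_lit 0) (nat_lit 8687099496) (nat_lit 9) (nat_lit 5) (nat_lit 11) (nat_lit 4) (nat_lit 9) (nat_lit 4) (nat_lit 486) (nat_lit 364) (nat_lit 350))))) (XT.nd (nat_lit 234) (nat_lit 152) (nat_lit 0) (XT.nd (nat_lit 78) (nat_lit 76) (nat_lit 0) (XT.lf (nat_lit 0) (nat_lit 21973046397) (nat_lit 152) (nat_lit 11913901374) (nat_lit 0) (nat_lit 19679605260) (nat_lit 9) (nat_lit 5) (nat_lit 11) (nat_lit 4) (nat_lit 9) (nat_lit 4) (nat_lit 487) (nat_lit 364) (nat_lit 349)) (XT.nd (nat_lit 78) (nat_lit 0) (nat_lit 0) (XT.lf (nat_lit 0) (nat_lit 8587803860) (nat_lit 76) (nat_lit 24866747709) (nat_lit 76) (nat_lit 22472084372) (nat_lit 8) (nat_lit 4) (nat_lit 9) (nat_lit 5) (nat_lit 9) (nat_lit 4) (nat_lit 488) (nat_lit 364) (nat_lit 348)) (XT.lf (nat_lit 0) (nat_lit 29871267477) (nat_lit 76) (nat_lit 15514132953)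 (nat_lit 76) (nat_lit 13023067523) (nat_lit 8) (nat_lit 4) (nat_lit 9) (nat_lit 5) (nat_lit 9) (nat_lit 4) (nat_lit 489) (nat_lit 364) (nat_lit 347)))) (XT.nd (nat_lit 156) (nat_lit 0) (nat_lit 0) (XT.nd (nat_lit 78) (nat_lit 152) (nat_lit 0) (XT.lf (nat_lit 0) (nat_lit 51750054390) (nat_lit 76) (nat_lit 5927142419) (nat_lit 76) (nat_lit 3344265470) (nat_lit 8) (nat_lit 4) (nat_lit 9) (nat_lit 5) (nat_lit 9) (nat_lit 4) (nat_lit 490) (nat_lit 364) (nat_lit 346)) (XT.lf (nat_lit 0) (nat_lit 6600480509) (nat_lit 152) (nat_lit 53157270227) (nat_lit 0) (nat_lit 4007940228) (nat_lit 6) (nat_lit 5) (nat_lit 8) (nat_lit 4) (nat_lit 6) (nat_lit 4) (nat_lit 491) (nat_lit 364) (nat_lit 345))) (XT.nd (nat_lit 78) (nat_lit 0) (nat_lit 0) (XT.lf (nat_lit 0) (nat_lit 16908034618) (nat_lit 152) (nat_lit 35505419492) (nat_lit 0) (nat_lit 14234644091) (nat_lit 6) (nat_lit 5) (nat_lit 8) (nat_lit 4) (nat_lit 6)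 (nat_lit 4) (nat_lit 492) (nat_lit 364) (nat_lit 344)) (XT.lf (nat_lit 0) (nat_lit 27519425878) (nat_lit 152) (nat_lit 17392513425) (nat_lit 0) (nat_lit 24769035117) (nat_lit 6) (nat_lit 5) (nat_lit 8) (nat_lit 4) (nat_lit 6) (nat_lit 4) (nat_lit 493) (nat_lit 364) (nat_lit 343))))))))
noncomputable def xc4 : XT := (XT.nd (nat_lit 62088) (nat_lit 0) (nat_lit 0) (XT.nd (nat_lit 61074) (nat_lit 0) (nat_lit 380) (XT.nd (nat_lit 60606) (nat_lit 0) (nat_lit 1140) (XT.nd (nat_lit 234) (nat_lit 152) (nat_lit 0) (XT.nd (nat_lit 78) (nat_lit 0) (nat_lit 0) (XT.lf (nat_lit 0) (nat_lit 1248945365) (nat_lit 76) (nat_lit 37222979770) (nat_lit 76) (nat_lit 34399255451) (nat_lit 5) (nat_lit 4) (nat_lit 6) (nat_lit 5) (nat_lit 6) (nat_lit 4) (nat_lit 494) (nat_lit 364) (nat_lit 342)) (XT.nd (nat_lit 78) (nat_lit 0) (nat_lit 0) (XT.lf (nat_lit 0) (nat_lit 20795973352) (nat_lit 76) (nat_lit 29159494566) (nat_lit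 76) (nat_lit 26265928765) (nat_lit 5) (nat_lit 4) (nat_lit 6) (nat_lit 5) (nat_lit 6) (nat_lit 4) (nat_lit 495) (nat_lit 364) (nat_lit 341)) (XT.lf (nat_lit 0) (nat_lit 40948965960) (nat_lit 76) (nat_lit 20877915201) (nat_lit 76) (nat_lit 17917833702) (nat_lit 5) (nat_lit 4) (nat_lit 6) (nat_lit 5) (nat_lit 6) (nat_lit 4) (nat_lit 496) (nat_lit 364) (nat_lit 340)))) (XT.nd (nat_lit 78) (nat_lit 152) (nat_lit 0) (XT.lf (nat_lit 0) (nat_lit 61755906504) (nat_lit 76) (nat_lit 12358523628) (nat_lit 76) (nat_lit 9335093846) (nat_lit 5) (nat_lit 4) (nat_lit 6) (nat_lit 5) (nat_lit 6) (nat_lit 4) (nat_lit 497) (nat_lit 364) (nat_lit 339)) (XT.nd (nat_lit 78) (nat_lit 152) (nat_lit 0) (XT.lf (nat_lit 0) (nat_lit 83266335317) (nat_lit 76) (nat_lit 3581035582) (nat_lit 76) (nat_lit 497274101) (nat_lit 5) (nat_lit 4) (nat_lit 6) (nat_lit 5) (nat_lit 6) (nat_lit 4) (nat_lit 498) (nat_lit 364) (nat_lit 338))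 (XT.lf (nat_lit 0) (nat_lit 8640684982) (nat_lit 152) (nat_lit 77199460817) (nat_lit 0) (nat_lit 5590956593) (nat_lit 3) (nat_lit 5) (nat_lit 5) (nat_lit 4) (nat_lit 3) (nat_lit 4) (nat_lit 499) (nat_lit 364) (nat_lit 337))))) (XT.nd (nat_lit 234) (nat_lit 380) (nat_lit 0) (XT.nd (nat_lit 78) (nat_lit 76) (nat_lit 0) (XT.lf (nat_lit 0) (nat_lit 1726529070) (nat_lit 152) (nat_lit 10256790014) (nat_lit 0) (nat_lit 1726529070) (nat_lit 24) (nat_lit 5) (nat_lit 26) (nat_lit 4) (nat_lit 24) (nat_lit 4) (nat_lit 470) (nat_lit 365) (nat_lit 365)) (XT.nd (nat_lit 78) (nat_lit 0) (nat_lit 0) (XT.lf (nat_lit 0) (nat_lit 3326977336) (nat_lit 76) (nat_lit 12670198583) (nat_lit 76) (nat_lit 12414050756) (nat_lit 23) (nat_lit 4) (nat_lit 24) (nat_lit 5) (nat_lit 24) (nat_lit 4) (nat_lit 471) (nat_lit 365) (nat_lit 364)) (XT.lf (nat_lit 0) (nat_lit 27991698957) (nat_lit 76) (nat_lit 983273092) (nat_lit 76) (nat_lit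 483174954) (nat_lit 23) (nat_lit 4) (nat_lit 24) (nat_lit 5) (nat_lit 24) (nat_lit 4) (nat_lit 472) (nat_lit 365) (nat_lit 363)))) (XT.nd (nat_lit 78) (nat_lit 228) (nat_lit 0) (XT.lf (nat_lit 0) (nat_lit 11748276066) (nat_lit 152) (nat_lit 7770322020) (nat_lit 0) (nat_lit 11037177262) (nat_lit 21) (nat_lit 5) (nat_lit 23) (nat_lit 4) (nat_lit 21) (nat_lit 4) (nat_lit 473) (nat_lit 365) (nat_lit 362)) (XT.nd (nat_lit 78) (nat_lit 152) (nat_lit 0) (XT.lf (nat_lit 0) (nat_lit 16120161164) (nat_lit 76) (nat_lit 8259973238) (nat_lit 76) (nat_lit 7334049071) (nat_lit 20) (nat_lit 4) (nat_lit 21) (nat_lit 5) (nat_lit 21) (nat_lit 4) (nat_lit 474) (nat_lit 365) (nat_lit 361)) (XT.lf (nat_lit 0) (nat_lit 4435737519) (nat_lit 152) (nat_lit 25160837023) (nat_lit 0) (nat_lit 3338145528) (nat_lit 18) (nat_lit 5) (nat_lit 20) (nat_lit 4) (nat_lit 18) (nat_lit 4) (nat_lit 475) (nat_lit 365) (nat_lit 360))))))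 (XT.nd (nat_lit 468) (nat_lit 456) (nat_lit 0) (XT.nd (nat_lit 234) (nat_lit 76) (nat_lit 0) (XT.nd (nat_lit 78) (nat_lit 228) (nat_lit 0) (XT.lf (nat_lit 0) (nat_lit 16522816231) (nat_lit 152) (nat_lit 2458833646) (nat_lit 0) (nat_lit 15236046631) (nat_lit 18) (nat_lit 5) (nat_lit 20) (nat_lit 4) (nat_lit 18) (nat_lit 4) (nat_lit 476) (nat_lit 365) (nat_lit 359)) (XT.nd (nat_lit 78) (nat_lit 152) (nat_lit 0) (XT.lf (nat_lit 0) (nat_lit 21100069971) (nat_lit 76) (nat_lit 7968040167) (nat_lit 76) (nat_lit 6501101416) (nat_lit 17) (nat_lit 4) (nat_lit 18) (nat_lit 5) (nat_lit 18) (nat_lit 4) (nat_lit 477) (nat_lit 365) (nat_lit 358)) (XT.lf (nat_lit 0) (nat_lit 4946311204) (nat_lit 152) (nat_lit 28691081643) (nat_lit 0) (nat_lit 3355506914) (nat_lit 15) (nat_lit 5) (nat_lit 17) (nat_lit 4) (nat_lit 15) (nat_lit 4) (nat_lit 478) (nat_lit 365) (nat_lit 357)))) (XT.nd (nat_lit 78) (nat_lit 76) (nat_lit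 0) (XT.lf (nat_lit 0) (nat_lit 16728430959) (nat_lit 152) (nat_lit 6781543969) (nat_lit 0) (nat_lit 14978967707) (nat_lit 15) (nat_lit 5) (nat_lit 17) (nat_lit 4) (nat_lit 15) (nat_lit 4) (nat_lit 479) (nat_lit 365) (nat_lit 356)) (XT.nd (nat_lit 78) (nat_lit 0) (nat_lit 0) (XT.lf (nat_lit 0) (nat_lit 15900981697) (nat_lit 76) (nat_lit 13032186181) (nat_lit 76) (nat_lit 11131619156) (nat_lit 14) (nat_lit 4) (nat_lit 15) (nat_lit 5) (nat_lit 15) (nat_lit 4) (nat_lit 480) (nat_lit 365) (nat_lit 355)) (XT.lf (nat_lit 0) (nat_lit 39244712001) (nat_lit 76) (nat_lit 2263199219) (nat_lit 76) (nat_lit 218723838) (nat_lit 14) (nat_lit 4) (nat_lit 15) (nat_lit 5) (nat_lit 15) (nat_lit 4) (nat_lit 481) (nat_lit 365) (nat_lit 354))))) (XT.nd (nat_lit 234) (nat_lit 228) (nat_lit 0) (XT.nd (nat_lit 78) (nat_lit 76) (nat_lit 0) (XT.lf (nat_lit 0) (nat_lit 11001381567) (nat_lit 152) (nat_lit 23584139565) (nat_lit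 0) (nat_lit 8883390346) (nat_lit 12) (nat_lit 5) (nat_lit 14) (nat_lit 4) (nat_lit 12) (nat_lit 4) (nat_lit 482) (nat_lit 365) (nat_lit 353)) (XT.nd (nat_lit 78) (nat_lit 76) (nat_lit 0) (XT.lf (nat_lit 0) (nat_lit 22534392767) (nat_lit 152) (nat_lit 2481480976) (nat_lit 0) (nat_lit 20289674244) (nat_lit 12) (nat_lit 5) (nat_lit 14) (nat_lit 4) (nat_lit 12) (nat_lit 4) (nat_lit 483) (nat_lit 365) (nat_lit 352)) (XT.lf (nat_lit 0) (nat_lit 19504233488) (nat_lit 76) (nat_lit 15048961785) (nat_lit 76) (nat_lit 12683550594) (nat_lit 11) (nat_lit 4) (nat_lit 12) (nat_lit 5) (nat_lit 12) (nat_lit 4) (nat_lit 484) (nat_lit 365) (nat_lit 351)))) (XT.nd (nat_lit 156) (nat_lit 76) (nat_lit 0) (XT.nd (nat_lit 78) (nat_lit 152) (nat_lit 0) (XT.lf (nat_lit 0) (nat_lit 42104256745) (nat_lit 76) (nat_lit 4823974142) (nat_lit 76) (nat_lit 2343617552) (nat_lit 11) (nat_lit 4) (nat_lit 12) (nat_lit 5) (nat_lit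 12) (nat_lit 4) (nat_lit 485) (nat_lit 365) (nat_lit 350)) (XT.lf (nat_lit 0) (nat_lit 8279333212) (nat_lit 152) (nat_lit 37364020088) (nat_lit 0) (nat_lit 5764936709) (nat_lit 9) (nat_lit 5) (nat_lit 11) (nat_lit 4) (nat_lit 9) (nat_lit 4) (nat_lit 486) (nat_lit 365) (nat_lit 349))) (XT.nd (nat_lit 78) (nat_lit 76) (nat_lit 0) (XT.lf (nat_lit 0) (nat_lit 19253842003) (nat_lit 152) (nat_lit 17762728988) (nat_lit 0) (nat_lit 16638223301) (nat_lit 9) (nat_lit 5) (nat_lit 11) (nat_lit 4) (nat_lit 9) (nat_lit 4) (nat_lit 487) (nat_lit 365) (nat_lit 348)) (XT.lf (nat_lit 0) (nat_lit 2382430485) (nat_lit 76) (nat_lit 28174904670) (nat_lit 76) (nat_lit 25462883874) (nat_lit 8) (nat_lit 4) (nat_lit 9) (nat_lit 5) (nat_lit 9) (nat_lit 4) (nat_lit 488) (nat_lit 365) (nat_lit 347))))))) (XT.nd (nat_lit 60996) (nat_lit 0) (nat_lit 684) (XT.nd (nat_lit 468) (nat_lit 228) (nat_lit 0) (XT.nd (nat_lit 234) (nat_lit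 0) (nat_lit 0) (XT.nd (nat_lit 78) (nat_lit 152) (nat_lit 0) (XT.lf (nat_lit 0) (nat_lit 23437186841) (nat_lit 76) (nat_lit 18936072822) (nat_lit 76) (nat_lit 16132240507) (nat_lit 8) (nat_lit 4) (nat_lit 9) (nat_lit 5) (nat_lit 9) (nat_lit 4) (nat_lit 489) (nat_lit 365) (nat_lit 346)) (XT.nd (nat_lit 78) (nat_lit 152) (nat_lit 0) (XT.lf (nat_lit 0) (nat_lit 45098157315) (nat_lit 76) (nat_lit 9457446960) (nat_lit 76) (nat_lit 6566175105) (nat_lit 8) (nat_lit 4) (nat_lit 9) (nat_lit 5) (nat_lit 9) (nat_lit 4) (nat_lit 490) (nat_lit 365) (nat_lit 345)) (XT.lf (nat_lit 0) (nat_lit 3232302844) (nat_lit 152) (nat_lit 60296517211) (nat_lit 0) (nat_lit 344392544) (nat_lit 6) (nat_lit 5) (nat_lit 8) (nat_lit 4) (nat_lit 6) (nat_lit 4) (nat_lit 491) (nat_lit 365) (nat_lit 344)))) (XT.nd (nat_lit 78) (nat_lit 0) (nat_lit 0) (XT.lf (nat_lit 0) (nat_lit 13436666439) (nat_lit 152) (nat_lit 42850294380) (nat_lit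 0) (nat_lit 10471755905) (nat_lit 6) (nat_lit 5) (nat_lit 8) (nat_lit 4) (nat_lit 6) (nat_lit 4) (nat_lit 492) (nat_lit 365) (nat_lit 343)) (XT.nd (nat_lit 78) (nat_lit 0) (nat_lit 0) (XT.lf (nat_lit 0) (nat_lit 23949781019) (nat_lit 152) (nat_lit 24933224412) (nat_lit 0) (nat_lit 20911536929) (nat_lit 6) (nat_lit 5) (nat_lit 8) (nat_lit 4) (nat_lit 6) (nat_lit 4) (nat_lit 493) (nat_lit 365) (nat_lit 342)) (XT.lf (nat_lit 0) (nat_lit 34796677811) (nat_lit 152) (nat_lit 6502647615) (nat_lit 0) (nat_lit 31688592238) (nat_lit 6) (nat_lit 5) (nat_lit 8) (nat_lit 4) (nat_lit 6) (nat_lit 4) (nat_lit 494) (nat_lit 365) (nat_lit 341))))) (XT.nd (nat_lit 234) (nat_lit 152) (nat_lit 0) (XT.nd (nat_lit 78) (nat_lit 0) (nat_lit 0) (XT.lf (nat_lit 0) (nat_lit 12733800652) (nat_lit 76) (nat_lit 33391787188) (nat_lit 76) (nat_lit 30217185917) (nat_lit 5) (nat_lit 4) (nat_lit 6) (nat_lit 5) (nat_lit 6) (nat_lit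 4) (nat_lit 495) (nat_lit 365) (nat_lit 340)) (XT.nd (nat_lit 78) (nat_lit 0) (nat_lit 0) (XT.lf (nat_lit 0) (nat_lit 32714255847) (nat_lit 76) (nat_lit 25196191608) (nat_lit 76) (nat_lit 21958242054) (nat_lit 5) (nat_lit 4) (nat_lit 6) (nat_lit 5) (nat_lit 6) (nat_lit 4) (nat_lit 496) (nat_lit 365) (nat_lit 339)) (XT.lf (nat_lit 0) (nat_lit 53356875046) (nat_lit 76) (nat_lit 16758689355) (nat_lit 76) (nat_lit 13460408102) (nat_lit 5) (nat_lit 4) (nat_lit 6) (nat_lit 5) (nat_lit 6) (nat_lit 4) (nat_lit 497) (nat_lit 365) (nat_lit 338)))) (XT.nd (nat_lit 60138) (nat_lit 0) (nat_lit 1748) (XT.nd (nat_lit 78) (nat_lit 152) (nat_lit 0) (XT.lf (nat_lit 0) (nat_lit 74710807341) (nat_lit 76) (nat_lit 8059191137) (nat_lit 76) (nat_lit 4703451124) (nat_lit 5) (nat_lit 4) (nat_lit 6) (nat_lit 5) (nat_lit 6) (nat_lit 4) (nat_lit 498) (nat_lit 365) (nat_lit 337)) (XT.lf (nat_lit 0) (nat_lit 4309834098) (nat_lit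 152) (nat_lit 86258783901) (nat_lit 0) (nat_lit 998705319) (nat_lit 3) (nat_lit 5) (nat_lit 5) (nat_lit 4) (nat_lit 3) (nat_lit 4) (nat_lit 499) (nat_lit 365) (nat_lit 336))) (XT.nd (nat_lit 78) (nat_lit 76) (nat_lit 0) (XT.lf (nat_lit 0) (nat_lit 2702042549) (nat_lit 152) (nat_lit 7383660063) (nat_lit 0) (nat_lit 2702042549) (nat_lit 27) (nat_lit 5) (nat_lit 29) (nat_lit 4) (nat_lit 27) (nat_lit 4) (nat_lit 468) (nat_lit 366) (nat_lit 366)) (XT.lf (nat_lit 0) (nat_lit 9195715195) (nat_lit 76) (nat_lit 8778789624) (nat_lit 76) (nat_lit 8501765749) (nat_lit 26) (nat_lit 4) (nat_lit 27) (nat_lit 5) (nat_lit 27) (nat_lit 4) (nat_lit 469) (nat_lit 366) (nat_lit 365)))))) (XT.nd (nat_lit 468) (nat_lit 456) (nat_lit 0) (XT.nd (nat_lit 234) (nat_lit 380) (nat_lit 0) (XT.nd (nat_lit 78) (nat_lit 76) (nat_lit 0) (XT.lf (nat_lit 0) (nat_lit 3518651437) (nat_lit 152) (nat_lit 20913601238) (nat_lit 0) (nat_lit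 2993548391) (nat_lit 24) (nat_lit 5) (nat_lit 26) (nat_lit 4) (nat_lit 24) (nat_lit 4) (nat_lit 470) (nat_lit 366) (nat_lit 364)) (XT.nd (nat_lit 78) (nat_lit 0) (nat_lit 0) (XT.lf (nat_lit 0) (nat_lit 2530440236) (nat_lit 76) (nat_lit 13330994157) (nat_lit 76) (nat_lit 12561940800) (nat_lit 23) (nat_lit 4) (nat_lit 24) (nat_lit 5) (nat_lit 24) (nat_lit 4) (nat_lit 471) (nat_lit 366) (nat_lit 363)) (XT.lf (nat_lit 0) (nat_lit 26825109778) (nat_lit 76) (nat_lit 1826108320) (nat_lit 76) (nat_lit 824721334) (nat_lit 23) (nat_lit 4) (nat_lit 24) (nat_lit 5) (nat_lit 24) (nat_lit 4) (nat_lit 472) (nat_lit 366) (nat_lit 362)))) (XT.nd (nat_lit 78) (nat_lit 228) (nat_lit 0) (XT.lf (nat_lit 0) (nat_lit 11207521287) (nat_lit 152) (nat_lit 9351848905) (nat_lit 0) (nat_lit 10020475548) (nat_lit 21) (nat_lit 5) (nat_lit 23) (nat_lit 4) (nat_lit 21) (nat_lit 4) (nat_lit 473) (nat_lit 366) (nat_lit 361)) (XT.nd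 (nat_lit 78) (nat_lit 152) (nat_lit 0) (XT.lf (nat_lit 0) (nat_lit 14150743903) (nat_lit 76) (nat_lit 9492518952) (nat_lit 76) (nat_lit 8100877630) (nat_lit 20) (nat_lit 4) (nat_lit 21) (nat_lit 5) (nat_lit 21) (nat_lit 4) (nat_lit 474) (nat_lit 366) (nat_lit 360)) (XT.lf (nat_lit 0) (nat_lit 3473490343) (nat_lit 152) (nat_lit 27564517567) (nat_lit 0) (nat_lit 1933204655) (nat_lit 18) (nat_lit 5) (nat_lit 20) (nat_lit 4) (nat_lit 18) (nat_lit 4) (nat_lit 475) (nat_lit 366) (nat_lit 359))))) (XT.nd (nat_lit 234) (nat_lit 228) (nat_lit 0) (XT.nd (nat_lit 78) (nat_lit 228) (nat_lit 0) (XT.lf (nat_lit 0) (nat_lit 15390341971) (nat_lit 152) (nat_lit 5199069454) (nat_lit 0) (nat_lit 13669887132) (nat_lit 18) (nat_lit 5) (nat_lit 20) (nat_lit 4) (nat_lit 18) (nat_lit 4) (nat_lit 476) (nat_lit 366) (nat_lit 358)) (XT.nd (nat_lit 78) (nat_lit 152) (nat_lit 0) (XT.lf (nat_lit 0) (nat_lit 17978390122) (nat_lit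 76) (nat_lit 9765117228) (nat_lit 76) (nat_lit 7873072721) (nat_lit 17) (nat_lit 4) (nat_lit 18) (nat_lit 5) (nat_lit 18) (nat_lit 4) (nat_lit 477) (nat_lit 366) (nat_lit 357)) (XT.lf (nat_lit 0) (nat_lit 3388896911) (nat_lit 152) (nat_lit 32264834351) (nat_lit 0) (nat_lit 1393301534) (nat_lit 15) (nat_lit 5) (nat_lit 17) (nat_lit 4) (nat_lit 15) (nat_lit 4) (nat_lit 478) (nat_lit 366) (nat_lit 356)))) (XT.nd (nat_lit 156) (nat_lit 152) (nat_lit 0) (XT.nd (nat_lit 78) (nat_lit 76) (nat_lit 0) (XT.lf (nat_lit 0) (nat_lit 15015241648) (nat_lit 152) (nat_lit 10663967075) (nat_lit 0) (nat_lit 12868542498) (nat_lit 15) (nat_lit 5) (nat_lit 17) (nat_lit 4) (nat_lit 15) (nat_lit 4) (nat_lit 479) (nat_lit 366) (nat_lit 355)) (XT.lf (nat_lit 0) (nat_lit 11641468334) (nat_lit 76) (nat_lit 15389208024) (nat_lit 76) (nat_lit 13098600518) (nat_lit 14) (nat_lit 4) (nat_lit 15) (nat_lit 5) (nat_lit 15) (nat_lit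 4) (nat_lit 480) (nat_lit 366) (nat_lit 354))) (XT.nd (nat_lit 78) (nat_lit 152) (nat_lit 0) (XT.lf (nat_lit 0) (nat_lit 34699653473) (nat_lit 76) (nat_lit 4761728859) (nat_lit 76) (nat_lit 2334065777) (nat_lit 14) (nat_lit 4) (nat_lit 15) (nat_lit 5) (nat_lit 15) (nat_lit 4) (nat_lit 481) (nat_lit 366) (nat_lit 353)) (XT.lf (nat_lit 0) (nat_lit 8715050876) (nat_lit 152) (nat_lit 28598284479) (nat_lit 0) (nat_lit 6231369125) (nat_lit 12) (nat_lit 5) (nat_lit 14) (nat_lit 4) (nat_lit 12) (nat_lit 4) (nat_lit 482) (nat_lit 366) (nat_lit 352))))))))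
noncomputable def xc5 : XT := (XT.nd (nat_lit 61776) (nat_lit 0) (nat_lit 0) (XT.nd (nat_lit 936) (nat_lit 76) (nat_lit 0) (XT.nd (nat_lit 468) (nat_lit 228) (nat_lit 0) (XT.nd (nat_lit 234) (nat_lit 152) (nat_lit 0) (XT.nd (nat_lit 78) (nat_lit 76) (nat_lit 0) (XT.lf (nat_lit 0) (nat_lit 20112283599) (nat_lit 152) (nat_lit 7765223402) (nat_lit 0) (nat_lit 17507909180) (nat_lit 12) (nat_lit 5) (nat_lit 14) (nat_lit 4) (nat_lit 12) (nat_lit 4) (nat_lit 483) (nat_lit 366) (nat_lit 351)) (XT.nd (nat_lit 78) (nat_lit 0) (nat_lit 0) (XT.lf (nat_lit 0) (nat_lit 13853464674) (nat_lit 76) (nat_lit 18093989949) (nat_lit 76) (nat_lit 15374670132) (nat_lit 11) (nat_lit 4) (nat_lit 12) (nat_lit 5) (nat_lit 12) (nat_lit 4) (nat_lit 484) (nat_lit 366) (nat_lit 350)) (XT.lf (nat_lit 0) (nat_lit 36204088356) (nat_lit 76) (nat_lit 7992849419) (nat_lit 76) (nat_lit 5164057793) (nat_lit 11) (nat_lit 4) (nat_lit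 12) (nat_lit 5) (nat_lit 12) (nat_lit 4) (nat_lit 485) (nat_lit 366) (nat_lit 349)))) (XT.nd (nat_lit 78) (nat_lit 0) (nat_lit 0) (XT.lf (nat_lit 0) (nat_lit 5299888315) (nat_lit 152) (nat_lit 43752518488) (nat_lit 0) (nat_lit 2452266479) (nat_lit 9) (nat_lit 5) (nat_lit 11) (nat_lit 4) (nat_lit 9) (nat_lit 4) (nat_lit 486) (nat_lit 366) (nat_lit 348)) (XT.nd (nat_lit 78) (nat_lit 0) (nat_lit 0) (XT.lf (nat_lit 0) (nat_lit 16156034932) (nat_lit 152) (nat_lit 24386683964) (nat_lit 0) (nat_lit 13212011002) (nat_lit 9) (nat_lit 5) (nat_lit 11) (nat_lit 4) (nat_lit 9) (nat_lit 4) (nat_lit 487) (nat_lit 366) (nat_lit 347)) (XT.lf (nat_lit 0) (nat_lit 27323900826) (nat_lit 152) (nat_lit 4512258648) (nat_lit 0) (nat_lit 24288065378) (nat_lit 9) (nat_lit 5) (nat_lit 11) (nat_lit 4) (nat_lit 9) (nat_lit 4) (nat_lit 488) (nat_lit 366) (nat_lit 346))))) (XT.nd (nat_lit 234) (nat_lit 152) (nat_lit 0) (XT.nd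 (nat_lit 78) (nat_lit 0) (nat_lit 0) (XT.lf (nat_lit 0) (nat_lit 16234878474) (nat_lit 76) (nat_lit 22751257263) (nat_lit 76) (nat_lit 19627982274) (nat_lit 8) (nat_lit 4) (nat_lit 9) (nat_lit 5) (nat_lit 9) (nat_lit 4) (nat_lit 489) (nat_lit 366) (nat_lit 345)) (XT.nd (nat_lit 78) (nat_lit 0) (nat_lit 0) (XT.lf (nat_lit 0) (nat_lit 37688404721) (nat_lit 76) (nat_lit 13375835853) (nat_lit 76) (nat_lit 10169285110) (nat_lit 8) (nat_lit 4) (nat_lit 9) (nat_lit 5) (nat_lit 9) (nat_lit 4) (nat_lit 490) (nat_lit 366) (nat_lit 344)) (XT.lf (nat_lit 0) (nat_lit 59809597122) (nat_lit 76) (nat_lit 3733137775) (nat_lit 76) (nat_lit 447276791) (nat_lit 8) (nat_lit 4) (nat_lit 9) (nat_lit 5) (nat_lit 9) (nat_lit 4) (nat_lit 491) (nat_lit 366) (nat_lit 343)))) (XT.nd (nat_lit 78) (nat_lit 0) (nat_lit 0) (XT.lf (nat_lit 0) (nat_lit 9590262657) (nat_lit 152) (nat_lit 50963877016) (nat_lit 0) (nat_lit 6326772805)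 (nat_lit 6) (nat_lit 5) (nat_lit 8) (nat_lit 4) (nat_lit 6) (nat_lit 4) (nat_lit 492) (nat_lit 366) (nat_lit 342)) (XT.nd (nat_lit 78) (nat_lit 0) (nat_lit 0) (XT.lf (nat_lit 0) (nat_lit 20009780399) (nat_lit 152) (nat_lit 33233317618) (nat_lit 0) (nat_lit 16676449065) (nat_lit 6) (nat_lit 5) (nat_lit 8) (nat_lit 4) (nat_lit 6) (nat_lit 4) (nat_lit 493) (nat_lit 366) (nat_lit 341)) (XT.lf (nat_lit 0) (nat_lit 30767537345) (nat_lit 152) (nat_lit 14980369936) (nat_lit 0) (nat_lit 27367690313) (nat_lit 6) (nat_lit 5) (nat_lit 8) (nat_lit 4) (nat_lit 6) (nat_lit 4) (nat_lit 494) (nat_lit 366) (nat_lit 340)))))) (XT.nd (nat_lit 60294) (nat_lit 0) (nat_lit 1216) (XT.nd (nat_lit 234) (nat_lit 0) (nat_lit 0) (XT.nd (nat_lit 78) (nat_lit 0) (nat_lit 0) (XT.lf (nat_lit 0) (nat_lit 3914817621) (nat_lit 76) (nat_lit 38011961202) (nat_lit 76) (nat_lit 34548765886) (nat_lit 5) (nat_lit 4) (nat_lit 6) (nat_lit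 5) (nat_lit 6) (nat_lit 4) (nat_lit 495) (nat_lit 366) (nat_lit 339)) (XT.nd (nat_lit 78) (nat_lit 0) (nat_lit 0) (XT.lf (nat_lit 0) (nat_lit 23730951472) (nat_lit 76) (nat_lit 29898254942) (nat_lit 76) (nat_lit 26374727928) (nat_lit 5) (nat_lit 4) (nat_lit 6) (nat_lit 5) (nat_lit 6) (nat_lit 4) (nat_lit 496) (nat_lit 366) (nat_lit 338)) (XT.lf (nat_lit 0) (nat_lit 44217074152) (nat_lit 76) (nat_lit 21538742517) (nat_lit 76) (nat_lit 17957756742) (nat_lit 5) (nat_lit 4) (nat_lit 6) (nat_lit 5) (nat_lit 6) (nat_lit 4) (nat_lit 497) (nat_lit 366) (nat_lit 337)))) (XT.nd (nat_lit 78) (nat_lit 0) (nat_lit 0) (XT.lf (nat_lit 0) (nat_lit 65421962143) (nat_lit 76) (nat_lit 12913520326) (nat_lit 76) (nat_lit 9277811922) (nat_lit 5) (nat_lit 4) (nat_lit 6) (nat_lit 5) (nat_lit 6) (nat_lit 4) (nat_lit 498) (nat_lit 366) (nat_lit 336)) (XT.nd (nat_lit 59904) (nat_lit 0) (nat_lit 1900) (XT.lf (nat_lit 0)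 (nat_lit 87396103275) (nat_lit 76) (nat_lit 4002052125) (nat_lit 76) (nat_lit 314226932) (nat_lit 5) (nat_lit 4) (nat_lit 6) (nat_lit 5) (nat_lit 6) (nat_lit 4) (nat_lit 499) (nat_lit 366) (nat_lit 335)) (XT.lf (nat_lit 0) (nat_lit 2861048954) (nat_lit 152) (nat_lit 6227740185) (nat_lit 0) (nat_lit 2861048954) (nat_lit 30) (nat_lit 5) (nat_lit 32) (nat_lit 4) (nat_lit 30) (nat_lit 4) (nat_lit 466) (nat_lit 367) (nat_lit 367))))) (XT.nd (nat_lit 234) (nat_lit 380) (nat_lit 0) (XT.nd (nat_lit 78) (nat_lit 228) (nat_lit 0) (XT.lf (nat_lit 0) (nat_lit 11387430175) (nat_lit 76) (nat_lit 6815632515) (nat_lit 76) (nat_lit 6516031194) (nat_lit 29) (nat_lit 4) (nat_lit 30) (nat_lit 5) (nat_lit 30) (nat_lit 4) (nat_lit 467) (nat_lit 367) (nat_lit 366)) (XT.nd (nat_lit 78) (nat_lit 76) (nat_lit 0) (XT.lf (nat_lit 0) (nat_lit 5493303785) (nat_lit 152) (nat_lit 15162835608) (nat_lit 0) (nat_lit 4925404841)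 (nat_lit 27) (nat_lit 5) (nat_lit 29) (nat_lit 4) (nat_lit 27) (nat_lit 4) (nat_lit 468) (nat_lit 367) (nat_lit 365)) (XT.lf (nat_lit 0) (nat_lit 8408150072) (nat_lit 76) (nat_lit 9455949179) (nat_lit 76) (nat_lit 8624217973) (nat_lit 26) (nat_lit 4) (nat_lit 27) (nat_lit 5) (nat_lit 27) (nat_lit 4) (nat_lit 469) (nat_lit 367) (nat_lit 364)))) (XT.nd (nat_lit 156) (nat_lit 152) (nat_lit 0) (XT.nd (nat_lit 78) (nat_lit 76) (nat_lit 0) (XT.lf (nat_lit 0) (nat_lit 3190484455) (nat_lit 152) (nat_lit 22114617301) (nat_lit 0) (nat_lit 2139028119) (nat_lit 24) (nat_lit 5) (nat_lit 26) (nat_lit 4) (nat_lit 24) (nat_lit 4) (nat_lit 470) (nat_lit 367) (nat_lit 363)) (XT.lf (nat_lit 0) (nat_lit 935469519) (nat_lit 76) (nat_lit 14398010800) (nat_lit 76) (nat_lit 13114220835) (nat_lit 23) (nat_lit 4) (nat_lit 24) (nat_lit 5) (nat_lit 24) (nat_lit 4) (nat_lit 471) (nat_lit 367) (nat_lit 362))) (XT.nd (nat_lit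 78) (nat_lit 152) (nat_lit 0) (XT.lf (nat_lit 0) (nat_lit 24877708510) (nat_lit 76) (nat_lit 3066496063) (nat_lit 76) (nat_lit 1561435973) (nat_lit 23) (nat_lit 4) (nat_lit 24) (nat_lit 5) (nat_lit 24) (nat_lit 4) (nat_lit 472) (nat_lit 367) (nat_lit 361)) (XT.lf (nat_lit 0) (nat_lit 10276498441) (nat_lit 152) (nat_lit 11728845037) (nat_lit 0) (nat_lit 8610679469) (nat_lit 21) (nat_lit 5) (nat_lit 23) (nat_lit 4) (nat_lit 21) (nat_lit 4) (nat_lit 473) (nat_lit 367) (nat_lit 360))))))) (XT.nd (nat_lit 1014) (nat_lit 304) (nat_lit 0) (XT.nd (nat_lit 468) (nat_lit 456) (nat_lit 0) (XT.nd (nat_lit 234) (nat_lit 228) (nat_lit 0) (XT.nd (nat_lit 78) (nat_lit 152) (nat_lit 0) (XT.lf (nat_lit 0) (nat_lit 11386998133) (nat_lit 76) (nat_lit 11129926941) (nat_lit 76) (nat_lit 9269255033) (nat_lit 20) (nat_lit 4) (nat_lit 21) (nat_lit 5) (nat_lit 21) (nat_lit 4) (nat_lit 474) (nat_lit 367) (nat_lit 359))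 (XT.nd (nat_lit 78) (nat_lit 0) (nat_lit 0) (XT.lf (nat_lit 0) (nat_lit 2114165288) (nat_lit 152) (nat_lit 30778320429) (nat_lit 0) (nat_lit 127518556) (nat_lit 18) (nat_lit 5) (nat_lit 20) (nat_lit 4) (nat_lit 18) (nat_lit 4) (nat_lit 475) (nat_lit 367) (nat_lit 358)) (XT.lf (nat_lit 0) (nat_lit 13868895885) (nat_lit 152) (nat_lit 8733401140) (nat_lit 0) (nat_lit 11710659485) (nat_lit 18) (nat_lit 5) (nat_lit 20) (nat_lit 4) (nat_lit 18) (nat_lit 4) (nat_lit 476) (nat_lit 367) (nat_lit 357)))) (XT.nd (nat_lit 78) (nat_lit 152) (nat_lit 0) (XT.lf (nat_lit 0) (nat_lit 14062377377) (nat_lit 76) (nat_lit 11967639795) (nat_lit 76) (nat_lit 9645984664) (nat_lit 17) (nat_lit 4) (nat_lit 18) (nat_lit 5) (nat_lit 18) (nat_lit 4) (nat_lit 477) (nat_lit 367) (nat_lit 356)) (XT.nd (nat_lit 78) (nat_lit 0) (nat_lit 0) (XT.lf (nat_lit 0) (nat_lit 453604521) (nat_lit 76) (nat_lit 990186876) (nat_lit 152) (nat_lit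 35669380416) (nat_lit 15) (nat_lit 5) (nat_lit 16) (nat_lit 5) (nat_lit 17) (nat_lit 4) (nat_lit 478) (nat_lit 367) (nat_lit 355)) (XT.lf (nat_lit 0) (nat_lit 12912260693) (nat_lit 152) (nat_lit 15343153544) (nat_lit 0) (nat_lit 10363214456) (nat_lit 15) (nat_lit 5) (nat_lit 17) (nat_lit 4) (nat_lit 15) (nat_lit 4) (nat_lit 479) (nat_lit 367) (nat_lit 354))))) (XT.nd (nat_lit 234) (nat_lit 228) (nat_lit 0) (XT.nd (nat_lit 78) (nat_lit 152) (nat_lit 0) (XT.lf (nat_lit 0) (nat_lit 6583611714) (nat_lit 76) (nat_lit 18154171944) (nat_lit 76) (nat_lit 15468070131) (nat_lit 14) (nat_lit 4) (nat_lit 15) (nat_lit 5) (nat_lit 15) (nat_lit 4) (nat_lit 480) (nat_lit 367) (nat_lit 353)) (XT.nd (nat_lit 78) (nat_lit 152) (nat_lit 0) (XT.lf (nat_lit 0) (nat_lit 29369849076) (nat_lit 76) (nat_lit 7661462111) (nat_lit 76) (nat_lit 4844831176) (nat_lit 14) (nat_lit 4) (nat_lit 15) (nat_lit 5) (nat_lit 15) (nat_lit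 4) (nat_lit 481) (nat_lit 367) (nat_lit 352)) (XT.lf (nat_lit 0) (nat_lit 6036057773) (nat_lit 152) (nat_lit 34415811538) (nat_lit 0) (nat_lit 3180771964) (nat_lit 12) (nat_lit 5) (nat_lit 14) (nat_lit 4) (nat_lit 12) (nat_lit 4) (nat_lit 482) (nat_lit 367) (nat_lit 351)))) (XT.nd (nat_lit 156) (nat_lit 152) (nat_lit 0) (XT.nd (nat_lit 78) (nat_lit 76) (nat_lit 0) (XT.lf (nat_lit 0) (nat_lit 17303977661) (nat_lit 152) (nat_lit 13839509997) (nat_lit 0) (nat_lit 14333746454) (nat_lit 12) (nat_lit 5) (nat_lit 14) (nat_lit 4) (nat_lit 12) (nat_lit 4) (nat_lit 483) (nat_lit 367) (nat_lit 350)) (XT.lf (nat_lit 0) (nat_lit 7408888291) (nat_lit 76) (nat_lit 21545156103) (nat_lit 76) (nat_lit 18465453088) (nat_lit 11) (nat_lit 4) (nat_lit 12) (nat_lit 5) (nat_lit 12) (nat_lit 4) (nat_lit 484) (nat_lit 367) (nat_lit 349))) (XT.nd (nat_lit 78) (nat_lit 152) (nat_lit 0) (XT.lf (nat_lit 0) (nat_lit 29521988568)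 (nat_lit 76) (nat_lit 11561965204) (nat_lit 76) (nat_lit 8378003324) (nat_lit 11) (nat_lit 4) (nat_lit 12) (nat_lit 5) (nat_lit 12) (nat_lit 4) (nat_lit 485) (nat_lit 367) (nat_lit 348)) (XT.lf (nat_lit 0) (nat_lit 657318817) (nat_lit 76) (nat_lit 1283851061) (nat_lit 152) (nat_lit 49671617889) (nat_lit 9) (nat_lit 5) (nat_lit 10) (nat_lit 5) (nat_lit 11) (nat_lit 4) (nat_lit 486) (nat_lit 367) (nat_lit 347)))))) (XT.nd (nat_lit 468) (nat_lit 76) (nat_lit 0) (XT.nd (nat_lit 234) (nat_lit 152) (nat_lit 0) (XT.nd (nat_lit 78) (nat_lit 76) (nat_lit 0) (XT.lf (nat_lit 0) (nat_lit 12672249454) (nat_lit 152) (nat_lit 31801537622) (nat_lit 0) (nat_lit 9392810715) (nat_lit 9) (nat_lit 5) (nat_lit 11) (nat_lit 4) (nat_lit 9) (nat_lit 4) (nat_lit 487) (nat_lit 367) (nat_lit 346)) (XT.nd (nat_lit 78) (nat_lit 76) (nat_lit 0) (XT.lf (nat_lit 0) (nat_lit 23732757367) (nat_lit 152) (nat_lit 12140678362) (nat_lit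 0) (nat_lit 20365879087) (nat_lit 9) (nat_lit 5) (nat_lit 11) (nat_lit 4) (nat_lit 9) (nat_lit 4) (nat_lit 488) (nat_lit 367) (nat_lit 345)) (XT.lf (nat_lit 0) (nat_lit 8247194022) (nat_lit 76) (nat_lit 26968770051) (nat_lit 76) (nat_lit 23518616018) (nat_lit 8) (nat_lit 4) (nat_lit 9) (nat_lit 5) (nat_lit 9) (nat_lit 4) (nat_lit 489) (nat_lit 367) (nat_lit 344)))) (XT.nd (nat_lit 78) (nat_lit 152) (nat_lit 0) (XT.lf (nat_lit 0) (nat_lit 29503154338) (nat_lit 76) (nat_lit 17691638593) (nat_lit 76) (nat_lit 14162174319) (nat_lit 8) (nat_lit 4) (nat_lit 9) (nat_lit 5) (nat_lit 9) (nat_lit 4) (nat_lit 490) (nat_lit 367) (nat_lit 343)) (XT.nd (nat_lit 78) (nat_lit 152) (nat_lit 0) (XT.lf (nat_lit 0) (nat_lit 51436188710) (nat_lit 76) (nat_lit 8142549995) (nat_lit 76) (nat_lit 4537552157) (nat_lit 8) (nat_lit 4) (nat_lit 9) (nat_lit 5) (nat_lit 9) (nat_lit 4) (nat_lit 491) (nat_lit 367) (nat_lit 342))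 (XT.lf (nat_lit 0) (nat_lit 5359665168) (nat_lit 152) (nat_lit 59865485453) (nat_lit 0) (nat_lit 1789825784) (nat_lit 6) (nat_lit 5) (nat_lit 8) (nat_lit 4) (nat_lit 6) (nat_lit 4) (nat_lit 492) (nat_lit 367) (nat_lit 341))))) (XT.nd (nat_lit 234) (nat_lit 76) (nat_lit 0) (XT.nd (nat_lit 78) (nat_lit 0) (nat_lit 0) (XT.lf (nat_lit 0) (nat_lit 15690043064) (nat_lit 152) (nat_lit 42312555170) (nat_lit 0) (nat_lit 12053687983) (nat_lit 6) (nat_lit 5) (nat_lit 8) (nat_lit 4) (nat_lit 6) (nat_lit 4) (nat_lit 493) (nat_lit 367) (nat_lit 340)) (XT.nd (nat_lit 78) (nat_lit 0) (nat_lit 0) (XT.lf (nat_lit 0) (nat_lit 26362904919) (nat_lit 152) (nat_lit 24228778074) (nat_lit 0) (nat_lit 22663201555) (nat_lit 6) (nat_lit 5) (nat_lit 8) (nat_lit 4) (nat_lit 6) (nat_lit 4) (nat_lit 494) (nat_lit 367) (nat_lit 339)) (XT.lf (nat_lit 0) (nat_lit 37403662307) (nat_lit 152) (nat_lit 5571097552) (nat_lit 0) (nat_lit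 33643627245) (nat_lit 6) (nat_lit 5) (nat_lit 8) (nat_lit 4) (nat_lit 6) (nat_lit 4) (nat_lit 495) (nat_lit 367) (nat_lit 338)))) (XT.nd (nat_lit 156) (nat_lit 0) (nat_lit 0) (XT.nd (nat_lit 78) (nat_lit 0) (nat_lit 0) (XT.lf (nat_lit 0) (nat_lit 13977664014) (nat_lit 76) (nat_lit 34995300589) (nat_lit 76) (nat_lit 31177806766) (nat_lit 5) (nat_lit 4) (nat_lit 6) (nat_lit 5) (nat_lit 6) (nat_lit 4) (nat_lit 496) (nat_lit 367) (nat_lit 337)) (XT.lf (nat_lit 0) (nat_lit 34314742391) (nat_lit 76) (nat_lit 26710064191) (nat_lit 76) (nat_lit 22837847739) (nat_lit 5) (nat_lit 4) (nat_lit 6) (nat_lit 5) (nat_lit 6) (nat_lit 4) (nat_lit 497) (nat_lit 367) (nat_lit 336))) (XT.nd (nat_lit 78) (nat_lit 0) (nat_lit 0) (XT.lf (nat_lit 0) (nat_lit 55377683426) (nat_lit 76) (nat_lit 18155581074) (nat_lit 76) (nat_lit 14231247832) (nat_lit 5) (nat_lit 4) (nat_lit 6) (nat_lit 5) (nat_lit 6) (nat_lit 4) (nat_lit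 498) (nat_lit 367) (nat_lit 335)) (XT.lf (nat_lit 0) (nat_lit 77216636981) (nat_lit 76) (nat_lit 9311483419) (nat_lit 76) (nat_lit 5337515140) (nat_lit 5) (nat_lit 4) (nat_lit 6) (nat_lit 5) (nat_lit 6) (nat_lit 4) (nat_lit 499) (nat_lit 367) (nat_lit 334))))))))
noncomputable def xc6 : XT := (XT.nd (nat_lit 1950) (nat_lit 304) (nat_lit 0) (XT.nd (nat_lit 936) (nat_lit 760) (nat_lit 0) (XT.nd (nat_lit 468) (nat_lit 532) (nat_lit 0) (XT.nd (nat_lit 234) (nat_lit 304) (nat_lit 0) (XT.nd (nat_lit 78) (nat_lit 228) (nat_lit 0) (XT.lf (nat_lit 0) (nat_lit 2375324767) (nat_lit 152) (nat_lit 6436478746) (nat_lit 0) (nat_lit 2375324767) (nat_lit 33) (nat_lit 5) (nat_lit 35) (nat_lit 4) (nat_lit 33) (nat_lit 4) (nat_lit 464) (nat_lit 368) (nat_lit 368)) (XT.nd (nat_lit 78) (nat_lit 152) (nat_lit 0) (XT.lf (nat_lit 0) (nat_lit 10657039931) (nat_lit 76) (nat_lit 6393778340) (nat_lit 76) (nat_lit 6069759512)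 (nat_lit 32) (nat_lit 4) (nat_lit 33) (nat_lit 5) (nat_lit 33) (nat_lit 4) (nat_lit 465) (nat_lit 368) (nat_lit 367)) (XT.lf (nat_lit 0) (nat_lit 5836679644) (nat_lit 152) (nat_lit 12846504157) (nat_lit 0) (nat_lit 5222496937) (nat_lit 30) (nat_lit 5) (nat_lit 32) (nat_lit 4) (nat_lit 30) (nat_lit 4) (nat_lit 466) (nat_lit 368) (nat_lit 366)))) (XT.nd (nat_lit 78) (nat_lit 228) (nat_lit 0) (XT.lf (nat_lit 0) (nat_lit 10608809080) (nat_lit 76) (nat_lit 7510874907) (nat_lit 76) (nat_lit 6611357608) (nat_lit 29) (nat_lit 4) (nat_lit 30) (nat_lit 5) (nat_lit 30) (nat_lit 4) (nat_lit 467) (nat_lit 368) (nat_lit 365)) (XT.nd (nat_lit 78) (nat_lit 76) (nat_lit 0) (XT.lf (nat_lit 0) (nat_lit 5193273326) (nat_lit 152) (nat_lit 16350323753) (nat_lit 0) (nat_lit 4056123299) (nat_lit 27) (nat_lit 5) (nat_lit 29) (nat_lit 4) (nat_lit 27) (nat_lit 4) (nat_lit 468) (nat_lit 368) (nat_lit 364)) (XT.lf (nat_lit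 0) (nat_lit 6831144670) (nat_lit 76) (nat_lit 10534856697) (nat_lit 76) (nat_lit 9146437849) (nat_lit 26) (nat_lit 4) (nat_lit 27) (nat_lit 5) (nat_lit 27) (nat_lit 4) (nat_lit 469) (nat_lit 368) (nat_lit 363))))) (XT.nd (nat_lit 234) (nat_lit 304) (nat_lit 0) (XT.nd (nat_lit 78) (nat_lit 76) (nat_lit 0) (XT.lf (nat_lit 0) (nat_lit 2467775847) (nat_lit 152) (nat_lit 24119487779) (nat_lit 0) (nat_lit 887462753) (nat_lit 24) (nat_lit 5) (nat_lit 26) (nat_lit 4) (nat_lit 24) (nat_lit 4) (nat_lit 470) (nat_lit 368) (nat_lit 362)) (XT.nd (nat_lit 78) (nat_lit 76) (nat_lit 0) (XT.lf (nat_lit 0) (nat_lit 14426107732) (nat_lit 152) (nat_lit 1433208699) (nat_lit 0) (nat_lit 12624524514) (nat_lit 24) (nat_lit 5) (nat_lit 26) (nat_lit 4) (nat_lit 24) (nat_lit 4) (nat_lit 471) (nat_lit 368) (nat_lit 361)) (XT.lf (nat_lit 0) (nat_lit 22144858483) (nat_lit 76) (nat_lit 4707389624) (nat_lit 76) (nat_lit 2695072955)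 (nat_lit 23) (nat_lit 4) (nat_lit 24) (nat_lit 5) (nat_lit 24) (nat_lit 4) (nat_lit 472) (nat_lit 368) (nat_lit 360)))) (XT.nd (nat_lit 78) (nat_lit 152) (nat_lit 0) (XT.lf (nat_lit 0) (nat_lit 8952990808) (nat_lit 152) (nat_lit 14906969932) (nat_lit 0) (nat_lit 6804432367) (nat_lit 21) (nat_lit 5) (nat_lit 23) (nat_lit 4) (nat_lit 21) (nat_lit 4) (nat_lit 473) (nat_lit 368) (nat_lit 359)) (XT.nd (nat_lit 78) (nat_lit 76) (nat_lit 0) (XT.lf (nat_lit 0) (nat_lit 7822343508) (nat_lit 76) (nat_lit 13176095798) (nat_lit 76) (nat_lit 10841963131) (nat_lit 20) (nat_lit 4) (nat_lit 21) (nat_lit 5) (nat_lit 21) (nat_lit 4) (nat_lit 474) (nat_lit 368) (nat_lit 358)) (XT.lf (nat_lit 0) (nat_lit 391768916) (nat_lit 152) (nat_lit 1715579123) (nat_lit 76) (nat_lit 30972746036) (nat_lit 19) (nat_lit 5) (nat_lit 21) (nat_lit 5) (nat_lit 20) (nat_lit 4) (nat_lit 475) (nat_lit 368) (nat_lit 357)))))) (XT.nd (nat_lit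 468) (nat_lit 380) (nat_lit 0) (XT.nd (nat_lit 234) (nat_lit 228) (nat_lit 0) (XT.nd (nat_lit 78) (nat_lit 76) (nat_lit 0) (XT.lf (nat_lit 0) (nat_lit 11954855481) (nat_lit 152) (nat_lit 13070243779) (nat_lit 0) (nat_lit 9353698862) (nat_lit 18) (nat_lit 5) (nat_lit 20) (nat_lit 4) (nat_lit 18) (nat_lit 4) (nat_lit 476) (nat_lit 368) (nat_lit 356)) (XT.nd (nat_lit 78) (nat_lit 0) (nat_lit 0) (XT.lf (nat_lit 0) (nat_lit 9342707896) (nat_lit 76) (nat_lit 14580851967) (nat_lit 76) (nat_lit 11824058462) (nat_lit 17) (nat_lit 4) (nat_lit 18) (nat_lit 5) (nat_lit 18) (nat_lit 4) (nat_lit 477) (nat_lit 368) (nat_lit 355)) (XT.lf (nat_lit 0) (nat_lit 32570526237) (nat_lit 76) (nat_lit 3762060215) (nat_lit 76) (nat_lit 857041104) (nat_lit 17) (nat_lit 4) (nat_lit 18) (nat_lit 5) (nat_lit 18) (nat_lit 4) (nat_lit 478) (nat_lit 368) (nat_lit 354)))) (XT.nd (nat_lit 78) (nat_lit 76) (nat_lit 0) (XT.lf (nat_lit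 0) (nat_lit 10414480997) (nat_lit 152) (nat_lit 20830244296) (nat_lit 0) (nat_lit 7457018516) (nat_lit 15) (nat_lit 5) (nat_lit 17) (nat_lit 4) (nat_lit 15) (nat_lit 4) (nat_lit 479) (nat_lit 368) (nat_lit 353)) (XT.nd (nat_lit 78) (nat_lit 0) (nat_lit 0) (XT.lf (nat_lit 0) (nat_lit 715369321) (nat_lit 76) (nat_lit 21333661189) (nat_lit 76) (nat_lit 18245669587) (nat_lit 14) (nat_lit 4) (nat_lit 15) (nat_lit 5) (nat_lit 15) (nat_lit 4) (nat_lit 480) (nat_lit 368) (nat_lit 352)) (XT.lf (nat_lit 0) (nat_lit 23242608800) (nat_lit 76) (nat_lit 10969303099) (nat_lit 76) (nat_lit 7756998048) (nat_lit 14) (nat_lit 4) (nat_lit 15) (nat_lit 5) (nat_lit 15) (nat_lit 4) (nat_lit 481) (nat_lit 368) (nat_lit 351))))) (XT.nd (nat_lit 234) (nat_lit 152) (nat_lit 0) (XT.nd (nat_lit 78) (nat_lit 76) (nat_lit 0) (XT.lf (nat_lit 0) (nat_lit 2679575570) (nat_lit 76) (nat_lit 281150725) (nat_lit 152) (nat_lit 40772123865)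 (nat_lit 12) (nat_lit 5) (nat_lit 13) (nat_lit 5) (nat_lit 14) (nat_lit 4) (nat_lit 482) (nat_lit 368) (nat_lit 350)) (XT.nd (nat_lit 78) (nat_lit 76) (nat_lit 0) (XT.lf (nat_lit 0) (nat_lit 14102788510) (nat_lit 152) (nat_lit 20718803347) (nat_lit 0) (nat_lit 10759628536) (nat_lit 12) (nat_lit 5) (nat_lit 14) (nat_lit 4) (nat_lit 12) (nat_lit 4) (nat_lit 483) (nat_lit 368) (nat_lit 349)) (XT.lf (nat_lit 0) (nat_lit 155160109) (nat_lit 76) (nat_lit 25410677308) (nat_lit 76) (nat_lit 21963258469) (nat_lit 11) (nat_lit 4) (nat_lit 12) (nat_lit 5) (nat_lit 12) (nat_lit 4) (nat_lit 484) (nat_lit 368) (nat_lit 348)))) (XT.nd (nat_lit 156) (nat_lit 152) (nat_lit 0) (XT.nd (nat_lit 78) (nat_lit 0) (nat_lit 0) (XT.lf (nat_lit 0) (nat_lit 22042047620) (nat_lit 76) (nat_lit 15539819391) (nat_lit 76) (nat_lit 11993106395) (nat_lit 11) (nat_lit 4) (nat_lit 12) (nat_lit 5) (nat_lit 12) (nat_lit 4) (nat_lit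 485) (nat_lit 368) (nat_lit 347)) (XT.lf (nat_lit 0) (nat_lit 44581626011) (nat_lit 76) (nat_lit 5394735352) (nat_lit 76) (nat_lit 1753456492) (nat_lit 11) (nat_lit 4) (nat_lit 12) (nat_lit 5) (nat_lit 12) (nat_lit 4) (nat_lit 486) (nat_lit 368) (nat_lit 346))) (XT.nd (nat_lit 78) (nat_lit 0) (nat_lit 0) (XT.lf (nat_lit 0) (nat_lit 8794190842) (nat_lit 152) (nat_lit 40024944378) (nat_lit 0) (nat_lit 5171529107) (nat_lit 9) (nat_lit 5) (nat_lit 11) (nat_lit 4) (nat_lit 9) (nat_lit 4) (nat_lit 487) (nat_lit 368) (nat_lit 345)) (XT.lf (nat_lit 0) (nat_lit 19752453059) (nat_lit 152) (nat_lit 20567481361) (nat_lit 0) (nat_lit 16046515570) (nat_lit 9) (nat_lit 5) (nat_lit 11) (nat_lit 4) (nat_lit 9) (nat_lit 4) (nat_lit 488) (nat_lit 368) (nat_lit 344))))))) (XT.nd (nat_lit 60528) (nat_lit 0) (nat_lit 988) (XT.nd (nat_lit 468) (nat_lit 76) (nat_lit 0) (XT.nd (nat_lit 234) (nat_lit 152) (nat_lit 0) (XT.nd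 (nat_lit 78) (nat_lit 76) (nat_lit 0) (XT.lf (nat_lit 0) (nat_lit 31059005838) (nat_lit 152) (nat_lit 534252144) (nat_lit 0) (nat_lit 27273758108) (nat_lit 9) (nat_lit 5) (nat_lit 11) (nat_lit 4) (nat_lit 9) (nat_lit 4) (nat_lit 489) (nat_lit 368) (nat_lit 343)) (XT.nd (nat_lit 78) (nat_lit 0) (nat_lit 0) (XT.lf (nat_lit 0) (nat_lit 20522917476) (nat_lit 76) (nat_lit 22415130903) (nat_lit 76) (nat_lit 18554349610) (nat_lit 8) (nat_lit 4) (nat_lit 9) (nat_lit 5) (nat_lit 9) (nat_lit 4) (nat_lit 490) (nat_lit 368) (nat_lit 342)) (XT.lf (nat_lit 0) (nat_lit 42276753724) (nat_lit 76) (nat_lit 12955194189) (nat_lit 76) (nat_lit 9022476169) (nat_lit 8) (nat_lit 4) (nat_lit 9) (nat_lit 5) (nat_lit 9) (nat_lit 4) (nat_lit 491) (nat_lit 368) (nat_lit 341)))) (XT.nd (nat_lit 78) (nat_lit 76) (nat_lit 0) (XT.lf (nat_lit 0) (nat_lit 789203411) (nat_lit 152) (nat_lit 2399146262) (nat_lit 76) (nat_lit 63971245964)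 (nat_lit 7) (nat_lit 5) (nat_lit 9) (nat_lit 5) (nat_lit 8) (nat_lit 4) (nat_lit 492) (nat_lit 368) (nat_lit 340)) (XT.nd (nat_lit 78) (nat_lit 0) (nat_lit 0) (XT.lf (nat_lit 0) (nat_lit 10980283926) (nat_lit 152) (nat_lit 52192554301) (nat_lit 0) (nat_lit 7032247110) (nat_lit 6) (nat_lit 5) (nat_lit 8) (nat_lit 4) (nat_lit 6) (nat_lit 4) (nat_lit 493) (nat_lit 368) (nat_lit 339)) (XT.lf (nat_lit 0) (nat_lit 21572293313) (nat_lit 152) (nat_lit 34269892048) (nat_lit 0) (nat_lit 17563924798) (nat_lit 6) (nat_lit 5) (nat_lit 8) (nat_lit 4) (nat_lit 6) (nat_lit 4) (nat_lit 494) (nat_lit 368) (nat_lit 338))))) (XT.nd (nat_lit 234) (nat_lit 0) (nat_lit 0) (XT.nd (nat_lit 78) (nat_lit 76) (nat_lit 0) (XT.lf (nat_lit 0) (nat_lit 32536048351) (nat_lit 152) (nat_lit 15765654234) (nat_lit 0) (nat_lit 28470221076) (nat_lit 6) (nat_lit 5) (nat_lit 8) (nat_lit 4) (nat_lit 6) (nat_lit 4) (nat_lit 495) (nat_lit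 368) (nat_lit 337)) (XT.nd (nat_lit 78) (nat_lit 0) (nat_lit 0) (XT.lf (nat_lit 0) (nat_lit 3431171361) (nat_lit 76) (nat_lit 40499464375) (nat_lit 76) (nat_lit 36378914471) (nat_lit 5) (nat_lit 4) (nat_lit 6) (nat_lit 5) (nat_lit 6) (nat_lit 4) (nat_lit 496) (nat_lit 368) (nat_lit 336)) (XT.lf (nat_lit 0) (nat_lit 23626302782) (nat_lit 76) (nat_lit 32284967050) (nat_lit 76) (nat_lit 28112300357) (nat_lit 5) (nat_lit 4) (nat_lit 6) (nat_lit 5) (nat_lit 6) (nat_lit 4) (nat_lit 497) (nat_lit 368) (nat_lit 335)))) (XT.nd (nat_lit 59670) (nat_lit 0) (nat_lit 2280) (XT.nd (nat_lit 78) (nat_lit 0) (nat_lit 0) (XT.lf (nat_lit 0) (nat_lit 44554056240) (nat_lit 76) (nat_lit 23797854478) (nat_lit 76) (nat_lit 19575552747) (nat_lit 5) (nat_lit 4) (nat_lit 6) (nat_lit 5) (nat_lit 6) (nat_lit 4) (nat_lit 498) (nat_lit 368) (nat_lit 334)) (XT.lf (nat_lit 0) (nat_lit 66264259721) (nat_lit 76) (nat_lit 15017919249)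 (nat_lit 76) (nat_lit 10748346053) (nat_lit 5) (nat_lit 4) (nat_lit 6) (nat_lit 5) (nat_lit 6) (nat_lit 4) (nat_lit 499) (nat_lit 368) (nat_lit 333))) (XT.nd (nat_lit 78) (nat_lit 76) (nat_lit 0) (XT.lf (nat_lit 0) (nat_lit 1388364654) (nat_lit 152) (nat_lit 7714995637) (nat_lit 0) (nat_lit 1388364654) (nat_lit 36) (nat_lit 5) (nat_lit 38) (nat_lit 4) (nat_lit 36) (nat_lit 4) (nat_lit 462) (nat_lit 369) (nat_lit 369)) (XT.lf (nat_lit 0) (nat_lit 7635929838) (nat_lit 76) (nat_lit 7189230886) (nat_lit 76) (nat_lit 6838804523) (nat_lit 35) (nat_lit 4) (nat_lit 36) (nat_lit 5) (nat_lit 36) (nat_lit 4) (nat_lit 463) (nat_lit 369) (nat_lit 368)))))) (XT.nd (nat_lit 468) (nat_lit 608) (nat_lit 0) (XT.nd (nat_lit 234) (nat_lit 304) (nat_lit 0) (XT.nd (nat_lit 78) (nat_lit 228) (nat_lit 0) (XT.lf (nat_lit 0) (nat_lit 4892475530) (nat_lit 152) (nat_lit 13259500848) (nat_lit 0) (nat_lit 4228236932) (nat_lit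 33) (nat_lit 5) (nat_lit 35) (nat_lit 4) (nat_lit 33) (nat_lit 4) (nat_lit 464) (nat_lit 369) (nat_lit 367)) (XT.nd (nat_lit 78) (nat_lit 152) (nat_lit 0) (XT.lf (nat_lit 0) (nat_lit 9887340436) (nat_lit 76) (nat_lit 7108958555) (nat_lit 76) (nat_lit 6136130596) (nat_lit 32) (nat_lit 4) (nat_lit 33) (nat_lit 5) (nat_lit 33) (nat_lit 4) (nat_lit 465) (nat_lit 369) (nat_lit 366)) (XT.lf (nat_lit 0) (nat_lit 5566514959) (nat_lit 152) (nat_lit 14020506526) (nat_lit 0) (nat_lit 4336687205) (nat_lit 30) (nat_lit 5) (nat_lit 32) (nat_lit 4) (nat_lit 30) (nat_lit 4) (nat_lit 466) (nat_lit 369) (nat_lit 365)))) (XT.nd (nat_lit 78) (nat_lit 228) (nat_lit 0) (XT.lf (nat_lit 0) (nat_lit 9049713029) (nat_lit 76) (nat_lit 8603413709) (nat_lit 76) (nat_lit 7101838725) (nat_lit 29) (nat_lit 4) (nat_lit 30) (nat_lit 5) (nat_lit 30) (nat_lit 4) (nat_lit 467) (nat_lit 369) (nat_lit 364)) (XT.nd (nat_lit 78) (nat_lit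 76) (nat_lit 0) (XT.lf (nat_lit 0) (nat_lit 4503279364) (nat_lit 152) (nat_lit 18332611917) (nat_lit 0) (nat_lit 2794170753) (nat_lit 27) (nat_lit 5) (nat_lit 29) (nat_lit 4) (nat_lit 27) (nat_lit 4) (nat_lit 468) (nat_lit 369) (nat_lit 363)) (XT.lf (nat_lit 0) (nat_lit 4460944216) (nat_lit 76) (nat_lit 12018081008) (nat_lit 76) (nat_lit 10069668758) (nat_lit 26) (nat_lit 4) (nat_lit 27) (nat_lit 5) (nat_lit 27) (nat_lit 4) (nat_lit 469) (nat_lit 369) (nat_lit 362))))) (XT.nd (nat_lit 234) (nat_lit 380) (nat_lit 0) (XT.nd (nat_lit 78) (nat_lit 76) (nat_lit 0) (XT.lf (nat_lit 0) (nat_lit 576961059) (nat_lit 76) (nat_lit 779335264) (nat_lit 152) (nat_lit 26161142355) (nat_lit 24) (nat_lit 5) (nat_lit 25) (nat_lit 5) (nat_lit 26) (nat_lit 4) (nat_lit 470) (nat_lit 369) (nat_lit 361)) (XT.nd (nat_lit 78) (nat_lit 76) (nat_lit 0) (XT.lf (nat_lit 0) (nat_lit 13139830405) (nat_lit 152) (nat_lit 4575805533)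 (nat_lit 0) (nat_lit 10816164451) (nat_lit 24) (nat_lit 5) (nat_lit 26) (nat_lit 4) (nat_lit 24) (nat_lit 4) (nat_lit 471) (nat_lit 369) (nat_lit 360)) (XT.lf (nat_lit 0) (nat_lit 18620052912) (nat_lit 76) (nat_lit 6752695894) (nat_lit 76) (nat_lit 4228331415) (nat_lit 23) (nat_lit 4) (nat_lit 24) (nat_lit 5) (nat_lit 24) (nat_lit 4) (nat_lit 472) (nat_lit 369) (nat_lit 359)))) (XT.nd (nat_lit 156) (nat_lit 152) (nat_lit 0) (XT.nd (nat_lit 78) (nat_lit 76) (nat_lit 0) (XT.lf (nat_lit 0) (nat_lit 7233847179) (nat_lit 152) (nat_lit 18893790554) (nat_lit 0) (nat_lit 4597433654) (nat_lit 21) (nat_lit 5) (nat_lit 23) (nat_lit 4) (nat_lit 21) (nat_lit 4) (nat_lit 473) (nat_lit 369) (nat_lit 358)) (XT.lf (nat_lit 0) (nat_lit 3448292754) (nat_lit 76) (nat_lit 15635897352) (nat_lit 76) (nat_lit 12822746469) (nat_lit 20) (nat_lit 4) (nat_lit 21) (nat_lit 5) (nat_lit 21) (nat_lit 4) (nat_lit 474) (nat_lit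 369) (nat_lit 357))) (XT.nd (nat_lit 78) (nat_lit 152) (nat_lit 0) (XT.lf (nat_lit 0) (nat_lit 26701196884) (nat_lit 76) (nat_lit 4715739491) (nat_lit 76) (nat_lit 1734267316) (nat_lit 20) (nat_lit 4) (nat_lit 21) (nat_lit 5) (nat_lit 21) (nat_lit 4) (nat_lit 475) (nat_lit 369) (nat_lit 356)) (XT.lf (nat_lit 0) (nat_lit 9643663519) (nat_lit 152) (nat_lit 18219923187) (nat_lit 0) (nat_lit 6593393452) (nat_lit 18) (nat_lit 5) (nat_lit 20) (nat_lit 4) (nat_lit 18) (nat_lit 4) (nat_lit 476) (nat_lit 369) (nat_lit 355))))))))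
noncomputable def xc7 : XT := (XT.nd (nat_lit 61308) (nat_lit 0) (nat_lit 456) (XT.nd (nat_lit 936) (nat_lit 304) (nat_lit 0) (XT.nd (nat_lit 468) (nat_lit 380) (nat_lit 0) (XT.nd (nat_lit 234) (nat_lit 76) (nat_lit 0) (XT.nd (nat_lit 78) (nat_lit 152) (nat_lit 0) (XT.lf (nat_lit 0) (nat_lit 3808144369) (nat_lit 76) (nat_lit 17610975680) (nat_lit 76) (nat_lit 14412480006) (nat_lit 17) (nat_lit 4) (nat_lit 18) (nat_lit 5) (nat_lit 18) (nat_lit 4) (nat_lit 477) (nat_lit 369) (nat_lit 354)) (XT.nd (nat_lit 78) (nat_lit 152) (nat_lit 0) (XT.lf (nat_lit 0) (nat_lit 26767014710) (nat_lit 76) (nat_lit 6925169261) (nat_lit 76) (nat_lit 3585506344) (nat_lit 17) (nat_lit 4) (nat_lit 18) (nat_lit 5) (nat_lit 18) (nat_lit 4) (nat_lit 478) (nat_lit 369) (nat_lit 353)) (XT.lf (nat_lit 0) (nat_lit 7515955466) (nat_lit 152) (nat_lit 27138303832) (nat_lit 0) (nat_lit 4143035163) (nat_lit 15) (nat_lit 5) (nat_lit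 17) (nat_lit 4) (nat_lit 15) (nat_lit 4) (nat_lit 479) (nat_lit 369) (nat_lit 352)))) (XT.nd (nat_lit 78) (nat_lit 76) (nat_lit 0) (XT.lf (nat_lit 0) (nat_lit 19015471919) (nat_lit 152) (nat_lit 5860593548) (nat_lit 0) (nat_lit 15518238167) (nat_lit 15) (nat_lit 5) (nat_lit 17) (nat_lit 4) (nat_lit 15) (nat_lit 4) (nat_lit 480) (nat_lit 369) (nat_lit 351)) (XT.nd (nat_lit 78) (nat_lit 0) (nat_lit 0) (XT.lf (nat_lit 0) (nat_lit 16303343977) (nat_lit 76) (nat_lit 14693127637) (nat_lit 76) (nat_lit 11077500125) (nat_lit 14) (nat_lit 4) (nat_lit 15) (nat_lit 5) (nat_lit 15) (nat_lit 4) (nat_lit 481) (nat_lit 369) (nat_lit 350)) (XT.lf (nat_lit 0) (nat_lit 39216364183) (nat_lit 76) (nat_lit 4177561957) (nat_lit 76) (nat_lit 449178483) (nat_lit 14) (nat_lit 4) (nat_lit 15) (nat_lit 5) (nat_lit 15) (nat_lit 4) (nat_lit 482) (nat_lit 369) (nat_lit 349))))) (XT.nd (nat_lit 234) (nat_lit 152) (nat_lit 0)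 (XT.nd (nat_lit 78) (nat_lit 76) (nat_lit 0) (XT.lf (nat_lit 0) (nat_lit 10501094268) (nat_lit 152) (nat_lit 28419482724) (nat_lit 0) (nat_lit 6777045622) (nat_lit 12) (nat_lit 5) (nat_lit 14) (nat_lit 4) (nat_lit 12) (nat_lit 4) (nat_lit 483) (nat_lit 369) (nat_lit 348)) (XT.nd (nat_lit 78) (nat_lit 76) (nat_lit 0) (XT.lf (nat_lit 0) (nat_lit 21850946393) (nat_lit 152) (nat_lit 7770345539) (nat_lit 0) (nat_lit 18027603590) (nat_lit 12) (nat_lit 5) (nat_lit 14) (nat_lit 4) (nat_lit 12) (nat_lit 4) (nat_lit 484) (nat_lit 369) (nat_lit 347)) (XT.lf (nat_lit 0) (nat_lit 13746456129) (nat_lit 76) (nat_lit 19935883062) (nat_lit 76) (nat_lit 16017974395) (nat_lit 11) (nat_lit 4) (nat_lit 12) (nat_lit 5) (nat_lit 12) (nat_lit 4) (nat_lit 485) (nat_lit 369) (nat_lit 346)))) (XT.nd (nat_lit 78) (nat_lit 152) (nat_lit 0) (XT.lf (nat_lit 0) (nat_lit 36080852872) (nat_lit 76) (nat_lit 9892688349) (nat_lit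 76) (nat_lit 5884716955) (nat_lit 11) (nat_lit 4) (nat_lit 12) (nat_lit 5) (nat_lit 12) (nat_lit 4) (nat_lit 486) (nat_lit 369) (nat_lit 345)) (XT.nd (nat_lit 78) (nat_lit 0) (nat_lit 0) (XT.lf (nat_lit 0) (nat_lit 4512625622) (nat_lit 152) (nat_lit 49076483770) (nat_lit 0) (nat_lit 538115505) (nat_lit 9) (nat_lit 5) (nat_lit 11) (nat_lit 4) (nat_lit 9) (nat_lit 4) (nat_lit 487) (nat_lit 369) (nat_lit 344)) (XT.lf (nat_lit 0) (nat_lit 15373510986) (nat_lit 152) (nat_lit 29812731461) (nat_lit 0) (nat_lit 11319690628) (nat_lit 9) (nat_lit 5) (nat_lit 11) (nat_lit 4) (nat_lit 9) (nat_lit 4) (nat_lit 488) (nat_lit 369) (nat_lit 343)))))) (XT.nd (nat_lit 468) (nat_lit 76) (nat_lit 0) (XT.nd (nat_lit 234) (nat_lit 152) (nat_lit 0) (XT.nd (nat_lit 78) (nat_lit 76) (nat_lit 0) (XT.lf (nat_lit 0) (nat_lit 26587323904) (nat_lit 152) (nat_lit 9963988633) (nat_lit 0) (nat_lit 22457969983) (nat_lit 9) (nat_lit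 5) (nat_lit 11) (nat_lit 4) (nat_lit 9) (nat_lit 4) (nat_lit 489) (nat_lit 369) (nat_lit 342)) (XT.nd (nat_lit 78) (nat_lit 0) (nat_lit 0) (XT.lf (nat_lit 0) (nat_lit 10726312618) (nat_lit 76) (nat_lit 27557559192) (nat_lit 76) (nat_lit 23356268544) (nat_lit 8) (nat_lit 4) (nat_lit 9) (nat_lit 5) (nat_lit 9) (nat_lit 4) (nat_lit 490) (nat_lit 369) (nat_lit 341)) (XT.lf (nat_lit 0) (nat_lit 32309483987) (nat_lit 76) (nat_lit 18182529035) (nat_lit 76) (nat_lit 13912727218) (nat_lit 8) (nat_lit 4) (nat_lit 9) (nat_lit 5) (nat_lit 9) (nat_lit 4) (nat_lit 491) (nat_lit 369) (nat_lit 340)))) (XT.nd (nat_lit 78) (nat_lit 152) (nat_lit 0) (XT.lf (nat_lit 0) (nat_lit 54638611065) (nat_lit 76) (nat_lit 8504517314) (nat_lit 76) (nat_lit 4169466766) (nat_lit 8) (nat_lit 4) (nat_lit 9) (nat_lit 5) (nat_lit 9) (nat_lit 4) (nat_lit 492) (nat_lit 369) (nat_lit 339)) (XT.nd (nat_lit 78) (nat_lit 0) (nat_lit 0)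 (XT.lf (nat_lit 0) (nat_lit 5869289271) (nat_lit 152) (nat_lit 62896838817) (nat_lit 0) (nat_lit 1600170633) (nat_lit 6) (nat_lit 5) (nat_lit 8) (nat_lit 4) (nat_lit 6) (nat_lit 4) (nat_lit 493) (nat_lit 369) (nat_lit 338)) (XT.lf (nat_lit 0) (nat_lit 16384296308) (nat_lit 152) (nat_lit 45127619272) (nat_lit 0) (nat_lit 12057718909) (nat_lit 6) (nat_lit 5) (nat_lit 8) (nat_lit 4) (nat_lit 6) (nat_lit 4) (nat_lit 494) (nat_lit 369) (nat_lit 337))))) (XT.nd (nat_lit 234) (nat_lit 0) (nat_lit 0) (XT.nd (nat_lit 78) (nat_lit 76) (nat_lit 0) (XT.lf (nat_lit 0) (nat_lit 27274715774) (nat_lit 152) (nat_lit 26769517370) (nat_lit 0) (nat_lit 22893415746) (nat_lit 6) (nat_lit 5) (nat_lit 8) (nat_lit 4) (nat_lit 6) (nat_lit 4) (nat_lit 495) (nat_lit 369) (nat_lit 336)) (XT.nd (nat_lit 78) (nat_lit 76) (nat_lit 0) (XT.lf (nat_lit 0) (nat_lit 38566477241) (nat_lit 152) (nat_lit 7778823345) (nat_lit 0) (nat_lit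 34133060423) (nat_lit 6) (nat_lit 5) (nat_lit 8) (nat_lit 4) (nat_lit 6) (nat_lit 4) (nat_lit 496) (nat_lit 369) (nat_lit 335)) (XT.lf (nat_lit 0) (nat_lit 12126306660) (nat_lit 76) (nat_lit 38276724671) (nat_lit 76) (nat_lit 33793672816) (nat_lit 5) (nat_lit 4) (nat_lit 6) (nat_lit 5) (nat_lit 6) (nat_lit 4) (nat_lit 497) (nat_lit 369) (nat_lit 334)))) (XT.nd (nat_lit 59514) (nat_lit 0) (nat_lit 2508) (XT.nd (nat_lit 78) (nat_lit 0) (nat_lit 0) (XT.lf (nat_lit 0) (nat_lit 32925310045) (nat_lit 76) (nat_lit 29853774524) (nat_lit 76) (nat_lit 25323451204) (nat_lit 5) (nat_lit 4) (nat_lit 6) (nat_lit 5) (nat_lit 6) (nat_lit 4) (nat_lit 498) (nat_lit 369) (nat_lit 333)) (XT.lf (nat_lit 0) (nat_lit 54512894409) (nat_lit 76) (nat_lit 21134946365) (nat_lit 76) (nat_lit 16559602603) (nat_lit 5) (nat_lit 4) (nat_lit 6) (nat_lit 5) (nat_lit 6) (nat_lit 4) (nat_lit 499) (nat_lit 369) (nat_lit 332))) (XT.nd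 (nat_lit 78) (nat_lit 76) (nat_lit 0) (XT.lf (nat_lit 0) (nat_lit 19722378) (nat_lit 152) (nat_lit 9817253687) (nat_lit 0) (nat_lit 19722378) (nat_lit 39) (nat_lit 5) (nat_lit 41) (nat_lit 4) (nat_lit 39) (nat_lit 4) (nat_lit 460) (nat_lit 370) (nat_lit 370)) (XT.lf (nat_lit 0) (nat_lit 2850861031) (nat_lit 76) (nat_lit 8931336258) (nat_lit 76) (nat_lit 8552350147) (nat_lit 38) (nat_lit 4) (nat_lit 39) (nat_lit 5) (nat_lit 39) (nat_lit 4) (nat_lit 461) (nat_lit 370) (nat_lit 369))))))) (XT.nd (nat_lit 1014) (nat_lit 760) (nat_lit 0) (XT.nd (nat_lit 468) (nat_lit 608) (nat_lit 0) (XT.nd (nat_lit 234) (nat_lit 304) (nat_lit 0) (XT.nd (nat_lit 78) (nat_lit 228) (nat_lit 0) (XT.lf (nat_lit 0) (nat_lit 2947835999) (nat_lit 152) (nat_lit 15812062504) (nat_lit 0) (nat_lit 2229461955) (nat_lit 36) (nat_lit 5) (nat_lit 38) (nat_lit 4) (nat_lit 36) (nat_lit 4) (nat_lit 462) (nat_lit 370) (nat_lit 368))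 (XT.nd (nat_lit 78) (nat_lit 152) (nat_lit 0) (XT.lf (nat_lit 0) (nat_lit 6875135409) (nat_lit 76) (nat_lit 7926351174) (nat_lit 76) (nat_lit 6874237738) (nat_lit 35) (nat_lit 4) (nat_lit 36) (nat_lit 5) (nat_lit 36) (nat_lit 4) (nat_lit 463) (nat_lit 370) (nat_lit 367)) (XT.lf (nat_lit 0) (nat_lit 4654052597) (nat_lit 152) (nat_lit 14420051257) (nat_lit 0) (nat_lit 3323993881) (nat_lit 33) (nat_lit 5) (nat_lit 35) (nat_lit 4) (nat_lit 33) (nat_lit 4) (nat_lit 464) (nat_lit 370) (nat_lit 366)))) (XT.nd (nat_lit 78) (nat_lit 228) (nat_lit 0) (XT.lf (nat_lit 0) (nat_lit 8346108829) (nat_lit 76) (nat_lit 8217002966) (nat_lit 76) (nat_lit 6593049621) (nat_lit 32) (nat_lit 4) (nat_lit 33) (nat_lit 5) (nat_lit 33) (nat_lit 4) (nat_lit 465) (nat_lit 370) (nat_lit 365)) (XT.nd (nat_lit 78) (nat_lit 76) (nat_lit 0) (XT.lf (nat_lit 0) (nat_lit 4910960604) (nat_lit 152) (nat_lit 15980282722) (nat_lit 0)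 (nat_lit 3062559641) (nat_lit 30) (nat_lit 5) (nat_lit 32) (nat_lit 4) (nat_lit 30) (nat_lit 4) (nat_lit 466) (nat_lit 370) (nat_lit 364)) (XT.lf (nat_lit 0) (nat_lit 6706429890) (nat_lit 76) (nat_lit 10095850204) (nat_lit 76) (nat_lit 7988642355) (nat_lit 29) (nat_lit 4) (nat_lit 30) (nat_lit 5) (nat_lit 30) (nat_lit 4) (nat_lit 467) (nat_lit 370) (nat_lit 363))))) (XT.nd (nat_lit 234) (nat_lit 380) (nat_lit 0) (XT.nd (nat_lit 78) (nat_lit 76) (nat_lit 0) (XT.lf (nat_lit 0) (nat_lit 3421679056) (nat_lit 152) (nat_lit 21114419831) (nat_lit 0) (nat_lit 1136542554) (nat_lit 27) (nat_lit 5) (nat_lit 29) (nat_lit 4) (nat_lit 27) (nat_lit 4) (nat_lit 468) (nat_lit 370) (nat_lit 362)) (XT.nd (nat_lit 78) (nat_lit 0) (nat_lit 0) (XT.lf (nat_lit 0) (nat_lit 1291905374) (nat_lit 76) (nat_lit 13909153597) (nat_lit 76) (nat_lit 11396108868) (nat_lit 26) (nat_lit 4) (nat_lit 27) (nat_lit 5) (nat_lit 27) (nat_lit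 4) (nat_lit 469) (nat_lit 370) (nat_lit 361)) (XT.lf (nat_lit 0) (nat_lit 24611844339) (nat_lit 76) (nat_lit 2844783293) (nat_lit 76) (nat_lit 114683109) (nat_lit 26) (nat_lit 4) (nat_lit 27) (nat_lit 5) (nat_lit 27) (nat_lit 4) (nat_lit 470) (nat_lit 370) (nat_lit 360)))) (XT.nd (nat_lit 156) (nat_lit 152) (nat_lit 0) (XT.nd (nat_lit 78) (nat_lit 76) (nat_lit 0) (XT.lf (nat_lit 0) (nat_lit 11462593468) (nat_lit 152) (nat_lit 8518057733) (nat_lit 0) (nat_lit 8611312240) (nat_lit 24) (nat_lit 5) (nat_lit 26) (nat_lit 4) (nat_lit 24) (nat_lit 4) (nat_lit 471) (nat_lit 370) (nat_lit 359)) (XT.lf (nat_lit 0) (nat_lit 14294899401) (nat_lit 76) (nat_lit 9207284649) (nat_lit 76) (nat_lit 6164861969) (nat_lit 23) (nat_lit 4) (nat_lit 24) (nat_lit 5) (nat_lit 24) (nat_lit 4) (nat_lit 472) (nat_lit 370) (nat_lit 358))) (XT.nd (nat_lit 78) (nat_lit 0) (nat_lit 0) (XT.lf (nat_lit 0) (nat_lit 5114974355) (nat_lit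 152) (nat_lit 23698799332) (nat_lit 0) (nat_lit 1984428571) (nat_lit 21) (nat_lit 5) (nat_lit 23) (nat_lit 4) (nat_lit 21) (nat_lit 4) (nat_lit 473) (nat_lit 370) (nat_lit 357)) (XT.lf (nat_lit 0) (nat_lit 16786399213) (nat_lit 152) (nat_lit 1711506203) (nat_lit 0) (nat_lit 13487532136) (nat_lit 21) (nat_lit 5) (nat_lit 23) (nat_lit 4) (nat_lit 21) (nat_lit 4) (nat_lit 474) (nat_lit 370) (nat_lit 356)))))) (XT.nd (nat_lit 468) (nat_lit 304) (nat_lit 0) (XT.nd (nat_lit 234) (nat_lit 228) (nat_lit 0) (XT.nd (nat_lit 78) (nat_lit 152) (nat_lit 0) (XT.lf (nat_lit 0) (nat_lit 21228075203) (nat_lit 76) (nat_lit 7732776890) (nat_lit 76) (nat_lit 4273603819) (nat_lit 20) (nat_lit 4) (nat_lit 21) (nat_lit 5) (nat_lit 21) (nat_lit 4) (nat_lit 475) (nat_lit 370) (nat_lit 355)) (XT.nd (nat_lit 78) (nat_lit 0) (nat_lit 0) (XT.lf (nat_lit 0) (nat_lit 6929817163) (nat_lit 152) (nat_lit 24194700507) (nat_lit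 0) (nat_lit 3423171100) (nat_lit 18) (nat_lit 5) (nat_lit 20) (nat_lit 4) (nat_lit 18) (nat_lit 4) (nat_lit 476) (nat_lit 370) (nat_lit 354)) (XT.lf (nat_lit 0) (nat_lit 18535290106) (nat_lit 152) (nat_lit 2504643418) (nat_lit 0) (nat_lit 14887476798) (nat_lit 18) (nat_lit 5) (nat_lit 20) (nat_lit 4) (nat_lit 18) (nat_lit 4) (nat_lit 477) (nat_lit 370) (nat_lit 353)))) (XT.nd (nat_lit 78) (nat_lit 152) (nat_lit 0) (XT.lf (nat_lit 0) (nat_lit 20148238654) (nat_lit 76) (nat_lit 10506071793) (nat_lit 76) (nat_lit 6723813491) (nat_lit 17) (nat_lit 4) (nat_lit 18) (nat_lit 5) (nat_lit 18) (nat_lit 4) (nat_lit 478) (nat_lit 370) (nat_lit 352)) (XT.nd (nat_lit 78) (nat_lit 0) (nat_lit 0) (XT.lf (nat_lit 0) (nat_lit 4209782848) (nat_lit 152) (nat_lit 34282351342) (nat_lit 0) (nat_lit 413373961) (nat_lit 15) (nat_lit 5) (nat_lit 17) (nat_lit 4) (nat_lit 15) (nat_lit 4) (nat_lit 479) (nat_lit 370) (nat_lit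 351)) (XT.lf (nat_lit 0) (nat_lit 15587245498) (nat_lit 152) (nat_lit 13246492393) (nat_lit 0) (nat_lit 11672442850) (nat_lit 15) (nat_lit 5) (nat_lit 17) (nat_lit 4) (nat_lit 15) (nat_lit 4) (nat_lit 480) (nat_lit 370) (nat_lit 350))))) (XT.nd (nat_lit 234) (nat_lit 76) (nat_lit 0) (XT.nd (nat_lit 78) (nat_lit 152) (nat_lit 0) (XT.lf (nat_lit 0) (nat_lit 8535532549) (nat_lit 76) (nat_lit 18841801972) (nat_lit 76) (nat_lit 14814243362) (nat_lit 14) (nat_lit 4) (nat_lit 15) (nat_lit 5) (nat_lit 15) (nat_lit 4) (nat_lit 481) (nat_lit 370) (nat_lit 349)) (XT.nd (nat_lit 78) (nat_lit 152) (nat_lit 0) (XT.lf (nat_lit 0) (nat_lit 31224820646) (nat_lit 76) (nat_lit 8437111354) (nat_lit 76) (nat_lit 4302166113) (nat_lit 14) (nat_lit 4) (nat_lit 15) (nat_lit 5) (nat_lit 15) (nat_lit 4) (nat_lit 482) (nat_lit 370) (nat_lit 348)) (XT.lf (nat_lit 0) (nat_lit 6490319472) (nat_lit 152) (nat_lit 36959883077)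 (nat_lit 0) (nat_lit 2376515372) (nat_lit 12) (nat_lit 5) (nat_lit 14) (nat_lit 4) (nat_lit 12) (nat_lit 4) (nat_lit 483) (nat_lit 370) (nat_lit 347)))) (XT.nd (nat_lit 156) (nat_lit 0) (nat_lit 0) (XT.nd (nat_lit 78) (nat_lit 76) (nat_lit 0) (XT.lf (nat_lit 0) (nat_lit 17733785607) (nat_lit 152) (nat_lit 16521982598) (nat_lit 0) (nat_lit 13525415643) (nat_lit 12) (nat_lit 5) (nat_lit 14) (nat_lit 4) (nat_lit 12) (nat_lit 4) (nat_lit 484) (nat_lit 370) (nat_lit 346)) (XT.lf (nat_lit 0) (nat_lit 4615462686) (nat_lit 76) (nat_lit 24760623035) (nat_lit 76) (nat_lit 20462190344) (nat_lit 11) (nat_lit 4) (nat_lit 12) (nat_lit 5) (nat_lit 12) (nat_lit 4) (nat_lit 485) (nat_lit 370) (nat_lit 345))) (XT.nd (nat_lit 78) (nat_lit 0) (nat_lit 0) (XT.lf (nat_lit 0) (nat_lit 26754448336) (nat_lit 76) (nat_lit 14814465776) (nat_lit 76) (nat_lit 10430259058) (nat_lit 11) (nat_lit 4) (nat_lit 12) (nat_lit 5)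 (nat_lit 12) (nat_lit 4) (nat_lit 486) (nat_lit 370) (nat_lit 344)) (XT.lf (nat_lit 0) (nat_lit 49618866374) (nat_lit 76) (nat_lit 4560454729) (nat_lit 76) (nat_lit 94558463) (nat_lit 11) (nat_lit 4) (nat_lit 12) (nat_lit 5) (nat_lit 12) (nat_lit 4) (nat_lit 487) (nat_lit 370) (nat_lit 343))))))))
noncomputable def xc8 : XT := (XT.nd (nat_lit 61152) (nat_lit 0) (nat_lit 76) (XT.nd (nat_lit 60138) (nat_lit 0) (nat_lit 1596) (XT.nd (nat_lit 468) (nat_lit 152) (nat_lit 0) (XT.nd (nat_lit 234) (nat_lit 76) (nat_lit 0) (XT.nd (nat_lit 78) (nat_lit 76) (nat_lit 0) (XT.lf (nat_lit 0) (nat_lit 10585505095) (nat_lit 152) (nat_lit 39898441163) (nat_lit 0) (nat_lit 6174149915) (nat_lit 9) (nat_lit 5) (nat_lit 11) (nat_lit 4) (nat_lit 9) (nat_lit 4) (nat_lit 488) (nat_lit 370) (nat_lit 342)) (XT.nd (nat_lit 78) (nat_lit 76) (nat_lit 0) (XT.lf (nat_lit 0) (nat_lit 21710994337) (nat_lit 152) (nat_lit 20225399657)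 (nat_lit 0) (nat_lit 17227702430) (nat_lit 9) (nat_lit 5) (nat_lit 11) (nat_lit 4) (nat_lit 9) (nat_lit 4) (nat_lit 489) (nat_lit 370) (nat_lit 341)) (XT.lf (nat_lit 0) (nat_lit 90014515) (nat_lit 76) (nat_lit 33131167336) (nat_lit 76) (nat_lit 28579364261) (nat_lit 8) (nat_lit 4) (nat_lit 9) (nat_lit 5) (nat_lit 9) (nat_lit 4) (nat_lit 490) (nat_lit 370) (nat_lit 340)))) (XT.nd (nat_lit 78) (nat_lit 76) (nat_lit 0) (XT.lf (nat_lit 0) (nat_lit 21510647904) (nat_lit 76) (nat_lit 23837000567) (nat_lit 76) (nat_lit 19219948759) (nat_lit 8) (nat_lit 4) (nat_lit 9) (nat_lit 5) (nat_lit 9) (nat_lit 4) (nat_lit 491) (nat_lit 370) (nat_lit 339)) (XT.nd (nat_lit 78) (nat_lit 76) (nat_lit 0) (XT.lf (nat_lit 0) (nat_lit 43684976906) (nat_lit 76) (nat_lit 14236001597) (nat_lit 76) (nat_lit 9556808140) (nat_lit 8) (nat_lit 4) (nat_lit 9) (nat_lit 5) (nat_lit 9) (nat_lit 4) (nat_lit 492) (nat_lit 370) (nat_lit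 338)) (XT.lf (nat_lit 0) (nat_lit 424614416) (nat_lit 152) (nat_lit 3876408715) (nat_lit 76) (nat_lit 66236895352) (nat_lit 7) (nat_lit 5) (nat_lit 9) (nat_lit 5) (nat_lit 8) (nat_lit 4) (nat_lit 493) (nat_lit 370) (nat_lit 337))))) (XT.nd (nat_lit 234) (nat_lit 76) (nat_lit 0) (XT.nd (nat_lit 78) (nat_lit 0) (nat_lit 0) (XT.lf (nat_lit 0) (nat_lit 10786561531) (nat_lit 152) (nat_lit 56827811478) (nat_lit 0) (nat_lit 6131473872) (nat_lit 6) (nat_lit 5) (nat_lit 8) (nat_lit 4) (nat_lit 6) (nat_lit 4) (nat_lit 494) (nat_lit 370) (nat_lit 336)) (XT.nd (nat_lit 78) (nat_lit 0) (nat_lit 0) (XT.lf (nat_lit 0) (nat_lit 21607137596) (nat_lit 152) (nat_lit 38608886636) (nat_lit 0) (nat_lit 16899933148) (nat_lit 6) (nat_lit 5) (nat_lit 8) (nat_lit 4) (nat_lit 6) (nat_lit 4) (nat_lit 495) (nat_lit 370) (nat_lit 335)) (XT.lf (nat_lit 0) (nat_lit 32832381537) (nat_lit 152) (nat_lit 19750742191) (nat_lit 0)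 (nat_lit 28075542051) (nat_lit 6) (nat_lit 5) (nat_lit 8) (nat_lit 4) (nat_lit 6) (nat_lit 4) (nat_lit 496) (nat_lit 370) (nat_lit 334)))) (XT.nd (nat_lit 78) (nat_lit 76) (nat_lit 0) (XT.lf (nat_lit 0) (nat_lit 44489020125) (nat_lit 152) (nat_lit 208477801) (nat_lit 0) (nat_lit 39684909175) (nat_lit 6) (nat_lit 5) (nat_lit 8) (nat_lit 4) (nat_lit 6) (nat_lit 4) (nat_lit 497) (nat_lit 370) (nat_lit 333)) (XT.nd (nat_lit 78) (nat_lit 0) (nat_lit 0) (XT.lf (nat_lit 0) (nat_lit 20463757349) (nat_lit 76) (nat_lit 36337760068) (nat_lit 76) (nat_lit 31488628675) (nat_lit 5) (nat_lit 4) (nat_lit 6) (nat_lit 5) (nat_lit 6) (nat_lit 4) (nat_lit 498) (nat_lit 370) (nat_lit 332)) (XT.lf (nat_lit 0) (nat_lit 41934561601) (nat_lit 76) (nat_lit 27677129120) (nat_lit 76) (nat_lit 22785121116) (nat_lit 5) (nat_lit 4) (nat_lit 6) (nat_lit 5) (nat_lit 6) (nat_lit 4) (nat_lit 499) (nat_lit 370) (nat_lit 331))))))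 (XT.nd (nat_lit 468) (nat_lit 684) (nat_lit 0) (XT.nd (nat_lit 234) (nat_lit 380) (nat_lit 0) (XT.nd (nat_lit 78) (nat_lit 304) (nat_lit 0) (XT.lf (nat_lit 0) (nat_lit 6043464413) (nat_lit 76) (nat_lit 1615299165) (nat_lit 76) (nat_lit 1615299165) (nat_lit 44) (nat_lit 4) (nat_lit 45) (nat_lit 5) (nat_lit 45) (nat_lit 4) (nat_lit 458) (nat_lit 371) (nat_lit 371)) (XT.nd (nat_lit 78) (nat_lit 152) (nat_lit 0) (XT.lf (nat_lit 0) (nat_lit 8166008076) (nat_lit 152) (nat_lit 3196310991) (nat_lit 0) (nat_lit 7756134597) (nat_lit 42) (nat_lit 5) (nat_lit 44) (nat_lit 4) (nat_lit 42) (nat_lit 4) (nat_lit 459) (nat_lit 371) (nat_lit 370)) (XT.lf (nat_lit 0) (nat_lit 250147372) (nat_lit 152) (nat_lit 292430008) (nat_lit 76) (nat_lit 19176442264) (nat_lit 40) (nat_lit 5) (nat_lit 42) (nat_lit 5) (nat_lit 41) (nat_lit 4) (nat_lit 460) (nat_lit 371) (nat_lit 369)))) (XT.nd (nat_lit 78) (nat_lit 228) (nat_lit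 0) (XT.lf (nat_lit 0) (nat_lit 2098961426) (nat_lit 76) (nat_lit 9692558177) (nat_lit 76) (nat_lit 8554697495) (nat_lit 38) (nat_lit 4) (nat_lit 39) (nat_lit 5) (nat_lit 39) (nat_lit 4) (nat_lit 461) (nat_lit 371) (nat_lit 368)) (XT.nd (nat_lit 78) (nat_lit 76) (nat_lit 0) (XT.lf (nat_lit 0) (nat_lit 2743189424) (nat_lit 152) (nat_lit 16959185884) (nat_lit 0) (nat_lit 1304730922) (nat_lit 36) (nat_lit 5) (nat_lit 38) (nat_lit 4) (nat_lit 36) (nat_lit 4) (nat_lit 462) (nat_lit 371) (nat_lit 367)) (XT.lf (nat_lit 0) (nat_lit 5351735136) (nat_lit 76) (nat_lit 9051920437) (nat_lit 76) (nat_lit 7295614894) (nat_lit 35) (nat_lit 4) (nat_lit 36) (nat_lit 5) (nat_lit 36) (nat_lit 4) (nat_lit 463) (nat_lit 371) (nat_lit 366))))) (XT.nd (nat_lit 234) (nat_lit 304) (nat_lit 0) (XT.nd (nat_lit 78) (nat_lit 228) (nat_lit 0) (XT.lf (nat_lit 0) (nat_lit 4034813064) (nat_lit 152) (nat_lit 16357371934) (nat_lit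 0) (nat_lit 2035767422) (nat_lit 33) (nat_lit 5) (nat_lit 35) (nat_lit 4) (nat_lit 33) (nat_lit 4) (nat_lit 464) (nat_lit 371) (nat_lit 365)) (XT.nd (nat_lit 78) (nat_lit 152) (nat_lit 0) (XT.lf (nat_lit 0) (nat_lit 6029675510) (nat_lit 76) (nat_lit 9720549776) (nat_lit 76) (nat_lit 7441604488) (nat_lit 32) (nat_lit 4) (nat_lit 33) (nat_lit 5) (nat_lit 33) (nat_lit 4) (nat_lit 465) (nat_lit 371) (nat_lit 364)) (XT.lf (nat_lit 0) (nat_lit 3868455734) (nat_lit 152) (nat_lit 18730498879) (nat_lit 0) (nat_lit 1397080608) (nat_lit 30) (nat_lit 5) (nat_lit 32) (nat_lit 4) (nat_lit 30) (nat_lit 4) (nat_lit 466) (nat_lit 371) (nat_lit 363)))) (XT.nd (nat_lit 156) (nat_lit 76) (nat_lit 0) (XT.nd (nat_lit 78) (nat_lit 152) (nat_lit 0) (XT.lf (nat_lit 0) (nat_lit 3573380416) (nat_lit 76) (nat_lit 11991737812) (nat_lit 76) (nat_lit 9273879938) (nat_lit 29) (nat_lit 4) (nat_lit 30) (nat_lit 5) (nat_lit 30)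 (nat_lit 4) (nat_lit 467) (nat_lit 371) (nat_lit 362)) (XT.lf (nat_lit 0) (nat_lit 1015891787) (nat_lit 76) (nat_lit 939031924) (nat_lit 152) (nat_lit 23772365474) (nat_lit 27) (nat_lit 5) (nat_lit 28) (nat_lit 5) (nat_lit 29) (nat_lit 4) (nat_lit 468) (nat_lit 371) (nat_lit 361))) (XT.nd (nat_lit 78) (nat_lit 76) (nat_lit 0) (XT.lf (nat_lit 0) (nat_lit 13554855442) (nat_lit 152) (nat_lit 2631152098) (nat_lit 0) (nat_lit 10471194794) (nat_lit 27) (nat_lit 5) (nat_lit 29) (nat_lit 4) (nat_lit 27) (nat_lit 4) (nat_lit 469) (nat_lit 371) (nat_lit 360)) (XT.lf (nat_lit 0) (nat_lit 20335408178) (nat_lit 76) (nat_lit 5295847690) (nat_lit 76) (nat_lit 2005467562) (nat_lit 26) (nat_lit 4) (nat_lit 27) (nat_lit 5) (nat_lit 27) (nat_lit 4) (nat_lit 470) (nat_lit 371) (nat_lit 359))))))) (XT.nd (nat_lit 936) (nat_lit 608) (nat_lit 0) (XT.nd (nat_lit 468) (nat_lit 304) (nat_lit 0) (XT.nd (nat_lit 234) (nat_lit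 228) (nat_lit 0) (XT.nd (nat_lit 78) (nat_lit 228) (nat_lit 0) (XT.lf (nat_lit 0) (nat_lit 9390403500) (nat_lit 152) (nat_lit 13269351616) (nat_lit 0) (nat_lit 6004718234) (nat_lit 24) (nat_lit 5) (nat_lit 26) (nat_lit 4) (nat_lit 24) (nat_lit 4) (nat_lit 471) (nat_lit 371) (nat_lit 358)) (XT.nd (nat_lit 78) (nat_lit 152) (nat_lit 0) (XT.lf (nat_lit 0) (nat_lit 9159099967) (nat_lit 76) (nat_lit 12077000148) (nat_lit 76) (nat_lit 8509275403) (nat_lit 23) (nat_lit 4) (nat_lit 24) (nat_lit 5) (nat_lit 24) (nat_lit 4) (nat_lit 472) (nat_lit 371) (nat_lit 357)) (XT.lf (nat_lit 0) (nat_lit 1540012996) (nat_lit 76) (nat_lit 1061518369) (nat_lit 152) (nat_lit 28282122359) (nat_lit 21) (nat_lit 5) (nat_lit 22) (nat_lit 5) (nat_lit 23) (nat_lit 4) (nat_lit 473) (nat_lit 371) (nat_lit 356)))) (XT.nd (nat_lit 78) (nat_lit 228) (nat_lit 0) (XT.lf (nat_lit 0) (nat_lit 14123922764) (nat_lit 152) (nat_lit 7619954653)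 (nat_lit 0) (nat_lit 10331485046) (nat_lit 21) (nat_lit 5) (nat_lit 23) (nat_lit 4) (nat_lit 21) (nat_lit 4) (nat_lit 474) (nat_lit 371) (nat_lit 355)) (XT.nd (nat_lit 78) (nat_lit 152) (nat_lit 0) (XT.lf (nat_lit 0) (nat_lit 14936074764) (nat_lit 76) (nat_lit 11169599754) (nat_lit 76) (nat_lit 7224489662) (nat_lit 20) (nat_lit 4) (nat_lit 21) (nat_lit 5) (nat_lit 21) (nat_lit 4) (nat_lit 475) (nat_lit 371) (nat_lit 354)) (XT.lf (nat_lit 0) (nat_lit 3640677237) (nat_lit 76) (nat_lit 167790541) (nat_lit 152) (nat_lit 30842623761) (nat_lit 18) (nat_lit 5) (nat_lit 19) (nat_lit 5) (nat_lit 20) (nat_lit 4) (nat_lit 476) (nat_lit 371) (nat_lit 353))))) (XT.nd (nat_lit 234) (nat_lit 152) (nat_lit 0) (XT.nd (nat_lit 78) (nat_lit 152) (nat_lit 0) (XT.lf (nat_lit 0) (nat_lit 15285301746) (nat_lit 152) (nat_lit 9569887029) (nat_lit 0) (nat_lit 11179485534) (nat_lit 18) (nat_lit 5) (nat_lit 20) (nat_lit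 4) (nat_lit 18) (nat_lit 4) (nat_lit 477) (nat_lit 371) (nat_lit 352)) (XT.nd (nat_lit 78) (nat_lit 76) (nat_lit 0) (XT.lf (nat_lit 0) (nat_lit 12698439078) (nat_lit 76) (nat_lit 14513293768) (nat_lit 76) (nat_lit 10279434705) (nat_lit 17) (nat_lit 4) (nat_lit 18) (nat_lit 5) (nat_lit 18) (nat_lit 4) (nat_lit 478) (nat_lit 371) (nat_lit 351)) (XT.lf (nat_lit 0) (nat_lit 556396836) (nat_lit 152) (nat_lit 3226319058) (nat_lit 76) (nat_lit 35241877471) (nat_lit 16) (nat_lit 5) (nat_lit 18) (nat_lit 5) (nat_lit 17) (nat_lit 4) (nat_lit 479) (nat_lit 371) (nat_lit 350)))) (XT.nd (nat_lit 78) (nat_lit 76) (nat_lit 0) (XT.lf (nat_lit 0) (nat_lit 11749312237) (nat_lit 152) (nat_lit 21473872118) (nat_lit 0) (nat_lit 7407619734) (nat_lit 15) (nat_lit 5) (nat_lit 17) (nat_lit 4) (nat_lit 15) (nat_lit 4) (nat_lit 480) (nat_lit 371) (nat_lit 349)) (XT.nd (nat_lit 78) (nat_lit 76) (nat_lit 0) (XT.lf (nat_lit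 0) (nat_lit 23346646103) (nat_lit 152) (nat_lit 77772449) (nat_lit 0) (nat_lit 18897566969) (nat_lit 15) (nat_lit 5) (nat_lit 17) (nat_lit 4) (nat_lit 15) (nat_lit 4) (nat_lit 481) (nat_lit 371) (nat_lit 348)) (XT.lf (nat_lit 0) (nat_lit 22396889623) (nat_lit 76) (nat_lit 13126108581) (nat_lit 76) (nat_lit 8574756466) (nat_lit 14) (nat_lit 4) (nat_lit 15) (nat_lit 5) (nat_lit 15) (nat_lit 4) (nat_lit 482) (nat_lit 371) (nat_lit 347)))))) (XT.nd (nat_lit 468) (nat_lit 228) (nat_lit 0) (XT.nd (nat_lit 234) (nat_lit 228) (nat_lit 0) (XT.nd (nat_lit 78) (nat_lit 76) (nat_lit 0) (XT.lf (nat_lit 0) (nat_lit 2088959816) (nat_lit 152) (nat_lit 408166527) (nat_lit 76) (nat_lit 43470845984) (nat_lit 13) (nat_lit 5) (nat_lit 15) (nat_lit 5) (nat_lit 14) (nat_lit 4) (nat_lit 483) (nat_lit 371) (nat_lit 346)) (XT.nd (nat_lit 78) (nat_lit 0) (nat_lit 0) (XT.lf (nat_lit 0) (nat_lit 13203060803) (nat_lit 152)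 (nat_lit 26123616029) (nat_lit 0) (nat_lit 8599643750) (nat_lit 12) (nat_lit 5) (nat_lit 14) (nat_lit 4) (nat_lit 12) (nat_lit 4) (nat_lit 484) (nat_lit 371) (nat_lit 345)) (XT.lf (nat_lit 0) (nat_lit 24704499038) (nat_lit 152) (nat_lit 5267832964) (nat_lit 0) (nat_lit 20015307959) (nat_lit 12) (nat_lit 5) (nat_lit 14) (nat_lit 4) (nat_lit 12) (nat_lit 4) (nat_lit 485) (nat_lit 371) (nat_lit 344)))) (XT.nd (nat_lit 78) (nat_lit 152) (nat_lit 0) (XT.lf (nat_lit 0) (nat_lit 16580206678) (nat_lit 76) (nat_lit 20171786149) (nat_lit 76) (nat_lit 15400905521) (nat_lit 11) (nat_lit 4) (nat_lit 12) (nat_lit 5) (nat_lit 12) (nat_lit 4) (nat_lit 486) (nat_lit 371) (nat_lit 343)) (XT.nd (nat_lit 78) (nat_lit 152) (nat_lit 0) (XT.lf (nat_lit 0) (nat_lit 39267381094) (nat_lit 76) (nat_lit 10005790933) (nat_lit 76) (nat_lit 5157110736) (nat_lit 11) (nat_lit 4) (nat_lit 12) (nat_lit 5) (nat_lit 12) (nat_lit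 4) (nat_lit 487) (nat_lit 371) (nat_lit 342)) (XT.lf (nat_lit 0) (nat_lit 5377035373) (nat_lit 152) (nat_lit 50848624060) (nat_lit 0) (nat_lit 597642144) (nat_lit 9) (nat_lit 5) (nat_lit 11) (nat_lit 4) (nat_lit 9) (nat_lit 4) (nat_lit 488) (nat_lit 371) (nat_lit 341))))) (XT.nd (nat_lit 234) (nat_lit 152) (nat_lit 0) (XT.nd (nat_lit 78) (nat_lit 76) (nat_lit 0) (XT.lf (nat_lit 0) (nat_lit 16418406828) (nat_lit 152) (nat_lit 31342917147) (nat_lit 0) (nat_lit 11570502430) (nat_lit 9) (nat_lit 5) (nat_lit 11) (nat_lit 4) (nat_lit 9) (nat_lit 4) (nat_lit 489) (nat_lit 371) (nat_lit 340)) (XT.nd (nat_lit 78) (nat_lit 76) (nat_lit 0) (XT.lf (nat_lit 0) (nat_lit 27847616891) (nat_lit 152) (nat_lit 11188625760) (nat_lit 0) (nat_lit 22934463761) (nat_lit 9) (nat_lit 5) (nat_lit 11) (nat_lit 4) (nat_lit 9) (nat_lit 4) (nat_lit 490) (nat_lit 371) (nat_lit 339)) (XT.lf (nat_lit 0) (nat_lit 9854533960) (nat_lit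 76) (nat_lit 29932071814) (nat_lit 76) (nat_lit 24956777034) (nat_lit 8) (nat_lit 4) (nat_lit 9) (nat_lit 5) (nat_lit 9) (nat_lit 4) (nat_lit 491) (nat_lit 371) (nat_lit 338)))) (XT.nd (nat_lit 156) (nat_lit 152) (nat_lit 0) (XT.nd (nat_lit 78) (nat_lit 0) (nat_lit 0) (XT.lf (nat_lit 0) (nat_lit 31881436222) (nat_lit 76) (nat_lit 20404418320) (nat_lit 76) (nat_lit 15369941017) (nat_lit 8) (nat_lit 4) (nat_lit 9) (nat_lit 5) (nat_lit 9) (nat_lit 4) (nat_lit 492) (nat_lit 371) (nat_lit 337)) (XT.lf (nat_lit 0) (nat_lit 54721850439) (nat_lit 76) (nat_lit 10543580461) (nat_lit 76) (nat_lit 5452738851) (nat_lit 8) (nat_lit 4) (nat_lit 9) (nat_lit 5) (nat_lit 9) (nat_lit 4) (nat_lit 493) (nat_lit 371) (nat_lit 336))) (XT.nd (nat_lit 78) (nat_lit 0) (nat_lit 0) (XT.lf (nat_lit 0) (nat_lit 4534528977) (nat_lit 76) (nat_lit 233476382) (nat_lit 152) (nat_lit 69167094201) (nat_lit 6) (nat_lit 5) (nat_lit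 7) (nat_lit 5) (nat_lit 8) (nat_lit 4) (nat_lit 494) (nat_lit 371) (nat_lit 335)) (XT.lf (nat_lit 0) (nat_lit 15519819581) (nat_lit 152) (nat_lit 51311951004) (nat_lit 0) (nat_lit 10475503083) (nat_lit 6) (nat_lit 5) (nat_lit 8) (nat_lit 4) (nat_lit 6) (nat_lit 4) (nat_lit 495) (nat_lit 371) (nat_lit 334))))))))
noncomputable def xc9 : XT := (XT.nd (nat_lit 60996) (nat_lit 0) (nat_lit 0) (XT.nd (nat_lit 59982) (nat_lit 0) (nat_lit 1064) (XT.nd (nat_lit 59514) (nat_lit 0) (nat_lit 2280) (XT.nd (nat_lit 234) (nat_lit 0) (nat_lit 0) (XT.nd (nat_lit 78) (nat_lit 76) (nat_lit 0) (XT.lf (nat_lit 0) (nat_lit 26681713498) (nat_lit 152) (nat_lit 32580044256) (nat_lit 0) (nat_lit 21590125536) (nat_lit 6) (nat_lit 5) (nat_lit 8) (nat_lit 4) (nat_lit 6) (nat_lit 4) (nat_lit 496) (nat_lit 371) (nat_lit 333)) (XT.nd (nat_lit 78) (nat_lit 76) (nat_lit 0) (XT.lf (nat_lit 0) (nat_lit 38278018730) (nat_lit 152)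 (nat_lit 13158006242) (nat_lit 0) (nat_lit 33141410326) (nat_lit 6) (nat_lit 5) (nat_lit 8) (nat_lit 4) (nat_lit 6) (nat_lit 4) (nat_lit 497) (nat_lit 371) (nat_lit 332)) (XT.lf (nat_lit 0) (nat_lit 7139727789) (nat_lit 76) (nat_lit 43265249170) (nat_lit 76) (nat_lit 38085764154) (nat_lit 5) (nat_lit 4) (nat_lit 6) (nat_lit 5) (nat_lit 6) (nat_lit 4) (nat_lit 498) (nat_lit 371) (nat_lit 331)))) (XT.nd (nat_lit 59124) (nat_lit 0) (nat_lit 3040) (XT.lf (nat_lit 0) (nat_lit 28499312886) (nat_lit 76) (nat_lit 34660044137) (nat_lit 76) (nat_lit 29439724253) (nat_lit 5) (nat_lit 4) (nat_lit 6) (nat_lit 5) (nat_lit 6) (nat_lit 4) (nat_lit 499) (nat_lit 371) (nat_lit 330)) (XT.nd (nat_lit 78) (nat_lit 152) (nat_lit 0) (XT.lf (nat_lit 0) (nat_lit 1843437484) (nat_lit 152) (nat_lit 3448323958) (nat_lit 152) (nat_lit 3448323958) (nat_lit 47) (nat_lit 4) (nat_lit 49) (nat_lit 5) (nat_lit 49) (nat_lit 4) (nat_lit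 456) (nat_lit 372) (nat_lit 372)) (XT.lf (nat_lit 0) (nat_lit 4158032629) (nat_lit 152) (nat_lit 10131352582) (nat_lit 0) (nat_lit 3714754461) (nat_lit 45) (nat_lit 5) (nat_lit 47) (nat_lit 4) (nat_lit 45) (nat_lit 4) (nat_lit 457) (nat_lit 372) (nat_lit 371))))) (XT.nd (nat_lit 234) (nat_lit 380) (nat_lit 0) (XT.nd (nat_lit 78) (nat_lit 304) (nat_lit 0) (XT.lf (nat_lit 0) (nat_lit 11728824774) (nat_lit 76) (nat_lit 3845179512) (nat_lit 76) (nat_lit 2979731660) (nat_lit 44) (nat_lit 4) (nat_lit 45) (nat_lit 5) (nat_lit 45) (nat_lit 4) (nat_lit 458) (nat_lit 372) (nat_lit 370)) (XT.nd (nat_lit 78) (nat_lit 152) (nat_lit 0) (XT.lf (nat_lit 0) (nat_lit 8217799465) (nat_lit 152) (nat_lit 3924820520) (nat_lit 0) (nat_lit 6987203138) (nat_lit 42) (nat_lit 5) (nat_lit 44) (nat_lit 4) (nat_lit 42) (nat_lit 4) (nat_lit 459) (nat_lit 372) (nat_lit 369)) (XT.lf (nat_lit 0) (nat_lit 101592435) (nat_lit 152)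 (nat_lit 1396131011) (nat_lit 76) (nat_lit 18238305139) (nat_lit 40) (nat_lit 5) (nat_lit 42) (nat_lit 5) (nat_lit 41) (nat_lit 4) (nat_lit 460) (nat_lit 372) (nat_lit 368)))) (XT.nd (nat_lit 78) (nat_lit 228) (nat_lit 0) (XT.lf (nat_lit 0) (nat_lit 593371977) (nat_lit 76) (nat_lit 10837828336) (nat_lit 76) (nat_lit 8938383891) (nat_lit 38) (nat_lit 4) (nat_lit 39) (nat_lit 5) (nat_lit 39) (nat_lit 4) (nat_lit 461) (nat_lit 372) (nat_lit 367)) (XT.nd (nat_lit 78) (nat_lit 76) (nat_lit 0) (XT.lf (nat_lit 0) (nat_lit 2162302329) (nat_lit 152) (nat_lit 18874092660) (nat_lit 0) (nat_lit 334468) (nat_lit 36) (nat_lit 5) (nat_lit 38) (nat_lit 4) (nat_lit 36) (nat_lit 4) (nat_lit 462) (nat_lit 372) (nat_lit 366)) (XT.lf (nat_lit 0) (nat_lit 3062101875) (nat_lit 76) (nat_lit 10568618599) (nat_lit 76) (nat_lit 8103939270) (nat_lit 35) (nat_lit 4) (nat_lit 36) (nat_lit 5) (nat_lit 36) (nat_lit 4) (nat_lit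 463) (nat_lit 372) (nat_lit 365)))))) (XT.nd (nat_lit 468) (nat_lit 608) (nat_lit 0) (XT.nd (nat_lit 234) (nat_lit 228) (nat_lit 0) (XT.nd (nat_lit 78) (nat_lit 228) (nat_lit 0) (XT.lf (nat_lit 0) (nat_lit 3033282549) (nat_lit 152) (nat_lit 19076075548) (nat_lit 0) (nat_lit 360490350) (nat_lit 33) (nat_lit 5) (nat_lit 35) (nat_lit 4) (nat_lit 33) (nat_lit 4) (nat_lit 464) (nat_lit 372) (nat_lit 364)) (XT.nd (nat_lit 78) (nat_lit 152) (nat_lit 0) (XT.lf (nat_lit 0) (nat_lit 2932525162) (nat_lit 76) (nat_lit 11623178856) (nat_lit 76) (nat_lit 8683815565) (nat_lit 32) (nat_lit 4) (nat_lit 33) (nat_lit 5) (nat_lit 33) (nat_lit 4) (nat_lit 465) (nat_lit 372) (nat_lit 363)) (XT.lf (nat_lit 0) (nat_lit 1766100653) (nat_lit 76) (nat_lit 676924555) (nat_lit 152) (nat_lit 21607285586) (nat_lit 30) (nat_lit 5) (nat_lit 31) (nat_lit 5) (nat_lit 32) (nat_lit 4) (nat_lit 466) (nat_lit 372) (nat_lit 362))))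 (XT.nd (nat_lit 78) (nat_lit 228) (nat_lit 0) (XT.lf (nat_lit 0) (nat_lit 13942126213) (nat_lit 152) (nat_lit 349930724) (nat_lit 0) (nat_lit 10607147223) (nat_lit 30) (nat_lit 5) (nat_lit 32) (nat_lit 4) (nat_lit 30) (nat_lit 4) (nat_lit 467) (nat_lit 372) (nat_lit 361)) (XT.nd (nat_lit 78) (nat_lit 76) (nat_lit 0) (XT.lf (nat_lit 0) (nat_lit 137728126) (nat_lit 152) (nat_lit 3278958012) (nat_lit 76) (nat_lit 22376303029) (nat_lit 28) (nat_lit 5) (nat_lit 30) (nat_lit 5) (nat_lit 29) (nat_lit 4) (nat_lit 468) (nat_lit 372) (nat_lit 360)) (XT.lf (nat_lit 0) (nat_lit 11530899100) (nat_lit 152) (nat_lit 7328928702) (nat_lit 0) (nat_lit 7869280484) (nat_lit 27) (nat_lit 5) (nat_lit 29) (nat_lit 4) (nat_lit 27) (nat_lit 4) (nat_lit 469) (nat_lit 372) (nat_lit 359))))) (XT.nd (nat_lit 234) (nat_lit 304) (nat_lit 0) (XT.nd (nat_lit 78) (nat_lit 228) (nat_lit 0) (XT.lf (nat_lit 0) (nat_lit 15257456989)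 (nat_lit 76) (nat_lit 8157716739) (nat_lit 76) (nat_lit 4299222427) (nat_lit 26) (nat_lit 4) (nat_lit 27) (nat_lit 5) (nat_lit 27) (nat_lit 4) (nat_lit 470) (nat_lit 372) (nat_lit 358)) (XT.nd (nat_lit 78) (nat_lit 76) (nat_lit 0) (XT.lf (nat_lit 0) (nat_lit 6918326715) (nat_lit 152) (nat_lit 18840999785) (nat_lit 0) (nat_lit 2990176255) (nat_lit 24) (nat_lit 5) (nat_lit 26) (nat_lit 4) (nat_lit 24) (nat_lit 4) (nat_lit 471) (nat_lit 372) (nat_lit 357)) (XT.lf (nat_lit 0) (nat_lit 3200426516) (nat_lit 76) (nat_lit 15368675046) (nat_lit 76) (nat_lit 11267153655) (nat_lit 23) (nat_lit 4) (nat_lit 24) (nat_lit 5) (nat_lit 24) (nat_lit 4) (nat_lit 472) (nat_lit 372) (nat_lit 356)))) (XT.nd (nat_lit 156) (nat_lit 152) (nat_lit 0) (XT.nd (nat_lit 78) (nat_lit 152) (nat_lit 0) (XT.lf (nat_lit 0) (nat_lit 26198517952) (nat_lit 76) (nat_lit 4523933984) (nat_lit 76) (nat_lit 257297419) (nat_lit 23) (nat_lit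 4) (nat_lit 24) (nat_lit 5) (nat_lit 24) (nat_lit 4) (nat_lit 473) (nat_lit 372) (nat_lit 355)) (XT.lf (nat_lit 0) (nat_lit 11057274429) (nat_lit 152) (nat_lit 14358408940) (nat_lit 0) (nat_lit 6762236457) (nat_lit 21) (nat_lit 5) (nat_lit 23) (nat_lit 4) (nat_lit 21) (nat_lit 4) (nat_lit 474) (nat_lit 372) (nat_lit 354))) (XT.nd (nat_lit 78) (nat_lit 76) (nat_lit 0) (XT.lf (nat_lit 0) (nat_lit 7810214615) (nat_lit 76) (nat_lit 15034390997) (nat_lit 76) (nat_lit 10593950764) (nat_lit 20) (nat_lit 4) (nat_lit 21) (nat_lit 5) (nat_lit 21) (nat_lit 4) (nat_lit 475) (nat_lit 372) (nat_lit 353)) (XT.lf (nat_lit 0) (nat_lit 346303125) (nat_lit 152) (nat_lit 3875923232) (nat_lit 76) (nat_lit 30542984721) (nat_lit 19) (nat_lit 5) (nat_lit 21) (nat_lit 5) (nat_lit 20) (nat_lit 4) (nat_lit 476) (nat_lit 372) (nat_lit 352))))))) (XT.nd (nat_lit 1014) (nat_lit 304) (nat_lit 0) (XT.nd (nat_lit 468) (nat_lit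 380) (nat_lit 0) (XT.nd (nat_lit 234) (nat_lit 228) (nat_lit 0) (XT.nd (nat_lit 78) (nat_lit 76) (nat_lit 0) (XT.lf (nat_lit 0) (nat_lit 11624810688) (nat_lit 152) (nat_lit 17478719083) (nat_lit 0) (nat_lit 7051215819) (nat_lit 18) (nat_lit 5) (nat_lit 20) (nat_lit 4) (nat_lit 18) (nat_lit 4) (nat_lit 477) (nat_lit 372) (nat_lit 351)) (XT.nd (nat_lit 78) (nat_lit 0) (nat_lit 0) (XT.lf (nat_lit 0) (nat_lit 4399878364) (nat_lit 76) (nat_lit 18956376192) (nat_lit 76) (nat_lit 14260835750) (nat_lit 17) (nat_lit 4) (nat_lit 18) (nat_lit 5) (nat_lit 18) (nat_lit 4) (nat_lit 478) (nat_lit 372) (nat_lit 350)) (XT.lf (nat_lit 0) (nat_lit 27284067925) (nat_lit 76) (nat_lit 8340824199) (nat_lit 76) (nat_lit 3529145116) (nat_lit 17) (nat_lit 4) (nat_lit 18) (nat_lit 5) (nat_lit 18) (nat_lit 4) (nat_lit 479) (nat_lit 372) (nat_lit 349)))) (XT.nd (nat_lit 78) (nat_lit 76) (nat_lit 0) (XT.lf (nat_lit 0) (nat_lit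 7492534199) (nat_lit 152) (nat_lit 30562321724) (nat_lit 0) (nat_lit 2713614477) (nat_lit 15) (nat_lit 5) (nat_lit 17) (nat_lit 4) (nat_lit 15) (nat_lit 4) (nat_lit 480) (nat_lit 372) (nat_lit 348)) (XT.nd (nat_lit 78) (nat_lit 76) (nat_lit 0) (XT.lf (nat_lit 0) (nat_lit 18984433401) (nat_lit 152) (nat_lit 9375142331) (nat_lit 0) (nat_lit 14103240698) (nat_lit 15) (nat_lit 5) (nat_lit 17) (nat_lit 4) (nat_lit 15) (nat_lit 4) (nat_lit 481) (nat_lit 372) (nat_lit 347)) (XT.lf (nat_lit 0) (nat_lit 12711552233) (nat_lit 76) (nat_lit 18255717916) (nat_lit 76) (nat_lit 13277122374) (nat_lit 14) (nat_lit 4) (nat_lit 15) (nat_lit 5) (nat_lit 15) (nat_lit 4) (nat_lit 482) (nat_lit 372) (nat_lit 346))))) (XT.nd (nat_lit 234) (nat_lit 228) (nat_lit 0) (XT.nd (nat_lit 78) (nat_lit 152) (nat_lit 0) (XT.lf (nat_lit 0) (nat_lit 35702294601) (nat_lit 76) (nat_lit 7743608124) (nat_lit 76) (nat_lit 2672247972)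 (nat_lit 14) (nat_lit 4) (nat_lit 15) (nat_lit 5) (nat_lit 15) (nat_lit 4) (nat_lit 483) (nat_lit 372) (nat_lit 345)) (XT.nd (nat_lit 78) (nat_lit 0) (nat_lit 0) (XT.lf (nat_lit 0) (nat_lit 8247984540) (nat_lit 152) (nat_lit 36598106864) (nat_lit 0) (nat_lit 3238559881) (nat_lit 12) (nat_lit 5) (nat_lit 14) (nat_lit 4) (nat_lit 12) (nat_lit 4) (nat_lit 484) (nat_lit 372) (nat_lit 344)) (XT.lf (nat_lit 0) (nat_lit 19657522558) (nat_lit 152) (nat_lit 15924798007) (nat_lit 0) (nat_lit 14566408350) (nat_lit 12) (nat_lit 5) (nat_lit 14) (nat_lit 4) (nat_lit 12) (nat_lit 4) (nat_lit 485) (nat_lit 372) (nat_lit 343)))) (XT.nd (nat_lit 156) (nat_lit 152) (nat_lit 0) (XT.nd (nat_lit 78) (nat_lit 0) (nat_lit 0) (XT.lf (nat_lit 0) (nat_lit 5533903513) (nat_lit 76) (nat_lit 25977404994) (nat_lit 76) (nat_lit 20808491216) (nat_lit 11) (nat_lit 4) (nat_lit 12) (nat_lit 5) (nat_lit 12) (nat_lit 4) (nat_lit 486)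 (nat_lit 372) (nat_lit 342)) (XT.lf (nat_lit 0) (nat_lit 28052274480) (nat_lit 76) (nat_lit 15895234379) (nat_lit 76) (nat_lit 10652225773) (nat_lit 11) (nat_lit 4) (nat_lit 12) (nat_lit 5) (nat_lit 12) (nat_lit 4) (nat_lit 487) (nat_lit 372) (nat_lit 341))) (XT.nd (nat_lit 78) (nat_lit 152) (nat_lit 0) (XT.lf (nat_lit 0) (nat_lit 51366995356) (nat_lit 76) (nat_lit 5472612788) (nat_lit 76) (nat_lit 159037678) (nat_lit 11) (nat_lit 4) (nat_lit 12) (nat_lit 5) (nat_lit 12) (nat_lit 4) (nat_lit 488) (nat_lit 372) (nat_lit 340)) (XT.lf (nat_lit 0) (nat_lit 10696959979) (nat_lit 152) (nat_lit 43343011384) (nat_lit 0) (nat_lit 5472900460) (nat_lit 9) (nat_lit 5) (nat_lit 11) (nat_lit 4) (nat_lit 9) (nat_lit 4) (nat_lit 489) (nat_lit 372) (nat_lit 339)))))) (XT.nd (nat_lit 468) (nat_lit 76) (nat_lit 0) (XT.nd (nat_lit 234) (nat_lit 152) (nat_lit 0) (XT.nd (nat_lit 78) (nat_lit 76) (nat_lit 0) (XT.lf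 (nat_lit 0) (nat_lit 22049872728) (nat_lit 152) (nat_lit 23340497405) (nat_lit 0) (nat_lit 16763671560) (nat_lit 9) (nat_lit 5) (nat_lit 11) (nat_lit 4) (nat_lit 9) (nat_lit 4) (nat_lit 490) (nat_lit 372) (nat_lit 338)) (XT.nd (nat_lit 78) (nat_lit 76) (nat_lit 0) (XT.lf (nat_lit 0) (nat_lit 33821469696) (nat_lit 152) (nat_lit 2634185049) (nat_lit 0) (nat_lit 28476086005) (nat_lit 9) (nat_lit 5) (nat_lit 11) (nat_lit 4) (nat_lit 9) (nat_lit 4) (nat_lit 491) (nat_lit 372) (nat_lit 337)) (XT.lf (nat_lit 0) (nat_lit 19199885346) (nat_lit 76) (nat_lit 27024454189) (nat_lit 76) (nat_lit 21622706190) (nat_lit 8) (nat_lit 4) (nat_lit 9) (nat_lit 5) (nat_lit 9) (nat_lit 4) (nat_lit 492) (nat_lit 372) (nat_lit 336)))) (XT.nd (nat_lit 78) (nat_lit 152) (nat_lit 0) (XT.lf (nat_lit 0) (nat_lit 41906579165) (nat_lit 76) (nat_lit 17230142840) (nat_lit 76) (nat_lit 11774714548) (nat_lit 8) (nat_lit 4) (nat_lit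 9) (nat_lit 5) (nat_lit 9) (nat_lit 4) (nat_lit 493) (nat_lit 372) (nat_lit 335)) (XT.nd (nat_lit 78) (nat_lit 152) (nat_lit 0) (XT.lf (nat_lit 0) (nat_lit 65487534515) (nat_lit 76) (nat_lit 7076001013) (nat_lit 76) (nat_lit 1569448632) (nat_lit 8) (nat_lit 4) (nat_lit 9) (nat_lit 5) (nat_lit 9) (nat_lit 4) (nat_lit 494) (nat_lit 372) (nat_lit 334)) (XT.lf (nat_lit 0) (nat_lit 8998268116) (nat_lit 152) (nat_lit 64908955867) (nat_lit 0) (nat_lit 3604829292) (nat_lit 6) (nat_lit 5) (nat_lit 8) (nat_lit 4) (nat_lit 6) (nat_lit 4) (nat_lit 495) (nat_lit 372) (nat_lit 333))))) (XT.nd (nat_lit 234) (nat_lit 76) (nat_lit 0) (XT.nd (nat_lit 78) (nat_lit 0) (nat_lit 0) (XT.lf (nat_lit 0) (nat_lit 20099828677) (nat_lit 152) (nat_lit 46297275496) (nat_lit 0) (nat_lit 14661369410) (nat_lit 6) (nat_lit 5) (nat_lit 8) (nat_lit 4) (nat_lit 6) (nat_lit 4) (nat_lit 496) (nat_lit 372) (nat_lit 332)) (XT.nd (nat_lit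 78) (nat_lit 0) (nat_lit 0) (XT.lf (nat_lit 0) (nat_lit 31638673570) (nat_lit 152) (nat_lit 26989738793) (nat_lit 0) (nat_lit 26157337691) (nat_lit 6) (nat_lit 5) (nat_lit 8) (nat_lit 4) (nat_lit 6) (nat_lit 4) (nat_lit 497) (nat_lit 372) (nat_lit 331)) (XT.lf (nat_lit 0) (nat_lit 43642276235) (nat_lit 152) (nat_lit 6940375435) (nat_lit 0) (nat_lit 38120105488) (nat_lit 6) (nat_lit 5) (nat_lit 8) (nat_lit 4) (nat_lit 6) (nat_lit 4) (nat_lit 498) (nat_lit 372) (nat_lit 330)))) (XT.nd (nat_lit 59046) (nat_lit 0) (nat_lit 3192) (XT.nd (nat_lit 58968) (nat_lit 0) (nat_lit 3648) (XT.lf (nat_lit 0) (nat_lit 14175159578) (nat_lit 76) (nat_lit 42100317406) (nat_lit 76) (nat_lit 36539256309) (nat_lit 5) (nat_lit 4) (nat_lit 6) (nat_lit 5) (nat_lit 6) (nat_lit 4) (nat_lit 499) (nat_lit 372) (nat_lit 329)) (XT.lf (nat_lit 0) (nat_lit 2862466652) (nat_lit 152) (nat_lit 2524455715) (nat_lit 0) (nat_lit 2862466652)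 (nat_lit 53) (nat_lit 5) (nat_lit 55) (nat_lit 4) (nat_lit 53) (nat_lit 4) (nat_lit 454) (nat_lit 373) (nat_lit 373))) (XT.nd (nat_lit 78) (nat_lit 304) (nat_lit 0) (XT.lf (nat_lit 0) (nat_lit 16256265048) (nat_lit 152) (nat_lit 609786364) (nat_lit 152) (nat_lit 115998865) (nat_lit 51) (nat_lit 4) (nat_lit 53) (nat_lit 5) (nat_lit 53) (nat_lit 4) (nat_lit 455) (nat_lit 373) (nat_lit 372)) (XT.lf (nat_lit 0) (nat_lit 3333115493) (nat_lit 152) (nat_lit 7544304678) (nat_lit 152) (nat_lit 6608322826) (nat_lit 47) (nat_lit 4) (nat_lit 49) (nat_lit 5) (nat_lit 49) (nat_lit 4) (nat_lit 456) (nat_lit 373) (nat_lit 371))))))))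
noncomputable def xc10 : XT := (XT.nd (nat_lit 1950) (nat_lit 684) (nat_lit 0) (XT.nd (nat_lit 936) (nat_lit 1064) (nat_lit 0) (XT.nd (nat_lit 468) (nat_lit 608) (nat_lit 0) (XT.nd (nat_lit 234) (nat_lit 380) (nat_lit 0) (XT.nd (nat_lit 78) (nat_lit 228) (nat_lit 0) (XT.lf (nat_lit 0) (nat_lit 4247589324) (nat_lit 152) (nat_lit 10851140693) (nat_lit 0) (nat_lit 2916699396) (nat_lit 45) (nat_lit 5) (nat_lit 47) (nat_lit 4) (nat_lit 45) (nat_lit 4) (nat_lit 457) (nat_lit 373) (nat_lit 370)) (XT.nd (nat_lit 78) (nat_lit 152) (nat_lit 0) (XT.lf (nat_lit 0) (nat_lit 10653659990) (nat_lit 76) (nat_lit 4824938494) (nat_lit 76) (nat_lit 3091982200) (nat_lit 44) (nat_lit 4) (nat_lit 45) (nat_lit 5) (nat_lit 45) (nat_lit 4) (nat_lit 458) (nat_lit 373) (nat_lit 369)) (XT.lf (nat_lit 0) (nat_lit 7911632077) (nat_lit 152) (nat_lit 5383574125) (nat_lit 0) (nat_lit 5857382910) (nat_lit 42) (nat_lit 5) (nat_lit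 44) (nat_lit 4) (nat_lit 42) (nat_lit 4) (nat_lit 459) (nat_lit 373) (nat_lit 368)))) (XT.nd (nat_lit 78) (nat_lit 304) (nat_lit 0) (XT.lf (nat_lit 0) (nat_lit 16524391247) (nat_lit 76) (nat_lit 2824150400) (nat_lit 76) (nat_lit 415837111) (nat_lit 41) (nat_lit 4) (nat_lit 42) (nat_lit 5) (nat_lit 42) (nat_lit 4) (nat_lit 460) (nat_lit 373) (nat_lit 367)) (XT.nd (nat_lit 78) (nat_lit 152) (nat_lit 0) (XT.lf (nat_lit 0) (nat_lit 10716429698) (nat_lit 152) (nat_lit 1636914247) (nat_lit 0) (nat_lit 8050879003) (nat_lit 39) (nat_lit 5) (nat_lit 41) (nat_lit 4) (nat_lit 39) (nat_lit 4) (nat_lit 461) (nat_lit 373) (nat_lit 366)) (XT.lf (nat_lit 0) (nat_lit 1225136258) (nat_lit 152) (nat_lit 490316900) (nat_lit 76) (nat_lit 19362207177) (nat_lit 37) (nat_lit 5) (nat_lit 39) (nat_lit 5) (nat_lit 38) (nat_lit 4) (nat_lit 462) (nat_lit 373) (nat_lit 365))))) (XT.nd (nat_lit 234) (nat_lit 304) (nat_lit 0)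 (XT.nd (nat_lit 78) (nat_lit 152) (nat_lit 0) (XT.lf (nat_lit 0) (nat_lit 784118) (nat_lit 76) (nat_lit 12480056849) (nat_lit 76) (nat_lit 9301135450) (nat_lit 35) (nat_lit 4) (nat_lit 36) (nat_lit 5) (nat_lit 36) (nat_lit 4) (nat_lit 463) (nat_lit 373) (nat_lit 364)) (XT.nd (nat_lit 78) (nat_lit 76) (nat_lit 0) (XT.lf (nat_lit 0) (nat_lit 1664530562) (nat_lit 152) (nat_lit 74492581) (nat_lit 76) (nat_lit 20784338803) (nat_lit 34) (nat_lit 5) (nat_lit 36) (nat_lit 5) (nat_lit 35) (nat_lit 4) (nat_lit 464) (nat_lit 373) (nat_lit 363)) (XT.lf (nat_lit 0) (nat_lit 12985861987) (nat_lit 152) (nat_lit 934125454) (nat_lit 0) (nat_lit 9379082209) (nat_lit 33) (nat_lit 5) (nat_lit 35) (nat_lit 4) (nat_lit 33) (nat_lit 4) (nat_lit 465) (nat_lit 373) (nat_lit 362)))) (XT.nd (nat_lit 78) (nat_lit 152) (nat_lit 0) (XT.lf (nat_lit 0) (nat_lit 666833039) (nat_lit 152) (nat_lit 2494896546) (nat_lit 76) (nat_lit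 20953962594) (nat_lit 31) (nat_lit 5) (nat_lit 33) (nat_lit 5) (nat_lit 32) (nat_lit 4) (nat_lit 466) (nat_lit 373) (nat_lit 361)) (XT.nd (nat_lit 78) (nat_lit 76) (nat_lit 0) (XT.lf (nat_lit 0) (nat_lit 11968103812) (nat_lit 152) (nat_lit 4994356764) (nat_lit 0) (nat_lit 8008063280) (nat_lit 30) (nat_lit 5) (nat_lit 32) (nat_lit 4) (nat_lit 30) (nat_lit 4) (nat_lit 467) (nat_lit 373) (nat_lit 360)) (XT.lf (nat_lit 0) (nat_lit 17495138789) (nat_lit 76) (nat_lit 6273943622) (nat_lit 76) (nat_lit 2100982024) (nat_lit 29) (nat_lit 4) (nat_lit 30) (nat_lit 5) (nat_lit 30) (nat_lit 4) (nat_lit 468) (nat_lit 373) (nat_lit 359)))))) (XT.nd (nat_lit 468) (nat_lit 456) (nat_lit 0) (XT.nd (nat_lit 234) (nat_lit 228) (nat_lit 0) (XT.nd (nat_lit 78) (nat_lit 228) (nat_lit 0) (XT.lf (nat_lit 0) (nat_lit 9111952418) (nat_lit 152) (nat_lit 12837819345) (nat_lit 0) (nat_lit 4863657695) (nat_lit 27) (nat_lit 5)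 (nat_lit 29) (nat_lit 4) (nat_lit 27) (nat_lit 4) (nat_lit 469) (nat_lit 373) (nat_lit 358)) (XT.nd (nat_lit 78) (nat_lit 152) (nat_lit 0) (XT.lf (nat_lit 0) (nat_lit 9365900411) (nat_lit 76) (nat_lit 11437204411) (nat_lit 76) (nat_lit 7001409026) (nat_lit 26) (nat_lit 4) (nat_lit 27) (nat_lit 5) (nat_lit 27) (nat_lit 4) (nat_lit 470) (nat_lit 373) (nat_lit 357)) (XT.lf (nat_lit 0) (nat_lit 3596548042) (nat_lit 76) (nat_lit 448237912) (nat_lit 152) (nat_lit 24802338894) (nat_lit 24) (nat_lit 5) (nat_lit 25) (nat_lit 5) (nat_lit 26) (nat_lit 4) (nat_lit 471) (nat_lit 373) (nat_lit 356)))) (XT.nd (nat_lit 78) (nat_lit 228) (nat_lit 0) (XT.lf (nat_lit 0) (nat_lit 15529398699) (nat_lit 152) (nat_lit 3525150855) (nat_lit 0) (nat_lit 10884315133) (nat_lit 24) (nat_lit 5) (nat_lit 26) (nat_lit 4) (nat_lit 24) (nat_lit 4) (nat_lit 472) (nat_lit 373) (nat_lit 355)) (XT.nd (nat_lit 78) (nat_lit 152) (nat_lit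 0) (XT.lf (nat_lit 0) (nat_lit 19152317352) (nat_lit 76) (nat_lit 8368617207) (nat_lit 76) (nat_lit 3566281095) (nat_lit 23) (nat_lit 4) (nat_lit 24) (nat_lit 5) (nat_lit 24) (nat_lit 4) (nat_lit 473) (nat_lit 373) (nat_lit 354)) (XT.lf (nat_lit 0) (nat_lit 7579152666) (nat_lit 152) (nat_lit 21942913004) (nat_lit 0) (nat_lit 2771288159) (nat_lit 21) (nat_lit 5) (nat_lit 23) (nat_lit 4) (nat_lit 21) (nat_lit 4) (nat_lit 474) (nat_lit 373) (nat_lit 353))))) (XT.nd (nat_lit 234) (nat_lit 228) (nat_lit 0) (XT.nd (nat_lit 78) (nat_lit 228) (nat_lit 0) (XT.lf (nat_lit 0) (nat_lit 19171481151) (nat_lit 152) (nat_lit 163223117) (nat_lit 0) (nat_lit 14225138300) (nat_lit 21) (nat_lit 5) (nat_lit 23) (nat_lit 4) (nat_lit 21) (nat_lit 4) (nat_lit 475) (nat_lit 373) (nat_lit 352)) (XT.nd (nat_lit 78) (nat_lit 152) (nat_lit 0) (XT.lf (nat_lit 0) (nat_lit 22686350419) (nat_lit 76) (nat_lit 8641009212) (nat_lit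 76) (nat_lit 3562782224) (nat_lit 20) (nat_lit 4) (nat_lit 21) (nat_lit 5) (nat_lit 21) (nat_lit 4) (nat_lit 476) (nat_lit 373) (nat_lit 351)) (XT.lf (nat_lit 0) (nat_lit 7545101477) (nat_lit 152) (nat_lit 26249970133) (nat_lit 0) (nat_lit 2492838440) (nat_lit 18) (nat_lit 5) (nat_lit 20) (nat_lit 4) (nat_lit 18) (nat_lit 4) (nat_lit 477) (nat_lit 373) (nat_lit 350)))) (XT.nd (nat_lit 156) (nat_lit 152) (nat_lit 0) (XT.nd (nat_lit 78) (nat_lit 76) (nat_lit 0) (XT.lf (nat_lit 0) (nat_lit 19124521128) (nat_lit 152) (nat_lit 4674176684) (nat_lit 0) (nat_lit 13956119449) (nat_lit 18) (nat_lit 5) (nat_lit 20) (nat_lit 4) (nat_lit 18) (nat_lit 4) (nat_lit 478) (nat_lit 373) (nat_lit 349)) (XT.lf (nat_lit 0) (nat_lit 17906259799) (nat_lit 76) (nat_lit 13334543327) (nat_lit 76) (nat_lit 8055533419) (nat_lit 17) (nat_lit 4) (nat_lit 18) (nat_lit 5) (nat_lit 18) (nat_lit 4) (nat_lit 479) (nat_lit 373) (nat_lit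 348))) (XT.nd (nat_lit 78) (nat_lit 0) (nat_lit 0) (XT.lf (nat_lit 0) (nat_lit 361582257) (nat_lit 76) (nat_lit 2468926775) (nat_lit 152) (nat_lit 38088286434) (nat_lit 15) (nat_lit 5) (nat_lit 16) (nat_lit 5) (nat_lit 17) (nat_lit 4) (nat_lit 480) (nat_lit 373) (nat_lit 347)) (XT.lf (nat_lit 0) (nat_lit 14198261434) (nat_lit 152) (nat_lit 19545272673) (nat_lit 0) (nat_lit 8873333275) (nat_lit 15) (nat_lit 5) (nat_lit 17) (nat_lit 4) (nat_lit 15) (nat_lit 4) (nat_lit 481) (nat_lit 373) (nat_lit 346))))))) (XT.nd (nat_lit 1014) (nat_lit 152) (nat_lit 0) (XT.nd (nat_lit 468) (nat_lit 228) (nat_lit 0) (XT.nd (nat_lit 234) (nat_lit 76) (nat_lit 0) (XT.nd (nat_lit 78) (nat_lit 152) (nat_lit 0) (XT.lf (nat_lit 0) (nat_lit 2145748147) (nat_lit 76) (nat_lit 23838152715) (nat_lit 76) (nat_lit 18420459946) (nat_lit 14) (nat_lit 4) (nat_lit 15) (nat_lit 5) (nat_lit 15) (nat_lit 4) (nat_lit 482) (nat_lit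 373) (nat_lit 345)) (XT.nd (nat_lit 78) (nat_lit 152) (nat_lit 0) (XT.lf (nat_lit 0) (nat_lit 24952425556) (nat_lit 76) (nat_lit 13417260111) (nat_lit 76) (nat_lit 7911220095) (nat_lit 14) (nat_lit 4) (nat_lit 15) (nat_lit 5) (nat_lit 15) (nat_lit 4) (nat_lit 483) (nat_lit 373) (nat_lit 344)) (XT.lf (nat_lit 0) (nat_lit 260200547) (nat_lit 76) (nat_lit 2621760436) (nat_lit 152) (nat_lit 45373835896) (nat_lit 12) (nat_lit 5) (nat_lit 13) (nat_lit 5) (nat_lit 14) (nat_lit 4) (nat_lit 484) (nat_lit 373) (nat_lit 343)))) (XT.nd (nat_lit 78) (nat_lit 76) (nat_lit 0) (XT.lf (nat_lit 0) (nat_lit 14178773019) (nat_lit 152) (nat_lit 27470870471) (nat_lit 0) (nat_lit 8673613982) (nat_lit 12) (nat_lit 5) (nat_lit 14) (nat_lit 4) (nat_lit 12) (nat_lit 4) (nat_lit 485) (nat_lit 373) (nat_lit 342)) (XT.nd (nat_lit 78) (nat_lit 76) (nat_lit 0) (XT.lf (nat_lit 0) (nat_lit 25896007497) (nat_lit 152) (nat_lit 6285664826)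 (nat_lit 0) (nat_lit 20316753631) (nat_lit 12) (nat_lit 5) (nat_lit 14) (nat_lit 4) (nat_lit 12) (nat_lit 4) (nat_lit 486) (nat_lit 373) (nat_lit 341)) (XT.lf (nat_lit 0) (nat_lit 15946843895) (nat_lit 76) (nat_lit 22242807552) (nat_lit 76) (nat_lit 16592987182) (nat_lit 11) (nat_lit 4) (nat_lit 12) (nat_lit 5) (nat_lit 12) (nat_lit 4) (nat_lit 487) (nat_lit 373) (nat_lit 340))))) (XT.nd (nat_lit 234) (nat_lit 76) (nat_lit 0) (XT.nd (nat_lit 78) (nat_lit 152) (nat_lit 0) (XT.lf (nat_lit 0) (nat_lit 39108455068) (nat_lit 76) (nat_lit 11896217344) (nat_lit 76) (nat_lit 6179190781) (nat_lit 11) (nat_lit 4) (nat_lit 12) (nat_lit 5) (nat_lit 12) (nat_lit 4) (nat_lit 488) (nat_lit 373) (nat_lit 339)) (XT.nd (nat_lit 78) (nat_lit 0) (nat_lit 0) (XT.lf (nat_lit 0) (nat_lit 3442507655) (nat_lit 76) (nat_lit 1101108165) (nat_lit 152) (nat_lit 55163730379) (nat_lit 9) (nat_lit 5) (nat_lit 10) (nat_lit 5)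 (nat_lit 11) (nat_lit 4) (nat_lit 489) (nat_lit 373) (nat_lit 338)) (XT.lf (nat_lit 0) (nat_lit 15813279938) (nat_lit 152) (nat_lit 36396289953) (nat_lit 0) (nat_lit 10141444539) (nat_lit 9) (nat_lit 5) (nat_lit 11) (nat_lit 4) (nat_lit 9) (nat_lit 4) (nat_lit 490) (nat_lit 373) (nat_lit 337)))) (XT.nd (nat_lit 156) (nat_lit 0) (nat_lit 0) (XT.nd (nat_lit 78) (nat_lit 76) (nat_lit 0) (XT.lf (nat_lit 0) (nat_lit 27515672994) (nat_lit 152) (nat_lit 15827644181) (nat_lit 0) (nat_lit 21787473287) (nat_lit 9) (nat_lit 5) (nat_lit 11) (nat_lit 4) (nat_lit 9) (nat_lit 4) (nat_lit 491) (nat_lit 373) (nat_lit 336)) (XT.lf (nat_lit 0) (nat_lit 5610130110) (nat_lit 76) (nat_lit 34111871196) (nat_lit 76) (nat_lit 28329991196) (nat_lit 8) (nat_lit 4) (nat_lit 9) (nat_lit 5) (nat_lit 9) (nat_lit 4) (nat_lit 492) (nat_lit 373) (nat_lit 335))) (XT.nd (nat_lit 78) (nat_lit 0) (nat_lit 0) (XT.lf (nat_lit 0) (nat_lit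 28189471168) (nat_lit 76) (nat_lit 24380918427) (nat_lit 76) (nat_lit 18547914338) (nat_lit 8) (nat_lit 4) (nat_lit 9) (nat_lit 5) (nat_lit 9) (nat_lit 4) (nat_lit 493) (nat_lit 373) (nat_lit 334)) (XT.lf (nat_lit 0) (nat_lit 51649138175) (nat_lit 76) (nat_lit 14287118104) (nat_lit 76) (nat_lit 8405424407) (nat_lit 8) (nat_lit 4) (nat_lit 9) (nat_lit 5) (nat_lit 9) (nat_lit 4) (nat_lit 494) (nat_lit 373) (nat_lit 333)))))) (XT.nd (nat_lit 59202) (nat_lit 0) (nat_lit 2736) (XT.nd (nat_lit 234) (nat_lit 0) (nat_lit 0) (XT.nd (nat_lit 78) (nat_lit 76) (nat_lit 0) (XT.lf (nat_lit 0) (nat_lit 2080226790) (nat_lit 152) (nat_lit 1705204368) (nat_lit 76) (nat_lit 73943754479) (nat_lit 7) (nat_lit 5) (nat_lit 9) (nat_lit 5) (nat_lit 8) (nat_lit 4) (nat_lit 495) (nat_lit 373) (nat_lit 332)) (XT.nd (nat_lit 78) (nat_lit 0) (nat_lit 0) (XT.lf (nat_lit 0) (nat_lit 13071055919) (nat_lit 152) (nat_lit 60935095986)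 (nat_lit 0) (nat_lit 7272776635) (nat_lit 6) (nat_lit 5) (nat_lit 8) (nat_lit 4) (nat_lit 6) (nat_lit 4) (nat_lit 496) (nat_lit 373) (nat_lit 331)) (XT.lf (nat_lit 0) (nat_lit 24555176679) (nat_lit 152) (nat_lit 41736608151) (nat_lit 0) (nat_lit 18716062527) (nat_lit 6) (nat_lit 5) (nat_lit 8) (nat_lit 4) (nat_lit 6) (nat_lit 4) (nat_lit 497) (nat_lit 373) (nat_lit 330)))) (XT.nd (nat_lit 78) (nat_lit 0) (nat_lit 0) (XT.lf (nat_lit 0) (nat_lit 36506661123) (nat_lit 152) (nat_lit 21791100857) (nat_lit 0) (nat_lit 30628656620) (nat_lit 6) (nat_lit 5) (nat_lit 8) (nat_lit 4) (nat_lit 6) (nat_lit 4) (nat_lit 498) (nat_lit 373) (nat_lit 329)) (XT.nd (nat_lit 58812) (nat_lit 0) (nat_lit 3876) (XT.lf (nat_lit 0) (nat_lit 48953965166) (nat_lit 152) (nat_lit 1051084801) (nat_lit 0) (nat_lit 43038922233) (nat_lit 6) (nat_lit 5) (nat_lit 8) (nat_lit 4) (nat_lit 6) (nat_lit 4) (nat_lit 499) (nat_lit 373)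 (nat_lit 328)) (XT.lf (nat_lit 0) (nat_lit 415917281) (nat_lit 152) (nat_lit 6966197361) (nat_lit 0) (nat_lit 415917281) (nat_lit 57) (nat_lit 5) (nat_lit 59) (nat_lit 4) (nat_lit 57) (nat_lit 4) (nat_lit 452) (nat_lit 374) (nat_lit 374))))) (XT.nd (nat_lit 234) (nat_lit 608) (nat_lit 0) (XT.nd (nat_lit 78) (nat_lit 380) (nat_lit 0) (XT.lf (nat_lit 0) (nat_lit 6472148733) (nat_lit 152) (nat_lit 5050473705) (nat_lit 152) (nat_lit 4516442525) (nat_lit 55) (nat_lit 4) (nat_lit 57) (nat_lit 5) (nat_lit 57) (nat_lit 4) (nat_lit 453) (nat_lit 374) (nat_lit 373)) (XT.nd (nat_lit 78) (nat_lit 228) (nat_lit 0) (XT.lf (nat_lit 0) (nat_lit 6062489482) (nat_lit 152) (nat_lit 5391498589) (nat_lit 0) (nat_lit 5050225110) (nat_lit 53) (nat_lit 5) (nat_lit 55) (nat_lit 4) (nat_lit 53) (nat_lit 4) (nat_lit 454) (nat_lit 374) (nat_lit 372)) (XT.lf (nat_lit 0) (nat_lit 31264026) (nat_lit 228) (nat_lit 1419072207)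 (nat_lit 76) (nat_lit 15542513037) (nat_lit 50) (nat_lit 5) (nat_lit 53) (nat_lit 5) (nat_lit 51) (nat_lit 4) (nat_lit 455) (nat_lit 374) (nat_lit 371)))) (XT.nd (nat_lit 156) (nat_lit 228) (nat_lit 0) (XT.nd (nat_lit 78) (nat_lit 152) (nat_lit 0) (XT.lf (nat_lit 0) (nat_lit 2270994782) (nat_lit 152) (nat_lit 8552835149) (nat_lit 152) (nat_lit 6678642917) (nat_lit 47) (nat_lit 4) (nat_lit 49) (nat_lit 5) (nat_lit 49) (nat_lit 4) (nat_lit 456) (nat_lit 374) (nat_lit 370)) (XT.lf (nat_lit 0) (nat_lit 3983637777) (nat_lit 152) (nat_lit 12292430697) (nat_lit 0) (nat_lit 1761967302) (nat_lit 45) (nat_lit 5) (nat_lit 47) (nat_lit 4) (nat_lit 45) (nat_lit 4) (nat_lit 457) (nat_lit 374) (nat_lit 369))) (XT.nd (nat_lit 78) (nat_lit 152) (nat_lit 0) (XT.lf (nat_lit 0) (nat_lit 8858874559) (nat_lit 76) (nat_lit 6172208036) (nat_lit 76) (nat_lit 3567617214) (nat_lit 44) (nat_lit 4) (nat_lit 45) (nat_lit 5)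 (nat_lit 45) (nat_lit 4) (nat_lit 458) (nat_lit 374) (nat_lit 368)) (XT.lf (nat_lit 0) (nat_lit 7246776941) (nat_lit 152) (nat_lit 7576045028) (nat_lit 0) (nat_lit 4363983865) (nat_lit 42) (nat_lit 5) (nat_lit 44) (nat_lit 4) (nat_lit 42) (nat_lit 4) (nat_lit 459) (nat_lit 374) (nat_lit 367))))))))
noncomputable def xc11 : XT := (XT.nd (nat_lit 1950) (nat_lit 608) (nat_lit 0) (XT.nd (nat_lit 936) (nat_lit 836) (nat_lit 0) (XT.nd (nat_lit 468) (nat_lit 608) (nat_lit 0) (XT.nd (nat_lit 234) (nat_lit 380) (nat_lit 0) (XT.nd (nat_lit 78) (nat_lit 228) (nat_lit 0) (XT.lf (nat_lit 0) (nat_lit 13975193922) (nat_lit 76) (nat_lit 4524462302) (nat_lit 76) (nat_lit 1304465300) (nat_lit 41) (nat_lit 4) (nat_lit 42) (nat_lit 5) (nat_lit 42) (nat_lit 4) (nat_lit 460) (nat_lit 374) (nat_lit 366)) (XT.nd (nat_lit 78) (nat_lit 76) (nat_lit 0) (XT.lf (nat_lit 0) (nat_lit 9642454563) (nat_lit 152) (nat_lit 4603401708)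 (nat_lit 0) (nat_lit 6204451070) (nat_lit 39) (nat_lit 5) (nat_lit 41) (nat_lit 4) (nat_lit 39) (nat_lit 4) (nat_lit 461) (nat_lit 374) (nat_lit 365)) (XT.lf (nat_lit 0) (nat_lit 17272437474) (nat_lit 76) (nat_lit 3796086181) (nat_lit 76) (nat_lit 61137153) (nat_lit 38) (nat_lit 4) (nat_lit 39) (nat_lit 5) (nat_lit 39) (nat_lit 4) (nat_lit 462) (nat_lit 374) (nat_lit 364)))) (XT.nd (nat_lit 78) (nat_lit 228) (nat_lit 0) (XT.lf (nat_lit 0) (nat_lit 10988186932) (nat_lit 152) (nat_lit 3764584375) (nat_lit 0) (nat_lit 7087454602) (nat_lit 36) (nat_lit 5) (nat_lit 38) (nat_lit 4) (nat_lit 36) (nat_lit 4) (nat_lit 463) (nat_lit 374) (nat_lit 363)) (XT.nd (nat_lit 78) (nat_lit 152) (nat_lit 0) (XT.lf (nat_lit 0) (nat_lit 18334605125) (nat_lit 76) (nat_lit 4207661700) (nat_lit 76) (nat_lit 45435823) (nat_lit 35) (nat_lit 4) (nat_lit 36) (nat_lit 5) (nat_lit 36) (nat_lit 4) (nat_lit 464) (nat_lit 374)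 (nat_lit 362)) (XT.lf (nat_lit 0) (nat_lit 11063635337) (nat_lit 152) (nat_lit 5525334704) (nat_lit 0) (nat_lit 6780851502) (nat_lit 33) (nat_lit 5) (nat_lit 35) (nat_lit 4) (nat_lit 33) (nat_lit 4) (nat_lit 465) (nat_lit 374) (nat_lit 361))))) (XT.nd (nat_lit 234) (nat_lit 304) (nat_lit 0) (XT.nd (nat_lit 78) (nat_lit 228) (nat_lit 0) (XT.lf (nat_lit 0) (nat_lit 16664769626) (nat_lit 76) (nat_lit 6020296522) (nat_lit 76) (nat_lit 1507238554) (nat_lit 32) (nat_lit 4) (nat_lit 33) (nat_lit 5) (nat_lit 33) (nat_lit 4) (nat_lit 466) (nat_lit 374) (nat_lit 360)) (XT.nd (nat_lit 78) (nat_lit 76) (nat_lit 0) (XT.lf (nat_lit 0) (nat_lit 9604001455) (nat_lit 152) (nat_lit 10440685380) (nat_lit 0) (nat_lit 5009470713) (nat_lit 30) (nat_lit 5) (nat_lit 32) (nat_lit 4) (nat_lit 30) (nat_lit 4) (nat_lit 467) (nat_lit 374) (nat_lit 359)) (XT.lf (nat_lit 0) (nat_lit 11670490005) (nat_lit 76) (nat_lit 9543132326)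 (nat_lit 76) (nat_lit 4745819616) (nat_lit 29) (nat_lit 4) (nat_lit 30) (nat_lit 5) (nat_lit 30) (nat_lit 4) (nat_lit 468) (nat_lit 374) (nat_lit 358)))) (XT.nd (nat_lit 78) (nat_lit 152) (nat_lit 0) (XT.lf (nat_lit 0) (nat_lit 6292255998) (nat_lit 152) (nat_lit 19170940434) (nat_lit 0) (nat_lit 1447170181) (nat_lit 27) (nat_lit 5) (nat_lit 29) (nat_lit 4) (nat_lit 27) (nat_lit 4) (nat_lit 469) (nat_lit 374) (nat_lit 357)) (XT.nd (nat_lit 78) (nat_lit 76) (nat_lit 0) (XT.lf (nat_lit 0) (nat_lit 2646710928) (nat_lit 76) (nat_lit 15142119013) (nat_lit 76) (nat_lit 10118461136) (nat_lit 26) (nat_lit 4) (nat_lit 27) (nat_lit 5) (nat_lit 27) (nat_lit 4) (nat_lit 470) (nat_lit 374) (nat_lit 356)) (XT.lf (nat_lit 0) (nat_lit 826554654) (nat_lit 152) (nat_lit 3515820557) (nat_lit 76) (nat_lit 24613288394) (nat_lit 25) (nat_lit 5) (nat_lit 27) (nat_lit 5) (nat_lit 26) (nat_lit 4) (nat_lit 471) (nat_lit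 374) (nat_lit 355)))))) (XT.nd (nat_lit 468) (nat_lit 304) (nat_lit 0) (XT.nd (nat_lit 234) (nat_lit 228) (nat_lit 0) (XT.nd (nat_lit 78) (nat_lit 228) (nat_lit 0) (XT.lf (nat_lit 0) (nat_lit 12114077886) (nat_lit 152) (nat_lit 11024868216) (nat_lit 0) (nat_lit 6914372422) (nat_lit 24) (nat_lit 5) (nat_lit 26) (nat_lit 4) (nat_lit 24) (nat_lit 4) (nat_lit 472) (nat_lit 374) (nat_lit 354)) (XT.nd (nat_lit 78) (nat_lit 152) (nat_lit 0) (XT.lf (nat_lit 0) (nat_lit 11264802041) (nat_lit 76) (nat_lit 12646090579) (nat_lit 76) (nat_lit 7296620786) (nat_lit 23) (nat_lit 4) (nat_lit 24) (nat_lit 5) (nat_lit 24) (nat_lit 4) (nat_lit 473) (nat_lit 374) (nat_lit 353)) (XT.lf (nat_lit 0) (nat_lit 2013743656) (nat_lit 76) (nat_lit 1683717498) (nat_lit 152) (nat_lit 28723992610) (nat_lit 21) (nat_lit 5) (nat_lit 22) (nat_lit 5) (nat_lit 23) (nat_lit 4) (nat_lit 474) (nat_lit 374) (nat_lit 352)))) (XT.nd (nat_lit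 78) (nat_lit 228) (nat_lit 0) (XT.lf (nat_lit 0) (nat_lit 15159389347) (nat_lit 152) (nat_lit 8837100301) (nat_lit 0) (nat_lit 9695366872) (nat_lit 21) (nat_lit 5) (nat_lit 23) (nat_lit 4) (nat_lit 21) (nat_lit 4) (nat_lit 475) (nat_lit 374) (nat_lit 351)) (XT.nd (nat_lit 78) (nat_lit 152) (nat_lit 0) (XT.lf (nat_lit 0) (nat_lit 13621038245) (nat_lit 76) (nat_lit 13498311713) (nat_lit 76) (nat_lit 7908685297) (nat_lit 20) (nat_lit 4) (nat_lit 21) (nat_lit 5) (nat_lit 21) (nat_lit 4) (nat_lit 476) (nat_lit 374) (nat_lit 350)) (XT.lf (nat_lit 0) (nat_lit 504649903) (nat_lit 76) (nat_lit 2556384145) (nat_lit 152) (nat_lit 33372713493) (nat_lit 18) (nat_lit 5) (nat_lit 19) (nat_lit 5) (nat_lit 20) (nat_lit 4) (nat_lit 477) (nat_lit 374) (nat_lit 349))))) (XT.nd (nat_lit 234) (nat_lit 228) (nat_lit 0) (XT.nd (nat_lit 78) (nat_lit 76) (nat_lit 0) (XT.lf (nat_lit 0) (nat_lit 14511375509) (nat_lit 152)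 (nat_lit 14535346398) (nat_lit 0) (nat_lit 8857806875) (nat_lit 18) (nat_lit 5) (nat_lit 20) (nat_lit 4) (nat_lit 18) (nat_lit 4) (nat_lit 478) (nat_lit 374) (nat_lit 348)) (XT.nd (nat_lit 78) (nat_lit 0) (nat_lit 0) (XT.lf (nat_lit 0) (nat_lit 7648140333) (nat_lit 76) (nat_lit 18781381605) (nat_lit 76) (nat_lit 13022471800) (nat_lit 17) (nat_lit 4) (nat_lit 18) (nat_lit 5) (nat_lit 18) (nat_lit 4) (nat_lit 479) (nat_lit 374) (nat_lit 347)) (XT.lf (nat_lit 0) (nat_lit 30852717929) (nat_lit 76) (nat_lit 8042402762) (nat_lit 76) (nat_lit 2183168032) (nat_lit 17) (nat_lit 4) (nat_lit 18) (nat_lit 5) (nat_lit 18) (nat_lit 4) (nat_lit 480) (nat_lit 374) (nat_lit 346)))) (XT.nd (nat_lit 156) (nat_lit 76) (nat_lit 0) (XT.nd (nat_lit 78) (nat_lit 0) (nat_lit 0) (XT.lf (nat_lit 0) (nat_lit 8976734556) (nat_lit 152) (nat_lit 30612378073) (nat_lit 0) (nat_lit 3195392540) (nat_lit 15) (nat_lit 5) (nat_lit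 17) (nat_lit 4) (nat_lit 15) (nat_lit 4) (nat_lit 481) (nat_lit 374) (nat_lit 345)) (XT.lf (nat_lit 0) (nat_lit 20650669314) (nat_lit 152) (nat_lit 9143701716) (nat_lit 0) (nat_lit 14780980051) (nat_lit 15) (nat_lit 5) (nat_lit 17) (nat_lit 4) (nat_lit 15) (nat_lit 4) (nat_lit 482) (nat_lit 374) (nat_lit 344))) (XT.nd (nat_lit 78) (nat_lit 0) (nat_lit 0) (XT.lf (nat_lit 0) (nat_lit 13305698137) (nat_lit 76) (nat_lit 19552685397) (nat_lit 76) (nat_lit 13598855899) (nat_lit 14) (nat_lit 4) (nat_lit 15) (nat_lit 5) (nat_lit 15) (nat_lit 4) (nat_lit 483) (nat_lit 374) (nat_lit 343)) (XT.lf (nat_lit 0) (nat_lit 36726392149) (nat_lit 76) (nat_lit 8871575542) (nat_lit 76) (nat_lit 2837612486) (nat_lit 14) (nat_lit 4) (nat_lit 15) (nat_lit 5) (nat_lit 15) (nat_lit 4) (nat_lit 484) (nat_lit 374) (nat_lit 342))))))) (XT.nd (nat_lit 1014) (nat_lit 0) (nat_lit 0) (XT.nd (nat_lit 468) (nat_lit 228) (nat_lit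 0) (XT.nd (nat_lit 234) (nat_lit 152) (nat_lit 0) (XT.nd (nat_lit 78) (nat_lit 76) (nat_lit 0) (XT.lf (nat_lit 0) (nat_lit 8255205781) (nat_lit 152) (nat_lit 39933541005) (nat_lit 0) (nat_lit 2322894394) (nat_lit 12) (nat_lit 5) (nat_lit 14) (nat_lit 4) (nat_lit 12) (nat_lit 4) (nat_lit 485) (nat_lit 374) (nat_lit 341)) (XT.nd (nat_lit 78) (nat_lit 76) (nat_lit 0) (XT.lf (nat_lit 0) (nat_lit 19893053395) (nat_lit 152) (nat_lit 18905963441) (nat_lit 0) (nat_lit 13890175504) (nat_lit 12) (nat_lit 5) (nat_lit 14) (nat_lit 4) (nat_lit 12) (nat_lit 4) (nat_lit 486) (nat_lit 374) (nat_lit 340)) (XT.lf (nat_lit 0) (nat_lit 2922266888) (nat_lit 76) (nat_lit 29063623719) (nat_lit 76) (nat_lit 22993539634) (nat_lit 11) (nat_lit 4) (nat_lit 12) (nat_lit 5) (nat_lit 12) (nat_lit 4) (nat_lit 487) (nat_lit 374) (nat_lit 339)))) (XT.nd (nat_lit 78) (nat_lit 152) (nat_lit 0) (XT.lf (nat_lit 0) (nat_lit 25938059294)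 (nat_lit 76) (nat_lit 18789444353) (nat_lit 76) (nat_lit 12655354369) (nat_lit 11) (nat_lit 4) (nat_lit 12) (nat_lit 5) (nat_lit 12) (nat_lit 4) (nat_lit 488) (nat_lit 374) (nat_lit 338)) (XT.nd (nat_lit 78) (nat_lit 152) (nat_lit 0) (XT.lf (nat_lit 0) (nat_lit 49819947539) (nat_lit 76) (nat_lit 8142929567) (nat_lit 76) (nat_lit 1947881584) (nat_lit 11) (nat_lit 4) (nat_lit 12) (nat_lit 5) (nat_lit 12) (nat_lit 4) (nat_lit 489) (nat_lit 374) (nat_lit 337)) (XT.lf (nat_lit 0) (nat_lit 9122989489) (nat_lit 152) (nat_lit 50387088625) (nat_lit 0) (nat_lit 3052015489) (nat_lit 9) (nat_lit 5) (nat_lit 11) (nat_lit 4) (nat_lit 9) (nat_lit 4) (nat_lit 490) (nat_lit 374) (nat_lit 336))))) (XT.nd (nat_lit 234) (nat_lit 152) (nat_lit 0) (XT.nd (nat_lit 78) (nat_lit 76) (nat_lit 0) (XT.lf (nat_lit 0) (nat_lit 20759474058) (nat_lit 152) (nat_lit 29949553885) (nat_lit 0) (nat_lit 14634819765) (nat_lit 9) (nat_lit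 5) (nat_lit 11) (nat_lit 4) (nat_lit 9) (nat_lit 4) (nat_lit 491) (nat_lit 374) (nat_lit 335)) (XT.nd (nat_lit 78) (nat_lit 76) (nat_lit 0) (XT.lf (nat_lit 0) (nat_lit 32849104380) (nat_lit 152) (nat_lit 8746121088) (nat_lit 0) (nat_lit 26673325998) (nat_lit 9) (nat_lit 5) (nat_lit 11) (nat_lit 4) (nat_lit 9) (nat_lit 4) (nat_lit 492) (nat_lit 374) (nat_lit 334)) (XT.lf (nat_lit 0) (nat_lit 13537866667) (nat_lit 76) (nat_lit 32012932878) (nat_lit 76) (nat_lit 25788464888) (nat_lit 8) (nat_lit 4) (nat_lit 9) (nat_lit 5) (nat_lit 9) (nat_lit 4) (nat_lit 493) (nat_lit 374) (nat_lit 333)))) (XT.nd (nat_lit 156) (nat_lit 152) (nat_lit 0) (XT.nd (nat_lit 78) (nat_lit 0) (nat_lit 0) (XT.lf (nat_lit 0) (nat_lit 36882020966) (nat_lit 76) (nat_lit 21976600655) (nat_lit 76) (nat_lit 15705761609) (nat_lit 8) (nat_lit 4) (nat_lit 9) (nat_lit 5) (nat_lit 9) (nat_lit 4) (nat_lit 494) (nat_lit 374) (nat_lit 332))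 (XT.lf (nat_lit 0) (nat_lit 61167858169) (nat_lit 76) (nat_lit 11550651445) (nat_lit 76) (nat_lit 5235649489) (nat_lit 8) (nat_lit 4) (nat_lit 9) (nat_lit 5) (nat_lit 9) (nat_lit 4) (nat_lit 495) (nat_lit 374) (nat_lit 331))) (XT.nd (nat_lit 78) (nat_lit 0) (nat_lit 0) (XT.lf (nat_lit 0) (nat_lit 4979424767) (nat_lit 76) (nat_lit 605051409) (nat_lit 152) (nat_lit 75929122395) (nat_lit 6) (nat_lit 5) (nat_lit 7) (nat_lit 5) (nat_lit 8) (nat_lit 4) (nat_lit 496) (nat_lit 374) (nat_lit 330)) (XT.lf (nat_lit 0) (nat_lit 17010662590) (nat_lit 152) (nat_lit 57433725909) (nat_lit 0) (nat_lit 10799867510) (nat_lit 6) (nat_lit 5) (nat_lit 8) (nat_lit 4) (nat_lit 6) (nat_lit 4) (nat_lit 497) (nat_lit 374) (nat_lit 329)))))) (XT.nd (nat_lit 59046) (nat_lit 0) (nat_lit 2660) (XT.nd (nat_lit 58812) (nat_lit 0) (nat_lit 3724) (XT.nd (nat_lit 78) (nat_lit 0) (nat_lit 0) (XT.lf (nat_lit 0) (nat_lit 28912510632)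 (nat_lit 152) (nat_lit 37587129153) (nat_lit 0) (nat_lit 22664677123) (nat_lit 6) (nat_lit 5) (nat_lit 8) (nat_lit 4) (nat_lit 6) (nat_lit 4) (nat_lit 498) (nat_lit 374) (nat_lit 328)) (XT.nd (nat_lit 58656) (nat_lit 0) (nat_lit 4332) (XT.lf (nat_lit 0) (nat_lit 41312541911) (nat_lit 152) (nat_lit 16941313610) (nat_lit 0) (nat_lit 35029433708) (nat_lit 6) (nat_lit 5) (nat_lit 8) (nat_lit 4) (nat_lit 6) (nat_lit 4) (nat_lit 499) (nat_lit 374) (nat_lit 327)) (XT.lf (nat_lit 0) (nat_lit 3370125184) (nat_lit 152) (nat_lit 2005223771) (nat_lit 152) (nat_lit 2005223771) (nat_lit 63) (nat_lit 4) (nat_lit 65) (nat_lit 5) (nat_lit 65) (nat_lit 4) (nat_lit 450) (nat_lit 375) (nat_lit 375)))) (XT.nd (nat_lit 78) (nat_lit 456) (nat_lit 0) (XT.lf (nat_lit 0) (nat_lit 6223702825) (nat_lit 152) (nat_lit 3301252824) (nat_lit 0) (nat_lit 5646148103) (nat_lit 61) (nat_lit 5) (nat_lit 63) (nat_lit 4) (nat_lit 61)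 (nat_lit 4) (nat_lit 451) (nat_lit 375) (nat_lit 374)) (XT.nd (nat_lit 78) (nat_lit 152) (nat_lit 0) (XT.lf (nat_lit 0) (nat_lit 1212765454) (nat_lit 152) (nat_lit 14270699049) (nat_lit 0) (nat_lit 118001534) (nat_lit 57) (nat_lit 5) (nat_lit 59) (nat_lit 4) (nat_lit 57) (nat_lit 4) (nat_lit 452) (nat_lit 375) (nat_lit 373)) (XT.lf (nat_lit 0) (nat_lit 5798504585) (nat_lit 152) (nat_lit 5927333407) (nat_lit 152) (nat_lit 4323968364) (nat_lit 55) (nat_lit 4) (nat_lit 57) (nat_lit 5) (nat_lit 57) (nat_lit 4) (nat_lit 453) (nat_lit 375) (nat_lit 372))))) (XT.nd (nat_lit 234) (nat_lit 456) (nat_lit 0) (XT.nd (nat_lit 78) (nat_lit 456) (nat_lit 0) (XT.lf (nat_lit 0) (nat_lit 6063697348) (nat_lit 152) (nat_lit 6420075745) (nat_lit 0) (nat_lit 4036758450) (nat_lit 53) (nat_lit 5) (nat_lit 55) (nat_lit 4) (nat_lit 53) (nat_lit 4) (nat_lit 454) (nat_lit 375) (nat_lit 371)) (XT.nd (nat_lit 78) (nat_lit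 304) (nat_lit 0) (XT.lf (nat_lit 0) (nat_lit 14208123991) (nat_lit 152) (nat_lit 2640597651) (nat_lit 152) (nat_lit 165778935) (nat_lit 51) (nat_lit 4) (nat_lit 53) (nat_lit 5) (nat_lit 53) (nat_lit 4) (nat_lit 455) (nat_lit 375) (nat_lit 370)) (XT.lf (nat_lit 0) (nat_lit 497983978) (nat_lit 152) (nat_lit 9924640592) (nat_lit 152) (nat_lit 7107775618) (nat_lit 47) (nat_lit 4) (nat_lit 49) (nat_lit 5) (nat_lit 49) (nat_lit 4) (nat_lit 456) (nat_lit 375) (nat_lit 369)))) (XT.nd (nat_lit 156) (nat_lit 228) (nat_lit 0) (XT.nd (nat_lit 78) (nat_lit 76) (nat_lit 0) (XT.lf (nat_lit 0) (nat_lit 3365549530) (nat_lit 152) (nat_lit 14458654235) (nat_lit 0) (nat_lit 247808818) (nat_lit 45) (nat_lit 5) (nat_lit 47) (nat_lit 4) (nat_lit 45) (nat_lit 4) (nat_lit 457) (nat_lit 375) (nat_lit 368)) (XT.lf (nat_lit 0) (nat_lit 6340195180) (nat_lit 76) (nat_lit 7890195922) (nat_lit 76) (nat_lit 4407769165) (nat_lit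 44) (nat_lit 4) (nat_lit 45) (nat_lit 5) (nat_lit 45) (nat_lit 4) (nat_lit 458) (nat_lit 375) (nat_lit 367))) (XT.nd (nat_lit 78) (nat_lit 76) (nat_lit 0) (XT.lf (nat_lit 0) (nat_lit 6221651069) (nat_lit 152) (nat_lit 10507453398) (nat_lit 0) (nat_lit 2503450292) (nat_lit 42) (nat_lit 5) (nat_lit 44) (nat_lit 4) (nat_lit 42) (nat_lit 4) (nat_lit 459) (nat_lit 375) (nat_lit 366)) (XT.lf (nat_lit 0) (nat_lit 10687261965) (nat_lit 76) (nat_lit 6603733399) (nat_lit 76) (nat_lit 2564386025) (nat_lit 41) (nat_lit 4) (nat_lit 42) (nat_lit 5) (nat_lit 42) (nat_lit 4) (nat_lit 460) (nat_lit 375) (nat_lit 365))))))))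
noncomputable def xc12 : XT := (XT.nd (nat_lit 1950) (nat_lit 532) (nat_lit 0) (XT.nd (nat_lit 936) (nat_lit 836) (nat_lit 0) (XT.nd (nat_lit 468) (nat_lit 608) (nat_lit 0) (XT.nd (nat_lit 234) (nat_lit 304) (nat_lit 0) (XT.nd (nat_lit 78) (nat_lit 228) (nat_lit 0) (XT.lf (nat_lit 0) (nat_lit 8201013972) (nat_lit 152) (nat_lit 8324732297) (nat_lit 0) (nat_lit 3982371957) (nat_lit 39) (nat_lit 5) (nat_lit 41) (nat_lit 4) (nat_lit 39) (nat_lit 4) (nat_lit 461) (nat_lit 375) (nat_lit 364)) (XT.nd (nat_lit 78) (nat_lit 152) (nat_lit 0) (XT.lf (nat_lit 0) (nat_lit 13189663151) (nat_lit 76) (nat_lit 6252405287) (nat_lit 76) (nat_lit 1750958000) (nat_lit 38) (nat_lit 4) (nat_lit 39) (nat_lit 5) (nat_lit 39) (nat_lit 4) (nat_lit 462) (nat_lit 375) (nat_lit 363)) (XT.lf (nat_lit 0) (nat_lit 9119792265) (nat_lit 152) (nat_lit 8302675467) (nat_lit 0) (nat_lit 4487961547) (nat_lit 36) (nat_lit 5) (nat_lit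 38) (nat_lit 4) (nat_lit 36) (nat_lit 4) (nat_lit 463) (nat_lit 375) (nat_lit 362)))) (XT.nd (nat_lit 78) (nat_lit 228) (nat_lit 0) (XT.lf (nat_lit 0) (nat_lit 13429262237) (nat_lit 76) (nat_lit 7057565548) (nat_lit 76) (nat_lit 2176693357) (nat_lit 35) (nat_lit 4) (nat_lit 36) (nat_lit 5) (nat_lit 36) (nat_lit 4) (nat_lit 464) (nat_lit 375) (nat_lit 361)) (XT.nd (nat_lit 78) (nat_lit 76) (nat_lit 0) (XT.lf (nat_lit 0) (nat_lit 8756258114) (nat_lit 152) (nat_lit 10909258166) (nat_lit 0) (nat_lit 3787273117) (nat_lit 33) (nat_lit 5) (nat_lit 35) (nat_lit 4) (nat_lit 33) (nat_lit 4) (nat_lit 465) (nat_lit 375) (nat_lit 360)) (XT.lf (nat_lit 0) (nat_lit 10906860866) (nat_lit 76) (nat_lit 9281198801) (nat_lit 76) (nat_lit 4092905106) (nat_lit 32) (nat_lit 4) (nat_lit 33) (nat_lit 5) (nat_lit 33) (nat_lit 4) (nat_lit 466) (nat_lit 375) (nat_lit 359))))) (XT.nd (nat_lit 234) (nat_lit 228) (nat_lit 0)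 (XT.nd (nat_lit 78) (nat_lit 228) (nat_lit 0) (XT.lf (nat_lit 0) (nat_lit 6844190327) (nat_lit 152) (nat_lit 16701884022) (nat_lit 0) (nat_lit 1604230016) (nat_lit 30) (nat_lit 5) (nat_lit 32) (nat_lit 4) (nat_lit 30) (nat_lit 4) (nat_lit 467) (nat_lit 375) (nat_lit 358)) (XT.nd (nat_lit 78) (nat_lit 152) (nat_lit 0) (XT.lf (nat_lit 0) (nat_lit 5027607377) (nat_lit 76) (nat_lit 13233426817) (nat_lit 76) (nat_lit 7800340823) (nat_lit 29) (nat_lit 4) (nat_lit 30) (nat_lit 5) (nat_lit 30) (nat_lit 4) (nat_lit 468) (nat_lit 375) (nat_lit 357)) (XT.lf (nat_lit 0) (nat_lit 652662414) (nat_lit 76) (nat_lit 2435848733) (nat_lit 152) (nat_lit 23930936963) (nat_lit 27) (nat_lit 5) (nat_lit 28) (nat_lit 5) (nat_lit 29) (nat_lit 4) (nat_lit 469) (nat_lit 375) (nat_lit 356)))) (XT.nd (nat_lit 78) (nat_lit 228) (nat_lit 0) (XT.lf (nat_lit 0) (nat_lit 14412428892) (nat_lit 152) (nat_lit 4820178524) (nat_lit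 0) (nat_lit 8788947433) (nat_lit 27) (nat_lit 5) (nat_lit 29) (nat_lit 4) (nat_lit 27) (nat_lit 4) (nat_lit 470) (nat_lit 375) (nat_lit 355)) (XT.nd (nat_lit 78) (nat_lit 152) (nat_lit 0) (XT.lf (nat_lit 0) (nat_lit 17649517139) (nat_lit 76) (nat_lit 8605565116) (nat_lit 76) (nat_lit 2820113535) (nat_lit 26) (nat_lit 4) (nat_lit 27) (nat_lit 5) (nat_lit 27) (nat_lit 4) (nat_lit 471) (nat_lit 375) (nat_lit 354)) (XT.lf (nat_lit 0) (nat_lit 8284242949) (nat_lit 152) (nat_lit 19379033886) (nat_lit 0) (nat_lit 2517535337) (nat_lit 24) (nat_lit 5) (nat_lit 26) (nat_lit 4) (nat_lit 24) (nat_lit 4) (nat_lit 472) (nat_lit 375) (nat_lit 353)))))) (XT.nd (nat_lit 468) (nat_lit 380) (nat_lit 0) (XT.nd (nat_lit 234) (nat_lit 228) (nat_lit 0) (XT.nd (nat_lit 78) (nat_lit 152) (nat_lit 0) (XT.lf (nat_lit 0) (nat_lit 2517192218) (nat_lit 76) (nat_lit 17366538560) (nat_lit 76) (nat_lit 11457198253) (nat_lit 23)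 (nat_lit 4) (nat_lit 24) (nat_lit 5) (nat_lit 24) (nat_lit 4) (nat_lit 473) (nat_lit 375) (nat_lit 352)) (XT.nd (nat_lit 78) (nat_lit 152) (nat_lit 0) (XT.lf (nat_lit 0) (nat_lit 25469652777) (nat_lit 76) (nat_lit 6567679987) (nat_lit 76) (nat_lit 522499019) (nat_lit 23) (nat_lit 4) (nat_lit 24) (nat_lit 5) (nat_lit 24) (nat_lit 4) (nat_lit 474) (nat_lit 375) (nat_lit 351)) (XT.lf (nat_lit 0) (nat_lit 10723701041) (nat_lit 152) (nat_lit 18384474443) (nat_lit 0) (nat_lit 4728989364) (nat_lit 21) (nat_lit 5) (nat_lit 23) (nat_lit 4) (nat_lit 21) (nat_lit 4) (nat_lit 475) (nat_lit 375) (nat_lit 350)))) (XT.nd (nat_lit 78) (nat_lit 152) (nat_lit 0) (XT.lf (nat_lit 0) (nat_lit 3675264233) (nat_lit 76) (nat_lit 18809195848) (nat_lit 76) (nat_lit 12694861371) (nat_lit 20) (nat_lit 4) (nat_lit 21) (nat_lit 5) (nat_lit 21) (nat_lit 4) (nat_lit 476) (nat_lit 375) (nat_lit 349)) (XT.nd (nat_lit 78) (nat_lit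 152) (nat_lit 0) (XT.lf (nat_lit 0) (nat_lit 26815317734) (nat_lit 76) (nat_lit 8001020120) (nat_lit 76) (nat_lit 1772759166) (nat_lit 20) (nat_lit 4) (nat_lit 21) (nat_lit 5) (nat_lit 21) (nat_lit 4) (nat_lit 477) (nat_lit 375) (nat_lit 348)) (XT.lf (nat_lit 0) (nat_lit 9463539696) (nat_lit 152) (nat_lit 25292967229) (nat_lit 0) (nat_lit 3311343231) (nat_lit 18) (nat_lit 5) (nat_lit 20) (nat_lit 4) (nat_lit 18) (nat_lit 4) (nat_lit 478) (nat_lit 375) (nat_lit 347))))) (XT.nd (nat_lit 234) (nat_lit 152) (nat_lit 0) (XT.nd (nat_lit 78) (nat_lit 228) (nat_lit 0) (XT.lf (nat_lit 0) (nat_lit 21213378713) (nat_lit 152) (nat_lit 3446129826) (nat_lit 0) (nat_lit 14960857322) (nat_lit 18) (nat_lit 5) (nat_lit 20) (nat_lit 4) (nat_lit 18) (nat_lit 4) (nat_lit 479) (nat_lit 375) (nat_lit 346)) (XT.nd (nat_lit 78) (nat_lit 152) (nat_lit 0) (XT.lf (nat_lit 0) (nat_lit 19507828435) (nat_lit 76) (nat_lit 14045338560)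 (nat_lit 76) (nat_lit 7697269621) (nat_lit 17) (nat_lit 4) (nat_lit 18) (nat_lit 5) (nat_lit 18) (nat_lit 4) (nat_lit 480) (nat_lit 375) (nat_lit 345)) (XT.lf (nat_lit 0) (nat_lit 333590504) (nat_lit 76) (nat_lit 3002693784) (nat_lit 152) (nat_lit 39628978727) (nat_lit 15) (nat_lit 5) (nat_lit 16) (nat_lit 5) (nat_lit 17) (nat_lit 4) (nat_lit 481) (nat_lit 375) (nat_lit 344)))) (XT.nd (nat_lit 156) (nat_lit 76) (nat_lit 0) (XT.nd (nat_lit 78) (nat_lit 76) (nat_lit 0) (XT.lf (nat_lit 0) (nat_lit 14894613958) (nat_lit 152) (nat_lit 21306011652) (nat_lit 0) (nat_lit 8558952750) (nat_lit 15) (nat_lit 5) (nat_lit 17) (nat_lit 4) (nat_lit 15) (nat_lit 4) (nat_lit 482) (nat_lit 375) (nat_lit 343)) (XT.lf (nat_lit 0) (nat_lit 734382040) (nat_lit 76) (nat_lit 26164492139) (nat_lit 76) (nat_lit 19748697373) (nat_lit 14) (nat_lit 4) (nat_lit 15) (nat_lit 5) (nat_lit 15) (nat_lit 4) (nat_lit 483) (nat_lit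 375) (nat_lit 342))) (XT.nd (nat_lit 78) (nat_lit 76) (nat_lit 0) (XT.lf (nat_lit 0) (nat_lit 23996073820) (nat_lit 76) (nat_lit 15562179120) (nat_lit 76) (nat_lit 9070066681) (nat_lit 14) (nat_lit 4) (nat_lit 15) (nat_lit 5) (nat_lit 15) (nat_lit 4) (nat_lit 484) (nat_lit 375) (nat_lit 341)) (XT.lf (nat_lit 0) (nat_lit 1942543617) (nat_lit 152) (nat_lit 2621432394) (nat_lit 76) (nat_lit 46148257760) (nat_lit 13) (nat_lit 5) (nat_lit 15) (nat_lit 5) (nat_lit 14) (nat_lit 4) (nat_lit 485) (nat_lit 375) (nat_lit 340))))))) (XT.nd (nat_lit 1014) (nat_lit 0) (nat_lit 0) (XT.nd (nat_lit 468) (nat_lit 228) (nat_lit 0) (XT.nd (nat_lit 234) (nat_lit 152) (nat_lit 0) (XT.nd (nat_lit 78) (nat_lit 76) (nat_lit 0) (XT.lf (nat_lit 0) (nat_lit 13434958189) (nat_lit 152) (nat_lit 32465027051) (nat_lit 0) (nat_lit 6994163706) (nat_lit 12) (nat_lit 5) (nat_lit 14) (nat_lit 4) (nat_lit 12) (nat_lit 4) (nat_lit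 486) (nat_lit 375) (nat_lit 339)) (XT.nd (nat_lit 78) (nat_lit 76) (nat_lit 0) (XT.lf (nat_lit 0) (nat_lit 25427698560) (nat_lit 152) (nat_lit 10836793990) (nat_lit 0) (nat_lit 18922898178) (nat_lit 12) (nat_lit 5) (nat_lit 14) (nat_lit 4) (nat_lit 12) (nat_lit 4) (nat_lit 487) (nat_lit 375) (nat_lit 338)) (XT.lf (nat_lit 0) (nat_lit 11824449950) (nat_lit 76) (nat_lit 26168706262) (nat_lit 76) (nat_lit 19602947881) (nat_lit 11) (nat_lit 4) (nat_lit 12) (nat_lit 5) (nat_lit 12) (nat_lit 4) (nat_lit 488) (nat_lit 375) (nat_lit 337)))) (XT.nd (nat_lit 78) (nat_lit 152) (nat_lit 0) (XT.lf (nat_lit 0) (nat_lit 35574076276) (nat_lit 76) (nat_lit 15587870244) (nat_lit 76) (nat_lit 8964056626) (nat_lit 11) (nat_lit 4) (nat_lit 12) (nat_lit 5) (nat_lit 12) (nat_lit 4) (nat_lit 489) (nat_lit 375) (nat_lit 336)) (XT.nd (nat_lit 78) (nat_lit 76) (nat_lit 0) (XT.lf (nat_lit 0) (nat_lit 2032432526) (nat_lit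 152) (nat_lit 2553266291) (nat_lit 76) (nat_lit 58200002155) (nat_lit 10) (nat_lit 5) (nat_lit 12) (nat_lit 5) (nat_lit 11) (nat_lit 4) (nat_lit 490) (nat_lit 375) (nat_lit 335)) (XT.lf (nat_lit 0) (nat_lit 13536786700) (nat_lit 152) (nat_lit 45033537755) (nat_lit 0) (nat_lit 7001095310) (nat_lit 9) (nat_lit 5) (nat_lit 11) (nat_lit 4) (nat_lit 9) (nat_lit 4) (nat_lit 491) (nat_lit 375) (nat_lit 334))))) (XT.nd (nat_lit 234) (nat_lit 152) (nat_lit 0) (XT.nd (nat_lit 78) (nat_lit 76) (nat_lit 0) (XT.lf (nat_lit 0) (nat_lit 25566636081) (nat_lit 152) (nat_lit 23949026530) (nat_lit 0) (nat_lit 18982255083) (nat_lit 9) (nat_lit 5) (nat_lit 11) (nat_lit 4) (nat_lit 9) (nat_lit 4) (nat_lit 492) (nat_lit 375) (nat_lit 333)) (XT.nd (nat_lit 78) (nat_lit 76) (nat_lit 0) (XT.lf (nat_lit 0) (nat_lit 38081262761) (nat_lit 152) (nat_lit 2042469953) (nat_lit 0) (nat_lit 31450510707) (nat_lit 9) (nat_lit 5)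 (nat_lit 11) (nat_lit 4) (nat_lit 9) (nat_lit 4) (nat_lit 493) (nat_lit 375) (nat_lit 332)) (XT.lf (nat_lit 0) (nat_lit 21151023085) (nat_lit 76) (nat_lit 30162756957) (nat_lit 76) (nat_lit 23487841993) (nat_lit 8) (nat_lit 4) (nat_lit 9) (nat_lit 5) (nat_lit 9) (nat_lit 4) (nat_lit 494) (nat_lit 375) (nat_lit 331)))) (XT.nd (nat_lit 156) (nat_lit 152) (nat_lit 0) (XT.nd (nat_lit 78) (nat_lit 0) (nat_lit 0) (XT.lf (nat_lit 0) (nat_lit 45332086857) (nat_lit 76) (nat_lit 19788933007) (nat_lit 76) (nat_lit 13071958129) (nat_lit 8) (nat_lit 4) (nat_lit 9) (nat_lit 5) (nat_lit 9) (nat_lit 4) (nat_lit 495) (nat_lit 375) (nat_lit 330)) (XT.lf (nat_lit 0) (nat_lit 70517646166) (nat_lit 76) (nat_lit 8998186226) (nat_lit 76) (nat_lit 2241154286) (nat_lit 8) (nat_lit 4) (nat_lit 9) (nat_lit 5) (nat_lit 9) (nat_lit 4) (nat_lit 496) (nat_lit 375) (nat_lit 329))) (XT.nd (nat_lit 78) (nat_lit 0) (nat_lit 0)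 (XT.lf (nat_lit 0) (nat_lit 8987168173) (nat_lit 152) (nat_lit 74118466158) (nat_lit 0) (nat_lit 2389904559) (nat_lit 6) (nat_lit 5) (nat_lit 8) (nat_lit 4) (nat_lit 6) (nat_lit 4) (nat_lit 497) (nat_lit 375) (nat_lit 328)) (XT.lf (nat_lit 0) (nat_lit 20841743451) (nat_lit 152) (nat_lit 54366069914) (nat_lit 0) (nat_lit 14209205144) (nat_lit 6) (nat_lit 5) (nat_lit 8) (nat_lit 4) (nat_lit 6) (nat_lit 4) (nat_lit 498) (nat_lit 375) (nat_lit 327)))))) (XT.nd (nat_lit 58890) (nat_lit 0) (nat_lit 2736) (XT.nd (nat_lit 58656) (nat_lit 0) (nat_lit 3876) (XT.nd (nat_lit 58500) (nat_lit 0) (nat_lit 4484) (XT.lf (nat_lit 0) (nat_lit 33196753051) (nat_lit 152) (nat_lit 33809969144) (nat_lit 0) (nat_lit 26530619796) (nat_lit 6) (nat_lit 5) (nat_lit 8) (nat_lit 4) (nat_lit 6) (nat_lit 4) (nat_lit 499) (nat_lit 375) (nat_lit 326)) (XT.nd (nat_lit 78) (nat_lit 304) (nat_lit 0) (XT.lf (nat_lit 0) (nat_lit 2628271811)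 (nat_lit 228) (nat_lit 1738648135) (nat_lit 0) (nat_lit 2628271811) (nat_lit 69) (nat_lit 5) (nat_lit 72) (nat_lit 4) (nat_lit 69) (nat_lit 4) (nat_lit 448) (nat_lit 376) (nat_lit 376)) (XT.lf (nat_lit 0) (nat_lit 1068171624) (nat_lit 152) (nat_lit 12858771405) (nat_lit 0) (nat_lit 443546193) (nat_lit 65) (nat_lit 5) (nat_lit 67) (nat_lit 4) (nat_lit 65) (nat_lit 4) (nat_lit 449) (nat_lit 376) (nat_lit 375)))) (XT.nd (nat_lit 78) (nat_lit 456) (nat_lit 0) (XT.lf (nat_lit 0) (nat_lit 6420021316) (nat_lit 152) (nat_lit 4782905936) (nat_lit 152) (nat_lit 3563399142) (nat_lit 63) (nat_lit 4) (nat_lit 65) (nat_lit 5) (nat_lit 65) (nat_lit 4) (nat_lit 450) (nat_lit 376) (nat_lit 374)) (XT.nd (nat_lit 78) (nat_lit 304) (nat_lit 0) (XT.lf (nat_lit 0) (nat_lit 6481137804) (nat_lit 152) (nat_lit 3953354535) (nat_lit 0) (nat_lit 4747098509) (nat_lit 61) (nat_lit 5) (nat_lit 63) (nat_lit 4) (nat_lit 61) (nat_lit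 4) (nat_lit 451) (nat_lit 376) (nat_lit 373)) (XT.lf (nat_lit 0) (nat_lit 321872397) (nat_lit 76) (nat_lit 948950681) (nat_lit 152) (nat_lit 14346588729) (nat_lit 57) (nat_lit 5) (nat_lit 58) (nat_lit 5) (nat_lit 59) (nat_lit 4) (nat_lit 452) (nat_lit 376) (nat_lit 372))))) (XT.nd (nat_lit 234) (nat_lit 684) (nat_lit 0) (XT.nd (nat_lit 78) (nat_lit 304) (nat_lit 0) (XT.lf (nat_lit 0) (nat_lit 4449612376) (nat_lit 152) (nat_lit 7149109392) (nat_lit 152) (nat_lit 4472592950) (nat_lit 55) (nat_lit 4) (nat_lit 57) (nat_lit 5) (nat_lit 57) (nat_lit 4) (nat_lit 453) (nat_lit 376) (nat_lit 371)) (XT.nd (nat_lit 78) (nat_lit 152) (nat_lit 0) (XT.lf (nat_lit 0) (nat_lit 5728559778) (nat_lit 152) (nat_lit 8137091894) (nat_lit 0) (nat_lit 2682120308) (nat_lit 53) (nat_lit 5) (nat_lit 55) (nat_lit 4) (nat_lit 53) (nat_lit 4) (nat_lit 454) (nat_lit 376) (nat_lit 370)) (XT.lf (nat_lit 0) (nat_lit 12155106407)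 (nat_lit 152) (nat_lit 4182456704) (nat_lit 152) (nat_lit 709465027) (nat_lit 51) (nat_lit 4) (nat_lit 53) (nat_lit 5) (nat_lit 53) (nat_lit 4) (nat_lit 455) (nat_lit 376) (nat_lit 369)))) (XT.nd (nat_lit 156) (nat_lit 228) (nat_lit 0) (XT.nd (nat_lit 78) (nat_lit 304) (nat_lit 0) (XT.lf (nat_lit 0) (nat_lit 9691979265) (nat_lit 152) (nat_lit 1951303606) (nat_lit 0) (nat_lit 5925734727) (nat_lit 49) (nat_lit 5) (nat_lit 51) (nat_lit 4) (nat_lit 49) (nat_lit 4) (nat_lit 456) (nat_lit 376) (nat_lit 368)) (XT.lf (nat_lit 0) (nat_lit 746018195) (nat_lit 76) (nat_lit 1661809075) (nat_lit 152) (nat_lit 15709134234) (nat_lit 45) (nat_lit 5) (nat_lit 46) (nat_lit 5) (nat_lit 47) (nat_lit 4) (nat_lit 457) (nat_lit 376) (nat_lit 367))) (XT.nd (nat_lit 78) (nat_lit 152) (nat_lit 0) (XT.lf (nat_lit 0) (nat_lit 3091624999) (nat_lit 76) (nat_lit 9982992600) (nat_lit 76) (nat_lit 5614438415) (nat_lit 44) (nat_lit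 4) (nat_lit 45) (nat_lit 5) (nat_lit 45) (nat_lit 4) (nat_lit 458) (nat_lit 376) (nat_lit 366)) (XT.lf (nat_lit 0) (nat_lit 4833813686) (nat_lit 152) (nat_lit 14184778780) (nat_lit 0) (nat_lit 271352347) (nat_lit 42) (nat_lit 5) (nat_lit 44) (nat_lit 4) (nat_lit 42) (nat_lit 4) (nat_lit 459) (nat_lit 376) (nat_lit 365))))))))
noncomputable def xc13 : XT := (XT.nd (nat_lit 1950) (nat_lit 608) (nat_lit 0) (XT.nd (nat_lit 936) (nat_lit 912) (nat_lit 0) (XT.nd (nat_lit 468) (nat_lit 532) (nat_lit 0) (XT.nd (nat_lit 234) (nat_lit 380) (nat_lit 0) (XT.nd (nat_lit 78) (nat_lit 228) (nat_lit 0) (XT.lf (nat_lit 0) (nat_lit 6652766967) (nat_lit 76) (nat_lit 9066914336) (nat_lit 76) (nat_lit 4198599097) (nat_lit 41) (nat_lit 4) (nat_lit 42) (nat_lit 5) (nat_lit 42) (nat_lit 4) (nat_lit 460) (nat_lit 376) (nat_lit 364)) (XT.nd (nat_lit 78) (nat_lit 76) (nat_lit 0) (XT.lf (nat_lit 0) (nat_lit 6388675923) (nat_lit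 152) (nat_lit 12809766324) (nat_lit 0) (nat_lit 1379351001) (nat_lit 39) (nat_lit 5) (nat_lit 41) (nat_lit 4) (nat_lit 39) (nat_lit 4) (nat_lit 461) (nat_lit 376) (nat_lit 363)) (XT.lf (nat_lit 0) (nat_lit 8341671050) (nat_lit 76) (nat_lit 9102630328) (nat_lit 76) (nat_lit 3823967053) (nat_lit 38) (nat_lit 4) (nat_lit 39) (nat_lit 5) (nat_lit 39) (nat_lit 4) (nat_lit 462) (nat_lit 376) (nat_lit 362)))) (XT.nd (nat_lit 78) (nat_lit 228) (nat_lit 0) (XT.lf (nat_lit 0) (nat_lit 6871200871) (nat_lit 152) (nat_lit 13624309435) (nat_lit 0) (nat_lit 1497243595) (nat_lit 36) (nat_lit 5) (nat_lit 38) (nat_lit 4) (nat_lit 36) (nat_lit 4) (nat_lit 463) (nat_lit 376) (nat_lit 361)) (XT.nd (nat_lit 78) (nat_lit 152) (nat_lit 0) (XT.lf (nat_lit 0) (nat_lit 7737969807) (nat_lit 76) (nat_lit 10312328669) (nat_lit 76) (nat_lit 4701189038) (nat_lit 35) (nat_lit 4) (nat_lit 36) (nat_lit 5) (nat_lit 36) (nat_lit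 4) (nat_lit 464) (nat_lit 376) (nat_lit 360)) (XT.lf (nat_lit 0) (nat_lit 6058236563) (nat_lit 152) (nat_lit 17098714706) (nat_lit 0) (nat_lit 391219486) (nat_lit 33) (nat_lit 5) (nat_lit 35) (nat_lit 4) (nat_lit 33) (nat_lit 4) (nat_lit 465) (nat_lit 376) (nat_lit 359))))) (XT.nd (nat_lit 234) (nat_lit 304) (nat_lit 0) (XT.nd (nat_lit 78) (nat_lit 152) (nat_lit 0) (XT.lf (nat_lit 0) (nat_lit 4340093754) (nat_lit 76) (nat_lit 12958934183) (nat_lit 76) (nat_lit 7083051681) (nat_lit 32) (nat_lit 4) (nat_lit 33) (nat_lit 5) (nat_lit 33) (nat_lit 4) (nat_lit 466) (nat_lit 376) (nat_lit 358)) (XT.nd (nat_lit 78) (nat_lit 0) (nat_lit 0) (XT.lf (nat_lit 0) (nat_lit 1443958026) (nat_lit 76) (nat_lit 2259864624) (nat_lit 152) (nat_lit 21554718883) (nat_lit 30) (nat_lit 5) (nat_lit 31) (nat_lit 5) (nat_lit 32) (nat_lit 4) (nat_lit 467) (nat_lit 376) (nat_lit 357)) (XT.lf (nat_lit 0) (nat_lit 14927832442)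 (nat_lit 152) (nat_lit 2401530321) (nat_lit 0) (nat_lit 8846037244) (nat_lit 30) (nat_lit 5) (nat_lit 32) (nat_lit 4) (nat_lit 30) (nat_lit 4) (nat_lit 468) (nat_lit 376) (nat_lit 356)))) (XT.nd (nat_lit 78) (nat_lit 228) (nat_lit 0) (XT.lf (nat_lit 0) (nat_lit 19980581072) (nat_lit 76) (nat_lit 6707618490) (nat_lit 76) (nat_lit 450652605) (nat_lit 29) (nat_lit 4) (nat_lit 30) (nat_lit 5) (nat_lit 30) (nat_lit 4) (nat_lit 469) (nat_lit 376) (nat_lit 355)) (XT.nd (nat_lit 78) (nat_lit 76) (nat_lit 0) (XT.lf (nat_lit 0) (nat_lit 10652217849) (nat_lit 152) (nat_lit 13080245149) (nat_lit 0) (nat_lit 4415523567) (nat_lit 27) (nat_lit 5) (nat_lit 29) (nat_lit 4) (nat_lit 27) (nat_lit 4) (nat_lit 470) (nat_lit 376) (nat_lit 354)) (XT.lf (nat_lit 0) (nat_lit 9000438009) (nat_lit 76) (nat_lit 13299003145) (nat_lit 76) (nat_lit 6908051604) (nat_lit 26) (nat_lit 4) (nat_lit 27) (nat_lit 5) (nat_lit 27) (nat_lit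 4) (nat_lit 471) (nat_lit 376) (nat_lit 353)))))) (XT.nd (nat_lit 468) (nat_lit 456) (nat_lit 0) (XT.nd (nat_lit 234) (nat_lit 228) (nat_lit 0) (XT.nd (nat_lit 78) (nat_lit 76) (nat_lit 0) (XT.lf (nat_lit 0) (nat_lit 1690716679) (nat_lit 76) (nat_lit 2362770954) (nat_lit 152) (nat_lit 26267480179) (nat_lit 24) (nat_lit 5) (nat_lit 25) (nat_lit 5) (nat_lit 26) (nat_lit 4) (nat_lit 472) (nat_lit 376) (nat_lit 352)) (XT.nd (nat_lit 78) (nat_lit 76) (nat_lit 0) (XT.lf (nat_lit 0) (nat_lit 15498219103) (nat_lit 152) (nat_lit 6972571904) (nat_lit 0) (nat_lit 9014938425) (nat_lit 24) (nat_lit 5) (nat_lit 26) (nat_lit 4) (nat_lit 24) (nat_lit 4) (nat_lit 473) (nat_lit 376) (nat_lit 351)) (XT.lf (nat_lit 0) (nat_lit 15635061957) (nat_lit 76) (nat_lit 11843708230) (nat_lit 76) (nat_lit 5231055493) (nat_lit 23) (nat_lit 4) (nat_lit 24) (nat_lit 5) (nat_lit 24) (nat_lit 4) (nat_lit 474) (nat_lit 376) (nat_lit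 350)))) (XT.nd (nat_lit 78) (nat_lit 76) (nat_lit 0) (XT.lf (nat_lit 0) (nat_lit 5161110714) (nat_lit 76) (nat_lit 699468071) (nat_lit 152) (nat_lit 28135333029) (nat_lit 21) (nat_lit 5) (nat_lit 22) (nat_lit 5) (nat_lit 23) (nat_lit 4) (nat_lit 475) (nat_lit 376) (nat_lit 349)) (XT.nd (nat_lit 78) (nat_lit 76) (nat_lit 0) (XT.lf (nat_lit 0) (nat_lit 17480621692) (nat_lit 152) (nat_lit 7034648730) (nat_lit 0) (nat_lit 10827021214) (nat_lit 21) (nat_lit 5) (nat_lit 23) (nat_lit 4) (nat_lit 21) (nat_lit 4) (nat_lit 476) (nat_lit 376) (nat_lit 348)) (XT.lf (nat_lit 0) (nat_lit 15776387041) (nat_lit 76) (nat_lit 13871363090) (nat_lit 76) (nat_lit 7109261205) (nat_lit 20) (nat_lit 4) (nat_lit 21) (nat_lit 5) (nat_lit 21) (nat_lit 4) (nat_lit 477) (nat_lit 376) (nat_lit 347))))) (XT.nd (nat_lit 234) (nat_lit 228) (nat_lit 0) (XT.nd (nat_lit 78) (nat_lit 76) (nat_lit 0) (XT.lf (nat_lit 0) (nat_lit 1245288550)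 (nat_lit 76) (nat_lit 2750142536) (nat_lit 152) (nat_lit 34248946074) (nat_lit 18) (nat_lit 5) (nat_lit 19) (nat_lit 5) (nat_lit 20) (nat_lit 4) (nat_lit 478) (nat_lit 376) (nat_lit 346)) (XT.nd (nat_lit 78) (nat_lit 76) (nat_lit 0) (XT.lf (nat_lit 0) (nat_lit 15628558994) (nat_lit 152) (nat_lit 15304297598) (nat_lit 0) (nat_lit 8867539062) (nat_lit 18) (nat_lit 5) (nat_lit 20) (nat_lit 4) (nat_lit 18) (nat_lit 4) (nat_lit 479) (nat_lit 376) (nat_lit 345)) (XT.lf (nat_lit 0) (nat_lit 7240293595) (nat_lit 76) (nat_lit 20524154388) (nat_lit 76) (nat_lit 13672136791) (nat_lit 17) (nat_lit 4) (nat_lit 18) (nat_lit 5) (nat_lit 18) (nat_lit 4) (nat_lit 480) (nat_lit 376) (nat_lit 344)))) (XT.nd (nat_lit 156) (nat_lit 76) (nat_lit 0) (XT.nd (nat_lit 78) (nat_lit 152) (nat_lit 0) (XT.lf (nat_lit 0) (nat_lit 30893452135) (nat_lit 76) (nat_lit 9600111496) (nat_lit 76) (nat_lit 2661429457) (nat_lit 17) (nat_lit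 4) (nat_lit 18) (nat_lit 5) (nat_lit 18) (nat_lit 4) (nat_lit 481) (nat_lit 376) (nat_lit 343)) (XT.lf (nat_lit 0) (nat_lit 8681403658) (nat_lit 152) (nat_lit 34412010816) (nat_lit 0) (nat_lit 1864685597) (nat_lit 15) (nat_lit 5) (nat_lit 17) (nat_lit 4) (nat_lit 15) (nat_lit 4) (nat_lit 482) (nat_lit 376) (nat_lit 342))) (XT.nd (nat_lit 78) (nat_lit 76) (nat_lit 0) (XT.lf (nat_lit 0) (nat_lit 20599927581) (nat_lit 152) (nat_lit 12541847088) (nat_lit 0) (nat_lit 13706891846) (nat_lit 15) (nat_lit 5) (nat_lit 17) (nat_lit 4) (nat_lit 15) (nat_lit 4) (nat_lit 483) (nat_lit 376) (nat_lit 341)) (XT.lf (nat_lit 0) (nat_lit 10318806644) (nat_lit 76) (nat_lit 22741154320) (nat_lit 76) (nat_lit 15775435086) (nat_lit 14) (nat_lit 4) (nat_lit 15) (nat_lit 5) (nat_lit 15) (nat_lit 4) (nat_lit 484) (nat_lit 376) (nat_lit 340))))))) (XT.nd (nat_lit 1014) (nat_lit 76) (nat_lit 0) (XT.nd (nat_lit 468) (nat_lit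 304) (nat_lit 0) (XT.nd (nat_lit 234) (nat_lit 76) (nat_lit 0) (XT.nd (nat_lit 78) (nat_lit 152) (nat_lit 0) (XT.lf (nat_lit 0) (nat_lit 34288930371) (nat_lit 76) (nat_lit 11834038147) (nat_lit 76) (nat_lit 4799096533) (nat_lit 14) (nat_lit 4) (nat_lit 15) (nat_lit 5) (nat_lit 15) (nat_lit 4) (nat_lit 485) (nat_lit 376) (nat_lit 339)) (XT.nd (nat_lit 78) (nat_lit 0) (nat_lit 0) (XT.lf (nat_lit 0) (nat_lit 6114729605) (nat_lit 76) (nat_lit 395416844) (nat_lit 152) (nat_lit 46603523285) (nat_lit 12) (nat_lit 5) (nat_lit 13) (nat_lit 5) (nat_lit 14) (nat_lit 4) (nat_lit 486) (nat_lit 376) (nat_lit 338)) (XT.lf (nat_lit 0) (nat_lit 18430508474) (nat_lit 152) (nat_lit 25503071144) (nat_lit 0) (nat_lit 11475504175) (nat_lit 12) (nat_lit 5) (nat_lit 14) (nat_lit 4) (nat_lit 12) (nat_lit 4) (nat_lit 487) (nat_lit 376) (nat_lit 337)))) (XT.nd (nat_lit 78) (nat_lit 76) (nat_lit 0) (XT.lf (nat_lit 0) (nat_lit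 30816990512) (nat_lit 152) (nat_lit 3202245824) (nat_lit 0) (nat_lit 23803930976) (nat_lit 12) (nat_lit 5) (nat_lit 14) (nat_lit 4) (nat_lit 12) (nat_lit 4) (nat_lit 488) (nat_lit 376) (nat_lit 336)) (XT.nd (nat_lit 78) (nat_lit 0) (nat_lit 0) (XT.lf (nat_lit 0) (nat_lit 20357685797) (nat_lit 76) (nat_lit 23533287930) (nat_lit 76) (nat_lit 16464937691) (nat_lit 11) (nat_lit 4) (nat_lit 12) (nat_lit 5) (nat_lit 12) (nat_lit 4) (nat_lit 489) (nat_lit 376) (nat_lit 335)) (XT.lf (nat_lit 0) (nat_lit 44916602327) (nat_lit 76) (nat_lit 12611212665) (nat_lit 76) (nat_lit 5490204616) (nat_lit 11) (nat_lit 4) (nat_lit 12) (nat_lit 5) (nat_lit 12) (nat_lit 4) (nat_lit 490) (nat_lit 376) (nat_lit 334))))) (XT.nd (nat_lit 234) (nat_lit 152) (nat_lit 0) (XT.nd (nat_lit 78) (nat_lit 0) (nat_lit 0) (XT.lf (nat_lit 0) (nat_lit 4687108711) (nat_lit 76) (nat_lit 1154402154) (nat_lit 152) (nat_lit 59972204705) (nat_lit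 9) (nat_lit 5) (nat_lit 10) (nat_lit 5) (nat_lit 11) (nat_lit 4) (nat_lit 491) (nat_lit 376) (nat_lit 333)) (XT.nd (nat_lit 78) (nat_lit 0) (nat_lit 0) (XT.lf (nat_lit 0) (nat_lit 17803329197) (nat_lit 152) (nat_lit 40144257453) (nat_lit 0) (nat_lit 10794668485) (nat_lit 9) (nat_lit 5) (nat_lit 11) (nat_lit 4) (nat_lit 9) (nat_lit 4) (nat_lit 492) (nat_lit 376) (nat_lit 332)) (XT.lf (nat_lit 0) (nat_lit 30263732801) (nat_lit 152) (nat_lit 18345566247) (nat_lit 0) (nat_lit 23210909179) (nat_lit 9) (nat_lit 5) (nat_lit 11) (nat_lit 4) (nat_lit 9) (nat_lit 4) (nat_lit 493) (nat_lit 376) (nat_lit 331)))) (XT.nd (nat_lit 156) (nat_lit 76) (nat_lit 0) (XT.nd (nat_lit 78) (nat_lit 0) (nat_lit 0) (XT.lf (nat_lit 0) (nat_lit 4418689777) (nat_lit 76) (nat_lit 38865077858) (nat_lit 76) (nat_lit 31770194321) (nat_lit 8) (nat_lit 4) (nat_lit 9) (nat_lit 5) (nat_lit 9) (nat_lit 4) (nat_lit 494) (nat_lit 376)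 (nat_lit 330)) (XT.lf (nat_lit 0) (nat_lit 28499969328) (nat_lit 76) (nat_lit 28540897013) (nat_lit 76) (nat_lit 21405956416) (nat_lit 8) (nat_lit 4) (nat_lit 9) (nat_lit 5) (nat_lit 9) (nat_lit 4) (nat_lit 495) (nat_lit 376) (nat_lit 329))) (XT.nd (nat_lit 78) (nat_lit 76) (nat_lit 0) (XT.lf (nat_lit 0) (nat_lit 53590496046) (nat_lit 76) (nat_lit 17797429380) (nat_lit 76) (nat_lit 10624339200) (nat_lit 8) (nat_lit 4) (nat_lit 9) (nat_lit 5) (nat_lit 9) (nat_lit 4) (nat_lit 496) (nat_lit 376) (nat_lit 328)) (XT.lf (nat_lit 0) (nat_lit 588613283) (nat_lit 152) (nat_lit 6014538149) (nat_lit 76) (nat_lit 79155452156) (nat_lit 7) (nat_lit 5) (nat_lit 9) (nat_lit 5) (nat_lit 8) (nat_lit 4) (nat_lit 497) (nat_lit 376) (nat_lit 327)))))) (XT.nd (nat_lit 58734) (nat_lit 0) (nat_lit 3268) (XT.nd (nat_lit 58500) (nat_lit 0) (nat_lit 4484) (XT.nd (nat_lit 78) (nat_lit 0) (nat_lit 0) (XT.lf (nat_lit 0) (nat_lit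 12275143469) (nat_lit 152) (nat_lit 72167872999) (nat_lit 0) (nat_lit 5242108604) (nat_lit 6) (nat_lit 5) (nat_lit 8) (nat_lit 4) (nat_lit 6) (nat_lit 4) (nat_lit 498) (nat_lit 376) (nat_lit 326)) (XT.nd (nat_lit 58344) (nat_lit 0) (nat_lit 5168) (XT.lf (nat_lit 0) (nat_lit 24587275279) (nat_lit 152) (nat_lit 51697214870) (nat_lit 0) (nat_lit 17522245226) (nat_lit 6) (nat_lit 5) (nat_lit 8) (nat_lit 4) (nat_lit 6) (nat_lit 4) (nat_lit 499) (nat_lit 376) (nat_lit 325)) (XT.lf (nat_lit 0) (nat_lit 5913439) (nat_lit 228) (nat_lit 6627298889) (nat_lit 0) (nat_lit 5913439) (nat_lit 74) (nat_lit 5) (nat_lit 77) (nat_lit 4) (nat_lit 74) (nat_lit 4) (nat_lit 446) (nat_lit 377) (nat_lit 377)))) (XT.nd (nat_lit 78) (nat_lit 532) (nat_lit 0) (XT.lf (nat_lit 0) (nat_lit 5133622660) (nat_lit 152) (nat_lit 4595137488) (nat_lit 152) (nat_lit 3899339113) (nat_lit 72) (nat_lit 4) (nat_lit 74) (nat_lit 5) (nat_lit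 74) (nat_lit 4) (nat_lit 447) (nat_lit 377) (nat_lit 376)) (XT.nd (nat_lit 78) (nat_lit 304) (nat_lit 0) (XT.lf (nat_lit 0) (nat_lit 5763606311) (nat_lit 228) (nat_lit 3787131379) (nat_lit 0) (nat_lit 4444709713) (nat_lit 69) (nat_lit 5) (nat_lit 72) (nat_lit 4) (nat_lit 69) (nat_lit 4) (nat_lit 448) (nat_lit 377) (nat_lit 375)) (XT.lf (nat_lit 0) (nat_lit 873456730) (nat_lit 76) (nat_lit 508356635) (nat_lit 152) (nat_lit 12998960878) (nat_lit 65) (nat_lit 5) (nat_lit 66) (nat_lit 5) (nat_lit 67) (nat_lit 4) (nat_lit 449) (nat_lit 377) (nat_lit 374))))) (XT.nd (nat_lit 234) (nat_lit 684) (nat_lit 0) (XT.nd (nat_lit 78) (nat_lit 380) (nat_lit 0) (XT.lf (nat_lit 0) (nat_lit 5458571707) (nat_lit 152) (nat_lit 5882613512) (nat_lit 152) (nat_lit 3440696337) (nat_lit 63) (nat_lit 4) (nat_lit 65) (nat_lit 5) (nat_lit 65) (nat_lit 4) (nat_lit 450) (nat_lit 377) (nat_lit 373)) (XT.nd (nat_lit 78) (nat_lit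 228) (nat_lit 0) (XT.lf (nat_lit 0) (nat_lit 6419065980) (nat_lit 152) (nat_lit 5259110580) (nat_lit 0) (nat_lit 3524413449) (nat_lit 61) (nat_lit 5) (nat_lit 63) (nat_lit 4) (nat_lit 61) (nat_lit 4) (nat_lit 451) (nat_lit 377) (nat_lit 372)) (XT.lf (nat_lit 0) (nat_lit 1014542682) (nat_lit 228) (nat_lit 1334044370) (nat_lit 76) (nat_lit 13295100161) (nat_lit 58) (nat_lit 5) (nat_lit 61) (nat_lit 5) (nat_lit 59) (nat_lit 4) (nat_lit 452) (nat_lit 377) (nat_lit 371)))) (XT.nd (nat_lit 156) (nat_lit 304) (nat_lit 0) (XT.nd (nat_lit 78) (nat_lit 152) (nat_lit 0) (XT.lf (nat_lit 0) (nat_lit 2422260457) (nat_lit 152) (nat_lit 8718710650) (nat_lit 152) (nat_lit 4962670151) (nat_lit 55) (nat_lit 4) (nat_lit 57) (nat_lit 5) (nat_lit 57) (nat_lit 4) (nat_lit 453) (nat_lit 377) (nat_lit 370)) (XT.lf (nat_lit 0) (nat_lit 5056278826) (nat_lit 152) (nat_lit 10546635168) (nat_lit 0) (nat_lit 983085358) (nat_lit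 53) (nat_lit 5) (nat_lit 55) (nat_lit 4) (nat_lit 53) (nat_lit 4) (nat_lit 454) (nat_lit 377) (nat_lit 369))) (XT.nd (nat_lit 78) (nat_lit 152) (nat_lit 0) (XT.lf (nat_lit 0) (nat_lit 9410151881) (nat_lit 152) (nat_lit 6079900191) (nat_lit 152) (nat_lit 1600466526) (nat_lit 51) (nat_lit 4) (nat_lit 53) (nat_lit 5) (nat_lit 53) (nat_lit 4) (nat_lit 455) (nat_lit 377) (nat_lit 368)) (XT.lf (nat_lit 0) (nat_lit 8622696369) (nat_lit 152) (nat_lit 5097839376) (nat_lit 0) (nat_lit 3898105018) (nat_lit 49) (nat_lit 5) (nat_lit 51) (nat_lit 4) (nat_lit 49) (nat_lit 4) (nat_lit 456) (nat_lit 377) (nat_lit 367))))))))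
noncomputable def xc14 : XT := (XT.nd (nat_lit 1950) (nat_lit 836) (nat_lit 0) (XT.nd (nat_lit 936) (nat_lit 988) (nat_lit 0) (XT.nd (nat_lit 468) (nat_lit 608) (nat_lit 0) (XT.nd (nat_lit 234) (nat_lit 304) (nat_lit 0) (XT.nd (nat_lit 78) (nat_lit 304) (nat_lit 0) (XT.lf (nat_lit 0) (nat_lit 1125635225) (nat_lit 228) (nat_lit 2797291487) (nat_lit 76) (nat_lit 14249539512) (nat_lit 46) (nat_lit 5) (nat_lit 49) (nat_lit 5) (nat_lit 47) (nat_lit 4) (nat_lit 457) (nat_lit 377) (nat_lit 366)) (XT.nd (nat_lit 78) (nat_lit 228) (nat_lit 0) (XT.lf (nat_lit 0) (nat_lit 11569609405) (nat_lit 152) (nat_lit 877114379) (nat_lit 0) (nat_lit 6304526473) (nat_lit 45) (nat_lit 5) (nat_lit 47) (nat_lit 4) (nat_lit 45) (nat_lit 4) (nat_lit 458) (nat_lit 377) (nat_lit 365)) (XT.lf (nat_lit 0) (nat_lit 718730506) (nat_lit 76) (nat_lit 2384147797) (nat_lit 152) (nat_lit 16255546798) (nat_lit 42) (nat_lit 5) (nat_lit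 43) (nat_lit 5) (nat_lit 44) (nat_lit 4) (nat_lit 459) (nat_lit 377) (nat_lit 364)))) (XT.nd (nat_lit 78) (nat_lit 228) (nat_lit 0) (XT.lf (nat_lit 0) (nat_lit 1862102989) (nat_lit 76) (nat_lit 11919869831) (nat_lit 76) (nat_lit 6210995498) (nat_lit 41) (nat_lit 4) (nat_lit 42) (nat_lit 5) (nat_lit 42) (nat_lit 4) (nat_lit 460) (nat_lit 377) (nat_lit 363)) (XT.nd (nat_lit 78) (nat_lit 76) (nat_lit 0) (XT.lf (nat_lit 0) (nat_lit 2574049839) (nat_lit 76) (nat_lit 1642867735) (nat_lit 152) (nat_lit 16442106955) (nat_lit 39) (nat_lit 5) (nat_lit 40) (nat_lit 5) (nat_lit 41) (nat_lit 4) (nat_lit 461) (nat_lit 377) (nat_lit 362)) (XT.lf (nat_lit 0) (nat_lit 2716918331) (nat_lit 76) (nat_lit 12353547556) (nat_lit 76) (nat_lit 6285100045) (nat_lit 38) (nat_lit 4) (nat_lit 39) (nat_lit 5) (nat_lit 39) (nat_lit 4) (nat_lit 462) (nat_lit 377) (nat_lit 361))))) (XT.nd (nat_lit 234) (nat_lit 304) (nat_lit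 0) (XT.nd (nat_lit 78) (nat_lit 152) (nat_lit 0) (XT.lf (nat_lit 0) (nat_lit 2326135278) (nat_lit 76) (nat_lit 1929470936) (nat_lit 152) (nat_lit 17831233156) (nat_lit 36) (nat_lit 5) (nat_lit 37) (nat_lit 5) (nat_lit 38) (nat_lit 4) (nat_lit 463) (nat_lit 377) (nat_lit 360)) (XT.nd (nat_lit 78) (nat_lit 76) (nat_lit 0) (XT.lf (nat_lit 0) (nat_lit 1247177140) (nat_lit 76) (nat_lit 13979700497) (nat_lit 76) (nat_lit 7624933570) (nat_lit 35) (nat_lit 4) (nat_lit 36) (nat_lit 5) (nat_lit 36) (nat_lit 4) (nat_lit 464) (nat_lit 377) (nat_lit 359)) (XT.lf (nat_lit 0) (nat_lit 3001309904) (nat_lit 152) (nat_lit 477239209) (nat_lit 76) (nat_lit 20176498709) (nat_lit 34) (nat_lit 5) (nat_lit 36) (nat_lit 5) (nat_lit 35) (nat_lit 4) (nat_lit 465) (nat_lit 377) (nat_lit 358)))) (XT.nd (nat_lit 78) (nat_lit 228) (nat_lit 0) (XT.lf (nat_lit 0) (nat_lit 14040421991) (nat_lit 152) (nat_lit 2991627615) (nat_lit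 0) (nat_lit 7462960485) (nat_lit 33) (nat_lit 5) (nat_lit 35) (nat_lit 4) (nat_lit 33) (nat_lit 4) (nat_lit 466) (nat_lit 377) (nat_lit 357)) (XT.nd (nat_lit 78) (nat_lit 76) (nat_lit 0) (XT.lf (nat_lit 0) (nat_lit 235191062) (nat_lit 152) (nat_lit 6289470748) (nat_lit 76) (nat_lit 18852671857) (nat_lit 31) (nat_lit 5) (nat_lit 33) (nat_lit 5) (nat_lit 32) (nat_lit 4) (nat_lit 467) (nat_lit 377) (nat_lit 356)) (XT.lf (nat_lit 0) (nat_lit 11238997372) (nat_lit 152) (nat_lit 10567791034) (nat_lit 0) (nat_lit 4494012506) (nat_lit 30) (nat_lit 5) (nat_lit 32) (nat_lit 4) (nat_lit 30) (nat_lit 4) (nat_lit 468) (nat_lit 377) (nat_lit 355)))))) (XT.nd (nat_lit 468) (nat_lit 456) (nat_lit 0) (XT.nd (nat_lit 234) (nat_lit 304) (nat_lit 0) (XT.nd (nat_lit 78) (nat_lit 152) (nat_lit 0) (XT.lf (nat_lit 0) (nat_lit 11429725696) (nat_lit 76) (nat_lit 11376075454) (nat_lit 76) (nat_lit 4464261362) (nat_lit 29)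 (nat_lit 4) (nat_lit 30) (nat_lit 5) (nat_lit 30) (nat_lit 4) (nat_lit 469) (nat_lit 377) (nat_lit 354)) (XT.nd (nat_lit 78) (nat_lit 0) (nat_lit 0) (XT.lf (nat_lit 0) (nat_lit 6078900001) (nat_lit 76) (nat_lit 398735008) (nat_lit 152) (nat_lit 21809900511) (nat_lit 27) (nat_lit 5) (nat_lit 28) (nat_lit 5) (nat_lit 29) (nat_lit 4) (nat_lit 470) (nat_lit 377) (nat_lit 353)) (XT.lf (nat_lit 0) (nat_lit 17927565029) (nat_lit 152) (nat_lit 509500744) (nat_lit 0) (nat_lit 10915896975) (nat_lit 27) (nat_lit 5) (nat_lit 29) (nat_lit 4) (nat_lit 27) (nat_lit 4) (nat_lit 471) (nat_lit 377) (nat_lit 352)))) (XT.nd (nat_lit 78) (nat_lit 228) (nat_lit 0) (XT.lf (nat_lit 0) (nat_lit 22296131577) (nat_lit 76) (nat_lit 7663415695) (nat_lit 76) (nat_lit 511831760) (nat_lit 26) (nat_lit 4) (nat_lit 27) (nat_lit 5) (nat_lit 27) (nat_lit 4) (nat_lit 472) (nat_lit 377) (nat_lit 351)) (XT.nd (nat_lit 78) (nat_lit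 76) (nat_lit 0) (XT.lf (nat_lit 0) (nat_lit 10708279716) (nat_lit 152) (nat_lit 17299426455) (nat_lit 0) (nat_lit 3635622283) (nat_lit 24) (nat_lit 5) (nat_lit 26) (nat_lit 4) (nat_lit 24) (nat_lit 4) (nat_lit 473) (nat_lit 377) (nat_lit 350)) (XT.lf (nat_lit 0) (nat_lit 4906436233) (nat_lit 76) (nat_lit 17581443892) (nat_lit 76) (nat_lit 10385574975) (nat_lit 23) (nat_lit 4) (nat_lit 24) (nat_lit 5) (nat_lit 24) (nat_lit 4) (nat_lit 474) (nat_lit 377) (nat_lit 349))))) (XT.nd (nat_lit 234) (nat_lit 228) (nat_lit 0) (XT.nd (nat_lit 78) (nat_lit 152) (nat_lit 0) (XT.lf (nat_lit 0) (nat_lit 661129800) (nat_lit 152) (nat_lit 5971119692) (nat_lit 76) (nat_lit 27533145310) (nat_lit 22) (nat_lit 5) (nat_lit 24) (nat_lit 5) (nat_lit 23) (nat_lit 4) (nat_lit 475) (nat_lit 377) (nat_lit 348)) (XT.nd (nat_lit 78) (nat_lit 76) (nat_lit 0) (XT.lf (nat_lit 0) (nat_lit 12071057918) (nat_lit 152) (nat_lit 18584672269)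 (nat_lit 0) (nat_lit 4862349534) (nat_lit 21) (nat_lit 5) (nat_lit 23) (nat_lit 4) (nat_lit 21) (nat_lit 4) (nat_lit 476) (nat_lit 377) (nat_lit 347)) (XT.lf (nat_lit 0) (nat_lit 3816481646) (nat_lit 76) (nat_lit 20217248052) (nat_lit 76) (nat_lit 12905204995) (nat_lit 20) (nat_lit 4) (nat_lit 21) (nat_lit 5) (nat_lit 21) (nat_lit 4) (nat_lit 477) (nat_lit 377) (nat_lit 346)))) (XT.nd (nat_lit 156) (nat_lit 76) (nat_lit 0) (XT.nd (nat_lit 78) (nat_lit 152) (nat_lit 0) (XT.lf (nat_lit 0) (nat_lit 27374602852) (nat_lit 76) (nat_lit 9233146617) (nat_lit 76) (nat_lit 1822689586) (nat_lit 20) (nat_lit 4) (nat_lit 21) (nat_lit 5) (nat_lit 21) (nat_lit 4) (nat_lit 478) (nat_lit 377) (nat_lit 345)) (XT.lf (nat_lit 0) (nat_lit 9588246989) (nat_lit 152) (nat_lit 28103839479) (nat_lit 0) (nat_lit 2302630848) (nat_lit 18) (nat_lit 5) (nat_lit 20) (nat_lit 4) (nat_lit 18) (nat_lit 4) (nat_lit 479) (nat_lit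 377) (nat_lit 344))) (XT.nd (nat_lit 78) (nat_lit 76) (nat_lit 0) (XT.lf (nat_lit 0) (nat_lit 21572655709) (nat_lit 152) (nat_lit 5862421328) (nat_lit 0) (nat_lit 14200375126) (nat_lit 18) (nat_lit 5) (nat_lit 20) (nat_lit 4) (nat_lit 18) (nat_lit 4) (nat_lit 480) (nat_lit 377) (nat_lit 343)) (XT.lf (nat_lit 0) (nat_lit 17516815205) (nat_lit 76) (nat_lit 16647986877) (nat_lit 76) (nat_lit 9193168730) (nat_lit 17) (nat_lit 4) (nat_lit 18) (nat_lit 5) (nat_lit 18) (nat_lit 4) (nat_lit 481) (nat_lit 377) (nat_lit 342))))))) (XT.nd (nat_lit 1014) (nat_lit 228) (nat_lit 0) (XT.nd (nat_lit 468) (nat_lit 228) (nat_lit 0) (XT.nd (nat_lit 234) (nat_lit 228) (nat_lit 0) (XT.nd (nat_lit 78) (nat_lit 76) (nat_lit 0) (XT.lf (nat_lit 0) (nat_lit 2080824580) (nat_lit 152) (nat_lit 3309351451) (nat_lit 76) (nat_lit 39778675465) (nat_lit 16) (nat_lit 5) (nat_lit 18) (nat_lit 5) (nat_lit 17) (nat_lit 4) (nat_lit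 482) (nat_lit 377) (nat_lit 341)) (XT.nd (nat_lit 78) (nat_lit 0) (nat_lit 0) (XT.lf (nat_lit 0) (nat_lit 13839838531) (nat_lit 152) (nat_lit 26771215979) (nat_lit 0) (nat_lit 6453149837) (nat_lit 15) (nat_lit 5) (nat_lit 17) (nat_lit 4) (nat_lit 15) (nat_lit 4) (nat_lit 483) (nat_lit 377) (nat_lit 340)) (XT.lf (nat_lit 0) (nat_lit 26129318902) (nat_lit 152) (nat_lit 4253324796) (nat_lit 0) (nat_lit 18673407829) (nat_lit 15) (nat_lit 5) (nat_lit 17) (nat_lit 4) (nat_lit 15) (nat_lit 4) (nat_lit 484) (nat_lit 377) (nat_lit 339)))) (XT.nd (nat_lit 78) (nat_lit 152) (nat_lit 0) (XT.lf (nat_lit 0) (nat_lit 19494797319) (nat_lit 76) (nat_lit 19586545436) (nat_lit 76) (nat_lit 12064708287) (nat_lit 14) (nat_lit 4) (nat_lit 15) (nat_lit 5) (nat_lit 15) (nat_lit 4) (nat_lit 485) (nat_lit 377) (nat_lit 338)) (XT.nd (nat_lit 78) (nat_lit 152) (nat_lit 0) (XT.lf (nat_lit 0) (nat_lit 44251043882) (nat_lit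 76) (nat_lit 8338438530) (nat_lit 76) (nat_lit 753814642) (nat_lit 14) (nat_lit 4) (nat_lit 15) (nat_lit 5) (nat_lit 15) (nat_lit 4) (nat_lit 486) (nat_lit 377) (nat_lit 337)) (XT.lf (nat_lit 0) (nat_lit 10949569759) (nat_lit 152) (nat_lit 41168508232) (nat_lit 0) (nat_lit 3527802009) (nat_lit 12) (nat_lit 5) (nat_lit 14) (nat_lit 4) (nat_lit 12) (nat_lit 4) (nat_lit 487) (nat_lit 377) (nat_lit 336))))) (XT.nd (nat_lit 234) (nat_lit 152) (nat_lit 0) (XT.nd (nat_lit 78) (nat_lit 76) (nat_lit 0) (XT.lf (nat_lit 0) (nat_lit 23273850112) (nat_lit 152) (nat_lit 18991188638) (nat_lit 0) (nat_lit 15796791660) (nat_lit 12) (nat_lit 5) (nat_lit 14) (nat_lit 4) (nat_lit 12) (nat_lit 4) (nat_lit 488) (nat_lit 377) (nat_lit 335)) (XT.nd (nat_lit 78) (nat_lit 0) (nat_lit 0) (XT.lf (nat_lit 0) (nat_lit 4134546603) (nat_lit 76) (nat_lit 31998100286) (nat_lit 76) (nat_lit 24468384023) (nat_lit 11) (nat_lit 4)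 (nat_lit 12) (nat_lit 5) (nat_lit 12) (nat_lit 4) (nat_lit 489) (nat_lit 377) (nat_lit 334)) (XT.lf (nat_lit 0) (nat_lit 28579210314) (nat_lit 76) (nat_lit 21132760811) (nat_lit 76) (nat_lit 13552894251) (nat_lit 11) (nat_lit 4) (nat_lit 12) (nat_lit 5) (nat_lit 12) (nat_lit 4) (nat_lit 490) (nat_lit 377) (nat_lit 333)))) (XT.nd (nat_lit 156) (nat_lit 0) (nat_lit 0) (XT.nd (nat_lit 78) (nat_lit 152) (nat_lit 0) (XT.lf (nat_lit 0) (nat_lit 54023042183) (nat_lit 76) (nat_lit 9834924237) (nat_lit 76) (nat_lit 2207295490) (nat_lit 11) (nat_lit 4) (nat_lit 12) (nat_lit 5) (nat_lit 12) (nat_lit 4) (nat_lit 491) (nat_lit 377) (nat_lit 332)) (XT.lf (nat_lit 0) (nat_lit 9540699664) (nat_lit 152) (nat_lit 57370373933) (nat_lit 0) (nat_lit 2091071951) (nat_lit 9) (nat_lit 5) (nat_lit 11) (nat_lit 4) (nat_lit 9) (nat_lit 4) (nat_lit 492) (nat_lit 377) (nat_lit 331))) (XT.nd (nat_lit 78) (nat_lit 0) (nat_lit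 0) (XT.lf (nat_lit 0) (nat_lit 21949462244) (nat_lit 152) (nat_lit 35674411651) (nat_lit 0) (nat_lit 14457774616) (nat_lit 9) (nat_lit 5) (nat_lit 11) (nat_lit 4) (nat_lit 9) (nat_lit 4) (nat_lit 493) (nat_lit 377) (nat_lit 330)) (XT.lf (nat_lit 0) (nat_lit 34877840000) (nat_lit 152) (nat_lit 13094217250) (nat_lit 0) (nat_lit 27346095311) (nat_lit 9) (nat_lit 5) (nat_lit 11) (nat_lit 4) (nat_lit 9) (nat_lit 4) (nat_lit 494) (nat_lit 377) (nat_lit 329)))))) (XT.nd (nat_lit 58578) (nat_lit 0) (nat_lit 4180) (XT.nd (nat_lit 234) (nat_lit 152) (nat_lit 0) (XT.nd (nat_lit 78) (nat_lit 0) (nat_lit 0) (XT.lf (nat_lit 0) (nat_lit 10631429112) (nat_lit 76) (nat_lit 37827381473) (nat_lit 76) (nat_lit 30257487202) (nat_lit 8) (nat_lit 4) (nat_lit 9) (nat_lit 5) (nat_lit 9) (nat_lit 4) (nat_lit 495) (nat_lit 377) (nat_lit 328)) (XT.nd (nat_lit 78) (nat_lit 0) (nat_lit 0) (XT.lf (nat_lit 0) (nat_lit 35631448600)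 (nat_lit 76) (nat_lit 27128941600) (nat_lit 76) (nat_lit 19522714393) (nat_lit 8) (nat_lit 4) (nat_lit 9) (nat_lit 5) (nat_lit 9) (nat_lit 4) (nat_lit 496) (nat_lit 377) (nat_lit 327)) (XT.lf (nat_lit 0) (nat_lit 61704764473) (nat_lit 76) (nat_lit 15983491073) (nat_lit 76) (nat_lit 8342661071) (nat_lit 8) (nat_lit 4) (nat_lit 9) (nat_lit 5) (nat_lit 9) (nat_lit 4) (nat_lit 497) (nat_lit 377) (nat_lit 326)))) (XT.nd (nat_lit 78) (nat_lit 76) (nat_lit 0) (XT.lf (nat_lit 0) (nat_lit 3244715732) (nat_lit 152) (nat_lit 1087012108) (nat_lit 76) (nat_lit 85635975054) (nat_lit 7) (nat_lit 5) (nat_lit 9) (nat_lit 5) (nat_lit 8) (nat_lit 4) (nat_lit 498) (nat_lit 377) (nat_lit 325)) (XT.nd (nat_lit 58188) (nat_lit 0) (nat_lit 5776) (XT.lf (nat_lit 0) (nat_lit 15463609838) (nat_lit 152) (nat_lit 70645639467) (nat_lit 0) (nat_lit 7982861487) (nat_lit 6) (nat_lit 5) (nat_lit 8) (nat_lit 4) (nat_lit 6) (nat_lit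 4) (nat_lit 499) (nat_lit 377) (nat_lit 324)) (XT.lf (nat_lit 0) (nat_lit 1343776338) (nat_lit 152) (nat_lit 2482076679) (nat_lit 152) (nat_lit 2482076679) (nat_lit 82) (nat_lit 4) (nat_lit 84) (nat_lit 5) (nat_lit 84) (nat_lit 4) (nat_lit 444) (nat_lit 378) (nat_lit 378))))) (XT.nd (nat_lit 234) (nat_lit 836) (nat_lit 0) (XT.nd (nat_lit 78) (nat_lit 532) (nat_lit 0) (XT.lf (nat_lit 0) (nat_lit 4301303532) (nat_lit 228) (nat_lit 5091281371) (nat_lit 0) (nat_lit 3548797589) (nat_lit 79) (nat_lit 5) (nat_lit 82) (nat_lit 4) (nat_lit 79) (nat_lit 4) (nat_lit 445) (nat_lit 378) (nat_lit 377)) (XT.nd (nat_lit 78) (nat_lit 304) (nat_lit 0) (XT.lf (nat_lit 0) (nat_lit 585806977) (nat_lit 228) (nat_lit 279990105) (nat_lit 76) (nat_lit 12417163297) (nat_lit 76) (nat_lit 5) (nat_lit 79) (nat_lit 5) (nat_lit 77) (nat_lit 4) (nat_lit 446) (nat_lit 378) (nat_lit 376)) (XT.lf (nat_lit 0) (nat_lit 4524985771)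 (nat_lit 152) (nat_lit 5601092043) (nat_lit 152) (nat_lit 3512040253) (nat_lit 72) (nat_lit 4) (nat_lit 74) (nat_lit 5) (nat_lit 74) (nat_lit 4) (nat_lit 447) (nat_lit 378) (nat_lit 375)))) (XT.nd (nat_lit 156) (nat_lit 380) (nat_lit 0) (XT.nd (nat_lit 78) (nat_lit 228) (nat_lit 0) (XT.lf (nat_lit 0) (nat_lit 5967105073) (nat_lit 228) (nat_lit 4717374406) (nat_lit 0) (nat_lit 3326171648) (nat_lit 69) (nat_lit 5) (nat_lit 72) (nat_lit 4) (nat_lit 69) (nat_lit 4) (nat_lit 448) (nat_lit 378) (nat_lit 374)) (XT.lf (nat_lit 0) (nat_lit 1391716440) (nat_lit 228) (nat_lit 399299341) (nat_lit 76) (nat_lit 12610158042) (nat_lit 66) (nat_lit 5) (nat_lit 69) (nat_lit 5) (nat_lit 67) (nat_lit 4) (nat_lit 449) (nat_lit 378) (nat_lit 373))) (XT.nd (nat_lit 78) (nat_lit 152) (nat_lit 0) (XT.lf (nat_lit 0) (nat_lit 3853612375) (nat_lit 152) (nat_lit 7312188621) (nat_lit 152) (nat_lit 3642046975) (nat_lit 63)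 (nat_lit 4) (nat_lit 65) (nat_lit 5) (nat_lit 65) (nat_lit 4) (nat_lit 450) (nat_lit 378) (nat_lit 372)) (XT.lf (nat_lit 0) (nat_lit 6037339565) (nat_lit 152) (nat_lit 7221629902) (nat_lit 0) (nat_lit 1975181766) (nat_lit 61) (nat_lit 5) (nat_lit 63) (nat_lit 4) (nat_lit 61) (nat_lit 4) (nat_lit 451) (nat_lit 378) (nat_lit 371))))))))
noncomputable def xc15 : XT := (XT.nd (nat_lit 1950) (nat_lit 1140) (nat_lit 0) (XT.nd (nat_lit 936) (nat_lit 1216) (nat_lit 0) (XT.nd (nat_lit 468) (nat_lit 760) (nat_lit 0) (XT.nd (nat_lit 234) (nat_lit 456) (nat_lit 0) (XT.nd (nat_lit 78) (nat_lit 380) (nat_lit 0) (XT.lf (nat_lit 0) (nat_lit 438643065) (nat_lit 228) (nat_lit 3646868074) (nat_lit 76) (nat_lit 11594983808) (nat_lit 58) (nat_lit 5) (nat_lit 61) (nat_lit 5) (nat_lit 59) (nat_lit 4) (nat_lit 452) (nat_lit 378) (nat_lit 370)) (XT.nd (nat_lit 78) (nat_lit 304) (nat_lit 0) (XT.lf (nat_lit 0) (nat_lit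 10354268193) (nat_lit 152) (nat_lit 282750903) (nat_lit 0) (nat_lit 5509760684) (nat_lit 57) (nat_lit 5) (nat_lit 59) (nat_lit 4) (nat_lit 57) (nat_lit 4) (nat_lit 453) (nat_lit 378) (nat_lit 369)) (XT.lf (nat_lit 0) (nat_lit 2970113828) (nat_lit 76) (nat_lit 1085575206) (nat_lit 152) (nat_lit 12579302582) (nat_lit 53) (nat_lit 5) (nat_lit 54) (nat_lit 5) (nat_lit 55) (nat_lit 4) (nat_lit 454) (nat_lit 378) (nat_lit 368)))) (XT.nd (nat_lit 78) (nat_lit 304) (nat_lit 0) (XT.lf (nat_lit 0) (nat_lit 5966724806) (nat_lit 152) (nat_lit 8337445835) (nat_lit 152) (nat_lit 2840904863) (nat_lit 51) (nat_lit 4) (nat_lit 53) (nat_lit 5) (nat_lit 53) (nat_lit 4) (nat_lit 455) (nat_lit 378) (nat_lit 367)) (XT.nd (nat_lit 78) (nat_lit 152) (nat_lit 0) (XT.lf (nat_lit 0) (nat_lit 7207443046) (nat_lit 152) (nat_lit 8958832545) (nat_lit 0) (nat_lit 1513255855) (nat_lit 49) (nat_lit 5) (nat_lit 51) (nat_lit 4)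 (nat_lit 49) (nat_lit 4) (nat_lit 456) (nat_lit 378) (nat_lit 366)) (XT.lf (nat_lit 0) (nat_lit 11184726176) (nat_lit 152) (nat_lit 6544573529) (nat_lit 152) (nat_lit 509681914) (nat_lit 47) (nat_lit 4) (nat_lit 49) (nat_lit 5) (nat_lit 49) (nat_lit 4) (nat_lit 457) (nat_lit 378) (nat_lit 365))))) (XT.nd (nat_lit 234) (nat_lit 380) (nat_lit 0) (XT.nd (nat_lit 78) (nat_lit 228) (nat_lit 0) (XT.lf (nat_lit 0) (nat_lit 9740063862) (nat_lit 152) (nat_lit 5518062521) (nat_lit 0) (nat_lit 3565916271) (nat_lit 45) (nat_lit 5) (nat_lit 47) (nat_lit 4) (nat_lit 45) (nat_lit 4) (nat_lit 458) (nat_lit 378) (nat_lit 364)) (XT.nd (nat_lit 78) (nat_lit 76) (nat_lit 0) (XT.lf (nat_lit 0) (nat_lit 1050728063) (nat_lit 152) (nat_lit 4341197733) (nat_lit 76) (nat_lit 14045452743) (nat_lit 43) (nat_lit 5) (nat_lit 45) (nat_lit 5) (nat_lit 44) (nat_lit 4) (nat_lit 459) (nat_lit 378) (nat_lit 363)) (XT.lf (nat_lit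 0) (nat_lit 11508785843) (nat_lit 152) (nat_lit 3624011380) (nat_lit 0) (nat_lit 4945759860) (nat_lit 42) (nat_lit 5) (nat_lit 44) (nat_lit 4) (nat_lit 42) (nat_lit 4) (nat_lit 460) (nat_lit 378) (nat_lit 362)))) (XT.nd (nat_lit 78) (nat_lit 228) (nat_lit 0) (XT.lf (nat_lit 0) (nat_lit 1714929758) (nat_lit 152) (nat_lit 3345926671) (nat_lit 76) (nat_lit 15690118199) (nat_lit 40) (nat_lit 5) (nat_lit 42) (nat_lit 5) (nat_lit 41) (nat_lit 4) (nat_lit 461) (nat_lit 378) (nat_lit 361)) (XT.nd (nat_lit 78) (nat_lit 152) (nat_lit 0) (XT.lf (nat_lit 0) (nat_lit 12350457294) (nat_lit 152) (nat_lit 3625826220) (nat_lit 0) (nat_lit 5477776863) (nat_lit 39) (nat_lit 5) (nat_lit 41) (nat_lit 4) (nat_lit 39) (nat_lit 4) (nat_lit 462) (nat_lit 378) (nat_lit 360)) (XT.lf (nat_lit 0) (nat_lit 1310432658) (nat_lit 152) (nat_lit 4445166730) (nat_lit 76) (nat_lit 16436000750) (nat_lit 37) (nat_lit 5) (nat_lit 39)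 (nat_lit 5) (nat_lit 38) (nat_lit 4) (nat_lit 463) (nat_lit 378) (nat_lit 359)))))) (XT.nd (nat_lit 468) (nat_lit 608) (nat_lit 0) (XT.nd (nat_lit 234) (nat_lit 304) (nat_lit 0) (XT.nd (nat_lit 78) (nat_lit 228) (nat_lit 0) (XT.lf (nat_lit 0) (nat_lit 12068081520) (nat_lit 152) (nat_lit 5940345508) (nat_lit 0) (nat_lit 4954556901) (nat_lit 36) (nat_lit 5) (nat_lit 38) (nat_lit 4) (nat_lit 36) (nat_lit 4) (nat_lit 464) (nat_lit 378) (nat_lit 358)) (XT.nd (nat_lit 78) (nat_lit 152) (nat_lit 0) (XT.lf (nat_lit 0) (nat_lit 15674533769) (nat_lit 76) (nat_lit 7708124909) (nat_lit 76) (nat_lit 389713253) (nat_lit 35) (nat_lit 4) (nat_lit 36) (nat_lit 5) (nat_lit 36) (nat_lit 4) (nat_lit 465) (nat_lit 378) (nat_lit 357)) (XT.lf (nat_lit 0) (nat_lit 10424898067) (nat_lit 152) (nat_lit 11064317633) (nat_lit 0) (nat_lit 3130196934) (nat_lit 33) (nat_lit 5) (nat_lit 35) (nat_lit 4) (nat_lit 33) (nat_lit 4)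 (nat_lit 466) (nat_lit 378) (nat_lit 356)))) (XT.nd (nat_lit 78) (nat_lit 228) (nat_lit 0) (XT.lf (nat_lit 0) (nat_lit 10637359971) (nat_lit 76) (nat_lit 11172663460) (nat_lit 76) (nat_lit 3697536519) (nat_lit 32) (nat_lit 4) (nat_lit 33) (nat_lit 5) (nat_lit 33) (nat_lit 4) (nat_lit 467) (nat_lit 378) (nat_lit 355)) (XT.nd (nat_lit 78) (nat_lit 76) (nat_lit 0) (XT.lf (nat_lit 0) (nat_lit 6847704907) (nat_lit 76) (nat_lit 292524624) (nat_lit 152) (nat_lit 19299012269) (nat_lit 30) (nat_lit 5) (nat_lit 31) (nat_lit 5) (nat_lit 32) (nat_lit 4) (nat_lit 468) (nat_lit 378) (nat_lit 354)) (XT.lf (nat_lit 0) (nat_lit 2017762190) (nat_lit 76) (nat_lit 16489921559) (nat_lit 76) (nat_lit 8906802559) (nat_lit 29) (nat_lit 4) (nat_lit 30) (nat_lit 5) (nat_lit 30) (nat_lit 4) (nat_lit 469) (nat_lit 378) (nat_lit 353))))) (XT.nd (nat_lit 234) (nat_lit 380) (nat_lit 0) (XT.nd (nat_lit 78) (nat_lit 152) (nat_lit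 0) (XT.lf (nat_lit 0) (nat_lit 1959378499) (nat_lit 152) (nat_lit 3756899671) (nat_lit 76) (nat_lit 22721836674) (nat_lit 28) (nat_lit 5) (nat_lit 30) (nat_lit 5) (nat_lit 29) (nat_lit 4) (nat_lit 470) (nat_lit 378) (nat_lit 352)) (XT.nd (nat_lit 78) (nat_lit 76) (nat_lit 0) (XT.lf (nat_lit 0) (nat_lit 13219145838) (nat_lit 152) (nat_lit 10720036421) (nat_lit 0) (nat_lit 5570066825) (nat_lit 27) (nat_lit 5) (nat_lit 29) (nat_lit 4) (nat_lit 27) (nat_lit 4) (nat_lit 471) (nat_lit 378) (nat_lit 351)) (XT.lf (nat_lit 0) (nat_lit 11688350168) (nat_lit 76) (nat_lit 13363809261) (nat_lit 76) (nat_lit 5581477028) (nat_lit 26) (nat_lit 4) (nat_lit 27) (nat_lit 5) (nat_lit 27) (nat_lit 4) (nat_lit 472) (nat_lit 378) (nat_lit 350)))) (XT.nd (nat_lit 156) (nat_lit 228) (nat_lit 0) (XT.nd (nat_lit 78) (nat_lit 0) (nat_lit 0) (XT.lf (nat_lit 0) (nat_lit 3255527202) (nat_lit 76) (nat_lit 2244358149) (nat_lit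 152) (nat_lit 26314294664) (nat_lit 24) (nat_lit 5) (nat_lit 25) (nat_lit 5) (nat_lit 26) (nat_lit 4) (nat_lit 473) (nat_lit 378) (nat_lit 349)) (XT.lf (nat_lit 0) (nat_lit 17117585512) (nat_lit 152) (nat_lit 6610212549) (nat_lit 0) (nat_lit 9321367394) (nat_lit 24) (nat_lit 5) (nat_lit 26) (nat_lit 4) (nat_lit 24) (nat_lit 4) (nat_lit 474) (nat_lit 378) (nat_lit 348))) (XT.nd (nat_lit 78) (nat_lit 152) (nat_lit 0) (XT.lf (nat_lit 0) (nat_lit 16374744874) (nat_lit 76) (nat_lit 12939594149) (nat_lit 76) (nat_lit 5031619582) (nat_lit 23) (nat_lit 4) (nat_lit 24) (nat_lit 5) (nat_lit 24) (nat_lit 4) (nat_lit 475) (nat_lit 378) (nat_lit 347)) (XT.lf (nat_lit 0) (nat_lit 4618251577) (nat_lit 76) (nat_lit 1604734066) (nat_lit 152) (nat_lit 29484715702) (nat_lit 21) (nat_lit 5) (nat_lit 22) (nat_lit 5) (nat_lit 23) (nat_lit 4) (nat_lit 476) (nat_lit 378) (nat_lit 346))))))) (XT.nd (nat_lit 1014) (nat_lit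 456) (nat_lit 0) (XT.nd (nat_lit 468) (nat_lit 380) (nat_lit 0) (XT.nd (nat_lit 234) (nat_lit 152) (nat_lit 0) (XT.nd (nat_lit 78) (nat_lit 152) (nat_lit 0) (XT.lf (nat_lit 0) (nat_lit 18048316115) (nat_lit 152) (nat_lit 8915439682) (nat_lit 0) (nat_lit 10168922258) (nat_lit 21) (nat_lit 5) (nat_lit 23) (nat_lit 4) (nat_lit 21) (nat_lit 4) (nat_lit 477) (nat_lit 378) (nat_lit 345)) (XT.nd (nat_lit 78) (nat_lit 76) (nat_lit 0) (XT.lf (nat_lit 0) (nat_lit 14301969023) (nat_lit 76) (nat_lit 16150220334) (nat_lit 76) (nat_lit 8177098883) (nat_lit 20) (nat_lit 4) (nat_lit 21) (nat_lit 5) (nat_lit 21) (nat_lit 4) (nat_lit 478) (nat_lit 378) (nat_lit 344)) (XT.lf (nat_lit 0) (nat_lit 3141152610) (nat_lit 152) (nat_lit 1685846026) (nat_lit 76) (nat_lit 35374902134) (nat_lit 19) (nat_lit 5) (nat_lit 21) (nat_lit 5) (nat_lit 20) (nat_lit 4) (nat_lit 479) (nat_lit 378) (nat_lit 343)))) (XT.nd (nat_lit 78)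 (nat_lit 76) (nat_lit 0) (XT.lf (nat_lit 0) (nat_lit 14984486734) (nat_lit 152) (nat_lit 19787992263) (nat_lit 0) (nat_lit 7074390115) (nat_lit 18) (nat_lit 5) (nat_lit 20) (nat_lit 4) (nat_lit 18) (nat_lit 4) (nat_lit 480) (nat_lit 378) (nat_lit 342)) (XT.nd (nat_lit 78) (nat_lit 0) (nat_lit 0) (XT.lf (nat_lit 0) (nat_lit 3164337794) (nat_lit 76) (nat_lit 24200061008) (nat_lit 76) (nat_lit 16211357185) (nat_lit 17) (nat_lit 4) (nat_lit 18) (nat_lit 5) (nat_lit 18) (nat_lit 4) (nat_lit 481) (nat_lit 378) (nat_lit 341)) (XT.lf (nat_lit 0) (nat_lit 27385406016) (nat_lit 76) (nat_lit 13033787373) (nat_lit 76) (nat_lit 4970219547) (nat_lit 17) (nat_lit 4) (nat_lit 18) (nat_lit 5) (nat_lit 18) (nat_lit 4) (nat_lit 482) (nat_lit 378) (nat_lit 340))))) (XT.nd (nat_lit 234) (nat_lit 152) (nat_lit 0) (XT.nd (nat_lit 78) (nat_lit 76) (nat_lit 0) (XT.lf (nat_lit 0) (nat_lit 5279823034) (nat_lit 76) (nat_lit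 1328398597) (nat_lit 152) (nat_lit 40686305303) (nat_lit 15) (nat_lit 5) (nat_lit 16) (nat_lit 5) (nat_lit 17) (nat_lit 4) (nat_lit 483) (nat_lit 378) (nat_lit 339)) (XT.nd (nat_lit 78) (nat_lit 76) (nat_lit 0) (XT.lf (nat_lit 0) (nat_lit 18816968498) (nat_lit 152) (nat_lit 19618715210) (nat_lit 0) (nat_lit 10853113415) (nat_lit 15) (nat_lit 5) (nat_lit 17) (nat_lit 4) (nat_lit 15) (nat_lit 4) (nat_lit 484) (nat_lit 378) (nat_lit 338)) (XT.lf (nat_lit 0) (nat_lit 3692793977) (nat_lit 76) (nat_lit 27859572113) (nat_lit 76) (nat_lit 19832930292) (nat_lit 14) (nat_lit 4) (nat_lit 15) (nat_lit 5) (nat_lit 15) (nat_lit 4) (nat_lit 485) (nat_lit 378) (nat_lit 337)))) (XT.nd (nat_lit 156) (nat_lit 76) (nat_lit 0) (XT.nd (nat_lit 78) (nat_lit 76) (nat_lit 0) (XT.lf (nat_lit 0) (nat_lit 28324458130) (nat_lit 76) (nat_lit 16673204591) (nat_lit 76) (nat_lit 8586765875) (nat_lit 14) (nat_lit 4) (nat_lit 15)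 (nat_lit 5) (nat_lit 15) (nat_lit 4) (nat_lit 486) (nat_lit 378) (nat_lit 336)) (XT.lf (nat_lit 0) (nat_lit 3034929600) (nat_lit 152) (nat_lit 1982481049) (nat_lit 76) (nat_lit 50878896727) (nat_lit 13) (nat_lit 5) (nat_lit 15) (nat_lit 5) (nat_lit 14) (nat_lit 4) (nat_lit 487) (nat_lit 378) (nat_lit 335))) (XT.nd (nat_lit 78) (nat_lit 0) (nat_lit 0) (XT.lf (nat_lit 0) (nat_lit 15232111308) (nat_lit 152) (nat_lit 35810708821) (nat_lit 0) (nat_lit 7273251420) (nat_lit 12) (nat_lit 5) (nat_lit 14) (nat_lit 4) (nat_lit 12) (nat_lit 4) (nat_lit 488) (nat_lit 378) (nat_lit 334)) (XT.lf (nat_lit 0) (nat_lit 27994745532) (nat_lit 152) (nat_lit 12877676811) (nat_lit 0) (nat_lit 19985735348) (nat_lit 12) (nat_lit 5) (nat_lit 14) (nat_lit 4) (nat_lit 12) (nat_lit 4) (nat_lit 489) (nat_lit 378) (nat_lit 333)))))) (XT.nd (nat_lit 468) (nat_lit 228) (nat_lit 0) (XT.nd (nat_lit 234) (nat_lit 76) (nat_lit 0)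 (XT.nd (nat_lit 78) (nat_lit 76) (nat_lit 0) (XT.lf (nat_lit 0) (nat_lit 11201883672) (nat_lit 76) (nat_lit 30191156239) (nat_lit 76) (nat_lit 22134383867) (nat_lit 11) (nat_lit 4) (nat_lit 12) (nat_lit 5) (nat_lit 12) (nat_lit 4) (nat_lit 490) (nat_lit 378) (nat_lit 332)) (XT.nd (nat_lit 78) (nat_lit 76) (nat_lit 0) (XT.lf (nat_lit 0) (nat_lit 36542084867) (nat_lit 76) (nat_lit 18944780698) (nat_lit 76) (nat_lit 10842520529) (nat_lit 11) (nat_lit 4) (nat_lit 12) (nat_lit 5) (nat_lit 12) (nat_lit 4) (nat_lit 491) (nat_lit 378) (nat_lit 331)) (XT.lf (nat_lit 0) (nat_lit 891285627) (nat_lit 152) (nat_lit 6336272056) (nat_lit 76) (nat_lit 62046683701) (nat_lit 10) (nat_lit 5) (nat_lit 12) (nat_lit 5) (nat_lit 11) (nat_lit 4) (nat_lit 492) (nat_lit 378) (nat_lit 330)))) (XT.nd (nat_lit 78) (nat_lit 0) (nat_lit 0) (XT.lf (nat_lit 0) (nat_lit 13118655206) (nat_lit 152) (nat_lit 54070265320) (nat_lit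 0) (nat_lit 5170266222) (nat_lit 9) (nat_lit 5) (nat_lit 11) (nat_lit 4) (nat_lit 9) (nat_lit 4) (nat_lit 493) (nat_lit 378) (nat_lit 329)) (XT.nd (nat_lit 78) (nat_lit 0) (nat_lit 0) (XT.lf (nat_lit 0) (nat_lit 26000193031) (nat_lit 152) (nat_lit 31583249081) (nat_lit 0) (nat_lit 18013654464) (nat_lit 9) (nat_lit 5) (nat_lit 11) (nat_lit 4) (nat_lit 9) (nat_lit 4) (nat_lit 494) (nat_lit 378) (nat_lit 328)) (XT.lf (nat_lit 0) (nat_lit 39434358358) (nat_lit 152) (nat_lit 8153801301) (nat_lit 0) (nat_lit 31411486855) (nat_lit 9) (nat_lit 5) (nat_lit 11) (nat_lit 4) (nat_lit 9) (nat_lit 4) (nat_lit 495) (nat_lit 378) (nat_lit 327))))) (XT.nd (nat_lit 234) (nat_lit 152) (nat_lit 0) (XT.nd (nat_lit 78) (nat_lit 0) (nat_lit 0) (XT.lf (nat_lit 0) (nat_lit 16597744192) (nat_lit 76) (nat_lit 37014940772) (nat_lit 76) (nat_lit 28957466474) (nat_lit 8) (nat_lit 4) (nat_lit 9) (nat_lit 5) (nat_lit 9) (nat_lit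 4) (nat_lit 496) (nat_lit 378) (nat_lit 326)) (XT.nd (nat_lit 78) (nat_lit 0) (nat_lit 0) (XT.lf (nat_lit 0) (nat_lit 42588967340) (nat_lit 76) (nat_lit 25910331751) (nat_lit 76) (nat_lit 17819902409) (nat_lit 8) (nat_lit 4) (nat_lit 9) (nat_lit 5) (nat_lit 9) (nat_lit 4) (nat_lit 497) (nat_lit 378) (nat_lit 325)) (XT.lf (nat_lit 0) (nat_lit 69719475372) (nat_lit 76) (nat_lit 14330230457) (nat_lit 76) (nat_lit 6208415360) (nat_lit 8) (nat_lit 4) (nat_lit 9) (nat_lit 5) (nat_lit 9) (nat_lit 4) (nat_lit 498) (nat_lit 378) (nat_lit 324)))) (XT.nd (nat_lit 58110) (nat_lit 0) (nat_lit 5776) (XT.nd (nat_lit 58032) (nat_lit 0) (nat_lit 6308) (XT.lf (nat_lit 0) (nat_lit 3672480146) (nat_lit 76) (nat_lit 2152242237) (nat_lit 152) (nat_lit 88568804665) (nat_lit 6) (nat_lit 5) (nat_lit 7) (nat_lit 5) (nat_lit 8) (nat_lit 4) (nat_lit 499) (nat_lit 378) (nat_lit 323)) (XT.lf (nat_lit 0) (nat_lit 1189822759)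 (nat_lit 228) (nat_lit 3621693859) (nat_lit 0) (nat_lit 1189822759) (nat_lit 89) (nat_lit 5) (nat_lit 92) (nat_lit 4) (nat_lit 89) (nat_lit 4) (nat_lit 442) (nat_lit 379) (nat_lit 379))) (XT.nd (nat_lit 78) (nat_lit 380) (nat_lit 0) (XT.lf (nat_lit 0) (nat_lit 9880607537) (nat_lit 152) (nat_lit 1631428409) (nat_lit 152) (nat_lit 793178176) (nat_lit 87) (nat_lit 4) (nat_lit 89) (nat_lit 5) (nat_lit 89) (nat_lit 4) (nat_lit 443) (nat_lit 379) (nat_lit 378)) (XT.lf (nat_lit 0) (nat_lit 2398889096) (nat_lit 152) (nat_lit 5905368455) (nat_lit 152) (nat_lit 4316452156) (nat_lit 82) (nat_lit 4) (nat_lit 84) (nat_lit 5) (nat_lit 84) (nat_lit 4) (nat_lit 444) (nat_lit 379) (nat_lit 377))))))))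
noncomputable def xc16 : XT := (XT.nd (nat_lit 1950) (nat_lit 1596) (nat_lit 0) (XT.nd (nat_lit 936) (nat_lit 1444) (nat_lit 0) (XT.nd (nat_lit 468) (nat_lit 1064) (nat_lit 0) (XT.nd (nat_lit 234) (nat_lit 684) (nat_lit 0) (XT.nd (nat_lit 78) (nat_lit 532) (nat_lit 0) (XT.lf (nat_lit 0) (nat_lit 4765342963) (nat_lit 228) (nat_lit 5679811205) (nat_lit 0) (nat_lit 2506033452) (nat_lit 79) (nat_lit 5) (nat_lit 82) (nat_lit 4) (nat_lit 79) (nat_lit 4) (nat_lit 445) (nat_lit 379) (nat_lit 376)) (XT.nd (nat_lit 78) (nat_lit 304) (nat_lit 0) (XT.lf (nat_lit 0) (nat_lit 869638818) (nat_lit 228) (nat_lit 1176487783) (nat_lit 76) (nat_lit 11251364168) (nat_lit 76) (nat_lit 5) (nat_lit 79) (nat_lit 5) (nat_lit 77) (nat_lit 4) (nat_lit 446) (nat_lit 379) (nat_lit 375)) (XT.lf (nat_lit 0) (nat_lit 3306262856) (nat_lit 152) (nat_lit 6919597907) (nat_lit 152) (nat_lit 3432318770) (nat_lit 72) (nat_lit 4) (nat_lit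 74) (nat_lit 5) (nat_lit 74) (nat_lit 4) (nat_lit 447) (nat_lit 379) (nat_lit 374)))) (XT.nd (nat_lit 78) (nat_lit 456) (nat_lit 0) (XT.lf (nat_lit 0) (nat_lit 5867524429) (nat_lit 228) (nat_lit 6270240216) (nat_lit 0) (nat_lit 1898266239) (nat_lit 69) (nat_lit 5) (nat_lit 72) (nat_lit 4) (nat_lit 69) (nat_lit 4) (nat_lit 448) (nat_lit 379) (nat_lit 373)) (XT.nd (nat_lit 78) (nat_lit 228) (nat_lit 0) (XT.lf (nat_lit 0) (nat_lit 1104189917) (nat_lit 228) (nat_lit 2283514838) (nat_lit 76) (nat_lit 11043843215) (nat_lit 66) (nat_lit 5) (nat_lit 69) (nat_lit 5) (nat_lit 67) (nat_lit 4) (nat_lit 449) (nat_lit 379) (nat_lit 372)) (XT.lf (nat_lit 0) (nat_lit 1601321991) (nat_lit 152) (nat_lit 9075035013) (nat_lit 152) (nat_lit 4167930465) (nat_lit 63) (nat_lit 4) (nat_lit 65) (nat_lit 5) (nat_lit 65) (nat_lit 4) (nat_lit 450) (nat_lit 379) (nat_lit 371))))) (XT.nd (nat_lit 234) (nat_lit 608) (nat_lit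 0) (XT.nd (nat_lit 78) (nat_lit 304) (nat_lit 0) (XT.lf (nat_lit 0) (nat_lit 5335049686) (nat_lit 152) (nat_lit 9845585167) (nat_lit 0) (nat_lit 95714815) (nat_lit 61) (nat_lit 5) (nat_lit 63) (nat_lit 4) (nat_lit 61) (nat_lit 4) (nat_lit 451) (nat_lit 379) (nat_lit 370)) (XT.nd (nat_lit 78) (nat_lit 152) (nat_lit 0) (XT.lf (nat_lit 0) (nat_lit 9094970502) (nat_lit 152) (nat_lit 6162386692) (nat_lit 152) (nat_lit 470522584) (nat_lit 59) (nat_lit 4) (nat_lit 61) (nat_lit 5) (nat_lit 61) (nat_lit 4) (nat_lit 452) (nat_lit 379) (nat_lit 369)) (XT.lf (nat_lit 0) (nat_lit 9263875717) (nat_lit 152) (nat_lit 3616776553) (nat_lit 0) (nat_lit 3319366655) (nat_lit 57) (nat_lit 5) (nat_lit 59) (nat_lit 4) (nat_lit 57) (nat_lit 4) (nat_lit 453) (nat_lit 379) (nat_lit 368)))) (XT.nd (nat_lit 78) (nat_lit 380) (nat_lit 0) (XT.lf (nat_lit 0) (nat_lit 2734808312) (nat_lit 228) (nat_lit 791350476) (nat_lit 76)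 (nat_lit 13168394628) (nat_lit 54) (nat_lit 5) (nat_lit 57) (nat_lit 5) (nat_lit 55) (nat_lit 4) (nat_lit 454) (nat_lit 379) (nat_lit 367)) (XT.nd (nat_lit 78) (nat_lit 152) (nat_lit 0) (XT.lf (nat_lit 0) (nat_lit 1816626547) (nat_lit 152) (nat_lit 10960468744) (nat_lit 152) (nat_lit 4433733463) (nat_lit 51) (nat_lit 4) (nat_lit 53) (nat_lit 5) (nat_lit 53) (nat_lit 4) (nat_lit 455) (nat_lit 379) (nat_lit 366)) (XT.lf (nat_lit 0) (nat_lit 4195892729) (nat_lit 76) (nat_lit 1259059766) (nat_lit 152) (nat_lit 12296519039) (nat_lit 49) (nat_lit 5) (nat_lit 50) (nat_lit 5) (nat_lit 51) (nat_lit 4) (nat_lit 456) (nat_lit 379) (nat_lit 365)))))) (XT.nd (nat_lit 468) (nat_lit 684) (nat_lit 0) (XT.nd (nat_lit 234) (nat_lit 380) (nat_lit 0) (XT.nd (nat_lit 78) (nat_lit 228) (nat_lit 0) (XT.lf (nat_lit 0) (nat_lit 6257429121) (nat_lit 152) (nat_lit 9530492587) (nat_lit 152) (nat_lit 2528671564) (nat_lit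 47) (nat_lit 4) (nat_lit 49) (nat_lit 5) (nat_lit 49) (nat_lit 4) (nat_lit 457) (nat_lit 379) (nat_lit 364)) (XT.nd (nat_lit 78) (nat_lit 76) (nat_lit 0) (XT.lf (nat_lit 0) (nat_lit 7551906318) (nat_lit 152) (nat_lit 10902598042) (nat_lit 0) (nat_lit 453993718) (nat_lit 45) (nat_lit 5) (nat_lit 47) (nat_lit 4) (nat_lit 45) (nat_lit 4) (nat_lit 458) (nat_lit 379) (nat_lit 363)) (XT.lf (nat_lit 0) (nat_lit 9372713846) (nat_lit 76) (nat_lit 8769231941) (nat_lit 76) (nat_lit 1385578281) (nat_lit 44) (nat_lit 4) (nat_lit 45) (nat_lit 5) (nat_lit 45) (nat_lit 4) (nat_lit 459) (nat_lit 379) (nat_lit 362)))) (XT.nd (nat_lit 78) (nat_lit 228) (nat_lit 0) (XT.lf (nat_lit 0) (nat_lit 8884499196) (nat_lit 152) (nat_lit 9839362240) (nat_lit 0) (nat_lit 1451695310) (nat_lit 42) (nat_lit 5) (nat_lit 44) (nat_lit 4) (nat_lit 42) (nat_lit 4) (nat_lit 460) (nat_lit 379) (nat_lit 361)) (XT.nd (nat_lit 78) (nat_lit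 152) (nat_lit 0) (XT.lf (nat_lit 0) (nat_lit 10849682821) (nat_lit 76) (nat_lit 8844348489) (nat_lit 76) (nat_lit 1159917842) (nat_lit 41) (nat_lit 4) (nat_lit 42) (nat_lit 5) (nat_lit 42) (nat_lit 4) (nat_lit 461) (nat_lit 379) (nat_lit 360)) (XT.lf (nat_lit 0) (nat_lit 9276026365) (nat_lit 152) (nat_lit 10705263609) (nat_lit 0) (nat_lit 1582749490) (nat_lit 39) (nat_lit 5) (nat_lit 41) (nat_lit 4) (nat_lit 39) (nat_lit 4) (nat_lit 462) (nat_lit 379) (nat_lit 359))))) (XT.nd (nat_lit 234) (nat_lit 380) (nat_lit 0) (XT.nd (nat_lit 78) (nat_lit 228) (nat_lit 0) (XT.lf (nat_lit 0) (nat_lit 10314162851) (nat_lit 76) (nat_lit 9954120450) (nat_lit 76) (nat_lit 2039258244) (nat_lit 38) (nat_lit 4) (nat_lit 39) (nat_lit 5) (nat_lit 39) (nat_lit 4) (nat_lit 463) (nat_lit 379) (nat_lit 358)) (XT.nd (nat_lit 78) (nat_lit 76) (nat_lit 0) (XT.lf (nat_lit 0) (nat_lit 8528001515) (nat_lit 152) (nat_lit 13919638252)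 (nat_lit 0) (nat_lit 638782240) (nat_lit 36) (nat_lit 5) (nat_lit 38) (nat_lit 4) (nat_lit 36) (nat_lit 4) (nat_lit 464) (nat_lit 379) (nat_lit 357)) (XT.lf (nat_lit 0) (nat_lit 7319451725) (nat_lit 76) (nat_lit 12333204359) (nat_lit 76) (nat_lit 4248854572) (nat_lit 35) (nat_lit 4) (nat_lit 36) (nat_lit 5) (nat_lit 36) (nat_lit 4) (nat_lit 465) (nat_lit 379) (nat_lit 356)))) (XT.nd (nat_lit 156) (nat_lit 152) (nat_lit 0) (XT.nd (nat_lit 78) (nat_lit 76) (nat_lit 0) (XT.lf (nat_lit 0) (nat_lit 4758515845) (nat_lit 76) (nat_lit 1659565048) (nat_lit 152) (nat_lit 18338275557) (nat_lit 33) (nat_lit 5) (nat_lit 34) (nat_lit 5) (nat_lit 35) (nat_lit 4) (nat_lit 466) (nat_lit 379) (nat_lit 355)) (XT.lf (nat_lit 0) (nat_lit 1333240680) (nat_lit 76) (nat_lit 16259363481) (nat_lit 76) (nat_lit 8058220283) (nat_lit 32) (nat_lit 4) (nat_lit 33) (nat_lit 5) (nat_lit 33) (nat_lit 4) (nat_lit 467) (nat_lit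 379) (nat_lit 354))) (XT.nd (nat_lit 78) (nat_lit 76) (nat_lit 0) (XT.lf (nat_lit 0) (nat_lit 2695684226) (nat_lit 152) (nat_lit 2892555745) (nat_lit 76) (nat_lit 21000594896) (nat_lit 31) (nat_lit 5) (nat_lit 33) (nat_lit 5) (nat_lit 32) (nat_lit 4) (nat_lit 468) (nat_lit 379) (nat_lit 353)) (XT.lf (nat_lit 0) (nat_lit 13863184243) (nat_lit 152) (nat_lit 8116190770) (nat_lit 0) (nat_lit 5590705291) (nat_lit 30) (nat_lit 5) (nat_lit 32) (nat_lit 4) (nat_lit 30) (nat_lit 4) (nat_lit 469) (nat_lit 379) (nat_lit 352))))))) (XT.nd (nat_lit 936) (nat_lit 684) (nat_lit 0) (XT.nd (nat_lit 468) (nat_lit 380) (nat_lit 0) (XT.nd (nat_lit 234) (nat_lit 228) (nat_lit 0) (XT.nd (nat_lit 78) (nat_lit 228) (nat_lit 0) (XT.lf (nat_lit 0) (nat_lit 14213687513) (nat_lit 76) (nat_lit 11401260326) (nat_lit 76) (nat_lit 2984668016) (nat_lit 29) (nat_lit 4) (nat_lit 30) (nat_lit 5) (nat_lit 30) (nat_lit 4) (nat_lit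 470) (nat_lit 379) (nat_lit 351)) (XT.nd (nat_lit 78) (nat_lit 76) (nat_lit 0) (XT.lf (nat_lit 0) (nat_lit 7845903777) (nat_lit 76) (nat_lit 232789279) (nat_lit 152) (nat_lit 21600559218) (nat_lit 27) (nat_lit 5) (nat_lit 28) (nat_lit 5) (nat_lit 29) (nat_lit 4) (nat_lit 471) (nat_lit 379) (nat_lit 350)) (XT.lf (nat_lit 0) (nat_lit 171347399) (nat_lit 76) (nat_lit 19535031948) (nat_lit 76) (nat_lit 11103422053) (nat_lit 26) (nat_lit 4) (nat_lit 27) (nat_lit 5) (nat_lit 27) (nat_lit 4) (nat_lit 472) (nat_lit 379) (nat_lit 349)))) (XT.nd (nat_lit 78) (nat_lit 228) (nat_lit 0) (XT.lf (nat_lit 0) (nat_lit 23369341842) (nat_lit 76) (nat_lit 8589358448) (nat_lit 76) (nat_lit 36883955) (nat_lit 26) (nat_lit 4) (nat_lit 27) (nat_lit 5) (nat_lit 27) (nat_lit 4) (nat_lit 473) (nat_lit 379) (nat_lit 348)) (XT.nd (nat_lit 78) (nat_lit 76) (nat_lit 0) (XT.lf (nat_lit 0) (nat_lit 11346409445) (nat_lit 152)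 (nat_lit 18959946671) (nat_lit 0) (nat_lit 2931279702) (nat_lit 24) (nat_lit 5) (nat_lit 26) (nat_lit 4) (nat_lit 24) (nat_lit 4) (nat_lit 474) (nat_lit 379) (nat_lit 347)) (XT.lf (nat_lit 0) (nat_lit 3609701706) (nat_lit 76) (nat_lit 19726254766) (nat_lit 76) (nat_lit 11204690310) (nat_lit 23) (nat_lit 4) (nat_lit 24) (nat_lit 5) (nat_lit 24) (nat_lit 4) (nat_lit 475) (nat_lit 379) (nat_lit 346))))) (XT.nd (nat_lit 234) (nat_lit 152) (nat_lit 0) (XT.nd (nat_lit 78) (nat_lit 152) (nat_lit 0) (XT.lf (nat_lit 0) (nat_lit 43137418) (nat_lit 152) (nat_lit 8535361888) (nat_lit 76) (nat_lit 27329488985) (nat_lit 22) (nat_lit 5) (nat_lit 24) (nat_lit 5) (nat_lit 23) (nat_lit 4) (nat_lit 476) (nat_lit 379) (nat_lit 345)) (XT.nd (nat_lit 78) (nat_lit 76) (nat_lit 0) (XT.lf (nat_lit 0) (nat_lit 11635752528) (nat_lit 152) (nat_lit 22533947952) (nat_lit 0) (nat_lit 3170247410) (nat_lit 21) (nat_lit 5) (nat_lit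 23) (nat_lit 4) (nat_lit 21) (nat_lit 4) (nat_lit 477) (nat_lit 379) (nat_lit 344)) (XT.lf (nat_lit 0) (nat_lit 256923098) (nat_lit 76) (nat_lit 23570387640) (nat_lit 76) (nat_lit 15015618147) (nat_lit 20) (nat_lit 4) (nat_lit 21) (nat_lit 5) (nat_lit 21) (nat_lit 4) (nat_lit 478) (nat_lit 379) (nat_lit 343)))) (XT.nd (nat_lit 78) (nat_lit 152) (nat_lit 0) (XT.lf (nat_lit 0) (nat_lit 24354630553) (nat_lit 76) (nat_lit 12351935323) (nat_lit 76) (nat_lit 3712152139) (nat_lit 20) (nat_lit 4) (nat_lit 21) (nat_lit 5) (nat_lit 21) (nat_lit 4) (nat_lit 479) (nat_lit 379) (nat_lit 342)) (XT.nd (nat_lit 78) (nat_lit 0) (nat_lit 0) (XT.lf (nat_lit 0) (nat_lit 7356992381) (nat_lit 76) (nat_lit 563077069) (nat_lit 152) (nat_lit 34153195107) (nat_lit 18) (nat_lit 5) (nat_lit 19) (nat_lit 5) (nat_lit 20) (nat_lit 4) (nat_lit 480) (nat_lit 379) (nat_lit 341)) (XT.lf (nat_lit 0) (nat_lit 20193418458) (nat_lit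 152) (nat_lit 11960122769) (nat_lit 0) (nat_lit 11651808237) (nat_lit 18) (nat_lit 5) (nat_lit 20) (nat_lit 4) (nat_lit 18) (nat_lit 4) (nat_lit 481) (nat_lit 379) (nat_lit 340)))))) (XT.nd (nat_lit 468) (nat_lit 380) (nat_lit 0) (XT.nd (nat_lit 234) (nat_lit 76) (nat_lit 0) (XT.nd (nat_lit 78) (nat_lit 152) (nat_lit 0) (XT.lf (nat_lit 0) (nat_lit 11887078541) (nat_lit 76) (nat_lit 21175208012) (nat_lit 76) (nat_lit 12562298740) (nat_lit 17) (nat_lit 4) (nat_lit 18) (nat_lit 5) (nat_lit 18) (nat_lit 4) (nat_lit 482) (nat_lit 379) (nat_lit 339)) (XT.nd (nat_lit 78) (nat_lit 152) (nat_lit 0) (XT.lf (nat_lit 0) (nat_lit 36911365705) (nat_lit 76) (nat_lit 9652280508) (nat_lit 76) (nat_lit 971467377) (nat_lit 17) (nat_lit 4) (nat_lit 18) (nat_lit 5) (nat_lit 18) (nat_lit 4) (nat_lit 483) (nat_lit 379) (nat_lit 338)) (XT.lf (nat_lit 0) (nat_lit 11006308712) (nat_lit 152) (nat_lit 36015305944) (nat_lit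 0) (nat_lit 2515548060) (nat_lit 15) (nat_lit 5) (nat_lit 17) (nat_lit 4) (nat_lit 15) (nat_lit 4) (nat_lit 484) (nat_lit 379) (nat_lit 337)))) (XT.nd (nat_lit 78) (nat_lit 76) (nat_lit 0) (XT.lf (nat_lit 0) (nat_lit 23644563445) (nat_lit 152) (nat_lit 12898007825) (nat_lit 0) (nat_lit 15094005899) (nat_lit 15) (nat_lit 5) (nat_lit 17) (nat_lit 4) (nat_lit 15) (nat_lit 4) (nat_lit 485) (nat_lit 379) (nat_lit 336)) (XT.nd (nat_lit 78) (nat_lit 0) (nat_lit 0) (XT.lf (nat_lit 0) (nat_lit 11358310766) (nat_lit 76) (nat_lit 25545247750) (nat_lit 76) (nat_lit 16937740781) (nat_lit 14) (nat_lit 4) (nat_lit 15) (nat_lit 5) (nat_lit 15) (nat_lit 4) (nat_lit 486) (nat_lit 379) (nat_lit 335)) (XT.lf (nat_lit 0) (nat_lit 36865325884) (nat_lit 76) (nat_lit 13976100088) (nat_lit 76) (nat_lit 5314355573) (nat_lit 14) (nat_lit 4) (nat_lit 15) (nat_lit 5) (nat_lit 15) (nat_lit 4) (nat_lit 487) (nat_lit 379) (nat_lit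 334))))) (XT.nd (nat_lit 234) (nat_lit 228) (nat_lit 0) (XT.nd (nat_lit 78) (nat_lit 0) (nat_lit 0) (XT.lf (nat_lit 0) (nat_lit 4867598181) (nat_lit 76) (nat_lit 1822548371) (nat_lit 152) (nat_lit 51895823928) (nat_lit 12) (nat_lit 5) (nat_lit 13) (nat_lit 5) (nat_lit 14) (nat_lit 4) (nat_lit 488) (nat_lit 379) (nat_lit 333)) (XT.nd (nat_lit 78) (nat_lit 0) (nat_lit 0) (XT.lf (nat_lit 0) (nat_lit 19381529173) (nat_lit 152) (nat_lit 30874509730) (nat_lit 0) (nat_lit 10874155995) (nat_lit 12) (nat_lit 5) (nat_lit 14) (nat_lit 4) (nat_lit 12) (nat_lit 4) (nat_lit 489) (nat_lit 379) (nat_lit 332)) (XT.lf (nat_lit 0) (nat_lit 32620970714) (nat_lit 152) (nat_lit 7115146811) (nat_lit 0) (nat_lit 24068109739) (nat_lit 12) (nat_lit 5) (nat_lit 14) (nat_lit 4) (nat_lit 12) (nat_lit 4) (nat_lit 490) (nat_lit 379) (nat_lit 331)))) (XT.nd (nat_lit 156) (nat_lit 152) (nat_lit 0) (XT.nd (nat_lit 78) (nat_lit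 0) (nat_lit 0) (XT.lf (nat_lit 0) (nat_lit 17984753130) (nat_lit 76) (nat_lit 28610601523) (nat_lit 76) (nat_lit 20014418836) (nat_lit 11) (nat_lit 4) (nat_lit 12) (nat_lit 5) (nat_lit 12) (nat_lit 4) (nat_lit 491) (nat_lit 379) (nat_lit 330)) (XT.lf (nat_lit 0) (nat_lit 44295641752) (nat_lit 76) (nat_lit 16949055421) (nat_lit 76) (nat_lit 8311613961) (nat_lit 11) (nat_lit 4) (nat_lit 12) (nat_lit 5) (nat_lit 12) (nat_lit 4) (nat_lit 492) (nat_lit 379) (nat_lit 329))) (XT.nd (nat_lit 78) (nat_lit 76) (nat_lit 0) (XT.lf (nat_lit 0) (nat_lit 3805437204) (nat_lit 152) (nat_lit 951698004) (nat_lit 76) (nat_lit 67894693997) (nat_lit 10) (nat_lit 5) (nat_lit 12) (nat_lit 5) (nat_lit 11) (nat_lit 4) (nat_lit 493) (nat_lit 379) (nat_lit 328)) (XT.lf (nat_lit 0) (nat_lit 16587214324) (nat_lit 152) (nat_lit 51178651774) (nat_lit 0) (nat_lit 8126866311) (nat_lit 9) (nat_lit 5) (nat_lit 11) (nat_lit 4) (nat_lit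 9) (nat_lit 4) (nat_lit 494) (nat_lit 379) (nat_lit 327))))))))
noncomputable def xc17 : XT := (XT.nd (nat_lit 59748) (nat_lit 0) (nat_lit 532) (XT.nd (nat_lit 58734) (nat_lit 0) (nat_lit 2736) (XT.nd (nat_lit 58266) (nat_lit 0) (nat_lit 5168) (XT.nd (nat_lit 234) (nat_lit 0) (nat_lit 0) (XT.nd (nat_lit 78) (nat_lit 76) (nat_lit 0) (XT.lf (nat_lit 0) (nat_lit 29978894452) (nat_lit 152) (nat_lit 27833719334) (nat_lit 0) (nat_lit 21483943643) (nat_lit 9) (nat_lit 5) (nat_lit 11) (nat_lit 4) (nat_lit 9) (nat_lit 4) (nat_lit 495) (nat_lit 379) (nat_lit 326)) (XT.nd (nat_lit 78) (nat_lit 76) (nat_lit 0) (XT.lf (nat_lit 0) (nat_lit 43957211294) (nat_lit 152) (nat_lit 3486546412) (nat_lit 0) (nat_lit 35429305442) (nat_lit 9) (nat_lit 5) (nat_lit 11) (nat_lit 4) (nat_lit 9) (nat_lit 4) (nat_lit 496) (nat_lit 379) (nat_lit 325)) (XT.lf (nat_lit 0) (nat_lit 22357104077) (nat_lit 76) (nat_lit 36413252640)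 (nat_lit 76) (nat_lit 27853961032) (nat_lit 8) (nat_lit 4) (nat_lit 9) (nat_lit 5) (nat_lit 9) (nat_lit 4) (nat_lit 497) (nat_lit 379) (nat_lit 324)))) (XT.nd (nat_lit 78) (nat_lit 0) (nat_lit 0) (XT.lf (nat_lit 0) (nat_lit 49413151588) (nat_lit 76) (nat_lit 24870195795) (nat_lit 76) (nat_lit 16281012992) (nat_lit 8) (nat_lit 4) (nat_lit 9) (nat_lit 5) (nat_lit 9) (nat_lit 4) (nat_lit 498) (nat_lit 379) (nat_lit 323)) (XT.nd (nat_lit 57876) (nat_lit 0) (nat_lit 6840) (XT.lf (nat_lit 0) (nat_lit 77676626171) (nat_lit 76) (nat_lit 12822310986) (nat_lit 76) (nat_lit 4204660377) (nat_lit 8) (nat_lit 4) (nat_lit 9) (nat_lit 5) (nat_lit 9) (nat_lit 4) (nat_lit 499) (nat_lit 379) (nat_lit 322)) (XT.lf (nat_lit 0) (nat_lit 3180561478) (nat_lit 228) (nat_lit 1268042977) (nat_lit 228) (nat_lit 1268042977) (nat_lit 98) (nat_lit 4) (nat_lit 101) (nat_lit 5) (nat_lit 101) (nat_lit 4) (nat_lit 440) (nat_lit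 380) (nat_lit 380))))) (XT.nd (nat_lit 234) (nat_lit 836) (nat_lit 0) (XT.nd (nat_lit 78) (nat_lit 608) (nat_lit 0) (XT.lf (nat_lit 0) (nat_lit 6134651360) (nat_lit 228) (nat_lit 351212238) (nat_lit 0) (nat_lit 5228083733) (nat_lit 95) (nat_lit 5) (nat_lit 98) (nat_lit 4) (nat_lit 95) (nat_lit 4) (nat_lit 441) (nat_lit 380) (nat_lit 379)) (XT.nd (nat_lit 78) (nat_lit 152) (nat_lit 0) (XT.lf (nat_lit 0) (nat_lit 3101766450) (nat_lit 228) (nat_lit 7522312854) (nat_lit 0) (nat_lit 1383353472) (nat_lit 89) (nat_lit 5) (nat_lit 92) (nat_lit 4) (nat_lit 89) (nat_lit 4) (nat_lit 442) (nat_lit 380) (nat_lit 378)) (XT.lf (nat_lit 0) (nat_lit 9325201442) (nat_lit 152) (nat_lit 2753100519) (nat_lit 152) (nat_lit 236353986) (nat_lit 87) (nat_lit 4) (nat_lit 89) (nat_lit 5) (nat_lit 89) (nat_lit 4) (nat_lit 443) (nat_lit 380) (nat_lit 377)))) (XT.nd (nat_lit 78) (nat_lit 456) (nat_lit 0) (XT.lf (nat_lit 0)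 (nat_lit 1532211060) (nat_lit 152) (nat_lit 7142338434) (nat_lit 152) (nat_lit 3960722701) (nat_lit 82) (nat_lit 4) (nat_lit 84) (nat_lit 5) (nat_lit 84) (nat_lit 4) (nat_lit 444) (nat_lit 380) (nat_lit 376)) (XT.nd (nat_lit 78) (nat_lit 228) (nat_lit 0) (XT.lf (nat_lit 0) (nat_lit 4942020736) (nat_lit 228) (nat_lit 6858272135) (nat_lit 0) (nat_lit 1170528349) (nat_lit 79) (nat_lit 5) (nat_lit 82) (nat_lit 4) (nat_lit 79) (nat_lit 4) (nat_lit 445) (nat_lit 380) (nat_lit 375)) (XT.lf (nat_lit 0) (nat_lit 863653718) (nat_lit 228) (nat_lit 2668318265) (nat_lit 76) (nat_lit 9789915652) (nat_lit 76) (nat_lit 5) (nat_lit 79) (nat_lit 5) (nat_lit 77) (nat_lit 4) (nat_lit 446) (nat_lit 380) (nat_lit 374)))))) (XT.nd (nat_lit 468) (nat_lit 1140) (nat_lit 0) (XT.nd (nat_lit 234) (nat_lit 532) (nat_lit 0) (XT.nd (nat_lit 78) (nat_lit 456) (nat_lit 0) (XT.lf (nat_lit 0) (nat_lit 1474552196) (nat_lit 152)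 (nat_lit 8553794380) (nat_lit 152) (nat_lit 3659984850) (nat_lit 72) (nat_lit 4) (nat_lit 74) (nat_lit 5) (nat_lit 74) (nat_lit 4) (nat_lit 447) (nat_lit 380) (nat_lit 373)) (XT.nd (nat_lit 78) (nat_lit 228) (nat_lit 0) (XT.lf (nat_lit 0) (nat_lit 5464627282) (nat_lit 228) (nat_lit 8449426109) (nat_lit 0) (nat_lit 157593713) (nat_lit 69) (nat_lit 5) (nat_lit 72) (nat_lit 4) (nat_lit 69) (nat_lit 4) (nat_lit 448) (nat_lit 380) (nat_lit 372)) (XT.lf (nat_lit 0) (nat_lit 510153008) (nat_lit 228) (nat_lit 4800720275) (nat_lit 76) (nat_lit 9161347604) (nat_lit 66) (nat_lit 5) (nat_lit 69) (nat_lit 5) (nat_lit 67) (nat_lit 4) (nat_lit 449) (nat_lit 380) (nat_lit 371)))) (XT.nd (nat_lit 78) (nat_lit 456) (nat_lit 0) (XT.lf (nat_lit 0) (nat_lit 9884219494) (nat_lit 152) (nat_lit 1278222901) (nat_lit 0) (nat_lit 3728468461) (nat_lit 65) (nat_lit 5) (nat_lit 67) (nat_lit 4) (nat_lit 65) (nat_lit 4) (nat_lit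 450) (nat_lit 380) (nat_lit 370)) (XT.nd (nat_lit 78) (nat_lit 152) (nat_lit 0) (XT.lf (nat_lit 0) (nat_lit 2170669582) (nat_lit 76) (nat_lit 2160623880) (nat_lit 152) (nat_lit 10997369244) (nat_lit 61) (nat_lit 5) (nat_lit 62) (nat_lit 5) (nat_lit 63) (nat_lit 4) (nat_lit 451) (nat_lit 380) (nat_lit 369)) (XT.lf (nat_lit 0) (nat_lit 5483622969) (nat_lit 152) (nat_lit 8581104693) (nat_lit 152) (nat_lit 1721137918) (nat_lit 59) (nat_lit 4) (nat_lit 61) (nat_lit 5) (nat_lit 61) (nat_lit 4) (nat_lit 452) (nat_lit 380) (nat_lit 368))))) (XT.nd (nat_lit 234) (nat_lit 684) (nat_lit 0) (XT.nd (nat_lit 78) (nat_lit 304) (nat_lit 0) (XT.lf (nat_lit 0) (nat_lit 7843913255) (nat_lit 152) (nat_lit 7635021675) (nat_lit 0) (nat_lit 785249048) (nat_lit 57) (nat_lit 5) (nat_lit 59) (nat_lit 4) (nat_lit 57) (nat_lit 4) (nat_lit 453) (nat_lit 380) (nat_lit 367)) (XT.nd (nat_lit 78) (nat_lit 76) (nat_lit 0) (XT.lf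 (nat_lit 0) (nat_lit 1108423753) (nat_lit 228) (nat_lit 5188089975) (nat_lit 76) (nat_lit 10467774873) (nat_lit 54) (nat_lit 5) (nat_lit 57) (nat_lit 5) (nat_lit 55) (nat_lit 4) (nat_lit 454) (nat_lit 380) (nat_lit 366)) (XT.lf (nat_lit 0) (nat_lit 10934508825) (nat_lit 152) (nat_lit 2990507127) (nat_lit 0) (nat_lit 3362039389) (nat_lit 53) (nat_lit 5) (nat_lit 55) (nat_lit 4) (nat_lit 53) (nat_lit 4) (nat_lit 455) (nat_lit 380) (nat_lit 365)))) (XT.nd (nat_lit 156) (nat_lit 228) (nat_lit 0) (XT.nd (nat_lit 78) (nat_lit 228) (nat_lit 0) (XT.lf (nat_lit 0) (nat_lit 3377672463) (nat_lit 228) (nat_lit 1050009150) (nat_lit 76) (nat_lit 13406452092) (nat_lit 50) (nat_lit 5) (nat_lit 53) (nat_lit 5) (nat_lit 51) (nat_lit 4) (nat_lit 456) (nat_lit 380) (nat_lit 364)) (XT.lf (nat_lit 0) (nat_lit 592918620) (nat_lit 152) (nat_lit 12899159928) (nat_lit 152) (nat_lit 4913738495) (nat_lit 47) (nat_lit 4)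 (nat_lit 49) (nat_lit 5) (nat_lit 49) (nat_lit 4) (nat_lit 457) (nat_lit 380) (nat_lit 363))) (XT.nd (nat_lit 78) (nat_lit 76) (nat_lit 0) (XT.lf (nat_lit 0) (nat_lit 1930591938) (nat_lit 76) (nat_lit 3099125629) (nat_lit 152) (nat_lit 13974206327) (nat_lit 45) (nat_lit 5) (nat_lit 46) (nat_lit 5) (nat_lit 47) (nat_lit 4) (nat_lit 458) (nat_lit 380) (nat_lit 362)) (XT.lf (nat_lit 0) (nat_lit 2878716747) (nat_lit 76) (nat_lit 12530630658) (nat_lit 76) (nat_lit 4219918913) (nat_lit 44) (nat_lit 4) (nat_lit 45) (nat_lit 5) (nat_lit 45) (nat_lit 4) (nat_lit 459) (nat_lit 380) (nat_lit 361))))))) (XT.nd (nat_lit 1014) (nat_lit 912) (nat_lit 0) (XT.nd (nat_lit 468) (nat_lit 684) (nat_lit 0) (XT.nd (nat_lit 234) (nat_lit 228) (nat_lit 0) (XT.nd (nat_lit 78) (nat_lit 228) (nat_lit 0) (XT.lf (nat_lit 0) (nat_lit 3425058967) (nat_lit 76) (nat_lit 2483781562) (nat_lit 152) (nat_lit 14375178446) (nat_lit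 42) (nat_lit 5) (nat_lit 43) (nat_lit 5) (nat_lit 44) (nat_lit 4) (nat_lit 460) (nat_lit 380) (nat_lit 360)) (XT.nd (nat_lit 78) (nat_lit 152) (nat_lit 0) (XT.lf (nat_lit 0) (nat_lit 3492223487) (nat_lit 76) (nat_lit 13018177091) (nat_lit 76) (nat_lit 4458253616) (nat_lit 41) (nat_lit 4) (nat_lit 42) (nat_lit 5) (nat_lit 42) (nat_lit 4) (nat_lit 461) (nat_lit 380) (nat_lit 359)) (XT.lf (nat_lit 0) (nat_lit 3067830991) (nat_lit 76) (nat_lit 2772556868) (nat_lit 152) (nat_lit 15845361143) (nat_lit 39) (nat_lit 5) (nat_lit 40) (nat_lit 5) (nat_lit 41) (nat_lit 4) (nat_lit 462) (nat_lit 380) (nat_lit 358)))) (XT.nd (nat_lit 78) (nat_lit 152) (nat_lit 0) (XT.lf (nat_lit 0) (nat_lit 2056764198) (nat_lit 76) (nat_lit 14561079218) (nat_lit 76) (nat_lit 5817854924) (nat_lit 38) (nat_lit 4) (nat_lit 39) (nat_lit 5) (nat_lit 39) (nat_lit 4) (nat_lit 463) (nat_lit 380) (nat_lit 357)) (XT.nd (nat_lit 78) (nat_lit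 0) (nat_lit 0) (XT.lf (nat_lit 0) (nat_lit 447366185) (nat_lit 76) (nat_lit 4179025393) (nat_lit 152) (nat_lit 18595182278) (nat_lit 36) (nat_lit 5) (nat_lit 37) (nat_lit 5) (nat_lit 38) (nat_lit 4) (nat_lit 464) (nat_lit 380) (nat_lit 356)) (XT.lf (nat_lit 0) (nat_lit 15536126772) (nat_lit 152) (nat_lit 1840395743) (nat_lit 0) (nat_lit 6666590403) (nat_lit 36) (nat_lit 5) (nat_lit 38) (nat_lit 4) (nat_lit 36) (nat_lit 4) (nat_lit 465) (nat_lit 380) (nat_lit 355))))) (XT.nd (nat_lit 234) (nat_lit 380) (nat_lit 0) (XT.nd (nat_lit 78) (nat_lit 152) (nat_lit 0) (XT.lf (nat_lit 0) (nat_lit 2076761629) (nat_lit 152) (nat_lit 4830699387) (nat_lit 76) (nat_lit 17996716640) (nat_lit 34) (nat_lit 5) (nat_lit 36) (nat_lit 5) (nat_lit 35) (nat_lit 4) (nat_lit 466) (nat_lit 380) (nat_lit 354)) (XT.nd (nat_lit 78) (nat_lit 76) (nat_lit 0) (XT.lf (nat_lit 0) (nat_lit 13039991941) (nat_lit 152) (nat_lit 8671689036)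 (nat_lit 0) (nat_lit 4093305954) (nat_lit 33) (nat_lit 5) (nat_lit 35) (nat_lit 4) (nat_lit 33) (nat_lit 4) (nat_lit 467) (nat_lit 380) (nat_lit 353)) (XT.lf (nat_lit 0) (nat_lit 13356352502) (nat_lit 76) (nat_lit 11247726382) (nat_lit 76) (nat_lit 2145181798) (nat_lit 32) (nat_lit 4) (nat_lit 33) (nat_lit 5) (nat_lit 33) (nat_lit 4) (nat_lit 468) (nat_lit 380) (nat_lit 352)))) (XT.nd (nat_lit 156) (nat_lit 152) (nat_lit 0) (XT.nd (nat_lit 78) (nat_lit 76) (nat_lit 0) (XT.lf (nat_lit 0) (nat_lit 8635946315) (nat_lit 76) (nat_lit 175348097) (nat_lit 152) (nat_lit 18927419048) (nat_lit 30) (nat_lit 5) (nat_lit 31) (nat_lit 5) (nat_lit 32) (nat_lit 4) (nat_lit 469) (nat_lit 380) (nat_lit 351)) (XT.lf (nat_lit 0) (nat_lit 2827478235) (nat_lit 76) (nat_lit 17532820867) (nat_lit 76) (nat_lit 8414034767) (nat_lit 29) (nat_lit 4) (nat_lit 30) (nat_lit 5) (nat_lit 30) (nat_lit 4) (nat_lit 470) (nat_lit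 380) (nat_lit 350))) (XT.nd (nat_lit 78) (nat_lit 76) (nat_lit 0) (XT.lf (nat_lit 0) (nat_lit 2590038958) (nat_lit 152) (nat_lit 3991722078) (nat_lit 76) (nat_lit 23278733911) (nat_lit 28) (nat_lit 5) (nat_lit 30) (nat_lit 5) (nat_lit 29) (nat_lit 4) (nat_lit 471) (nat_lit 380) (nat_lit 349)) (XT.lf (nat_lit 0) (nat_lit 14027543940) (nat_lit 152) (nat_lit 12042626289) (nat_lit 0) (nat_lit 4926581123) (nat_lit 27) (nat_lit 5) (nat_lit 29) (nat_lit 4) (nat_lit 27) (nat_lit 4) (nat_lit 472) (nat_lit 380) (nat_lit 348)))))) (XT.nd (nat_lit 468) (nat_lit 456) (nat_lit 0) (XT.nd (nat_lit 234) (nat_lit 228) (nat_lit 0) (XT.nd (nat_lit 78) (nat_lit 152) (nat_lit 0) (XT.lf (nat_lit 0) (nat_lit 10748080641) (nat_lit 76) (nat_lit 15328315663) (nat_lit 76) (nat_lit 6112243704) (nat_lit 26) (nat_lit 4) (nat_lit 27) (nat_lit 5) (nat_lit 27) (nat_lit 4) (nat_lit 473) (nat_lit 380) (nat_lit 347)) (XT.nd (nat_lit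 78) (nat_lit 0) (nat_lit 0) (XT.lf (nat_lit 0) (nat_lit 1133024699) (nat_lit 76) (nat_lit 4019056291) (nat_lit 152) (nat_lit 28287489839) (nat_lit 24) (nat_lit 5) (nat_lit 25) (nat_lit 5) (nat_lit 26) (nat_lit 4) (nat_lit 474) (nat_lit 380) (nat_lit 346)) (XT.lf (nat_lit 0) (nat_lit 16987818513) (nat_lit 152) (nat_lit 9927004383) (nat_lit 0) (nat_lit 7832374728) (nat_lit 24) (nat_lit 5) (nat_lit 26) (nat_lit 4) (nat_lit 24) (nat_lit 4) (nat_lit 475) (nat_lit 380) (nat_lit 345)))) (XT.nd (nat_lit 78) (nat_lit 152) (nat_lit 0) (XT.lf (nat_lit 0) (nat_lit 13485024782) (nat_lit 76) (nat_lit 15943387557) (nat_lit 76) (nat_lit 6691404350) (nat_lit 23) (nat_lit 4) (nat_lit 24) (nat_lit 5) (nat_lit 24) (nat_lit 4) (nat_lit 476) (nat_lit 380) (nat_lit 344)) (XT.nd (nat_lit 78) (nat_lit 0) (nat_lit 0) (XT.lf (nat_lit 0) (nat_lit 372695643) (nat_lit 76) (nat_lit 4413817241) (nat_lit 152) (nat_lit 32774552557)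 (nat_lit 21) (nat_lit 5) (nat_lit 22) (nat_lit 5) (nat_lit 23) (nat_lit 4) (nat_lit 477) (nat_lit 380) (nat_lit 343)) (XT.lf (nat_lit 0) (nat_lit 16859548837) (nat_lit 152) (nat_lit 14505291759) (nat_lit 0) (nat_lit 7702762803) (nat_lit 21) (nat_lit 5) (nat_lit 23) (nat_lit 4) (nat_lit 21) (nat_lit 4) (nat_lit 478) (nat_lit 380) (nat_lit 342))))) (XT.nd (nat_lit 234) (nat_lit 228) (nat_lit 0) (XT.nd (nat_lit 78) (nat_lit 152) (nat_lit 0) (XT.lf (nat_lit 0) (nat_lit 9162686471) (nat_lit 76) (nat_lit 20362434615) (nat_lit 76) (nat_lit 11124683161) (nat_lit 20) (nat_lit 4) (nat_lit 21) (nat_lit 5) (nat_lit 21) (nat_lit 4) (nat_lit 479) (nat_lit 380) (nat_lit 341)) (XT.nd (nat_lit 78) (nat_lit 76) (nat_lit 0) (XT.lf (nat_lit 0) (nat_lit 512717964) (nat_lit 152) (nat_lit 8274043909) (nat_lit 76) (nat_lit 33523911640) (nat_lit 19) (nat_lit 5) (nat_lit 21) (nat_lit 5) (nat_lit 20) (nat_lit 4) (nat_lit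 480) (nat_lit 380) (nat_lit 340)) (XT.lf (nat_lit 0) (nat_lit 12557730019) (nat_lit 152) (nat_lit 28049003363) (nat_lit 0) (nat_lit 3442876232) (nat_lit 18) (nat_lit 5) (nat_lit 20) (nat_lit 4) (nat_lit 18) (nat_lit 4) (nat_lit 481) (nat_lit 380) (nat_lit 339)))) (XT.nd (nat_lit 156) (nat_lit 152) (nat_lit 0) (XT.nd (nat_lit 78) (nat_lit 76) (nat_lit 0) (XT.lf (nat_lit 0) (nat_lit 25248175447) (nat_lit 152) (nat_lit 4560605909) (nat_lit 0) (nat_lit 16065417802) (nat_lit 18) (nat_lit 5) (nat_lit 20) (nat_lit 4) (nat_lit 18) (nat_lit 4) (nat_lit 482) (nat_lit 380) (nat_lit 338)) (XT.lf (nat_lit 0) (nat_lit 20249708077) (nat_lit 76) (nat_lit 18392829142) (nat_lit 76) (nat_lit 9145401157) (nat_lit 17) (nat_lit 4) (nat_lit 18) (nat_lit 5) (nat_lit 18) (nat_lit 4) (nat_lit 483) (nat_lit 380) (nat_lit 337))) (XT.nd (nat_lit 78) (nat_lit 76) (nat_lit 0) (XT.lf (nat_lit 0) (nat_lit 2777082738) (nat_lit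 152) (nat_lit 3671540827) (nat_lit 76) (nat_lit 43350165884) (nat_lit 16) (nat_lit 5) (nat_lit 18) (nat_lit 5) (nat_lit 17) (nat_lit 4) (nat_lit 484) (nat_lit 380) (nat_lit 336)) (XT.lf (nat_lit 0) (nat_lit 15258287502) (nat_lit 152) (nat_lit 30481173007) (nat_lit 0) (nat_lit 6163455761) (nat_lit 15) (nat_lit 5) (nat_lit 17) (nat_lit 4) (nat_lit 15) (nat_lit 4) (nat_lit 485) (nat_lit 380) (nat_lit 335))))))))
noncomputable def xc18 : XT := (XT.nd (nat_lit 59670) (nat_lit 0) (nat_lit 1216) (XT.nd (nat_lit 936) (nat_lit 0) (nat_lit 0) (XT.nd (nat_lit 468) (nat_lit 304) (nat_lit 0) (XT.nd (nat_lit 234) (nat_lit 152) (nat_lit 0) (XT.nd (nat_lit 78) (nat_lit 76) (nat_lit 0) (XT.lf (nat_lit 0) (nat_lit 28352185288) (nat_lit 152) (nat_lit 6557290851) (nat_lit 0) (nat_lit 19203116002) (nat_lit 15) (nat_lit 5) (nat_lit 17) (nat_lit 4) (nat_lit 15) (nat_lit 4) (nat_lit 486) (nat_lit 380) (nat_lit 334))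 (XT.nd (nat_lit 78) (nat_lit 0) (nat_lit 0) (XT.lf (nat_lit 0) (nat_lit 18711602350) (nat_lit 76) (nat_lit 23459877059) (nat_lit 76) (nat_lit 14259152967) (nat_lit 14) (nat_lit 4) (nat_lit 15) (nat_lit 5) (nat_lit 15) (nat_lit 4) (nat_lit 487) (nat_lit 380) (nat_lit 333)) (XT.lf (nat_lit 0) (nat_lit 45170855080) (nat_lit 76) (nat_lit 11472397398) (nat_lit 76) (nat_lit 2222478254) (nat_lit 14) (nat_lit 4) (nat_lit 15) (nat_lit 5) (nat_lit 15) (nat_lit 4) (nat_lit 488) (nat_lit 380) (nat_lit 332)))) (XT.nd (nat_lit 78) (nat_lit 0) (nat_lit 0) (XT.lf (nat_lit 0) (nat_lit 10232746362) (nat_lit 152) (nat_lit 49979481652) (nat_lit 0) (nat_lit 1206754540) (nat_lit 12) (nat_lit 5) (nat_lit 14) (nat_lit 4) (nat_lit 12) (nat_lit 4) (nat_lit 489) (nat_lit 380) (nat_lit 331)) (XT.nd (nat_lit 78) (nat_lit 0) (nat_lit 0) (XT.lf (nat_lit 0) (nat_lit 23423451255) (nat_lit 152) (nat_lit 26316888701) (nat_lit 0)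 (nat_lit 14354137722) (nat_lit 12) (nat_lit 5) (nat_lit 14) (nat_lit 4) (nat_lit 12) (nat_lit 4) (nat_lit 490) (nat_lit 380) (nat_lit 330)) (XT.lf (nat_lit 0) (nat_lit 37178538891) (nat_lit 152) (nat_lit 1660097947) (nat_lit 0) (nat_lit 28067966585) (nat_lit 12) (nat_lit 5) (nat_lit 14) (nat_lit 4) (nat_lit 12) (nat_lit 4) (nat_lit 491) (nat_lit 380) (nat_lit 329))))) (XT.nd (nat_lit 234) (nat_lit 76) (nat_lit 0) (XT.nd (nat_lit 78) (nat_lit 152) (nat_lit 0) (XT.lf (nat_lit 0) (nat_lit 24528231397) (nat_lit 76) (nat_lit 27238308445) (nat_lit 76) (nat_lit 18088442069) (nat_lit 11) (nat_lit 4) (nat_lit 12) (nat_lit 5) (nat_lit 12) (nat_lit 4) (nat_lit 492) (nat_lit 380) (nat_lit 328)) (XT.nd (nat_lit 78) (nat_lit 152) (nat_lit 0) (XT.lf (nat_lit 0) (nat_lit 51885891088) (nat_lit 76) (nat_lit 15127152807) (nat_lit 76) (nat_lit 5939863507) (nat_lit 11) (nat_lit 4) (nat_lit 12) (nat_lit 5) (nat_lit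 12) (nat_lit 4) (nat_lit 493) (nat_lit 380) (nat_lit 327)) (XT.lf (nat_lit 0) (nat_lit 4255075616) (nat_lit 76) (nat_lit 2384336105) (nat_lit 152) (nat_lit 69565664641) (nat_lit 9) (nat_lit 5) (nat_lit 10) (nat_lit 5) (nat_lit 11) (nat_lit 4) (nat_lit 494) (nat_lit 380) (nat_lit 326)))) (XT.nd (nat_lit 78) (nat_lit 76) (nat_lit 0) (XT.lf (nat_lit 0) (nat_lit 19967710058) (nat_lit 152) (nat_lit 48662639409) (nat_lit 0) (nat_lit 10980453870) (nat_lit 9) (nat_lit 5) (nat_lit 11) (nat_lit 4) (nat_lit 9) (nat_lit 4) (nat_lit 495) (nat_lit 380) (nat_lit 325)) (XT.nd (nat_lit 78) (nat_lit 76) (nat_lit 0) (XT.lf (nat_lit 0) (nat_lit 33907491572) (nat_lit 152) (nat_lit 24392124392) (nat_lit 0) (nat_lit 24888849629) (nat_lit 9) (nat_lit 5) (nat_lit 11) (nat_lit 4) (nat_lit 9) (nat_lit 4) (nat_lit 496) (nat_lit 380) (nat_lit 324)) (XT.lf (nat_lit 0) (nat_lit 961003582) (nat_lit 76) (nat_lit 47517260694)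 (nat_lit 76) (nat_lit 38468727555) (nat_lit 8) (nat_lit 4) (nat_lit 9) (nat_lit 5) (nat_lit 9) (nat_lit 4) (nat_lit 497) (nat_lit 380) (nat_lit 323)))))) (XT.nd (nat_lit 58188) (nat_lit 0) (nat_lit 4484) (XT.nd (nat_lit 57954) (nat_lit 0) (nat_lit 6156) (XT.nd (nat_lit 57798) (nat_lit 0) (nat_lit 7068) (XT.lf (nat_lit 0) (nat_lit 27946136311) (nat_lit 76) (nat_lit 36009484278) (nat_lit 76) (nat_lit 26932483333) (nat_lit 8) (nat_lit 4) (nat_lit 9) (nat_lit 5) (nat_lit 9) (nat_lit 4) (nat_lit 498) (nat_lit 380) (nat_lit 322)) (XT.nd (nat_lit 78) (nat_lit 456) (nat_lit 0) (XT.lf (nat_lit 0) (nat_lit 1910850822) (nat_lit 228) (nat_lit 1630571397) (nat_lit 0) (nat_lit 1910850822) (nat_lit 107) (nat_lit 5) (nat_lit 110) (nat_lit 4) (nat_lit 107) (nat_lit 4) (nat_lit 438) (nat_lit 381) (nat_lit 381)) (XT.lf (nat_lit 0) (nat_lit 1184579202) (nat_lit 228) (nat_lit 9777109262) (nat_lit 0) (nat_lit 204126314)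 (nat_lit 101) (nat_lit 5) (nat_lit 104) (nat_lit 4) (nat_lit 101) (nat_lit 4) (nat_lit 439) (nat_lit 381) (nat_lit 380)))) (XT.nd (nat_lit 78) (nat_lit 684) (nat_lit 0) (XT.lf (nat_lit 0) (nat_lit 6098337625) (nat_lit 228) (nat_lit 3626881148) (nat_lit 228) (nat_lit 1712663604) (nat_lit 98) (nat_lit 4) (nat_lit 101) (nat_lit 5) (nat_lit 101) (nat_lit 4) (nat_lit 440) (nat_lit 381) (nat_lit 379)) (XT.nd (nat_lit 78) (nat_lit 456) (nat_lit 0) (XT.lf (nat_lit 0) (nat_lit 6778707186) (nat_lit 228) (nat_lit 887656494) (nat_lit 0) (nat_lit 4056845810) (nat_lit 95) (nat_lit 5) (nat_lit 98) (nat_lit 4) (nat_lit 95) (nat_lit 4) (nat_lit 441) (nat_lit 381) (nat_lit 378)) (XT.lf (nat_lit 0) (nat_lit 3551435600) (nat_lit 228) (nat_lit 8359752368) (nat_lit 0) (nat_lit 110518185) (nat_lit 89) (nat_lit 5) (nat_lit 92) (nat_lit 4) (nat_lit 89) (nat_lit 4) (nat_lit 442) (nat_lit 381) (nat_lit 377))))) (XT.nd (nat_lit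 234) (nat_lit 912) (nat_lit 0) (XT.nd (nat_lit 78) (nat_lit 532) (nat_lit 0) (XT.lf (nat_lit 0) (nat_lit 39582170) (nat_lit 228) (nat_lit 4120883281) (nat_lit 76) (nat_lit 8173084984) (nat_lit 86) (nat_lit 5) (nat_lit 89) (nat_lit 5) (nat_lit 87) (nat_lit 4) (nat_lit 443) (nat_lit 381) (nat_lit 376)) (XT.nd (nat_lit 78) (nat_lit 228) (nat_lit 0) (XT.lf (nat_lit 0) (nat_lit 85455050) (nat_lit 152) (nat_lit 8678008461) (nat_lit 152) (nat_lit 3896118019) (nat_lit 82) (nat_lit 4) (nat_lit 84) (nat_lit 5) (nat_lit 84) (nat_lit 4) (nat_lit 444) (nat_lit 381) (nat_lit 375)) (XT.lf (nat_lit 0) (nat_lit 4366205860) (nat_lit 152) (nat_lit 470070256) (nat_lit 228) (nat_lit 8163918367) (nat_lit 79) (nat_lit 5) (nat_lit 81) (nat_lit 5) (nat_lit 82) (nat_lit 4) (nat_lit 445) (nat_lit 381) (nat_lit 374)))) (XT.nd (nat_lit 156) (nat_lit 532) (nat_lit 0) (XT.nd (nat_lit 78) (nat_lit 152) (nat_lit 0) (XT.lf (nat_lit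 0) (nat_lit 567837428) (nat_lit 228) (nat_lit 4759033528) (nat_lit 76) (nat_lit 8029338110) (nat_lit 76) (nat_lit 5) (nat_lit 79) (nat_lit 5) (nat_lit 77) (nat_lit 4) (nat_lit 446) (nat_lit 381) (nat_lit 373)) (XT.lf (nat_lit 0) (nat_lit 9542432541) (nat_lit 228) (nat_lit 955491275) (nat_lit 0) (nat_lit 3230440691) (nat_lit 74) (nat_lit 5) (nat_lit 77) (nat_lit 4) (nat_lit 74) (nat_lit 4) (nat_lit 447) (nat_lit 381) (nat_lit 372))) (XT.nd (nat_lit 78) (nat_lit 152) (nat_lit 0) (XT.lf (nat_lit 0) (nat_lit 2838277786) (nat_lit 152) (nat_lit 1937803923) (nat_lit 228) (nat_lit 9340944056) (nat_lit 69) (nat_lit 5) (nat_lit 71) (nat_lit 5) (nat_lit 72) (nat_lit 4) (nat_lit 448) (nat_lit 381) (nat_lit 371)) (XT.lf (nat_lit 0) (nat_lit 6562423920) (nat_lit 152) (nat_lit 7561143841) (nat_lit 152) (nat_lit 399606418) (nat_lit 67) (nat_lit 4) (nat_lit 69) (nat_lit 5) (nat_lit 69) (nat_lit 4) (nat_lit 449)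 (nat_lit 381) (nat_lit 370))))))) (XT.nd (nat_lit 1014) (nat_lit 1216) (nat_lit 0) (XT.nd (nat_lit 468) (nat_lit 988) (nat_lit 0) (XT.nd (nat_lit 234) (nat_lit 456) (nat_lit 0) (XT.nd (nat_lit 78) (nat_lit 456) (nat_lit 0) (XT.lf (nat_lit 0) (nat_lit 8796674457) (nat_lit 152) (nat_lit 4773259140) (nat_lit 0) (nat_lit 1377620389) (nat_lit 65) (nat_lit 5) (nat_lit 67) (nat_lit 4) (nat_lit 65) (nat_lit 4) (nat_lit 450) (nat_lit 381) (nat_lit 369)) (XT.nd (nat_lit 78) (nat_lit 228) (nat_lit 0) (XT.lf (nat_lit 0) (nat_lit 3024037451) (nat_lit 228) (nat_lit 1724167673) (nat_lit 76) (nat_lit 10642999085) (nat_lit 62) (nat_lit 5) (nat_lit 65) (nat_lit 5) (nat_lit 63) (nat_lit 4) (nat_lit 451) (nat_lit 381) (nat_lit 368)) (XT.lf (nat_lit 0) (nat_lit 1195415261) (nat_lit 152) (nat_lit 11351853429) (nat_lit 152) (nat_lit 3307450732) (nat_lit 59) (nat_lit 4) (nat_lit 61) (nat_lit 5) (nat_lit 61) (nat_lit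 4) (nat_lit 452) (nat_lit 381) (nat_lit 367)))) (XT.nd (nat_lit 78) (nat_lit 304) (nat_lit 0) (XT.lf (nat_lit 0) (nat_lit 3971182190) (nat_lit 76) (nat_lit 2140392516) (nat_lit 152) (nat_lit 10227235765) (nat_lit 57) (nat_lit 5) (nat_lit 58) (nat_lit 5) (nat_lit 59) (nat_lit 4) (nat_lit 453) (nat_lit 381) (nat_lit 366)) (XT.nd (nat_lit 78) (nat_lit 152) (nat_lit 0) (XT.lf (nat_lit 0) (nat_lit 6548046226) (nat_lit 152) (nat_lit 9424000394) (nat_lit 152) (nat_lit 872921376) (nat_lit 55) (nat_lit 4) (nat_lit 57) (nat_lit 5) (nat_lit 57) (nat_lit 4) (nat_lit 454) (nat_lit 381) (nat_lit 365)) (XT.lf (nat_lit 0) (nat_lit 8767097479) (nat_lit 152) (nat_lit 8476122882) (nat_lit 0) (nat_lit 130864199) (nat_lit 53) (nat_lit 5) (nat_lit 55) (nat_lit 4) (nat_lit 53) (nat_lit 4) (nat_lit 455) (nat_lit 381) (nat_lit 364))))) (XT.nd (nat_lit 234) (nat_lit 456) (nat_lit 0) (XT.nd (nat_lit 78) (nat_lit 304) (nat_lit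 0) (XT.lf (nat_lit 0) (nat_lit 992942114) (nat_lit 228) (nat_lit 6938860611) (nat_lit 76) (nat_lit 9995243496) (nat_lit 50) (nat_lit 5) (nat_lit 53) (nat_lit 5) (nat_lit 51) (nat_lit 4) (nat_lit 456) (nat_lit 381) (nat_lit 363)) (XT.nd (nat_lit 78) (nat_lit 228) (nat_lit 0) (XT.lf (nat_lit 0) (nat_lit 10892271369) (nat_lit 152) (nat_lit 5708678361) (nat_lit 0) (nat_lit 1904236617) (nat_lit 49) (nat_lit 5) (nat_lit 51) (nat_lit 4) (nat_lit 49) (nat_lit 4) (nat_lit 457) (nat_lit 381) (nat_lit 362)) (XT.lf (nat_lit 0) (nat_lit 2193114520) (nat_lit 228) (nat_lit 4816310647) (nat_lit 76) (nat_lit 12100353475) (nat_lit 46) (nat_lit 5) (nat_lit 49) (nat_lit 5) (nat_lit 47) (nat_lit 4) (nat_lit 458) (nat_lit 381) (nat_lit 361)))) (XT.nd (nat_lit 156) (nat_lit 228) (nat_lit 0) (XT.nd (nat_lit 78) (nat_lit 152) (nat_lit 0) (XT.lf (nat_lit 0) (nat_lit 12347231587) (nat_lit 152) (nat_lit 4304984462) (nat_lit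 0) (nat_lit 3089674348) (nat_lit 45) (nat_lit 5) (nat_lit 47) (nat_lit 4) (nat_lit 45) (nat_lit 4) (nat_lit 459) (nat_lit 381) (nat_lit 360)) (XT.lf (nat_lit 0) (nat_lit 2610200116) (nat_lit 152) (nat_lit 4205684873) (nat_lit 76) (nat_lit 13587252774) (nat_lit 43) (nat_lit 5) (nat_lit 45) (nat_lit 5) (nat_lit 44) (nat_lit 4) (nat_lit 460) (nat_lit 381) (nat_lit 359))) (XT.nd (nat_lit 78) (nat_lit 152) (nat_lit 0) (XT.lf (nat_lit 0) (nat_lit 12986934133) (nat_lit 152) (nat_lit 4576450046) (nat_lit 0) (nat_lit 3531137059) (nat_lit 42) (nat_lit 5) (nat_lit 44) (nat_lit 4) (nat_lit 42) (nat_lit 4) (nat_lit 461) (nat_lit 381) (nat_lit 358)) (XT.lf (nat_lit 0) (nat_lit 2081652350) (nat_lit 152) (nat_lit 5447407460) (nat_lit 76) (nat_lit 14289030250) (nat_lit 40) (nat_lit 5) (nat_lit 42) (nat_lit 5) (nat_lit 41) (nat_lit 4) (nat_lit 462) (nat_lit 381) (nat_lit 357)))))) (XT.nd (nat_lit 468) (nat_lit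 608) (nat_lit 0) (XT.nd (nat_lit 234) (nat_lit 304) (nat_lit 0) (XT.nd (nat_lit 78) (nat_lit 228) (nat_lit 0) (XT.lf (nat_lit 0) (nat_lit 12636084934) (nat_lit 152) (nat_lit 6894966862) (nat_lit 0) (nat_lit 3043681351) (nat_lit 39) (nat_lit 5) (nat_lit 41) (nat_lit 4) (nat_lit 39) (nat_lit 4) (nat_lit 463) (nat_lit 381) (nat_lit 356)) (XT.nd (nat_lit 78) (nat_lit 76) (nat_lit 0) (XT.lf (nat_lit 0) (nat_lit 411912610) (nat_lit 152) (nat_lit 8947634723) (nat_lit 76) (nat_lit 14007475423) (nat_lit 37) (nat_lit 5) (nat_lit 39) (nat_lit 5) (nat_lit 38) (nat_lit 4) (nat_lit 464) (nat_lit 381) (nat_lit 355)) (XT.lf (nat_lit 0) (nat_lit 11083840938) (nat_lit 152) (nat_lit 11703857738) (nat_lit 0) (nat_lit 1408000043) (nat_lit 36) (nat_lit 5) (nat_lit 38) (nat_lit 4) (nat_lit 36) (nat_lit 4) (nat_lit 465) (nat_lit 381) (nat_lit 354)))) (XT.nd (nat_lit 78) (nat_lit 228) (nat_lit 0) (XT.lf (nat_lit 0) (nat_lit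 9847244829) (nat_lit 76) (nat_lit 12530164782) (nat_lit 76) (nat_lit 2685762814) (nat_lit 35) (nat_lit 4) (nat_lit 36) (nat_lit 5) (nat_lit 36) (nat_lit 4) (nat_lit 466) (nat_lit 381) (nat_lit 353)) (XT.nd (nat_lit 78) (nat_lit 76) (nat_lit 0) (XT.lf (nat_lit 0) (nat_lit 6425095017) (nat_lit 76) (nat_lit 1668516479) (nat_lit 152) (nat_lit 17878235040) (nat_lit 33) (nat_lit 5) (nat_lit 34) (nat_lit 5) (nat_lit 35) (nat_lit 4) (nat_lit 467) (nat_lit 381) (nat_lit 352)) (XT.lf (nat_lit 0) (nat_lit 2100608752) (nat_lit 76) (nat_lit 17341967318) (nat_lit 76) (nat_lit 7480000150) (nat_lit 32) (nat_lit 4) (nat_lit 33) (nat_lit 5) (nat_lit 33) (nat_lit 4) (nat_lit 468) (nat_lit 381) (nat_lit 351))))) (XT.nd (nat_lit 234) (nat_lit 380) (nat_lit 0) (XT.nd (nat_lit 78) (nat_lit 152) (nat_lit 0) (XT.lf (nat_lit 0) (nat_lit 3408476132) (nat_lit 152) (nat_lit 3084128960) (nat_lit 76) (nat_lit 21426127485) (nat_lit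 31) (nat_lit 5) (nat_lit 33) (nat_lit 5) (nat_lit 32) (nat_lit 4) (nat_lit 469) (nat_lit 381) (nat_lit 350)) (XT.nd (nat_lit 78) (nat_lit 76) (nat_lit 0) (XT.lf (nat_lit 0) (nat_lit 14751780918) (nat_lit 152) (nat_lit 9299655424) (nat_lit 0) (nat_lit 4909089631) (nat_lit 30) (nat_lit 5) (nat_lit 32) (nat_lit 4) (nat_lit 30) (nat_lit 4) (nat_lit 470) (nat_lit 381) (nat_lit 349)) (XT.lf (nat_lit 0) (nat_lit 13417000047) (nat_lit 76) (nat_lit 13301454300) (nat_lit 76) (nat_lit 3334272476) (nat_lit 29) (nat_lit 4) (nat_lit 30) (nat_lit 5) (nat_lit 30) (nat_lit 4) (nat_lit 471) (nat_lit 381) (nat_lit 348)))) (XT.nd (nat_lit 156) (nat_lit 228) (nat_lit 0) (XT.nd (nat_lit 78) (nat_lit 0) (nat_lit 0) (XT.lf (nat_lit 0) (nat_lit 5978300288) (nat_lit 76) (nat_lit 1935022139) (nat_lit 152) (nat_lit 23284273300) (nat_lit 27) (nat_lit 5) (nat_lit 28) (nat_lit 5) (nat_lit 29) (nat_lit 4) (nat_lit 472) (nat_lit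 381) (nat_lit 347)) (XT.lf (nat_lit 0) (nat_lit 19760454770) (nat_lit 152) (nat_lit 2776240565) (nat_lit 0) (nat_lit 9858842317) (nat_lit 27) (nat_lit 5) (nat_lit 29) (nat_lit 4) (nat_lit 27) (nat_lit 4) (nat_lit 473) (nat_lit 381) (nat_lit 346))) (XT.nd (nat_lit 78) (nat_lit 152) (nat_lit 0) (XT.lf (nat_lit 0) (nat_lit 20871122652) (nat_lit 76) (nat_lit 11393173277) (nat_lit 76) (nat_lit 1387153439) (nat_lit 26) (nat_lit 4) (nat_lit 27) (nat_lit 5) (nat_lit 27) (nat_lit 4) (nat_lit 474) (nat_lit 381) (nat_lit 345)) (XT.lf (nat_lit 0) (nat_lit 10201585060) (nat_lit 152) (nat_lit 24375651346) (nat_lit 0) (nat_lit 390463271) (nat_lit 24) (nat_lit 5) (nat_lit 26) (nat_lit 4) (nat_lit 24) (nat_lit 4) (nat_lit 475) (nat_lit 381) (nat_lit 344))))))))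
noncomputable def xc19 : XT := (XT.nd (nat_lit 59514) (nat_lit 0) (nat_lit 2356) (XT.nd (nat_lit 936) (nat_lit 532) (nat_lit 0) (XT.nd (nat_lit 468) (nat_lit 304) (nat_lit 0) (XT.nd (nat_lit 234) (nat_lit 152) (nat_lit 0) (XT.nd (nat_lit 78) (nat_lit 228) (nat_lit 0) (XT.lf (nat_lit 0) (nat_lit 22439557370) (nat_lit 152) (nat_lit 1370348143) (nat_lit 0) (nat_lit 12536493275) (nat_lit 24) (nat_lit 5) (nat_lit 26) (nat_lit 4) (nat_lit 24) (nat_lit 4) (nat_lit 476) (nat_lit 381) (nat_lit 343)) (XT.nd (nat_lit 78) (nat_lit 152) (nat_lit 0) (XT.lf (nat_lit 0) (nat_lit 22952779868) (nat_lit 76) (nat_lit 12414770133) (nat_lit 76) (nat_lit 2424141936) (nat_lit 23) (nat_lit 4) (nat_lit 24) (nat_lit 5) (nat_lit 24) (nat_lit 4) (nat_lit 477) (nat_lit 381) (nat_lit 342)) (XT.lf (nat_lit 0) (nat_lit 9020073814) (nat_lit 76) (nat_lit 385885000) (nat_lit 152) (nat_lit 29901678552) (nat_lit 21) (nat_lit 5) (nat_lit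 22) (nat_lit 5) (nat_lit 23) (nat_lit 4) (nat_lit 478) (nat_lit 381) (nat_lit 341)))) (XT.nd (nat_lit 78) (nat_lit 152) (nat_lit 0) (XT.lf (nat_lit 0) (nat_lit 21912964993) (nat_lit 152) (nat_lit 6926380755) (nat_lit 0) (nat_lit 12055250623) (nat_lit 21) (nat_lit 5) (nat_lit 23) (nat_lit 4) (nat_lit 21) (nat_lit 4) (nat_lit 479) (nat_lit 381) (nat_lit 340)) (XT.nd (nat_lit 78) (nat_lit 76) (nat_lit 0) (XT.lf (nat_lit 0) (nat_lit 17686958861) (nat_lit 76) (nat_lit 17401896565) (nat_lit 76) (nat_lit 7470744173) (nat_lit 20) (nat_lit 4) (nat_lit 21) (nat_lit 5) (nat_lit 21) (nat_lit 4) (nat_lit 480) (nat_lit 381) (nat_lit 339)) (XT.lf (nat_lit 0) (nat_lit 4469799104) (nat_lit 152) (nat_lit 927401184) (nat_lit 76) (nat_lit 38910998345) (nat_lit 19) (nat_lit 5) (nat_lit 21) (nat_lit 5) (nat_lit 20) (nat_lit 4) (nat_lit 481) (nat_lit 381) (nat_lit 338))))) (XT.nd (nat_lit 234) (nat_lit 152) (nat_lit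 0) (XT.nd (nat_lit 78) (nat_lit 76) (nat_lit 0) (XT.lf (nat_lit 0) (nat_lit 17038079440) (nat_lit 152) (nat_lit 21834764961) (nat_lit 0) (nat_lit 7263609714) (nat_lit 18) (nat_lit 5) (nat_lit 20) (nat_lit 4) (nat_lit 18) (nat_lit 4) (nat_lit 482) (nat_lit 381) (nat_lit 337)) (XT.nd (nat_lit 78) (nat_lit 0) (nat_lit 0) (XT.lf (nat_lit 0) (nat_lit 2514418267) (nat_lit 76) (nat_lit 27689348384) (nat_lit 76) (nat_lit 17853287856) (nat_lit 17) (nat_lit 4) (nat_lit 18) (nat_lit 5) (nat_lit 18) (nat_lit 4) (nat_lit 483) (nat_lit 381) (nat_lit 336)) (XT.lf (nat_lit 0) (nat_lit 28308248454) (nat_lit 76) (nat_lit 15828444050) (nat_lit 76) (nat_lit 5933725617) (nat_lit 17) (nat_lit 4) (nat_lit 18) (nat_lit 5) (nat_lit 18) (nat_lit 4) (nat_lit 484) (nat_lit 381) (nat_lit 335)))) (XT.nd (nat_lit 78) (nat_lit 0) (nat_lit 0) (XT.lf (nat_lit 0) (nat_lit 2981834166) (nat_lit 76) (nat_lit 3388814735) (nat_lit 152)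 (nat_lit 45814386583) (nat_lit 15) (nat_lit 5) (nat_lit 16) (nat_lit 5) (nat_lit 17) (nat_lit 4) (nat_lit 485) (nat_lit 381) (nat_lit 334)) (XT.nd (nat_lit 78) (nat_lit 0) (nat_lit 0) (XT.lf (nat_lit 0) (nat_lit 19378719659) (nat_lit 152) (nat_lit 25352262738) (nat_lit 0) (nat_lit 9666304557) (nat_lit 15) (nat_lit 5) (nat_lit 17) (nat_lit 4) (nat_lit 15) (nat_lit 4) (nat_lit 486) (nat_lit 381) (nat_lit 333)) (XT.lf (nat_lit 0) (nat_lit 32967430536) (nat_lit 152) (nat_lit 548994518) (nat_lit 0) (nat_lit 23205820381) (nat_lit 15) (nat_lit 5) (nat_lit 17) (nat_lit 4) (nat_lit 15) (nat_lit 4) (nat_lit 487) (nat_lit 381) (nat_lit 332)))))) (XT.nd (nat_lit 468) (nat_lit 228) (nat_lit 0) (XT.nd (nat_lit 234) (nat_lit 76) (nat_lit 0) (XT.nd (nat_lit 78) (nat_lit 152) (nat_lit 0) (XT.lf (nat_lit 0) (nat_lit 25801718564) (nat_lit 76) (nat_lit 21582863585) (nat_lit 76) (nat_lit 11774400999) (nat_lit 14)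 (nat_lit 4) (nat_lit 15) (nat_lit 5) (nat_lit 15) (nat_lit 4) (nat_lit 488) (nat_lit 381) (nat_lit 331)) (XT.nd (nat_lit 78) (nat_lit 76) (nat_lit 0) (XT.lf (nat_lit 0) (nat_lit 697945087) (nat_lit 152) (nat_lit 8436255421) (nat_lit 76) (nat_lit 52585867817) (nat_lit 13) (nat_lit 5) (nat_lit 15) (nat_lit 5) (nat_lit 14) (nat_lit 4) (nat_lit 489) (nat_lit 381) (nat_lit 330)) (XT.lf (nat_lit 0) (nat_lit 13670903321) (nat_lit 152) (nat_lit 46667649530) (nat_lit 0) (nat_lit 4063543627) (nat_lit 12) (nat_lit 5) (nat_lit 14) (nat_lit 4) (nat_lit 12) (nat_lit 4) (nat_lit 490) (nat_lit 381) (nat_lit 329)))) (XT.nd (nat_lit 78) (nat_lit 76) (nat_lit 0) (XT.lf (nat_lit 0) (nat_lit 27381785381) (nat_lit 152) (nat_lit 22098631989) (nat_lit 0) (nat_lit 17735131617) (nat_lit 12) (nat_lit 5) (nat_lit 14) (nat_lit 4) (nat_lit 12) (nat_lit 4) (nat_lit 491) (nat_lit 381) (nat_lit 328)) (XT.nd (nat_lit 78) (nat_lit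 0) (nat_lit 0) (XT.lf (nat_lit 0) (nat_lit 3597673239) (nat_lit 76) (nat_lit 38128815216) (nat_lit 76) (nat_lit 28444738528) (nat_lit 11) (nat_lit 4) (nat_lit 12) (nat_lit 5) (nat_lit 12) (nat_lit 4) (nat_lit 492) (nat_lit 381) (nat_lit 327)) (XT.lf (nat_lit 0) (nat_lit 30874135585) (nat_lit 76) (nat_lit 26057980644) (nat_lit 76) (nat_lit 16338263076) (nat_lit 11) (nat_lit 4) (nat_lit 12) (nat_lit 5) (nat_lit 12) (nat_lit 4) (nat_lit 493) (nat_lit 381) (nat_lit 326))))) (XT.nd (nat_lit 234) (nat_lit 76) (nat_lit 0) (XT.nd (nat_lit 78) (nat_lit 152) (nat_lit 0) (XT.lf (nat_lit 0) (nat_lit 59355892898) (nat_lit 76) (nat_lit 13462326424) (nat_lit 76) (nat_lit 3708665162) (nat_lit 11) (nat_lit 4) (nat_lit 12) (nat_lit 5) (nat_lit 12) (nat_lit 4) (nat_lit 494) (nat_lit 381) (nat_lit 325)) (XT.nd (nat_lit 78) (nat_lit 0) (nat_lit 0) (XT.lf (nat_lit 0) (nat_lit 9251726187) (nat_lit 76) (nat_lit 126458431)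 (nat_lit 152) (nat_lit 70564911357) (nat_lit 9) (nat_lit 5) (nat_lit 10) (nat_lit 5) (nat_lit 11) (nat_lit 4) (nat_lit 495) (nat_lit 381) (nat_lit 324)) (XT.lf (nat_lit 0) (nat_lit 23280050226) (nat_lit 152) (nat_lit 46492646705) (nat_lit 0) (nat_lit 13749199234) (nat_lit 9) (nat_lit 5) (nat_lit 11) (nat_lit 4) (nat_lit 9) (nat_lit 4) (nat_lit 496) (nat_lit 381) (nat_lit 323)))) (XT.nd (nat_lit 57720) (nat_lit 0) (nat_lit 7752) (XT.nd (nat_lit 78) (nat_lit 76) (nat_lit 0) (XT.lf (nat_lit 0) (nat_lit 37806632499) (nat_lit 152) (nat_lit 21227802350) (nat_lit 0) (nat_lit 28247313701) (nat_lit 9) (nat_lit 5) (nat_lit 11) (nat_lit 4) (nat_lit 9) (nat_lit 4) (nat_lit 497) (nat_lit 381) (nat_lit 322)) (XT.lf (nat_lit 0) (nat_lit 5267317600) (nat_lit 76) (nat_lit 47774618021) (nat_lit 76) (nat_lit 38188187027) (nat_lit 8) (nat_lit 4) (nat_lit 9) (nat_lit 5) (nat_lit 9) (nat_lit 4) (nat_lit 498) (nat_lit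 381) (nat_lit 321))) (XT.nd (nat_lit 78) (nat_lit 532) (nat_lit 0) (XT.lf (nat_lit 0) (nat_lit 4376511279) (nat_lit 228) (nat_lit 415335425) (nat_lit 228) (nat_lit 415335425) (nat_lit 117) (nat_lit 4) (nat_lit 120) (nat_lit 5) (nat_lit 120) (nat_lit 4) (nat_lit 436) (nat_lit 382) (nat_lit 382)) (XT.lf (nat_lit 0) (nat_lit 2820153840) (nat_lit 228) (nat_lit 4463869969) (nat_lit 228) (nat_lit 3371699376) (nat_lit 110) (nat_lit 4) (nat_lit 113) (nat_lit 5) (nat_lit 113) (nat_lit 4) (nat_lit 437) (nat_lit 382) (nat_lit 381))))))) (XT.nd (nat_lit 1014) (nat_lit 1976) (nat_lit 0) (XT.nd (nat_lit 468) (nat_lit 1596) (nat_lit 0) (XT.nd (nat_lit 234) (nat_lit 912) (nat_lit 0) (XT.nd (nat_lit 78) (nat_lit 684) (nat_lit 0) (XT.lf (nat_lit 0) (nat_lit 4732285431) (nat_lit 228) (nat_lit 3514710157) (nat_lit 0) (nat_lit 2662059156) (nat_lit 107) (nat_lit 5) (nat_lit 110) (nat_lit 4) (nat_lit 107) (nat_lit 4)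 (nat_lit 438) (nat_lit 382) (nat_lit 380)) (XT.nd (nat_lit 78) (nat_lit 228) (nat_lit 0) (XT.lf (nat_lit 0) (nat_lit 859285457) (nat_lit 152) (nat_lit 1057605837) (nat_lit 228) (nat_lit 9257867539) (nat_lit 101) (nat_lit 5) (nat_lit 103) (nat_lit 5) (nat_lit 104) (nat_lit 4) (nat_lit 439) (nat_lit 382) (nat_lit 379)) (XT.lf (nat_lit 0) (nat_lit 5309355950) (nat_lit 228) (nat_lit 4987646316) (nat_lit 228) (nat_lit 1154653566) (nat_lit 98) (nat_lit 4) (nat_lit 101) (nat_lit 5) (nat_lit 101) (nat_lit 4) (nat_lit 440) (nat_lit 382) (nat_lit 378)))) (XT.nd (nat_lit 78) (nat_lit 684) (nat_lit 0) (XT.lf (nat_lit 0) (nat_lit 7161784677) (nat_lit 228) (nat_lit 1961822254) (nat_lit 0) (nat_lit 2618148930) (nat_lit 95) (nat_lit 5) (nat_lit 98) (nat_lit 4) (nat_lit 95) (nat_lit 4) (nat_lit 441) (nat_lit 382) (nat_lit 377)) (XT.nd (nat_lit 78) (nat_lit 228) (nat_lit 0) (XT.lf (nat_lit 0) (nat_lit 2273272440)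 (nat_lit 152) (nat_lit 1470587357) (nat_lit 228) (nat_lit 8301248992) (nat_lit 89) (nat_lit 5) (nat_lit 91) (nat_lit 5) (nat_lit 92) (nat_lit 4) (nat_lit 442) (nat_lit 382) (nat_lit 376)) (XT.lf (nat_lit 0) (nat_lit 36917712) (nat_lit 228) (nat_lit 5820783624) (nat_lit 76) (nat_lit 6504265331) (nat_lit 86) (nat_lit 5) (nat_lit 89) (nat_lit 5) (nat_lit 87) (nat_lit 4) (nat_lit 443) (nat_lit 382) (nat_lit 375))))) (XT.nd (nat_lit 234) (nat_lit 912) (nat_lit 0) (XT.nd (nat_lit 78) (nat_lit 532) (nat_lit 0) (XT.lf (nat_lit 0) (nat_lit 8589906137) (nat_lit 228) (nat_lit 1906873077) (nat_lit 0) (nat_lit 2196355532) (nat_lit 84) (nat_lit 5) (nat_lit 87) (nat_lit 4) (nat_lit 84) (nat_lit 4) (nat_lit 444) (nat_lit 382) (nat_lit 374)) (XT.nd (nat_lit 78) (nat_lit 152) (nat_lit 0) (XT.lf (nat_lit 0) (nat_lit 2018006535) (nat_lit 152) (nat_lit 2439736467) (nat_lit 228) (nat_lit 8581337770) (nat_lit 79) (nat_lit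 5) (nat_lit 81) (nat_lit 5) (nat_lit 82) (nat_lit 4) (nat_lit 445) (nat_lit 382) (nat_lit 373)) (XT.lf (nat_lit 0) (nat_lit 5946738357) (nat_lit 152) (nat_lit 7434910131) (nat_lit 152) (nat_lit 18882848) (nat_lit 77) (nat_lit 4) (nat_lit 79) (nat_lit 5) (nat_lit 79) (nat_lit 4) (nat_lit 446) (nat_lit 382) (nat_lit 372)))) (XT.nd (nat_lit 156) (nat_lit 456) (nat_lit 0) (XT.nd (nat_lit 78) (nat_lit 228) (nat_lit 0) (XT.lf (nat_lit 0) (nat_lit 8777736541) (nat_lit 228) (nat_lit 3967780492) (nat_lit 0) (nat_lit 1032533818) (nat_lit 74) (nat_lit 5) (nat_lit 77) (nat_lit 4) (nat_lit 74) (nat_lit 4) (nat_lit 447) (nat_lit 382) (nat_lit 371)) (XT.lf (nat_lit 0) (nat_lit 3791835400) (nat_lit 228) (nat_lit 566992319) (nat_lit 76) (nat_lit 9813699580) (nat_lit 71) (nat_lit 5) (nat_lit 74) (nat_lit 5) (nat_lit 72) (nat_lit 4) (nat_lit 448) (nat_lit 382) (nat_lit 370))) (XT.nd (nat_lit 78) (nat_lit 152) (nat_lit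 0) (XT.lf (nat_lit 0) (nat_lit 2809083743) (nat_lit 152) (nat_lit 10139557466) (nat_lit 152) (nat_lit 1635762224) (nat_lit 67) (nat_lit 4) (nat_lit 69) (nat_lit 5) (nat_lit 69) (nat_lit 4) (nat_lit 449) (nat_lit 382) (nat_lit 369)) (XT.lf (nat_lit 0) (nat_lit 6078287017) (nat_lit 76) (nat_lit 1330239672) (nat_lit 152) (nat_lit 7605903206) (nat_lit 65) (nat_lit 5) (nat_lit 66) (nat_lit 5) (nat_lit 67) (nat_lit 4) (nat_lit 450) (nat_lit 382) (nat_lit 368)))))) (XT.nd (nat_lit 468) (nat_lit 912) (nat_lit 0) (XT.nd (nat_lit 234) (nat_lit 532) (nat_lit 0) (XT.nd (nat_lit 78) (nat_lit 304) (nat_lit 0) (XT.lf (nat_lit 0) (nat_lit 1419664728) (nat_lit 228) (nat_lit 6240873195) (nat_lit 76) (nat_lit 7803300296) (nat_lit 62) (nat_lit 5) (nat_lit 65) (nat_lit 5) (nat_lit 63) (nat_lit 4) (nat_lit 451) (nat_lit 382) (nat_lit 367)) (XT.nd (nat_lit 78) (nat_lit 228) (nat_lit 0) (XT.lf (nat_lit 0) (nat_lit 10737701636)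 (nat_lit 152) (nat_lit 3706103902) (nat_lit 0) (nat_lit 1489709677) (nat_lit 61) (nat_lit 5) (nat_lit 63) (nat_lit 4) (nat_lit 61) (nat_lit 4) (nat_lit 452) (nat_lit 382) (nat_lit 366)) (XT.lf (nat_lit 0) (nat_lit 4066688030) (nat_lit 228) (nat_lit 1364912179) (nat_lit 76) (nat_lit 10992357301) (nat_lit 58) (nat_lit 5) (nat_lit 61) (nat_lit 5) (nat_lit 59) (nat_lit 4) (nat_lit 453) (nat_lit 382) (nat_lit 365)))) (XT.nd (nat_lit 78) (nat_lit 304) (nat_lit 0) (XT.lf (nat_lit 0) (nat_lit 800784779) (nat_lit 152) (nat_lit 12910076013) (nat_lit 152) (nat_lit 3225748460) (nat_lit 55) (nat_lit 4) (nat_lit 57) (nat_lit 5) (nat_lit 57) (nat_lit 4) (nat_lit 454) (nat_lit 382) (nat_lit 364)) (XT.nd (nat_lit 78) (nat_lit 152) (nat_lit 0) (XT.lf (nat_lit 0) (nat_lit 2748893616) (nat_lit 76) (nat_lit 3537347757) (nat_lit 152) (nat_lit 11185386027) (nat_lit 53) (nat_lit 5) (nat_lit 54) (nat_lit 5) (nat_lit 55)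 (nat_lit 4) (nat_lit 455) (nat_lit 382) (nat_lit 363)) (XT.lf (nat_lit 0) (nat_lit 4447456999) (nat_lit 152) (nat_lit 11803686138) (nat_lit 152) (nat_lit 1779983863) (nat_lit 51) (nat_lit 4) (nat_lit 53) (nat_lit 5) (nat_lit 53) (nat_lit 4) (nat_lit 456) (nat_lit 382) (nat_lit 362))))) (XT.nd (nat_lit 234) (nat_lit 456) (nat_lit 0) (XT.nd (nat_lit 78) (nat_lit 304) (nat_lit 0) (XT.lf (nat_lit 0) (nat_lit 5845564821) (nat_lit 76) (nat_lit 2114028489) (nat_lit 152) (nat_lit 10656025972) (nat_lit 49) (nat_lit 5) (nat_lit 50) (nat_lit 5) (nat_lit 51) (nat_lit 4) (nat_lit 457) (nat_lit 382) (nat_lit 361)) (XT.nd (nat_lit 78) (nat_lit 152) (nat_lit 0) (XT.lf (nat_lit 0) (nat_lit 6927592752) (nat_lit 152) (nat_lit 11289100664) (nat_lit 152) (nat_lit 1010101679) (nat_lit 47) (nat_lit 4) (nat_lit 49) (nat_lit 5) (nat_lit 49) (nat_lit 4) (nat_lit 458) (nat_lit 382) (nat_lit 360)) (XT.lf (nat_lit 0) (nat_lit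 7643164286) (nat_lit 76) (nat_lit 1310728402) (nat_lit 152) (nat_lit 10911604216) (nat_lit 45) (nat_lit 5) (nat_lit 46) (nat_lit 5) (nat_lit 47) (nat_lit 4) (nat_lit 459) (nat_lit 382) (nat_lit 359)))) (XT.nd (nat_lit 156) (nat_lit 228) (nat_lit 0) (XT.nd (nat_lit 78) (nat_lit 152) (nat_lit 0) (XT.lf (nat_lit 0) (nat_lit 7962336428) (nat_lit 76) (nat_lit 11516263493) (nat_lit 76) (nat_lit 1054739081) (nat_lit 44) (nat_lit 4) (nat_lit 45) (nat_lit 5) (nat_lit 45) (nat_lit 4) (nat_lit 460) (nat_lit 382) (nat_lit 358)) (XT.lf (nat_lit 0) (nat_lit 7836541426) (nat_lit 76) (nat_lit 1287572581) (nat_lit 152) (nat_lit 12107469825) (nat_lit 42) (nat_lit 5) (nat_lit 43) (nat_lit 5) (nat_lit 44) (nat_lit 4) (nat_lit 461) (nat_lit 382) (nat_lit 357))) (XT.nd (nat_lit 78) (nat_lit 152) (nat_lit 0) (XT.lf (nat_lit 0) (nat_lit 7218015529) (nat_lit 76) (nat_lit 12662452907) (nat_lit 76) (nat_lit 2081254472)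 (nat_lit 41) (nat_lit 4) (nat_lit 42) (nat_lit 5) (nat_lit 42) (nat_lit 4) (nat_lit 462) (nat_lit 382) (nat_lit 356)) (XT.lf (nat_lit 0) (nat_lit 6060938761) (nat_lit 76) (nat_lit 2234279636) (nat_lit 152) (nat_lit 14430307877) (nat_lit 39) (nat_lit 5) (nat_lit 40) (nat_lit 5) (nat_lit 41) (nat_lit 4) (nat_lit 463) (nat_lit 382) (nat_lit 355))))))))
noncomputable def xc20 : XT := (XT.nd (nat_lit 1950) (nat_lit 380) (nat_lit 0) (XT.nd (nat_lit 936) (nat_lit 836) (nat_lit 0) (XT.nd (nat_lit 468) (nat_lit 532) (nat_lit 0) (XT.nd (nat_lit 234) (nat_lit 304) (nat_lit 0) (XT.nd (nat_lit 78) (nat_lit 152) (nat_lit 0) (XT.lf (nat_lit 0) (nat_lit 4296148014) (nat_lit 76) (nat_lit 14937448137) (nat_lit 76) (nat_lit 4290727409) (nat_lit 38) (nat_lit 4) (nat_lit 39) (nat_lit 5) (nat_lit 39) (nat_lit 4) (nat_lit 464) (nat_lit 382) (nat_lit 354)) (XT.nd (nat_lit 78) (nat_lit 0) (nat_lit 0) (XT.lf (nat_lit 0)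 (nat_lit 1881170507) (nat_lit 76) (nat_lit 4375730546) (nat_lit 152) (nat_lit 18103579212) (nat_lit 36) (nat_lit 5) (nat_lit 37) (nat_lit 5) (nat_lit 38) (nat_lit 4) (nat_lit 465) (nat_lit 382) (nat_lit 353)) (XT.lf (nat_lit 0) (nat_lit 17323574660) (nat_lit 152) (nat_lit 1253331439) (nat_lit 0) (nat_lit 6657857168) (nat_lit 36) (nat_lit 5) (nat_lit 38) (nat_lit 4) (nat_lit 36) (nat_lit 4) (nat_lit 466) (nat_lit 382) (nat_lit 352)))) (XT.nd (nat_lit 78) (nat_lit 152) (nat_lit 0) (XT.lf (nat_lit 0) (nat_lit 2807597294) (nat_lit 152) (nat_lit 5119184846) (nat_lit 76) (nat_lit 18223041059) (nat_lit 34) (nat_lit 5) (nat_lit 36) (nat_lit 5) (nat_lit 35) (nat_lit 4) (nat_lit 467) (nat_lit 382) (nat_lit 351)) (XT.nd (nat_lit 78) (nat_lit 76) (nat_lit 0) (XT.lf (nat_lit 0) (nat_lit 13938967708) (nat_lit 152) (nat_lit 9874018071) (nat_lit 0) (nat_lit 3294097081) (nat_lit 33) (nat_lit 5) (nat_lit 35) (nat_lit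 4) (nat_lit 33) (nat_lit 4) (nat_lit 468) (nat_lit 382) (nat_lit 350)) (XT.lf (nat_lit 0) (nat_lit 12534070062) (nat_lit 76) (nat_lit 13177552652) (nat_lit 76) (nat_lit 2398045510) (nat_lit 32) (nat_lit 4) (nat_lit 33) (nat_lit 5) (nat_lit 33) (nat_lit 4) (nat_lit 469) (nat_lit 382) (nat_lit 349))))) (XT.nd (nat_lit 234) (nat_lit 228) (nat_lit 0) (XT.nd (nat_lit 78) (nat_lit 152) (nat_lit 0) (XT.lf (nat_lit 0) (nat_lit 6833119270) (nat_lit 76) (nat_lit 1906216525) (nat_lit 152) (nat_lit 20420400805) (nat_lit 30) (nat_lit 5) (nat_lit 31) (nat_lit 5) (nat_lit 32) (nat_lit 4) (nat_lit 470) (nat_lit 382) (nat_lit 348)) (XT.nd (nat_lit 78) (nat_lit 152) (nat_lit 0) (XT.lf (nat_lit 0) (nat_lit 20479566441) (nat_lit 152) (nat_lit 8193527) (nat_lit 0) (nat_lit 9770972573) (nat_lit 30) (nat_lit 5) (nat_lit 32) (nat_lit 4) (nat_lit 30) (nat_lit 4) (nat_lit 471) (nat_lit 382) (nat_lit 347)) (XT.lf (nat_lit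 0) (nat_lit 1459058787) (nat_lit 152) (nat_lit 7859621116) (nat_lit 76) (nat_lit 22090835770) (nat_lit 28) (nat_lit 5) (nat_lit 30) (nat_lit 5) (nat_lit 29) (nat_lit 4) (nat_lit 472) (nat_lit 382) (nat_lit 346)))) (XT.nd (nat_lit 78) (nat_lit 152) (nat_lit 0) (XT.lf (nat_lit 0) (nat_lit 13081394694) (nat_lit 152) (nat_lit 17062141908) (nat_lit 0) (nat_lit 2470666479) (nat_lit 27) (nat_lit 5) (nat_lit 29) (nat_lit 4) (nat_lit 27) (nat_lit 4) (nat_lit 473) (nat_lit 382) (nat_lit 345)) (XT.nd (nat_lit 78) (nat_lit 76) (nat_lit 0) (XT.lf (nat_lit 0) (nat_lit 6156111171) (nat_lit 76) (nat_lit 19215291970) (nat_lit 76) (nat_lit 8505128151) (nat_lit 26) (nat_lit 4) (nat_lit 27) (nat_lit 5) (nat_lit 27) (nat_lit 4) (nat_lit 474) (nat_lit 382) (nat_lit 344)) (XT.lf (nat_lit 0) (nat_lit 3045865610) (nat_lit 152) (nat_lit 4621757205) (nat_lit 76) (nat_lit 27532512120) (nat_lit 25) (nat_lit 5) (nat_lit 27)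 (nat_lit 5) (nat_lit 26) (nat_lit 4) (nat_lit 475) (nat_lit 382) (nat_lit 343)))))) (XT.nd (nat_lit 468) (nat_lit 456) (nat_lit 0) (XT.nd (nat_lit 234) (nat_lit 152) (nat_lit 0) (XT.nd (nat_lit 78) (nat_lit 152) (nat_lit 0) (XT.lf (nat_lit 0) (nat_lit 15094852820) (nat_lit 152) (nat_lit 16972523000) (nat_lit 0) (nat_lit 4517129111) (nat_lit 24) (nat_lit 5) (nat_lit 26) (nat_lit 4) (nat_lit 24) (nat_lit 4) (nat_lit 476) (nat_lit 382) (nat_lit 342)) (XT.nd (nat_lit 78) (nat_lit 76) (nat_lit 0) (XT.lf (nat_lit 0) (nat_lit 6907263770) (nat_lit 76) (nat_lit 20895133557) (nat_lit 76) (nat_lit 10234015466) (nat_lit 23) (nat_lit 4) (nat_lit 24) (nat_lit 5) (nat_lit 24) (nat_lit 4) (nat_lit 477) (nat_lit 382) (nat_lit 341)) (XT.lf (nat_lit 0) (nat_lit 1596868013) (nat_lit 152) (nat_lit 7498899244) (nat_lit 76) (nat_lit 30463392819) (nat_lit 22) (nat_lit 5) (nat_lit 24) (nat_lit 5) (nat_lit 23) (nat_lit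 4) (nat_lit 478) (nat_lit 382) (nat_lit 340)))) (XT.nd (nat_lit 78) (nat_lit 76) (nat_lit 0) (XT.lf (nat_lit 0) (nat_lit 13882303557) (nat_lit 152) (nat_lit 23889308240) (nat_lit 0) (nat_lit 3381155522) (nat_lit 21) (nat_lit 5) (nat_lit 23) (nat_lit 4) (nat_lit 21) (nat_lit 4) (nat_lit 479) (nat_lit 382) (nat_lit 339)) (XT.nd (nat_lit 78) (nat_lit 0) (nat_lit 0) (XT.lf (nat_lit 0) (nat_lit 264595474) (nat_lit 76) (nat_lit 26565553253) (nat_lit 76) (nat_lit 15994464244) (nat_lit 20) (nat_lit 4) (nat_lit 21) (nat_lit 5) (nat_lit 21) (nat_lit 4) (nat_lit 480) (nat_lit 382) (nat_lit 338)) (XT.lf (nat_lit 0) (nat_lit 25887531807) (nat_lit 76) (nat_lit 14663229688) (nat_lit 76) (nat_lit 4025530228) (nat_lit 20) (nat_lit 4) (nat_lit 21) (nat_lit 5) (nat_lit 21) (nat_lit 4) (nat_lit 481) (nat_lit 382) (nat_lit 337))))) (XT.nd (nat_lit 234) (nat_lit 228) (nat_lit 0) (XT.nd (nat_lit 78) (nat_lit 76) (nat_lit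 0) (XT.lf (nat_lit 0) (nat_lit 6185797552) (nat_lit 76) (nat_lit 2132889904) (nat_lit 152) (nat_lit 38096100020) (nat_lit 18) (nat_lit 5) (nat_lit 19) (nat_lit 5) (nat_lit 20) (nat_lit 4) (nat_lit 482) (nat_lit 382) (nat_lit 336)) (XT.nd (nat_lit 78) (nat_lit 76) (nat_lit 0) (XT.lf (nat_lit 0) (nat_lit 21384280845) (nat_lit 152) (nat_lit 16017942147) (nat_lit 0) (nat_lit 10936168584) (nat_lit 18) (nat_lit 5) (nat_lit 20) (nat_lit 4) (nat_lit 18) (nat_lit 4) (nat_lit 483) (nat_lit 382) (nat_lit 335)) (XT.lf (nat_lit 0) (nat_lit 9350667726) (nat_lit 76) (nat_lit 25755695280) (nat_lit 76) (nat_lit 15251718347) (nat_lit 17) (nat_lit 4) (nat_lit 18) (nat_lit 5) (nat_lit 18) (nat_lit 4) (nat_lit 484) (nat_lit 382) (nat_lit 334)))) (XT.nd (nat_lit 156) (nat_lit 76) (nat_lit 0) (XT.nd (nat_lit 78) (nat_lit 152) (nat_lit 0) (XT.lf (nat_lit 0) (nat_lit 36114640444) (nat_lit 76) (nat_lit 13459751469) (nat_lit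 76) (nat_lit 2902570087) (nat_lit 17) (nat_lit 4) (nat_lit 18) (nat_lit 5) (nat_lit 18) (nat_lit 4) (nat_lit 485) (nat_lit 382) (nat_lit 333)) (XT.lf (nat_lit 0) (nat_lit 9401834211) (nat_lit 76) (nat_lit 455154211) (nat_lit 152) (nat_lit 44842217390) (nat_lit 15) (nat_lit 5) (nat_lit 16) (nat_lit 5) (nat_lit 17) (nat_lit 4) (nat_lit 486) (nat_lit 382) (nat_lit 332))) (XT.nd (nat_lit 78) (nat_lit 76) (nat_lit 0) (XT.lf (nat_lit 0) (nat_lit 23393023244) (nat_lit 152) (nat_lit 20585436946) (nat_lit 0) (nat_lit 13047285098) (nat_lit 15) (nat_lit 5) (nat_lit 17) (nat_lit 4) (nat_lit 15) (nat_lit 4) (nat_lit 487) (nat_lit 382) (nat_lit 331)) (XT.lf (nat_lit 0) (nat_lit 5273546332) (nat_lit 76) (nat_lit 32293298381) (nat_lit 76) (nat_lit 21902938871) (nat_lit 14) (nat_lit 4) (nat_lit 15) (nat_lit 5) (nat_lit 15) (nat_lit 4) (nat_lit 488) (nat_lit 382) (nat_lit 330))))))) (XT.nd (nat_lit 58422) (nat_lit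 0) (nat_lit 4560) (XT.nd (nat_lit 468) (nat_lit 152) (nat_lit 0) (XT.nd (nat_lit 234) (nat_lit 76) (nat_lit 0) (XT.nd (nat_lit 78) (nat_lit 152) (nat_lit 0) (XT.lf (nat_lit 0) (nat_lit 32674150158) (nat_lit 76) (nat_lit 19895560208) (nat_lit 76) (nat_lit 9462704162) (nat_lit 14) (nat_lit 4) (nat_lit 15) (nat_lit 5) (nat_lit 15) (nat_lit 4) (nat_lit 489) (nat_lit 382) (nat_lit 329)) (XT.nd (nat_lit 78) (nat_lit 76) (nat_lit 0) (XT.lf (nat_lit 0) (nat_lit 3441241681) (nat_lit 152) (nat_lit 3487608325) (nat_lit 76) (nat_lit 57795932028) (nat_lit 13) (nat_lit 5) (nat_lit 15) (nat_lit 5) (nat_lit 14) (nat_lit 4) (nat_lit 490) (nat_lit 382) (nat_lit 328)) (XT.lf (nat_lit 0) (nat_lit 17008888072) (nat_lit 152) (nat_lit 43730459485) (nat_lit 0) (nat_lit 6803184626) (nat_lit 12) (nat_lit 5) (nat_lit 14) (nat_lit 4) (nat_lit 12) (nat_lit 4) (nat_lit 491) (nat_lit 382) (nat_lit 327)))) (XT.nd (nat_lit 78)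 (nat_lit 76) (nat_lit 0) (XT.lf (nat_lit 0) (nat_lit 31278912349) (nat_lit 152) (nat_lit 18183970711) (nat_lit 0) (nat_lit 21037568024) (nat_lit 12) (nat_lit 5) (nat_lit 14) (nat_lit 4) (nat_lit 12) (nat_lit 4) (nat_lit 492) (nat_lit 382) (nat_lit 326)) (XT.nd (nat_lit 78) (nat_lit 0) (nat_lit 0) (XT.lf (nat_lit 0) (nat_lit 8653264156) (nat_lit 76) (nat_lit 37614071954) (nat_lit 76) (nat_lit 27338783934) (nat_lit 11) (nat_lit 4) (nat_lit 12) (nat_lit 5) (nat_lit 12) (nat_lit 4) (nat_lit 493) (nat_lit 382) (nat_lit 325)) (XT.lf (nat_lit 0) (nat_lit 37061373084) (nat_lit 76) (nat_lit 25054990130) (nat_lit 76) (nat_lit 14747374782) (nat_lit 11) (nat_lit 4) (nat_lit 12) (nat_lit 5) (nat_lit 12) (nat_lit 4) (nat_lit 494) (nat_lit 382) (nat_lit 324))))) (XT.nd (nat_lit 234) (nat_lit 0) (nat_lit 0) (XT.nd (nat_lit 78) (nat_lit 152) (nat_lit 0) (XT.lf (nat_lit 0) (nat_lit 66746097752) (nat_lit 76) (nat_lit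 11939357464) (nat_lit 76) (nat_lit 1600954184) (nat_lit 11) (nat_lit 4) (nat_lit 12) (nat_lit 5) (nat_lit 12) (nat_lit 4) (nat_lit 495) (nat_lit 382) (nat_lit 323)) (XT.nd (nat_lit 78) (nat_lit 0) (nat_lit 0) (XT.lf (nat_lit 0) (nat_lit 12049583822) (nat_lit 152) (nat_lit 69840733641) (nat_lit 0) (nat_lit 1983831279) (nat_lit 9) (nat_lit 5) (nat_lit 11) (nat_lit 4) (nat_lit 9) (nat_lit 4) (nat_lit 496) (nat_lit 382) (nat_lit 322)) (XT.lf (nat_lit 0) (nat_lit 26542877830) (nat_lit 152) (nat_lit 44642109267) (nat_lit 0) (nat_lit 16450013091) (nat_lit 9) (nat_lit 5) (nat_lit 11) (nat_lit 4) (nat_lit 9) (nat_lit 4) (nat_lit 497) (nat_lit 382) (nat_lit 321)))) (XT.nd (nat_lit 57564) (nat_lit 0) (nat_lit 8132) (XT.nd (nat_lit 57486) (nat_lit 0) (nat_lit 9044) (XT.lf (nat_lit 0) (nat_lit 41695845164) (nat_lit 152) (nat_lit 18312840303) (nat_lit 0) (nat_lit 31577159286) (nat_lit 9) (nat_lit 5) (nat_lit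 11) (nat_lit 4) (nat_lit 9) (nat_lit 4) (nat_lit 498) (nat_lit 382) (nat_lit 320)) (XT.lf (nat_lit 0) (nat_lit 2433030965) (nat_lit 304) (nat_lit 113250647) (nat_lit 0) (nat_lit 2433030965) (nat_lit 128) (nat_lit 5) (nat_lit 132) (nat_lit 4) (nat_lit 128) (nat_lit 4) (nat_lit 434) (nat_lit 383) (nat_lit 383))) (XT.nd (nat_lit 78) (nat_lit 304) (nat_lit 0) (XT.lf (nat_lit 0) (nat_lit 2647817535) (nat_lit 304) (nat_lit 6068603400) (nat_lit 0) (nat_lit 1466635038) (nat_lit 120) (nat_lit 5) (nat_lit 124) (nat_lit 4) (nat_lit 120) (nat_lit 4) (nat_lit 435) (nat_lit 383) (nat_lit 382)) (XT.lf (nat_lit 0) (nat_lit 197217410) (nat_lit 304) (nat_lit 1905766863) (nat_lit 76) (nat_lit 8315689171) (nat_lit 116) (nat_lit 5) (nat_lit 120) (nat_lit 5) (nat_lit 117) (nat_lit 4) (nat_lit 436) (nat_lit 383) (nat_lit 381)))))) (XT.nd (nat_lit 468) (nat_lit 1520) (nat_lit 0) (XT.nd (nat_lit 234) (nat_lit 1064) (nat_lit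 0) (XT.nd (nat_lit 78) (nat_lit 532) (nat_lit 0) (XT.lf (nat_lit 0) (nat_lit 2323535878) (nat_lit 228) (nat_lit 5810123141) (nat_lit 228) (nat_lit 2531010956) (nat_lit 110) (nat_lit 4) (nat_lit 113) (nat_lit 5) (nat_lit 113) (nat_lit 4) (nat_lit 437) (nat_lit 383) (nat_lit 380)) (XT.nd (nat_lit 78) (nat_lit 304) (nat_lit 0) (XT.lf (nat_lit 0) (nat_lit 5395978568) (nat_lit 228) (nat_lit 4276015979) (nat_lit 0) (nat_lit 1250596909) (nat_lit 107) (nat_lit 5) (nat_lit 110) (nat_lit 4) (nat_lit 107) (nat_lit 4) (nat_lit 438) (nat_lit 383) (nat_lit 379)) (XT.lf (nat_lit 0) (nat_lit 2399076009) (nat_lit 304) (nat_lit 191236022) (nat_lit 76) (nat_lit 8602468110) (nat_lit 103) (nat_lit 5) (nat_lit 107) (nat_lit 5) (nat_lit 104) (nat_lit 4) (nat_lit 439) (nat_lit 383) (nat_lit 378)))) (XT.nd (nat_lit 78) (nat_lit 684) (nat_lit 0) (XT.lf (nat_lit 0) (nat_lit 3992299404) (nat_lit 228) (nat_lit 6621621374)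 (nat_lit 228) (nat_lit 860727245) (nat_lit 98) (nat_lit 4) (nat_lit 101) (nat_lit 5) (nat_lit 101) (nat_lit 4) (nat_lit 440) (nat_lit 383) (nat_lit 377)) (XT.nd (nat_lit 78) (nat_lit 456) (nat_lit 0) (XT.lf (nat_lit 0) (nat_lit 7284795922) (nat_lit 228) (nat_lit 3576267057) (nat_lit 0) (nat_lit 908567624) (nat_lit 95) (nat_lit 5) (nat_lit 98) (nat_lit 4) (nat_lit 95) (nat_lit 4) (nat_lit 441) (nat_lit 383) (nat_lit 376)) (XT.lf (nat_lit 0) (nat_lit 326387949) (nat_lit 152) (nat_lit 3342800069) (nat_lit 228) (nat_lit 8408817659) (nat_lit 89) (nat_lit 5) (nat_lit 91) (nat_lit 5) (nat_lit 92) (nat_lit 4) (nat_lit 442) (nat_lit 383) (nat_lit 375))))) (XT.nd (nat_lit 234) (nat_lit 912) (nat_lit 0) (XT.nd (nat_lit 78) (nat_lit 456) (nat_lit 0) (XT.lf (nat_lit 0) (nat_lit 4306688607) (nat_lit 152) (nat_lit 7848768432) (nat_lit 152) (nat_lit 244512912) (nat_lit 87) (nat_lit 4) (nat_lit 89) (nat_lit 5)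 (nat_lit 89) (nat_lit 4) (nat_lit 443) (nat_lit 383) (nat_lit 374)) (XT.nd (nat_lit 78) (nat_lit 228) (nat_lit 0) (XT.lf (nat_lit 0) (nat_lit 8141201883) (nat_lit 228) (nat_lit 4474409340) (nat_lit 0) (nat_lit 120768377) (nat_lit 84) (nat_lit 5) (nat_lit 87) (nat_lit 4) (nat_lit 84) (nat_lit 4) (nat_lit 444) (nat_lit 383) (nat_lit 373)) (XT.lf (nat_lit 0) (nat_lit 3802943905) (nat_lit 228) (nat_lit 907753718) (nat_lit 76) (nat_lit 8376952341) (nat_lit 81) (nat_lit 5) (nat_lit 84) (nat_lit 5) (nat_lit 82) (nat_lit 4) (nat_lit 445) (nat_lit 383) (nat_lit 372)))) (XT.nd (nat_lit 156) (nat_lit 380) (nat_lit 0) (XT.nd (nat_lit 78) (nat_lit 228) (nat_lit 0) (XT.lf (nat_lit 0) (nat_lit 2687452682) (nat_lit 152) (nat_lit 9852614071) (nat_lit 152) (nat_lit 914645806) (nat_lit 77) (nat_lit 4) (nat_lit 79) (nat_lit 5) (nat_lit 79) (nat_lit 4) (nat_lit 446) (nat_lit 383) (nat_lit 371)) (XT.lf (nat_lit 0)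 (nat_lit 6224741721) (nat_lit 152) (nat_lit 1508017840) (nat_lit 228) (nat_lit 6104739544) (nat_lit 74) (nat_lit 5) (nat_lit 76) (nat_lit 5) (nat_lit 77) (nat_lit 4) (nat_lit 447) (nat_lit 383) (nat_lit 370))) (XT.nd (nat_lit 78) (nat_lit 152) (nat_lit 0) (XT.lf (nat_lit 0) (nat_lit 2535855097) (nat_lit 228) (nat_lit 4543559620) (nat_lit 76) (nat_lit 7158079831) (nat_lit 71) (nat_lit 5) (nat_lit 74) (nat_lit 5) (nat_lit 72) (nat_lit 4) (nat_lit 448) (nat_lit 383) (nat_lit 369)) (XT.lf (nat_lit 0) (nat_lit 11480406093) (nat_lit 228) (nat_lit 1561233294) (nat_lit 0) (nat_lit 1614105902) (nat_lit 69) (nat_lit 5) (nat_lit 72) (nat_lit 4) (nat_lit 69) (nat_lit 4) (nat_lit 449) (nat_lit 383) (nat_lit 368))))))))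
noncomputable def xc21 : XT := (XT.nd (nat_lit 1950) (nat_lit 1368) (nat_lit 0) (XT.nd (nat_lit 936) (nat_lit 1216) (nat_lit 0) (XT.nd (nat_lit 468) (nat_lit 836) (nat_lit 0) (XT.nd (nat_lit 234) (nat_lit 532) (nat_lit 0) (XT.nd (nat_lit 78) (nat_lit 304) (nat_lit 0) (XT.lf (nat_lit 0) (nat_lit 1310795373) (nat_lit 76) (nat_lit 4409672496) (nat_lit 152) (nat_lit 9371110037) (nat_lit 65) (nat_lit 5) (nat_lit 66) (nat_lit 5) (nat_lit 67) (nat_lit 4) (nat_lit 450) (nat_lit 383) (nat_lit 367)) (XT.nd (nat_lit 78) (nat_lit 152) (nat_lit 0) (XT.lf (nat_lit 0) (nat_lit 4109690261) (nat_lit 152) (nat_lit 10920933419) (nat_lit 152) (nat_lit 516590994) (nat_lit 63) (nat_lit 4) (nat_lit 65) (nat_lit 5) (nat_lit 65) (nat_lit 4) (nat_lit 451) (nat_lit 383) (nat_lit 366)) (XT.lf (nat_lit 0) (nat_lit 6734629680) (nat_lit 76) (nat_lit 1897113145) (nat_lit 152) (nat_lit 7390696998) (nat_lit 61) (nat_lit 5) (nat_lit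 62) (nat_lit 5) (nat_lit 63) (nat_lit 4) (nat_lit 452) (nat_lit 383) (nat_lit 365)))) (XT.nd (nat_lit 78) (nat_lit 304) (nat_lit 0) (XT.lf (nat_lit 0) (nat_lit 1728272101) (nat_lit 228) (nat_lit 7319776379) (nat_lit 76) (nat_lit 7471062714) (nat_lit 58) (nat_lit 5) (nat_lit 61) (nat_lit 5) (nat_lit 59) (nat_lit 4) (nat_lit 453) (nat_lit 383) (nat_lit 364)) (XT.nd (nat_lit 78) (nat_lit 228) (nat_lit 0) (XT.lf (nat_lit 0) (nat_lit 11160641928) (nat_lit 152) (nat_lit 5557472171) (nat_lit 0) (nat_lit 320007918) (nat_lit 57) (nat_lit 5) (nat_lit 59) (nat_lit 4) (nat_lit 57) (nat_lit 4) (nat_lit 454) (nat_lit 383) (nat_lit 363)) (XT.lf (nat_lit 0) (nat_lit 3496675709) (nat_lit 228) (nat_lit 4054619289) (nat_lit 76) (nat_lit 10028301851) (nat_lit 54) (nat_lit 5) (nat_lit 57) (nat_lit 5) (nat_lit 55) (nat_lit 4) (nat_lit 455) (nat_lit 383) (nat_lit 362))))) (XT.nd (nat_lit 234) (nat_lit 456) (nat_lit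 0) (XT.nd (nat_lit 78) (nat_lit 304) (nat_lit 0) (XT.lf (nat_lit 0) (nat_lit 13234315950) (nat_lit 152) (nat_lit 2794024194) (nat_lit 0) (nat_lit 2117578548) (nat_lit 53) (nat_lit 5) (nat_lit 55) (nat_lit 4) (nat_lit 53) (nat_lit 4) (nat_lit 456) (nat_lit 383) (nat_lit 361)) (XT.nd (nat_lit 78) (nat_lit 76) (nat_lit 0) (XT.lf (nat_lit 0) (nat_lit 4701595100) (nat_lit 228) (nat_lit 1847458704) (nat_lit 76) (nat_lit 12187888980) (nat_lit 50) (nat_lit 5) (nat_lit 53) (nat_lit 5) (nat_lit 51) (nat_lit 4) (nat_lit 457) (nat_lit 383) (nat_lit 360)) (XT.lf (nat_lit 0) (nat_lit 14729774831) (nat_lit 152) (nat_lit 1209579072) (nat_lit 0) (nat_lit 3415636179) (nat_lit 49) (nat_lit 5) (nat_lit 51) (nat_lit 4) (nat_lit 49) (nat_lit 4) (nat_lit 458) (nat_lit 383) (nat_lit 359)))) (XT.nd (nat_lit 78) (nat_lit 228) (nat_lit 0) (XT.lf (nat_lit 0) (nat_lit 5224519657) (nat_lit 228) (nat_lit 950496021) (nat_lit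 76) (nat_lit 13825266413) (nat_lit 46) (nat_lit 5) (nat_lit 49) (nat_lit 5) (nat_lit 47) (nat_lit 4) (nat_lit 459) (nat_lit 383) (nat_lit 358)) (XT.nd (nat_lit 78) (nat_lit 152) (nat_lit 0) (XT.lf (nat_lit 0) (nat_lit 15519279639) (nat_lit 152) (nat_lit 1080032844) (nat_lit 0) (nat_lit 4075713532) (nat_lit 45) (nat_lit 5) (nat_lit 47) (nat_lit 4) (nat_lit 45) (nat_lit 4) (nat_lit 460) (nat_lit 383) (nat_lit 357)) (XT.lf (nat_lit 0) (nat_lit 4921824578) (nat_lit 152) (nat_lit 1665486590) (nat_lit 76) (nat_lit 14792584698) (nat_lit 43) (nat_lit 5) (nat_lit 45) (nat_lit 5) (nat_lit 44) (nat_lit 4) (nat_lit 461) (nat_lit 383) (nat_lit 356)))))) (XT.nd (nat_lit 468) (nat_lit 608) (nat_lit 0) (XT.nd (nat_lit 234) (nat_lit 304) (nat_lit 0) (XT.nd (nat_lit 78) (nat_lit 228) (nat_lit 0) (XT.lf (nat_lit 0) (nat_lit 15448089273) (nat_lit 152) (nat_lit 2735190557) (nat_lit 0) (nat_lit 3933660806) (nat_lit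 42) (nat_lit 5) (nat_lit 44) (nat_lit 4) (nat_lit 42) (nat_lit 4) (nat_lit 462) (nat_lit 383) (nat_lit 355)) (XT.nd (nat_lit 78) (nat_lit 76) (nat_lit 0) (XT.lf (nat_lit 0) (nat_lit 3620394764) (nat_lit 152) (nat_lit 4352794858) (nat_lit 76) (nat_lit 14914182538) (nat_lit 40) (nat_lit 5) (nat_lit 42) (nat_lit 5) (nat_lit 41) (nat_lit 4) (nat_lit 463) (nat_lit 383) (nat_lit 354)) (XT.lf (nat_lit 0) (nat_lit 14329723208) (nat_lit 152) (nat_lit 6568570622) (nat_lit 0) (nat_lit 2794749740) (nat_lit 39) (nat_lit 5) (nat_lit 41) (nat_lit 4) (nat_lit 39) (nat_lit 4) (nat_lit 464) (nat_lit 383) (nat_lit 353)))) (XT.nd (nat_lit 78) (nat_lit 152) (nat_lit 0) (XT.lf (nat_lit 0) (nat_lit 1112469049) (nat_lit 152) (nat_lit 9442011682) (nat_lit 76) (nat_lit 13981309523) (nat_lit 37) (nat_lit 5) (nat_lit 39) (nat_lit 5) (nat_lit 38) (nat_lit 4) (nat_lit 465) (nat_lit 383) (nat_lit 352)) (XT.nd (nat_lit 78) (nat_lit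 76) (nat_lit 0) (XT.lf (nat_lit 0) (nat_lit 11940382393) (nat_lit 152) (nat_lit 13048901190) (nat_lit 0) (nat_lit 427954810) (nat_lit 36) (nat_lit 5) (nat_lit 38) (nat_lit 4) (nat_lit 36) (nat_lit 4) (nat_lit 466) (nat_lit 383) (nat_lit 351)) (XT.lf (nat_lit 0) (nat_lit 8866746771) (nat_lit 76) (nat_lit 14565193116) (nat_lit 76) (nat_lit 2907156142) (nat_lit 35) (nat_lit 4) (nat_lit 36) (nat_lit 5) (nat_lit 36) (nat_lit 4) (nat_lit 467) (nat_lit 383) (nat_lit 350))))) (XT.nd (nat_lit 234) (nat_lit 304) (nat_lit 0) (XT.nd (nat_lit 78) (nat_lit 152) (nat_lit 0) (XT.lf (nat_lit 0) (nat_lit 4536907568) (nat_lit 76) (nat_lit 3509210734) (nat_lit 152) (nat_lit 19258122551) (nat_lit 33) (nat_lit 5) (nat_lit 34) (nat_lit 5) (nat_lit 35) (nat_lit 4) (nat_lit 468) (nat_lit 383) (nat_lit 349)) (XT.nd (nat_lit 78) (nat_lit 152) (nat_lit 0) (XT.lf (nat_lit 0) (nat_lit 19586044326) (nat_lit 152) (nat_lit 723065656)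 (nat_lit 0) (nat_lit 8004700058) (nat_lit 33) (nat_lit 5) (nat_lit 35) (nat_lit 4) (nat_lit 33) (nat_lit 4) (nat_lit 469) (nat_lit 383) (nat_lit 348)) (XT.lf (nat_lit 0) (nat_lit 2383330953) (nat_lit 152) (nat_lit 6865301721) (nat_lit 76) (nat_lit 20121566910) (nat_lit 31) (nat_lit 5) (nat_lit 33) (nat_lit 5) (nat_lit 32) (nat_lit 4) (nat_lit 470) (nat_lit 383) (nat_lit 347)))) (XT.nd (nat_lit 156) (nat_lit 152) (nat_lit 0) (XT.nd (nat_lit 78) (nat_lit 76) (nat_lit 0) (XT.lf (nat_lit 0) (nat_lit 13909630753) (nat_lit 152) (nat_lit 14131856226) (nat_lit 0) (nat_lit 2434128189) (nat_lit 30) (nat_lit 5) (nat_lit 32) (nat_lit 4) (nat_lit 30) (nat_lit 4) (nat_lit 471) (nat_lit 383) (nat_lit 346)) (XT.lf (nat_lit 0) (nat_lit 9016728567) (nat_lit 76) (nat_lit 17099745814) (nat_lit 76) (nat_lit 5516703643) (nat_lit 29) (nat_lit 4) (nat_lit 30) (nat_lit 5) (nat_lit 30) (nat_lit 4) (nat_lit 472) (nat_lit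 383) (nat_lit 345))) (XT.nd (nat_lit 78) (nat_lit 0) (nat_lit 0) (XT.lf (nat_lit 0) (nat_lit 440102252) (nat_lit 76) (nat_lit 5533081538) (nat_lit 152) (nat_lit 26873477031) (nat_lit 27) (nat_lit 5) (nat_lit 28) (nat_lit 5) (nat_lit 29) (nat_lit 4) (nat_lit 473) (nat_lit 383) (nat_lit 344)) (XT.lf (nat_lit 0) (nat_lit 18081892359) (nat_lit 152) (nat_lit 9390452944) (nat_lit 0) (nat_lit 6642084168) (nat_lit 27) (nat_lit 5) (nat_lit 29) (nat_lit 4) (nat_lit 27) (nat_lit 4) (nat_lit 474) (nat_lit 383) (nat_lit 343))))))) (XT.nd (nat_lit 1014) (nat_lit 456) (nat_lit 0) (XT.nd (nat_lit 468) (nat_lit 456) (nat_lit 0) (XT.nd (nat_lit 234) (nat_lit 228) (nat_lit 0) (XT.nd (nat_lit 78) (nat_lit 152) (nat_lit 0) (XT.lf (nat_lit 0) (nat_lit 14744351222) (nat_lit 76) (nat_lit 16114673850) (nat_lit 76) (nat_lit 4584674634) (nat_lit 26) (nat_lit 4) (nat_lit 27) (nat_lit 5) (nat_lit 27) (nat_lit 4) (nat_lit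 475) (nat_lit 383) (nat_lit 342)) (XT.nd (nat_lit 78) (nat_lit 0) (nat_lit 0) (XT.lf (nat_lit 0) (nat_lit 3176102631) (nat_lit 76) (nat_lit 4110595920) (nat_lit 152) (nat_lit 29550706869) (nat_lit 24) (nat_lit 5) (nat_lit 25) (nat_lit 5) (nat_lit 26) (nat_lit 4) (nat_lit 476) (nat_lit 383) (nat_lit 341)) (XT.lf (nat_lit 0) (nat_lit 19825276647) (nat_lit 152) (nat_lit 10000821791) (nat_lit 0) (nat_lit 8468285047) (nat_lit 24) (nat_lit 5) (nat_lit 26) (nat_lit 4) (nat_lit 24) (nat_lit 4) (nat_lit 477) (nat_lit 383) (nat_lit 340)))) (XT.nd (nat_lit 78) (nat_lit 152) (nat_lit 0) (XT.lf (nat_lit 0) (nat_lit 14848786204) (nat_lit 76) (nat_lit 18203112953) (nat_lit 76) (nat_lit 6770480190) (nat_lit 23) (nat_lit 4) (nat_lit 24) (nat_lit 5) (nat_lit 24) (nat_lit 4) (nat_lit 478) (nat_lit 383) (nat_lit 339)) (XT.nd (nat_lit 78) (nat_lit 76) (nat_lit 0) (XT.lf (nat_lit 0) (nat_lit 5388773200) (nat_lit 152)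 (nat_lit 565462368) (nat_lit 76) (nat_lit 35471453505) (nat_lit 22) (nat_lit 5) (nat_lit 24) (nat_lit 5) (nat_lit 23) (nat_lit 4) (nat_lit 479) (nat_lit 383) (nat_lit 338)) (XT.lf (nat_lit 0) (nat_lit 18213554002) (nat_lit 152) (nat_lit 17910314550) (nat_lit 0) (nat_lit 6977359118) (nat_lit 21) (nat_lit 5) (nat_lit 23) (nat_lit 4) (nat_lit 21) (nat_lit 4) (nat_lit 480) (nat_lit 383) (nat_lit 337))))) (XT.nd (nat_lit 234) (nat_lit 228) (nat_lit 0) (XT.nd (nat_lit 78) (nat_lit 152) (nat_lit 0) (XT.lf (nat_lit 0) (nat_lit 7245658584) (nat_lit 76) (nat_lit 24456915006) (nat_lit 76) (nat_lit 13157281596) (nat_lit 20) (nat_lit 4) (nat_lit 21) (nat_lit 5) (nat_lit 21) (nat_lit 4) (nat_lit 481) (nat_lit 383) (nat_lit 336)) (XT.nd (nat_lit 78) (nat_lit 152) (nat_lit 0) (XT.lf (nat_lit 0) (nat_lit 33817940147) (nat_lit 76) (nat_lit 12123137925) (nat_lit 76) (nat_lit 763086873) (nat_lit 20) (nat_lit 4) (nat_lit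 21) (nat_lit 5) (nat_lit 21) (nat_lit 4) (nat_lit 482) (nat_lit 383) (nat_lit 335)) (XT.lf (nat_lit 0) (nat_lit 12040996372) (nat_lit 152) (nat_lit 35639329682) (nat_lit 0) (nat_lit 955955921) (nat_lit 18) (nat_lit 5) (nat_lit 20) (nat_lit 4) (nat_lit 18) (nat_lit 4) (nat_lit 483) (nat_lit 383) (nat_lit 334)))) (XT.nd (nat_lit 156) (nat_lit 152) (nat_lit 0) (XT.nd (nat_lit 78) (nat_lit 76) (nat_lit 0) (XT.lf (nat_lit 0) (nat_lit 25622925666) (nat_lit 152) (nat_lit 10552570718) (nat_lit 0) (nat_lit 14484680764) (nat_lit 18) (nat_lit 5) (nat_lit 20) (nat_lit 4) (nat_lit 18) (nat_lit 4) (nat_lit 484) (nat_lit 383) (nat_lit 333)) (XT.lf (nat_lit 0) (nat_lit 15904848319) (nat_lit 76) (nat_lit 24033846916) (nat_lit 76) (nat_lit 12844931111) (nat_lit 17) (nat_lit 4) (nat_lit 18) (nat_lit 5) (nat_lit 18) (nat_lit 4) (nat_lit 485) (nat_lit 383) (nat_lit 332))) (XT.nd (nat_lit 78) (nat_lit 152) (nat_lit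 0) (XT.lf (nat_lit 0) (nat_lit 43717179330) (nat_lit 76) (nat_lit 11266421778) (nat_lit 76) (nat_lit 29247968) (nat_lit 17) (nat_lit 4) (nat_lit 18) (nat_lit 5) (nat_lit 18) (nat_lit 4) (nat_lit 486) (nat_lit 383) (nat_lit 331)) (XT.lf (nat_lit 0) (nat_lit 13245593959) (nat_lit 152) (nat_lit 41810561505) (nat_lit 0) (nat_lit 2291095111) (nat_lit 15) (nat_lit 5) (nat_lit 17) (nat_lit 4) (nat_lit 15) (nat_lit 4) (nat_lit 487) (nat_lit 383) (nat_lit 330)))))) (XT.nd (nat_lit 468) (nat_lit 228) (nat_lit 0) (XT.nd (nat_lit 234) (nat_lit 152) (nat_lit 0) (XT.nd (nat_lit 78) (nat_lit 76) (nat_lit 0) (XT.lf (nat_lit 0) (nat_lit 27324912595) (nat_lit 152) (nat_lit 16141294799) (nat_lit 0) (nat_lit 16327917210) (nat_lit 15) (nat_lit 5) (nat_lit 17) (nat_lit 4) (nat_lit 15) (nat_lit 4) (nat_lit 488) (nat_lit 383) (nat_lit 329)) (XT.nd (nat_lit 78) (nat_lit 0) (nat_lit 0) (XT.lf (nat_lit 0) (nat_lit 10853743330)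 (nat_lit 76) (nat_lit 31273252295) (nat_lit 76) (nat_lit 20235784018) (nat_lit 14) (nat_lit 4) (nat_lit 15) (nat_lit 5) (nat_lit 15) (nat_lit 4) (nat_lit 489) (nat_lit 383) (nat_lit 328)) (XT.lf (nat_lit 0) (nat_lit 39371209743) (nat_lit 76) (nat_lit 18381089642) (nat_lit 76) (nat_lit 7305075755) (nat_lit 14) (nat_lit 4) (nat_lit 15) (nat_lit 5) (nat_lit 15) (nat_lit 4) (nat_lit 490) (nat_lit 383) (nat_lit 327)))) (XT.nd (nat_lit 78) (nat_lit 0) (nat_lit 0) (XT.lf (nat_lit 0) (nat_lit 1233241657) (nat_lit 76) (nat_lit 4848514820) (nat_lit 152) (nat_lit 61805176855) (nat_lit 12) (nat_lit 5) (nat_lit 13) (nat_lit 5) (nat_lit 14) (nat_lit 4) (nat_lit 491) (nat_lit 383) (nat_lit 326)) (XT.nd (nat_lit 78) (nat_lit 0) (nat_lit 0) (XT.lf (nat_lit 0) (nat_lit 20266987427) (nat_lit 152) (nat_lit 41136417814) (nat_lit 0) (nat_lit 9443991311) (nat_lit 12) (nat_lit 5) (nat_lit 14) (nat_lit 4) (nat_lit 12)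 (nat_lit 4) (nat_lit 492) (nat_lit 383) (nat_lit 325)) (XT.lf (nat_lit 0) (nat_lit 35135862683) (nat_lit 152) (nat_lit 14540250537) (nat_lit 0) (nat_lit 24280539239) (nat_lit 12) (nat_lit 5) (nat_lit 14) (nat_lit 4) (nat_lit 12) (nat_lit 4) (nat_lit 493) (nat_lit 383) (nat_lit 324))))) (XT.nd (nat_lit 234) (nat_lit 76) (nat_lit 0) (XT.nd (nat_lit 78) (nat_lit 76) (nat_lit 0) (XT.lf (nat_lit 0) (nat_lit 13508337573) (nat_lit 76) (nat_lit 37298690270) (nat_lit 76) (nat_lit 26412578894) (nat_lit 11) (nat_lit 4) (nat_lit 12) (nat_lit 5) (nat_lit 12) (nat_lit 4) (nat_lit 494) (nat_lit 383) (nat_lit 323)) (XT.nd (nat_lit 78) (nat_lit 76) (nat_lit 0) (XT.lf (nat_lit 0) (nat_lit 43126260984) (nat_lit 76) (nat_lit 24216229845) (nat_lit 76) (nat_lit 13300796630) (nat_lit 11) (nat_lit 4) (nat_lit 12) (nat_lit 5) (nat_lit 12) (nat_lit 4) (nat_lit 495) (nat_lit 383) (nat_lit 322)) (XT.lf (nat_lit 0) (nat_lit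 391162623) (nat_lit 152) (nat_lit 10149298651) (nat_lit 76) (nat_lit 73699546465) (nat_lit 10) (nat_lit 5) (nat_lit 12) (nat_lit 5) (nat_lit 11) (nat_lit 4) (nat_lit 496) (nat_lit 383) (nat_lit 321)))) (XT.nd (nat_lit 57408) (nat_lit 0) (nat_lit 9348) (XT.nd (nat_lit 78) (nat_lit 0) (nat_lit 0) (XT.lf (nat_lit 0) (nat_lit 14650944054) (nat_lit 152) (nat_lit 69356418159) (nat_lit 0) (nat_lit 4000502743) (nat_lit 9) (nat_lit 5) (nat_lit 11) (nat_lit 4) (nat_lit 9) (nat_lit 4) (nat_lit 497) (nat_lit 383) (nat_lit 320)) (XT.lf (nat_lit 0) (nat_lit 29773717951) (nat_lit 152) (nat_lit 43087212669) (nat_lit 0) (nat_lit 19098685079) (nat_lit 9) (nat_lit 5) (nat_lit 11) (nat_lit 4) (nat_lit 9) (nat_lit 4) (nat_lit 498) (nat_lit 383) (nat_lit 319))) (XT.nd (nat_lit 78) (nat_lit 304) (nat_lit 0) (XT.lf (nat_lit 0) (nat_lit 305512323) (nat_lit 304) (nat_lit 4157456731) (nat_lit 0) (nat_lit 305512323) (nat_lit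 136) (nat_lit 5) (nat_lit 140) (nat_lit 4) (nat_lit 136) (nat_lit 4) (nat_lit 432) (nat_lit 384) (nat_lit 384)) (XT.lf (nat_lit 0) (nat_lit 5329827147) (nat_lit 304) (nat_lit 2865231237) (nat_lit 304) (nat_lit 1549458901) (nat_lit 132) (nat_lit 4) (nat_lit 136) (nat_lit 5) (nat_lit 136) (nat_lit 4) (nat_lit 433) (nat_lit 384) (nat_lit 383))))))))
noncomputable def xc22 : XT := (XT.nd (nat_lit 1950) (nat_lit 2356) (nat_lit 0) (XT.nd (nat_lit 936) (nat_lit 2432) (nat_lit 0) (XT.nd (nat_lit 468) (nat_lit 1672) (nat_lit 0) (XT.nd (nat_lit 234) (nat_lit 988) (nat_lit 0) (XT.nd (nat_lit 78) (nat_lit 912) (nat_lit 0) (XT.lf (nat_lit 0) (nat_lit 6000578226) (nat_lit 304) (nat_lit 455842050) (nat_lit 0) (nat_lit 3506511385) (nat_lit 128) (nat_lit 5) (nat_lit 132) (nat_lit 4) (nat_lit 128) (nat_lit 4) (nat_lit 434) (nat_lit 384) (nat_lit 382)) (XT.nd (nat_lit 78) (nat_lit 304) (nat_lit 0) (XT.lf (nat_lit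 0) (nat_lit 3595497440) (nat_lit 304) (nat_lit 6547232891) (nat_lit 0) (nat_lit 49137611) (nat_lit 120) (nat_lit 5) (nat_lit 124) (nat_lit 4) (nat_lit 120) (nat_lit 4) (nat_lit 435) (nat_lit 384) (nat_lit 381)) (XT.lf (nat_lit 0) (nat_lit 973545278) (nat_lit 304) (nat_lit 2641430257) (nat_lit 76) (nat_lit 6816581552) (nat_lit 116) (nat_lit 5) (nat_lit 120) (nat_lit 5) (nat_lit 117) (nat_lit 4) (nat_lit 436) (nat_lit 384) (nat_lit 380)))) (XT.nd (nat_lit 78) (nat_lit 532) (nat_lit 0) (XT.lf (nat_lit 0) (nat_lit 1329117530) (nat_lit 228) (nat_lit 7413664257) (nat_lit 228) (nat_lit 1939803069) (nat_lit 110) (nat_lit 4) (nat_lit 113) (nat_lit 5) (nat_lit 113) (nat_lit 4) (nat_lit 437) (nat_lit 384) (nat_lit 379)) (XT.nd (nat_lit 78) (nat_lit 304) (nat_lit 0) (XT.lf (nat_lit 0) (nat_lit 5394114315) (nat_lit 152) (nat_lit 424325844) (nat_lit 228) (nat_lit 5126625926) (nat_lit 107) (nat_lit 5) (nat_lit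 109) (nat_lit 5) (nat_lit 110) (nat_lit 4) (nat_lit 438) (nat_lit 384) (nat_lit 378)) (XT.lf (nat_lit 0) (nat_lit 2641710867) (nat_lit 304) (nat_lit 1740094569) (nat_lit 76) (nat_lit 6837833291) (nat_lit 103) (nat_lit 5) (nat_lit 107) (nat_lit 5) (nat_lit 104) (nat_lit 4) (nat_lit 439) (nat_lit 384) (nat_lit 377))))) (XT.nd (nat_lit 234) (nat_lit 760) (nat_lit 0) (XT.nd (nat_lit 78) (nat_lit 532) (nat_lit 0) (XT.lf (nat_lit 0) (nat_lit 2144032137) (nat_lit 228) (nat_lit 8532696740) (nat_lit 228) (nat_lit 830184818) (nat_lit 98) (nat_lit 4) (nat_lit 101) (nat_lit 5) (nat_lit 101) (nat_lit 4) (nat_lit 440) (nat_lit 384) (nat_lit 376)) (XT.nd (nat_lit 78) (nat_lit 304) (nat_lit 0) (XT.lf (nat_lit 0) (nat_lit 6061200094) (nat_lit 152) (nat_lit 1097382422) (nat_lit 228) (nat_lit 4648001105) (nat_lit 95) (nat_lit 5) (nat_lit 97) (nat_lit 5) (nat_lit 98) (nat_lit 4) (nat_lit 441) (nat_lit 384) (nat_lit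 375)) (XT.lf (nat_lit 0) (nat_lit 3347135787) (nat_lit 304) (nat_lit 2139636154) (nat_lit 76) (nat_lit 6633106403) (nat_lit 91) (nat_lit 5) (nat_lit 95) (nat_lit 5) (nat_lit 92) (nat_lit 4) (nat_lit 442) (nat_lit 384) (nat_lit 374)))) (XT.nd (nat_lit 78) (nat_lit 456) (nat_lit 0) (XT.lf (nat_lit 0) (nat_lit 1503144042) (nat_lit 152) (nat_lit 10137687798) (nat_lit 152) (nat_lit 806797968) (nat_lit 87) (nat_lit 4) (nat_lit 89) (nat_lit 5) (nat_lit 89) (nat_lit 4) (nat_lit 443) (nat_lit 384) (nat_lit 373)) (XT.nd (nat_lit 78) (nat_lit 228) (nat_lit 0) (XT.lf (nat_lit 0) (nat_lit 5141779045) (nat_lit 152) (nat_lit 2295750070) (nat_lit 228) (nat_lit 5351252540) (nat_lit 84) (nat_lit 5) (nat_lit 86) (nat_lit 5) (nat_lit 87) (nat_lit 4) (nat_lit 444) (nat_lit 384) (nat_lit 372)) (XT.lf (nat_lit 0) (nat_lit 2886590262) (nat_lit 228) (nat_lit 4385011913) (nat_lit 76) (nat_lit 5873927408) (nat_lit 81) (nat_lit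 5) (nat_lit 84) (nat_lit 5) (nat_lit 82) (nat_lit 4) (nat_lit 445) (nat_lit 384) (nat_lit 371)))))) (XT.nd (nat_lit 468) (nat_lit 1216) (nat_lit 0) (XT.nd (nat_lit 234) (nat_lit 456) (nat_lit 0) (XT.nd (nat_lit 78) (nat_lit 608) (nat_lit 0) (XT.lf (nat_lit 0) (nat_lit 11420134522) (nat_lit 228) (nat_lit 1159628758) (nat_lit 0) (nat_lit 938944398) (nat_lit 79) (nat_lit 5) (nat_lit 82) (nat_lit 4) (nat_lit 79) (nat_lit 4) (nat_lit 446) (nat_lit 384) (nat_lit 370)) (XT.nd (nat_lit 78) (nat_lit 228) (nat_lit 0) (XT.lf (nat_lit 0) (nat_lit 2009066937) (nat_lit 152) (nat_lit 4394668385) (nat_lit 228) (nat_lit 7503153841) (nat_lit 74) (nat_lit 5) (nat_lit 76) (nat_lit 5) (nat_lit 77) (nat_lit 4) (nat_lit 447) (nat_lit 384) (nat_lit 369)) (XT.lf (nat_lit 0) (nat_lit 977867108) (nat_lit 228) (nat_lit 9156277156) (nat_lit 76) (nat_lit 4178756431) (nat_lit 71) (nat_lit 5) (nat_lit 74) (nat_lit 5) (nat_lit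 72) (nat_lit 4) (nat_lit 448) (nat_lit 384) (nat_lit 368)))) (XT.nd (nat_lit 78) (nat_lit 304) (nat_lit 0) (XT.lf (nat_lit 0) (nat_lit 8199078897) (nat_lit 152) (nat_lit 1549169437) (nat_lit 228) (nat_lit 4988134825) (nat_lit 69) (nat_lit 5) (nat_lit 71) (nat_lit 5) (nat_lit 72) (nat_lit 4) (nat_lit 449) (nat_lit 384) (nat_lit 367)) (XT.nd (nat_lit 78) (nat_lit 76) (nat_lit 0) (XT.lf (nat_lit 0) (nat_lit 3754630710) (nat_lit 228) (nat_lit 4045114285) (nat_lit 76) (nat_lit 7378652154) (nat_lit 66) (nat_lit 5) (nat_lit 69) (nat_lit 5) (nat_lit 67) (nat_lit 4) (nat_lit 450) (nat_lit 384) (nat_lit 366)) (XT.lf (nat_lit 0) (nat_lit 12843499781) (nat_lit 152) (nat_lit 1664343298) (nat_lit 0) (nat_lit 1132835281) (nat_lit 65) (nat_lit 5) (nat_lit 67) (nat_lit 4) (nat_lit 65) (nat_lit 4) (nat_lit 451) (nat_lit 384) (nat_lit 365))))) (XT.nd (nat_lit 234) (nat_lit 608) (nat_lit 0) (XT.nd (nat_lit 78) (nat_lit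 304) (nat_lit 0) (XT.lf (nat_lit 0) (nat_lit 535918431) (nat_lit 76) (nat_lit 5676785255) (nat_lit 152) (nat_lit 9909351516) (nat_lit 61) (nat_lit 5) (nat_lit 62) (nat_lit 5) (nat_lit 63) (nat_lit 4) (nat_lit 452) (nat_lit 384) (nat_lit 364)) (XT.nd (nat_lit 78) (nat_lit 152) (nat_lit 0) (XT.lf (nat_lit 0) (nat_lit 2630995535) (nat_lit 152) (nat_lit 13028099532) (nat_lit 152) (nat_lit 966269566) (nat_lit 59) (nat_lit 4) (nat_lit 61) (nat_lit 5) (nat_lit 61) (nat_lit 4) (nat_lit 453) (nat_lit 384) (nat_lit 363)) (XT.lf (nat_lit 0) (nat_lit 4490379421) (nat_lit 76) (nat_lit 3821843961) (nat_lit 152) (nat_lit 8837617447) (nat_lit 57) (nat_lit 5) (nat_lit 58) (nat_lit 5) (nat_lit 59) (nat_lit 4) (nat_lit 454) (nat_lit 384) (nat_lit 362)))) (XT.nd (nat_lit 156) (nat_lit 304) (nat_lit 0) (XT.nd (nat_lit 78) (nat_lit 76) (nat_lit 0) (XT.lf (nat_lit 0) (nat_lit 384265383) (nat_lit 228) (nat_lit 11540061314)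 (nat_lit 76) (nat_lit 5774148078) (nat_lit 54) (nat_lit 5) (nat_lit 57) (nat_lit 5) (nat_lit 55) (nat_lit 4) (nat_lit 455) (nat_lit 384) (nat_lit 361)) (XT.lf (nat_lit 0) (nat_lit 7550243549) (nat_lit 76) (nat_lit 2377624297) (nat_lit 152) (nat_lit 8342754092) (nat_lit 53) (nat_lit 5) (nat_lit 54) (nat_lit 5) (nat_lit 55) (nat_lit 4) (nat_lit 456) (nat_lit 384) (nat_lit 360))) (XT.nd (nat_lit 78) (nat_lit 76) (nat_lit 0) (XT.lf (nat_lit 0) (nat_lit 1137365134) (nat_lit 228) (nat_lit 10189255782) (nat_lit 76) (nat_lit 7542019438) (nat_lit 50) (nat_lit 5) (nat_lit 53) (nat_lit 5) (nat_lit 51) (nat_lit 4) (nat_lit 457) (nat_lit 384) (nat_lit 359)) (XT.lf (nat_lit 0) (nat_lit 9490189694) (nat_lit 76) (nat_lit 1464338848) (nat_lit 152) (nat_lit 8538493288) (nat_lit 49) (nat_lit 5) (nat_lit 50) (nat_lit 5) (nat_lit 51) (nat_lit 4) (nat_lit 458) (nat_lit 384) (nat_lit 358))))))) (XT.nd (nat_lit 1014)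 (nat_lit 912) (nat_lit 0) (XT.nd (nat_lit 468) (nat_lit 684) (nat_lit 0) (XT.nd (nat_lit 234) (nat_lit 304) (nat_lit 0) (XT.nd (nat_lit 78) (nat_lit 228) (nat_lit 0) (XT.lf (nat_lit 0) (nat_lit 1191840457) (nat_lit 228) (nat_lit 10187382781) (nat_lit 76) (nat_lit 8766095413) (nat_lit 46) (nat_lit 5) (nat_lit 49) (nat_lit 5) (nat_lit 47) (nat_lit 4) (nat_lit 459) (nat_lit 384) (nat_lit 357)) (XT.nd (nat_lit 78) (nat_lit 152) (nat_lit 0) (XT.lf (nat_lit 0) (nat_lit 10040047450) (nat_lit 76) (nat_lit 1224232090) (nat_lit 152) (nat_lit 9562455909) (nat_lit 45) (nat_lit 5) (nat_lit 46) (nat_lit 5) (nat_lit 47) (nat_lit 4) (nat_lit 460) (nat_lit 384) (nat_lit 356)) (XT.lf (nat_lit 0) (nat_lit 402485083) (nat_lit 152) (nat_lit 11838880504) (nat_lit 76) (nat_lit 9297472138) (nat_lit 43) (nat_lit 5) (nat_lit 45) (nat_lit 5) (nat_lit 44) (nat_lit 4) (nat_lit 461) (nat_lit 384) (nat_lit 355)))) (XT.nd (nat_lit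 78) (nat_lit 228) (nat_lit 0) (XT.lf (nat_lit 0) (nat_lit 8876534207) (nat_lit 76) (nat_lit 1825859993) (nat_lit 152) (nat_lit 11580281822) (nat_lit 42) (nat_lit 5) (nat_lit 43) (nat_lit 5) (nat_lit 44) (nat_lit 4) (nat_lit 462) (nat_lit 384) (nat_lit 354)) (XT.nd (nat_lit 78) (nat_lit 152) (nat_lit 0) (XT.lf (nat_lit 0) (nat_lit 7539673320) (nat_lit 76) (nat_lit 14087323895) (nat_lit 76) (nat_lit 1433423648) (nat_lit 41) (nat_lit 4) (nat_lit 42) (nat_lit 5) (nat_lit 42) (nat_lit 4) (nat_lit 463) (nat_lit 384) (nat_lit 353)) (XT.lf (nat_lit 0) (nat_lit 5613565495) (nat_lit 76) (nat_lit 3469083094) (nat_lit 152) (nat_lit 14790496394) (nat_lit 39) (nat_lit 5) (nat_lit 40) (nat_lit 5) (nat_lit 41) (nat_lit 4) (nat_lit 464) (nat_lit 384) (nat_lit 352))))) (XT.nd (nat_lit 234) (nat_lit 456) (nat_lit 0) (XT.nd (nat_lit 78) (nat_lit 152) (nat_lit 0) (XT.lf (nat_lit 0) (nat_lit 3055315053) (nat_lit 76)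 (nat_lit 17137991780) (nat_lit 76) (nat_lit 4529824792) (nat_lit 38) (nat_lit 4) (nat_lit 39) (nat_lit 5) (nat_lit 39) (nat_lit 4) (nat_lit 465) (nat_lit 384) (nat_lit 351)) (XT.nd (nat_lit 78) (nat_lit 76) (nat_lit 0) (XT.lf (nat_lit 0) (nat_lit 6183801260) (nat_lit 152) (nat_lit 205028102) (nat_lit 76) (nat_lit 19223139335) (nat_lit 37) (nat_lit 5) (nat_lit 39) (nat_lit 5) (nat_lit 38) (nat_lit 4) (nat_lit 466) (nat_lit 384) (nat_lit 350)) (XT.lf (nat_lit 0) (nat_lit 17448786179) (nat_lit 152) (nat_lit 4168277091) (nat_lit 0) (nat_lit 4923562353) (nat_lit 36) (nat_lit 5) (nat_lit 38) (nat_lit 4) (nat_lit 36) (nat_lit 4) (nat_lit 467) (nat_lit 384) (nat_lit 349)))) (XT.nd (nat_lit 156) (nat_lit 228) (nat_lit 0) (XT.nd (nat_lit 78) (nat_lit 76) (nat_lit 0) (XT.lf (nat_lit 0) (nat_lit 1820889318) (nat_lit 152) (nat_lit 8960890519) (nat_lit 76) (nat_lit 16730613024) (nat_lit 34) (nat_lit 5) (nat_lit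 36) (nat_lit 5) (nat_lit 35) (nat_lit 4) (nat_lit 468) (nat_lit 384) (nat_lit 348)) (XT.lf (nat_lit 0) (nat_lit 13127412744) (nat_lit 152) (nat_lit 14684896523) (nat_lit 0) (nat_lit 716656720) (nat_lit 33) (nat_lit 5) (nat_lit 35) (nat_lit 4) (nat_lit 33) (nat_lit 4) (nat_lit 469) (nat_lit 384) (nat_lit 347))) (XT.nd (nat_lit 78) (nat_lit 152) (nat_lit 0) (XT.lf (nat_lit 0) (nat_lit 8147758036) (nat_lit 76) (nat_lit 16985821970) (nat_lit 76) (nat_lit 4458761862) (nat_lit 32) (nat_lit 4) (nat_lit 33) (nat_lit 5) (nat_lit 33) (nat_lit 4) (nat_lit 470) (nat_lit 384) (nat_lit 346)) (XT.lf (nat_lit 0) (nat_lit 1403743464) (nat_lit 76) (nat_lit 5513285780) (nat_lit 152) (nat_lit 23789141112) (nat_lit 30) (nat_lit 5) (nat_lit 31) (nat_lit 5) (nat_lit 32) (nat_lit 4) (nat_lit 471) (nat_lit 384) (nat_lit 345)))))) (XT.nd (nat_lit 468) (nat_lit 456) (nat_lit 0) (XT.nd (nat_lit 234) (nat_lit 228) (nat_lit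 0) (XT.nd (nat_lit 78) (nat_lit 228) (nat_lit 0) (XT.lf (nat_lit 0) (nat_lit 18915831631) (nat_lit 152) (nat_lit 6410465305) (nat_lit 0) (nat_lit 6543679073) (nat_lit 30) (nat_lit 5) (nat_lit 32) (nat_lit 4) (nat_lit 30) (nat_lit 4) (nat_lit 472) (nat_lit 384) (nat_lit 344)) (XT.nd (nat_lit 78) (nat_lit 152) (nat_lit 0) (XT.lf (nat_lit 0) (nat_lit 17653962267) (nat_lit 76) (nat_lit 13952475483) (nat_lit 76) (nat_lit 1482781331) (nat_lit 29) (nat_lit 4) (nat_lit 30) (nat_lit 5) (nat_lit 30) (nat_lit 4) (nat_lit 473) (nat_lit 384) (nat_lit 343)) (XT.lf (nat_lit 0) (nat_lit 8495619736) (nat_lit 76) (nat_lit 1877883043) (nat_lit 152) (nat_lit 23992354692) (nat_lit 27) (nat_lit 5) (nat_lit 28) (nat_lit 5) (nat_lit 29) (nat_lit 4) (nat_lit 474) (nat_lit 384) (nat_lit 342)))) (XT.nd (nat_lit 78) (nat_lit 228) (nat_lit 0) (XT.lf (nat_lit 0) (nat_lit 22928325236) (nat_lit 152) (nat_lit 2127734267) (nat_lit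 0) (nat_lit 10645738820) (nat_lit 27) (nat_lit 5) (nat_lit 29) (nat_lit 4) (nat_lit 27) (nat_lit 4) (nat_lit 475) (nat_lit 384) (nat_lit 341)) (XT.nd (nat_lit 78) (nat_lit 152) (nat_lit 0) (XT.lf (nat_lit 0) (nat_lit 22992166962) (nat_lit 76) (nat_lit 13236613694) (nat_lit 76) (nat_lit 872221360) (nat_lit 26) (nat_lit 4) (nat_lit 27) (nat_lit 5) (nat_lit 27) (nat_lit 4) (nat_lit 476) (nat_lit 384) (nat_lit 340)) (XT.lf (nat_lit 0) (nat_lit 10705001939) (nat_lit 76) (nat_lit 697611198) (nat_lit 152) (nat_lit 27164042537) (nat_lit 24) (nat_lit 5) (nat_lit 25) (nat_lit 5) (nat_lit 26) (nat_lit 4) (nat_lit 477) (nat_lit 384) (nat_lit 339))))) (XT.nd (nat_lit 234) (nat_lit 228) (nat_lit 0) (XT.nd (nat_lit 78) (nat_lit 228) (nat_lit 0) (XT.lf (nat_lit 0) (nat_lit 24422600511) (nat_lit 152) (nat_lit 3407595435) (nat_lit 0) (nat_lit 12270655743) (nat_lit 24) (nat_lit 5) (nat_lit 26) (nat_lit 4) (nat_lit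 24) (nat_lit 4) (nat_lit 478) (nat_lit 384) (nat_lit 338)) (XT.nd (nat_lit 78) (nat_lit 152) (nat_lit 0) (XT.lf (nat_lit 0) (nat_lit 22481165873) (nat_lit 76) (nat_lit 15723901452) (nat_lit 76) (nat_lit 3503347919) (nat_lit 23) (nat_lit 4) (nat_lit 24) (nat_lit 5) (nat_lit 24) (nat_lit 4) (nat_lit 479) (nat_lit 384) (nat_lit 337)) (XT.lf (nat_lit 0) (nat_lit 6155294241) (nat_lit 76) (nat_lit 2929035539) (nat_lit 152) (nat_lit 34309799299) (nat_lit 21) (nat_lit 5) (nat_lit 22) (nat_lit 5) (nat_lit 23) (nat_lit 4) (nat_lit 480) (nat_lit 384) (nat_lit 336)))) (XT.nd (nat_lit 156) (nat_lit 152) (nat_lit 0) (XT.nd (nat_lit 78) (nat_lit 76) (nat_lit 0) (XT.lf (nat_lit 0) (nat_lit 22423220607) (nat_lit 152) (nat_lit 12299291410) (nat_lit 0) (nat_lit 10434749359) (nat_lit 21) (nat_lit 5) (nat_lit 23) (nat_lit 4) (nat_lit 21) (nat_lit 4) (nat_lit 481) (nat_lit 384) (nat_lit 335)) (XT.lf (nat_lit 0) (nat_lit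 13927971750) (nat_lit 76) (nat_lit 22562376711) (nat_lit 76) (nat_lit 10516364850) (nat_lit 20) (nat_lit 4) (nat_lit 21) (nat_lit 5) (nat_lit 21) (nat_lit 4) (nat_lit 482) (nat_lit 384) (nat_lit 334))) (XT.nd (nat_lit 78) (nat_lit 76) (nat_lit 0) (XT.lf (nat_lit 0) (nat_lit 2294784104) (nat_lit 152) (nat_lit 7442400712) (nat_lit 76) (nat_lit 39209956647) (nat_lit 19) (nat_lit 5) (nat_lit 21) (nat_lit 5) (nat_lit 20) (nat_lit 4) (nat_lit 483) (nat_lit 384) (nat_lit 333)) (XT.lf (nat_lit 0) (nat_lit 15661551694) (nat_lit 152) (nat_lit 31453421369) (nat_lit 0) (nat_lit 3862519194) (nat_lit 18) (nat_lit 5) (nat_lit 20) (nat_lit 4) (nat_lit 18) (nat_lit 4) (nat_lit 484) (nat_lit 384) (nat_lit 332))))))))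
noncomputable def xc23 : XT := (XT.nd (nat_lit 59046) (nat_lit 0) (nat_lit 2128) (XT.nd (nat_lit 936) (nat_lit 152) (nat_lit 0) (XT.nd (nat_lit 468) (nat_lit 228) (nat_lit 0) (XT.nd (nat_lit 234) (nat_lit 152) (nat_lit 0) (XT.nd (nat_lit 78) (nat_lit 152) (nat_lit 0) (XT.lf (nat_lit 0) (nat_lit 29778839095) (nat_lit 152) (nat_lit 5396508971) (nat_lit 0) (nat_lit 17931548590) (nat_lit 18) (nat_lit 5) (nat_lit 20) (nat_lit 4) (nat_lit 18) (nat_lit 4) (nat_lit 485) (nat_lit 384) (nat_lit 331)) (XT.nd (nat_lit 78) (nat_lit 76) (nat_lit 0) (XT.lf (nat_lit 0) (nat_lit 22220859177) (nat_lit 76) (nat_lit 22505713296) (nat_lit 76) (nat_lit 10612462787) (nat_lit 17) (nat_lit 4) (nat_lit 18) (nat_lit 5) (nat_lit 18) (nat_lit 4) (nat_lit 486) (nat_lit 384) (nat_lit 330)) (XT.lf (nat_lit 0) (nat_lit 2654287795) (nat_lit 152) (nat_lit 6548817716) (nat_lit 76) (nat_lit 48479822106) (nat_lit 16) (nat_lit 5) (nat_lit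 18) (nat_lit 5) (nat_lit 17) (nat_lit 4) (nat_lit 487) (nat_lit 384) (nat_lit 329)))) (XT.nd (nat_lit 78) (nat_lit 76) (nat_lit 0) (XT.lf (nat_lit 0) (nat_lit 16538576694) (nat_lit 152) (nat_lit 38688314348) (nat_lit 0) (nat_lit 4908762112) (nat_lit 15) (nat_lit 5) (nat_lit 17) (nat_lit 4) (nat_lit 15) (nat_lit 4) (nat_lit 488) (nat_lit 384) (nat_lit 328)) (XT.nd (nat_lit 78) (nat_lit 76) (nat_lit 0) (XT.lf (nat_lit 0) (nat_lit 31196589688) (nat_lit 152) (nat_lit 11983811698) (nat_lit 0) (nat_lit 19528229495) (nat_lit 15) (nat_lit 5) (nat_lit 17) (nat_lit 4) (nat_lit 15) (nat_lit 4) (nat_lit 489) (nat_lit 384) (nat_lit 327)) (XT.lf (nat_lit 0) (nat_lit 16218670571) (nat_lit 76) (nat_lit 30447154360) (nat_lit 76) (nat_lit 18742084061) (nat_lit 14) (nat_lit 4) (nat_lit 15) (nat_lit 5) (nat_lit 15) (nat_lit 4) (nat_lit 490) (nat_lit 384) (nat_lit 326))))) (XT.nd (nat_lit 234) (nat_lit 76) (nat_lit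 0) (XT.nd (nat_lit 78) (nat_lit 152) (nat_lit 0) (XT.lf (nat_lit 0) (nat_lit 45932379824) (nat_lit 76) (nat_lit 17024181697) (nat_lit 76) (nat_lit 5284149392) (nat_lit 14) (nat_lit 4) (nat_lit 15) (nat_lit 5) (nat_lit 15) (nat_lit 4) (nat_lit 491) (nat_lit 384) (nat_lit 325)) (XT.nd (nat_lit 78) (nat_lit 0) (nat_lit 0) (XT.lf (nat_lit 0) (nat_lit 5801127010) (nat_lit 76) (nat_lit 2856240705) (nat_lit 152) (nat_lit 62555735543) (nat_lit 12) (nat_lit 5) (nat_lit 13) (nat_lit 5) (nat_lit 14) (nat_lit 4) (nat_lit 492) (nat_lit 384) (nat_lit 324)) (XT.lf (nat_lit 0) (nat_lit 23464150813) (nat_lit 152) (nat_lit 38857125648) (nat_lit 0) (nat_lit 12002945937) (nat_lit 12) (nat_lit 5) (nat_lit 14) (nat_lit 4) (nat_lit 12) (nat_lit 4) (nat_lit 493) (nat_lit 384) (nat_lit 323)))) (XT.nd (nat_lit 78) (nat_lit 76) (nat_lit 0) (XT.lf (nat_lit 0) (nat_lit 38972478688) (nat_lit 152) (nat_lit 11137631582) (nat_lit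 0) (nat_lit 27481951972) (nat_lit 12) (nat_lit 5) (nat_lit 14) (nat_lit 4) (nat_lit 12) (nat_lit 4) (nat_lit 494) (nat_lit 384) (nat_lit 322)) (XT.nd (nat_lit 78) (nat_lit 0) (nat_lit 0) (XT.lf (nat_lit 0) (nat_lit 18195010877) (nat_lit 76) (nat_lit 37171710696) (nat_lit 76) (nat_lit 25653258419) (nat_lit 11) (nat_lit 4) (nat_lit 12) (nat_lit 5) (nat_lit 12) (nat_lit 4) (nat_lit 495) (nat_lit 384) (nat_lit 321)) (XT.lf (nat_lit 0) (nat_lit 49102818248) (nat_lit 76) (nat_lit 23529980302) (nat_lit 76) (nat_lit 11984932251) (nat_lit 11) (nat_lit 4) (nat_lit 12) (nat_lit 5) (nat_lit 12) (nat_lit 4) (nat_lit 496) (nat_lit 384) (nat_lit 320)))))) (XT.nd (nat_lit 57564) (nat_lit 0) (nat_lit 6992) (XT.nd (nat_lit 57330) (nat_lit 0) (nat_lit 9348) (XT.nd (nat_lit 78) (nat_lit 76) (nat_lit 0) (XT.lf (nat_lit 0) (nat_lit 2260482310) (nat_lit 152) (nat_lit 6981598267) (nat_lit 76) (nat_lit 79154411091) (nat_lit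 10) (nat_lit 5) (nat_lit 12) (nat_lit 5) (nat_lit 11) (nat_lit 4) (nat_lit 497) (nat_lit 384) (nat_lit 319)) (XT.nd (nat_lit 57174) (nat_lit 0) (nat_lit 10640) (XT.lf (nat_lit 0) (nat_lit 17196535285) (nat_lit 152) (nat_lit 69217570436) (nat_lit 0) (nat_lit 5939738675) (nat_lit 9) (nat_lit 5) (nat_lit 11) (nat_lit 4) (nat_lit 9) (nat_lit 4) (nat_lit 498) (nat_lit 384) (nat_lit 318)) (XT.lf (nat_lit 0) (nat_lit 1334136354) (nat_lit 304) (nat_lit 1619387211) (nat_lit 304) (nat_lit 1619387211) (nat_lit 149) (nat_lit 4) (nat_lit 153) (nat_lit 5) (nat_lit 153) (nat_lit 4) (nat_lit 430) (nat_lit 385) (nat_lit 385)))) (XT.nd (nat_lit 78) (nat_lit 912) (nat_lit 0) (XT.lf (nat_lit 0) (nat_lit 3986245169) (nat_lit 380) (nat_lit 2788824524) (nat_lit 0) (nat_lit 2563237388) (nat_lit 144) (nat_lit 5) (nat_lit 149) (nat_lit 4) (nat_lit 144) (nat_lit 4) (nat_lit 431) (nat_lit 385) (nat_lit 384)) (XT.nd (nat_lit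 78) (nat_lit 304) (nat_lit 0) (XT.lf (nat_lit 0) (nat_lit 992699907) (nat_lit 228) (nat_lit 864912503) (nat_lit 304) (nat_lit 7683419577) (nat_lit 136) (nat_lit 5) (nat_lit 139) (nat_lit 5) (nat_lit 140) (nat_lit 4) (nat_lit 432) (nat_lit 385) (nat_lit 383)) (XT.lf (nat_lit 0) (nat_lit 4881590600) (nat_lit 304) (nat_lit 4410968703) (nat_lit 304) (nat_lit 460518904) (nat_lit 132) (nat_lit 4) (nat_lit 136) (nat_lit 5) (nat_lit 136) (nat_lit 4) (nat_lit 433) (nat_lit 385) (nat_lit 382))))) (XT.nd (nat_lit 234) (nat_lit 1140) (nat_lit 0) (XT.nd (nat_lit 78) (nat_lit 912) (nat_lit 0) (XT.lf (nat_lit 0) (nat_lit 6912761499) (nat_lit 304) (nat_lit 1144410367) (nat_lit 0) (nat_lit 1918689562) (nat_lit 128) (nat_lit 5) (nat_lit 132) (nat_lit 4) (nat_lit 128) (nat_lit 4) (nat_lit 434) (nat_lit 385) (nat_lit 381)) (XT.nd (nat_lit 78) (nat_lit 304) (nat_lit 0) (XT.lf (nat_lit 0) (nat_lit 2687643247) (nat_lit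 228) (nat_lit 1640053081) (nat_lit 304) (nat_lit 5881343580) (nat_lit 120) (nat_lit 5) (nat_lit 123) (nat_lit 5) (nat_lit 124) (nat_lit 4) (nat_lit 435) (nat_lit 385) (nat_lit 380)) (XT.lf (nat_lit 0) (nat_lit 1516370531) (nat_lit 304) (nat_lit 3862098546) (nat_lit 76) (nat_lit 5074816329) (nat_lit 116) (nat_lit 5) (nat_lit 120) (nat_lit 5) (nat_lit 117) (nat_lit 4) (nat_lit 436) (nat_lit 385) (nat_lit 379)))) (XT.nd (nat_lit 156) (nat_lit 456) (nat_lit 0) (XT.nd (nat_lit 78) (nat_lit 456) (nat_lit 0) (XT.lf (nat_lit 0) (nat_lit 9114432992) (nat_lit 304) (nat_lit 162239973) (nat_lit 0) (nat_lit 1432789799) (nat_lit 113) (nat_lit 5) (nat_lit 117) (nat_lit 4) (nat_lit 113) (nat_lit 4) (nat_lit 437) (nat_lit 385) (nat_lit 378)) (XT.lf (nat_lit 0) (nat_lit 3622944828) (nat_lit 152) (nat_lit 2388444073) (nat_lit 228) (nat_lit 4964821856) (nat_lit 107) (nat_lit 5) (nat_lit 109) (nat_lit 5) (nat_lit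 110) (nat_lit 4) (nat_lit 438) (nat_lit 385) (nat_lit 377))) (XT.nd (nat_lit 78) (nat_lit 152) (nat_lit 0) (XT.lf (nat_lit 0) (nat_lit 2637113592) (nat_lit 304) (nat_lit 3807745698) (nat_lit 76) (nat_lit 4810787050) (nat_lit 103) (nat_lit 5) (nat_lit 107) (nat_lit 5) (nat_lit 104) (nat_lit 4) (nat_lit 439) (nat_lit 385) (nat_lit 376)) (XT.lf (nat_lit 0) (nat_lit 10487881661) (nat_lit 228) (nat_lit 235166215) (nat_lit 0) (nat_lit 825412631) (nat_lit 101) (nat_lit 5) (nat_lit 104) (nat_lit 4) (nat_lit 101) (nat_lit 4) (nat_lit 440) (nat_lit 385) (nat_lit 375))))))) (XT.nd (nat_lit 1014) (nat_lit 1824) (nat_lit 0) (XT.nd (nat_lit 468) (nat_lit 1368) (nat_lit 0) (XT.nd (nat_lit 234) (nat_lit 760) (nat_lit 0) (XT.nd (nat_lit 78) (nat_lit 456) (nat_lit 0) (XT.lf (nat_lit 0) (nat_lit 3377258740) (nat_lit 152) (nat_lit 3406660870) (nat_lit 228) (nat_lit 5068751020) (nat_lit 95) (nat_lit 5) (nat_lit 97)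 (nat_lit 5) (nat_lit 98) (nat_lit 4) (nat_lit 441) (nat_lit 385) (nat_lit 374)) (XT.nd (nat_lit 78) (nat_lit 152) (nat_lit 0) (XT.lf (nat_lit 0) (nat_lit 2764504019) (nat_lit 304) (nat_lit 5155908911) (nat_lit 76) (nat_lit 4250786526) (nat_lit 91) (nat_lit 5) (nat_lit 95) (nat_lit 5) (nat_lit 92) (nat_lit 4) (nat_lit 442) (nat_lit 385) (nat_lit 373)) (XT.lf (nat_lit 0) (nat_lit 10663287271) (nat_lit 152) (nat_lit 211303876) (nat_lit 228) (nat_lit 1629877567) (nat_lit 89) (nat_lit 5) (nat_lit 91) (nat_lit 5) (nat_lit 92) (nat_lit 4) (nat_lit 443) (nat_lit 385) (nat_lit 372)))) (XT.nd (nat_lit 78) (nat_lit 380) (nat_lit 0) (XT.lf (nat_lit 0) (nat_lit 1436776406) (nat_lit 152) (nat_lit 5022457948) (nat_lit 228) (nat_lit 6391770666) (nat_lit 84) (nat_lit 5) (nat_lit 86) (nat_lit 5) (nat_lit 87) (nat_lit 4) (nat_lit 444) (nat_lit 385) (nat_lit 371)) (XT.nd (nat_lit 78) (nat_lit 152) (nat_lit 0) (XT.lf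 (nat_lit 0) (nat_lit 1687101965) (nat_lit 228) (nat_lit 8461425812) (nat_lit 76) (nat_lit 3064911610) (nat_lit 81) (nat_lit 5) (nat_lit 84) (nat_lit 5) (nat_lit 82) (nat_lit 4) (nat_lit 445) (nat_lit 385) (nat_lit 370)) (XT.lf (nat_lit 0) (nat_lit 8009504786) (nat_lit 152) (nat_lit 2049782405) (nat_lit 228) (nat_lit 3532178818) (nat_lit 79) (nat_lit 5) (nat_lit 81) (nat_lit 5) (nat_lit 82) (nat_lit 4) (nat_lit 446) (nat_lit 385) (nat_lit 369))))) (XT.nd (nat_lit 234) (nat_lit 608) (nat_lit 0) (XT.nd (nat_lit 78) (nat_lit 532) (nat_lit 0) (XT.lf (nat_lit 0) (nat_lit 4804641469) (nat_lit 228) (nat_lit 2781017055) (nat_lit 76) (nat_lit 6400213452) (nat_lit 76) (nat_lit 5) (nat_lit 79) (nat_lit 5) (nat_lit 77) (nat_lit 4) (nat_lit 447) (nat_lit 385) (nat_lit 368)) (XT.nd (nat_lit 78) (nat_lit 380) (nat_lit 0) (XT.lf (nat_lit 0) (nat_lit 13495448105) (nat_lit 228) (nat_lit 25637305) (nat_lit 0) (nat_lit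 877571784) (nat_lit 74) (nat_lit 5) (nat_lit 77) (nat_lit 4) (nat_lit 74) (nat_lit 4) (nat_lit 448) (nat_lit 385) (nat_lit 367)) (XT.lf (nat_lit 0) (nat_lit 2637201658) (nat_lit 152) (nat_lit 5088038649) (nat_lit 228) (nat_lit 7101952835) (nat_lit 69) (nat_lit 5) (nat_lit 71) (nat_lit 5) (nat_lit 72) (nat_lit 4) (nat_lit 449) (nat_lit 385) (nat_lit 366)))) (XT.nd (nat_lit 156) (nat_lit 304) (nat_lit 0) (XT.nd (nat_lit 78) (nat_lit 76) (nat_lit 0) (XT.lf (nat_lit 0) (nat_lit 1485736936) (nat_lit 228) (nat_lit 10044007479) (nat_lit 76) (nat_lit 3745967854) (nat_lit 66) (nat_lit 5) (nat_lit 69) (nat_lit 5) (nat_lit 67) (nat_lit 4) (nat_lit 450) (nat_lit 385) (nat_lit 365)) (XT.lf (nat_lit 0) (nat_lit 7678993614) (nat_lit 76) (nat_lit 2722587072) (nat_lit 152) (nat_lit 5341609114) (nat_lit 65) (nat_lit 5) (nat_lit 66) (nat_lit 5) (nat_lit 67) (nat_lit 4) (nat_lit 451) (nat_lit 385) (nat_lit 364)))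 (XT.nd (nat_lit 78) (nat_lit 76) (nat_lit 0) (XT.lf (nat_lit 0) (nat_lit 3521436927) (nat_lit 228) (nat_lit 6244166958) (nat_lit 76) (nat_lit 6465596276) (nat_lit 62) (nat_lit 5) (nat_lit 65) (nat_lit 5) (nat_lit 63) (nat_lit 4) (nat_lit 452) (nat_lit 385) (nat_lit 363)) (XT.lf (nat_lit 0) (nat_lit 12153654795) (nat_lit 76) (nat_lit 593926937) (nat_lit 152) (nat_lit 3993540154) (nat_lit 61) (nat_lit 5) (nat_lit 62) (nat_lit 5) (nat_lit 63) (nat_lit 4) (nat_lit 453) (nat_lit 385) (nat_lit 362)))))) (XT.nd (nat_lit 468) (nat_lit 760) (nat_lit 0) (XT.nd (nat_lit 234) (nat_lit 532) (nat_lit 0) (XT.nd (nat_lit 78) (nat_lit 304) (nat_lit 0) (XT.lf (nat_lit 0) (nat_lit 5152237411) (nat_lit 228) (nat_lit 3171457481) (nat_lit 76) (nat_lit 8948534368) (nat_lit 58) (nat_lit 5) (nat_lit 61) (nat_lit 5) (nat_lit 59) (nat_lit 4) (nat_lit 454) (nat_lit 385) (nat_lit 361)) (XT.nd (nat_lit 78) (nat_lit 228) (nat_lit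 0) (XT.lf (nat_lit 0) (nat_lit 14701251232) (nat_lit 152) (nat_lit 1942058710) (nat_lit 0) (nat_lit 1184548506) (nat_lit 57) (nat_lit 5) (nat_lit 59) (nat_lit 4) (nat_lit 57) (nat_lit 4) (nat_lit 455) (nat_lit 385) (nat_lit 360)) (XT.lf (nat_lit 0) (nat_lit 6292793693) (nat_lit 228) (nat_lit 1012053563) (nat_lit 76) (nat_lit 11101620375) (nat_lit 54) (nat_lit 5) (nat_lit 57) (nat_lit 5) (nat_lit 55) (nat_lit 4) (nat_lit 456) (nat_lit 385) (nat_lit 359)))) (XT.nd (nat_lit 78) (nat_lit 456) (nat_lit 0) (XT.lf (nat_lit 0) (nat_lit 16161598635) (nat_lit 152) (nat_lit 322870835) (nat_lit 0) (nat_lit 2527323985) (nat_lit 53) (nat_lit 5) (nat_lit 55) (nat_lit 4) (nat_lit 53) (nat_lit 4) (nat_lit 457) (nat_lit 385) (nat_lit 358)) (XT.nd (nat_lit 78) (nat_lit 152) (nat_lit 0) (XT.lf (nat_lit 0) (nat_lit 10858604) (nat_lit 76) (nat_lit 6827886954) (nat_lit 152) (nat_lit 12803770036) (nat_lit 49) (nat_lit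 5) (nat_lit 50) (nat_lit 5) (nat_lit 51) (nat_lit 4) (nat_lit 458) (nat_lit 385) (nat_lit 357)) (XT.lf (nat_lit 0) (nat_lit 31933222) (nat_lit 152) (nat_lit 16978828379) (nat_lit 152) (nat_lit 3291445250) (nat_lit 47) (nat_lit 4) (nat_lit 49) (nat_lit 5) (nat_lit 49) (nat_lit 4) (nat_lit 459) (nat_lit 385) (nat_lit 356))))) (XT.nd (nat_lit 234) (nat_lit 456) (nat_lit 0) (XT.nd (nat_lit 78) (nat_lit 228) (nat_lit 0) (XT.lf (nat_lit 0) (nat_lit 6662882788) (nat_lit 228) (nat_lit 370894030) (nat_lit 76) (nat_lit 13956269277) (nat_lit 46) (nat_lit 5) (nat_lit 49) (nat_lit 5) (nat_lit 47) (nat_lit 4) (nat_lit 460) (nat_lit 385) (nat_lit 355)) (XT.nd (nat_lit 78) (nat_lit 152) (nat_lit 0) (XT.lf (nat_lit 0) (nat_lit 17111257825) (nat_lit 152) (nat_lit 1172051066) (nat_lit 0) (nat_lit 3426064708) (nat_lit 45) (nat_lit 5) (nat_lit 47) (nat_lit 4) (nat_lit 45) (nat_lit 4) (nat_lit 461) (nat_lit 385) (nat_lit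 354)) (XT.lf (nat_lit 0) (nat_lit 5612277638) (nat_lit 152) (nat_lit 2476460745) (nat_lit 76) (nat_lit 14371179478) (nat_lit 43) (nat_lit 5) (nat_lit 45) (nat_lit 5) (nat_lit 44) (nat_lit 4) (nat_lit 462) (nat_lit 385) (nat_lit 353)))) (XT.nd (nat_lit 156) (nat_lit 228) (nat_lit 0) (XT.nd (nat_lit 78) (nat_lit 152) (nat_lit 0) (XT.lf (nat_lit 0) (nat_lit 16299111278) (nat_lit 152) (nat_lit 4282308418) (nat_lit 0) (nat_lit 2663378681) (nat_lit 42) (nat_lit 5) (nat_lit 44) (nat_lit 4) (nat_lit 42) (nat_lit 4) (nat_lit 463) (nat_lit 385) (nat_lit 352)) (XT.lf (nat_lit 0) (nat_lit 3502630287) (nat_lit 152) (nat_lit 6687593966) (nat_lit 76) (nat_lit 13874149829) (nat_lit 40) (nat_lit 5) (nat_lit 42) (nat_lit 5) (nat_lit 41) (nat_lit 4) (nat_lit 464) (nat_lit 385) (nat_lit 351))) (XT.nd (nat_lit 78) (nat_lit 152) (nat_lit 0) (XT.lf (nat_lit 0) (nat_lit 14375793301) (nat_lit 152) (nat_lit 9715930829)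 (nat_lit 0) (nat_lit 829763733) (nat_lit 39) (nat_lit 5) (nat_lit 41) (nat_lit 4) (nat_lit 39) (nat_lit 4) (nat_lit 465) (nat_lit 385) (nat_lit 350)) (XT.lf (nat_lit 0) (nat_lit 113362309) (nat_lit 152) (nat_lit 13458739958) (nat_lit 76) (nat_lit 12245118442) (nat_lit 37) (nat_lit 5) (nat_lit 39) (nat_lit 5) (nat_lit 38) (nat_lit 4) (nat_lit 466) (nat_lit 385) (nat_lit 349))))))))
noncomputable def xc24 : XT := (XT.nd (nat_lit 1950) (nat_lit 304) (nat_lit 0) (XT.nd (nat_lit 936) (nat_lit 760) (nat_lit 0) (XT.nd (nat_lit 468) (nat_lit 456) (nat_lit 0) (XT.nd (nat_lit 234) (nat_lit 304) (nat_lit 0) (XT.nd (nat_lit 78) (nat_lit 152) (nat_lit 0) (XT.lf (nat_lit 0) (nat_lit 8762126688) (nat_lit 76) (nat_lit 2364487255) (nat_lit 152) (nat_lit 15626817701) (nat_lit 36) (nat_lit 5) (nat_lit 37) (nat_lit 5) (nat_lit 38) (nat_lit 4) (nat_lit 467) (nat_lit 385) (nat_lit 348)) (XT.nd (nat_lit 78) (nat_lit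 76) (nat_lit 0) (XT.lf (nat_lit 0) (nat_lit 4355066842) (nat_lit 76) (nat_lit 18462792886) (nat_lit 76) (nat_lit 4914777379) (nat_lit 35) (nat_lit 4) (nat_lit 36) (nat_lit 5) (nat_lit 36) (nat_lit 4) (nat_lit 468) (nat_lit 385) (nat_lit 347)) (XT.lf (nat_lit 0) (nat_lit 6278226506) (nat_lit 152) (nat_lit 923008904) (nat_lit 76) (nat_lit 21555676643) (nat_lit 34) (nat_lit 5) (nat_lit 36) (nat_lit 5) (nat_lit 35) (nat_lit 4) (nat_lit 469) (nat_lit 385) (nat_lit 346)))) (XT.nd (nat_lit 78) (nat_lit 228) (nat_lit 0) (XT.lf (nat_lit 0) (nat_lit 18059890266) (nat_lit 152) (nat_lit 7087727187) (nat_lit 0) (nat_lit 4679407274) (nat_lit 33) (nat_lit 5) (nat_lit 35) (nat_lit 4) (nat_lit 33) (nat_lit 4) (nat_lit 470) (nat_lit 385) (nat_lit 345)) (XT.nd (nat_lit 78) (nat_lit 152) (nat_lit 0) (XT.lf (nat_lit 0) (nat_lit 16647741785) (nat_lit 76) (nat_lit 13892790951) (nat_lit 76) (nat_lit 406816726) (nat_lit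 32) (nat_lit 4) (nat_lit 33) (nat_lit 5) (nat_lit 33) (nat_lit 4) (nat_lit 471) (nat_lit 385) (nat_lit 344)) (XT.lf (nat_lit 0) (nat_lit 9415676566) (nat_lit 76) (nat_lit 1915416355) (nat_lit 152) (nat_lit 20788245931) (nat_lit 30) (nat_lit 5) (nat_lit 31) (nat_lit 5) (nat_lit 32) (nat_lit 4) (nat_lit 472) (nat_lit 385) (nat_lit 343))))) (XT.nd (nat_lit 234) (nat_lit 228) (nat_lit 0) (XT.nd (nat_lit 78) (nat_lit 152) (nat_lit 0) (XT.lf (nat_lit 0) (nat_lit 931620388) (nat_lit 76) (nat_lit 22848907645) (nat_lit 76) (nat_lit 9565290437) (nat_lit 29) (nat_lit 4) (nat_lit 30) (nat_lit 5) (nat_lit 30) (nat_lit 4) (nat_lit 473) (nat_lit 385) (nat_lit 342)) (XT.nd (nat_lit 78) (nat_lit 76) (nat_lit 0) (XT.lf (nat_lit 0) (nat_lit 2306257644) (nat_lit 152) (nat_lit 8690387289) (nat_lit 76) (nat_lit 23632417702) (nat_lit 28) (nat_lit 5) (nat_lit 30) (nat_lit 5) (nat_lit 29) (nat_lit 4) (nat_lit 474) (nat_lit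 385) (nat_lit 341)) (XT.lf (nat_lit 0) (nat_lit 14627831856) (nat_lit 152) (nat_lit 19780756338) (nat_lit 0) (nat_lit 1563413987) (nat_lit 27) (nat_lit 5) (nat_lit 29) (nat_lit 4) (nat_lit 27) (nat_lit 4) (nat_lit 475) (nat_lit 385) (nat_lit 340)))) (XT.nd (nat_lit 78) (nat_lit 152) (nat_lit 0) (XT.lf (nat_lit 0) (nat_lit 4874366277) (nat_lit 76) (nat_lit 22823047625) (nat_lit 76) (nat_lit 9680719359) (nat_lit 26) (nat_lit 4) (nat_lit 27) (nat_lit 5) (nat_lit 27) (nat_lit 4) (nat_lit 476) (nat_lit 385) (nat_lit 339)) (XT.nd (nat_lit 78) (nat_lit 76) (nat_lit 0) (XT.lf (nat_lit 0) (nat_lit 2607499526) (nat_lit 152) (nat_lit 7923304606) (nat_lit 76) (nat_lit 28320279099) (nat_lit 25) (nat_lit 5) (nat_lit 27) (nat_lit 5) (nat_lit 26) (nat_lit 4) (nat_lit 477) (nat_lit 385) (nat_lit 338)) (XT.lf (nat_lit 0) (nat_lit 15400045524) (nat_lit 152) (nat_lit 22492202458) (nat_lit 0) (nat_lit 2499855550)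 (nat_lit 24) (nat_lit 5) (nat_lit 26) (nat_lit 4) (nat_lit 24) (nat_lit 4) (nat_lit 478) (nat_lit 385) (nat_lit 337)))))) (XT.nd (nat_lit 468) (nat_lit 380) (nat_lit 0) (XT.nd (nat_lit 234) (nat_lit 152) (nat_lit 0) (XT.nd (nat_lit 78) (nat_lit 152) (nat_lit 0) (XT.lf (nat_lit 0) (nat_lit 2912664030) (nat_lit 76) (nat_lit 26029867564) (nat_lit 76) (nat_lit 13064335909) (nat_lit 23) (nat_lit 4) (nat_lit 24) (nat_lit 5) (nat_lit 24) (nat_lit 4) (nat_lit 479) (nat_lit 385) (nat_lit 336)) (XT.nd (nat_lit 78) (nat_lit 152) (nat_lit 0) (XT.lf (nat_lit 0) (nat_lit 29854603177) (nat_lit 76) (nat_lit 13435840607) (nat_lit 76) (nat_lit 408078780) (nat_lit 23) (nat_lit 4) (nat_lit 24) (nat_lit 5) (nat_lit 24) (nat_lit 4) (nat_lit 480) (nat_lit 385) (nat_lit 335)) (XT.lf (nat_lit 0) (nat_lit 12595345782) (nat_lit 76) (nat_lit 56070197) (nat_lit 152) (nat_lit 32818978214) (nat_lit 21) (nat_lit 5) (nat_lit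 22) (nat_lit 5) (nat_lit 23) (nat_lit 4) (nat_lit 481) (nat_lit 385) (nat_lit 334)))) (XT.nd (nat_lit 78) (nat_lit 152) (nat_lit 0) (XT.lf (nat_lit 0) (nat_lit 26536661823) (nat_lit 152) (nat_lit 7012633425) (nat_lit 0) (nat_lit 13776008174) (nat_lit 21) (nat_lit 5) (nat_lit 23) (nat_lit 4) (nat_lit 21) (nat_lit 4) (nat_lit 482) (nat_lit 385) (nat_lit 333)) (XT.nd (nat_lit 78) (nat_lit 76) (nat_lit 0) (XT.lf (nat_lit 0) (nat_lit 20356824068) (nat_lit 76) (nat_lit 20862936322) (nat_lit 76) (nat_lit 8050091641) (nat_lit 20) (nat_lit 4) (nat_lit 21) (nat_lit 5) (nat_lit 21) (nat_lit 4) (nat_lit 483) (nat_lit 385) (nat_lit 332)) (XT.lf (nat_lit 0) (nat_lit 5203528043) (nat_lit 152) (nat_lit 2299388497) (nat_lit 76) (nat_lit 43807715519) (nat_lit 19) (nat_lit 5) (nat_lit 21) (nat_lit 5) (nat_lit 20) (nat_lit 4) (nat_lit 484) (nat_lit 385) (nat_lit 331))))) (XT.nd (nat_lit 234) (nat_lit 228) (nat_lit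 0) (XT.nd (nat_lit 78) (nat_lit 76) (nat_lit 0) (XT.lf (nat_lit 0) (nat_lit 19182502751) (nat_lit 152) (nat_lit 27613054073) (nat_lit 0) (nat_lit 6648629713) (nat_lit 18) (nat_lit 5) (nat_lit 20) (nat_lit 4) (nat_lit 18) (nat_lit 4) (nat_lit 485) (nat_lit 385) (nat_lit 330)) (XT.nd (nat_lit 78) (nat_lit 76) (nat_lit 0) (XT.lf (nat_lit 0) (nat_lit 33875279595) (nat_lit 152) (nat_lit 511059786) (nat_lit 0) (nat_lit 21297635124) (nat_lit 18) (nat_lit 5) (nat_lit 20) (nat_lit 4) (nat_lit 18) (nat_lit 4) (nat_lit 486) (nat_lit 385) (nat_lit 329)) (XT.lf (nat_lit 0) (nat_lit 28339401857) (nat_lit 76) (nat_lit 21154966339) (nat_lit 76) (nat_lit 8535634790) (nat_lit 17) (nat_lit 4) (nat_lit 18) (nat_lit 5) (nat_lit 18) (nat_lit 4) (nat_lit 487) (nat_lit 385) (nat_lit 328)))) (XT.nd (nat_lit 156) (nat_lit 76) (nat_lit 0) (XT.nd (nat_lit 78) (nat_lit 76) (nat_lit 0) (XT.lf (nat_lit 0) (nat_lit 5221831112)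 (nat_lit 152) (nat_lit 2058716370) (nat_lit 76) (nat_lit 53213444638) (nat_lit 16) (nat_lit 5) (nat_lit 18) (nat_lit 5) (nat_lit 17) (nat_lit 4) (nat_lit 488) (nat_lit 385) (nat_lit 327)) (XT.lf (nat_lit 0) (nat_lit 19751630732) (nat_lit 152) (nat_lit 35894589264) (nat_lit 0) (nat_lit 7424596812) (nat_lit 15) (nat_lit 5) (nat_lit 17) (nat_lit 4) (nat_lit 15) (nat_lit 4) (nat_lit 489) (nat_lit 385) (nat_lit 326))) (XT.nd (nat_lit 78) (nat_lit 76) (nat_lit 0) (XT.lf (nat_lit 0) (nat_lit 35028919366) (nat_lit 152) (nat_lit 8080011044) (nat_lit 0) (nat_lit 22666923440) (nat_lit 15) (nat_lit 5) (nat_lit 17) (nat_lit 4) (nat_lit 15) (nat_lit 4) (nat_lit 490) (nat_lit 385) (nat_lit 325)) (XT.lf (nat_lit 0) (nat_lit 21403517998) (nat_lit 76) (nat_lit 29801928814) (nat_lit 76) (nat_lit 17406635740) (nat_lit 14) (nat_lit 4) (nat_lit 15) (nat_lit 5) (nat_lit 15) (nat_lit 4) (nat_lit 491) (nat_lit 385) (nat_lit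 324))))))) (XT.nd (nat_lit 57876) (nat_lit 0) (nat_lit 5396) (XT.nd (nat_lit 468) (nat_lit 76) (nat_lit 0) (XT.nd (nat_lit 234) (nat_lit 76) (nat_lit 0) (XT.nd (nat_lit 78) (nat_lit 152) (nat_lit 0) (XT.lf (nat_lit 0) (nat_lit 52394631100) (nat_lit 76) (nat_lit 15811025768) (nat_lit 76) (nat_lit 3384021125) (nat_lit 14) (nat_lit 4) (nat_lit 15) (nat_lit 5) (nat_lit 15) (nat_lit 4) (nat_lit 492) (nat_lit 385) (nat_lit 323)) (XT.nd (nat_lit 78) (nat_lit 0) (nat_lit 0) (XT.lf (nat_lit 0) (nat_lit 10178460703) (nat_lit 76) (nat_lit 972114095) (nat_lit 152) (nat_lit 63561345309) (nat_lit 12) (nat_lit 5) (nat_lit 13) (nat_lit 5) (nat_lit 14) (nat_lit 4) (nat_lit 493) (nat_lit 385) (nat_lit 322)) (XT.lf (nat_lit 0) (nat_lit 26618142041) (nat_lit 152) (nat_lit 36866999567) (nat_lit 0) (nat_lit 14495841587) (nat_lit 12) (nat_lit 5) (nat_lit 14) (nat_lit 4) (nat_lit 12) (nat_lit 4) (nat_lit 494) (nat_lit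 385) (nat_lit 321)))) (XT.nd (nat_lit 78) (nat_lit 76) (nat_lit 0) (XT.lf (nat_lit 0) (nat_lit 42807563277) (nat_lit 152) (nat_lit 7948815671) (nat_lit 0) (nat_lit 30658667051) (nat_lit 12) (nat_lit 5) (nat_lit 14) (nat_lit 4) (nat_lit 12) (nat_lit 4) (nat_lit 495) (nat_lit 385) (nat_lit 320)) (XT.nd (nat_lit 78) (nat_lit 0) (nat_lit 0) (XT.lf (nat_lit 0) (nat_lit 22743089244) (nat_lit 76) (nat_lit 37223571435) (nat_lit 76) (nat_lit 25049345901) (nat_lit 11) (nat_lit 4) (nat_lit 12) (nat_lit 5) (nat_lit 12) (nat_lit 4) (nat_lit 496) (nat_lit 385) (nat_lit 319)) (XT.lf (nat_lit 0) (nat_lit 55023033278) (nat_lit 76) (nat_lit 22985789035) (nat_lit 76) (nat_lit 10787440351) (nat_lit 11) (nat_lit 4) (nat_lit 12) (nat_lit 5) (nat_lit 12) (nat_lit 4) (nat_lit 497) (nat_lit 385) (nat_lit 318))))) (XT.nd (nat_lit 57174) (nat_lit 0) (nat_lit 9576) (XT.nd (nat_lit 57018) (nat_lit 0) (nat_lit 11172) (XT.lf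 (nat_lit 0) (nat_lit 4051294686) (nat_lit 152) (nat_lit 3997194900) (nat_lit 76) (nat_lit 84717471602) (nat_lit 10) (nat_lit 5) (nat_lit 12) (nat_lit 5) (nat_lit 11) (nat_lit 4) (nat_lit 498) (nat_lit 385) (nat_lit 317)) (XT.nd (nat_lit 78) (nat_lit 456) (nat_lit 0) (XT.lf (nat_lit 0) (nat_lit 1056159804) (nat_lit 380) (nat_lit 2280341954) (nat_lit 0) (nat_lit 1056159804) (nat_lit 163) (nat_lit 5) (nat_lit 168) (nat_lit 4) (nat_lit 163) (nat_lit 4) (nat_lit 428) (nat_lit 386) (nat_lit 386)) (XT.lf (nat_lit 0) (nat_lit 238395350) (nat_lit 456) (nat_lit 1101209841) (nat_lit 76) (nat_lit 7623823927) (nat_lit 157) (nat_lit 5) (nat_lit 163) (nat_lit 5) (nat_lit 158) (nat_lit 4) (nat_lit 429) (nat_lit 386) (nat_lit 385)))) (XT.nd (nat_lit 78) (nat_lit 988) (nat_lit 0) (XT.lf (nat_lit 0) (nat_lit 2458180946) (nat_lit 304) (nat_lit 4848265679) (nat_lit 304) (nat_lit 1843584749) (nat_lit 149) (nat_lit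 4) (nat_lit 153) (nat_lit 5) (nat_lit 153) (nat_lit 4) (nat_lit 430) (nat_lit 386) (nat_lit 384)) (XT.nd (nat_lit 78) (nat_lit 608) (nat_lit 0) (XT.lf (nat_lit 0) (nat_lit 5199676563) (nat_lit 380) (nat_lit 3219829525) (nat_lit 0) (nat_lit 927265105) (nat_lit 144) (nat_lit 5) (nat_lit 149) (nat_lit 4) (nat_lit 144) (nat_lit 4) (nat_lit 431) (nat_lit 386) (nat_lit 383)) (XT.lf (nat_lit 0) (nat_lit 312818312) (nat_lit 228) (nat_lit 2581733301) (nat_lit 304) (nat_lit 6658951527) (nat_lit 136) (nat_lit 5) (nat_lit 139) (nat_lit 5) (nat_lit 140) (nat_lit 4) (nat_lit 432) (nat_lit 386) (nat_lit 382)))))) (XT.nd (nat_lit 468) (nat_lit 1976) (nat_lit 0) (XT.nd (nat_lit 234) (nat_lit 988) (nat_lit 0) (XT.nd (nat_lit 78) (nat_lit 836) (nat_lit 0) (XT.lf (nat_lit 0) (nat_lit 396294432) (nat_lit 380) (nat_lit 5790055396) (nat_lit 76) (nat_lit 3583754046) (nat_lit 131) (nat_lit 5) (nat_lit 136) (nat_lit 5)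 (nat_lit 132) (nat_lit 4) (nat_lit 433) (nat_lit 386) (nat_lit 381)) (XT.nd (nat_lit 78) (nat_lit 608) (nat_lit 0) (XT.lf (nat_lit 0) (nat_lit 7604783614) (nat_lit 304) (nat_lit 2293845693) (nat_lit 0) (nat_lit 98815934) (nat_lit 128) (nat_lit 5) (nat_lit 132) (nat_lit 4) (nat_lit 128) (nat_lit 4) (nat_lit 434) (nat_lit 386) (nat_lit 380)) (XT.lf (nat_lit 0) (nat_lit 1254518982) (nat_lit 228) (nat_lit 3578706145) (nat_lit 304) (nat_lit 5401775599) (nat_lit 120) (nat_lit 5) (nat_lit 123) (nat_lit 5) (nat_lit 124) (nat_lit 4) (nat_lit 435) (nat_lit 386) (nat_lit 379)))) (XT.nd (nat_lit 78) (nat_lit 684) (nat_lit 0) (XT.lf (nat_lit 0) (nat_lit 1826985611) (nat_lit 304) (nat_lit 5570678084) (nat_lit 76) (nat_lit 3086246444) (nat_lit 116) (nat_lit 5) (nat_lit 120) (nat_lit 5) (nat_lit 117) (nat_lit 4) (nat_lit 436) (nat_lit 386) (nat_lit 378)) (XT.nd (nat_lit 78) (nat_lit 456) (nat_lit 0) (XT.lf (nat_lit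 0) (nat_lit 8616843409) (nat_lit 228) (nat_lit 654974166) (nat_lit 304) (nat_lit 1472880519) (nat_lit 113) (nat_lit 5) (nat_lit 116) (nat_lit 5) (nat_lit 117) (nat_lit 4) (nat_lit 437) (nat_lit 386) (nat_lit 377)) (XT.lf (nat_lit 0) (nat_lit 1341478524) (nat_lit 152) (nat_lit 4621544917) (nat_lit 228) (nat_lit 5053444008) (nat_lit 107) (nat_lit 5) (nat_lit 109) (nat_lit 5) (nat_lit 110) (nat_lit 4) (nat_lit 438) (nat_lit 386) (nat_lit 376))))) (XT.nd (nat_lit 234) (nat_lit 1064) (nat_lit 0) (XT.nd (nat_lit 78) (nat_lit 608) (nat_lit 0) (XT.lf (nat_lit 0) (nat_lit 2385273239) (nat_lit 304) (nat_lit 6399112388) (nat_lit 76) (nat_lit 2516503088) (nat_lit 103) (nat_lit 5) (nat_lit 107) (nat_lit 5) (nat_lit 104) (nat_lit 4) (nat_lit 439) (nat_lit 386) (nat_lit 375)) (XT.nd (nat_lit 78) (nat_lit 456) (nat_lit 0) (XT.lf (nat_lit 0) (nat_lit 8479526329) (nat_lit 152) (nat_lit 1606346234) (nat_lit 228)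 (nat_lit 1512346521) (nat_lit 101) (nat_lit 5) (nat_lit 103) (nat_lit 5) (nat_lit 104) (nat_lit 4) (nat_lit 440) (nat_lit 386) (nat_lit 374)) (XT.lf (nat_lit 0) (nat_lit 144323902) (nat_lit 152) (nat_lit 6006683723) (nat_lit 228) (nat_lit 5757260962) (nat_lit 95) (nat_lit 5) (nat_lit 97) (nat_lit 5) (nat_lit 98) (nat_lit 4) (nat_lit 441) (nat_lit 386) (nat_lit 373)))) (XT.nd (nat_lit 156) (nat_lit 608) (nat_lit 0) (XT.nd (nat_lit 78) (nat_lit 152) (nat_lit 0) (XT.lf (nat_lit 0) (nat_lit 1916768056) (nat_lit 304) (nat_lit 8735980929) (nat_lit 76) (nat_lit 1579436345) (nat_lit 91) (nat_lit 5) (nat_lit 95) (nat_lit 5) (nat_lit 92) (nat_lit 4) (nat_lit 442) (nat_lit 386) (nat_lit 372)) (XT.lf (nat_lit 0) (nat_lit 6816283106) (nat_lit 152) (nat_lit 3063965092) (nat_lit 228) (nat_lit 2689613671) (nat_lit 89) (nat_lit 5) (nat_lit 91) (nat_lit 5) (nat_lit 92) (nat_lit 4) (nat_lit 443) (nat_lit 386) (nat_lit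 371))) (XT.nd (nat_lit 78) (nat_lit 380) (nat_lit 0) (XT.lf (nat_lit 0) (nat_lit 5230302540) (nat_lit 228) (nat_lit 2804818186) (nat_lit 76) (nat_lit 4887287691) (nat_lit 86) (nat_lit 5) (nat_lit 89) (nat_lit 5) (nat_lit 87) (nat_lit 4) (nat_lit 444) (nat_lit 386) (nat_lit 370)) (XT.lf (nat_lit 0) (nat_lit 144266506) (nat_lit 152) (nat_lit 57913282) (nat_lit 228) (nat_lit 13089344577) (nat_lit 81) (nat_lit 5) (nat_lit 83) (nat_lit 5) (nat_lit 84) (nat_lit 5) (nat_lit 445) (nat_lit 386) (nat_lit 369))))))))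
noncomputable def xc25 : XT := (XT.nd (nat_lit 1950) (nat_lit 1596) (nat_lit 0) (XT.nd (nat_lit 936) (nat_lit 1520) (nat_lit 0) (XT.nd (nat_lit 468) (nat_lit 912) (nat_lit 0) (XT.nd (nat_lit 234) (nat_lit 684) (nat_lit 0) (XT.nd (nat_lit 78) (nat_lit 380) (nat_lit 0) (XT.lf (nat_lit 0) (nat_lit 3039066029) (nat_lit 152) (nat_lit 5381961688) (nat_lit 228) (nat_lit 5253130776) (nat_lit 79) (nat_lit 5) (nat_lit 81) (nat_lit 5) (nat_lit 82) (nat_lit 4) (nat_lit 446) (nat_lit 386) (nat_lit 368)) (XT.nd (nat_lit 78) (nat_lit 152) (nat_lit 0) (XT.lf (nat_lit 0) (nat_lit 2929817735) (nat_lit 228) (nat_lit 8160676610) (nat_lit 76) (nat_lit 2984196843) (nat_lit 76) (nat_lit 5) (nat_lit 79) (nat_lit 5) (nat_lit 77) (nat_lit 4) (nat_lit 447) (nat_lit 386) (nat_lit 367)) (XT.lf (nat_lit 0) (nat_lit 8709780214) (nat_lit 152) (nat_lit 2747343661) (nat_lit 228) (nat_lit 3035264051) (nat_lit 74) (nat_lit 5) (nat_lit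 76) (nat_lit 5) (nat_lit 77) (nat_lit 4) (nat_lit 448) (nat_lit 386) (nat_lit 366)))) (XT.nd (nat_lit 78) (nat_lit 456) (nat_lit 0) (XT.lf (nat_lit 0) (nat_lit 5425231413) (nat_lit 228) (nat_lit 3518046948) (nat_lit 76) (nat_lit 5984553105) (nat_lit 71) (nat_lit 5) (nat_lit 74) (nat_lit 5) (nat_lit 72) (nat_lit 4) (nat_lit 449) (nat_lit 386) (nat_lit 365)) (XT.nd (nat_lit 78) (nat_lit 304) (nat_lit 0) (XT.lf (nat_lit 0) (nat_lit 14054895695) (nat_lit 152) (nat_lit 217818089) (nat_lit 228) (nat_lit 1110641497) (nat_lit 69) (nat_lit 5) (nat_lit 71) (nat_lit 5) (nat_lit 72) (nat_lit 4) (nat_lit 450) (nat_lit 386) (nat_lit 364)) (XT.lf (nat_lit 0) (nat_lit 682849174) (nat_lit 76) (nat_lit 6965075008) (nat_lit 152) (nat_lit 8208602734) (nat_lit 65) (nat_lit 5) (nat_lit 66) (nat_lit 5) (nat_lit 67) (nat_lit 4) (nat_lit 451) (nat_lit 386) (nat_lit 363))))) (XT.nd (nat_lit 234) (nat_lit 380) (nat_lit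 0) (XT.nd (nat_lit 78) (nat_lit 304) (nat_lit 0) (XT.lf (nat_lit 0) (nat_lit 502264382) (nat_lit 228) (nat_lit 13721788433) (nat_lit 76) (nat_lit 2127559865) (nat_lit 62) (nat_lit 5) (nat_lit 65) (nat_lit 5) (nat_lit 63) (nat_lit 4) (nat_lit 452) (nat_lit 386) (nat_lit 362)) (XT.nd (nat_lit 78) (nat_lit 228) (nat_lit 0) (XT.lf (nat_lit 0) (nat_lit 4352130867) (nat_lit 76) (nat_lit 5208950061) (nat_lit 152) (nat_lit 7305477991) (nat_lit 61) (nat_lit 5) (nat_lit 62) (nat_lit 5) (nat_lit 63) (nat_lit 4) (nat_lit 453) (nat_lit 386) (nat_lit 361)) (XT.lf (nat_lit 0) (nat_lit 1689228409) (nat_lit 228) (nat_lit 11480884707) (nat_lit 76) (nat_lit 4234983550) (nat_lit 58) (nat_lit 5) (nat_lit 61) (nat_lit 5) (nat_lit 59) (nat_lit 4) (nat_lit 454) (nat_lit 386) (nat_lit 360)))) (XT.nd (nat_lit 78) (nat_lit 304) (nat_lit 0) (XT.lf (nat_lit 0) (nat_lit 7254041190) (nat_lit 76) (nat_lit 3801068792) (nat_lit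 152) (nat_lit 6911113946) (nat_lit 57) (nat_lit 5) (nat_lit 58) (nat_lit 5) (nat_lit 59) (nat_lit 4) (nat_lit 455) (nat_lit 386) (nat_lit 359)) (XT.nd (nat_lit 78) (nat_lit 76) (nat_lit 0) (XT.lf (nat_lit 0) (nat_lit 2369806107) (nat_lit 228) (nat_lit 10191639764) (nat_lit 76) (nat_lit 5990852316) (nat_lit 54) (nat_lit 5) (nat_lit 57) (nat_lit 5) (nat_lit 55) (nat_lit 4) (nat_lit 456) (nat_lit 386) (nat_lit 358)) (XT.lf (nat_lit 0) (nat_lit 9189230920) (nat_lit 76) (nat_lit 2848317315) (nat_lit 152) (nat_lit 7126111276) (nat_lit 53) (nat_lit 5) (nat_lit 54) (nat_lit 5) (nat_lit 55) (nat_lit 4) (nat_lit 457) (nat_lit 386) (nat_lit 357)))))) (XT.nd (nat_lit 468) (nat_lit 684) (nat_lit 0) (XT.nd (nat_lit 234) (nat_lit 304) (nat_lit 0) (XT.nd (nat_lit 78) (nat_lit 304) (nat_lit 0) (XT.lf (nat_lit 0) (nat_lit 2437963770) (nat_lit 228) (nat_lit 10080048141) (nat_lit 76) (nat_lit 7283855281) (nat_lit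 50) (nat_lit 5) (nat_lit 53) (nat_lit 5) (nat_lit 51) (nat_lit 4) (nat_lit 458) (nat_lit 386) (nat_lit 356)) (XT.nd (nat_lit 78) (nat_lit 228) (nat_lit 0) (XT.lf (nat_lit 0) (nat_lit 9918433421) (nat_lit 76) (nat_lit 2477126119) (nat_lit 152) (nat_lit 8072434704) (nat_lit 49) (nat_lit 5) (nat_lit 50) (nat_lit 5) (nat_lit 51) (nat_lit 4) (nat_lit 459) (nat_lit 386) (nat_lit 355)) (XT.lf (nat_lit 0) (nat_lit 1765184034) (nat_lit 228) (nat_lit 11416415586) (nat_lit 76) (nat_lit 7981915655) (nat_lit 46) (nat_lit 5) (nat_lit 49) (nat_lit 5) (nat_lit 47) (nat_lit 4) (nat_lit 460) (nat_lit 386) (nat_lit 354)))) (XT.nd (nat_lit 78) (nat_lit 228) (nat_lit 0) (XT.lf (nat_lit 0) (nat_lit 9155067099) (nat_lit 76) (nat_lit 2837308884) (nat_lit 152) (nat_lit 9897105094) (nat_lit 45) (nat_lit 5) (nat_lit 46) (nat_lit 5) (nat_lit 47) (nat_lit 4) (nat_lit 461) (nat_lit 386) (nat_lit 353)) (XT.nd (nat_lit 78) (nat_lit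 76) (nat_lit 0) (XT.lf (nat_lit 0) (nat_lit 196547077) (nat_lit 152) (nat_lit 14523474461) (nat_lit 76) (nat_lit 7928138817) (nat_lit 43) (nat_lit 5) (nat_lit 45) (nat_lit 5) (nat_lit 44) (nat_lit 4) (nat_lit 462) (nat_lit 386) (nat_lit 352)) (XT.lf (nat_lit 0) (nat_lit 6556559704) (nat_lit 76) (nat_lit 4106539611) (nat_lit 152) (nat_lit 12776552468) (nat_lit 42) (nat_lit 5) (nat_lit 43) (nat_lit 5) (nat_lit 44) (nat_lit 4) (nat_lit 463) (nat_lit 386) (nat_lit 351))))) (XT.nd (nat_lit 234) (nat_lit 456) (nat_lit 0) (XT.nd (nat_lit 78) (nat_lit 152) (nat_lit 0) (XT.lf (nat_lit 0) (nat_lit 4457415013) (nat_lit 76) (nat_lit 17307232758) (nat_lit 76) (nat_lit 2502724777) (nat_lit 41) (nat_lit 4) (nat_lit 42) (nat_lit 5) (nat_lit 42) (nat_lit 4) (nat_lit 464) (nat_lit 386) (nat_lit 350)) (XT.nd (nat_lit 78) (nat_lit 0) (nat_lit 0) (XT.lf (nat_lit 0) (nat_lit 1714172672) (nat_lit 76) (nat_lit 6495581815)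 (nat_lit 152) (nat_lit 16921741376) (nat_lit 39) (nat_lit 5) (nat_lit 40) (nat_lit 5) (nat_lit 41) (nat_lit 4) (nat_lit 465) (nat_lit 386) (nat_lit 349)) (XT.lf (nat_lit 0) (nat_lit 19515468751) (nat_lit 152) (nat_lit 1656046338) (nat_lit 0) (nat_lit 4863289981) (nat_lit 39) (nat_lit 5) (nat_lit 41) (nat_lit 4) (nat_lit 39) (nat_lit 4) (nat_lit 466) (nat_lit 386) (nat_lit 348)))) (XT.nd (nat_lit 156) (nat_lit 228) (nat_lit 0) (XT.nd (nat_lit 78) (nat_lit 76) (nat_lit 0) (XT.lf (nat_lit 0) (nat_lit 4451788234) (nat_lit 152) (nat_lit 5744605008) (nat_lit 76) (nat_lit 16781584998) (nat_lit 37) (nat_lit 5) (nat_lit 39) (nat_lit 5) (nat_lit 38) (nat_lit 4) (nat_lit 467) (nat_lit 386) (nat_lit 347)) (XT.lf (nat_lit 0) (nat_lit 15901718034) (nat_lit 152) (nat_lit 10631981293) (nat_lit 0) (nat_lit 1430725678) (nat_lit 36) (nat_lit 5) (nat_lit 38) (nat_lit 4) (nat_lit 36) (nat_lit 4) (nat_lit 468) (nat_lit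 386) (nat_lit 346))) (XT.nd (nat_lit 78) (nat_lit 152) (nat_lit 0) (XT.lf (nat_lit 0) (nat_lit 12571788455) (nat_lit 76) (nat_lit 15504463555) (nat_lit 76) (nat_lit 919382430) (nat_lit 35) (nat_lit 4) (nat_lit 36) (nat_lit 5) (nat_lit 36) (nat_lit 4) (nat_lit 469) (nat_lit 386) (nat_lit 345)) (XT.lf (nat_lit 0) (nat_lit 6861722737) (nat_lit 76) (nat_lit 3756730381) (nat_lit 152) (nat_lit 19455413792) (nat_lit 33) (nat_lit 5) (nat_lit 34) (nat_lit 5) (nat_lit 35) (nat_lit 4) (nat_lit 470) (nat_lit 386) (nat_lit 344))))))) (XT.nd (nat_lit 1014) (nat_lit 684) (nat_lit 0) (XT.nd (nat_lit 468) (nat_lit 456) (nat_lit 0) (XT.nd (nat_lit 234) (nat_lit 228) (nat_lit 0) (XT.nd (nat_lit 78) (nat_lit 152) (nat_lit 0) (XT.lf (nat_lit 0) (nat_lit 117007940) (nat_lit 76) (nat_lit 22725556588) (nat_lit 76) (nat_lit 8359324578) (nat_lit 32) (nat_lit 4) (nat_lit 33) (nat_lit 5) (nat_lit 33) (nat_lit 4) (nat_lit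 471) (nat_lit 386) (nat_lit 343)) (XT.nd (nat_lit 78) (nat_lit 76) (nat_lit 0) (XT.lf (nat_lit 0) (nat_lit 3382960005) (nat_lit 152) (nat_lit 7594506856) (nat_lit 76) (nat_lit 21403230596) (nat_lit 31) (nat_lit 5) (nat_lit 33) (nat_lit 5) (nat_lit 32) (nat_lit 4) (nat_lit 472) (nat_lit 386) (nat_lit 342)) (XT.lf (nat_lit 0) (nat_lit 15602076250) (nat_lit 152) (nat_lit 16539103412) (nat_lit 0) (nat_lit 1472908326) (nat_lit 30) (nat_lit 5) (nat_lit 32) (nat_lit 4) (nat_lit 30) (nat_lit 4) (nat_lit 473) (nat_lit 386) (nat_lit 341)))) (XT.nd (nat_lit 78) (nat_lit 152) (nat_lit 0) (XT.lf (nat_lit 0) (nat_lit 8049919167) (nat_lit 76) (nat_lit 20534052415) (nat_lit 76) (nat_lit 6320624395) (nat_lit 29) (nat_lit 4) (nat_lit 30) (nat_lit 5) (nat_lit 30) (nat_lit 4) (nat_lit 474) (nat_lit 386) (nat_lit 340)) (XT.nd (nat_lit 78) (nat_lit 76) (nat_lit 0) (XT.lf (nat_lit 0) (nat_lit 5898030316) (nat_lit 152)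 (nat_lit 2320674187) (nat_lit 76) (nat_lit 28037442665) (nat_lit 28) (nat_lit 5) (nat_lit 30) (nat_lit 5) (nat_lit 29) (nat_lit 4) (nat_lit 475) (nat_lit 386) (nat_lit 339)) (XT.lf (nat_lit 0) (nat_lit 18764763462) (nat_lit 152) (nat_lit 14090393378) (nat_lit 0) (nat_lit 4813208005) (nat_lit 27) (nat_lit 5) (nat_lit 29) (nat_lit 4) (nat_lit 27) (nat_lit 4) (nat_lit 476) (nat_lit 386) (nat_lit 338))))) (XT.nd (nat_lit 234) (nat_lit 228) (nat_lit 0) (XT.nd (nat_lit 78) (nat_lit 152) (nat_lit 0) (XT.lf (nat_lit 0) (nat_lit 11606021685) (nat_lit 76) (nat_lit 20782000375) (nat_lit 76) (nat_lit 6759777890) (nat_lit 26) (nat_lit 4) (nat_lit 27) (nat_lit 5) (nat_lit 27) (nat_lit 4) (nat_lit 477) (nat_lit 386) (nat_lit 337)) (XT.nd (nat_lit 78) (nat_lit 76) (nat_lit 0) (XT.lf (nat_lit 0) (nat_lit 5917430753) (nat_lit 152) (nat_lit 2077139986) (nat_lit 76) (nat_lit 32703617229) (nat_lit 25) (nat_lit 5)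 (nat_lit 27) (nat_lit 5) (nat_lit 26) (nat_lit 4) (nat_lit 478) (nat_lit 386) (nat_lit 336)) (XT.lf (nat_lit 0) (nat_lit 19285098038) (nat_lit 152) (nat_lit 17489381465) (nat_lit 0) (nat_lit 5543717948) (nat_lit 24) (nat_lit 5) (nat_lit 26) (nat_lit 4) (nat_lit 24) (nat_lit 4) (nat_lit 479) (nat_lit 386) (nat_lit 335)))) (XT.nd (nat_lit 156) (nat_lit 76) (nat_lit 0) (XT.nd (nat_lit 78) (nat_lit 76) (nat_lit 0) (XT.lf (nat_lit 0) (nat_lit 9010086765) (nat_lit 76) (nat_lit 24403498164) (nat_lit 76) (nat_lit 10602851242) (nat_lit 23) (nat_lit 4) (nat_lit 24) (nat_lit 5) (nat_lit 24) (nat_lit 4) (nat_lit 480) (nat_lit 386) (nat_lit 334)) (XT.lf (nat_lit 0) (nat_lit 2488376063) (nat_lit 152) (nat_lit 8805688113) (nat_lit 76) (nat_lit 34502200537) (nat_lit 22) (nat_lit 5) (nat_lit 24) (nat_lit 5) (nat_lit 23) (nat_lit 4) (nat_lit 481) (nat_lit 386) (nat_lit 333))) (XT.nd (nat_lit 78) (nat_lit 0) (nat_lit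 0) (XT.lf (nat_lit 0) (nat_lit 16133211502) (nat_lit 152) (nat_lit 28897641992) (nat_lit 0) (nat_lit 2627533556) (nat_lit 21) (nat_lit 5) (nat_lit 23) (nat_lit 4) (nat_lit 21) (nat_lit 4) (nat_lit 482) (nat_lit 386) (nat_lit 332)) (XT.lf (nat_lit 0) (nat_lit 30577581251) (nat_lit 152) (nat_lit 2010319468) (nat_lit 0) (nat_lit 17022197560) (nat_lit 21) (nat_lit 5) (nat_lit 23) (nat_lit 4) (nat_lit 21) (nat_lit 4) (nat_lit 483) (nat_lit 386) (nat_lit 331)))))) (XT.nd (nat_lit 468) (nat_lit 228) (nat_lit 0) (XT.nd (nat_lit 234) (nat_lit 228) (nat_lit 0) (XT.nd (nat_lit 78) (nat_lit 152) (nat_lit 0) (XT.lf (nat_lit 0) (nat_lit 26574169788) (nat_lit 76) (nat_lit 19341403569) (nat_lit 76) (nat_lit 5738681074) (nat_lit 20) (nat_lit 4) (nat_lit 21) (nat_lit 5) (nat_lit 21) (nat_lit 4) (nat_lit 484) (nat_lit 386) (nat_lit 330)) (XT.nd (nat_lit 78) (nat_lit 0) (nat_lit 0) (XT.lf (nat_lit 0) (nat_lit 2639536469)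 (nat_lit 76) (nat_lit 5383785470) (nat_lit 152) (nat_lit 45776011169) (nat_lit 18) (nat_lit 5) (nat_lit 19) (nat_lit 5) (nat_lit 20) (nat_lit 4) (nat_lit 485) (nat_lit 386) (nat_lit 329)) (XT.lf (nat_lit 0) (nat_lit 22624959836) (nat_lit 152) (nat_lit 24083921412) (nat_lit 0) (nat_lit 9332974631) (nat_lit 18) (nat_lit 5) (nat_lit 20) (nat_lit 4) (nat_lit 18) (nat_lit 4) (nat_lit 486) (nat_lit 386) (nat_lit 328)))) (XT.nd (nat_lit 78) (nat_lit 152) (nat_lit 0) (XT.lf (nat_lit 0) (nat_lit 4221754930) (nat_lit 76) (nat_lit 33752948780) (nat_lit 76) (nat_lit 20421261596) (nat_lit 17) (nat_lit 4) (nat_lit 18) (nat_lit 5) (nat_lit 18) (nat_lit 4) (nat_lit 487) (nat_lit 386) (nat_lit 327)) (XT.nd (nat_lit 78) (nat_lit 152) (nat_lit 0) (XT.lf (nat_lit 0) (nat_lit 34298321809) (nat_lit 76) (nat_lit 19966880078) (nat_lit 76) (nat_lit 6597381484) (nat_lit 17) (nat_lit 4) (nat_lit 18) (nat_lit 5) (nat_lit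 18) (nat_lit 4) (nat_lit 488) (nat_lit 386) (nat_lit 326)) (XT.lf (nat_lit 0) (nat_lit 2251944171) (nat_lit 76) (nat_lit 5461087173) (nat_lit 152) (nat_lit 55738723553) (nat_lit 15) (nat_lit 5) (nat_lit 16) (nat_lit 5) (nat_lit 17) (nat_lit 4) (nat_lit 489) (nat_lit 386) (nat_lit 325))))) (XT.nd (nat_lit 234) (nat_lit 152) (nat_lit 0) (XT.nd (nat_lit 78) (nat_lit 76) (nat_lit 0) (XT.lf (nat_lit 0) (nat_lit 22903498167) (nat_lit 152) (nat_lit 33400755643) (nat_lit 0) (nat_lit 9855143291) (nat_lit 15) (nat_lit 5) (nat_lit 17) (nat_lit 4) (nat_lit 15) (nat_lit 4) (nat_lit 490) (nat_lit 386) (nat_lit 324)) (XT.nd (nat_lit 78) (nat_lit 76) (nat_lit 0) (XT.lf (nat_lit 0) (nat_lit 38841589999) (nat_lit 152) (nat_lit 4399665801) (nat_lit 0) (nat_lit 25761523554) (nat_lit 15) (nat_lit 5) (nat_lit 17) (nat_lit 4) (nat_lit 15) (nat_lit 4) (nat_lit 491) (nat_lit 386) (nat_lit 323)) (XT.lf (nat_lit 0) (nat_lit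 26440962741) (nat_lit 76) (nat_lit 29325963337) (nat_lit 76) (nat_lit 16215695397) (nat_lit 14) (nat_lit 4) (nat_lit 15) (nat_lit 5) (nat_lit 15) (nat_lit 4) (nat_lit 492) (nat_lit 386) (nat_lit 322)))) (XT.nd (nat_lit 156) (nat_lit 0) (nat_lit 0) (XT.nd (nat_lit 78) (nat_lit 152) (nat_lit 0) (XT.lf (nat_lit 0) (nat_lit 58792713934) (nat_lit 76) (nat_lit 14729137135) (nat_lit 76) (nat_lit 1590105866) (nat_lit 14) (nat_lit 4) (nat_lit 15) (nat_lit 5) (nat_lit 15) (nat_lit 4) (nat_lit 493) (nat_lit 386) (nat_lit 321)) (XT.lf (nat_lit 0) (nat_lit 13584752410) (nat_lit 152) (nat_lit 64004623101) (nat_lit 0) (nat_lit 801815599) (nat_lit 12) (nat_lit 5) (nat_lit 14) (nat_lit 4) (nat_lit 12) (nat_lit 4) (nat_lit 494) (nat_lit 386) (nat_lit 320))) (XT.nd (nat_lit 78) (nat_lit 0) (nat_lit 0) (XT.lf (nat_lit 0) (nat_lit 29745678337) (nat_lit 152) (nat_lit 35143018602) (nat_lit 0) (nat_lit 16937412219) (nat_lit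 12) (nat_lit 5) (nat_lit 14) (nat_lit 4) (nat_lit 12) (nat_lit 4) (nat_lit 495) (nat_lit 386) (nat_lit 319)) (XT.lf (nat_lit 0) (nat_lit 46659016864) (nat_lit 152) (nat_lit 4948798414) (nat_lit 0) (nat_lit 33826627596) (nat_lit 12) (nat_lit 5) (nat_lit 14) (nat_lit 4) (nat_lit 12) (nat_lit 4) (nat_lit 496) (nat_lit 386) (nat_lit 318))))))))
noncomputable def xc26 : XT := (XT.nd (nat_lit 58734) (nat_lit 0) (nat_lit 1444) (XT.nd (nat_lit 57720) (nat_lit 0) (nat_lit 4788) (XT.nd (nat_lit 57252) (nat_lit 0) (nat_lit 8512) (XT.nd (nat_lit 57018) (nat_lit 0) (nat_lit 11096) (XT.nd (nat_lit 78) (nat_lit 0) (nat_lit 0) (XT.lf (nat_lit 0) (nat_lit 27180314294) (nat_lit 76) (nat_lit 37445997358) (nat_lit 76) (nat_lit 24590633661) (nat_lit 11) (nat_lit 4) (nat_lit 12) (nat_lit 5) (nat_lit 12) (nat_lit 4) (nat_lit 497) (nat_lit 386) (nat_lit 317)) (XT.nd (nat_lit 56862) (nat_lit 0) (nat_lit 12768) (XT.lf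 (nat_lit 0) (nat_lit 60917109311) (nat_lit 76) (nat_lit 22574361678) (nat_lit 76) (nat_lit 9697117573) (nat_lit 11) (nat_lit 4) (nat_lit 12) (nat_lit 5) (nat_lit 12) (nat_lit 4) (nat_lit 498) (nat_lit 386) (nat_lit 316)) (XT.lf (nat_lit 0) (nat_lit 2963412238) (nat_lit 380) (nat_lit 631706524) (nat_lit 380) (nat_lit 631706524) (nat_lit 179) (nat_lit 4) (nat_lit 184) (nat_lit 5) (nat_lit 184) (nat_lit 4) (nat_lit 426) (nat_lit 387) (nat_lit 387)))) (XT.nd (nat_lit 78) (nat_lit 836) (nat_lit 0) (XT.lf (nat_lit 0) (nat_lit 675448684) (nat_lit 380) (nat_lit 4827933262) (nat_lit 380) (nat_lit 3113590938) (nat_lit 168) (nat_lit 4) (nat_lit 173) (nat_lit 5) (nat_lit 173) (nat_lit 4) (nat_lit 427) (nat_lit 387) (nat_lit 386)) (XT.nd (nat_lit 78) (nat_lit 456) (nat_lit 0) (XT.lf (nat_lit 0) (nat_lit 3638382633) (nat_lit 380) (nat_lit 4762294836) (nat_lit 0) (nat_lit 388820207) (nat_lit 163) (nat_lit 5)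 (nat_lit 168) (nat_lit 4) (nat_lit 163) (nat_lit 4) (nat_lit 428) (nat_lit 387) (nat_lit 385)) (XT.lf (nat_lit 0) (nat_lit 1593602925) (nat_lit 456) (nat_lit 1524217443) (nat_lit 76) (nat_lit 5853476242) (nat_lit 157) (nat_lit 5) (nat_lit 163) (nat_lit 5) (nat_lit 158) (nat_lit 4) (nat_lit 429) (nat_lit 387) (nat_lit 384))))) (XT.nd (nat_lit 234) (nat_lit 1216) (nat_lit 0) (XT.nd (nat_lit 78) (nat_lit 760) (nat_lit 0) (XT.lf (nat_lit 0) (nat_lit 1827405443) (nat_lit 304) (nat_lit 6675890643) (nat_lit 304) (nat_lit 659374780) (nat_lit 149) (nat_lit 4) (nat_lit 153) (nat_lit 5) (nat_lit 153) (nat_lit 4) (nat_lit 430) (nat_lit 387) (nat_lit 383)) (XT.nd (nat_lit 78) (nat_lit 380) (nat_lit 0) (XT.lf (nat_lit 0) (nat_lit 5271507430) (nat_lit 304) (nat_lit 943987446) (nat_lit 380) (nat_lit 3147952467) (nat_lit 144) (nat_lit 5) (nat_lit 148) (nat_lit 5) (nat_lit 149) (nat_lit 4) (nat_lit 431) (nat_lit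 387) (nat_lit 382)) (XT.lf (nat_lit 0) (nat_lit 3726136197) (nat_lit 380) (nat_lit 797178686) (nat_lit 76) (nat_lit 5051036273) (nat_lit 139) (nat_lit 5) (nat_lit 144) (nat_lit 5) (nat_lit 140) (nat_lit 4) (nat_lit 432) (nat_lit 387) (nat_lit 381)))) (XT.nd (nat_lit 78) (nat_lit 608) (nat_lit 0) (XT.lf (nat_lit 0) (nat_lit 1026276121) (nat_lit 380) (nat_lit 7170977134) (nat_lit 76) (nat_lit 1598429676) (nat_lit 131) (nat_lit 5) (nat_lit 136) (nat_lit 5) (nat_lit 132) (nat_lit 4) (nat_lit 433) (nat_lit 387) (nat_lit 380)) (XT.nd (nat_lit 78) (nat_lit 380) (nat_lit 0) (XT.lf (nat_lit 0) (nat_lit 6101083383) (nat_lit 228) (nat_lit 1996399474) (nat_lit 304) (nat_lit 1929675919) (nat_lit 128) (nat_lit 5) (nat_lit 131) (nat_lit 5) (nat_lit 132) (nat_lit 4) (nat_lit 434) (nat_lit 387) (nat_lit 379)) (XT.lf (nat_lit 0) (nat_lit 5119127505) (nat_lit 380) (nat_lit 644820555) (nat_lit 76) (nat_lit 4505688948)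 (nat_lit 123) (nat_lit 5) (nat_lit 128) (nat_lit 5) (nat_lit 124) (nat_lit 4) (nat_lit 435) (nat_lit 387) (nat_lit 378)))))) (XT.nd (nat_lit 468) (nat_lit 1748) (nat_lit 0) (XT.nd (nat_lit 234) (nat_lit 912) (nat_lit 0) (XT.nd (nat_lit 78) (nat_lit 532) (nat_lit 0) (XT.lf (nat_lit 0) (nat_lit 1906130079) (nat_lit 304) (nat_lit 7771236916) (nat_lit 76) (nat_lit 846137206) (nat_lit 116) (nat_lit 5) (nat_lit 120) (nat_lit 5) (nat_lit 117) (nat_lit 4) (nat_lit 436) (nat_lit 387) (nat_lit 377)) (XT.nd (nat_lit 78) (nat_lit 304) (nat_lit 0) (XT.lf (nat_lit 0) (nat_lit 6179856637) (nat_lit 228) (nat_lit 3032928672) (nat_lit 304) (nat_lit 1575665180) (nat_lit 113) (nat_lit 5) (nat_lit 116) (nat_lit 5) (nat_lit 117) (nat_lit 4) (nat_lit 437) (nat_lit 387) (nat_lit 376)) (XT.lf (nat_lit 0) (nat_lit 5687221862) (nat_lit 304) (nat_lit 1427310385) (nat_lit 76) (nat_lit 3950979965) (nat_lit 109) (nat_lit 5)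 (nat_lit 113) (nat_lit 5) (nat_lit 110) (nat_lit 4) (nat_lit 438) (nat_lit 387) (nat_lit 375)))) (XT.nd (nat_lit 78) (nat_lit 456) (nat_lit 0) (XT.lf (nat_lit 0) (nat_lit 1834599248) (nat_lit 228) (nat_lit 51485851) (nat_lit 304) (nat_lit 9469373620) (nat_lit 103) (nat_lit 5) (nat_lit 106) (nat_lit 5) (nat_lit 107) (nat_lit 5) (nat_lit 439) (nat_lit 387) (nat_lit 374)) (XT.nd (nat_lit 78) (nat_lit 304) (nat_lit 0) (XT.lf (nat_lit 0) (nat_lit 5106476029) (nat_lit 152) (nat_lit 4337997820) (nat_lit 228) (nat_lit 2212592168) (nat_lit 101) (nat_lit 5) (nat_lit 103) (nat_lit 5) (nat_lit 104) (nat_lit 4) (nat_lit 440) (nat_lit 387) (nat_lit 373)) (XT.lf (nat_lit 0) (nat_lit 5293380498) (nat_lit 304) (nat_lit 3574168916) (nat_lit 76) (nat_lit 3104909228) (nat_lit 97) (nat_lit 5) (nat_lit 101) (nat_lit 5) (nat_lit 98) (nat_lit 4) (nat_lit 441) (nat_lit 387) (nat_lit 372))))) (XT.nd (nat_lit 234) (nat_lit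 912) (nat_lit 0) (XT.nd (nat_lit 78) (nat_lit 608) (nat_lit 0) (XT.lf (nat_lit 0) (nat_lit 821272341) (nat_lit 228) (nat_lit 587707540) (nat_lit 76) (nat_lit 10893420402) (nat_lit 94) (nat_lit 5) (nat_lit 97) (nat_lit 5) (nat_lit 95) (nat_lit 5) (nat_lit 442) (nat_lit 387) (nat_lit 371)) (XT.nd (nat_lit 78) (nat_lit 228) (nat_lit 0) (XT.lf (nat_lit 0) (nat_lit 2394883522) (nat_lit 152) (nat_lit 6223598018) (nat_lit 228) (nat_lit 4026592051) (nat_lit 89) (nat_lit 5) (nat_lit 91) (nat_lit 5) (nat_lit 92) (nat_lit 4) (nat_lit 443) (nat_lit 387) (nat_lit 370)) (XT.lf (nat_lit 0) (nat_lit 3739848124) (nat_lit 228) (nat_lit 7609261594) (nat_lit 76) (nat_lit 1654290924) (nat_lit 86) (nat_lit 5) (nat_lit 89) (nat_lit 5) (nat_lit 87) (nat_lit 4) (nat_lit 444) (nat_lit 387) (nat_lit 369)))) (XT.nd (nat_lit 156) (nat_lit 532) (nat_lit 0) (XT.nd (nat_lit 78) (nat_lit 228) (nat_lit 0) (XT.lf (nat_lit 0) (nat_lit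 8354832935) (nat_lit 152) (nat_lit 3502605069) (nat_lit 228) (nat_lit 1519642508) (nat_lit 84) (nat_lit 5) (nat_lit 86) (nat_lit 5) (nat_lit 87) (nat_lit 4) (nat_lit 445) (nat_lit 387) (nat_lit 368)) (XT.lf (nat_lit 0) (nat_lit 6516806429) (nat_lit 228) (nat_lit 2504740974) (nat_lit 76) (nat_lit 4744974086) (nat_lit 81) (nat_lit 5) (nat_lit 84) (nat_lit 5) (nat_lit 82) (nat_lit 4) (nat_lit 446) (nat_lit 387) (nat_lit 367))) (XT.nd (nat_lit 78) (nat_lit 304) (nat_lit 0) (XT.lf (nat_lit 0) (nat_lit 763119902) (nat_lit 228) (nat_lit 15192152) (nat_lit 76) (nat_lit 13395596629) (nat_lit 78) (nat_lit 5) (nat_lit 81) (nat_lit 5) (nat_lit 79) (nat_lit 5) (nat_lit 447) (nat_lit 387) (nat_lit 366)) (XT.lf (nat_lit 0) (nat_lit 2392148944) (nat_lit 152) (nat_lit 6734322665) (nat_lit 228) (nat_lit 5470058641) (nat_lit 74) (nat_lit 5) (nat_lit 76) (nat_lit 5) (nat_lit 77) (nat_lit 4) (nat_lit 448) (nat_lit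 387) (nat_lit 365))))))) (XT.nd (nat_lit 1014) (nat_lit 1216) (nat_lit 0) (XT.nd (nat_lit 468) (nat_lit 1140) (nat_lit 0) (XT.nd (nat_lit 234) (nat_lit 380) (nat_lit 0) (XT.nd (nat_lit 78) (nat_lit 380) (nat_lit 0) (XT.lf (nat_lit 0) (nat_lit 2840042425) (nat_lit 228) (nat_lit 10286809401) (nat_lit 76) (nat_lit 1911767015) (nat_lit 71) (nat_lit 5) (nat_lit 74) (nat_lit 5) (nat_lit 72) (nat_lit 4) (nat_lit 449) (nat_lit 387) (nat_lit 364)) (XT.nd (nat_lit 78) (nat_lit 228) (nat_lit 0) (XT.lf (nat_lit 0) (nat_lit 6980947160) (nat_lit 152) (nat_lit 4547151075) (nat_lit 228) (nat_lit 3970832673) (nat_lit 69) (nat_lit 5) (nat_lit 71) (nat_lit 5) (nat_lit 72) (nat_lit 4) (nat_lit 450) (nat_lit 387) (nat_lit 363)) (XT.lf (nat_lit 0) (nat_lit 4632322450) (nat_lit 228) (nat_lit 6880383211) (nat_lit 76) (nat_lit 4466563438) (nat_lit 66) (nat_lit 5) (nat_lit 69) (nat_lit 5) (nat_lit 67) (nat_lit 4) (nat_lit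 451) (nat_lit 387) (nat_lit 362)))) (XT.nd (nat_lit 78) (nat_lit 304) (nat_lit 0) (XT.lf (nat_lit 0) (nat_lit 11092453986) (nat_lit 76) (nat_lit 2553553112) (nat_lit 152) (nat_lit 2834572656) (nat_lit 65) (nat_lit 5) (nat_lit 66) (nat_lit 5) (nat_lit 67) (nat_lit 4) (nat_lit 452) (nat_lit 387) (nat_lit 361)) (XT.nd (nat_lit 78) (nat_lit 76) (nat_lit 0) (XT.lf (nat_lit 0) (nat_lit 6071888850) (nat_lit 228) (nat_lit 4099706022) (nat_lit 76) (nat_lit 6830983024) (nat_lit 62) (nat_lit 5) (nat_lit 65) (nat_lit 5) (nat_lit 63) (nat_lit 4) (nat_lit 453) (nat_lit 387) (nat_lit 360)) (XT.lf (nat_lit 0) (nat_lit 14582427567) (nat_lit 76) (nat_lit 833442414) (nat_lit 152) (nat_lit 2132448090) (nat_lit 61) (nat_lit 5) (nat_lit 62) (nat_lit 5) (nat_lit 63) (nat_lit 4) (nat_lit 454) (nat_lit 387) (nat_lit 359))))) (XT.nd (nat_lit 234) (nat_lit 608) (nat_lit 0) (XT.nd (nat_lit 78) (nat_lit 304) (nat_lit 0) (XT.lf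 (nat_lit 0) (nat_lit 7083718800) (nat_lit 228) (nat_lit 2109672681) (nat_lit 76) (nat_lit 8922412507) (nat_lit 58) (nat_lit 5) (nat_lit 61) (nat_lit 5) (nat_lit 59) (nat_lit 4) (nat_lit 455) (nat_lit 387) (nat_lit 358)) (XT.nd (nat_lit 78) (nat_lit 228) (nat_lit 0) (XT.lf (nat_lit 0) (nat_lit 16762884654) (nat_lit 152) (nat_lit 1437867780) (nat_lit 0) (nat_lit 508897218) (nat_lit 57) (nat_lit 5) (nat_lit 59) (nat_lit 4) (nat_lit 57) (nat_lit 4) (nat_lit 456) (nat_lit 387) (nat_lit 357)) (XT.lf (nat_lit 0) (nat_lit 7575708174) (nat_lit 228) (nat_lit 1108295877) (nat_lit 76) (nat_lit 10643069497) (nat_lit 54) (nat_lit 5) (nat_lit 57) (nat_lit 5) (nat_lit 55) (nat_lit 4) (nat_lit 457) (nat_lit 387) (nat_lit 356)))) (XT.nd (nat_lit 156) (nat_lit 304) (nat_lit 0) (XT.nd (nat_lit 78) (nat_lit 228) (nat_lit 0) (XT.lf (nat_lit 0) (nat_lit 17587534971) (nat_lit 152) (nat_lit 1020340333) (nat_lit 0) (nat_lit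 1365317051) (nat_lit 53) (nat_lit 5) (nat_lit 55) (nat_lit 4) (nat_lit 53) (nat_lit 4) (nat_lit 458) (nat_lit 387) (nat_lit 355)) (XT.lf (nat_lit 0) (nat_lit 7435713628) (nat_lit 228) (nat_lit 1332898158) (nat_lit 76) (nat_lit 11876881952) (nat_lit 50) (nat_lit 5) (nat_lit 53) (nat_lit 5) (nat_lit 51) (nat_lit 4) (nat_lit 459) (nat_lit 387) (nat_lit 354))) (XT.nd (nat_lit 78) (nat_lit 228) (nat_lit 0) (XT.lf (nat_lit 0) (nat_lit 17761292716) (nat_lit 152) (nat_lit 1964893638) (nat_lit 0) (nat_lit 1622646789) (nat_lit 49) (nat_lit 5) (nat_lit 51) (nat_lit 4) (nat_lit 49) (nat_lit 4) (nat_lit 460) (nat_lit 387) (nat_lit 353)) (XT.lf (nat_lit 0) (nat_lit 6528057475) (nat_lit 228) (nat_lit 3067372083) (nat_lit 76) (nat_lit 12485854624) (nat_lit 46) (nat_lit 5) (nat_lit 49) (nat_lit 5) (nat_lit 47) (nat_lit 4) (nat_lit 461) (nat_lit 387) (nat_lit 352)))))) (XT.nd (nat_lit 468) (nat_lit 608) (nat_lit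 0) (XT.nd (nat_lit 234) (nat_lit 304) (nat_lit 0) (XT.nd (nat_lit 78) (nat_lit 228) (nat_lit 0) (XT.lf (nat_lit 0) (nat_lit 17138345391) (nat_lit 152) (nat_lit 4581788803) (nat_lit 0) (nat_lit 1127270009) (nat_lit 45) (nat_lit 5) (nat_lit 47) (nat_lit 4) (nat_lit 45) (nat_lit 4) (nat_lit 462) (nat_lit 387) (nat_lit 351)) (XT.nd (nat_lit 78) (nat_lit 76) (nat_lit 0) (XT.lf (nat_lit 0) (nat_lit 4689405033) (nat_lit 152) (nat_lit 6650694477) (nat_lit 76) (nat_lit 12305829623) (nat_lit 43) (nat_lit 5) (nat_lit 45) (nat_lit 5) (nat_lit 44) (nat_lit 4) (nat_lit 463) (nat_lit 387) (nat_lit 350)) (XT.lf (nat_lit 0) (nat_lit 15236854114) (nat_lit 76) (nat_lit 309242139) (nat_lit 152) (nat_lit 8934901602) (nat_lit 42) (nat_lit 5) (nat_lit 43) (nat_lit 5) (nat_lit 44) (nat_lit 4) (nat_lit 464) (nat_lit 387) (nat_lit 349)))) (XT.nd (nat_lit 78) (nat_lit 152) (nat_lit 0) (XT.lf (nat_lit 0) (nat_lit 1723908502)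 (nat_lit 152) (nat_lit 12486912276) (nat_lit 76) (nat_lit 11141532887) (nat_lit 40) (nat_lit 5) (nat_lit 42) (nat_lit 5) (nat_lit 41) (nat_lit 4) (nat_lit 465) (nat_lit 387) (nat_lit 348)) (XT.nd (nat_lit 78) (nat_lit 76) (nat_lit 0) (XT.lf (nat_lit 0) (nat_lit 9850581880) (nat_lit 76) (nat_lit 2942753814) (nat_lit 152) (nat_lit 13469417763) (nat_lit 39) (nat_lit 5) (nat_lit 40) (nat_lit 5) (nat_lit 41) (nat_lit 4) (nat_lit 466) (nat_lit 387) (nat_lit 347)) (XT.lf (nat_lit 0) (nat_lit 6131993229) (nat_lit 76) (nat_lit 18428067157) (nat_lit 76) (nat_lit 2654301921) (nat_lit 38) (nat_lit 4) (nat_lit 39) (nat_lit 5) (nat_lit 39) (nat_lit 4) (nat_lit 467) (nat_lit 387) (nat_lit 346))))) (XT.nd (nat_lit 234) (nat_lit 304) (nat_lit 0) (XT.nd (nat_lit 78) (nat_lit 152) (nat_lit 0) (XT.lf (nat_lit 0) (nat_lit 1606841500) (nat_lit 76) (nat_lit 7012921143) (nat_lit 152) (nat_lit 19588643416) (nat_lit 36)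 (nat_lit 5) (nat_lit 37) (nat_lit 5) (nat_lit 38) (nat_lit 4) (nat_lit 468) (nat_lit 387) (nat_lit 345)) (XT.nd (nat_lit 78) (nat_lit 152) (nat_lit 0) (XT.lf (nat_lit 0) (nat_lit 20545002336) (nat_lit 152) (nat_lit 3694171225) (nat_lit 0) (nat_lit 5007922417) (nat_lit 36) (nat_lit 5) (nat_lit 38) (nat_lit 4) (nat_lit 36) (nat_lit 4) (nat_lit 469) (nat_lit 387) (nat_lit 344)) (XT.lf (nat_lit 0) (nat_lit 2825253753) (nat_lit 152) (nat_lit 9905296676) (nat_lit 76) (nat_lit 17601894621) (nat_lit 34) (nat_lit 5) (nat_lit 36) (nat_lit 5) (nat_lit 35) (nat_lit 4) (nat_lit 470) (nat_lit 387) (nat_lit 343)))) (XT.nd (nat_lit 156) (nat_lit 152) (nat_lit 0) (XT.nd (nat_lit 78) (nat_lit 76) (nat_lit 0) (XT.lf (nat_lit 0) (nat_lit 14325144710) (nat_lit 76) (nat_lit 484835917) (nat_lit 152) (nat_lit 16657669613) (nat_lit 33) (nat_lit 5) (nat_lit 34) (nat_lit 5) (nat_lit 35) (nat_lit 4) (nat_lit 471) (nat_lit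 387) (nat_lit 342)) (XT.lf (nat_lit 0) (nat_lit 7113546900) (nat_lit 76) (nat_lit 20456308348) (nat_lit 76) (nat_lit 5084485944) (nat_lit 32) (nat_lit 4) (nat_lit 33) (nat_lit 5) (nat_lit 33) (nat_lit 4) (nat_lit 472) (nat_lit 387) (nat_lit 341))) (XT.nd (nat_lit 78) (nat_lit 76) (nat_lit 0) (XT.lf (nat_lit 0) (nat_lit 7000436519) (nat_lit 152) (nat_lit 1247724167) (nat_lit 76) (nat_lit 25648040887) (nat_lit 31) (nat_lit 5) (nat_lit 33) (nat_lit 5) (nat_lit 32) (nat_lit 4) (nat_lit 473) (nat_lit 387) (nat_lit 340)) (XT.lf (nat_lit 0) (nat_lit 19759741462) (nat_lit 152) (nat_lit 10762512797) (nat_lit 0) (nat_lit 4671134236) (nat_lit 30) (nat_lit 5) (nat_lit 32) (nat_lit 4) (nat_lit 30) (nat_lit 4) (nat_lit 474) (nat_lit 387) (nat_lit 339))))))))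
noncomputable def xc27 : XT := (XT.nd (nat_lit 58578) (nat_lit 0) (nat_lit 4560) (XT.nd (nat_lit 936) (nat_lit 532) (nat_lit 0) (XT.nd (nat_lit 468) (nat_lit 456) (nat_lit 0) (XT.nd (nat_lit 234) (nat_lit 228) (nat_lit 0) (XT.nd (nat_lit 78) (nat_lit 152) (nat_lit 0) (XT.lf (nat_lit 0) (nat_lit 14866671596) (nat_lit 76) (nat_lit 18424881464) (nat_lit 76) (nat_lit 3259847847) (nat_lit 29) (nat_lit 4) (nat_lit 30) (nat_lit 5) (nat_lit 30) (nat_lit 4) (nat_lit 475) (nat_lit 387) (nat_lit 338)) (XT.nd (nat_lit 78) (nat_lit 0) (nat_lit 0) (XT.lf (nat_lit 0) (nat_lit 3809263989) (nat_lit 76) (nat_lit 5573536328) (nat_lit 152) (nat_lit 28590390304) (nat_lit 27) (nat_lit 5) (nat_lit 28) (nat_lit 5) (nat_lit 29) (nat_lit 4) (nat_lit 476) (nat_lit 387) (nat_lit 337)) (XT.lf (nat_lit 0) (nat_lit 22791926818) (nat_lit 152) (nat_lit 8736499644) (nat_lit 0) (nat_lit 7930624250) (nat_lit 27) (nat_lit 5) (nat_lit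 29) (nat_lit 4) (nat_lit 27) (nat_lit 4) (nat_lit 477) (nat_lit 387) (nat_lit 336)))) (XT.nd (nat_lit 78) (nat_lit 152) (nat_lit 0) (XT.lf (nat_lit 0) (nat_lit 18071072968) (nat_lit 76) (nat_lit 18934751521) (nat_lit 76) (nat_lit 4009351875) (nat_lit 26) (nat_lit 4) (nat_lit 27) (nat_lit 5) (nat_lit 27) (nat_lit 4) (nat_lit 478) (nat_lit 387) (nat_lit 335)) (XT.nd (nat_lit 78) (nat_lit 0) (nat_lit 0) (XT.lf (nat_lit 0) (nat_lit 3550258534) (nat_lit 76) (nat_lit 5581122261) (nat_lit 152) (nat_lit 33514117311) (nat_lit 24) (nat_lit 5) (nat_lit 25) (nat_lit 5) (nat_lit 26) (nat_lit 4) (nat_lit 479) (nat_lit 387) (nat_lit 334)) (XT.lf (nat_lit 0) (nat_lit 23074795333) (nat_lit 152) (nat_lit 12806089889) (nat_lit 0) (nat_lit 8468404634) (nat_lit 24) (nat_lit 5) (nat_lit 26) (nat_lit 4) (nat_lit 24) (nat_lit 4) (nat_lit 480) (nat_lit 387) (nat_lit 333))))) (XT.nd (nat_lit 234) (nat_lit 228) (nat_lit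 0) (XT.nd (nat_lit 78) (nat_lit 152) (nat_lit 0) (XT.lf (nat_lit 0) (nat_lit 14859039660) (nat_lit 76) (nat_lit 22968015223) (nat_lit 76) (nat_lit 8307867762) (nat_lit 23) (nat_lit 4) (nat_lit 24) (nat_lit 5) (nat_lit 24) (nat_lit 4) (nat_lit 481) (nat_lit 387) (nat_lit 332)) (XT.nd (nat_lit 78) (nat_lit 76) (nat_lit 0) (XT.lf (nat_lit 0) (nat_lit 5250887874) (nat_lit 152) (nat_lit 4052041993) (nat_lit 76) (nat_lit 38703957567) (nat_lit 22) (nat_lit 5) (nat_lit 24) (nat_lit 5) (nat_lit 23) (nat_lit 4) (nat_lit 482) (nat_lit 387) (nat_lit 331)) (XT.lf (nat_lit 0) (nat_lit 19524716207) (nat_lit 152) (nat_lit 25244480636) (nat_lit 0) (nat_lit 5194518783) (nat_lit 21) (nat_lit 5) (nat_lit 23) (nat_lit 4) (nat_lit 21) (nat_lit 4) (nat_lit 483) (nat_lit 387) (nat_lit 330)))) (XT.nd (nat_lit 78) (nat_lit 152) (nat_lit 0) (XT.lf (nat_lit 0) (nat_lit 2799063857) (nat_lit 76) (nat_lit 31796059084) (nat_lit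 76) (nat_lit 17420777085) (nat_lit 20) (nat_lit 4) (nat_lit 21) (nat_lit 5) (nat_lit 21) (nat_lit 4) (nat_lit 484) (nat_lit 387) (nat_lit 329)) (XT.nd (nat_lit 78) (nat_lit 152) (nat_lit 0) (XT.lf (nat_lit 0) (nat_lit 32618982148) (nat_lit 76) (nat_lit 17982233776) (nat_lit 76) (nat_lit 3564014086) (nat_lit 20) (nat_lit 4) (nat_lit 21) (nat_lit 5) (nat_lit 21) (nat_lit 4) (nat_lit 485) (nat_lit 387) (nat_lit 328)) (XT.lf (nat_lit 0) (nat_lit 7399127669) (nat_lit 76) (nat_lit 3368478438) (nat_lit 152) (nat_lit 45651361996) (nat_lit 18) (nat_lit 5) (nat_lit 19) (nat_lit 5) (nat_lit 20) (nat_lit 4) (nat_lit 486) (nat_lit 387) (nat_lit 327)))))) (XT.nd (nat_lit 468) (nat_lit 304) (nat_lit 0) (XT.nd (nat_lit 234) (nat_lit 152) (nat_lit 0) (XT.nd (nat_lit 78) (nat_lit 76) (nat_lit 0) (XT.lf (nat_lit 0) (nat_lit 26008663109) (nat_lit 152) (nat_lit 20834797424) (nat_lit 0) (nat_lit 11932878177) (nat_lit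 18) (nat_lit 5) (nat_lit 20) (nat_lit 4) (nat_lit 18) (nat_lit 4) (nat_lit 487) (nat_lit 387) (nat_lit 326)) (XT.nd (nat_lit 78) (nat_lit 0) (nat_lit 0) (XT.lf (nat_lit 0) (nat_lit 8758509209) (nat_lit 76) (nat_lit 33301706145) (nat_lit 76) (nat_lit 19189910347) (nat_lit 17) (nat_lit 4) (nat_lit 18) (nat_lit 5) (nat_lit 18) (nat_lit 4) (nat_lit 488) (nat_lit 387) (nat_lit 325)) (XT.lf (nat_lit 0) (nat_lit 40132920312) (nat_lit 76) (nat_lit 18928185916) (nat_lit 76) (nat_lit 4782094055) (nat_lit 17) (nat_lit 4) (nat_lit 18) (nat_lit 5) (nat_lit 18) (nat_lit 4) (nat_lit 489) (nat_lit 387) (nat_lit 324)))) (XT.nd (nat_lit 78) (nat_lit 0) (nat_lit 0) (XT.lf (nat_lit 0) (nat_lit 6406824806) (nat_lit 76) (nat_lit 3733854791) (nat_lit 152) (nat_lit 56422372697) (nat_lit 15) (nat_lit 5) (nat_lit 16) (nat_lit 5) (nat_lit 17) (nat_lit 4) (nat_lit 490) (nat_lit 387) (nat_lit 323)) (XT.nd (nat_lit 78) (nat_lit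 0) (nat_lit 0) (XT.lf (nat_lit 0) (nat_lit 26011744185) (nat_lit 152) (nat_lit 31180940287) (nat_lit 0) (nat_lit 12215761353) (nat_lit 15) (nat_lit 5) (nat_lit 17) (nat_lit 4) (nat_lit 15) (nat_lit 4) (nat_lit 491) (nat_lit 387) (nat_lit 322)) (XT.lf (nat_lit 0) (nat_lit 42653261032) (nat_lit 152) (nat_lit 915027055) (nat_lit 0) (nat_lit 28828514872) (nat_lit 15) (nat_lit 5) (nat_lit 17) (nat_lit 4) (nat_lit 15) (nat_lit 4) (nat_lit 492) (nat_lit 387) (nat_lit 321))))) (XT.nd (nat_lit 234) (nat_lit 76) (nat_lit 0) (XT.nd (nat_lit 78) (nat_lit 152) (nat_lit 0) (XT.lf (nat_lit 0) (nat_lit 31361440667) (nat_lit 76) (nat_lit 29008985388) (nat_lit 76) (nat_lit 15156845581) (nat_lit 14) (nat_lit 4) (nat_lit 15) (nat_lit 5) (nat_lit 15) (nat_lit 4) (nat_lit 493) (nat_lit 387) (nat_lit 320)) (XT.nd (nat_lit 78) (nat_lit 76) (nat_lit 0) (XT.lf (nat_lit 0) (nat_lit 108827330) (nat_lit 152) (nat_lit 13657309513)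 (nat_lit 76) (nat_lit 65049499348) (nat_lit 13) (nat_lit 5) (nat_lit 15) (nat_lit 5) (nat_lit 14) (nat_lit 4) (nat_lit 494) (nat_lit 387) (nat_lit 319)) (XT.lf (nat_lit 0) (nat_lit 15975065454) (nat_lit 152) (nat_lit 63807396216) (nat_lit 0) (nat_lit 2476933572) (nat_lit 12) (nat_lit 5) (nat_lit 14) (nat_lit 4) (nat_lit 12) (nat_lit 4) (nat_lit 495) (nat_lit 387) (nat_lit 318)))) (XT.nd (nat_lit 156) (nat_lit 76) (nat_lit 0) (XT.nd (nat_lit 78) (nat_lit 0) (nat_lit 0) (XT.lf (nat_lit 0) (nat_lit 32862557896) (nat_lit 152) (nat_lit 33664495208) (nat_lit 0) (nat_lit 19341451585) (nat_lit 12) (nat_lit 5) (nat_lit 14) (nat_lit 4) (nat_lit 12) (nat_lit 4) (nat_lit 496) (nat_lit 387) (nat_lit 317)) (XT.lf (nat_lit 0) (nat_lit 50543963557) (nat_lit 152) (nat_lit 2114643740) (nat_lit 0) (nat_lit 37000976838) (nat_lit 12) (nat_lit 5) (nat_lit 14) (nat_lit 4) (nat_lit 12) (nat_lit 4) (nat_lit 497) (nat_lit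 387) (nat_lit 316))) (XT.nd (nat_lit 56706) (nat_lit 0) (nat_lit 14060) (XT.lf (nat_lit 0) (nat_lit 31532591313) (nat_lit 76) (nat_lit 37831900265) (nat_lit 76) (nat_lit 24268075062) (nat_lit 11) (nat_lit 4) (nat_lit 12) (nat_lit 5) (nat_lit 12) (nat_lit 4) (nat_lit 498) (nat_lit 387) (nat_lit 315)) (XT.lf (nat_lit 0) (nat_lit 1951764143) (nat_lit 532) (nat_lit 171122363) (nat_lit 0) (nat_lit 1951764143) (nat_lit 196) (nat_lit 5) (nat_lit 203) (nat_lit 4) (nat_lit 196) (nat_lit 4) (nat_lit 424) (nat_lit 388) (nat_lit 388))))))) (XT.nd (nat_lit 1014) (nat_lit 3192) (nat_lit 0) (XT.nd (nat_lit 468) (nat_lit 2660) (nat_lit 0) (XT.nd (nat_lit 234) (nat_lit 1520) (nat_lit 0) (XT.nd (nat_lit 78) (nat_lit 1216) (nat_lit 0) (XT.lf (nat_lit 0) (nat_lit 2254585280) (nat_lit 456) (nat_lit 5644019550) (nat_lit 0) (nat_lit 400524056) (nat_lit 184) (nat_lit 5) (nat_lit 190) (nat_lit 4) (nat_lit 184) (nat_lit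 4) (nat_lit 425) (nat_lit 388) (nat_lit 387)) (XT.nd (nat_lit 78) (nat_lit 760) (nat_lit 0) (XT.lf (nat_lit 0) (nat_lit 442206087) (nat_lit 456) (nat_lit 2722155460) (nat_lit 76) (nat_lit 5293252298) (nat_lit 178) (nat_lit 5) (nat_lit 184) (nat_lit 5) (nat_lit 179) (nat_lit 4) (nat_lit 426) (nat_lit 388) (nat_lit 386)) (XT.lf (nat_lit 0) (nat_lit 282995400) (nat_lit 380) (nat_lit 6744704716) (nat_lit 380) (nat_lit 1597595977) (nat_lit 168) (nat_lit 4) (nat_lit 173) (nat_lit 5) (nat_lit 173) (nat_lit 4) (nat_lit 427) (nat_lit 388) (nat_lit 385)))) (XT.nd (nat_lit 78) (nat_lit 1140) (nat_lit 0) (XT.lf (nat_lit 0) (nat_lit 3418910818) (nat_lit 304) (nat_lit 1566792916) (nat_lit 380) (nat_lit 3815875700) (nat_lit 163) (nat_lit 5) (nat_lit 167) (nat_lit 5) (nat_lit 168) (nat_lit 4) (nat_lit 428) (nat_lit 388) (nat_lit 384)) (XT.nd (nat_lit 78) (nat_lit 684) (nat_lit 0) (XT.lf (nat_lit 0) (nat_lit 2753024389)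 (nat_lit 456) (nat_lit 2356002353) (nat_lit 76) (nat_lit 3878480706) (nat_lit 157) (nat_lit 5) (nat_lit 163) (nat_lit 5) (nat_lit 158) (nat_lit 4) (nat_lit 429) (nat_lit 388) (nat_lit 383)) (XT.lf (nat_lit 0) (nat_lit 310495561) (nat_lit 380) (nat_lit 8412369844) (nat_lit 76) (nat_lit 460813394) (nat_lit 148) (nat_lit 5) (nat_lit 153) (nat_lit 5) (nat_lit 149) (nat_lit 4) (nat_lit 430) (nat_lit 388) (nat_lit 382))))) (XT.nd (nat_lit 234) (nat_lit 1368) (nat_lit 0) (XT.nd (nat_lit 78) (nat_lit 988) (nat_lit 0) (XT.lf (nat_lit 0) (nat_lit 3978913793) (nat_lit 304) (nat_lit 3059369300) (nat_lit 380) (nat_lit 2350027213) (nat_lit 144) (nat_lit 5) (nat_lit 148) (nat_lit 5) (nat_lit 149) (nat_lit 4) (nat_lit 431) (nat_lit 388) (nat_lit 381)) (XT.nd (nat_lit 78) (nat_lit 608) (nat_lit 0) (XT.lf (nat_lit 0) (nat_lit 4353831848) (nat_lit 380) (nat_lit 2340977920) (nat_lit 76) (nat_lit 2908831331) (nat_lit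 139) (nat_lit 5) (nat_lit 144) (nat_lit 5) (nat_lit 140) (nat_lit 4) (nat_lit 432) (nat_lit 388) (nat_lit 380)) (XT.lf (nat_lit 0) (nat_lit 810603889) (nat_lit 304) (nat_lit 635416625) (nat_lit 380) (nat_lit 8383805327) (nat_lit 131) (nat_lit 5) (nat_lit 135) (nat_lit 5) (nat_lit 136) (nat_lit 5) (nat_lit 433) (nat_lit 388) (nat_lit 379)))) (XT.nd (nat_lit 156) (nat_lit 760) (nat_lit 0) (XT.nd (nat_lit 78) (nat_lit 380) (nat_lit 0) (XT.lf (nat_lit 0) (nat_lit 4036466134) (nat_lit 228) (nat_lit 4339664163) (nat_lit 304) (nat_lit 1689419539) (nat_lit 128) (nat_lit 5) (nat_lit 131) (nat_lit 5) (nat_lit 132) (nat_lit 4) (nat_lit 434) (nat_lit 388) (nat_lit 378)) (XT.lf (nat_lit 0) (nat_lit 5196455234) (nat_lit 380) (nat_lit 2993844365) (nat_lit 76) (nat_lit 2122420489) (nat_lit 123) (nat_lit 5) (nat_lit 128) (nat_lit 5) (nat_lit 124) (nat_lit 4) (nat_lit 435) (nat_lit 388) (nat_lit 377))) (XT.nd (nat_lit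 78) (nat_lit 228) (nat_lit 0) (XT.lf (nat_lit 0) (nat_lit 86477096) (nat_lit 228) (nat_lit 1683700030) (nat_lit 304) (nat_lit 8801499192) (nat_lit 116) (nat_lit 5) (nat_lit 119) (nat_lit 5) (nat_lit 120) (nat_lit 5) (nat_lit 436) (nat_lit 388) (nat_lit 376)) (XT.lf (nat_lit 0) (nat_lit 3244928494) (nat_lit 228) (nat_lit 5678220188) (nat_lit 304) (nat_lit 1918096846) (nat_lit 113) (nat_lit 5) (nat_lit 116) (nat_lit 5) (nat_lit 117) (nat_lit 4) (nat_lit 437) (nat_lit 388) (nat_lit 375)))))) (XT.nd (nat_lit 468) (nat_lit 1520) (nat_lit 0) (XT.nd (nat_lit 234) (nat_lit 760) (nat_lit 0) (XT.nd (nat_lit 78) (nat_lit 608) (nat_lit 0) (XT.lf (nat_lit 0) (nat_lit 5187217570) (nat_lit 304) (nat_lit 4682117398) (nat_lit 76) (nat_lit 1254010150) (nat_lit 109) (nat_lit 5) (nat_lit 113) (nat_lit 5) (nat_lit 110) (nat_lit 4) (nat_lit 438) (nat_lit 388) (nat_lit 374)) (XT.nd (nat_lit 78) (nat_lit 380) (nat_lit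 0) (XT.lf (nat_lit 0) (nat_lit 1182463186) (nat_lit 228) (nat_lit 1753746627) (nat_lit 76) (nat_lit 8481953395) (nat_lit 106) (nat_lit 5) (nat_lit 109) (nat_lit 5) (nat_lit 107) (nat_lit 5) (nat_lit 439) (nat_lit 388) (nat_lit 373)) (XT.lf (nat_lit 0) (nat_lit 1194447372) (nat_lit 152) (nat_lit 7359618728) (nat_lit 228) (nat_lit 3171318087) (nat_lit 101) (nat_lit 5) (nat_lit 103) (nat_lit 5) (nat_lit 104) (nat_lit 4) (nat_lit 440) (nat_lit 388) (nat_lit 372)))) (XT.nd (nat_lit 78) (nat_lit 456) (nat_lit 0) (XT.lf (nat_lit 0) (nat_lit 4180697274) (nat_lit 304) (nat_lit 7844520208) (nat_lit 76) (nat_lit 21025114) (nat_lit 97) (nat_lit 5) (nat_lit 101) (nat_lit 5) (nat_lit 98) (nat_lit 4) (nat_lit 441) (nat_lit 388) (nat_lit 371)) (XT.nd (nat_lit 78) (nat_lit 304) (nat_lit 0) (XT.lf (nat_lit 0) (nat_lit 7192857674) (nat_lit 152) (nat_lit 4691923790) (nat_lit 228) (nat_lit 495937056) (nat_lit 95)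 (nat_lit 5) (nat_lit 97) (nat_lit 5) (nat_lit 98) (nat_lit 4) (nat_lit 442) (nat_lit 388) (nat_lit 370)) (XT.lf (nat_lit 0) (nat_lit 7111389710) (nat_lit 304) (nat_lit 2560480050) (nat_lit 76) (nat_lit 3057660113) (nat_lit 91) (nat_lit 5) (nat_lit 95) (nat_lit 5) (nat_lit 92) (nat_lit 4) (nat_lit 443) (nat_lit 388) (nat_lit 369))))) (XT.nd (nat_lit 234) (nat_lit 760) (nat_lit 0) (XT.nd (nat_lit 78) (nat_lit 380) (nat_lit 0) (XT.lf (nat_lit 0) (nat_lit 59454214) (nat_lit 152) (nat_lit 1929605568) (nat_lit 228) (nat_lit 11104972631) (nat_lit 86) (nat_lit 5) (nat_lit 88) (nat_lit 5) (nat_lit 89) (nat_lit 5) (nat_lit 444) (nat_lit 388) (nat_lit 368)) (XT.nd (nat_lit 78) (nat_lit 228) (nat_lit 0) (XT.lf (nat_lit 0) (nat_lit 2668887455) (nat_lit 152) (nat_lit 7269616219) (nat_lit 228) (nat_lit 3534260235) (nat_lit 84) (nat_lit 5) (nat_lit 86) (nat_lit 5) (nat_lit 87) (nat_lit 4) (nat_lit 445) (nat_lit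 388) (nat_lit 367)) (XT.lf (nat_lit 0) (nat_lit 4352806845) (nat_lit 228) (nat_lit 8613359481) (nat_lit 76) (nat_lit 902287060) (nat_lit 81) (nat_lit 5) (nat_lit 84) (nat_lit 5) (nat_lit 82) (nat_lit 4) (nat_lit 446) (nat_lit 388) (nat_lit 366)))) (XT.nd (nat_lit 156) (nat_lit 380) (nat_lit 0) (XT.nd (nat_lit 78) (nat_lit 228) (nat_lit 0) (XT.lf (nat_lit 0) (nat_lit 7770445224) (nat_lit 152) (nat_lit 4865809343) (nat_lit 228) (nat_lit 1644382435) (nat_lit 79) (nat_lit 5) (nat_lit 81) (nat_lit 5) (nat_lit 82) (nat_lit 4) (nat_lit 447) (nat_lit 388) (nat_lit 365)) (XT.lf (nat_lit 0) (nat_lit 6533422446) (nat_lit 228) (nat_lit 4496563712) (nat_lit 76) (nat_lit 3680281555) (nat_lit 76) (nat_lit 5) (nat_lit 79) (nat_lit 5) (nat_lit 77) (nat_lit 4) (nat_lit 448) (nat_lit 388) (nat_lit 364))) (XT.nd (nat_lit 78) (nat_lit 228) (nat_lit 0) (XT.lf (nat_lit 0) (nat_lit 12608258454) (nat_lit 152) (nat_lit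 2538409708) (nat_lit 228) (nat_lit 12418119) (nat_lit 74) (nat_lit 5) (nat_lit 76) (nat_lit 5) (nat_lit 77) (nat_lit 4) (nat_lit 449) (nat_lit 388) (nat_lit 363)) (XT.lf (nat_lit 0) (nat_lit 8472044658) (nat_lit 228) (nat_lit 764318411) (nat_lit 76) (nat_lit 6389159116) (nat_lit 71) (nat_lit 5) (nat_lit 74) (nat_lit 5) (nat_lit 72) (nat_lit 4) (nat_lit 450) (nat_lit 388) (nat_lit 362))))))))
noncomputable def xc28 : XT := (XT.nd (nat_lit 1950) (nat_lit 1444) (nat_lit 0) (XT.nd (nat_lit 936) (nat_lit 1140) (nat_lit 0) (XT.nd (nat_lit 468) (nat_lit 912) (nat_lit 0) (XT.nd (nat_lit 234) (nat_lit 380) (nat_lit 0) (XT.nd (nat_lit 78) (nat_lit 304) (nat_lit 0) (XT.lf (nat_lit 0) (nat_lit 971563724) (nat_lit 152) (nat_lit 325048665) (nat_lit 228) (nat_lit 14816625699) (nat_lit 66) (nat_lit 5) (nat_lit 68) (nat_lit 5) (nat_lit 69) (nat_lit 5) (nat_lit 451) (nat_lit 388) (nat_lit 361)) (XT.nd (nat_lit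 78) (nat_lit 228) (nat_lit 0) (XT.lf (nat_lit 0) (nat_lit 2513210571) (nat_lit 76) (nat_lit 7628173581) (nat_lit 152) (nat_lit 6478236552) (nat_lit 65) (nat_lit 5) (nat_lit 66) (nat_lit 5) (nat_lit 67) (nat_lit 4) (nat_lit 452) (nat_lit 388) (nat_lit 360)) (XT.lf (nat_lit 0) (nat_lit 2280475173) (nat_lit 228) (nat_lit 13204161425) (nat_lit 76) (nat_lit 1664602757) (nat_lit 62) (nat_lit 5) (nat_lit 65) (nat_lit 5) (nat_lit 63) (nat_lit 4) (nat_lit 453) (nat_lit 388) (nat_lit 359)))) (XT.nd (nat_lit 78) (nat_lit 304) (nat_lit 0) (XT.lf (nat_lit 0) (nat_lit 5145532266) (nat_lit 76) (nat_lit 6308448177) (nat_lit 152) (nat_lit 6246117392) (nat_lit 61) (nat_lit 5) (nat_lit 62) (nat_lit 5) (nat_lit 63) (nat_lit 4) (nat_lit 454) (nat_lit 388) (nat_lit 358)) (XT.nd (nat_lit 78) (nat_lit 76) (nat_lit 0) (XT.lf (nat_lit 0) (nat_lit 2822546632) (nat_lit 228) (nat_lit 12100902960) (nat_lit 76) (nat_lit 3352157441)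 (nat_lit 58) (nat_lit 5) (nat_lit 61) (nat_lit 5) (nat_lit 59) (nat_lit 4) (nat_lit 455) (nat_lit 388) (nat_lit 357)) (XT.lf (nat_lit 0) (nat_lit 6940926765) (nat_lit 76) (nat_lit 5380051217) (nat_lit 152) (nat_lit 6553900298) (nat_lit 57) (nat_lit 5) (nat_lit 58) (nat_lit 5) (nat_lit 59) (nat_lit 4) (nat_lit 456) (nat_lit 388) (nat_lit 356))))) (XT.nd (nat_lit 234) (nat_lit 380) (nat_lit 0) (XT.nd (nat_lit 78) (nat_lit 304) (nat_lit 0) (XT.lf (nat_lit 0) (nat_lit 2825990496) (nat_lit 228) (nat_lit 12029468958) (nat_lit 76) (nat_lit 4645149126) (nat_lit 54) (nat_lit 5) (nat_lit 57) (nat_lit 5) (nat_lit 55) (nat_lit 4) (nat_lit 457) (nat_lit 388) (nat_lit 355)) (XT.nd (nat_lit 78) (nat_lit 228) (nat_lit 0) (XT.lf (nat_lit 0) (nat_lit 7687364043) (nat_lit 76) (nat_lit 4955457621) (nat_lit 152) (nat_lit 7509758715) (nat_lit 53) (nat_lit 5) (nat_lit 54) (nat_lit 5) (nat_lit 55) (nat_lit 4) (nat_lit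 458) (nat_lit 388) (nat_lit 354)) (XT.lf (nat_lit 0) (nat_lit 2177000910) (nat_lit 228) (nat_lit 13230042203) (nat_lit 76) (nat_lit 5426357250) (nat_lit 50) (nat_lit 5) (nat_lit 53) (nat_lit 5) (nat_lit 51) (nat_lit 4) (nat_lit 459) (nat_lit 388) (nat_lit 353)))) (XT.nd (nat_lit 78) (nat_lit 304) (nat_lit 0) (XT.lf (nat_lit 0) (nat_lit 7130669915) (nat_lit 76) (nat_lit 5167914952) (nat_lit 152) (nat_lit 9244277508) (nat_lit 49) (nat_lit 5) (nat_lit 50) (nat_lit 5) (nat_lit 51) (nat_lit 4) (nat_lit 460) (nat_lit 388) (nat_lit 352)) (XT.nd (nat_lit 78) (nat_lit 76) (nat_lit 0) (XT.lf (nat_lit 0) (nat_lit 738175126) (nat_lit 228) (nat_lit 15989561405) (nat_lit 76) (nat_lit 5556516565) (nat_lit 46) (nat_lit 5) (nat_lit 49) (nat_lit 5) (nat_lit 47) (nat_lit 4) (nat_lit 461) (nat_lit 388) (nat_lit 351)) (XT.lf (nat_lit 0) (nat_lit 4966758508) (nat_lit 76) (nat_lit 6175458276) (nat_lit 152) (nat_lit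 11914346143) (nat_lit 45) (nat_lit 5) (nat_lit 46) (nat_lit 5) (nat_lit 47) (nat_lit 4) (nat_lit 462) (nat_lit 388) (nat_lit 350)))))) (XT.nd (nat_lit 468) (nat_lit 532) (nat_lit 0) (XT.nd (nat_lit 234) (nat_lit 380) (nat_lit 0) (XT.nd (nat_lit 78) (nat_lit 152) (nat_lit 0) (XT.lf (nat_lit 0) (nat_lit 3197741832) (nat_lit 76) (nat_lit 18977908689) (nat_lit 76) (nat_lit 1688566760) (nat_lit 44) (nat_lit 4) (nat_lit 45) (nat_lit 5) (nat_lit 45) (nat_lit 4) (nat_lit 463) (nat_lit 388) (nat_lit 349)) (XT.nd (nat_lit 78) (nat_lit 0) (nat_lit 0) (XT.lf (nat_lit 0) (nat_lit 832520772) (nat_lit 76) (nat_lit 8165598120) (nat_lit 152) (nat_lit 15707744857) (nat_lit 42) (nat_lit 5) (nat_lit 43) (nat_lit 5) (nat_lit 44) (nat_lit 4) (nat_lit 464) (nat_lit 388) (nat_lit 348)) (XT.lf (nat_lit 0) (nat_lit 20300613276) (nat_lit 152) (nat_lit 2043703806) (nat_lit 0) (nat_lit 3241286173) (nat_lit 42) (nat_lit 5)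 (nat_lit 44) (nat_lit 4) (nat_lit 42) (nat_lit 4) (nat_lit 465) (nat_lit 388) (nat_lit 347)))) (XT.nd (nat_lit 78) (nat_lit 228) (nat_lit 0) (XT.lf (nat_lit 0) (nat_lit 5710775569) (nat_lit 152) (nat_lit 5593541310) (nat_lit 76) (nat_lit 15198515849) (nat_lit 40) (nat_lit 5) (nat_lit 42) (nat_lit 5) (nat_lit 41) (nat_lit 4) (nat_lit 466) (nat_lit 388) (nat_lit 346)) (XT.nd (nat_lit 78) (nat_lit 152) (nat_lit 0) (XT.lf (nat_lit 0) (nat_lit 17222227911) (nat_lit 152) (nat_lit 9820997649) (nat_lit 0) (nat_lit 418875978) (nat_lit 39) (nat_lit 5) (nat_lit 41) (nat_lit 4) (nat_lit 39) (nat_lit 4) (nat_lit 467) (nat_lit 388) (nat_lit 345)) (XT.lf (nat_lit 0) (nat_lit 1010166823) (nat_lit 152) (nat_lit 14864628930) (nat_lit 76) (nat_lit 12588700086) (nat_lit 37) (nat_lit 5) (nat_lit 39) (nat_lit 5) (nat_lit 38) (nat_lit 4) (nat_lit 468) (nat_lit 388) (nat_lit 344))))) (XT.nd (nat_lit 234) (nat_lit 304)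 (nat_lit 0) (XT.nd (nat_lit 78) (nat_lit 152) (nat_lit 0) (XT.lf (nat_lit 0) (nat_lit 8724573243) (nat_lit 76) (nat_lit 3958395799) (nat_lit 152) (nat_lit 16826791414) (nat_lit 36) (nat_lit 5) (nat_lit 37) (nat_lit 5) (nat_lit 38) (nat_lit 4) (nat_lit 469) (nat_lit 388) (nat_lit 343)) (XT.nd (nat_lit 78) (nat_lit 76) (nat_lit 0) (XT.lf (nat_lit 0) (nat_lit 2953732442) (nat_lit 76) (nat_lit 22137342481) (nat_lit 76) (nat_lit 5512716552) (nat_lit 35) (nat_lit 4) (nat_lit 36) (nat_lit 5) (nat_lit 36) (nat_lit 4) (nat_lit 470) (nat_lit 388) (nat_lit 342)) (XT.lf (nat_lit 0) (nat_lit 6387621039) (nat_lit 152) (nat_lit 3751616331) (nat_lit 76) (nat_lit 21607109298) (nat_lit 34) (nat_lit 5) (nat_lit 36) (nat_lit 5) (nat_lit 35) (nat_lit 4) (nat_lit 471) (nat_lit 388) (nat_lit 341)))) (XT.nd (nat_lit 156) (nat_lit 152) (nat_lit 0) (XT.nd (nat_lit 78) (nat_lit 76) (nat_lit 0) (XT.lf (nat_lit 0) (nat_lit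 18896027727) (nat_lit 152) (nat_lit 11466856241) (nat_lit 0) (nat_lit 2577699011) (nat_lit 33) (nat_lit 5) (nat_lit 35) (nat_lit 4) (nat_lit 33) (nat_lit 4) (nat_lit 472) (nat_lit 388) (nat_lit 340)) (XT.lf (nat_lit 0) (nat_lit 13809984845) (nat_lit 76) (nat_lit 18390211230) (nat_lit 76) (nat_lit 1989227372) (nat_lit 32) (nat_lit 4) (nat_lit 33) (nat_lit 5) (nat_lit 33) (nat_lit 4) (nat_lit 473) (nat_lit 388) (nat_lit 339))) (XT.nd (nat_lit 78) (nat_lit 0) (nat_lit 0) (XT.lf (nat_lit 0) (nat_lit 4886381601) (nat_lit 76) (nat_lit 5638783246) (nat_lit 152) (nat_lit 24970532228) (nat_lit 30) (nat_lit 5) (nat_lit 31) (nat_lit 5) (nat_lit 32) (nat_lit 4) (nat_lit 474) (nat_lit 388) (nat_lit 338)) (XT.lf (nat_lit 0) (nat_lit 23811276291) (nat_lit 152) (nat_lit 5311027747) (nat_lit 0) (nat_lit 7738777563) (nat_lit 30) (nat_lit 5) (nat_lit 32) (nat_lit 4) (nat_lit 30) (nat_lit 4) (nat_lit 475) (nat_lit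 388) (nat_lit 337))))))) (XT.nd (nat_lit 1014) (nat_lit 532) (nat_lit 0) (XT.nd (nat_lit 468) (nat_lit 456) (nat_lit 0) (XT.nd (nat_lit 234) (nat_lit 228) (nat_lit 0) (XT.nd (nat_lit 78) (nat_lit 152) (nat_lit 0) (XT.lf (nat_lit 0) (nat_lit 21427924878) (nat_lit 76) (nat_lit 16501795767) (nat_lit 76) (nat_lit 359976051) (nat_lit 29) (nat_lit 4) (nat_lit 30) (nat_lit 5) (nat_lit 30) (nat_lit 4) (nat_lit 476) (nat_lit 388) (nat_lit 336)) (XT.nd (nat_lit 78) (nat_lit 0) (nat_lit 0) (XT.lf (nat_lit 0) (nat_lit 9708994446) (nat_lit 76) (nat_lit 3057918929) (nat_lit 152) (nat_lit 27017426043) (nat_lit 27) (nat_lit 5) (nat_lit 28) (nat_lit 5) (nat_lit 29) (nat_lit 4) (nat_lit 477) (nat_lit 388) (nat_lit 335)) (XT.lf (nat_lit 0) (nat_lit 26733269357) (nat_lit 152) (nat_lit 3678165077) (nat_lit 0) (nat_lit 10936457816) (nat_lit 27) (nat_lit 5) (nat_lit 29) (nat_lit 4) (nat_lit 27) (nat_lit 4) (nat_lit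 478) (nat_lit 388) (nat_lit 334)))) (XT.nd (nat_lit 78) (nat_lit 152) (nat_lit 0) (XT.lf (nat_lit 0) (nat_lit 24312268520) (nat_lit 76) (nat_lit 17263485584) (nat_lit 76) (nat_lit 1408536105) (nat_lit 26) (nat_lit 4) (nat_lit 27) (nat_lit 5) (nat_lit 27) (nat_lit 4) (nat_lit 479) (nat_lit 388) (nat_lit 333)) (XT.nd (nat_lit 78) (nat_lit 0) (nat_lit 0) (XT.lf (nat_lit 0) (nat_lit 8965559794) (nat_lit 76) (nat_lit 3288567663) (nat_lit 152) (nat_lit 32443608611) (nat_lit 24) (nat_lit 5) (nat_lit 25) (nat_lit 5) (nat_lit 26) (nat_lit 4) (nat_lit 480) (nat_lit 388) (nat_lit 332)) (XT.lf (nat_lit 0) (nat_lit 26791294640) (nat_lit 152) (nat_lit 8405341640) (nat_lit 0) (nat_lit 11293186126) (nat_lit 24) (nat_lit 5) (nat_lit 26) (nat_lit 4) (nat_lit 24) (nat_lit 4) (nat_lit 481) (nat_lit 388) (nat_lit 331))))) (XT.nd (nat_lit 234) (nat_lit 228) (nat_lit 0) (XT.nd (nat_lit 78) (nat_lit 152) (nat_lit 0)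 (XT.lf (nat_lit 0) (nat_lit 20498543621) (nat_lit 76) (nat_lit 21707656030) (nat_lit 76) (nat_lit 6160788548) (nat_lit 23) (nat_lit 4) (nat_lit 24) (nat_lit 5) (nat_lit 24) (nat_lit 4) (nat_lit 482) (nat_lit 388) (nat_lit 330)) (XT.nd (nat_lit 78) (nat_lit 0) (nat_lit 0) (XT.lf (nat_lit 0) (nat_lit 465487337) (nat_lit 76) (nat_lit 7445247604) (nat_lit 152) (nat_lit 42424534496) (nat_lit 21) (nat_lit 5) (nat_lit 22) (nat_lit 5) (nat_lit 23) (nat_lit 4) (nat_lit 483) (nat_lit 388) (nat_lit 329)) (XT.lf (nat_lit 0) (nat_lit 22845481841) (nat_lit 152) (nat_lit 21882628970) (nat_lit 0) (nat_lit 7663413475) (nat_lit 21) (nat_lit 5) (nat_lit 23) (nat_lit 4) (nat_lit 21) (nat_lit 4) (nat_lit 484) (nat_lit 388) (nat_lit 328)))) (XT.nd (nat_lit 156) (nat_lit 152) (nat_lit 0) (XT.nd (nat_lit 78) (nat_lit 0) (nat_lit 0) (XT.lf (nat_lit 0) (nat_lit 7430544546) (nat_lit 76) (nat_lit 31170395398) (nat_lit 76)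 (nat_lit 15947433994) (nat_lit 20) (nat_lit 4) (nat_lit 21) (nat_lit 5) (nat_lit 21) (nat_lit 4) (nat_lit 485) (nat_lit 388) (nat_lit 327)) (XT.lf (nat_lit 0) (nat_lit 38527576489) (nat_lit 76) (nat_lit 16771377236) (nat_lit 76) (nat_lit 1509470081) (nat_lit 20) (nat_lit 4) (nat_lit 21) (nat_lit 5) (nat_lit 21) (nat_lit 4) (nat_lit 486) (nat_lit 388) (nat_lit 326))) (XT.nd (nat_lit 78) (nat_lit 0) (nat_lit 0) (XT.lf (nat_lit 0) (nat_lit 11966466706) (nat_lit 76) (nat_lit 1464796866) (nat_lit 152) (nat_lit 45744860045) (nat_lit 18) (nat_lit 5) (nat_lit 19) (nat_lit 5) (nat_lit 20) (nat_lit 4) (nat_lit 487) (nat_lit 388) (nat_lit 325)) (XT.lf (nat_lit 0) (nat_lit 29352139604) (nat_lit 152) (nat_lit 17837244725) (nat_lit 0) (nat_lit 14464447088) (nat_lit 18) (nat_lit 5) (nat_lit 20) (nat_lit 4) (nat_lit 18) (nat_lit 4) (nat_lit 488) (nat_lit 388) (nat_lit 324)))))) (XT.nd (nat_lit 468) (nat_lit 228)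 (nat_lit 0) (XT.nd (nat_lit 234) (nat_lit 76) (nat_lit 0) (XT.nd (nat_lit 78) (nat_lit 152) (nat_lit 0) (XT.lf (nat_lit 0) (nat_lit 13119941730) (nat_lit 76) (nat_lit 33026755104) (nat_lit 76) (nat_lit 18106399671) (nat_lit 17) (nat_lit 4) (nat_lit 18) (nat_lit 5) (nat_lit 18) (nat_lit 4) (nat_lit 489) (nat_lit 388) (nat_lit 323)) (XT.nd (nat_lit 78) (nat_lit 152) (nat_lit 0) (XT.lf (nat_lit 0) (nat_lit 45876239718) (nat_lit 76) (nat_lit 18026941546) (nat_lit 76) (nat_lit 3075478573) (nat_lit 17) (nat_lit 4) (nat_lit 18) (nat_lit 5) (nat_lit 18) (nat_lit 4) (nat_lit 490) (nat_lit 388) (nat_lit 322)) (XT.lf (nat_lit 0) (nat_lit 10393636274) (nat_lit 76) (nat_lit 2106228491) (nat_lit 152) (nat_lit 57335747990) (nat_lit 15) (nat_lit 5) (nat_lit 16) (nat_lit 5) (nat_lit 17) (nat_lit 4) (nat_lit 491) (nat_lit 388) (nat_lit 321)))) (XT.nd (nat_lit 78) (nat_lit 76) (nat_lit 0) (XT.lf (nat_lit 0) (nat_lit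 29092894759) (nat_lit 152) (nat_lit 29211775838) (nat_lit 0) (nat_lit 14520754316) (nat_lit 15) (nat_lit 5) (nat_lit 17) (nat_lit 4) (nat_lit 15) (nat_lit 4) (nat_lit 492) (nat_lit 388) (nat_lit 320)) (XT.nd (nat_lit 78) (nat_lit 0) (nat_lit 0) (XT.lf (nat_lit 0) (nat_lit 2447176207) (nat_lit 76) (nat_lit 44058046265) (nat_lit 76) (nat_lit 29459816634) (nat_lit 14) (nat_lit 4) (nat_lit 15) (nat_lit 5) (nat_lit 15) (nat_lit 4) (nat_lit 493) (nat_lit 388) (nat_lit 319)) (XT.lf (nat_lit 0) (nat_lit 36193394596) (nat_lit 76) (nat_lit 28841950652) (nat_lit 76) (nat_lit 14218874177) (nat_lit 14) (nat_lit 4) (nat_lit 15) (nat_lit 5) (nat_lit 15) (nat_lit 4) (nat_lit 494) (nat_lit 388) (nat_lit 318))))) (XT.nd (nat_lit 234) (nat_lit 76) (nat_lit 0) (XT.nd (nat_lit 78) (nat_lit 76) (nat_lit 0) (XT.lf (nat_lit 0) (nat_lit 1697813696) (nat_lit 152) (nat_lit 11200178332) (nat_lit 76) (nat_lit 69810897563)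 (nat_lit 13) (nat_lit 5) (nat_lit 15) (nat_lit 5) (nat_lit 14) (nat_lit 4) (nat_lit 495) (nat_lit 388) (nat_lit 317)) (XT.nd (nat_lit 78) (nat_lit 0) (nat_lit 0) (XT.lf (nat_lit 0) (nat_lit 18325814575) (nat_lit 152) (nat_lit 63916171432) (nat_lit 0) (nat_lit 4083798112) (nat_lit 12) (nat_lit 5) (nat_lit 14) (nat_lit 4) (nat_lit 12) (nat_lit 4) (nat_lit 496) (nat_lit 388) (nat_lit 316)) (XT.lf (nat_lit 0) (nat_lit 35983777075) (nat_lit 152) (nat_lit 32412867973) (nat_lit 0) (nat_lit 21720922128) (nat_lit 12) (nat_lit 5) (nat_lit 14) (nat_lit 4) (nat_lit 12) (nat_lit 4) (nat_lit 497) (nat_lit 388) (nat_lit 315)))) (XT.nd (nat_lit 56628) (nat_lit 0) (nat_lit 14060) (XT.nd (nat_lit 56550) (nat_lit 0) (nat_lit 15048) (XT.lf (nat_lit 0) (nat_lit 586159289) (nat_lit 76) (nat_lit 53898342952) (nat_lit 76) (nat_lit 39615641829) (nat_lit 11) (nat_lit 4) (nat_lit 12) (nat_lit 5) (nat_lit 12) (nat_lit 4)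 (nat_lit 498) (nat_lit 388) (nat_lit 314)) (XT.lf (nat_lit 0) (nat_lit 528315576) (nat_lit 532) (nat_lit 2879307706) (nat_lit 0) (nat_lit 528315576) (nat_lit 209) (nat_lit 5) (nat_lit 216) (nat_lit 4) (nat_lit 209) (nat_lit 4) (nat_lit 422) (nat_lit 389) (nat_lit 389))) (XT.nd (nat_lit 78) (nat_lit 532) (nat_lit 0) (XT.lf (nat_lit 0) (nat_lit 4826719754) (nat_lit 456) (nat_lit 2623423014) (nat_lit 456) (nat_lit 558100785) (nat_lit 203) (nat_lit 4) (nat_lit 209) (nat_lit 5) (nat_lit 209) (nat_lit 4) (nat_lit 423) (nat_lit 389) (nat_lit 388)) (XT.lf (nat_lit 0) (nat_lit 5773672144) (nat_lit 532) (nat_lit 520887066) (nat_lit 0) (nat_lit 1858821871) (nat_lit 196) (nat_lit 5) (nat_lit 203) (nat_lit 4) (nat_lit 196) (nat_lit 4) (nat_lit 424) (nat_lit 389) (nat_lit 387))))))))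
noncomputable def xc29 : XT := (XT.nd (nat_lit 1950) (nat_lit 3344) (nat_lit 0) (XT.nd (nat_lit 936) (nat_lit 3420) (nat_lit 0) (XT.nd (nat_lit 468) (nat_lit 2508) (nat_lit 0) (XT.nd (nat_lit 234) (nat_lit 1596) (nat_lit 0) (XT.nd (nat_lit 78) (nat_lit 836) (nat_lit 0) (XT.lf (nat_lit 0) (nat_lit 2271165229) (nat_lit 380) (nat_lit 1672066924) (nat_lit 456) (nat_lit 4363695379) (nat_lit 184) (nat_lit 5) (nat_lit 189) (nat_lit 5) (nat_lit 190) (nat_lit 4) (nat_lit 425) (nat_lit 389) (nat_lit 386)) (XT.nd (nat_lit 78) (nat_lit 380) (nat_lit 0) (XT.lf (nat_lit 0) (nat_lit 1939906756) (nat_lit 456) (nat_lit 3310275570) (nat_lit 76) (nat_lit 3219280753) (nat_lit 178) (nat_lit 5) (nat_lit 184) (nat_lit 5) (nat_lit 179) (nat_lit 4) (nat_lit 426) (nat_lit 389) (nat_lit 385)) (XT.lf (nat_lit 0) (nat_lit 8146545605) (nat_lit 380) (nat_lit 226084781) (nat_lit 456) (nat_lit 269121733) (nat_lit 173) (nat_lit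 5) (nat_lit 178) (nat_lit 5) (nat_lit 179) (nat_lit 4) (nat_lit 427) (nat_lit 389) (nat_lit 384)))) (XT.nd (nat_lit 78) (nat_lit 836) (nat_lit 0) (XT.lf (nat_lit 0) (nat_lit 2407856809) (nat_lit 304) (nat_lit 3740369959) (nat_lit 380) (nat_lit 2673648321) (nat_lit 163) (nat_lit 5) (nat_lit 167) (nat_lit 5) (nat_lit 168) (nat_lit 4) (nat_lit 428) (nat_lit 389) (nat_lit 383)) (XT.nd (nat_lit 78) (nat_lit 380) (nat_lit 0) (XT.lf (nat_lit 0) (nat_lit 3719420269) (nat_lit 456) (nat_lit 3598545011) (nat_lit 76) (nat_lit 1694134950) (nat_lit 157) (nat_lit 5) (nat_lit 163) (nat_lit 5) (nat_lit 158) (nat_lit 4) (nat_lit 429) (nat_lit 389) (nat_lit 382)) (XT.lf (nat_lit 0) (nat_lit 1090162924) (nat_lit 380) (nat_lit 717658809) (nat_lit 76) (nat_lit 7404509704) (nat_lit 152) (nat_lit 5) (nat_lit 157) (nat_lit 5) (nat_lit 153) (nat_lit 5) (nat_lit 430) (nat_lit 389) (nat_lit 381))))) (XT.nd (nat_lit 234)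 (nat_lit 1216) (nat_lit 0) (XT.nd (nat_lit 78) (nat_lit 684) (nat_lit 0) (XT.lf (nat_lit 0) (nat_lit 2255446714) (nat_lit 304) (nat_lit 5405462685) (nat_lit 380) (nat_lit 1760782606) (nat_lit 144) (nat_lit 5) (nat_lit 148) (nat_lit 5) (nat_lit 149) (nat_lit 4) (nat_lit 431) (nat_lit 389) (nat_lit 380)) (XT.nd (nat_lit 78) (nat_lit 304) (nat_lit 0) (XT.lf (nat_lit 0) (nat_lit 4776126080) (nat_lit 380) (nat_lit 4328359314) (nat_lit 76) (nat_lit 537047527) (nat_lit 139) (nat_lit 5) (nat_lit 144) (nat_lit 5) (nat_lit 140) (nat_lit 4) (nat_lit 432) (nat_lit 389) (nat_lit 379)) (XT.lf (nat_lit 0) (nat_lit 1682657709) (nat_lit 304) (nat_lit 1449991424) (nat_lit 76) (nat_lit 6739180841) (nat_lit 135) (nat_lit 5) (nat_lit 139) (nat_lit 5) (nat_lit 136) (nat_lit 5) (nat_lit 433) (nat_lit 389) (nat_lit 378)))) (XT.nd (nat_lit 78) (nat_lit 684) (nat_lit 0) (XT.lf (nat_lit 0) (nat_lit 1505829892) (nat_lit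 228) (nat_lit 6934590704) (nat_lit 304) (nat_lit 1672318298) (nat_lit 128) (nat_lit 5) (nat_lit 131) (nat_lit 5) (nat_lit 132) (nat_lit 4) (nat_lit 434) (nat_lit 389) (nat_lit 377)) (XT.nd (nat_lit 78) (nat_lit 304) (nat_lit 0) (XT.lf (nat_lit 0) (nat_lit 4536926211) (nat_lit 304) (nat_lit 521419213) (nat_lit 380) (nat_lit 5306218533) (nat_lit 123) (nat_lit 5) (nat_lit 127) (nat_lit 5) (nat_lit 128) (nat_lit 5) (nat_lit 435) (nat_lit 389) (nat_lit 376)) (XT.lf (nat_lit 0) (nat_lit 1443106536) (nat_lit 304) (nat_lit 3024774963) (nat_lit 76) (nat_lit 6159930585) (nat_lit 119) (nat_lit 5) (nat_lit 123) (nat_lit 5) (nat_lit 120) (nat_lit 5) (nat_lit 436) (nat_lit 389) (nat_lit 375)))))) (XT.nd (nat_lit 468) (nat_lit 1596) (nat_lit 0) (XT.nd (nat_lit 234) (nat_lit 836) (nat_lit 0) (XT.nd (nat_lit 78) (nat_lit 760) (nat_lit 0) (XT.lf (nat_lit 0) (nat_lit 8404091859) (nat_lit 304) (nat_lit 191125178)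 (nat_lit 76) (nat_lit 2307935664) (nat_lit 116) (nat_lit 5) (nat_lit 120) (nat_lit 5) (nat_lit 117) (nat_lit 4) (nat_lit 437) (nat_lit 389) (nat_lit 374)) (XT.nd (nat_lit 78) (nat_lit 228) (nat_lit 0) (XT.lf (nat_lit 0) (nat_lit 2716300386) (nat_lit 228) (nat_lit 1749441281) (nat_lit 304) (nat_lit 6724244549) (nat_lit 109) (nat_lit 5) (nat_lit 112) (nat_lit 5) (nat_lit 113) (nat_lit 5) (nat_lit 438) (nat_lit 389) (nat_lit 373)) (XT.lf (nat_lit 0) (nat_lit 253645323) (nat_lit 228) (nat_lit 5835056264) (nat_lit 76) (nat_lit 5401022496) (nat_lit 106) (nat_lit 5) (nat_lit 109) (nat_lit 5) (nat_lit 107) (nat_lit 5) (nat_lit 439) (nat_lit 389) (nat_lit 372)))) (XT.nd (nat_lit 78) (nat_lit 608) (nat_lit 0) (XT.lf (nat_lit 0) (nat_lit 7443922874) (nat_lit 304) (nat_lit 3202145033) (nat_lit 76) (nat_lit 1156326541) (nat_lit 103) (nat_lit 5) (nat_lit 107) (nat_lit 5) (nat_lit 104) (nat_lit 4) (nat_lit 440)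 (nat_lit 389) (nat_lit 371)) (XT.nd (nat_lit 78) (nat_lit 380) (nat_lit 0) (XT.lf (nat_lit 0) (nat_lit 2847462544) (nat_lit 228) (nat_lit 572401365) (nat_lit 76) (nat_lit 8708817604) (nat_lit 100) (nat_lit 5) (nat_lit 103) (nat_lit 5) (nat_lit 101) (nat_lit 5) (nat_lit 441) (nat_lit 389) (nat_lit 370)) (XT.lf (nat_lit 0) (nat_lit 2094968909) (nat_lit 152) (nat_lit 8274510679) (nat_lit 228) (nat_lit 2099148339) (nat_lit 95) (nat_lit 5) (nat_lit 97) (nat_lit 5) (nat_lit 98) (nat_lit 4) (nat_lit 442) (nat_lit 389) (nat_lit 369))))) (XT.nd (nat_lit 234) (nat_lit 912) (nat_lit 0) (XT.nd (nat_lit 78) (nat_lit 380) (nat_lit 0) (XT.lf (nat_lit 0) (nat_lit 4763059808) (nat_lit 228) (nat_lit 601704321) (nat_lit 304) (nat_lit 7458386279) (nat_lit 91) (nat_lit 5) (nat_lit 94) (nat_lit 5) (nat_lit 95) (nat_lit 5) (nat_lit 443) (nat_lit 389) (nat_lit 368)) (XT.nd (nat_lit 78) (nat_lit 152) (nat_lit 0) (XT.lf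 (nat_lit 0) (nat_lit 31262726) (nat_lit 228) (nat_lit 5784839294) (nat_lit 76) (nat_lit 7376692685) (nat_lit 88) (nat_lit 5) (nat_lit 91) (nat_lit 5) (nat_lit 89) (nat_lit 5) (nat_lit 444) (nat_lit 389) (nat_lit 367)) (XT.lf (nat_lit 0) (nat_lit 7769996952) (nat_lit 228) (nat_lit 3565371588) (nat_lit 76) (nat_lit 2242485853) (nat_lit 86) (nat_lit 5) (nat_lit 89) (nat_lit 5) (nat_lit 87) (nat_lit 4) (nat_lit 445) (nat_lit 389) (nat_lit 366)))) (XT.nd (nat_lit 156) (nat_lit 380) (nat_lit 0) (XT.nd (nat_lit 78) (nat_lit 304) (nat_lit 0) (XT.lf (nat_lit 0) (nat_lit 1940342524) (nat_lit 228) (nat_lit 1385061495) (nat_lit 76) (nat_lit 10654298883) (nat_lit 83) (nat_lit 5) (nat_lit 86) (nat_lit 5) (nat_lit 84) (nat_lit 5) (nat_lit 446) (nat_lit 389) (nat_lit 365)) (XT.lf (nat_lit 0) (nat_lit 730992918) (nat_lit 152) (nat_lit 9293065349) (nat_lit 228) (nat_lit 4373826288) (nat_lit 79) (nat_lit 5) (nat_lit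 81) (nat_lit 5) (nat_lit 82) (nat_lit 4) (nat_lit 447) (nat_lit 389) (nat_lit 364))) (XT.nd (nat_lit 78) (nat_lit 152) (nat_lit 0) (XT.lf (nat_lit 0) (nat_lit 2823407819) (nat_lit 152) (nat_lit 841801968) (nat_lit 228) (nat_lit 11168859114) (nat_lit 76) (nat_lit 5) (nat_lit 78) (nat_lit 5) (nat_lit 79) (nat_lit 5) (nat_lit 448) (nat_lit 389) (nat_lit 363)) (XT.lf (nat_lit 0) (nat_lit 4800359395) (nat_lit 152) (nat_lit 7312372657) (nat_lit 228) (nat_lit 3175132470) (nat_lit 74) (nat_lit 5) (nat_lit 76) (nat_lit 5) (nat_lit 77) (nat_lit 4) (nat_lit 449) (nat_lit 389) (nat_lit 362))))))) (XT.nd (nat_lit 1014) (nat_lit 1216) (nat_lit 0) (XT.nd (nat_lit 468) (nat_lit 1140) (nat_lit 0) (XT.nd (nat_lit 234) (nat_lit 380) (nat_lit 0) (XT.nd (nat_lit 78) (nat_lit 380) (nat_lit 0) (XT.lf (nat_lit 0) (nat_lit 5163647656) (nat_lit 228) (nat_lit 9064609155) (nat_lit 76) (nat_lit 1533182581) (nat_lit 71) (nat_lit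 5) (nat_lit 74) (nat_lit 5) (nat_lit 72) (nat_lit 4) (nat_lit 450) (nat_lit 389) (nat_lit 361)) (XT.nd (nat_lit 78) (nat_lit 228) (nat_lit 0) (XT.lf (nat_lit 0) (nat_lit 8466377185) (nat_lit 152) (nat_lit 5490245640) (nat_lit 228) (nat_lit 2298049054) (nat_lit 69) (nat_lit 5) (nat_lit 71) (nat_lit 5) (nat_lit 72) (nat_lit 4) (nat_lit 451) (nat_lit 389) (nat_lit 360)) (XT.lf (nat_lit 0) (nat_lit 6361292750) (nat_lit 228) (nat_lit 6668266666) (nat_lit 76) (nat_lit 3739070339) (nat_lit 66) (nat_lit 5) (nat_lit 69) (nat_lit 5) (nat_lit 67) (nat_lit 4) (nat_lit 452) (nat_lit 389) (nat_lit 359)))) (XT.nd (nat_lit 78) (nat_lit 304) (nat_lit 0) (XT.lf (nat_lit 0) (nat_lit 11601585582) (nat_lit 76) (nat_lit 3897909096) (nat_lit 152) (nat_lit 1805314159) (nat_lit 65) (nat_lit 5) (nat_lit 66) (nat_lit 5) (nat_lit 67) (nat_lit 4) (nat_lit 453) (nat_lit 389) (nat_lit 358)) (XT.nd (nat_lit 78) (nat_lit 76)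 (nat_lit 0) (XT.lf (nat_lit 0) (nat_lit 7184056214) (nat_lit 228) (nat_lit 4959783094) (nat_lit 76) (nat_lit 5718933352) (nat_lit 62) (nat_lit 5) (nat_lit 65) (nat_lit 5) (nat_lit 63) (nat_lit 4) (nat_lit 454) (nat_lit 389) (nat_lit 357)) (XT.lf (nat_lit 0) (nat_lit 14052147099) (nat_lit 76) (nat_lit 2619158222) (nat_lit 152) (nat_lit 1774228207) (nat_lit 61) (nat_lit 5) (nat_lit 62) (nat_lit 5) (nat_lit 63) (nat_lit 4) (nat_lit 455) (nat_lit 389) (nat_lit 356))))) (XT.nd (nat_lit 234) (nat_lit 608) (nat_lit 0) (XT.nd (nat_lit 78) (nat_lit 304) (nat_lit 0) (XT.lf (nat_lit 0) (nat_lit 7550676638) (nat_lit 228) (nat_lit 4114861822) (nat_lit 76) (nat_lit 7386025786) (nat_lit 58) (nat_lit 5) (nat_lit 61) (nat_lit 5) (nat_lit 59) (nat_lit 4) (nat_lit 456) (nat_lit 389) (nat_lit 355)) (XT.nd (nat_lit 78) (nat_lit 228) (nat_lit 0) (XT.lf (nat_lit 0) (nat_lit 15632797625) (nat_lit 76) (nat_lit 1753018790)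 (nat_lit 152) (nat_lit 2299139180) (nat_lit 57) (nat_lit 5) (nat_lit 58) (nat_lit 5) (nat_lit 59) (nat_lit 4) (nat_lit 457) (nat_lit 389) (nat_lit 354)) (XT.lf (nat_lit 0) (nat_lit 7361987579) (nat_lit 228) (nat_lit 4344212355) (nat_lit 76) (nat_lit 8637410526) (nat_lit 54) (nat_lit 5) (nat_lit 57) (nat_lit 5) (nat_lit 55) (nat_lit 4) (nat_lit 458) (nat_lit 389) (nat_lit 353)))) (XT.nd (nat_lit 156) (nat_lit 304) (nat_lit 0) (XT.nd (nat_lit 78) (nat_lit 228) (nat_lit 0) (XT.lf (nat_lit 0) (nat_lit 16120924843) (nat_lit 76) (nat_lit 1416837914) (nat_lit 152) (nat_lit 3494383953) (nat_lit 53) (nat_lit 5) (nat_lit 54) (nat_lit 5) (nat_lit 55) (nat_lit 4) (nat_lit 459) (nat_lit 389) (nat_lit 352)) (XT.lf (nat_lit 0) (nat_lit 6497794952) (nat_lit 228) (nat_lit 5900051048) (nat_lit 76) (nat_lit 9350700839) (nat_lit 50) (nat_lit 5) (nat_lit 53) (nat_lit 5) (nat_lit 51) (nat_lit 4) (nat_lit 460) (nat_lit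 389) (nat_lit 351))) (XT.nd (nat_lit 78) (nat_lit 228) (nat_lit 0) (XT.lf (nat_lit 0) (nat_lit 15249622126) (nat_lit 76) (nat_lit 1749884337) (nat_lit 152) (nat_lit 5497761906) (nat_lit 49) (nat_lit 5) (nat_lit 50) (nat_lit 5) (nat_lit 51) (nat_lit 4) (nat_lit 461) (nat_lit 389) (nat_lit 350)) (XT.lf (nat_lit 0) (nat_lit 4813191420) (nat_lit 228) (nat_lit 9083725334) (nat_lit 76) (nat_lit 9380260273) (nat_lit 46) (nat_lit 5) (nat_lit 49) (nat_lit 5) (nat_lit 47) (nat_lit 4) (nat_lit 462) (nat_lit 389) (nat_lit 349)))))) (XT.nd (nat_lit 468) (nat_lit 684) (nat_lit 0) (XT.nd (nat_lit 234) (nat_lit 228) (nat_lit 0) (XT.nd (nat_lit 78) (nat_lit 228) (nat_lit 0) (XT.lf (nat_lit 0) (nat_lit 12699539291) (nat_lit 76) (nat_lit 2917550078) (nat_lit 152) (nat_lit 8474630283) (nat_lit 45) (nat_lit 5) (nat_lit 46) (nat_lit 5) (nat_lit 47) (nat_lit 4) (nat_lit 463) (nat_lit 389) (nat_lit 348)) (XT.nd (nat_lit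 78) (nat_lit 76) (nat_lit 0) (XT.lf (nat_lit 0) (nat_lit 2134212812) (nat_lit 152) (nat_lit 14254656588) (nat_lit 76) (nat_lit 8552763601) (nat_lit 43) (nat_lit 5) (nat_lit 45) (nat_lit 5) (nat_lit 44) (nat_lit 4) (nat_lit 464) (nat_lit 389) (nat_lit 347)) (XT.lf (nat_lit 0) (nat_lit 8089321349) (nat_lit 76) (nat_lit 5116260531) (nat_lit 152) (nat_lit 12622726321) (nat_lit 42) (nat_lit 5) (nat_lit 43) (nat_lit 5) (nat_lit 44) (nat_lit 4) (nat_lit 465) (nat_lit 389) (nat_lit 346)))) (XT.nd (nat_lit 78) (nat_lit 152) (nat_lit 0) (XT.lf (nat_lit 0) (nat_lit 4897086551) (nat_lit 76) (nat_lit 20075910968) (nat_lit 76) (nat_lit 1782049078) (nat_lit 41) (nat_lit 4) (nat_lit 42) (nat_lit 5) (nat_lit 42) (nat_lit 4) (nat_lit 466) (nat_lit 389) (nat_lit 345)) (XT.nd (nat_lit 78) (nat_lit 0) (nat_lit 0) (XT.lf (nat_lit 0) (nat_lit 964390911) (nat_lit 76) (nat_lit 8579217915) (nat_lit 152) (nat_lit 18177839248)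 (nat_lit 39) (nat_lit 5) (nat_lit 40) (nat_lit 5) (nat_lit 41) (nat_lit 4) (nat_lit 467) (nat_lit 389) (nat_lit 344)) (XT.lf (nat_lit 0) (nat_lit 21547218998) (nat_lit 152) (nat_lit 3616282832) (nat_lit 0) (nat_lit 3567686055) (nat_lit 39) (nat_lit 5) (nat_lit 41) (nat_lit 4) (nat_lit 39) (nat_lit 4) (nat_lit 468) (nat_lit 389) (nat_lit 343))))) (XT.nd (nat_lit 234) (nat_lit 380) (nat_lit 0) (XT.nd (nat_lit 78) (nat_lit 152) (nat_lit 0) (XT.lf (nat_lit 0) (nat_lit 4455504281) (nat_lit 152) (nat_lit 9036370045) (nat_lit 76) (nat_lit 16292856805) (nat_lit 37) (nat_lit 5) (nat_lit 39) (nat_lit 5) (nat_lit 38) (nat_lit 4) (nat_lit 469) (nat_lit 389) (nat_lit 342)) (XT.nd (nat_lit 78) (nat_lit 76) (nat_lit 0) (XT.lf (nat_lit 0) (nat_lit 15543921786) (nat_lit 76) (nat_lit 1067724749) (nat_lit 152) (nat_lit 14274675952) (nat_lit 36) (nat_lit 5) (nat_lit 37) (nat_lit 5) (nat_lit 38) (nat_lit 4) (nat_lit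 470) (nat_lit 389) (nat_lit 341)) (XT.lf (nat_lit 0) (nat_lit 9368820010) (nat_lit 76) (nat_lit 20202977099) (nat_lit 76) (nat_lit 2465313057) (nat_lit 35) (nat_lit 4) (nat_lit 36) (nat_lit 5) (nat_lit 36) (nat_lit 4) (nat_lit 471) (nat_lit 389) (nat_lit 340)))) (XT.nd (nat_lit 156) (nat_lit 228) (nat_lit 0) (XT.nd (nat_lit 78) (nat_lit 0) (nat_lit 0) (XT.lf (nat_lit 0) (nat_lit 2133218913) (nat_lit 76) (nat_lit 7697331702) (nat_lit 152) (nat_lit 23409327569) (nat_lit 33) (nat_lit 5) (nat_lit 34) (nat_lit 5) (nat_lit 35) (nat_lit 4) (nat_lit 472) (nat_lit 389) (nat_lit 339)) (XT.lf (nat_lit 0) (nat_lit 22879778443) (nat_lit 152) (nat_lit 6119218555) (nat_lit 0) (nat_lit 5497371069) (nat_lit 33) (nat_lit 5) (nat_lit 35) (nat_lit 4) (nat_lit 33) (nat_lit 4) (nat_lit 473) (nat_lit 389) (nat_lit 338))) (XT.nd (nat_lit 78) (nat_lit 76) (nat_lit 0) (XT.lf (nat_lit 0) (nat_lit 930864920) (nat_lit 152)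 (nat_lit 15567722234) (nat_lit 76) (nat_lit 19311476037) (nat_lit 31) (nat_lit 5) (nat_lit 33) (nat_lit 5) (nat_lit 32) (nat_lit 4) (nat_lit 474) (nat_lit 389) (nat_lit 337)) (XT.lf (nat_lit 0) (nat_lit 10774751241) (nat_lit 76) (nat_lit 3167874316) (nat_lit 152) (nat_lit 23241053738) (nat_lit 30) (nat_lit 5) (nat_lit 31) (nat_lit 5) (nat_lit 32) (nat_lit 4) (nat_lit 475) (nat_lit 389) (nat_lit 336))))))))
noncomputable def xc30 : XT := (XT.nd (nat_lit 58266) (nat_lit 0) (nat_lit 5244) (XT.nd (nat_lit 936) (nat_lit 532) (nat_lit 0) (XT.nd (nat_lit 468) (nat_lit 380) (nat_lit 0) (XT.nd (nat_lit 234) (nat_lit 228) (nat_lit 0) (XT.nd (nat_lit 78) (nat_lit 228) (nat_lit 0) (XT.lf (nat_lit 0) (nat_lit 27780568227) (nat_lit 152) (nat_lit 143825674) (nat_lit 0) (nat_lit 10696316546) (nat_lit 30) (nat_lit 5) (nat_lit 32) (nat_lit 4) (nat_lit 30) (nat_lit 4) (nat_lit 476) (nat_lit 389) (nat_lit 335)) (XT.nd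 (nat_lit 78) (nat_lit 76) (nat_lit 0) (XT.lf (nat_lit 0) (nat_lit 2353298008) (nat_lit 152) (nat_lit 12369932903) (nat_lit 76) (nat_lit 25399284090) (nat_lit 28) (nat_lit 5) (nat_lit 30) (nat_lit 5) (nat_lit 29) (nat_lit 4) (nat_lit 477) (nat_lit 389) (nat_lit 334)) (XT.lf (nat_lit 0) (nat_lit 15372917872) (nat_lit 76) (nat_lit 676307650) (nat_lit 152) (nat_lit 25644956052) (nat_lit 27) (nat_lit 5) (nat_lit 28) (nat_lit 5) (nat_lit 29) (nat_lit 4) (nat_lit 478) (nat_lit 389) (nat_lit 333)))) (XT.nd (nat_lit 78) (nat_lit 152) (nat_lit 0) (XT.lf (nat_lit 0) (nat_lit 1144532315) (nat_lit 76) (nat_lit 29477668846) (nat_lit 76) (nat_lit 12716464488) (nat_lit 26) (nat_lit 4) (nat_lit 27) (nat_lit 5) (nat_lit 27) (nat_lit 4) (nat_lit 479) (nat_lit 389) (nat_lit 332)) (XT.nd (nat_lit 78) (nat_lit 76) (nat_lit 0) (XT.lf (nat_lit 0) (nat_lit 1041162502) (nat_lit 152) (nat_lit 14700377300) (nat_lit 76) (nat_lit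 29317604296) (nat_lit 25) (nat_lit 5) (nat_lit 27) (nat_lit 5) (nat_lit 26) (nat_lit 4) (nat_lit 480) (nat_lit 389) (nat_lit 331)) (XT.lf (nat_lit 0) (nat_lit 14164666203) (nat_lit 76) (nat_lit 1120469324) (nat_lit 152) (nat_lit 31574891477) (nat_lit 24) (nat_lit 5) (nat_lit 25) (nat_lit 5) (nat_lit 26) (nat_lit 4) (nat_lit 481) (nat_lit 389) (nat_lit 330))))) (XT.nd (nat_lit 234) (nat_lit 152) (nat_lit 0) (XT.nd (nat_lit 78) (nat_lit 228) (nat_lit 0) (XT.lf (nat_lit 0) (nat_lit 30455357821) (nat_lit 152) (nat_lit 4253225281) (nat_lit 0) (nat_lit 14035950884) (nat_lit 24) (nat_lit 5) (nat_lit 26) (nat_lit 4) (nat_lit 24) (nat_lit 4) (nat_lit 482) (nat_lit 389) (nat_lit 329)) (XT.nd (nat_lit 78) (nat_lit 152) (nat_lit 0) (XT.lf (nat_lit 0) (nat_lit 25964787790) (nat_lit 76) (nat_lit 20608222547) (nat_lit 76) (nat_lit 4144589788) (nat_lit 23) (nat_lit 4) (nat_lit 24) (nat_lit 5) (nat_lit 24) (nat_lit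 4) (nat_lit 483) (nat_lit 389) (nat_lit 328)) (XT.lf (nat_lit 0) (nat_lit 4846863464) (nat_lit 76) (nat_lit 5671666610) (nat_lit 152) (nat_lit 42267095820) (nat_lit 21) (nat_lit 5) (nat_lit 22) (nat_lit 5) (nat_lit 23) (nat_lit 4) (nat_lit 484) (nat_lit 389) (nat_lit 327)))) (XT.nd (nat_lit 78) (nat_lit 152) (nat_lit 0) (XT.lf (nat_lit 0) (nat_lit 26114313595) (nat_lit 152) (nat_lit 18782587451) (nat_lit 0) (nat_lit 10050365331) (nat_lit 21) (nat_lit 5) (nat_lit 23) (nat_lit 4) (nat_lit 21) (nat_lit 4) (nat_lit 485) (nat_lit 389) (nat_lit 326)) (XT.nd (nat_lit 78) (nat_lit 76) (nat_lit 0) (XT.lf (nat_lit 0) (nat_lit 11876019615) (nat_lit 76) (nat_lit 30719421618) (nat_lit 76) (nat_lit 14618382161) (nat_lit 20) (nat_lit 4) (nat_lit 21) (nat_lit 5) (nat_lit 21) (nat_lit 4) (nat_lit 486) (nat_lit 389) (nat_lit 325)) (XT.lf (nat_lit 0) (nat_lit 431631373) (nat_lit 152) (nat_lit 15260152712) (nat_lit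 76) (nat_lit 43897915635) (nat_lit 19) (nat_lit 5) (nat_lit 21) (nat_lit 5) (nat_lit 20) (nat_lit 4) (nat_lit 487) (nat_lit 389) (nat_lit 324)))))) (XT.nd (nat_lit 468) (nat_lit 228) (nat_lit 0) (XT.nd (nat_lit 234) (nat_lit 152) (nat_lit 0) (XT.nd (nat_lit 78) (nat_lit 76) (nat_lit 0) (XT.lf (nat_lit 0) (nat_lit 16033797762) (nat_lit 152) (nat_lit 45708409903) (nat_lit 0) (nat_lit 334761641) (nat_lit 18) (nat_lit 5) (nat_lit 20) (nat_lit 4) (nat_lit 18) (nat_lit 4) (nat_lit 488) (nat_lit 389) (nat_lit 323)) (XT.nd (nat_lit 78) (nat_lit 76) (nat_lit 0) (XT.lf (nat_lit 0) (nat_lit 32672847119) (nat_lit 152) (nat_lit 15065349528) (nat_lit 0) (nat_lit 16942703457) (nat_lit 18) (nat_lit 5) (nat_lit 20) (nat_lit 4) (nat_lit 18) (nat_lit 4) (nat_lit 489) (nat_lit 389) (nat_lit 322)) (XT.lf (nat_lit 0) (nat_lit 17334675378) (nat_lit 76) (nat_lit 32918422702) (nat_lit 76) (nat_lit 17158652812) (nat_lit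 17) (nat_lit 4) (nat_lit 18) (nat_lit 5) (nat_lit 18) (nat_lit 4) (nat_lit 490) (nat_lit 389) (nat_lit 321)))) (XT.nd (nat_lit 78) (nat_lit 152) (nat_lit 0) (XT.lf (nat_lit 0) (nat_lit 51559324620) (nat_lit 76) (nat_lit 17252412283) (nat_lit 76) (nat_lit 1464426938) (nat_lit 17) (nat_lit 4) (nat_lit 18) (nat_lit 5) (nat_lit 18) (nat_lit 4) (nat_lit 491) (nat_lit 389) (nat_lit 320)) (XT.nd (nat_lit 78) (nat_lit 0) (nat_lit 0) (XT.lf (nat_lit 0) (nat_lit 14238914666) (nat_lit 76) (nat_lit 565899064) (nat_lit 152) (nat_lit 58472155941) (nat_lit 15) (nat_lit 5) (nat_lit 16) (nat_lit 5) (nat_lit 17) (nat_lit 4) (nat_lit 492) (nat_lit 389) (nat_lit 319)) (XT.lf (nat_lit 0) (nat_lit 32162562957) (nat_lit 152) (nat_lit 27472172827) (nat_lit 0) (nat_lit 16783485814) (nat_lit 15) (nat_lit 5) (nat_lit 17) (nat_lit 4) (nat_lit 15) (nat_lit 4) (nat_lit 493) (nat_lit 389) (nat_lit 318))))) (XT.nd (nat_lit 234)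 (nat_lit 76) (nat_lit 0) (XT.nd (nat_lit 78) (nat_lit 76) (nat_lit 0) (XT.lf (nat_lit 0) (nat_lit 5677993965) (nat_lit 76) (nat_lit 44720487621) (nat_lit 76) (nat_lit 29317746816) (nat_lit 14) (nat_lit 4) (nat_lit 15) (nat_lit 5) (nat_lit 15) (nat_lit 4) (nat_lit 494) (nat_lit 389) (nat_lit 317)) (XT.nd (nat_lit 78) (nat_lit 76) (nat_lit 0) (XT.lf (nat_lit 0) (nat_lit 40963501418) (nat_lit 76) (nat_lit 28816942511) (nat_lit 76) (nat_lit 13391664885) (nat_lit 14) (nat_lit 4) (nat_lit 15) (nat_lit 5) (nat_lit 15) (nat_lit 4) (nat_lit 495) (nat_lit 389) (nat_lit 316)) (XT.lf (nat_lit 0) (nat_lit 3219026377) (nat_lit 152) (nat_lit 8912117718) (nat_lit 76) (nat_lit 74670080308) (nat_lit 13) (nat_lit 5) (nat_lit 15) (nat_lit 5) (nat_lit 14) (nat_lit 4) (nat_lit 496) (nat_lit 389) (nat_lit 315)))) (XT.nd (nat_lit 56472) (nat_lit 0) (nat_lit 16036) (XT.nd (nat_lit 78) (nat_lit 0) (nat_lit 0) (XT.lf (nat_lit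 0) (nat_lit 20649811289) (nat_lit 152) (nat_lit 64316882865) (nat_lit 0) (nat_lit 5633128935) (nat_lit 12) (nat_lit 5) (nat_lit 14) (nat_lit 4) (nat_lit 12) (nat_lit 4) (nat_lit 497) (nat_lit 389) (nat_lit 314)) (XT.lf (nat_lit 0) (nat_lit 39123638296) (nat_lit 152) (nat_lit 31371514098) (nat_lit 0) (nat_lit 24088054823) (nat_lit 12) (nat_lit 5) (nat_lit 14) (nat_lit 4) (nat_lit 12) (nat_lit 4) (nat_lit 498) (nat_lit 389) (nat_lit 313))) (XT.nd (nat_lit 78) (nat_lit 608) (nat_lit 0) (XT.lf (nat_lit 0) (nat_lit 2408374672) (nat_lit 532) (nat_lit 700853808) (nat_lit 532) (nat_lit 700853808) (nat_lit 231) (nat_lit 4) (nat_lit 238) (nat_lit 5) (nat_lit 238) (nat_lit 4) (nat_lit 420) (nat_lit 390) (nat_lit 390)) (XT.lf (nat_lit 0) (nat_lit 4736122049) (nat_lit 608) (nat_lit 505154509) (nat_lit 0) (nat_lit 2502476057) (nat_lit 223) (nat_lit 5) (nat_lit 231) (nat_lit 4) (nat_lit 223) (nat_lit 4) (nat_lit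 421) (nat_lit 390) (nat_lit 389))))))) (XT.nd (nat_lit 1014) (nat_lit 3800) (nat_lit 0) (XT.nd (nat_lit 468) (nat_lit 3116) (nat_lit 0) (XT.nd (nat_lit 234) (nat_lit 1824) (nat_lit 0) (XT.nd (nat_lit 78) (nat_lit 988) (nat_lit 0) (XT.lf (nat_lit 0) (nat_lit 1931968415) (nat_lit 456) (nat_lit 1167980502) (nat_lit 532) (nat_lit 4775718370) (nat_lit 209) (nat_lit 5) (nat_lit 215) (nat_lit 5) (nat_lit 216) (nat_lit 4) (nat_lit 422) (nat_lit 390) (nat_lit 388)) (XT.nd (nat_lit 78) (nat_lit 456) (nat_lit 0) (XT.lf (nat_lit 0) (nat_lit 1306505697) (nat_lit 532) (nat_lit 3548677556) (nat_lit 76) (nat_lit 3160832150) (nat_lit 202) (nat_lit 5) (nat_lit 209) (nat_lit 5) (nat_lit 203) (nat_lit 4) (nat_lit 423) (nat_lit 390) (nat_lit 387)) (XT.lf (nat_lit 0) (nat_lit 7104701748) (nat_lit 456) (nat_lit 372585943) (nat_lit 532) (nat_lit 688235004) (nat_lit 196) (nat_lit 5) (nat_lit 202) (nat_lit 5) (nat_lit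 203) (nat_lit 4) (nat_lit 424) (nat_lit 390) (nat_lit 386)))) (XT.nd (nat_lit 78) (nat_lit 912) (nat_lit 0) (XT.lf (nat_lit 0) (nat_lit 1512986601) (nat_lit 380) (nat_lit 3947184358) (nat_lit 456) (nat_lit 2862681864) (nat_lit 184) (nat_lit 5) (nat_lit 189) (nat_lit 5) (nat_lit 190) (nat_lit 4) (nat_lit 425) (nat_lit 390) (nat_lit 385)) (XT.nd (nat_lit 78) (nat_lit 456) (nat_lit 0) (XT.lf (nat_lit 0) (nat_lit 3257908652) (nat_lit 456) (nat_lit 4280442015) (nat_lit 76) (nat_lit 951240166) (nat_lit 178) (nat_lit 5) (nat_lit 184) (nat_lit 5) (nat_lit 179) (nat_lit 4) (nat_lit 426) (nat_lit 390) (nat_lit 384)) (XT.lf (nat_lit 0) (nat_lit 877983390) (nat_lit 456) (nat_lit 1684409658) (nat_lit 76) (nat_lit 6103132880) (nat_lit 172) (nat_lit 5) (nat_lit 178) (nat_lit 5) (nat_lit 173) (nat_lit 5) (nat_lit 427) (nat_lit 390) (nat_lit 383))))) (XT.nd (nat_lit 234) (nat_lit 1596) (nat_lit 0) (XT.nd (nat_lit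 78) (nat_lit 836) (nat_lit 0) (XT.lf (nat_lit 0) (nat_lit 995559865) (nat_lit 304) (nat_lit 6129347820) (nat_lit 380) (nat_lit 1725639638) (nat_lit 163) (nat_lit 5) (nat_lit 167) (nat_lit 5) (nat_lit 168) (nat_lit 4) (nat_lit 428) (nat_lit 390) (nat_lit 382)) (XT.nd (nat_lit 78) (nat_lit 380) (nat_lit 0) (XT.lf (nat_lit 0) (nat_lit 3783212946) (nat_lit 380) (nat_lit 718787993) (nat_lit 456) (nat_lit 4542925289) (nat_lit 157) (nat_lit 5) (nat_lit 162) (nat_lit 5) (nat_lit 163) (nat_lit 5) (nat_lit 429) (nat_lit 390) (nat_lit 381)) (XT.lf (nat_lit 0) (nat_lit 1688121636) (nat_lit 380) (nat_lit 2616251883) (nat_lit 76) (nat_lit 4944700498) (nat_lit 152) (nat_lit 5) (nat_lit 157) (nat_lit 5) (nat_lit 153) (nat_lit 5) (nat_lit 430) (nat_lit 390) (nat_lit 380)))) (XT.nd (nat_lit 156) (nat_lit 608) (nat_lit 0) (XT.nd (nat_lit 78) (nat_lit 380) (nat_lit 0) (XT.lf (nat_lit 0) (nat_lit 97002699) (nat_lit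 304) (nat_lit 7987853540) (nat_lit 380) (nat_lit 1378815680) (nat_lit 144) (nat_lit 5) (nat_lit 148) (nat_lit 5) (nat_lit 149) (nat_lit 4) (nat_lit 431) (nat_lit 390) (nat_lit 379)) (XT.lf (nat_lit 0) (nat_lit 2903159549) (nat_lit 304) (nat_lit 2111158552) (nat_lit 380) (nat_lit 4673189924) (nat_lit 139) (nat_lit 5) (nat_lit 143) (nat_lit 5) (nat_lit 144) (nat_lit 5) (nat_lit 432) (nat_lit 390) (nat_lit 378))) (XT.nd (nat_lit 78) (nat_lit 304) (nat_lit 0) (XT.lf (nat_lit 0) (nat_lit 1719089430) (nat_lit 304) (nat_lit 4150362873) (nat_lit 76) (nat_lit 4052872891) (nat_lit 135) (nat_lit 5) (nat_lit 139) (nat_lit 5) (nat_lit 136) (nat_lit 5) (nat_lit 433) (nat_lit 390) (nat_lit 377)) (XT.lf (nat_lit 0) (nat_lit 8304895471) (nat_lit 380) (nat_lit 1467641717) (nat_lit 76) (nat_lit 395869456) (nat_lit 131) (nat_lit 5) (nat_lit 136) (nat_lit 5) (nat_lit 132) (nat_lit 4) (nat_lit 434) (nat_lit 390) (nat_lit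 376)))))) (XT.nd (nat_lit 468) (nat_lit 1672) (nat_lit 0) (XT.nd (nat_lit 234) (nat_lit 988) (nat_lit 0) (XT.nd (nat_lit 78) (nat_lit 532) (nat_lit 0) (XT.lf (nat_lit 0) (nat_lit 1253494965) (nat_lit 304) (nat_lit 3469274534) (nat_lit 380) (nat_lit 5701973545) (nat_lit 123) (nat_lit 5) (nat_lit 127) (nat_lit 5) (nat_lit 128) (nat_lit 5) (nat_lit 435) (nat_lit 390) (nat_lit 375)) (XT.nd (nat_lit 78) (nat_lit 228) (nat_lit 0) (XT.lf (nat_lit 0) (nat_lit 891801285) (nat_lit 304) (nat_lit 6629159231) (nat_lit 76) (nat_lit 3172054787) (nat_lit 119) (nat_lit 5) (nat_lit 123) (nat_lit 5) (nat_lit 120) (nat_lit 5) (nat_lit 436) (nat_lit 390) (nat_lit 374)) (XT.lf (nat_lit 0) (nat_lit 6898427100) (nat_lit 228) (nat_lit 797867902) (nat_lit 304) (nat_lit 3276766924) (nat_lit 116) (nat_lit 5) (nat_lit 119) (nat_lit 5) (nat_lit 120) (nat_lit 5) (nat_lit 437) (nat_lit 390) (nat_lit 373)))) (XT.nd (nat_lit 78)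 (nat_lit 684) (nat_lit 0) (XT.lf (nat_lit 0) (nat_lit 3534090931) (nat_lit 304) (nat_lit 1513450549) (nat_lit 76) (nat_lit 6217662259) (nat_lit 112) (nat_lit 5) (nat_lit 116) (nat_lit 5) (nat_lit 113) (nat_lit 5) (nat_lit 438) (nat_lit 390) (nat_lit 372)) (XT.nd (nat_lit 78) (nat_lit 304) (nat_lit 0) (XT.lf (nat_lit 0) (nat_lit 1106701711) (nat_lit 152) (nat_lit 9525339087) (nat_lit 228) (nat_lit 938529338) (nat_lit 107) (nat_lit 5) (nat_lit 109) (nat_lit 5) (nat_lit 110) (nat_lit 4) (nat_lit 439) (nat_lit 390) (nat_lit 371)) (XT.lf (nat_lit 0) (nat_lit 3741739361) (nat_lit 228) (nat_lit 2377905536) (nat_lit 304) (nat_lit 5768387943) (nat_lit 103) (nat_lit 5) (nat_lit 106) (nat_lit 5) (nat_lit 107) (nat_lit 5) (nat_lit 440) (nat_lit 390) (nat_lit 370))))) (XT.nd (nat_lit 234) (nat_lit 988) (nat_lit 0) (XT.nd (nat_lit 78) (nat_lit 456) (nat_lit 0) (XT.lf (nat_lit 0) (nat_lit 1300920511) (nat_lit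 228) (nat_lit 5823045279) (nat_lit 76) (nat_lit 5095693326) (nat_lit 100) (nat_lit 5) (nat_lit 103) (nat_lit 5) (nat_lit 101) (nat_lit 5) (nat_lit 441) (nat_lit 390) (nat_lit 369)) (XT.nd (nat_lit 78) (nat_lit 228) (nat_lit 0) (XT.lf (nat_lit 0) (nat_lit 8625185855) (nat_lit 304) (nat_lit 3512904454) (nat_lit 76) (nat_lit 427455844) (nat_lit 97) (nat_lit 5) (nat_lit 101) (nat_lit 5) (nat_lit 98) (nat_lit 4) (nat_lit 442) (nat_lit 390) (nat_lit 368)) (XT.lf (nat_lit 0) (nat_lit 3390857810) (nat_lit 228) (nat_lit 1240332248) (nat_lit 76) (nat_lit 8294475696) (nat_lit 94) (nat_lit 5) (nat_lit 97) (nat_lit 5) (nat_lit 95) (nat_lit 5) (nat_lit 443) (nat_lit 390) (nat_lit 367)))) (XT.nd (nat_lit 156) (nat_lit 380) (nat_lit 0) (XT.nd (nat_lit 78) (nat_lit 228) (nat_lit 0) (XT.lf (nat_lit 0) (nat_lit 1041601609) (nat_lit 152) (nat_lit 10011070365) (nat_lit 228) (nat_lit 2248597696) (nat_lit 89) (nat_lit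 5) (nat_lit 91) (nat_lit 5) (nat_lit 92) (nat_lit 4) (nat_lit 444) (nat_lit 390) (nat_lit 366)) (XT.lf (nat_lit 0) (nat_lit 3302842699) (nat_lit 152) (nat_lit 2060432417) (nat_lit 228) (nat_lit 8328831450) (nat_lit 86) (nat_lit 5) (nat_lit 88) (nat_lit 5) (nat_lit 89) (nat_lit 5) (nat_lit 445) (nat_lit 390) (nat_lit 365))) (XT.nd (nat_lit 78) (nat_lit 228) (nat_lit 0) (XT.lf (nat_lit 0) (nat_lit 5526523800) (nat_lit 152) (nat_lit 7856036245) (nat_lit 228) (nat_lit 717070507) (nat_lit 84) (nat_lit 5) (nat_lit 86) (nat_lit 5) (nat_lit 87) (nat_lit 4) (nat_lit 446) (nat_lit 390) (nat_lit 364)) (XT.lf (nat_lit 0) (nat_lit 7176619558) (nat_lit 228) (nat_lit 6832710632) (nat_lit 76) (nat_lit 514815139) (nat_lit 81) (nat_lit 5) (nat_lit 84) (nat_lit 5) (nat_lit 82) (nat_lit 4) (nat_lit 447) (nat_lit 390) (nat_lit 363))))))))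
noncomputable def xc31 : XT := (XT.nd (nat_lit 1950) (nat_lit 1672) (nat_lit 0) (XT.nd (nat_lit 936) (nat_lit 1444) (nat_lit 0) (XT.nd (nat_lit 468) (nat_lit 912) (nat_lit 0) (XT.nd (nat_lit 234) (nat_lit 608) (nat_lit 0) (XT.nd (nat_lit 78) (nat_lit 380) (nat_lit 0) (XT.lf (nat_lit 0) (nat_lit 574221629) (nat_lit 228) (nat_lit 5175216625) (nat_lit 76) (nat_lit 9217013810) (nat_lit 78) (nat_lit 5) (nat_lit 81) (nat_lit 5) (nat_lit 79) (nat_lit 5) (nat_lit 448) (nat_lit 390) (nat_lit 362)) (XT.nd (nat_lit 78) (nat_lit 228) (nat_lit 0) (XT.lf (nat_lit 0) (nat_lit 8798539950) (nat_lit 228) (nat_lit 3623574775) (nat_lit 76) (nat_lit 3004834176) (nat_lit 76) (nat_lit 5) (nat_lit 79) (nat_lit 5) (nat_lit 77) (nat_lit 4) (nat_lit 449) (nat_lit 390) (nat_lit 361)) (XT.lf (nat_lit 0) (nat_lit 1585336794) (nat_lit 228) (nat_lit 2161190274) (nat_lit 76) (nat_lit 12160769873) (nat_lit 73) (nat_lit 5) (nat_lit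 76) (nat_lit 5) (nat_lit 74) (nat_lit 5) (nat_lit 450) (nat_lit 390) (nat_lit 360)))) (XT.nd (nat_lit 78) (nat_lit 456) (nat_lit 0) (XT.lf (nat_lit 0) (nat_lit 10164298551) (nat_lit 228) (nat_lit 847647228) (nat_lit 76) (nat_lit 5395008539) (nat_lit 71) (nat_lit 5) (nat_lit 74) (nat_lit 5) (nat_lit 72) (nat_lit 4) (nat_lit 451) (nat_lit 390) (nat_lit 359)) (XT.nd (nat_lit 78) (nat_lit 76) (nat_lit 0) (XT.lf (nat_lit 0) (nat_lit 366983513) (nat_lit 152) (nat_lit 1914053835) (nat_lit 228) (nat_lit 14647395202) (nat_lit 66) (nat_lit 5) (nat_lit 68) (nat_lit 5) (nat_lit 69) (nat_lit 5) (nat_lit 452) (nat_lit 390) (nat_lit 358)) (XT.lf (nat_lit 0) (nat_lit 1394891394) (nat_lit 76) (nat_lit 9835861423) (nat_lit 152) (nat_lit 6239517361) (nat_lit 65) (nat_lit 5) (nat_lit 66) (nat_lit 5) (nat_lit 67) (nat_lit 4) (nat_lit 453) (nat_lit 390) (nat_lit 357))))) (XT.nd (nat_lit 234) (nat_lit 380) (nat_lit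 0) (XT.nd (nat_lit 78) (nat_lit 304) (nat_lit 0) (XT.lf (nat_lit 0) (nat_lit 2292693454) (nat_lit 152) (nat_lit 314589949) (nat_lit 228) (nat_lit 15429105887) (nat_lit 62) (nat_lit 5) (nat_lit 64) (nat_lit 5) (nat_lit 65) (nat_lit 5) (nat_lit 454) (nat_lit 390) (nat_lit 356)) (XT.nd (nat_lit 78) (nat_lit 228) (nat_lit 0) (XT.lf (nat_lit 0) (nat_lit 2926047842) (nat_lit 76) (nat_lit 8989607788) (nat_lit 152) (nat_lit 6708864314) (nat_lit 61) (nat_lit 5) (nat_lit 62) (nat_lit 5) (nat_lit 63) (nat_lit 4) (nat_lit 455) (nat_lit 390) (nat_lit 355)) (XT.lf (nat_lit 0) (nat_lit 2469877401) (nat_lit 228) (nat_lit 15847253358) (nat_lit 76) (nat_lit 922119833) (nat_lit 58) (nat_lit 5) (nat_lit 61) (nat_lit 5) (nat_lit 59) (nat_lit 4) (nat_lit 456) (nat_lit 390) (nat_lit 354)))) (XT.nd (nat_lit 78) (nat_lit 304) (nat_lit 0) (XT.lf (nat_lit 0) (nat_lit 3540858502) (nat_lit 76) (nat_lit 8581935509) (nat_lit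 152) (nat_lit 7755317691) (nat_lit 57) (nat_lit 5) (nat_lit 58) (nat_lit 5) (nat_lit 59) (nat_lit 4) (nat_lit 457) (nat_lit 390) (nat_lit 353)) (XT.nd (nat_lit 78) (nat_lit 76) (nat_lit 0) (XT.lf (nat_lit 0) (nat_lit 1758617779) (nat_lit 228) (nat_lit 17076462555) (nat_lit 76) (nat_lit 1710872339) (nat_lit 54) (nat_lit 5) (nat_lit 57) (nat_lit 5) (nat_lit 55) (nat_lit 4) (nat_lit 458) (nat_lit 390) (nat_lit 352)) (XT.lf (nat_lit 0) (nat_lit 3013693478) (nat_lit 76) (nat_lit 8731483180) (nat_lit 152) (nat_lit 9494991455) (nat_lit 53) (nat_lit 5) (nat_lit 54) (nat_lit 5) (nat_lit 55) (nat_lit 4) (nat_lit 459) (nat_lit 390) (nat_lit 351)))))) (XT.nd (nat_lit 468) (nat_lit 684) (nat_lit 0) (XT.nd (nat_lit 234) (nat_lit 456) (nat_lit 0) (XT.nd (nat_lit 78) (nat_lit 76) (nat_lit 0) (XT.lf (nat_lit 0) (nat_lit 348511756) (nat_lit 228) (nat_lit 19683667122) (nat_lit 76) (nat_lit 1934095380) (nat_lit 50)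 (nat_lit 5) (nat_lit 53) (nat_lit 5) (nat_lit 51) (nat_lit 4) (nat_lit 460) (nat_lit 390) (nat_lit 350)) (XT.nd (nat_lit 78) (nat_lit 0) (nat_lit 0) (XT.lf (nat_lit 0) (nat_lit 1074432413) (nat_lit 76) (nat_lit 9578937755) (nat_lit 152) (nat_lit 12067533589) (nat_lit 49) (nat_lit 5) (nat_lit 50) (nat_lit 5) (nat_lit 51) (nat_lit 4) (nat_lit 461) (nat_lit 390) (nat_lit 349)) (XT.lf (nat_lit 0) (nat_lit 21569989768) (nat_lit 152) (nat_lit 472352236) (nat_lit 0) (nat_lit 1468031820) (nat_lit 49) (nat_lit 5) (nat_lit 51) (nat_lit 4) (nat_lit 49) (nat_lit 4) (nat_lit 462) (nat_lit 390) (nat_lit 348)))) (XT.nd (nat_lit 78) (nat_lit 228) (nat_lit 0) (XT.lf (nat_lit 0) (nat_lit 8716533565) (nat_lit 228) (nat_lit 2548964534) (nat_lit 76) (nat_lit 13065525333) (nat_lit 46) (nat_lit 5) (nat_lit 49) (nat_lit 5) (nat_lit 47) (nat_lit 4) (nat_lit 463) (nat_lit 390) (nat_lit 347)) (XT.nd (nat_lit 78) (nat_lit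 152) (nat_lit 0) (XT.lf (nat_lit 0) (nat_lit 19953119307) (nat_lit 152) (nat_lit 5068097706) (nat_lit 0) (nat_lit 168307673) (nat_lit 45) (nat_lit 5) (nat_lit 47) (nat_lit 4) (nat_lit 45) (nat_lit 4) (nat_lit 464) (nat_lit 390) (nat_lit 346)) (XT.lf (nat_lit 0) (nat_lit 5753495235) (nat_lit 152) (nat_lit 8229884184) (nat_lit 76) (nat_lit 12099841865) (nat_lit 43) (nat_lit 5) (nat_lit 45) (nat_lit 5) (nat_lit 44) (nat_lit 4) (nat_lit 465) (nat_lit 390) (nat_lit 345))))) (XT.nd (nat_lit 234) (nat_lit 380) (nat_lit 0) (XT.nd (nat_lit 78) (nat_lit 228) (nat_lit 0) (XT.lf (nat_lit 0) (nat_lit 15038163415) (nat_lit 76) (nat_lit 2235912564) (nat_lit 152) (nat_lit 9743290503) (nat_lit 42) (nat_lit 5) (nat_lit 43) (nat_lit 5) (nat_lit 44) (nat_lit 4) (nat_lit 466) (nat_lit 390) (nat_lit 344)) (XT.nd (nat_lit 78) (nat_lit 76) (nat_lit 0) (XT.lf (nat_lit 0) (nat_lit 1534908197) (nat_lit 152) (nat_lit 16438785159)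 (nat_lit 76) (nat_lit 10018456427) (nat_lit 40) (nat_lit 5) (nat_lit 42) (nat_lit 5) (nat_lit 41) (nat_lit 4) (nat_lit 467) (nat_lit 390) (nat_lit 343)) (XT.lf (nat_lit 0) (nat_lit 7320545015) (nat_lit 76) (nat_lit 5969972192) (nat_lit 152) (nat_lit 15718813967) (nat_lit 39) (nat_lit 5) (nat_lit 40) (nat_lit 5) (nat_lit 41) (nat_lit 4) (nat_lit 468) (nat_lit 390) (nat_lit 342)))) (XT.nd (nat_lit 156) (nat_lit 228) (nat_lit 0) (XT.nd (nat_lit 78) (nat_lit 76) (nat_lit 0) (XT.lf (nat_lit 0) (nat_lit 2321459016) (nat_lit 76) (nat_lit 23467277206) (nat_lit 76) (nat_lit 4283993545) (nat_lit 38) (nat_lit 4) (nat_lit 39) (nat_lit 5) (nat_lit 39) (nat_lit 4) (nat_lit 469) (nat_lit 390) (nat_lit 341)) (XT.lf (nat_lit 0) (nat_lit 7757489577) (nat_lit 152) (nat_lit 3527653099) (nat_lit 76) (nat_lit 19896362878) (nat_lit 37) (nat_lit 5) (nat_lit 39) (nat_lit 5) (nat_lit 38) (nat_lit 4) (nat_lit 470) (nat_lit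 390) (nat_lit 340))) (XT.nd (nat_lit 78) (nat_lit 152) (nat_lit 0) (XT.lf (nat_lit 0) (nat_lit 20446616198) (nat_lit 152) (nat_lit 10246266429) (nat_lit 0) (nat_lit 1647542623) (nat_lit 36) (nat_lit 5) (nat_lit 38) (nat_lit 4) (nat_lit 36) (nat_lit 4) (nat_lit 471) (nat_lit 390) (nat_lit 339)) (XT.lf (nat_lit 0) (nat_lit 417212564) (nat_lit 152) (nat_lit 18033212827) (nat_lit 76) (nat_lit 15100552828) (nat_lit 34) (nat_lit 5) (nat_lit 36) (nat_lit 5) (nat_lit 35) (nat_lit 4) (nat_lit 472) (nat_lit 390) (nat_lit 338))))))) (XT.nd (nat_lit 1014) (nat_lit 684) (nat_lit 0) (XT.nd (nat_lit 468) (nat_lit 532) (nat_lit 0) (XT.nd (nat_lit 234) (nat_lit 228) (nat_lit 0) (XT.nd (nat_lit 78) (nat_lit 152) (nat_lit 0) (XT.lf (nat_lit 0) (nat_lit 7818849300) (nat_lit 76) (nat_lit 5371408532) (nat_lit 152) (nat_lit 21625496887) (nat_lit 33) (nat_lit 5) (nat_lit 34) (nat_lit 5) (nat_lit 35) (nat_lit 4) (nat_lit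 473) (nat_lit 390) (nat_lit 337)) (XT.nd (nat_lit 78) (nat_lit 152) (nat_lit 0) (XT.lf (nat_lit 0) (nat_lit 26780183990) (nat_lit 152) (nat_lit 1054675629) (nat_lit 0) (nat_lit 8303565796) (nat_lit 33) (nat_lit 5) (nat_lit 35) (nat_lit 4) (nat_lit 33) (nat_lit 4) (nat_lit 474) (nat_lit 390) (nat_lit 336)) (XT.lf (nat_lit 0) (nat_lit 3679263787) (nat_lit 152) (nat_lit 11075713293) (nat_lit 76) (nat_lit 22764470212) (nat_lit 31) (nat_lit 5) (nat_lit 33) (nat_lit 5) (nat_lit 32) (nat_lit 4) (nat_lit 475) (nat_lit 390) (nat_lit 335)))) (XT.nd (nat_lit 78) (nat_lit 152) (nat_lit 0) (XT.lf (nat_lit 0) (nat_lit 16432809039) (nat_lit 76) (nat_lit 829353663) (nat_lit 152) (nat_lit 21701968012) (nat_lit 30) (nat_lit 5) (nat_lit 31) (nat_lit 5) (nat_lit 32) (nat_lit 4) (nat_lit 476) (nat_lit 390) (nat_lit 334)) (XT.nd (nat_lit 78) (nat_lit 76) (nat_lit 0) (XT.lf (nat_lit 0) (nat_lit 4871715291) (nat_lit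 76) (nat_lit 26865099575) (nat_lit 76) (nat_lit 8737857062) (nat_lit 29) (nat_lit 4) (nat_lit 30) (nat_lit 5) (nat_lit 30) (nat_lit 4) (nat_lit 477) (nat_lit 390) (nat_lit 333)) (XT.lf (nat_lit 0) (nat_lit 4941617976) (nat_lit 152) (nat_lit 8152788569) (nat_lit 76) (nat_lit 28960061392) (nat_lit 28) (nat_lit 5) (nat_lit 30) (nat_lit 5) (nat_lit 29) (nat_lit 4) (nat_lit 478) (nat_lit 390) (nat_lit 332))))) (XT.nd (nat_lit 234) (nat_lit 304) (nat_lit 0) (XT.nd (nat_lit 78) (nat_lit 152) (nat_lit 0) (XT.lf (nat_lit 0) (nat_lit 19265114368) (nat_lit 152) (nat_lit 22883575322) (nat_lit 0) (nat_lit 1557747503) (nat_lit 27) (nat_lit 5) (nat_lit 29) (nat_lit 4) (nat_lit 27) (nat_lit 4) (nat_lit 479) (nat_lit 390) (nat_lit 331)) (XT.nd (nat_lit 78) (nat_lit 76) (nat_lit 0) (XT.lf (nat_lit 0) (nat_lit 5812614695) (nat_lit 76) (nat_lit 28690022421) (nat_lit 76) (nat_lit 10932433819) (nat_lit 26) (nat_lit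 4) (nat_lit 27) (nat_lit 5) (nat_lit 27) (nat_lit 4) (nat_lit 480) (nat_lit 390) (nat_lit 330)) (XT.lf (nat_lit 0) (nat_lit 3352871893) (nat_lit 152) (nat_lit 10999088884) (nat_lit 76) (nat_lit 32892306402) (nat_lit 25) (nat_lit 5) (nat_lit 27) (nat_lit 5) (nat_lit 26) (nat_lit 4) (nat_lit 481) (nat_lit 390) (nat_lit 329)))) (XT.nd (nat_lit 156) (nat_lit 228) (nat_lit 0) (XT.nd (nat_lit 78) (nat_lit 0) (nat_lit 0) (XT.lf (nat_lit 0) (nat_lit 18251891183) (nat_lit 152) (nat_lit 29964168778) (nat_lit 0) (nat_lit 920850964) (nat_lit 24) (nat_lit 5) (nat_lit 26) (nat_lit 4) (nat_lit 24) (nat_lit 4) (nat_lit 482) (nat_lit 390) (nat_lit 328)) (XT.lf (nat_lit 0) (nat_lit 34086514328) (nat_lit 152) (nat_lit 318599978) (nat_lit 0) (nat_lit 16713354280) (nat_lit 24) (nat_lit 5) (nat_lit 26) (nat_lit 4) (nat_lit 24) (nat_lit 4) (nat_lit 483) (nat_lit 390) (nat_lit 327))) (XT.nd (nat_lit 78) (nat_lit 152)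 (nat_lit 0) (XT.lf (nat_lit 0) (nat_lit 31291432610) (nat_lit 76) (nat_lit 19656940899) (nat_lit 76) (nat_lit 2243666727) (nat_lit 23) (nat_lit 4) (nat_lit 24) (nat_lit 5) (nat_lit 24) (nat_lit 4) (nat_lit 484) (nat_lit 390) (nat_lit 326)) (XT.lf (nat_lit 0) (nat_lit 9042133404) (nat_lit 76) (nat_lit 4008906745) (nat_lit 152) (nat_lit 42313633920) (nat_lit 21) (nat_lit 5) (nat_lit 22) (nat_lit 5) (nat_lit 23) (nat_lit 4) (nat_lit 485) (nat_lit 390) (nat_lit 325)))))) (XT.nd (nat_lit 468) (nat_lit 380) (nat_lit 0) (XT.nd (nat_lit 234) (nat_lit 152) (nat_lit 0) (XT.nd (nat_lit 78) (nat_lit 152) (nat_lit 0) (XT.lf (nat_lit 0) (nat_lit 29348879763) (nat_lit 152) (nat_lit 15917478304) (nat_lit 0) (nat_lit 12370372197) (nat_lit 21) (nat_lit 5) (nat_lit 23) (nat_lit 4) (nat_lit 21) (nat_lit 4) (nat_lit 486) (nat_lit 390) (nat_lit 324)) (XT.nd (nat_lit 78) (nat_lit 76) (nat_lit 0) (XT.lf (nat_lit 0) (nat_lit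 16165011381) (nat_lit 76) (nat_lit 30432722811) (nat_lit 76) (nat_lit 13420572441) (nat_lit 20) (nat_lit 4) (nat_lit 21) (nat_lit 5) (nat_lit 21) (nat_lit 4) (nat_lit 487) (nat_lit 390) (nat_lit 323)) (XT.lf (nat_lit 0) (nat_lit 2254253305) (nat_lit 152) (nat_lit 12468056925) (nat_lit 76) (nat_lit 47792813397) (nat_lit 19) (nat_lit 5) (nat_lit 21) (nat_lit 5) (nat_lit 20) (nat_lit 4) (nat_lit 488) (nat_lit 390) (nat_lit 322)))) (XT.nd (nat_lit 78) (nat_lit 76) (nat_lit 0) (XT.lf (nat_lit 0) (nat_lit 18600345302) (nat_lit 152) (nat_lit 44504537604) (nat_lit 0) (nat_lit 2022960690) (nat_lit 18) (nat_lit 5) (nat_lit 20) (nat_lit 4) (nat_lit 18) (nat_lit 4) (nat_lit 489) (nat_lit 390) (nat_lit 321)) (XT.nd (nat_lit 78) (nat_lit 76) (nat_lit 0) (XT.lf (nat_lit 0) (nat_lit 35987306286) (nat_lit 152) (nat_lit 12495481011) (nat_lit 0) (nat_lit 19381706217) (nat_lit 18) (nat_lit 5) (nat_lit 20) (nat_lit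 4) (nat_lit 18) (nat_lit 4) (nat_lit 490) (nat_lit 390) (nat_lit 320)) (XT.lf (nat_lit 0) (nat_lit 21429288115) (nat_lit 76) (nat_lit 32968271132) (nat_lit 76) (nat_lit 16335799201) (nat_lit 17) (nat_lit 4) (nat_lit 18) (nat_lit 5) (nat_lit 18) (nat_lit 4) (nat_lit 491) (nat_lit 390) (nat_lit 319))))) (XT.nd (nat_lit 234) (nat_lit 228) (nat_lit 0) (XT.nd (nat_lit 78) (nat_lit 76) (nat_lit 0) (XT.lf (nat_lit 0) (nat_lit 61869207) (nat_lit 152) (nat_lit 16532469689) (nat_lit 76) (nat_lit 57148967332) (nat_lit 16) (nat_lit 5) (nat_lit 18) (nat_lit 5) (nat_lit 17) (nat_lit 4) (nat_lit 492) (nat_lit 390) (nat_lit 318)) (XT.nd (nat_lit 78) (nat_lit 0) (nat_lit 0) (XT.lf (nat_lit 0) (nat_lit 17077460242) (nat_lit 152) (nat_lit 58936444282) (nat_lit 0) (nat_lit 880918735) (nat_lit 15) (nat_lit 5) (nat_lit 17) (nat_lit 4) (nat_lit 15) (nat_lit 4) (nat_lit 493) (nat_lit 390) (nat_lit 317)) (XT.lf (nat_lit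 0) (nat_lit 35235564992) (nat_lit 152) (nat_lit 25943113166) (nat_lit 0) (nat_lit 19016486665) (nat_lit 15) (nat_lit 5) (nat_lit 17) (nat_lit 4) (nat_lit 15) (nat_lit 4) (nat_lit 494) (nat_lit 390) (nat_lit 316)))) (XT.nd (nat_lit 156) (nat_lit 152) (nat_lit 0) (XT.nd (nat_lit 78) (nat_lit 0) (nat_lit 0) (XT.lf (nat_lit 0) (nat_lit 8781357561) (nat_lit 76) (nat_lit 45559268503) (nat_lit 76) (nat_lit 29318726537) (nat_lit 14) (nat_lit 4) (nat_lit 15) (nat_lit 5) (nat_lit 15) (nat_lit 4) (nat_lit 495) (nat_lit 390) (nat_lit 315)) (XT.lf (nat_lit 0) (nat_lit 45696880202) (nat_lit 76) (nat_lit 28927081542) (nat_lit 76) (nat_lit 12666098016) (nat_lit 14) (nat_lit 4) (nat_lit 15) (nat_lit 5) (nat_lit 15) (nat_lit 4) (nat_lit 496) (nat_lit 390) (nat_lit 314))) (XT.nd (nat_lit 78) (nat_lit 76) (nat_lit 0) (XT.lf (nat_lit 0) (nat_lit 4682764086) (nat_lit 152) (nat_lit 6774440583) (nat_lit 76) (nat_lit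 79644979214) (nat_lit 13) (nat_lit 5) (nat_lit 15) (nat_lit 5) (nat_lit 14) (nat_lit 4) (nat_lit 497) (nat_lit 390) (nat_lit 313)) (XT.lf (nat_lit 0) (nat_lit 22959132680) (nat_lit 152) (nat_lit 64997491509) (nat_lit 0) (nat_lit 7134867847) (nat_lit 12) (nat_lit 5) (nat_lit 14) (nat_lit 4) (nat_lit 12) (nat_lit 4) (nat_lit 498) (nat_lit 390) (nat_lit 312))))))))
noncomputable def xc32 : XT := (XT.nd (nat_lit 1950) (nat_lit 4180) (nat_lit 0) (XT.nd (nat_lit 936) (nat_lit 4560) (nat_lit 0) (XT.nd (nat_lit 468) (nat_lit 3420) (nat_lit 0) (XT.nd (nat_lit 234) (nat_lit 2128) (nat_lit 0) (XT.nd (nat_lit 78) (nat_lit 1216) (nat_lit 0) (XT.lf (nat_lit 0) (nat_lit 211023389) (nat_lit 608) (nat_lit 1742959843) (nat_lit 608) (nat_lit 1742959843) (nat_lit 246) (nat_lit 4) (nat_lit 254) (nat_lit 5) (nat_lit 254) (nat_lit 4) (nat_lit 418) (nat_lit 391) (nat_lit 391)) (XT.nd (nat_lit 78) (nat_lit 608) (nat_lit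 0) (XT.lf (nat_lit 0) (nat_lit 2454393274) (nat_lit 608) (nat_lit 5011867052) (nat_lit 0) (nat_lit 38705135) (nat_lit 238) (nat_lit 5) (nat_lit 246) (nat_lit 4) (nat_lit 238) (nat_lit 4) (nat_lit 419) (nat_lit 391) (nat_lit 390)) (XT.lf (nat_lit 0) (nat_lit 857849180) (nat_lit 608) (nat_lit 2974909673) (nat_lit 76) (nat_lit 3791237677) (nat_lit 230) (nat_lit 5) (nat_lit 238) (nat_lit 5) (nat_lit 231) (nat_lit 4) (nat_lit 420) (nat_lit 391) (nat_lit 389)))) (XT.nd (nat_lit 78) (nat_lit 1596) (nat_lit 0) (XT.lf (nat_lit 0) (nat_lit 6811649696) (nat_lit 608) (nat_lit 834869830) (nat_lit 0) (nat_lit 105393518) (nat_lit 223) (nat_lit 5) (nat_lit 231) (nat_lit 4) (nat_lit 223) (nat_lit 4) (nat_lit 421) (nat_lit 391) (nat_lit 388)) (XT.nd (nat_lit 78) (nat_lit 532) (nat_lit 0) (XT.lf (nat_lit 0) (nat_lit 1398374171) (nat_lit 456) (nat_lit 3592075635) (nat_lit 532) (nat_lit 2896907417) (nat_lit 209) (nat_lit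 5) (nat_lit 215) (nat_lit 5) (nat_lit 216) (nat_lit 4) (nat_lit 422) (nat_lit 391) (nat_lit 387)) (XT.lf (nat_lit 0) (nat_lit 2993330804) (nat_lit 532) (nat_lit 4274748491) (nat_lit 76) (nat_lit 763771636) (nat_lit 202) (nat_lit 5) (nat_lit 209) (nat_lit 5) (nat_lit 203) (nat_lit 4) (nat_lit 423) (nat_lit 391) (nat_lit 386))))) (XT.nd (nat_lit 234) (nat_lit 1596) (nat_lit 0) (XT.nd (nat_lit 78) (nat_lit 1292) (nat_lit 0) (XT.lf (nat_lit 0) (nat_lit 833035150) (nat_lit 532) (nat_lit 1987943676) (nat_lit 76) (nat_lit 5364037872) (nat_lit 195) (nat_lit 5) (nat_lit 202) (nat_lit 5) (nat_lit 196) (nat_lit 5) (nat_lit 424) (nat_lit 391) (nat_lit 385)) (XT.nd (nat_lit 78) (nat_lit 456) (nat_lit 0) (XT.lf (nat_lit 0) (nat_lit 382812771) (nat_lit 380) (nat_lit 6422273977) (nat_lit 456) (nat_lit 1541973729) (nat_lit 184) (nat_lit 5) (nat_lit 189) (nat_lit 5) (nat_lit 190) (nat_lit 4) (nat_lit 425) (nat_lit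 391) (nat_lit 384)) (XT.lf (nat_lit 0) (nat_lit 2867768964) (nat_lit 380) (nat_lit 1546446297) (nat_lit 456) (nat_lit 4103383806) (nat_lit 178) (nat_lit 5) (nat_lit 183) (nat_lit 5) (nat_lit 184) (nat_lit 5) (nat_lit 426) (nat_lit 391) (nat_lit 383)))) (XT.nd (nat_lit 78) (nat_lit 1140) (nat_lit 0) (XT.lf (nat_lit 0) (nat_lit 1840518300) (nat_lit 456) (nat_lit 3266757987) (nat_lit 76) (nat_lit 3590265741) (nat_lit 172) (nat_lit 5) (nat_lit 178) (nat_lit 5) (nat_lit 173) (nat_lit 5) (nat_lit 427) (nat_lit 391) (nat_lit 382)) (XT.nd (nat_lit 78) (nat_lit 760) (nat_lit 0) (XT.lf (nat_lit 0) (nat_lit 7925967163) (nat_lit 456) (nat_lit 805315273) (nat_lit 76) (nat_lit 156145108) (nat_lit 167) (nat_lit 5) (nat_lit 173) (nat_lit 5) (nat_lit 168) (nat_lit 4) (nat_lit 428) (nat_lit 391) (nat_lit 381)) (XT.lf (nat_lit 0) (nat_lit 1724398502) (nat_lit 380) (nat_lit 3390073906) (nat_lit 456) (nat_lit 3971235908)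 (nat_lit 157) (nat_lit 5) (nat_lit 162) (nat_lit 5) (nat_lit 163) (nat_lit 5) (nat_lit 429) (nat_lit 391) (nat_lit 380)))))) (XT.nd (nat_lit 468) (nat_lit 2280) (nat_lit 0) (XT.nd (nat_lit 234) (nat_lit 912) (nat_lit 0) (XT.nd (nat_lit 78) (nat_lit 988) (nat_lit 0) (XT.lf (nat_lit 0) (nat_lit 2093818604) (nat_lit 380) (nat_lit 4939479232) (nat_lit 76) (nat_lit 2261055487) (nat_lit 152) (nat_lit 5) (nat_lit 157) (nat_lit 5) (nat_lit 153) (nat_lit 5) (nat_lit 430) (nat_lit 391) (nat_lit 379)) (XT.nd (nat_lit 78) (nat_lit 684) (nat_lit 0) (XT.lf (nat_lit 0) (nat_lit 7048017730) (nat_lit 304) (nat_lit 1299654856) (nat_lit 380) (nat_lit 1165581228) (nat_lit 148) (nat_lit 5) (nat_lit 152) (nat_lit 5) (nat_lit 153) (nat_lit 5) (nat_lit 431) (nat_lit 391) (nat_lit 378)) (XT.lf (nat_lit 0) (nat_lit 39974077) (nat_lit 304) (nat_lit 5016291057) (nat_lit 380) (nat_lit 4685792039) (nat_lit 139) (nat_lit 5)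 (nat_lit 143) (nat_lit 5) (nat_lit 144) (nat_lit 5) (nat_lit 432) (nat_lit 391) (nat_lit 377)))) (XT.nd (nat_lit 78) (nat_lit 608) (nat_lit 0) (XT.lf (nat_lit 0) (nat_lit 1547610396) (nat_lit 304) (nat_lit 7312757715) (nat_lit 76) (nat_lit 1121297375) (nat_lit 135) (nat_lit 5) (nat_lit 139) (nat_lit 5) (nat_lit 136) (nat_lit 5) (nat_lit 433) (nat_lit 391) (nat_lit 376)) (XT.nd (nat_lit 78) (nat_lit 304) (nat_lit 0) (XT.lf (nat_lit 0) (nat_lit 5324487638) (nat_lit 304) (nat_lit 2675117829) (nat_lit 380) (nat_lit 2232168965) (nat_lit 131) (nat_lit 5) (nat_lit 135) (nat_lit 5) (nat_lit 136) (nat_lit 5) (nat_lit 434) (nat_lit 391) (nat_lit 375)) (XT.lf (nat_lit 0) (nat_lit 4192323089) (nat_lit 304) (nat_lit 2468672008) (nat_lit 76) (nat_lit 3832303697) (nat_lit 127) (nat_lit 5) (nat_lit 131) (nat_lit 5) (nat_lit 128) (nat_lit 5) (nat_lit 435) (nat_lit 391) (nat_lit 374))))) (XT.nd (nat_lit 234) (nat_lit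 1140) (nat_lit 0) (XT.nd (nat_lit 78) (nat_lit 532) (nat_lit 0) (XT.lf (nat_lit 0) (nat_lit 29676945) (nat_lit 228) (nat_lit 85260098) (nat_lit 304) (nat_lit 10652504529) (nat_lit 119) (nat_lit 5) (nat_lit 122) (nat_lit 5) (nat_lit 123) (nat_lit 5) (nat_lit 436) (nat_lit 391) (nat_lit 373)) (XT.nd (nat_lit 78) (nat_lit 304) (nat_lit 0) (XT.lf (nat_lit 0) (nat_lit 2555757364) (nat_lit 228) (nat_lit 4228745525) (nat_lit 304) (nat_lit 4267043864) (nat_lit 116) (nat_lit 5) (nat_lit 119) (nat_lit 5) (nat_lit 120) (nat_lit 5) (nat_lit 437) (nat_lit 391) (nat_lit 372)) (XT.lf (nat_lit 0) (nat_lit 2394108571) (nat_lit 304) (nat_lit 6212230916) (nat_lit 76) (nat_lit 2742715445) (nat_lit 112) (nat_lit 5) (nat_lit 116) (nat_lit 5) (nat_lit 113) (nat_lit 5) (nat_lit 438) (nat_lit 391) (nat_lit 371)))) (XT.nd (nat_lit 156) (nat_lit 684) (nat_lit 0) (XT.nd (nat_lit 78) (nat_lit 228) (nat_lit 0) (XT.lf (nat_lit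 0) (nat_lit 7735845738) (nat_lit 228) (nat_lit 1590252735) (nat_lit 304) (nat_lit 2333311097) (nat_lit 109) (nat_lit 5) (nat_lit 112) (nat_lit 5) (nat_lit 113) (nat_lit 5) (nat_lit 439) (nat_lit 391) (nat_lit 370)) (XT.lf (nat_lit 0) (nat_lit 4574106768) (nat_lit 228) (nat_lit 1648509397) (nat_lit 76) (nat_lit 5760006271) (nat_lit 106) (nat_lit 5) (nat_lit 109) (nat_lit 5) (nat_lit 107) (nat_lit 5) (nat_lit 440) (nat_lit 391) (nat_lit 369))) (XT.nd (nat_lit 78) (nat_lit 304) (nat_lit 0) (XT.lf (nat_lit 0) (nat_lit 671035075) (nat_lit 152) (nat_lit 11136203271) (nat_lit 228) (nat_lit 513223603) (nat_lit 101) (nat_lit 5) (nat_lit 103) (nat_lit 5) (nat_lit 104) (nat_lit 4) (nat_lit 441) (nat_lit 391) (nat_lit 368)) (XT.lf (nat_lit 0) (nat_lit 2973585654) (nat_lit 228) (nat_lit 3701058537) (nat_lit 304) (nat_lit 5996252855) (nat_lit 97) (nat_lit 5) (nat_lit 100) (nat_lit 5) (nat_lit 101) (nat_lit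 5) (nat_lit 442) (nat_lit 391) (nat_lit 367))))))) (XT.nd (nat_lit 936) (nat_lit 1748) (nat_lit 0) (XT.nd (nat_lit 468) (nat_lit 1064) (nat_lit 0) (XT.nd (nat_lit 234) (nat_lit 684) (nat_lit 0) (XT.nd (nat_lit 78) (nat_lit 456) (nat_lit 0) (XT.lf (nat_lit 0) (nat_lit 1194411331) (nat_lit 228) (nat_lit 7744526412) (nat_lit 76) (nat_lit 4098099044) (nat_lit 94) (nat_lit 5) (nat_lit 97) (nat_lit 5) (nat_lit 95) (nat_lit 5) (nat_lit 443) (nat_lit 391) (nat_lit 366)) (XT.nd (nat_lit 78) (nat_lit 228) (nat_lit 0) (XT.lf (nat_lit 0) (nat_lit 7581024141) (nat_lit 228) (nat_lit 1088035512) (nat_lit 304) (nat_lit 4749202794) (nat_lit 91) (nat_lit 5) (nat_lit 94) (nat_lit 5) (nat_lit 95) (nat_lit 5) (nat_lit 444) (nat_lit 391) (nat_lit 365)) (XT.lf (nat_lit 0) (nat_lit 2731425818) (nat_lit 228) (nat_lit 3980933346) (nat_lit 76) (nat_lit 7102868759) (nat_lit 88) (nat_lit 5) (nat_lit 91) (nat_lit 5) (nat_lit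 89) (nat_lit 5) (nat_lit 445) (nat_lit 391) (nat_lit 364)))) (XT.nd (nat_lit 78) (nat_lit 532) (nat_lit 0) (XT.lf (nat_lit 0) (nat_lit 10535346161) (nat_lit 228) (nat_lit 2161910063) (nat_lit 76) (nat_lit 1531962583) (nat_lit 86) (nat_lit 5) (nat_lit 89) (nat_lit 5) (nat_lit 87) (nat_lit 4) (nat_lit 446) (nat_lit 391) (nat_lit 363)) (XT.nd (nat_lit 78) (nat_lit 304) (nat_lit 0) (XT.lf (nat_lit 0) (nat_lit 4081032943) (nat_lit 228) (nat_lit 422373234) (nat_lit 76) (nat_lit 10156497543) (nat_lit 83) (nat_lit 5) (nat_lit 86) (nat_lit 5) (nat_lit 84) (nat_lit 5) (nat_lit 447) (nat_lit 391) (nat_lit 362)) (XT.lf (nat_lit 0) (nat_lit 1282385887) (nat_lit 152) (nat_lit 10970356053) (nat_lit 228) (nat_lit 2855760918) (nat_lit 79) (nat_lit 5) (nat_lit 81) (nat_lit 5) (nat_lit 82) (nat_lit 4) (nat_lit 448) (nat_lit 391) (nat_lit 361))))) (XT.nd (nat_lit 234) (nat_lit 456) (nat_lit 0) (XT.nd (nat_lit 78)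 (nat_lit 380) (nat_lit 0) (XT.lf (nat_lit 0) (nat_lit 2904674641) (nat_lit 152) (nat_lit 2331279508) (nat_lit 228) (nat_lit 10339523823) (nat_lit 76) (nat_lit 5) (nat_lit 78) (nat_lit 5) (nat_lit 79) (nat_lit 5) (nat_lit 449) (nat_lit 391) (nat_lit 360)) (XT.nd (nat_lit 78) (nat_lit 228) (nat_lit 0) (XT.lf (nat_lit 0) (nat_lit 4425941663) (nat_lit 152) (nat_lit 9352635842) (nat_lit 228) (nat_lit 2283224046) (nat_lit 74) (nat_lit 5) (nat_lit 76) (nat_lit 5) (nat_lit 77) (nat_lit 4) (nat_lit 450) (nat_lit 391) (nat_lit 359)) (XT.lf (nat_lit 0) (nat_lit 5843547790) (nat_lit 152) (nat_lit 280102613) (nat_lit 228) (nat_lit 10444970469) (nat_lit 71) (nat_lit 5) (nat_lit 73) (nat_lit 5) (nat_lit 74) (nat_lit 5) (nat_lit 451) (nat_lit 391) (nat_lit 358)))) (XT.nd (nat_lit 78) (nat_lit 304) (nat_lit 0) (XT.lf (nat_lit 0) (nat_lit 7112888562) (nat_lit 152) (nat_lit 7929557094) (nat_lit 228) (nat_lit 2053501735)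 (nat_lit 69) (nat_lit 5) (nat_lit 71) (nat_lit 5) (nat_lit 72) (nat_lit 4) (nat_lit 452) (nat_lit 391) (nat_lit 357)) (XT.nd (nat_lit 78) (nat_lit 76) (nat_lit 0) (XT.lf (nat_lit 0) (nat_lit 6697662473) (nat_lit 228) (nat_lit 9399391014) (nat_lit 76) (nat_lit 1548486156) (nat_lit 66) (nat_lit 5) (nat_lit 69) (nat_lit 5) (nat_lit 67) (nat_lit 4) (nat_lit 453) (nat_lit 391) (nat_lit 356)) (XT.lf (nat_lit 0) (nat_lit 9206965718) (nat_lit 76) (nat_lit 6775836622) (nat_lit 152) (nat_lit 2235039956) (nat_lit 65) (nat_lit 5) (nat_lit 66) (nat_lit 5) (nat_lit 67) (nat_lit 4) (nat_lit 454) (nat_lit 391) (nat_lit 355)))))) (XT.nd (nat_lit 468) (nat_lit 836) (nat_lit 0) (XT.nd (nat_lit 234) (nat_lit 380) (nat_lit 0) (XT.nd (nat_lit 78) (nat_lit 304) (nat_lit 0) (XT.lf (nat_lit 0) (nat_lit 6871872002) (nat_lit 228) (nat_lit 8835588862) (nat_lit 76) (nat_lit 3106512157) (nat_lit 62) (nat_lit 5) (nat_lit 65)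 (nat_lit 5) (nat_lit 63) (nat_lit 4) (nat_lit 455) (nat_lit 391) (nat_lit 354)) (XT.nd (nat_lit 78) (nat_lit 228) (nat_lit 0) (XT.lf (nat_lit 0) (nat_lit 10543973791) (nat_lit 76) (nat_lit 5979667067) (nat_lit 152) (nat_lit 2911539963) (nat_lit 61) (nat_lit 5) (nat_lit 62) (nat_lit 5) (nat_lit 63) (nat_lit 4) (nat_lit 456) (nat_lit 391) (nat_lit 353)) (XT.lf (nat_lit 0) (nat_lit 6555796646) (nat_lit 228) (nat_lit 9218312680) (nat_lit 76) (nat_lit 4308046987) (nat_lit 58) (nat_lit 5) (nat_lit 61) (nat_lit 5) (nat_lit 59) (nat_lit 4) (nat_lit 457) (nat_lit 391) (nat_lit 352)))) (XT.nd (nat_lit 78) (nat_lit 304) (nat_lit 0) (XT.lf (nat_lit 0) (nat_lit 10926474602) (nat_lit 76) (nat_lit 5645490776) (nat_lit 152) (nat_lit 4184585674) (nat_lit 57) (nat_lit 5) (nat_lit 58) (nat_lit 5) (nat_lit 59) (nat_lit 4) (nat_lit 458) (nat_lit 391) (nat_lit 351)) (XT.nd (nat_lit 78) (nat_lit 76) (nat_lit 0) (XT.lf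 (nat_lit 0) (nat_lit 5642853654) (nat_lit 228) (nat_lit 10771896696) (nat_lit 76) (nat_lit 5044448733) (nat_lit 54) (nat_lit 5) (nat_lit 57) (nat_lit 5) (nat_lit 55) (nat_lit 4) (nat_lit 459) (nat_lit 391) (nat_lit 350)) (XT.lf (nat_lit 0) (nat_lit 10117573356) (nat_lit 76) (nat_lit 5897229058) (nat_lit 152) (nat_lit 6176748740) (nat_lit 53) (nat_lit 5) (nat_lit 54) (nat_lit 5) (nat_lit 55) (nat_lit 4) (nat_lit 460) (nat_lit 391) (nat_lit 349))))) (XT.nd (nat_lit 234) (nat_lit 304) (nat_lit 0) (XT.nd (nat_lit 78) (nat_lit 304) (nat_lit 0) (XT.lf (nat_lit 0) (nat_lit 4004372931) (nat_lit 228) (nat_lit 13764498128) (nat_lit 76) (nat_lit 5186421119) (nat_lit 50) (nat_lit 5) (nat_lit 53) (nat_lit 5) (nat_lit 51) (nat_lit 4) (nat_lit 461) (nat_lit 391) (nat_lit 348)) (XT.nd (nat_lit 78) (nat_lit 228) (nat_lit 0) (XT.lf (nat_lit 0) (nat_lit 7833623175) (nat_lit 76) (nat_lit 6882049322) (nat_lit 152)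 (nat_lit 9035251504) (nat_lit 49) (nat_lit 5) (nat_lit 50) (nat_lit 5) (nat_lit 51) (nat_lit 4) (nat_lit 462) (nat_lit 391) (nat_lit 347)) (XT.lf (nat_lit 0) (nat_lit 1485712342) (nat_lit 228) (nat_lit 18516106036) (nat_lit 76) (nat_lit 4580035238) (nat_lit 46) (nat_lit 5) (nat_lit 49) (nat_lit 5) (nat_lit 47) (nat_lit 4) (nat_lit 463) (nat_lit 391) (nat_lit 346)))) (XT.nd (nat_lit 156) (nat_lit 152) (nat_lit 0) (XT.nd (nat_lit 78) (nat_lit 76) (nat_lit 0) (XT.lf (nat_lit 0) (nat_lit 3735664521) (nat_lit 76) (nat_lit 8774766280) (nat_lit 152) (nat_lit 12936281986) (nat_lit 45) (nat_lit 5) (nat_lit 46) (nat_lit 5) (nat_lit 47) (nat_lit 4) (nat_lit 464) (nat_lit 391) (nat_lit 345)) (XT.lf (nat_lit 0) (nat_lit 922571885) (nat_lit 76) (nat_lit 23288430451) (nat_lit 76) (nat_lit 2140077773) (nat_lit 44) (nat_lit 4) (nat_lit 45) (nat_lit 5) (nat_lit 45) (nat_lit 4) (nat_lit 465) (nat_lit 391) (nat_lit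 344))) (XT.nd (nat_lit 78) (nat_lit 76) (nat_lit 0) (XT.lf (nat_lit 0) (nat_lit 9227176148) (nat_lit 152) (nat_lit 2530262536) (nat_lit 76) (nat_lit 15534258070) (nat_lit 43) (nat_lit 5) (nat_lit 45) (nat_lit 5) (nat_lit 44) (nat_lit 4) (nat_lit 466) (nat_lit 391) (nat_lit 343)) (XT.lf (nat_lit 0) (nat_lit 21233907593) (nat_lit 152) (nat_lit 6554156675) (nat_lit 0) (nat_lit 487186314) (nat_lit 42) (nat_lit 5) (nat_lit 44) (nat_lit 4) (nat_lit 42) (nat_lit 4) (nat_lit 467) (nat_lit 391) (nat_lit 342))))))))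
noncomputable def xc33 : XT := (XT.nd (nat_lit 1950) (nat_lit 304) (nat_lit 0) (XT.nd (nat_lit 936) (nat_lit 836) (nat_lit 0) (XT.nd (nat_lit 468) (nat_lit 456) (nat_lit 0) (XT.nd (nat_lit 234) (nat_lit 304) (nat_lit 0) (XT.nd (nat_lit 78) (nat_lit 152) (nat_lit 0) (XT.lf (nat_lit 0) (nat_lit 4667931905) (nat_lit 152) (nat_lit 11370396765) (nat_lit 76) (nat_lit 13261647428) (nat_lit 40) (nat_lit 5) (nat_lit 42) (nat_lit 5) (nat_lit 41) (nat_lit 4) (nat_lit 468) (nat_lit 391) (nat_lit 341)) (XT.nd (nat_lit 78) (nat_lit 76) (nat_lit 0) (XT.lf (nat_lit 0) (nat_lit 13408054858) (nat_lit 76) (nat_lit 3512727836) (nat_lit 152) (nat_lit 13449954446) (nat_lit 39) (nat_lit 5) (nat_lit 40) (nat_lit 5) (nat_lit 41) (nat_lit 4) (nat_lit 469) (nat_lit 391) (nat_lit 340)) (XT.lf (nat_lit 0) (nat_lit 8055786538) (nat_lit 76) (nat_lit 21926134989) (nat_lit 76) (nat_lit 1507248079) (nat_lit 38) (nat_lit 4) (nat_lit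 39) (nat_lit 5) (nat_lit 39) (nat_lit 4) (nat_lit 470) (nat_lit 391) (nat_lit 339)))) (XT.nd (nat_lit 78) (nat_lit 152) (nat_lit 0) (XT.lf (nat_lit 0) (nat_lit 1736225619) (nat_lit 76) (nat_lit 9218762415) (nat_lit 152) (nat_lit 21701226229) (nat_lit 36) (nat_lit 5) (nat_lit 37) (nat_lit 5) (nat_lit 38) (nat_lit 4) (nat_lit 471) (nat_lit 391) (nat_lit 338)) (XT.nd (nat_lit 78) (nat_lit 152) (nat_lit 0) (XT.lf (nat_lit 0) (nat_lit 24203789765) (nat_lit 152) (nat_lit 5450210132) (nat_lit 0) (nat_lit 4221327189) (nat_lit 36) (nat_lit 5) (nat_lit 38) (nat_lit 4) (nat_lit 36) (nat_lit 4) (nat_lit 472) (nat_lit 391) (nat_lit 337)) (XT.lf (nat_lit 0) (nat_lit 3118598163) (nat_lit 152) (nat_lit 13725250942) (nat_lit 76) (nat_lit 18304193721) (nat_lit 34) (nat_lit 5) (nat_lit 36) (nat_lit 5) (nat_lit 35) (nat_lit 4) (nat_lit 473) (nat_lit 391) (nat_lit 336))))) (XT.nd (nat_lit 234) (nat_lit 228) (nat_lit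 0) (XT.nd (nat_lit 78) (nat_lit 152) (nat_lit 0) (XT.lf (nat_lit 0) (nat_lit 13270081508) (nat_lit 76) (nat_lit 3181212742) (nat_lit 152) (nat_lit 20027137209) (nat_lit 33) (nat_lit 5) (nat_lit 34) (nat_lit 5) (nat_lit 35) (nat_lit 4) (nat_lit 474) (nat_lit 391) (nat_lit 335)) (XT.nd (nat_lit 78) (nat_lit 76) (nat_lit 0) (XT.lf (nat_lit 0) (nat_lit 3838702815) (nat_lit 76) (nat_lit 26817541467) (nat_lit 76) (nat_lit 7212928689) (nat_lit 32) (nat_lit 4) (nat_lit 33) (nat_lit 5) (nat_lit 33) (nat_lit 4) (nat_lit 475) (nat_lit 391) (nat_lit 334)) (XT.lf (nat_lit 0) (nat_lit 6313889671) (nat_lit 152) (nat_lit 6849095282) (nat_lit 76) (nat_lit 26158857327) (nat_lit 31) (nat_lit 5) (nat_lit 33) (nat_lit 5) (nat_lit 32) (nat_lit 4) (nat_lit 476) (nat_lit 391) (nat_lit 333)))) (XT.nd (nat_lit 78) (nat_lit 152) (nat_lit 0) (XT.lf (nat_lit 0) (nat_lit 20517269799) (nat_lit 152) (nat_lit 18956500189) (nat_lit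 0) (nat_lit 1366752535) (nat_lit 30) (nat_lit 5) (nat_lit 32) (nat_lit 4) (nat_lit 30) (nat_lit 4) (nat_lit 477) (nat_lit 391) (nat_lit 332)) (XT.nd (nat_lit 78) (nat_lit 76) (nat_lit 0) (XT.lf (nat_lit 0) (nat_lit 9673793376) (nat_lit 76) (nat_lit 25979747753) (nat_lit 76) (nat_lit 6774915679) (nat_lit 29) (nat_lit 4) (nat_lit 30) (nat_lit 5) (nat_lit 30) (nat_lit 4) (nat_lit 478) (nat_lit 391) (nat_lit 331)) (XT.lf (nat_lit 0) (nat_lit 7429655852) (nat_lit 152) (nat_lit 4174359081) (nat_lit 76) (nat_lit 32485899471) (nat_lit 28) (nat_lit 5) (nat_lit 30) (nat_lit 5) (nat_lit 29) (nat_lit 4) (nat_lit 479) (nat_lit 391) (nat_lit 330)))))) (XT.nd (nat_lit 468) (nat_lit 456) (nat_lit 0) (XT.nd (nat_lit 234) (nat_lit 152) (nat_lit 0) (XT.nd (nat_lit 78) (nat_lit 152) (nat_lit 0) (XT.lf (nat_lit 0) (nat_lit 22423611544) (nat_lit 152) (nat_lit 19722152792) (nat_lit 0) (nat_lit 3680091549) (nat_lit 27)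 (nat_lit 5) (nat_lit 29) (nat_lit 4) (nat_lit 27) (nat_lit 4) (nat_lit 480) (nat_lit 391) (nat_lit 329)) (XT.nd (nat_lit 78) (nat_lit 76) (nat_lit 0) (XT.lf (nat_lit 0) (nat_lit 10285427529) (nat_lit 76) (nat_lit 28073249286) (nat_lit 76) (nat_lit 9284176694) (nat_lit 26) (nat_lit 4) (nat_lit 27) (nat_lit 5) (nat_lit 27) (nat_lit 4) (nat_lit 481) (nat_lit 391) (nat_lit 328)) (XT.lf (nat_lit 0) (nat_lit 5570085797) (nat_lit 152) (nat_lit 7525181849) (nat_lit 76) (nat_lit 36449685342) (nat_lit 25) (nat_lit 5) (nat_lit 27) (nat_lit 5) (nat_lit 26) (nat_lit 4) (nat_lit 482) (nat_lit 391) (nat_lit 327)))) (XT.nd (nat_lit 78) (nat_lit 76) (nat_lit 0) (XT.lf (nat_lit 0) (nat_lit 21172474900) (nat_lit 152) (nat_lit 27512580486) (nat_lit 0) (nat_lit 2848422895) (nat_lit 24) (nat_lit 5) (nat_lit 26) (nat_lit 4) (nat_lit 24) (nat_lit 4) (nat_lit 483) (nat_lit 391) (nat_lit 326)) (XT.nd (nat_lit 78) (nat_lit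 0) (nat_lit 0) (XT.lf (nat_lit 0) (nat_lit 3495388821) (nat_lit 76) (nat_lit 34241421666) (nat_lit 76) (nat_lit 15879165734) (nat_lit 23) (nat_lit 4) (nat_lit 24) (nat_lit 5) (nat_lit 24) (nat_lit 4) (nat_lit 484) (nat_lit 391) (nat_lit 325)) (XT.lf (nat_lit 0) (nat_lit 36509886717) (nat_lit 76) (nat_lit 18842334180) (nat_lit 76) (nat_lit 443693555) (nat_lit 23) (nat_lit 4) (nat_lit 24) (nat_lit 5) (nat_lit 24) (nat_lit 4) (nat_lit 485) (nat_lit 391) (nat_lit 324))))) (XT.nd (nat_lit 234) (nat_lit 228) (nat_lit 0) (XT.nd (nat_lit 78) (nat_lit 76) (nat_lit 0) (XT.lf (nat_lit 0) (nat_lit 13079661178) (nat_lit 76) (nat_lit 2443961428) (nat_lit 152) (nat_lit 42554651951) (nat_lit 21) (nat_lit 5) (nat_lit 22) (nat_lit 5) (nat_lit 23) (nat_lit 4) (nat_lit 486) (nat_lit 391) (nat_lit 323)) (XT.nd (nat_lit 78) (nat_lit 76) (nat_lit 0) (XT.lf (nat_lit 0) (nat_lit 32565848002) (nat_lit 152) (nat_lit 13262795739)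 (nat_lit 0) (nat_lit 14637406544) (nat_lit 21) (nat_lit 5) (nat_lit 23) (nat_lit 4) (nat_lit 21) (nat_lit 4) (nat_lit 487) (nat_lit 391) (nat_lit 322)) (XT.lf (nat_lit 0) (nat_lit 20324908922) (nat_lit 76) (nat_lit 30301143634) (nat_lit 76) (nat_lit 12342187161) (nat_lit 20) (nat_lit 4) (nat_lit 21) (nat_lit 5) (nat_lit 21) (nat_lit 4) (nat_lit 488) (nat_lit 391) (nat_lit 321)))) (XT.nd (nat_lit 156) (nat_lit 76) (nat_lit 0) (XT.nd (nat_lit 78) (nat_lit 76) (nat_lit 0) (XT.lf (nat_lit 0) (nat_lit 4000562672) (nat_lit 152) (nat_lit 9866876168) (nat_lit 76) (nat_lit 51724405977) (nat_lit 19) (nat_lit 5) (nat_lit 21) (nat_lit 5) (nat_lit 20) (nat_lit 4) (nat_lit 489) (nat_lit 391) (nat_lit 320)) (XT.lf (nat_lit 0) (nat_lit 21131140483) (nat_lit 152) (nat_lit 43564873062) (nat_lit 0) (nat_lit 3640173093) (nat_lit 18) (nat_lit 5) (nat_lit 20) (nat_lit 4) (nat_lit 18) (nat_lit 4) (nat_lit 490) (nat_lit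 391) (nat_lit 319))) (XT.nd (nat_lit 78) (nat_lit 76) (nat_lit 0) (XT.lf (nat_lit 0) (nat_lit 39311221996) (nat_lit 152) (nat_lit 10106072754) (nat_lit 0) (nat_lit 21794662356) (nat_lit 18) (nat_lit 5) (nat_lit 20) (nat_lit 4) (nat_lit 18) (nat_lit 4) (nat_lit 491) (nat_lit 391) (nat_lit 318)) (XT.lf (nat_lit 0) (nat_lit 25428533897) (nat_lit 76) (nat_lit 33168999695) (nat_lit 76) (nat_lit 15628066484) (nat_lit 17) (nat_lit 4) (nat_lit 18) (nat_lit 5) (nat_lit 18) (nat_lit 4) (nat_lit 492) (nat_lit 391) (nat_lit 317))))))) (XT.nd (nat_lit 57018) (nat_lit 0) (nat_lit 8664) (XT.nd (nat_lit 56472) (nat_lit 0) (nat_lit 14896) (XT.nd (nat_lit 234) (nat_lit 152) (nat_lit 0) (XT.nd (nat_lit 78) (nat_lit 76) (nat_lit 0) (XT.lf (nat_lit 0) (nat_lit 1488556714) (nat_lit 152) (nat_lit 14542376006) (nat_lit 76) (nat_lit 61356809359) (nat_lit 16) (nat_lit 5) (nat_lit 18) (nat_lit 5) (nat_lit 17) (nat_lit 4)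 (nat_lit 493) (nat_lit 391) (nat_lit 316)) (XT.nd (nat_lit 78) (nat_lit 0) (nat_lit 0) (XT.lf (nat_lit 0) (nat_lit 19326451242) (nat_lit 152) (nat_lit 59118820494) (nat_lit 0) (nat_lit 2252418539) (nat_lit 15) (nat_lit 5) (nat_lit 17) (nat_lit 4) (nat_lit 15) (nat_lit 4) (nat_lit 494) (nat_lit 391) (nat_lit 315)) (XT.lf (nat_lit 0) (nat_lit 38326027039) (nat_lit 152) (nat_lit 24607463108) (nat_lit 0) (nat_lit 21231552776) (nat_lit 15) (nat_lit 5) (nat_lit 17) (nat_lit 4) (nat_lit 15) (nat_lit 4) (nat_lit 495) (nat_lit 391) (nat_lit 314)))) (XT.nd (nat_lit 78) (nat_lit 76) (nat_lit 0) (XT.lf (nat_lit 0) (nat_lit 11777762308) (nat_lit 76) (nat_lit 46569890886) (nat_lit 76) (nat_lit 29455948470) (nat_lit 14) (nat_lit 4) (nat_lit 15) (nat_lit 5) (nat_lit 15) (nat_lit 4) (nat_lit 496) (nat_lit 391) (nat_lit 313)) (XT.nd (nat_lit 78) (nat_lit 76) (nat_lit 0) (XT.lf (nat_lit 0) (nat_lit 50417283135)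 (nat_lit 76) (nat_lit 29166444151) (nat_lit 76) (nat_lit 12033960636) (nat_lit 14) (nat_lit 4) (nat_lit 15) (nat_lit 5) (nat_lit 15) (nat_lit 4) (nat_lit 497) (nat_lit 391) (nat_lit 312)) (XT.lf (nat_lit 0) (nat_lit 6098567951) (nat_lit 152) (nat_lit 4770048762) (nat_lit 76) (nat_lit 84753209935) (nat_lit 13) (nat_lit 5) (nat_lit 15) (nat_lit 5) (nat_lit 14) (nat_lit 4) (nat_lit 498) (nat_lit 391) (nat_lit 311))))) (XT.nd (nat_lit 234) (nat_lit 2812) (nat_lit 0) (XT.nd (nat_lit 78) (nat_lit 2052) (nat_lit 0) (XT.lf (nat_lit 0) (nat_lit 1005867062) (nat_lit 1292) (nat_lit 1584449199) (nat_lit 0) (nat_lit 1005867062) (nat_lit 273) (nat_lit 5) (nat_lit 290) (nat_lit 4) (nat_lit 273) (nat_lit 4) (nat_lit 416) (nat_lit 392) (nat_lit 392)) (XT.nd (nat_lit 78) (nat_lit 1216) (nat_lit 0) (XT.lf (nat_lit 0) (nat_lit 586770447) (nat_lit 836) (nat_lit 1499799715) (nat_lit 76) (nat_lit 5204612346) (nat_lit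 262) (nat_lit 5) (nat_lit 273) (nat_lit 5) (nat_lit 263) (nat_lit 4) (nat_lit 417) (nat_lit 392) (nat_lit 391)) (XT.lf (nat_lit 0) (nat_lit 268306169) (nat_lit 608) (nat_lit 6115226696) (nat_lit 608) (nat_lit 1014501189) (nat_lit 246) (nat_lit 4) (nat_lit 254) (nat_lit 5) (nat_lit 254) (nat_lit 4) (nat_lit 418) (nat_lit 392) (nat_lit 390)))) (XT.nd (nat_lit 156) (nat_lit 1596) (nat_lit 0) (XT.nd (nat_lit 78) (nat_lit 608) (nat_lit 0) (XT.lf (nat_lit 0) (nat_lit 2156184105) (nat_lit 532) (nat_lit 2585975817) (nat_lit 608) (nat_lit 2770338539) (nat_lit 238) (nat_lit 5) (nat_lit 245) (nat_lit 5) (nat_lit 246) (nat_lit 4) (nat_lit 419) (nat_lit 392) (nat_lit 389)) (XT.lf (nat_lit 0) (nat_lit 2935466593) (nat_lit 608) (nat_lit 3484919225) (nat_lit 76) (nat_lit 1215262158) (nat_lit 230) (nat_lit 5) (nat_lit 238) (nat_lit 5) (nat_lit 231) (nat_lit 4) (nat_lit 420) (nat_lit 392) (nat_lit 388))) (XT.nd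 (nat_lit 78) (nat_lit 988) (nat_lit 0) (XT.lf (nat_lit 0) (nat_lit 971266870) (nat_lit 608) (nat_lit 1528733546) (nat_lit 76) (nat_lit 5267243475) (nat_lit 222) (nat_lit 5) (nat_lit 230) (nat_lit 5) (nat_lit 223) (nat_lit 5) (nat_lit 421) (nat_lit 392) (nat_lit 387)) (XT.lf (nat_lit 0) (nat_lit 521879015) (nat_lit 456) (nat_lit 6200396869) (nat_lit 532) (nat_lit 1185010248) (nat_lit 209) (nat_lit 5) (nat_lit 215) (nat_lit 5) (nat_lit 216) (nat_lit 4) (nat_lit 422) (nat_lit 392) (nat_lit 386)))))) (XT.nd (nat_lit 468) (nat_lit 3040) (nat_lit 0) (XT.nd (nat_lit 234) (nat_lit 1672) (nat_lit 0) (XT.nd (nat_lit 78) (nat_lit 988) (nat_lit 0) (XT.lf (nat_lit 0) (nat_lit 2681495737) (nat_lit 456) (nat_lit 1853603577) (nat_lit 532) (nat_lit 3520314932) (nat_lit 202) (nat_lit 5) (nat_lit 208) (nat_lit 5) (nat_lit 209) (nat_lit 5) (nat_lit 423) (nat_lit 392) (nat_lit 385)) (XT.nd (nat_lit 78) (nat_lit 456)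 (nat_lit 0) (XT.lf (nat_lit 0) (nat_lit 2175434307) (nat_lit 532) (nat_lit 3283046251) (nat_lit 76) (nat_lit 2754071439) (nat_lit 195) (nat_lit 5) (nat_lit 202) (nat_lit 5) (nat_lit 196) (nat_lit 5) (nat_lit 424) (nat_lit 392) (nat_lit 384)) (XT.lf (nat_lit 0) (nat_lit 7271934354) (nat_lit 456) (nat_lit 727021728) (nat_lit 532) (nat_lit 380118817) (nat_lit 189) (nat_lit 5) (nat_lit 195) (nat_lit 5) (nat_lit 196) (nat_lit 5) (nat_lit 425) (nat_lit 392) (nat_lit 383)))) (XT.nd (nat_lit 78) (nat_lit 836) (nat_lit 0) (XT.lf (nat_lit 0) (nat_lit 1135522757) (nat_lit 380) (nat_lit 4272495219) (nat_lit 456) (nat_lit 3145643345) (nat_lit 178) (nat_lit 5) (nat_lit 183) (nat_lit 5) (nat_lit 184) (nat_lit 5) (nat_lit 426) (nat_lit 392) (nat_lit 382)) (XT.nd (nat_lit 78) (nat_lit 380) (nat_lit 0) (XT.lf (nat_lit 0) (nat_lit 2626026280) (nat_lit 456) (nat_lit 5243432034) (nat_lit 76) (nat_lit 868495940) (nat_lit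 172) (nat_lit 5) (nat_lit 178) (nat_lit 5) (nat_lit 173) (nat_lit 5) (nat_lit 427) (nat_lit 392) (nat_lit 381)) (XT.lf (nat_lit 0) (nat_lit 5918322650) (nat_lit 380) (nat_lit 2666205820) (nat_lit 456) (nat_lit 347138613) (nat_lit 167) (nat_lit 5) (nat_lit 172) (nat_lit 5) (nat_lit 173) (nat_lit 5) (nat_lit 428) (nat_lit 392) (nat_lit 380))))) (XT.nd (nat_lit 234) (nat_lit 1596) (nat_lit 0) (XT.nd (nat_lit 78) (nat_lit 1064) (nat_lit 0) (XT.lf (nat_lit 0) (nat_lit 5548899797) (nat_lit 380) (nat_lit 736034087) (nat_lit 76) (nat_lit 2849891506) (nat_lit 162) (nat_lit 5) (nat_lit 167) (nat_lit 5) (nat_lit 163) (nat_lit 5) (nat_lit 429) (nat_lit 392) (nat_lit 379)) (XT.nd (nat_lit 78) (nat_lit 304) (nat_lit 0) (XT.lf (nat_lit 0) (nat_lit 1648812663) (nat_lit 304) (nat_lit 665807256) (nat_lit 380) (nat_lit 7033465239) (nat_lit 152) (nat_lit 5) (nat_lit 156) (nat_lit 5) (nat_lit 157) (nat_lit 5) (nat_lit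 430) (nat_lit 392) (nat_lit 378)) (XT.lf (nat_lit 0) (nat_lit 4091044482) (nat_lit 304) (nat_lit 4344309732) (nat_lit 380) (nat_lit 1135640427) (nat_lit 148) (nat_lit 5) (nat_lit 152) (nat_lit 5) (nat_lit 153) (nat_lit 5) (nat_lit 431) (nat_lit 392) (nat_lit 377)))) (XT.nd (nat_lit 156) (nat_lit 836) (nat_lit 0) (XT.nd (nat_lit 78) (nat_lit 380) (nat_lit 0) (XT.lf (nat_lit 0) (nat_lit 4928309877) (nat_lit 380) (nat_lit 3213815558) (nat_lit 76) (nat_lit 1662397525) (nat_lit 143) (nat_lit 5) (nat_lit 148) (nat_lit 5) (nat_lit 144) (nat_lit 5) (nat_lit 432) (nat_lit 392) (nat_lit 376)) (XT.lf (nat_lit 0) (nat_lit 1196833904) (nat_lit 380) (nat_lit 897675288) (nat_lit 76) (nat_lit 7954612300) (nat_lit 138) (nat_lit 5) (nat_lit 143) (nat_lit 5) (nat_lit 139) (nat_lit 5) (nat_lit 433) (nat_lit 392) (nat_lit 375))) (XT.nd (nat_lit 78) (nat_lit 304) (nat_lit 0) (XT.lf (nat_lit 0) (nat_lit 1472693111)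 (nat_lit 304) (nat_lit 6017291693) (nat_lit 380) (nat_lit 2814023498) (nat_lit 131) (nat_lit 5) (nat_lit 135) (nat_lit 5) (nat_lit 136) (nat_lit 5) (nat_lit 434) (nat_lit 392) (nat_lit 374)) (XT.lf (nat_lit 0) (nat_lit 3458308286) (nat_lit 304) (nat_lit 6653529941) (nat_lit 76) (nat_lit 458779256) (nat_lit 127) (nat_lit 5) (nat_lit 131) (nat_lit 5) (nat_lit 128) (nat_lit 5) (nat_lit 435) (nat_lit 392) (nat_lit 373))))))))
noncomputable def xc34 : XT := (XT.nd (nat_lit 1950) (nat_lit 2432) (nat_lit 0) (XT.nd (nat_lit 936) (nat_lit 2204) (nat_lit 0) (XT.nd (nat_lit 468) (nat_lit 1520) (nat_lit 0) (XT.nd (nat_lit 234) (nat_lit 912) (nat_lit 0) (XT.nd (nat_lit 78) (nat_lit 608) (nat_lit 0) (XT.lf (nat_lit 0) (nat_lit 6386340709) (nat_lit 304) (nat_lit 3633528062) (nat_lit 380) (nat_lit 828860828) (nat_lit 123) (nat_lit 5) (nat_lit 127) (nat_lit 5) (nat_lit 128) (nat_lit 5) (nat_lit 436) (nat_lit 392)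 (nat_lit 372)) (XT.nd (nat_lit 78) (nat_lit 304) (nat_lit 0) (XT.lf (nat_lit 0) (nat_lit 5666055762) (nat_lit 304) (nat_lit 2258075617) (nat_lit 76) (nat_lit 3214677337) (nat_lit 119) (nat_lit 5) (nat_lit 123) (nat_lit 5) (nat_lit 120) (nat_lit 5) (nat_lit 437) (nat_lit 392) (nat_lit 371)) (XT.lf (nat_lit 0) (nat_lit 1027071985) (nat_lit 304) (nat_lit 11762892) (nat_lit 76) (nat_lit 10403384815) (nat_lit 115) (nat_lit 5) (nat_lit 119) (nat_lit 5) (nat_lit 116) (nat_lit 5) (nat_lit 438) (nat_lit 392) (nat_lit 370)))) (XT.nd (nat_lit 78) (nat_lit 456) (nat_lit 0) (XT.lf (nat_lit 0) (nat_lit 2258383496) (nat_lit 228) (nat_lit 5554226433) (nat_lit 304) (nat_lit 3944366952) (nat_lit 109) (nat_lit 5) (nat_lit 112) (nat_lit 5) (nat_lit 113) (nat_lit 5) (nat_lit 439) (nat_lit 392) (nat_lit 369)) (XT.nd (nat_lit 78) (nat_lit 228) (nat_lit 0) (XT.lf (nat_lit 0) (nat_lit 2817498296) (nat_lit 228) (nat_lit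 7520485572) (nat_lit 76) (nat_lit 1747988491) (nat_lit 106) (nat_lit 5) (nat_lit 109) (nat_lit 5) (nat_lit 107) (nat_lit 5) (nat_lit 440) (nat_lit 392) (nat_lit 368)) (XT.lf (nat_lit 0) (nat_lit 6864771801) (nat_lit 228) (nat_lit 3029273844) (nat_lit 304) (nat_lit 2534471670) (nat_lit 103) (nat_lit 5) (nat_lit 106) (nat_lit 5) (nat_lit 107) (nat_lit 5) (nat_lit 441) (nat_lit 392) (nat_lit 367))))) (XT.nd (nat_lit 234) (nat_lit 608) (nat_lit 0) (XT.nd (nat_lit 78) (nat_lit 684) (nat_lit 0) (XT.lf (nat_lit 0) (nat_lit 4500291496) (nat_lit 228) (nat_lit 3626948764) (nat_lit 76) (nat_lit 4658078754) (nat_lit 100) (nat_lit 5) (nat_lit 103) (nat_lit 5) (nat_lit 101) (nat_lit 5) (nat_lit 442) (nat_lit 392) (nat_lit 366)) (XT.nd (nat_lit 78) (nat_lit 456) (nat_lit 0) (XT.lf (nat_lit 0) (nat_lit 11475523638) (nat_lit 228) (nat_lit 402350059) (nat_lit 304) (nat_lit 1280043650) (nat_lit 97) (nat_lit 5) (nat_lit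 100) (nat_lit 5) (nat_lit 101) (nat_lit 5) (nat_lit 443) (nat_lit 392) (nat_lit 365)) (XT.lf (nat_lit 0) (nat_lit 191449727) (nat_lit 228) (nat_lit 5860508702) (nat_lit 304) (nat_lit 7492588898) (nat_lit 91) (nat_lit 5) (nat_lit 94) (nat_lit 5) (nat_lit 95) (nat_lit 5) (nat_lit 444) (nat_lit 392) (nat_lit 364)))) (XT.nd (nat_lit 78) (nat_lit 456) (nat_lit 0) (XT.lf (nat_lit 0) (nat_lit 2110780872) (nat_lit 152) (nat_lit 11679351508) (nat_lit 228) (nat_lit 158027451) (nat_lit 89) (nat_lit 5) (nat_lit 91) (nat_lit 5) (nat_lit 92) (nat_lit 4) (nat_lit 445) (nat_lit 392) (nat_lit 363)) (XT.nd (nat_lit 78) (nat_lit 228) (nat_lit 0) (XT.lf (nat_lit 0) (nat_lit 3941395643) (nat_lit 152) (nat_lit 3541705123) (nat_lit 228) (nat_lit 6884077472) (nat_lit 86) (nat_lit 5) (nat_lit 88) (nat_lit 5) (nat_lit 89) (nat_lit 5) (nat_lit 446) (nat_lit 392) (nat_lit 362)) (XT.lf (nat_lit 0) (nat_lit 764419136) (nat_lit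 228) (nat_lit 9055073418) (nat_lit 76) (nat_lit 4984955674) (nat_lit 83) (nat_lit 5) (nat_lit 86) (nat_lit 5) (nat_lit 84) (nat_lit 5) (nat_lit 447) (nat_lit 392) (nat_lit 361)))))) (XT.nd (nat_lit 468) (nat_lit 1064) (nat_lit 0) (XT.nd (nat_lit 234) (nat_lit 608) (nat_lit 0) (XT.nd (nat_lit 78) (nat_lit 380) (nat_lit 0) (XT.lf (nat_lit 0) (nat_lit 7477617263) (nat_lit 152) (nat_lit 1250561921) (nat_lit 228) (nat_lit 6531111651) (nat_lit 81) (nat_lit 5) (nat_lit 83) (nat_lit 5) (nat_lit 84) (nat_lit 5) (nat_lit 448) (nat_lit 392) (nat_lit 360)) (XT.nd (nat_lit 78) (nat_lit 152) (nat_lit 0) (XT.lf (nat_lit 0) (nat_lit 1445772982) (nat_lit 228) (nat_lit 6601007092) (nat_lit 76) (nat_lit 7686146882) (nat_lit 78) (nat_lit 5) (nat_lit 81) (nat_lit 5) (nat_lit 79) (nat_lit 5) (nat_lit 449) (nat_lit 392) (nat_lit 359)) (XT.lf (nat_lit 0) (nat_lit 9757617593) (nat_lit 228) (nat_lit 5524309410) (nat_lit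 76) (nat_lit 944251298) (nat_lit 76) (nat_lit 5) (nat_lit 79) (nat_lit 5) (nat_lit 77) (nat_lit 4) (nat_lit 450) (nat_lit 392) (nat_lit 358)))) (XT.nd (nat_lit 78) (nat_lit 380) (nat_lit 0) (XT.lf (nat_lit 0) (nat_lit 1842610672) (nat_lit 228) (nat_lit 4576732593) (nat_lit 76) (nat_lit 10320186611) (nat_lit 73) (nat_lit 5) (nat_lit 76) (nat_lit 5) (nat_lit 74) (nat_lit 5) (nat_lit 451) (nat_lit 392) (nat_lit 357)) (XT.nd (nat_lit 78) (nat_lit 228) (nat_lit 0) (XT.lf (nat_lit 0) (nat_lit 10523728392) (nat_lit 228) (nat_lit 3768861425) (nat_lit 76) (nat_lit 2981400780) (nat_lit 71) (nat_lit 5) (nat_lit 74) (nat_lit 5) (nat_lit 72) (nat_lit 4) (nat_lit 452) (nat_lit 392) (nat_lit 356)) (XT.lf (nat_lit 0) (nat_lit 1897020563) (nat_lit 228) (nat_lit 3106480847) (nat_lit 76) (nat_lit 12827305433) (nat_lit 68) (nat_lit 5) (nat_lit 71) (nat_lit 5) (nat_lit 69) (nat_lit 5) (nat_lit 453) (nat_lit 392) (nat_lit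 355))))) (XT.nd (nat_lit 234) (nat_lit 608) (nat_lit 0) (XT.nd (nat_lit 78) (nat_lit 304) (nat_lit 0) (XT.lf (nat_lit 0) (nat_lit 10952629285) (nat_lit 228) (nat_lit 2639599599) (nat_lit 76) (nat_lit 4817769960) (nat_lit 66) (nat_lit 5) (nat_lit 69) (nat_lit 5) (nat_lit 67) (nat_lit 4) (nat_lit 454) (nat_lit 392) (nat_lit 354)) (XT.nd (nat_lit 78) (nat_lit 152) (nat_lit 0) (XT.lf (nat_lit 0) (nat_lit 1537754085) (nat_lit 152) (nat_lit 2339742555) (nat_lit 76) (nat_lit 15136552936) (nat_lit 64) (nat_lit 5) (nat_lit 66) (nat_lit 5) (nat_lit 65) (nat_lit 5) (nat_lit 455) (nat_lit 392) (nat_lit 353)) (XT.lf (nat_lit 0) (nat_lit 10968209059) (nat_lit 228) (nat_lit 2300391858) (nat_lit 76) (nat_lit 6373298882) (nat_lit 62) (nat_lit 5) (nat_lit 65) (nat_lit 5) (nat_lit 63) (nat_lit 4) (nat_lit 456) (nat_lit 392) (nat_lit 352)))) (XT.nd (nat_lit 156) (nat_lit 304) (nat_lit 0) (XT.nd (nat_lit 78) (nat_lit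 152) (nat_lit 0) (XT.lf (nat_lit 0) (nat_lit 677932856) (nat_lit 152) (nat_lit 2456074845) (nat_lit 76) (nat_lit 17163376650) (nat_lit 60) (nat_lit 5) (nat_lit 62) (nat_lit 5) (nat_lit 61) (nat_lit 5) (nat_lit 457) (nat_lit 392) (nat_lit 351)) (XT.lf (nat_lit 0) (nat_lit 10477623099) (nat_lit 228) (nat_lit 2947887411) (nat_lit 76) (nat_lit 7552765583) (nat_lit 58) (nat_lit 5) (nat_lit 61) (nat_lit 5) (nat_lit 59) (nat_lit 4) (nat_lit 458) (nat_lit 392) (nat_lit 350))) (XT.nd (nat_lit 78) (nat_lit 228) (nat_lit 0) (XT.lf (nat_lit 0) (nat_lit 18011186700) (nat_lit 76) (nat_lit 2875119956) (nat_lit 152) (nat_lit 803340671) (nat_lit 57) (nat_lit 5) (nat_lit 58) (nat_lit 5) (nat_lit 59) (nat_lit 4) (nat_lit 459) (nat_lit 392) (nat_lit 349)) (XT.lf (nat_lit 0) (nat_lit 9368356867) (nat_lit 228) (nat_lit 4817621701) (nat_lit 76) (nat_lit 8242732646) (nat_lit 54) (nat_lit 5) (nat_lit 57) (nat_lit 5) (nat_lit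 55) (nat_lit 4) (nat_lit 460) (nat_lit 392) (nat_lit 348))))))) (XT.nd (nat_lit 1014) (nat_lit 1064) (nat_lit 0) (XT.nd (nat_lit 468) (nat_lit 532) (nat_lit 0) (XT.nd (nat_lit 234) (nat_lit 456) (nat_lit 0) (XT.nd (nat_lit 78) (nat_lit 304) (nat_lit 0) (XT.lf (nat_lit 0) (nat_lit 16930205043) (nat_lit 76) (nat_lit 3225352842) (nat_lit 152) (nat_lit 3045230360) (nat_lit 53) (nat_lit 5) (nat_lit 54) (nat_lit 5) (nat_lit 55) (nat_lit 4) (nat_lit 461) (nat_lit 392) (nat_lit 347)) (XT.nd (nat_lit 78) (nat_lit 76) (nat_lit 0) (XT.lf (nat_lit 0) (nat_lit 7504759910) (nat_lit 228) (nat_lit 8191178952) (nat_lit 76) (nat_lit 8307983419) (nat_lit 50) (nat_lit 5) (nat_lit 53) (nat_lit 5) (nat_lit 51) (nat_lit 4) (nat_lit 462) (nat_lit 392) (nat_lit 346)) (XT.lf (nat_lit 0) (nat_lit 14307362512) (nat_lit 76) (nat_lit 4345575534) (nat_lit 152) (nat_lit 6189364406) (nat_lit 49) (nat_lit 5) (nat_lit 50) (nat_lit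 5) (nat_lit 51) (nat_lit 4) (nat_lit 463) (nat_lit 392) (nat_lit 345)))) (XT.nd (nat_lit 78) (nat_lit 228) (nat_lit 0) (XT.lf (nat_lit 0) (nat_lit 4723960878) (nat_lit 228) (nat_lit 13404596087) (nat_lit 76) (nat_lit 7587356443) (nat_lit 46) (nat_lit 5) (nat_lit 49) (nat_lit 5) (nat_lit 47) (nat_lit 4) (nat_lit 464) (nat_lit 392) (nat_lit 344)) (XT.nd (nat_lit 78) (nat_lit 152) (nat_lit 0) (XT.lf (nat_lit 0) (nat_lit 9786704568) (nat_lit 76) (nat_lit 6418916615) (nat_lit 152) (nat_lit 10421228606) (nat_lit 45) (nat_lit 5) (nat_lit 46) (nat_lit 5) (nat_lit 47) (nat_lit 4) (nat_lit 465) (nat_lit 392) (nat_lit 343)) (XT.lf (nat_lit 0) (nat_lit 831058567) (nat_lit 152) (nat_lit 20858222971) (nat_lit 76) (nat_lit 5888871448) (nat_lit 43) (nat_lit 5) (nat_lit 45) (nat_lit 5) (nat_lit 44) (nat_lit 4) (nat_lit 466) (nat_lit 392) (nat_lit 342))))) (XT.nd (nat_lit 234) (nat_lit 304) (nat_lit 0) (XT.nd (nat_lit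 78) (nat_lit 152) (nat_lit 0) (XT.lf (nat_lit 0) (nat_lit 2943627338) (nat_lit 76) (nat_lit 9663005062) (nat_lit 152) (nat_lit 15962010659) (nat_lit 42) (nat_lit 5) (nat_lit 43) (nat_lit 5) (nat_lit 44) (nat_lit 4) (nat_lit 467) (nat_lit 392) (nat_lit 341)) (XT.nd (nat_lit 78) (nat_lit 152) (nat_lit 0) (XT.lf (nat_lit 0) (nat_lit 25124351655) (nat_lit 152) (nat_lit 1438382478) (nat_lit 0) (nat_lit 3041325461) (nat_lit 42) (nat_lit 5) (nat_lit 44) (nat_lit 4) (nat_lit 42) (nat_lit 4) (nat_lit 468) (nat_lit 392) (nat_lit 340)) (XT.lf (nat_lit 0) (nat_lit 7673463010) (nat_lit 152) (nat_lit 6596215786) (nat_lit 76) (nat_lit 16412047877) (nat_lit 40) (nat_lit 5) (nat_lit 42) (nat_lit 5) (nat_lit 41) (nat_lit 4) (nat_lit 469) (nat_lit 392) (nat_lit 339)))) (XT.nd (nat_lit 156) (nat_lit 76) (nat_lit 0) (XT.nd (nat_lit 78) (nat_lit 152) (nat_lit 0) (XT.lf (nat_lit 0) (nat_lit 19268010973) (nat_lit 76)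 (nat_lit 1188824124) (nat_lit 152) (nat_lit 11351658317) (nat_lit 39) (nat_lit 5) (nat_lit 40) (nat_lit 5) (nat_lit 41) (nat_lit 4) (nat_lit 470) (nat_lit 392) (nat_lit 338)) (XT.lf (nat_lit 0) (nat_lit 1108209390) (nat_lit 152) (nat_lit 19440904574) (nat_lit 76) (nat_lit 12435098246) (nat_lit 37) (nat_lit 5) (nat_lit 39) (nat_lit 5) (nat_lit 38) (nat_lit 4) (nat_lit 471) (nat_lit 392) (nat_lit 337))) (XT.nd (nat_lit 78) (nat_lit 0) (nat_lit 0) (XT.lf (nat_lit 0) (nat_lit 6824378350) (nat_lit 76) (nat_lit 7259708795) (nat_lit 152) (nat_lit 20127426728) (nat_lit 36) (nat_lit 5) (nat_lit 37) (nat_lit 5) (nat_lit 38) (nat_lit 4) (nat_lit 472) (nat_lit 392) (nat_lit 336)) (XT.lf (nat_lit 0) (nat_lit 27894562253) (nat_lit 152) (nat_lit 907872913) (nat_lit 0) (nat_lit 6692173534) (nat_lit 36) (nat_lit 5) (nat_lit 38) (nat_lit 4) (nat_lit 36) (nat_lit 4) (nat_lit 473) (nat_lit 392) (nat_lit 335))))))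 (XT.nd (nat_lit 468) (nat_lit 532) (nat_lit 0) (XT.nd (nat_lit 234) (nat_lit 228) (nat_lit 0) (XT.nd (nat_lit 78) (nat_lit 152) (nat_lit 0) (XT.lf (nat_lit 0) (nat_lit 5705843237) (nat_lit 152) (nat_lit 9686232286) (nat_lit 76) (nat_lit 21440367807) (nat_lit 34) (nat_lit 5) (nat_lit 36) (nat_lit 5) (nat_lit 35) (nat_lit 4) (nat_lit 474) (nat_lit 392) (nat_lit 334)) (XT.nd (nat_lit 78) (nat_lit 76) (nat_lit 0) (XT.lf (nat_lit 0) (nat_lit 18523417550) (nat_lit 76) (nat_lit 1110099939) (nat_lit 152) (nat_lit 18597986566) (nat_lit 33) (nat_lit 5) (nat_lit 34) (nat_lit 5) (nat_lit 35) (nat_lit 4) (nat_lit 475) (nat_lit 392) (nat_lit 333)) (XT.lf (nat_lit 0) (nat_lit 8536898134) (nat_lit 76) (nat_lit 25963186071) (nat_lit 76) (nat_lit 5193160184) (nat_lit 32) (nat_lit 4) (nat_lit 33) (nat_lit 5) (nat_lit 33) (nat_lit 4) (nat_lit 476) (nat_lit 392) (nat_lit 332)))) (XT.nd (nat_lit 78) (nat_lit 152) (nat_lit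 0) (XT.lf (nat_lit 0) (nat_lit 8852407461) (nat_lit 152) (nat_lit 2855582994) (nat_lit 76) (nat_lit 29513207091) (nat_lit 31) (nat_lit 5) (nat_lit 33) (nat_lit 5) (nat_lit 32) (nat_lit 4) (nat_lit 477) (nat_lit 392) (nat_lit 331)) (XT.nd (nat_lit 78) (nat_lit 76) (nat_lit 0) (XT.lf (nat_lit 0) (nat_lit 23720339483) (nat_lit 152) (nat_lit 15647620707) (nat_lit 0) (nat_lit 3449222607) (nat_lit 30) (nat_lit 5) (nat_lit 32) (nat_lit 4) (nat_lit 30) (nat_lit 4) (nat_lit 478) (nat_lit 392) (nat_lit 330)) (XT.lf (nat_lit 0) (nat_lit 14292169957) (nat_lit 76) (nat_lit 25257323076) (nat_lit 76) (nat_lit 4936941068) (nat_lit 29) (nat_lit 4) (nat_lit 30) (nat_lit 5) (nat_lit 30) (nat_lit 4) (nat_lit 479) (nat_lit 392) (nat_lit 329))))) (XT.nd (nat_lit 234) (nat_lit 304) (nat_lit 0) (XT.nd (nat_lit 78) (nat_lit 152) (nat_lit 0) (XT.lf (nat_lit 0) (nat_lit 9833752684) (nat_lit 152) (nat_lit 404783233) (nat_lit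 76) (nat_lit 35994852049) (nat_lit 28) (nat_lit 5) (nat_lit 30) (nat_lit 5) (nat_lit 29) (nat_lit 4) (nat_lit 480) (nat_lit 392) (nat_lit 328)) (XT.nd (nat_lit 78) (nat_lit 76) (nat_lit 0) (XT.lf (nat_lit 0) (nat_lit 25535940836) (nat_lit 152) (nat_lit 16802953134) (nat_lit 0) (nat_lit 5718478593) (nat_lit 27) (nat_lit 5) (nat_lit 29) (nat_lit 4) (nat_lit 27) (nat_lit 4) (nat_lit 481) (nat_lit 392) (nat_lit 327)) (XT.lf (nat_lit 0) (nat_lit 14593061353) (nat_lit 76) (nat_lit 27616345532) (nat_lit 76) (nat_lit 7757565741) (nat_lit 26) (nat_lit 4) (nat_lit 27) (nat_lit 5) (nat_lit 27) (nat_lit 4) (nat_lit 482) (nat_lit 392) (nat_lit 326)))) (XT.nd (nat_lit 156) (nat_lit 152) (nat_lit 0) (XT.nd (nat_lit 78) (nat_lit 76) (nat_lit 0) (XT.lf (nat_lit 0) (nat_lit 7707610775) (nat_lit 152) (nat_lit 4251679962) (nat_lit 76) (nat_lit 40007102598) (nat_lit 25) (nat_lit 5) (nat_lit 27) (nat_lit 5) (nat_lit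 26) (nat_lit 4) (nat_lit 483) (nat_lit 392) (nat_lit 325)) (XT.lf (nat_lit 0) (nat_lit 24052404004) (nat_lit 152) (nat_lit 25305627441) (nat_lit 0) (nat_lit 4697446655) (nat_lit 24) (nat_lit 5) (nat_lit 26) (nat_lit 4) (nat_lit 24) (nat_lit 4) (nat_lit 484) (nat_lit 392) (nat_lit 324))) (XT.nd (nat_lit 78) (nat_lit 76) (nat_lit 0) (XT.lf (nat_lit 0) (nat_lit 7150046335) (nat_lit 76) (nat_lit 34241632021) (nat_lit 76) (nat_lit 14852022584) (nat_lit 23) (nat_lit 4) (nat_lit 24) (nat_lit 5) (nat_lit 24) (nat_lit 4) (nat_lit 485) (nat_lit 392) (nat_lit 323)) (XT.lf (nat_lit 0) (nat_lit 1243751003) (nat_lit 152) (nat_lit 16897796888) (nat_lit 76) (nat_lit 40393249720) (nat_lit 22) (nat_lit 5) (nat_lit 24) (nat_lit 5) (nat_lit 23) (nat_lit 4) (nat_lit 486) (nat_lit 392) (nat_lit 322))))))))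
noncomputable def xc35 : XT := (XT.nd (nat_lit 57798) (nat_lit 0) (nat_lit 4332) (XT.nd (nat_lit 56784) (nat_lit 0) (nat_lit 12844) (XT.nd (nat_lit 468) (nat_lit 304) (nat_lit 0) (XT.nd (nat_lit 234) (nat_lit 152) (nat_lit 0) (XT.nd (nat_lit 78) (nat_lit 76) (nat_lit 0) (XT.lf (nat_lit 0) (nat_lit 16985726871) (nat_lit 76) (nat_lit 964898135) (nat_lit 152) (nat_lit 42982009342) (nat_lit 21) (nat_lit 5) (nat_lit 22) (nat_lit 5) (nat_lit 23) (nat_lit 4) (nat_lit 487) (nat_lit 392) (nat_lit 321)) (XT.nd (nat_lit 78) (nat_lit 76) (nat_lit 0) (XT.lf (nat_lit 0) (nat_lit 35781010472) (nat_lit 152) (nat_lit 10796179081) (nat_lit 0) (nat_lit 16864529240) (nat_lit 21) (nat_lit 5) (nat_lit 23) (nat_lit 4) (nat_lit 21) (nat_lit 4) (nat_lit 488) (nat_lit 392) (nat_lit 320)) (XT.lf (nat_lit 0) (nat_lit 24381196973) (nat_lit 76) (nat_lit 30316685789) (nat_lit 76) (nat_lit 11372526539) (nat_lit 20) (nat_lit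 4) (nat_lit 21) (nat_lit 5) (nat_lit 21) (nat_lit 4) (nat_lit 489) (nat_lit 392) (nat_lit 319)))) (XT.nd (nat_lit 78) (nat_lit 76) (nat_lit 0) (XT.lf (nat_lit 0) (nat_lit 5682311169) (nat_lit 152) (nat_lit 7435427593) (nat_lit 76) (nat_lit 55709222112) (nat_lit 19) (nat_lit 5) (nat_lit 21) (nat_lit 5) (nat_lit 20) (nat_lit 4) (nat_lit 490) (nat_lit 392) (nat_lit 318)) (XT.nd (nat_lit 78) (nat_lit 0) (nat_lit 0) (XT.lf (nat_lit 0) (nat_lit 23639650265) (nat_lit 152) (nat_lit 42872466898) (nat_lit 0) (nat_lit 5197296822) (nat_lit 18) (nat_lit 5) (nat_lit 20) (nat_lit 4) (nat_lit 18) (nat_lit 4) (nat_lit 491) (nat_lit 392) (nat_lit 317)) (XT.lf (nat_lit 0) (nat_lit 42659595246) (nat_lit 152) (nat_lit 7877424185) (nat_lit 0) (nat_lit 24194028877) (nat_lit 18) (nat_lit 5) (nat_lit 20) (nat_lit 4) (nat_lit 18) (nat_lit 4) (nat_lit 492) (nat_lit 392) (nat_lit 316))))) (XT.nd (nat_lit 234) (nat_lit 76)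 (nat_lit 0) (XT.nd (nat_lit 78) (nat_lit 152) (nat_lit 0) (XT.lf (nat_lit 0) (nat_lit 29355544607) (nat_lit 76) (nat_lit 33514356715) (nat_lit 76) (nat_lit 15026682799) (nat_lit 17) (nat_lit 4) (nat_lit 18) (nat_lit 5) (nat_lit 18) (nat_lit 4) (nat_lit 493) (nat_lit 392) (nat_lit 315)) (XT.nd (nat_lit 78) (nat_lit 76) (nat_lit 0) (XT.lf (nat_lit 0) (nat_lit 2854226315) (nat_lit 152) (nat_lit 12714649303) (nat_lit 76) (nat_lit 65649496685) (nat_lit 16) (nat_lit 5) (nat_lit 18) (nat_lit 5) (nat_lit 17) (nat_lit 4) (nat_lit 494) (nat_lit 392) (nat_lit 314)) (XT.lf (nat_lit 0) (nat_lit 21558186944) (nat_lit 152) (nat_lit 59567327504) (nat_lit 0) (nat_lit 3569079254) (nat_lit 15) (nat_lit 5) (nat_lit 17) (nat_lit 4) (nat_lit 15) (nat_lit 4) (nat_lit 495) (nat_lit 392) (nat_lit 313)))) (XT.nd (nat_lit 78) (nat_lit 76) (nat_lit 0) (XT.lf (nat_lit 0) (nat_lit 41447483763) (nat_lit 152) (nat_lit 23449803867)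 (nat_lit 0) (nat_lit 23439834975) (nat_lit 15) (nat_lit 5) (nat_lit 17) (nat_lit 4) (nat_lit 15) (nat_lit 4) (nat_lit 496) (nat_lit 392) (nat_lit 312)) (XT.nd (nat_lit 78) (nat_lit 0) (nat_lit 0) (XT.lf (nat_lit 0) (nat_lit 14686230350) (nat_lit 76) (nat_lit 47748869746) (nat_lit 76) (nat_lit 29723562769) (nat_lit 14) (nat_lit 4) (nat_lit 15) (nat_lit 5) (nat_lit 15) (nat_lit 4) (nat_lit 497) (nat_lit 392) (nat_lit 311)) (XT.lf (nat_lit 0) (nat_lit 55147271031) (nat_lit 76) (nat_lit 29529989516) (nat_lit 76) (nat_lit 11487865217) (nat_lit 14) (nat_lit 4) (nat_lit 15) (nat_lit 5) (nat_lit 15) (nat_lit 4) (nat_lit 498) (nat_lit 392) (nat_lit 310)))))) (XT.nd (nat_lit 468) (nat_lit 4180) (nat_lit 0) (XT.nd (nat_lit 234) (nat_lit 2660) (nat_lit 0) (XT.nd (nat_lit 78) (nat_lit 2432) (nat_lit 0) (XT.lf (nat_lit 0) (nat_lit 244867465) (nat_lit 1140) (nat_lit 3018169039) (nat_lit 0) (nat_lit 244867465)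 (nat_lit 305) (nat_lit 5) (nat_lit 320) (nat_lit 4) (nat_lit 305) (nat_lit 4) (nat_lit 414) (nat_lit 393) (nat_lit 393)) (XT.nd (nat_lit 78) (nat_lit 1292) (nat_lit 0) (XT.lf (nat_lit 0) (nat_lit 2369219897) (nat_lit 1140) (nat_lit 3821459766) (nat_lit 1140) (nat_lit 911204128) (nat_lit 290) (nat_lit 4) (nat_lit 305) (nat_lit 5) (nat_lit 305) (nat_lit 4) (nat_lit 415) (nat_lit 393) (nat_lit 392)) (XT.lf (nat_lit 0) (nat_lit 3874047027) (nat_lit 1216) (nat_lit 833329673) (nat_lit 1292) (nat_lit 2488926378) (nat_lit 273) (nat_lit 5) (nat_lit 289) (nat_lit 5) (nat_lit 290) (nat_lit 4) (nat_lit 416) (nat_lit 393) (nat_lit 391)))) (XT.nd (nat_lit 78) (nat_lit 1824) (nat_lit 0) (XT.lf (nat_lit 0) (nat_lit 3082419979) (nat_lit 836) (nat_lit 1821925624) (nat_lit 76) (nat_lit 2394340948) (nat_lit 262) (nat_lit 5) (nat_lit 273) (nat_lit 5) (nat_lit 263) (nat_lit 4) (nat_lit 417) (nat_lit 393) (nat_lit 390))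 (XT.nd (nat_lit 78) (nat_lit 1140) (nat_lit 0) (XT.lf (nat_lit 0) (nat_lit 1296141127) (nat_lit 684) (nat_lit 216887321) (nat_lit 76) (nat_lit 5896582129) (nat_lit 253) (nat_lit 5) (nat_lit 262) (nat_lit 5) (nat_lit 254) (nat_lit 5) (nat_lit 418) (nat_lit 393) (nat_lit 389)) (XT.lf (nat_lit 0) (nat_lit 1505164409) (nat_lit 532) (nat_lit 5379364344) (nat_lit 608) (nat_lit 643741344) (nat_lit 238) (nat_lit 5) (nat_lit 245) (nat_lit 5) (nat_lit 246) (nat_lit 4) (nat_lit 419) (nat_lit 393) (nat_lit 388))))) (XT.nd (nat_lit 234) (nat_lit 2356) (nat_lit 0) (XT.nd (nat_lit 78) (nat_lit 1216) (nat_lit 0) (XT.lf (nat_lit 0) (nat_lit 3318926071) (nat_lit 532) (nat_lit 1559508572) (nat_lit 608) (nat_lit 2776666504) (nat_lit 230) (nat_lit 5) (nat_lit 237) (nat_lit 5) (nat_lit 238) (nat_lit 5) (nat_lit 420) (nat_lit 393) (nat_lit 387)) (XT.nd (nat_lit 78) (nat_lit 608) (nat_lit 0) (XT.lf (nat_lit 0) (nat_lit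 2713469595) (nat_lit 608) (nat_lit 2564979203) (nat_lit 76) (nat_lit 2512035416) (nat_lit 222) (nat_lit 5) (nat_lit 230) (nat_lit 5) (nat_lit 223) (nat_lit 5) (nat_lit 421) (nat_lit 393) (nat_lit 386)) (XT.lf (nat_lit 0) (nat_lit 374201410) (nat_lit 608) (nat_lit 699982832) (nat_lit 76) (nat_lit 6860694552) (nat_lit 214) (nat_lit 5) (nat_lit 222) (nat_lit 5) (nat_lit 215) (nat_lit 5) (nat_lit 422) (nat_lit 393) (nat_lit 385)))) (XT.nd (nat_lit 156) (nat_lit 912) (nat_lit 0) (XT.nd (nat_lit 78) (nat_lit 532) (nat_lit 0) (XT.lf (nat_lit 0) (nat_lit 1246718823) (nat_lit 456) (nat_lit 4680256431) (nat_lit 532) (nat_lit 2160041401) (nat_lit 202) (nat_lit 5) (nat_lit 208) (nat_lit 5) (nat_lit 209) (nat_lit 5) (nat_lit 423) (nat_lit 393) (nat_lit 384)) (XT.lf (nat_lit 0) (nat_lit 3305293305) (nat_lit 456) (nat_lit 50783455) (nat_lit 532) (nat_lit 4892301220) (nat_lit 195) (nat_lit 5) (nat_lit 201) (nat_lit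 5) (nat_lit 202) (nat_lit 5) (nat_lit 424) (nat_lit 393) (nat_lit 383))) (XT.nd (nat_lit 78) (nat_lit 380) (nat_lit 0) (XT.lf (nat_lit 0) (nat_lit 623838823) (nat_lit 532) (nat_lit 2987424646) (nat_lit 76) (nat_lit 4807216472) (nat_lit 188) (nat_lit 5) (nat_lit 195) (nat_lit 5) (nat_lit 189) (nat_lit 5) (nat_lit 425) (nat_lit 393) (nat_lit 382)) (XT.lf (nat_lit 0) (nat_lit 6241797736) (nat_lit 456) (nat_lit 962944063) (nat_lit 76) (nat_lit 1393118212) (nat_lit 183) (nat_lit 5) (nat_lit 189) (nat_lit 5) (nat_lit 184) (nat_lit 5) (nat_lit 426) (nat_lit 393) (nat_lit 381))))))) (XT.nd (nat_lit 1014) (nat_lit 3116) (nat_lit 0) (XT.nd (nat_lit 468) (nat_lit 2356) (nat_lit 0) (XT.nd (nat_lit 234) (nat_lit 1444) (nat_lit 0) (XT.nd (nat_lit 78) (nat_lit 760) (nat_lit 0) (XT.lf (nat_lit 0) (nat_lit 1146831283) (nat_lit 380) (nat_lit 2109827254) (nat_lit 456) (nat_lit 5529591862) (nat_lit 172) (nat_lit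 5) (nat_lit 177) (nat_lit 5) (nat_lit 178) (nat_lit 5) (nat_lit 427) (nat_lit 393) (nat_lit 380)) (XT.nd (nat_lit 78) (nat_lit 304) (nat_lit 0) (XT.lf (nat_lit 0) (nat_lit 84599504) (nat_lit 456) (nat_lit 5632052739) (nat_lit 76) (nat_lit 3267640902) (nat_lit 166) (nat_lit 5) (nat_lit 172) (nat_lit 5) (nat_lit 167) (nat_lit 5) (nat_lit 428) (nat_lit 393) (nat_lit 379)) (XT.lf (nat_lit 0) (nat_lit 5613188359) (nat_lit 304) (nat_lit 208534487) (nat_lit 380) (nat_lit 3370209387) (nat_lit 162) (nat_lit 5) (nat_lit 166) (nat_lit 5) (nat_lit 167) (nat_lit 5) (nat_lit 429) (nat_lit 393) (nat_lit 378)))) (XT.nd (nat_lit 78) (nat_lit 988) (nat_lit 0) (XT.lf (nat_lit 0) (nat_lit 2383647381) (nat_lit 456) (nat_lit 1480950596) (nat_lit 76) (nat_lit 5544821599) (nat_lit 156) (nat_lit 5) (nat_lit 162) (nat_lit 5) (nat_lit 157) (nat_lit 5) (nat_lit 430) (nat_lit 393) (nat_lit 377)) (XT.nd (nat_lit 78) (nat_lit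 380) (nat_lit 0) (XT.lf (nat_lit 0) (nat_lit 695743021) (nat_lit 304) (nat_lit 7636974751) (nat_lit 380) (nat_lit 1304775870) (nat_lit 148) (nat_lit 5) (nat_lit 152) (nat_lit 5) (nat_lit 153) (nat_lit 5) (nat_lit 431) (nat_lit 393) (nat_lit 376)) (XT.lf (nat_lit 0) (nat_lit 2938951526) (nat_lit 304) (nat_lit 1680597815) (nat_lit 380) (nat_lit 5255822722) (nat_lit 143) (nat_lit 5) (nat_lit 147) (nat_lit 5) (nat_lit 148) (nat_lit 5) (nat_lit 432) (nat_lit 393) (nat_lit 375))))) (XT.nd (nat_lit 234) (nat_lit 1368) (nat_lit 0) (XT.nd (nat_lit 78) (nat_lit 608) (nat_lit 0) (XT.lf (nat_lit 0) (nat_lit 680672584) (nat_lit 380) (nat_lit 4885751330) (nat_lit 76) (nat_lit 4557987469) (nat_lit 138) (nat_lit 5) (nat_lit 143) (nat_lit 5) (nat_lit 139) (nat_lit 5) (nat_lit 433) (nat_lit 393) (nat_lit 374)) (XT.nd (nat_lit 78) (nat_lit 380) (nat_lit 0) (XT.lf (nat_lit 0) (nat_lit 6798429096) (nat_lit 304) (nat_lit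 2803987243) (nat_lit 76) (nat_lit 782155630) (nat_lit 135) (nat_lit 5) (nat_lit 139) (nat_lit 5) (nat_lit 136) (nat_lit 5) (nat_lit 434) (nat_lit 393) (nat_lit 373)) (XT.lf (nat_lit 0) (nat_lit 2544984409) (nat_lit 380) (nat_lit 696559532) (nat_lit 76) (nat_lit 7414559054) (nat_lit 130) (nat_lit 5) (nat_lit 135) (nat_lit 5) (nat_lit 131) (nat_lit 5) (nat_lit 435) (nat_lit 393) (nat_lit 372)))) (XT.nd (nat_lit 156) (nat_lit 532) (nat_lit 0) (XT.nd (nat_lit 78) (nat_lit 304) (nat_lit 0) (XT.lf (nat_lit 0) (nat_lit 1474787024) (nat_lit 304) (nat_lit 7462556198) (nat_lit 380) (nat_lit 2001958456) (nat_lit 123) (nat_lit 5) (nat_lit 127) (nat_lit 5) (nat_lit 128) (nat_lit 5) (nat_lit 436) (nat_lit 393) (nat_lit 371)) (XT.lf (nat_lit 0) (nat_lit 3688853484) (nat_lit 228) (nat_lit 663261948) (nat_lit 304) (nat_lit 6882525405) (nat_lit 119) (nat_lit 5) (nat_lit 122) (nat_lit 5) (nat_lit 123) (nat_lit 5)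 (nat_lit 437) (nat_lit 393) (nat_lit 370))) (XT.nd (nat_lit 78) (nat_lit 304) (nat_lit 0) (XT.lf (nat_lit 0) (nat_lit 5922102969) (nat_lit 228) (nat_lit 5114778753) (nat_lit 304) (nat_lit 505657807) (nat_lit 116) (nat_lit 5) (nat_lit 119) (nat_lit 5) (nat_lit 120) (nat_lit 5) (nat_lit 438) (nat_lit 393) (nat_lit 369)) (XT.lf (nat_lit 0) (nat_lit 6093615195) (nat_lit 304) (nat_lit 3695343068) (nat_lit 76) (nat_lit 2074376802) (nat_lit 112) (nat_lit 5) (nat_lit 116) (nat_lit 5) (nat_lit 113) (nat_lit 5) (nat_lit 439) (nat_lit 393) (nat_lit 368)))))) (XT.nd (nat_lit 468) (nat_lit 1520) (nat_lit 0) (XT.nd (nat_lit 234) (nat_lit 684) (nat_lit 0) (XT.nd (nat_lit 78) (nat_lit 608) (nat_lit 0) (XT.lf (nat_lit 0) (nat_lit 852064338) (nat_lit 304) (nat_lit 1752858400) (nat_lit 76) (nat_lit 9593213123) (nat_lit 108) (nat_lit 5) (nat_lit 112) (nat_lit 5) (nat_lit 109) (nat_lit 5) (nat_lit 440) (nat_lit 393)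 (nat_lit 367)) (XT.nd (nat_lit 78) (nat_lit 228) (nat_lit 0) (XT.lf (nat_lit 0) (nat_lit 165529993) (nat_lit 228) (nat_lit 7580382159) (nat_lit 304) (nat_lit 4800257194) (nat_lit 103) (nat_lit 5) (nat_lit 106) (nat_lit 5) (nat_lit 107) (nat_lit 5) (nat_lit 441) (nat_lit 393) (nat_lit 366)) (XT.lf (nat_lit 0) (nat_lit 2091518800) (nat_lit 228) (nat_lit 10762880270) (nat_lit 76) (nat_lit 54848373) (nat_lit 100) (nat_lit 5) (nat_lit 103) (nat_lit 5) (nat_lit 101) (nat_lit 5) (nat_lit 442) (nat_lit 393) (nat_lit 365)))) (XT.nd (nat_lit 78) (nat_lit 456) (nat_lit 0) (XT.lf (nat_lit 0) (nat_lit 4071395712) (nat_lit 228) (nat_lit 5254190593) (nat_lit 304) (nat_lit 3960571554) (nat_lit 97) (nat_lit 5) (nat_lit 100) (nat_lit 5) (nat_lit 101) (nat_lit 5) (nat_lit 443) (nat_lit 393) (nat_lit 364)) (XT.nd (nat_lit 78) (nat_lit 228) (nat_lit 0) (XT.lf (nat_lit 0) (nat_lit 3228235998) (nat_lit 228) (nat_lit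 7677549464) (nat_lit 76) (nat_lit 2773646562) (nat_lit 94) (nat_lit 5) (nat_lit 97) (nat_lit 5) (nat_lit 95) (nat_lit 5) (nat_lit 444) (nat_lit 393) (nat_lit 363)) (XT.lf (nat_lit 0) (nat_lit 7897203878) (nat_lit 228) (nat_lit 2881433741) (nat_lit 304) (nat_lit 3310045926) (nat_lit 91) (nat_lit 5) (nat_lit 94) (nat_lit 5) (nat_lit 95) (nat_lit 5) (nat_lit 445) (nat_lit 393) (nat_lit 362))))) (XT.nd (nat_lit 234) (nat_lit 912) (nat_lit 0) (XT.nd (nat_lit 78) (nat_lit 380) (nat_lit 0) (XT.lf (nat_lit 0) (nat_lit 4196562903) (nat_lit 228) (nat_lit 4766257820) (nat_lit 76) (nat_lit 5551676409) (nat_lit 88) (nat_lit 5) (nat_lit 91) (nat_lit 5) (nat_lit 89) (nat_lit 5) (nat_lit 446) (nat_lit 393) (nat_lit 361)) (XT.nd (nat_lit 78) (nat_lit 228) (nat_lit 0) (XT.lf (nat_lit 0) (nat_lit 11580248152) (nat_lit 152) (nat_lit 500212962) (nat_lit 228) (nat_lit 2878055187) (nat_lit 86) (nat_lit 5) (nat_lit 88)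 (nat_lit 5) (nat_lit 89) (nat_lit 5) (nat_lit 447) (nat_lit 393) (nat_lit 360)) (XT.lf (nat_lit 0) (nat_lit 4965702152) (nat_lit 228) (nat_lit 2102880505) (nat_lit 76) (nat_lit 8350895899) (nat_lit 83) (nat_lit 5) (nat_lit 86) (nat_lit 5) (nat_lit 84) (nat_lit 5) (nat_lit 448) (nat_lit 393) (nat_lit 359)))) (XT.nd (nat_lit 156) (nat_lit 380) (nat_lit 0) (XT.nd (nat_lit 78) (nat_lit 380) (nat_lit 0) (XT.lf (nat_lit 0) (nat_lit 13216291004) (nat_lit 228) (nat_lit 874508565) (nat_lit 76) (nat_lit 1809618797) (nat_lit 81) (nat_lit 5) (nat_lit 84) (nat_lit 5) (nat_lit 82) (nat_lit 4) (nat_lit 449) (nat_lit 393) (nat_lit 358)) (XT.lf (nat_lit 0) (nat_lit 227663400) (nat_lit 152) (nat_lit 5270645135) (nat_lit 228) (nat_lit 10901592983) (nat_lit 76) (nat_lit 5) (nat_lit 78) (nat_lit 5) (nat_lit 79) (nat_lit 5) (nat_lit 450) (nat_lit 393) (nat_lit 357))) (XT.nd (nat_lit 78) (nat_lit 228) (nat_lit 0) (XT.lf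 (nat_lit 0) (nat_lit 1259428815) (nat_lit 152) (nat_lit 12883342410) (nat_lit 228) (nat_lit 2777546018) (nat_lit 74) (nat_lit 5) (nat_lit 76) (nat_lit 5) (nat_lit 77) (nat_lit 4) (nat_lit 451) (nat_lit 393) (nat_lit 356)) (XT.lf (nat_lit 0) (nat_lit 2145943188) (nat_lit 152) (nat_lit 3612795115) (nat_lit 228) (nat_lit 11702815339) (nat_lit 71) (nat_lit 5) (nat_lit 73) (nat_lit 5) (nat_lit 74) (nat_lit 5) (nat_lit 452) (nat_lit 393) (nat_lit 355))))))))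
noncomputable def xc36 : XT := (XT.nd (nat_lit 1950) (nat_lit 1368) (nat_lit 0) (XT.nd (nat_lit 936) (nat_lit 1292) (nat_lit 0) (XT.nd (nat_lit 468) (nat_lit 684) (nat_lit 0) (XT.nd (nat_lit 234) (nat_lit 532) (nat_lit 0) (XT.nd (nat_lit 78) (nat_lit 304) (nat_lit 0) (XT.lf (nat_lit 0) (nat_lit 2892460426) (nat_lit 152) (nat_lit 11901106657) (nat_lit 228) (nat_lit 3231591747) (nat_lit 69) (nat_lit 5) (nat_lit 71) (nat_lit 5) (nat_lit 72) (nat_lit 4) (nat_lit 453) (nat_lit 393) (nat_lit 354)) (XT.nd (nat_lit 78) (nat_lit 76) (nat_lit 0) (XT.lf (nat_lit 0) (nat_lit 3477254709) (nat_lit 152) (nat_lit 2186248830) (nat_lit 228) (nat_lit 12948489669) (nat_lit 66) (nat_lit 5) (nat_lit 68) (nat_lit 5) (nat_lit 69) (nat_lit 5) (nat_lit 454) (nat_lit 393) (nat_lit 353)) (XT.lf (nat_lit 0) (nat_lit 3861376095) (nat_lit 76) (nat_lit 11231634027) (nat_lit 152) (nat_lit 4129510927) (nat_lit 65) (nat_lit 5)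 (nat_lit 66) (nat_lit 5) (nat_lit 67) (nat_lit 4) (nat_lit 455) (nat_lit 393) (nat_lit 352)))) (XT.nd (nat_lit 78) (nat_lit 304) (nat_lit 0) (XT.lf (nat_lit 0) (nat_lit 4061637751) (nat_lit 152) (nat_lit 1073907916) (nat_lit 228) (nat_lit 14723398730) (nat_lit 62) (nat_lit 5) (nat_lit 64) (nat_lit 5) (nat_lit 65) (nat_lit 5) (nat_lit 456) (nat_lit 393) (nat_lit 351)) (XT.nd (nat_lit 78) (nat_lit 228) (nat_lit 0) (XT.lf (nat_lit 0) (nat_lit 3990786474) (nat_lit 76) (nat_lit 10968043858) (nat_lit 152) (nat_lit 5561726187) (nat_lit 61) (nat_lit 5) (nat_lit 62) (nat_lit 5) (nat_lit 63) (nat_lit 4) (nat_lit 457) (nat_lit 393) (nat_lit 350)) (XT.lf (nat_lit 0) (nat_lit 3706885263) (nat_lit 152) (nat_lit 374268199) (nat_lit 228) (nat_lit 17129861399) (nat_lit 58) (nat_lit 5) (nat_lit 60) (nat_lit 5) (nat_lit 61) (nat_lit 5) (nat_lit 458) (nat_lit 393) (nat_lit 349))))) (XT.nd (nat_lit 234) (nat_lit 304)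 (nat_lit 0) (XT.nd (nat_lit 78) (nat_lit 304) (nat_lit 0) (XT.lf (nat_lit 0) (nat_lit 3070152581) (nat_lit 76) (nat_lit 11220761019) (nat_lit 152) (nat_lit 7637442600) (nat_lit 57) (nat_lit 5) (nat_lit 58) (nat_lit 5) (nat_lit 59) (nat_lit 4) (nat_lit 459) (nat_lit 393) (nat_lit 348)) (XT.nd (nat_lit 78) (nat_lit 76) (nat_lit 0) (XT.lf (nat_lit 0) (nat_lit 2182513635) (nat_lit 152) (nat_lit 204534924) (nat_lit 228) (nat_lit 20290761486) (nat_lit 54) (nat_lit 5) (nat_lit 56) (nat_lit 5) (nat_lit 57) (nat_lit 5) (nat_lit 460) (nat_lit 393) (nat_lit 347)) (XT.lf (nat_lit 0) (nat_lit 847254536) (nat_lit 76) (nat_lit 12120894010) (nat_lit 152) (nat_lit 10487923675) (nat_lit 53) (nat_lit 5) (nat_lit 54) (nat_lit 5) (nat_lit 55) (nat_lit 4) (nat_lit 461) (nat_lit 393) (nat_lit 346)))) (XT.nd (nat_lit 78) (nat_lit 304) (nat_lit 0) (XT.lf (nat_lit 0) (nat_lit 23497126197) (nat_lit 76) (nat_lit 695701963)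 (nat_lit 152) (nat_lit 76987736) (nat_lit 53) (nat_lit 5) (nat_lit 54) (nat_lit 5) (nat_lit 55) (nat_lit 4) (nat_lit 462) (nat_lit 393) (nat_lit 345)) (XT.nd (nat_lit 78) (nat_lit 76) (nat_lit 0) (XT.lf (nat_lit 0) (nat_lit 10873347868) (nat_lit 228) (nat_lit 2921332836) (nat_lit 76) (nat_lit 11319519772) (nat_lit 50) (nat_lit 5) (nat_lit 53) (nat_lit 5) (nat_lit 51) (nat_lit 4) (nat_lit 463) (nat_lit 393) (nat_lit 344)) (XT.lf (nat_lit 0) (nat_lit 20539336694) (nat_lit 76) (nat_lit 1950086734) (nat_lit 152) (nat_lit 3507767164) (nat_lit 49) (nat_lit 5) (nat_lit 50) (nat_lit 5) (nat_lit 51) (nat_lit 4) (nat_lit 464) (nat_lit 393) (nat_lit 343)))))) (XT.nd (nat_lit 468) (nat_lit 608) (nat_lit 0) (XT.nd (nat_lit 234) (nat_lit 228) (nat_lit 0) (XT.nd (nat_lit 78) (nat_lit 228) (nat_lit 0) (XT.lf (nat_lit 0) (nat_lit 7829966559) (nat_lit 228) (nat_lit 8598802989) (nat_lit 76) (nat_lit 10486741901)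 (nat_lit 46) (nat_lit 5) (nat_lit 49) (nat_lit 5) (nat_lit 47) (nat_lit 4) (nat_lit 465) (nat_lit 393) (nat_lit 342)) (XT.nd (nat_lit 78) (nat_lit 152) (nat_lit 0) (XT.lf (nat_lit 0) (nat_lit 15595093602) (nat_lit 76) (nat_lit 4205088769) (nat_lit 152) (nat_lit 8074383026) (nat_lit 45) (nat_lit 5) (nat_lit 46) (nat_lit 5) (nat_lit 47) (nat_lit 4) (nat_lit 466) (nat_lit 393) (nat_lit 341)) (XT.lf (nat_lit 0) (nat_lit 3624803398) (nat_lit 152) (nat_lit 16622122473) (nat_lit 76) (nat_lit 8627477951) (nat_lit 43) (nat_lit 5) (nat_lit 45) (nat_lit 5) (nat_lit 44) (nat_lit 4) (nat_lit 467) (nat_lit 393) (nat_lit 340)))) (XT.nd (nat_lit 78) (nat_lit 152) (nat_lit 0) (XT.lf (nat_lit 0) (nat_lit 8218498542) (nat_lit 76) (nat_lit 7688891115) (nat_lit 152) (nat_lit 14009486065) (nat_lit 42) (nat_lit 5) (nat_lit 43) (nat_lit 5) (nat_lit 44) (nat_lit 4) (nat_lit 468) (nat_lit 393) (nat_lit 339)) (XT.nd (nat_lit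 78) (nat_lit 76) (nat_lit 0) (XT.lf (nat_lit 0) (nat_lit 3495303016) (nat_lit 76) (nat_lit 25484623654) (nat_lit 76) (nat_lit 2026272590) (nat_lit 41) (nat_lit 4) (nat_lit 42) (nat_lit 5) (nat_lit 42) (nat_lit 4) (nat_lit 469) (nat_lit 393) (nat_lit 338)) (XT.lf (nat_lit 0) (nat_lit 10571543880) (nat_lit 152) (nat_lit 2080039439) (nat_lit 76) (nat_lit 19488721090) (nat_lit 40) (nat_lit 5) (nat_lit 42) (nat_lit 5) (nat_lit 41) (nat_lit 4) (nat_lit 470) (nat_lit 393) (nat_lit 337))))) (XT.nd (nat_lit 234) (nat_lit 304) (nat_lit 0) (XT.nd (nat_lit 78) (nat_lit 228) (nat_lit 0) (XT.lf (nat_lit 0) (nat_lit 23929392388) (nat_lit 152) (nat_lit 8396952511) (nat_lit 0) (nat_lit 999008989) (nat_lit 39) (nat_lit 5) (nat_lit 41) (nat_lit 4) (nat_lit 39) (nat_lit 4) (nat_lit 471) (nat_lit 393) (nat_lit 336)) (XT.nd (nat_lit 78) (nat_lit 76) (nat_lit 0) (XT.lf (nat_lit 0) (nat_lit 3576261532) (nat_lit 152)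 (nat_lit 15742714314) (nat_lit 76) (nat_lit 15242000476) (nat_lit 37) (nat_lit 5) (nat_lit 39) (nat_lit 5) (nat_lit 38) (nat_lit 4) (nat_lit 472) (nat_lit 393) (nat_lit 335)) (XT.lf (nat_lit 0) (nat_lit 11701961394) (nat_lit 76) (nat_lit 5427690388) (nat_lit 152) (nat_lit 18722132929) (nat_lit 36) (nat_lit 5) (nat_lit 37) (nat_lit 5) (nat_lit 38) (nat_lit 4) (nat_lit 473) (nat_lit 393) (nat_lit 334)))) (XT.nd (nat_lit 156) (nat_lit 152) (nat_lit 0) (XT.nd (nat_lit 78) (nat_lit 76) (nat_lit 0) (XT.lf (nat_lit 0) (nat_lit 3481886407) (nat_lit 76) (nat_lit 28090835885) (nat_lit 76) (nat_lit 5628052888) (nat_lit 35) (nat_lit 4) (nat_lit 36) (nat_lit 5) (nat_lit 36) (nat_lit 4) (nat_lit 474) (nat_lit 393) (nat_lit 333)) (XT.lf (nat_lit 0) (nat_lit 8196409927) (nat_lit 152) (nat_lit 5884574554) (nat_lit 76) (nat_lit 24526866379) (nat_lit 34) (nat_lit 5) (nat_lit 36) (nat_lit 5) (nat_lit 35) (nat_lit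 4) (nat_lit 475) (nat_lit 393) (nat_lit 332))) (XT.nd (nat_lit 78) (nat_lit 76) (nat_lit 0) (XT.lf (nat_lit 0) (nat_lit 22763713408) (nat_lit 152) (nat_lit 16474356028) (nat_lit 0) (nat_lit 840500507) (nat_lit 33) (nat_lit 5) (nat_lit 35) (nat_lit 4) (nat_lit 33) (nat_lit 4) (nat_lit 476) (nat_lit 393) (nat_lit 331)) (XT.lf (nat_lit 0) (nat_lit 13051053859) (nat_lit 76) (nat_lit 25270204813) (nat_lit 76) (nat_lit 3293711671) (nat_lit 32) (nat_lit 4) (nat_lit 33) (nat_lit 5) (nat_lit 33) (nat_lit 4) (nat_lit 477) (nat_lit 393) (nat_lit 330))))))) (XT.nd (nat_lit 1014) (nat_lit 456) (nat_lit 0) (XT.nd (nat_lit 468) (nat_lit 456) (nat_lit 0) (XT.nd (nat_lit 234) (nat_lit 228) (nat_lit 0) (XT.nd (nat_lit 78) (nat_lit 76) (nat_lit 0) (XT.lf (nat_lit 0) (nat_lit 953085929) (nat_lit 76) (nat_lit 10367269813) (nat_lit 152) (nat_lit 31901094541) (nat_lit 30) (nat_lit 5) (nat_lit 31) (nat_lit 5) (nat_lit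 32) (nat_lit 4) (nat_lit 478) (nat_lit 393) (nat_lit 329)) (XT.nd (nat_lit 78) (nat_lit 76) (nat_lit 0) (XT.lf (nat_lit 0) (nat_lit 26881146655) (nat_lit 152) (nat_lit 12569045287) (nat_lit 0) (nat_lit 5448561239) (nat_lit 30) (nat_lit 5) (nat_lit 32) (nat_lit 4) (nat_lit 30) (nat_lit 4) (nat_lit 479) (nat_lit 393) (nat_lit 328)) (XT.lf (nat_lit 0) (nat_lit 18757061369) (nat_lit 76) (nat_lit 24686708899) (nat_lit 76) (nat_lit 3209438556) (nat_lit 29) (nat_lit 4) (nat_lit 30) (nat_lit 5) (nat_lit 30) (nat_lit 4) (nat_lit 480) (nat_lit 393) (nat_lit 327)))) (XT.nd (nat_lit 78) (nat_lit 76) (nat_lit 0) (XT.lf (nat_lit 0) (nat_lit 3246763404) (nat_lit 76) (nat_lit 8953527640) (nat_lit 152) (nat_lit 36288481127) (nat_lit 27) (nat_lit 5) (nat_lit 28) (nat_lit 5) (nat_lit 29) (nat_lit 4) (nat_lit 481) (nat_lit 393) (nat_lit 326)) (XT.nd (nat_lit 78) (nat_lit 76) (nat_lit 0) (XT.lf (nat_lit 0) (nat_lit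 28618768458) (nat_lit 152) (nat_lit 14100871950) (nat_lit 0) (nat_lit 7686382085) (nat_lit 27) (nat_lit 5) (nat_lit 29) (nat_lit 4) (nat_lit 27) (nat_lit 4) (nat_lit 482) (nat_lit 393) (nat_lit 325)) (XT.lf (nat_lit 0) (nat_lit 18763405983) (nat_lit 76) (nat_lit 27309574402) (nat_lit 76) (nat_lit 6339711795) (nat_lit 26) (nat_lit 4) (nat_lit 27) (nat_lit 5) (nat_lit 27) (nat_lit 4) (nat_lit 483) (nat_lit 393) (nat_lit 324))))) (XT.nd (nat_lit 234) (nat_lit 228) (nat_lit 0) (XT.nd (nat_lit 78) (nat_lit 152) (nat_lit 0) (XT.lf (nat_lit 0) (nat_lit 9779177879) (nat_lit 152) (nat_lit 1153823162) (nat_lit 76) (nat_lit 43581093092) (nat_lit 25) (nat_lit 5) (nat_lit 27) (nat_lit 5) (nat_lit 26) (nat_lit 4) (nat_lit 484) (nat_lit 393) (nat_lit 323)) (XT.nd (nat_lit 78) (nat_lit 76) (nat_lit 0) (XT.lf (nat_lit 0) (nat_lit 26907001853) (nat_lit 152) (nat_lit 23321401268) (nat_lit 0) (nat_lit 6480257867)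 (nat_lit 24) (nat_lit 5) (nat_lit 26) (nat_lit 4) (nat_lit 24) (nat_lit 4) (nat_lit 485) (nat_lit 393) (nat_lit 322)) (XT.lf (nat_lit 0) (nat_lit 10663909716) (nat_lit 76) (nat_lit 34401005479) (nat_lit 76) (nat_lit 13942831027) (nat_lit 23) (nat_lit 4) (nat_lit 24) (nat_lit 5) (nat_lit 24) (nat_lit 4) (nat_lit 486) (nat_lit 393) (nat_lit 321)))) (XT.nd (nat_lit 156) (nat_lit 76) (nat_lit 0) (XT.nd (nat_lit 78) (nat_lit 76) (nat_lit 0) (XT.lf (nat_lit 0) (nat_lit 2848376898) (nat_lit 152) (nat_lit 14705903125) (nat_lit 76) (nat_lit 43860956415) (nat_lit 22) (nat_lit 5) (nat_lit 24) (nat_lit 5) (nat_lit 23) (nat_lit 4) (nat_lit 487) (nat_lit 393) (nat_lit 320)) (XT.lf (nat_lit 0) (nat_lit 20349722134) (nat_lit 152) (nat_lit 43153793477) (nat_lit 0) (nat_lit 430676903) (nat_lit 21) (nat_lit 5) (nat_lit 23) (nat_lit 4) (nat_lit 21) (nat_lit 4) (nat_lit 488) (nat_lit 393) (nat_lit 319))) (XT.nd (nat_lit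 78) (nat_lit 76) (nat_lit 0) (XT.lf (nat_lit 0) (nat_lit 39009398928) (nat_lit 152) (nat_lit 8497206680) (nat_lit 0) (nat_lit 19063993679) (nat_lit 21) (nat_lit 5) (nat_lit 23) (nat_lit 4) (nat_lit 21) (nat_lit 4) (nat_lit 489) (nat_lit 393) (nat_lit 318)) (XT.lf (nat_lit 0) (nat_lit 28357665079) (nat_lit 76) (nat_lit 30472415746) (nat_lit 76) (nat_lit 10501905718) (nat_lit 20) (nat_lit 4) (nat_lit 21) (nat_lit 5) (nat_lit 21) (nat_lit 4) (nat_lit 490) (nat_lit 393) (nat_lit 317)))))) (XT.nd (nat_lit 468) (nat_lit 76) (nat_lit 0) (XT.nd (nat_lit 234) (nat_lit 228) (nat_lit 0) (XT.nd (nat_lit 78) (nat_lit 76) (nat_lit 0) (XT.lf (nat_lit 0) (nat_lit 7310390777) (nat_lit 152) (nat_lit 5154326062) (nat_lit 76) (nat_lit 59763250870) (nat_lit 19) (nat_lit 5) (nat_lit 21) (nat_lit 5) (nat_lit 20) (nat_lit 4) (nat_lit 491) (nat_lit 393) (nat_lit 316)) (XT.nd (nat_lit 78) (nat_lit 0) (nat_lit 0) (XT.lf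 (nat_lit 0) (nat_lit 26138596731) (nat_lit 152) (nat_lit 42412326237) (nat_lit 0) (nat_lit 6704431571) (nat_lit 18) (nat_lit 5) (nat_lit 20) (nat_lit 4) (nat_lit 18) (nat_lit 4) (nat_lit 492) (nat_lit 393) (nat_lit 315)) (XT.lf (nat_lit 0) (nat_lit 46046826391) (nat_lit 152) (nat_lit 5791520151) (nat_lit 0) (nat_lit 26591606424) (nat_lit 18) (nat_lit 5) (nat_lit 20) (nat_lit 4) (nat_lit 18) (nat_lit 4) (nat_lit 493) (nat_lit 393) (nat_lit 314)))) (XT.nd (nat_lit 78) (nat_lit 152) (nat_lit 0) (XT.lf (nat_lit 0) (nat_lit 33232014822) (nat_lit 76) (nat_lit 33999060524) (nat_lit 76) (nat_lit 14523788360) (nat_lit 17) (nat_lit 4) (nat_lit 18) (nat_lit 5) (nat_lit 18) (nat_lit 4) (nat_lit 494) (nat_lit 393) (nat_lit 313)) (XT.nd (nat_lit 78) (nat_lit 76) (nat_lit 0) (XT.lf (nat_lit 0) (nat_lit 4168131976) (nat_lit 152) (nat_lit 11033061583) (nat_lit 76) (nat_lit 70042943727) (nat_lit 16) (nat_lit 5)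 (nat_lit 18) (nat_lit 5) (nat_lit 17) (nat_lit 4) (nat_lit 495) (nat_lit 393) (nat_lit 312)) (XT.lf (nat_lit 0) (nat_lit 23783863313) (nat_lit 152) (nat_lit 60271377311) (nat_lit 0) (nat_lit 4839632798) (nat_lit 15) (nat_lit 5) (nat_lit 17) (nat_lit 4) (nat_lit 15) (nat_lit 4) (nat_lit 496) (nat_lit 393) (nat_lit 311))))) (XT.nd (nat_lit 55926) (nat_lit 0) (nat_lit 19608) (XT.nd (nat_lit 78) (nat_lit 76) (nat_lit 0) (XT.lf (nat_lit 0) (nat_lit 44612969400) (nat_lit 152) (nat_lit 22456278282) (nat_lit 0) (nat_lit 25651921563) (nat_lit 15) (nat_lit 5) (nat_lit 17) (nat_lit 4) (nat_lit 15) (nat_lit 4) (nat_lit 497) (nat_lit 393) (nat_lit 310)) (XT.nd (nat_lit 55770) (nat_lit 0) (nat_lit 25232) (XT.lf (nat_lit 0) (nat_lit 17524469239) (nat_lit 76) (nat_lit 49093668621) (nat_lit 76) (nat_lit 30116604287) (nat_lit 14) (nat_lit 4) (nat_lit 15) (nat_lit 5) (nat_lit 15) (nat_lit 4) (nat_lit 498) (nat_lit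 393) (nat_lit 309)) (XT.lf (nat_lit 0) (nat_lit 2771299403) (nat_lit 836) (nat_lit 330070601) (nat_lit 836) (nat_lit 330070601) (nat_lit 346) (nat_lit 4) (nat_lit 357) (nat_lit 5) (nat_lit 357) (nat_lit 4) (nat_lit 412) (nat_lit 394) (nat_lit 394)))) (XT.nd (nat_lit 156) (nat_lit 2508) (nat_lit 0) (XT.nd (nat_lit 78) (nat_lit 2128) (nat_lit 0) (XT.lf (nat_lit 0) (nat_lit 4885543441) (nat_lit 988) (nat_lit 313508671) (nat_lit 0) (nat_lit 1738101968) (nat_lit 333) (nat_lit 5) (nat_lit 346) (nat_lit 4) (nat_lit 333) (nat_lit 4) (nat_lit 413) (nat_lit 394) (nat_lit 393)) (XT.lf (nat_lit 0) (nat_lit 818171543) (nat_lit 1064) (nat_lit 2611964576) (nat_lit 1140) (nat_lit 3589177157) (nat_lit 305) (nat_lit 5) (nat_lit 319) (nat_lit 5) (nat_lit 320) (nat_lit 4) (nat_lit 414) (nat_lit 394) (nat_lit 392))) (XT.nd (nat_lit 78) (nat_lit 1292) (nat_lit 0) (XT.lf (nat_lit 0) (nat_lit 1822954657) (nat_lit 1216)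 (nat_lit 5037098139) (nat_lit 76) (nat_lit 249689399) (nat_lit 289) (nat_lit 5) (nat_lit 305) (nat_lit 5) (nat_lit 290) (nat_lit 4) (nat_lit 415) (nat_lit 394) (nat_lit 391)) (XT.lf (nat_lit 0) (nat_lit 79863709) (nat_lit 1292) (nat_lit 3788610039) (nat_lit 76) (nat_lit 3339470512) (nat_lit 272) (nat_lit 5) (nat_lit 289) (nat_lit 5) (nat_lit 273) (nat_lit 5) (nat_lit 416) (nat_lit 394) (nat_lit 390))))))))
noncomputable def xc37 : XT := (XT.nd (nat_lit 1950) (nat_lit 4636) (nat_lit 0) (XT.nd (nat_lit 936) (nat_lit 4560) (nat_lit 0) (XT.nd (nat_lit 468) (nat_lit 3648) (nat_lit 0) (XT.nd (nat_lit 234) (nat_lit 1748) (nat_lit 0) (XT.nd (nat_lit 78) (nat_lit 1900) (nat_lit 0) (XT.lf (nat_lit 0) (nat_lit 4867677269) (nat_lit 760) (nat_lit 579116900) (nat_lit 836) (nat_lit 1867527336) (nat_lit 262) (nat_lit 5) (nat_lit 272) (nat_lit 5) (nat_lit 273) (nat_lit 5) (nat_lit 417) (nat_lit 394) (nat_lit 389))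 (XT.nd (nat_lit 78) (nat_lit 1216) (nat_lit 0) (XT.lf (nat_lit 0) (nat_lit 3463222020) (nat_lit 684) (nat_lit 1022416380) (nat_lit 76) (nat_lit 2943037953) (nat_lit 253) (nat_lit 5) (nat_lit 262) (nat_lit 5) (nat_lit 254) (nat_lit 5) (nat_lit 418) (nat_lit 394) (nat_lit 388)) (XT.lf (nat_lit 0) (nat_lit 517774691) (nat_lit 532) (nat_lit 797756676) (nat_lit 608) (nat_lit 6236183217) (nat_lit 237) (nat_lit 5) (nat_lit 244) (nat_lit 5) (nat_lit 245) (nat_lit 5) (nat_lit 419) (nat_lit 394) (nat_lit 387)))) (XT.nd (nat_lit 78) (nat_lit 1216) (nat_lit 0) (XT.lf (nat_lit 0) (nat_lit 2153137888) (nat_lit 532) (nat_lit 4536843933) (nat_lit 608) (nat_lit 992462470) (nat_lit 230) (nat_lit 5) (nat_lit 237) (nat_lit 5) (nat_lit 238) (nat_lit 5) (nat_lit 420) (nat_lit 394) (nat_lit 386)) (XT.nd (nat_lit 78) (nat_lit 608) (nat_lit 0) (XT.lf (nat_lit 0) (nat_lit 3881740308) (nat_lit 532) (nat_lit 430192314) (nat_lit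 608) (nat_lit 3509935122) (nat_lit 222) (nat_lit 5) (nat_lit 229) (nat_lit 5) (nat_lit 230) (nat_lit 5) (nat_lit 421) (nat_lit 394) (nat_lit 385)) (XT.lf (nat_lit 0) (nat_lit 1781374711) (nat_lit 608) (nat_lit 2281398205) (nat_lit 76) (nat_lit 3906942424) (nat_lit 214) (nat_lit 5) (nat_lit 222) (nat_lit 5) (nat_lit 215) (nat_lit 5) (nat_lit 422) (nat_lit 394) (nat_lit 384))))) (XT.nd (nat_lit 234) (nat_lit 1672) (nat_lit 0) (XT.nd (nat_lit 78) (nat_lit 1520) (nat_lit 0) (XT.lf (nat_lit 0) (nat_lit 7170003651) (nat_lit 532) (nat_lit 532337282) (nat_lit 76) (nat_lit 424460539) (nat_lit 208) (nat_lit 5) (nat_lit 215) (nat_lit 5) (nat_lit 209) (nat_lit 5) (nat_lit 423) (nat_lit 394) (nat_lit 383)) (XT.nd (nat_lit 78) (nat_lit 532) (nat_lit 0) (XT.lf (nat_lit 0) (nat_lit 1291236409) (nat_lit 456) (nat_lit 3115014935) (nat_lit 532) (nat_lit 3885474267) (nat_lit 195) (nat_lit 5) (nat_lit 201) (nat_lit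 5) (nat_lit 202) (nat_lit 5) (nat_lit 424) (nat_lit 394) (nat_lit 382)) (XT.lf (nat_lit 0) (nat_lit 1457371785) (nat_lit 532) (nat_lit 5247077269) (nat_lit 76) (nat_lit 1761718042) (nat_lit 188) (nat_lit 5) (nat_lit 195) (nat_lit 5) (nat_lit 189) (nat_lit 5) (nat_lit 425) (nat_lit 394) (nat_lit 381)))) (XT.nd (nat_lit 78) (nat_lit 1292) (nat_lit 0) (XT.lf (nat_lit 0) (nat_lit 5210970283) (nat_lit 380) (nat_lit 1728389040) (nat_lit 456) (nat_lit 1710286466) (nat_lit 183) (nat_lit 5) (nat_lit 188) (nat_lit 5) (nat_lit 189) (nat_lit 5) (nat_lit 426) (nat_lit 394) (nat_lit 380)) (XT.nd (nat_lit 78) (nat_lit 836) (nat_lit 0) (XT.lf (nat_lit 0) (nat_lit 3739738813) (nat_lit 456) (nat_lit 1576578071) (nat_lit 76) (nat_lit 3526053901) (nat_lit 177) (nat_lit 5) (nat_lit 183) (nat_lit 5) (nat_lit 178) (nat_lit 5) (nat_lit 427) (nat_lit 394) (nat_lit 379)) (XT.lf (nat_lit 0) (nat_lit 331659580) (nat_lit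 456) (nat_lit 8666905742) (nat_lit 76) (nat_lit 46888787) (nat_lit 166) (nat_lit 5) (nat_lit 172) (nat_lit 5) (nat_lit 167) (nat_lit 5) (nat_lit 428) (nat_lit 394) (nat_lit 378)))))) (XT.nd (nat_lit 468) (nat_lit 2204) (nat_lit 0) (XT.nd (nat_lit 234) (nat_lit 1292) (nat_lit 0) (XT.nd (nat_lit 78) (nat_lit 760) (nat_lit 0) (XT.lf (nat_lit 0) (nat_lit 2384457539) (nat_lit 304) (nat_lit 3560767442) (nat_lit 380) (nat_lit 3311590818) (nat_lit 162) (nat_lit 5) (nat_lit 166) (nat_lit 5) (nat_lit 167) (nat_lit 5) (nat_lit 429) (nat_lit 394) (nat_lit 377)) (XT.nd (nat_lit 78) (nat_lit 304) (nat_lit 0) (XT.lf (nat_lit 0) (nat_lit 2284402860) (nat_lit 456) (nat_lit 5007860669) (nat_lit 76) (nat_lit 2186738952) (nat_lit 156) (nat_lit 5) (nat_lit 162) (nat_lit 5) (nat_lit 157) (nat_lit 5) (nat_lit 430) (nat_lit 394) (nat_lit 376)) (XT.lf (nat_lit 0) (nat_lit 6612855635) (nat_lit 304) (nat_lit 1471044831)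 (nat_lit 380) (nat_lit 1627677234) (nat_lit 152) (nat_lit 5) (nat_lit 156) (nat_lit 5) (nat_lit 157) (nat_lit 5) (nat_lit 431) (nat_lit 394) (nat_lit 375)))) (XT.nd (nat_lit 78) (nat_lit 912) (nat_lit 0) (XT.lf (nat_lit 0) (nat_lit 4142864337) (nat_lit 380) (nat_lit 1162252190) (nat_lit 76) (nat_lit 4649248167) (nat_lit 147) (nat_lit 5) (nat_lit 152) (nat_lit 5) (nat_lit 148) (nat_lit 5) (nat_lit 432) (nat_lit 394) (nat_lit 374)) (XT.nd (nat_lit 78) (nat_lit 304) (nat_lit 0) (XT.lf (nat_lit 0) (nat_lit 862630910) (nat_lit 304) (nat_lit 9306541771) (nat_lit 380) (nat_lit 39633027) (nat_lit 139) (nat_lit 5) (nat_lit 143) (nat_lit 5) (nat_lit 144) (nat_lit 5) (nat_lit 433) (nat_lit 394) (nat_lit 373)) (XT.lf (nat_lit 0) (nat_lit 2910530689) (nat_lit 228) (nat_lit 3033239196) (nat_lit 304) (nat_lit 4529273021) (nat_lit 135) (nat_lit 5) (nat_lit 138) (nat_lit 5) (nat_lit 139) (nat_lit 5) (nat_lit 434)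 (nat_lit 394) (nat_lit 372))))) (XT.nd (nat_lit 234) (nat_lit 1216) (nat_lit 0) (XT.nd (nat_lit 78) (nat_lit 608) (nat_lit 0) (XT.lf (nat_lit 0) (nat_lit 1461783552) (nat_lit 380) (nat_lit 5730091555) (nat_lit 76) (nat_lit 3557735558) (nat_lit 130) (nat_lit 5) (nat_lit 135) (nat_lit 5) (nat_lit 131) (nat_lit 5) (nat_lit 435) (nat_lit 394) (nat_lit 371)) (XT.nd (nat_lit 78) (nat_lit 380) (nat_lit 0) (XT.lf (nat_lit 0) (nat_lit 7161574941) (nat_lit 228) (nat_lit 515601499) (nat_lit 304) (nat_lit 3360951903) (nat_lit 127) (nat_lit 5) (nat_lit 130) (nat_lit 5) (nat_lit 131) (nat_lit 5) (nat_lit 436) (nat_lit 394) (nat_lit 370)) (XT.lf (nat_lit 0) (nat_lit 2862749952) (nat_lit 380) (nat_lit 2018474032) (nat_lit 76) (nat_lit 6457351409) (nat_lit 122) (nat_lit 5) (nat_lit 127) (nat_lit 5) (nat_lit 123) (nat_lit 5) (nat_lit 437) (nat_lit 394) (nat_lit 369)))) (XT.nd (nat_lit 156) (nat_lit 456) (nat_lit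 0) (XT.nd (nat_lit 78) (nat_lit 532) (nat_lit 0) (XT.lf (nat_lit 0) (nat_lit 9354070831) (nat_lit 304) (nat_lit 128267201) (nat_lit 76) (nat_lit 2169948235) (nat_lit 119) (nat_lit 5) (nat_lit 123) (nat_lit 5) (nat_lit 120) (nat_lit 5) (nat_lit 438) (nat_lit 394) (nat_lit 368)) (XT.lf (nat_lit 0) (nat_lit 1797282969) (nat_lit 228) (nat_lit 2381447282) (nat_lit 304) (nat_lit 7799595841) (nat_lit 112) (nat_lit 5) (nat_lit 115) (nat_lit 5) (nat_lit 116) (nat_lit 5) (nat_lit 439) (nat_lit 394) (nat_lit 367))) (XT.nd (nat_lit 78) (nat_lit 228) (nat_lit 0) (XT.lf (nat_lit 0) (nat_lit 3740362233) (nat_lit 228) (nat_lit 7252434504) (nat_lit 304) (nat_lit 1325380332) (nat_lit 109) (nat_lit 5) (nat_lit 112) (nat_lit 5) (nat_lit 113) (nat_lit 5) (nat_lit 440) (nat_lit 394) (nat_lit 366)) (XT.lf (nat_lit 0) (nat_lit 5408198144) (nat_lit 228) (nat_lit 6984187200) (nat_lit 76) (nat_lit 279798570) (nat_lit 106)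 (nat_lit 5) (nat_lit 109) (nat_lit 5) (nat_lit 107) (nat_lit 5) (nat_lit 441) (nat_lit 394) (nat_lit 365))))))) (XT.nd (nat_lit 1014) (nat_lit 1748) (nat_lit 0) (XT.nd (nat_lit 468) (nat_lit 1368) (nat_lit 0) (XT.nd (nat_lit 234) (nat_lit 760) (nat_lit 0) (XT.nd (nat_lit 78) (nat_lit 532) (nat_lit 0) (XT.lf (nat_lit 0) (nat_lit 7628859439) (nat_lit 228) (nat_lit 4917006555) (nat_lit 304) (nat_lit 494800813) (nat_lit 103) (nat_lit 5) (nat_lit 106) (nat_lit 5) (nat_lit 107) (nat_lit 5) (nat_lit 442) (nat_lit 394) (nat_lit 364)) (XT.nd (nat_lit 78) (nat_lit 304) (nat_lit 0) (XT.lf (nat_lit 0) (nat_lit 6540040920) (nat_lit 228) (nat_lit 3872220169) (nat_lit 76) (nat_lit 3011731582) (nat_lit 100) (nat_lit 5) (nat_lit 103) (nat_lit 5) (nat_lit 101) (nat_lit 5) (nat_lit 443) (nat_lit 394) (nat_lit 363)) (XT.lf (nat_lit 0) (nat_lit 171024414) (nat_lit 304) (nat_lit 2334744611) (nat_lit 76) (nat_lit 11318073009)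 (nat_lit 96) (nat_lit 5) (nat_lit 100) (nat_lit 5) (nat_lit 97) (nat_lit 5) (nat_lit 444) (nat_lit 394) (nat_lit 362)))) (XT.nd (nat_lit 78) (nat_lit 608) (nat_lit 0) (XT.lf (nat_lit 0) (nat_lit 7532601000) (nat_lit 228) (nat_lit 874758899) (nat_lit 76) (nat_lit 5831403977) (nat_lit 94) (nat_lit 5) (nat_lit 97) (nat_lit 5) (nat_lit 95) (nat_lit 5) (nat_lit 445) (nat_lit 394) (nat_lit 361)) (XT.nd (nat_lit 78) (nat_lit 152) (nat_lit 0) (XT.lf (nat_lit 0) (nat_lit 605824872) (nat_lit 152) (nat_lit 45101375) (nat_lit 228) (nat_lit 14021109438) (nat_lit 88) (nat_lit 5) (nat_lit 90) (nat_lit 5) (nat_lit 91) (nat_lit 5) (nat_lit 446) (nat_lit 394) (nat_lit 360)) (XT.lf (nat_lit 0) (nat_lit 1983240638) (nat_lit 152) (nat_lit 6396186286) (nat_lit 228) (nat_lit 6741294760) (nat_lit 86) (nat_lit 5) (nat_lit 88) (nat_lit 5) (nat_lit 89) (nat_lit 5) (nat_lit 447) (nat_lit 394) (nat_lit 359))))) (XT.nd (nat_lit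 234) (nat_lit 760) (nat_lit 0) (XT.nd (nat_lit 78) (nat_lit 380) (nat_lit 0) (XT.lf (nat_lit 0) (nat_lit 961662966) (nat_lit 228) (nat_lit 12238490752) (nat_lit 76) (nat_lit 2389134390) (nat_lit 83) (nat_lit 5) (nat_lit 86) (nat_lit 5) (nat_lit 84) (nat_lit 5) (nat_lit 448) (nat_lit 394) (nat_lit 358)) (XT.nd (nat_lit 78) (nat_lit 228) (nat_lit 0) (XT.lf (nat_lit 0) (nat_lit 4598207905) (nat_lit 152) (nat_lit 4436000150) (nat_lit 228) (nat_lit 7041365494) (nat_lit 81) (nat_lit 5) (nat_lit 83) (nat_lit 5) (nat_lit 84) (nat_lit 5) (nat_lit 449) (nat_lit 394) (nat_lit 357)) (XT.lf (nat_lit 0) (nat_lit 1016197794) (nat_lit 228) (nat_lit 10791438929) (nat_lit 76) (nat_lit 4774977446) (nat_lit 78) (nat_lit 5) (nat_lit 81) (nat_lit 5) (nat_lit 79) (nat_lit 5) (nat_lit 450) (nat_lit 394) (nat_lit 356)))) (XT.nd (nat_lit 156) (nat_lit 380) (nat_lit 0) (XT.nd (nat_lit 78) (nat_lit 228) (nat_lit 0) (XT.lf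 (nat_lit 0) (nat_lit 6857334534) (nat_lit 152) (nat_lit 2587724754) (nat_lit 228) (nat_lit 7664442446) (nat_lit 76) (nat_lit 5) (nat_lit 78) (nat_lit 5) (nat_lit 79) (nat_lit 5) (nat_lit 451) (nat_lit 394) (nat_lit 355)) (XT.lf (nat_lit 0) (nat_lit 762742774) (nat_lit 228) (nat_lit 9835291424) (nat_lit 76) (nat_lit 7060250527) (nat_lit 73) (nat_lit 5) (nat_lit 76) (nat_lit 5) (nat_lit 74) (nat_lit 5) (nat_lit 452) (nat_lit 394) (nat_lit 354))) (XT.nd (nat_lit 78) (nat_lit 228) (nat_lit 0) (XT.lf (nat_lit 0) (nat_lit 8645215550) (nat_lit 152) (nat_lit 912671025) (nat_lit 228) (nat_lit 8671197237) (nat_lit 71) (nat_lit 5) (nat_lit 73) (nat_lit 5) (nat_lit 74) (nat_lit 5) (nat_lit 453) (nat_lit 394) (nat_lit 353)) (XT.lf (nat_lit 0) (nat_lit 138000182) (nat_lit 228) (nat_lit 9503186719) (nat_lit 76) (nat_lit 9182064375) (nat_lit 68) (nat_lit 5) (nat_lit 71) (nat_lit 5) (nat_lit 69) (nat_lit 5) (nat_lit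 454) (nat_lit 394) (nat_lit 352)))))) (XT.nd (nat_lit 468) (nat_lit 912) (nat_lit 0) (XT.nd (nat_lit 234) (nat_lit 380) (nat_lit 0) (XT.nd (nat_lit 78) (nat_lit 304) (nat_lit 0) (XT.lf (nat_lit 0) (nat_lit 9310928056) (nat_lit 228) (nat_lit 9624069733) (nat_lit 76) (nat_lit 506481639) (nat_lit 66) (nat_lit 5) (nat_lit 69) (nat_lit 5) (nat_lit 67) (nat_lit 4) (nat_lit 455) (nat_lit 394) (nat_lit 351)) (XT.nd (nat_lit 78) (nat_lit 228) (nat_lit 0) (XT.lf (nat_lit 0) (nat_lit 10120762852) (nat_lit 76) (nat_lit 9010273488) (nat_lit 152) (nat_lit 953932387) (nat_lit 65) (nat_lit 5) (nat_lit 66) (nat_lit 5) (nat_lit 67) (nat_lit 4) (nat_lit 456) (nat_lit 394) (nat_lit 350)) (XT.lf (nat_lit 0) (nat_lit 8623244633) (nat_lit 228) (nat_lit 10549358187) (nat_lit 76) (nat_lit 1582197389) (nat_lit 62) (nat_lit 5) (nat_lit 65) (nat_lit 5) (nat_lit 63) (nat_lit 4) (nat_lit 457) (nat_lit 394) (nat_lit 349))))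 (XT.nd (nat_lit 78) (nat_lit 304) (nat_lit 0) (XT.lf (nat_lit 0) (nat_lit 10044538361) (nat_lit 76) (nat_lit 8805899090) (nat_lit 152) (nat_lit 2601680967) (nat_lit 61) (nat_lit 5) (nat_lit 62) (nat_lit 5) (nat_lit 63) (nat_lit 4) (nat_lit 458) (nat_lit 394) (nat_lit 348)) (XT.nd (nat_lit 78) (nat_lit 76) (nat_lit 0) (XT.lf (nat_lit 0) (nat_lit 7386097520) (nat_lit 228) (nat_lit 12560773138) (nat_lit 76) (nat_lit 2231524148) (nat_lit 58) (nat_lit 5) (nat_lit 61) (nat_lit 5) (nat_lit 59) (nat_lit 4) (nat_lit 459) (nat_lit 394) (nat_lit 347)) (XT.lf (nat_lit 0) (nat_lit 8871765916) (nat_lit 76) (nat_lit 9144809234) (nat_lit 152) (nat_lit 4917728045) (nat_lit 57) (nat_lit 5) (nat_lit 58) (nat_lit 5) (nat_lit 59) (nat_lit 4) (nat_lit 460) (nat_lit 394) (nat_lit 346))))) (XT.nd (nat_lit 234) (nat_lit 380) (nat_lit 0) (XT.nd (nat_lit 78) (nat_lit 304) (nat_lit 0) (XT.lf (nat_lit 0) (nat_lit 5478840859)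 (nat_lit 228) (nat_lit 15909211729) (nat_lit 76) (nat_lit 2334347773) (nat_lit 54) (nat_lit 5) (nat_lit 57) (nat_lit 5) (nat_lit 55) (nat_lit 4) (nat_lit 461) (nat_lit 394) (nat_lit 345)) (XT.nd (nat_lit 78) (nat_lit 228) (nat_lit 0) (XT.lf (nat_lit 0) (nat_lit 6337627645) (nat_lit 76) (nat_lit 10164159167) (nat_lit 152) (nat_lit 8040411152) (nat_lit 53) (nat_lit 5) (nat_lit 54) (nat_lit 5) (nat_lit 55) (nat_lit 4) (nat_lit 462) (nat_lit 394) (nat_lit 344)) (XT.lf (nat_lit 0) (nat_lit 2756494986) (nat_lit 228) (nat_lit 20894181543) (nat_lit 76) (nat_lit 1747469005) (nat_lit 50) (nat_lit 5) (nat_lit 53) (nat_lit 5) (nat_lit 51) (nat_lit 4) (nat_lit 463) (nat_lit 394) (nat_lit 343)))) (XT.nd (nat_lit 156) (nat_lit 304) (nat_lit 0) (XT.nd (nat_lit 78) (nat_lit 0) (nat_lit 0) (XT.lf (nat_lit 0) (nat_lit 2125463787) (nat_lit 76) (nat_lit 12027039387) (nat_lit 152) (nat_lit 12135236185) (nat_lit 49)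 (nat_lit 5) (nat_lit 50) (nat_lit 5) (nat_lit 51) (nat_lit 4) (nat_lit 464) (nat_lit 394) (nat_lit 342)) (XT.lf (nat_lit 0) (nat_lit 26250859521) (nat_lit 152) (nat_lit 651002652) (nat_lit 0) (nat_lit 315977568) (nat_lit 49) (nat_lit 5) (nat_lit 51) (nat_lit 4) (nat_lit 49) (nat_lit 4) (nat_lit 465) (nat_lit 394) (nat_lit 341))) (XT.nd (nat_lit 78) (nat_lit 76) (nat_lit 0) (XT.lf (nat_lit 0) (nat_lit 10824465010) (nat_lit 228) (nat_lit 4061828941) (nat_lit 76) (nat_lit 13296809278) (nat_lit 46) (nat_lit 5) (nat_lit 49) (nat_lit 5) (nat_lit 47) (nat_lit 4) (nat_lit 466) (nat_lit 394) (nat_lit 340)) (XT.lf (nat_lit 0) (nat_lit 21199386881) (nat_lit 76) (nat_lit 2116228762) (nat_lit 152) (nat_lit 5876825978) (nat_lit 45) (nat_lit 5) (nat_lit 46) (nat_lit 5) (nat_lit 47) (nat_lit 4) (nat_lit 467) (nat_lit 394) (nat_lit 339))))))))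
noncomputable def xc38 : XT := (XT.nd (nat_lit 1950) (nat_lit 304) (nat_lit 0) (XT.nd (nat_lit 936) (nat_lit 836) (nat_lit 0) (XT.nd (nat_lit 468) (nat_lit 532) (nat_lit 0) (XT.nd (nat_lit 234) (nat_lit 228) (nat_lit 0) (XT.nd (nat_lit 78) (nat_lit 228) (nat_lit 0) (XT.lf (nat_lit 0) (nat_lit 6302362755) (nat_lit 152) (nat_lit 12665009416) (nat_lit 76) (nat_lit 11275779677) (nat_lit 43) (nat_lit 5) (nat_lit 45) (nat_lit 5) (nat_lit 44) (nat_lit 4) (nat_lit 468) (nat_lit 394) (nat_lit 338)) (XT.nd (nat_lit 78) (nat_lit 152) (nat_lit 0) (XT.lf (nat_lit 0) (nat_lit 13280389309) (nat_lit 76) (nat_lit 5844524604) (nat_lit 152) (nat_lit 12215062295) (nat_lit 42) (nat_lit 5) (nat_lit 43) (nat_lit 5) (nat_lit 44) (nat_lit 4) (nat_lit 469) (nat_lit 394) (nat_lit 337)) (XT.lf (nat_lit 0) (nat_lit 308604669) (nat_lit 152) (nat_lit 24250763551) (nat_lit 76) (nat_lit 7925841601) (nat_lit 40) (nat_lit 5) (nat_lit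 42) (nat_lit 5) (nat_lit 41) (nat_lit 4) (nat_lit 470) (nat_lit 394) (nat_lit 336)))) (XT.nd (nat_lit 78) (nat_lit 152) (nat_lit 0) (XT.lf (nat_lit 0) (nat_lit 2255423204) (nat_lit 76) (nat_lit 11147020300) (nat_lit 152) (nat_lit 20275737185) (nat_lit 39) (nat_lit 5) (nat_lit 40) (nat_lit 5) (nat_lit 41) (nat_lit 4) (nat_lit 471) (nat_lit 394) (nat_lit 335)) (XT.nd (nat_lit 78) (nat_lit 152) (nat_lit 0) (XT.lf (nat_lit 0) (nat_lit 27358709741) (nat_lit 152) (nat_lit 4500650510) (nat_lit 0) (nat_lit 3065209930) (nat_lit 39) (nat_lit 5) (nat_lit 41) (nat_lit 4) (nat_lit 39) (nat_lit 4) (nat_lit 472) (nat_lit 394) (nat_lit 334)) (XT.lf (nat_lit 0) (nat_lit 5943411726) (nat_lit 152) (nat_lit 12293808769) (nat_lit 76) (nat_lit 17986093532) (nat_lit 37) (nat_lit 5) (nat_lit 39) (nat_lit 5) (nat_lit 38) (nat_lit 4) (nat_lit 473) (nat_lit 394) (nat_lit 333))))) (XT.nd (nat_lit 234) (nat_lit 304) (nat_lit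 0) (XT.nd (nat_lit 78) (nat_lit 152) (nat_lit 0) (XT.lf (nat_lit 0) (nat_lit 16401675452) (nat_lit 76) (nat_lit 3708141713) (nat_lit 152) (nat_lit 17470788205) (nat_lit 36) (nat_lit 5) (nat_lit 37) (nat_lit 5) (nat_lit 38) (nat_lit 4) (nat_lit 474) (nat_lit 394) (nat_lit 332)) (XT.nd (nat_lit 78) (nat_lit 76) (nat_lit 0) (XT.lf (nat_lit 0) (nat_lit 7696003258) (nat_lit 76) (nat_lit 27534972090) (nat_lit 76) (nat_lit 3767394757) (nat_lit 35) (nat_lit 4) (nat_lit 36) (nat_lit 5) (nat_lit 36) (nat_lit 4) (nat_lit 475) (nat_lit 394) (nat_lit 331)) (XT.lf (nat_lit 0) (nat_lit 10606479427) (nat_lit 152) (nat_lit 2291302742) (nat_lit 76) (nat_lit 27580402606) (nat_lit 34) (nat_lit 5) (nat_lit 36) (nat_lit 5) (nat_lit 35) (nat_lit 4) (nat_lit 476) (nat_lit 394) (nat_lit 330)))) (XT.nd (nat_lit 78) (nat_lit 228) (nat_lit 0) (XT.lf (nat_lit 0) (nat_lit 25860832911) (nat_lit 152) (nat_lit 13481357007) (nat_lit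 0) (nat_lit 2681491784) (nat_lit 33) (nat_lit 5) (nat_lit 35) (nat_lit 4) (nat_lit 33) (nat_lit 4) (nat_lit 477) (nat_lit 394) (nat_lit 329)) (XT.nd (nat_lit 78) (nat_lit 152) (nat_lit 0) (XT.lf (nat_lit 0) (nat_lit 17410917953) (nat_lit 76) (nat_lit 24727691868) (nat_lit 76) (nat_lit 1500023992) (nat_lit 32) (nat_lit 4) (nat_lit 33) (nat_lit 5) (nat_lit 33) (nat_lit 4) (nat_lit 478) (nat_lit 394) (nat_lit 328)) (XT.lf (nat_lit 0) (nat_lit 4638945540) (nat_lit 76) (nat_lit 9111122879) (nat_lit 152) (nat_lit 31576500628) (nat_lit 30) (nat_lit 5) (nat_lit 31) (nat_lit 5) (nat_lit 32) (nat_lit 4) (nat_lit 479) (nat_lit 394) (nat_lit 327)))))) (XT.nd (nat_lit 468) (nat_lit 380) (nat_lit 0) (XT.nd (nat_lit 234) (nat_lit 228) (nat_lit 0) (XT.nd (nat_lit 78) (nat_lit 228) (nat_lit 0) (XT.lf (nat_lit 0) (nat_lit 30016396911) (nat_lit 152) (nat_lit 9695496232) (nat_lit 0) (nat_lit 7378021049) (nat_lit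 30) (nat_lit 5) (nat_lit 32) (nat_lit 4) (nat_lit 30) (nat_lit 4) (nat_lit 480) (nat_lit 394) (nat_lit 326)) (XT.nd (nat_lit 78) (nat_lit 152) (nat_lit 0) (XT.lf (nat_lit 0) (nat_lit 23096531592) (nat_lit 76) (nat_lit 24258023637) (nat_lit 76) (nat_lit 1579117228) (nat_lit 29) (nat_lit 4) (nat_lit 30) (nat_lit 5) (nat_lit 30) (nat_lit 4) (nat_lit 481) (nat_lit 394) (nat_lit 325)) (XT.lf (nat_lit 0) (nat_lit 6747191896) (nat_lit 76) (nat_lit 7767438067) (nat_lit 152) (nat_lit 36347415103) (nat_lit 27) (nat_lit 5) (nat_lit 28) (nat_lit 5) (nat_lit 29) (nat_lit 4) (nat_lit 482) (nat_lit 394) (nat_lit 324)))) (XT.nd (nat_lit 78) (nat_lit 228) (nat_lit 0) (XT.lf (nat_lit 0) (nat_lit 31687829856) (nat_lit 152) (nat_lit 11593009569) (nat_lit 0) (nat_lit 9596306234) (nat_lit 27) (nat_lit 5) (nat_lit 29) (nat_lit 4) (nat_lit 27) (nat_lit 4) (nat_lit 483) (nat_lit 394) (nat_lit 323)) (XT.nd (nat_lit 78)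 (nat_lit 152) (nat_lit 0) (XT.lf (nat_lit 0) (nat_lit 22822384956) (nat_lit 76) (nat_lit 27144360689) (nat_lit 76) (nat_lit 5018845019) (nat_lit 26) (nat_lit 4) (nat_lit 27) (nat_lit 5) (nat_lit 27) (nat_lit 4) (nat_lit 484) (nat_lit 394) (nat_lit 322)) (XT.lf (nat_lit 0) (nat_lit 1826800527) (nat_lit 76) (nat_lit 9988317491) (nat_lit 152) (nat_lit 45378241207) (nat_lit 24) (nat_lit 5) (nat_lit 25) (nat_lit 5) (nat_lit 26) (nat_lit 4) (nat_lit 485) (nat_lit 394) (nat_lit 321))))) (XT.nd (nat_lit 234) (nat_lit 228) (nat_lit 0) (XT.nd (nat_lit 78) (nat_lit 152) (nat_lit 0) (XT.lf (nat_lit 0) (nat_lit 29750744372) (nat_lit 152) (nat_lit 21540072197) (nat_lit 0) (nat_lit 8208296955) (nat_lit 24) (nat_lit 5) (nat_lit 26) (nat_lit 4) (nat_lit 24) (nat_lit 4) (nat_lit 486) (nat_lit 394) (nat_lit 320)) (XT.nd (nat_lit 78) (nat_lit 76) (nat_lit 0) (XT.lf (nat_lit 0) (nat_lit 14060017731) (nat_lit 76) (nat_lit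 34712703696) (nat_lit 76) (nat_lit 13141747919) (nat_lit 23) (nat_lit 4) (nat_lit 24) (nat_lit 5) (nat_lit 24) (nat_lit 4) (nat_lit 487) (nat_lit 394) (nat_lit 319)) (XT.lf (nat_lit 0) (nat_lit 4389832790) (nat_lit 152) (nat_lit 12686746029) (nat_lit 76) (nat_lit 47367423020) (nat_lit 22) (nat_lit 5) (nat_lit 24) (nat_lit 5) (nat_lit 23) (nat_lit 4) (nat_lit 488) (nat_lit 394) (nat_lit 318)))) (XT.nd (nat_lit 156) (nat_lit 152) (nat_lit 0) (XT.nd (nat_lit 78) (nat_lit 0) (nat_lit 0) (XT.lf (nat_lit 0) (nat_lit 22738006271) (nat_lit 152) (nat_lit 42607881859) (nat_lit 0) (nat_lit 1743865964) (nat_lit 21) (nat_lit 5) (nat_lit 23) (nat_lit 4) (nat_lit 21) (nat_lit 4) (nat_lit 489) (nat_lit 394) (nat_lit 317)) (XT.lf (nat_lit 0) (nat_lit 42265390807) (nat_lit 152) (nat_lit 6347208641) (nat_lit 0) (nat_lit 21247341187) (nat_lit 21) (nat_lit 5) (nat_lit 23) (nat_lit 4) (nat_lit 21) (nat_lit 4) (nat_lit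 490) (nat_lit 394) (nat_lit 316))) (XT.nd (nat_lit 78) (nat_lit 76) (nat_lit 0) (XT.lf (nat_lit 0) (nat_lit 32276598908) (nat_lit 76) (nat_lit 30762381809) (nat_lit 76) (nat_lit 9721561415) (nat_lit 20) (nat_lit 4) (nat_lit 21) (nat_lit 5) (nat_lit 21) (nat_lit 4) (nat_lit 491) (nat_lit 394) (nat_lit 315)) (XT.lf (nat_lit 0) (nat_lit 8894925326) (nat_lit 152) (nat_lit 3005808432) (nat_lit 76) (nat_lit 63902041669) (nat_lit 19) (nat_lit 5) (nat_lit 21) (nat_lit 5) (nat_lit 20) (nat_lit 4) (nat_lit 492) (nat_lit 394) (nat_lit 314))))))) (XT.nd (nat_lit 56550) (nat_lit 0) (nat_lit 11476) (XT.nd (nat_lit 56004) (nat_lit 0) (nat_lit 19532) (XT.nd (nat_lit 234) (nat_lit 152) (nat_lit 0) (XT.nd (nat_lit 78) (nat_lit 76) (nat_lit 0) (XT.lf (nat_lit 0) (nat_lit 28640051694) (nat_lit 152) (nat_lit 42171251841) (nat_lit 0) (nat_lit 8170963724) (nat_lit 18) (nat_lit 5) (nat_lit 20) (nat_lit 4) (nat_lit 18)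 (nat_lit 4) (nat_lit 493) (nat_lit 394) (nat_lit 313)) (XT.nd (nat_lit 78) (nat_lit 76) (nat_lit 0) (XT.lf (nat_lit 0) (nat_lit 49486810689) (nat_lit 152) (nat_lit 3831866912) (nat_lit 0) (nat_lit 28998625388) (nat_lit 18) (nat_lit 5) (nat_lit 20) (nat_lit 4) (nat_lit 18) (nat_lit 4) (nat_lit 494) (nat_lit 394) (nat_lit 312)) (XT.lf (nat_lit 0) (nat_lit 37078371104) (nat_lit 76) (nat_lit 34618728719) (nat_lit 76) (nat_lit 14112355484) (nat_lit 17) (nat_lit 4) (nat_lit 18) (nat_lit 5) (nat_lit 18) (nat_lit 4) (nat_lit 495) (nat_lit 394) (nat_lit 311)))) (XT.nd (nat_lit 78) (nat_lit 76) (nat_lit 0) (XT.lf (nat_lit 0) (nat_lit 5438846370) (nat_lit 152) (nat_lit 9482836944) (nat_lit 76) (nat_lit 74552775454) (nat_lit 16) (nat_lit 5) (nat_lit 18) (nat_lit 5) (nat_lit 17) (nat_lit 4) (nat_lit 496) (nat_lit 394) (nat_lit 310)) (XT.nd (nat_lit 78) (nat_lit 0) (nat_lit 0) (XT.lf (nat_lit 0) (nat_lit 26014115001)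 (nat_lit 152) (nat_lit 61222074007) (nat_lit 0) (nat_lit 6072180952) (nat_lit 15) (nat_lit 5) (nat_lit 17) (nat_lit 4) (nat_lit 15) (nat_lit 4) (nat_lit 497) (nat_lit 394) (nat_lit 309)) (XT.lf (nat_lit 0) (nat_lit 47835102177) (nat_lit 152) (nat_lit 21614452034) (nat_lit 0) (nat_lit 27877914321) (nat_lit 15) (nat_lit 5) (nat_lit 17) (nat_lit 4) (nat_lit 15) (nat_lit 4) (nat_lit 498) (nat_lit 394) (nat_lit 308))))) (XT.nd (nat_lit 234) (nat_lit 5548) (nat_lit 0) (XT.nd (nat_lit 78) (nat_lit 1748) (nat_lit 0) (XT.lf (nat_lit 0) (nat_lit 1920455341) (nat_lit 684) (nat_lit 723190711) (nat_lit 684) (nat_lit 723190711) (nat_lit 368) (nat_lit 4) (nat_lit 377) (nat_lit 5) (nat_lit 377) (nat_lit 4) (nat_lit 410) (nat_lit 395) (nat_lit 395)) (XT.nd (nat_lit 78) (nat_lit 912) (nat_lit 0) (XT.lf (nat_lit 0) (nat_lit 3983569989) (nat_lit 836) (nat_lit 2232995519) (nat_lit 0) (nat_lit 579612036) (nat_lit 357)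 (nat_lit 5) (nat_lit 368) (nat_lit 4) (nat_lit 357) (nat_lit 4) (nat_lit 411) (nat_lit 395) (nat_lit 394)) (XT.lf (nat_lit 0) (nat_lit 2547987568) (nat_lit 912) (nat_lit 1473407904) (nat_lit 76) (nat_lit 2845011034) (nat_lit 345) (nat_lit 5) (nat_lit 357) (nat_lit 5) (nat_lit 346) (nat_lit 4) (nat_lit 412) (nat_lit 395) (nat_lit 393)))) (XT.nd (nat_lit 156) (nat_lit 2508) (nat_lit 0) (XT.nd (nat_lit 78) (nat_lit 2052) (nat_lit 0) (XT.lf (nat_lit 0) (nat_lit 961168736) (nat_lit 988) (nat_lit 599181970) (nat_lit 76) (nat_lit 5384560222) (nat_lit 332) (nat_lit 5) (nat_lit 345) (nat_lit 5) (nat_lit 333) (nat_lit 5) (nat_lit 413) (nat_lit 395) (nat_lit 392)) (XT.lf (nat_lit 0) (nat_lit 379289826) (nat_lit 1064) (nat_lit 5868951724) (nat_lit 1140) (nat_lit 782918328) (nat_lit 305) (nat_lit 5) (nat_lit 319) (nat_lit 5) (nat_lit 320) (nat_lit 4) (nat_lit 414) (nat_lit 395) (nat_lit 391))) (XT.nd (nat_lit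 78) (nat_lit 1292) (nat_lit 0) (XT.lf (nat_lit 0) (nat_lit 1460057569) (nat_lit 1140) (nat_lit 2977273784) (nat_lit 1216) (nat_lit 2687600866) (nat_lit 289) (nat_lit 5) (nat_lit 304) (nat_lit 5) (nat_lit 305) (nat_lit 5) (nat_lit 415) (nat_lit 395) (nat_lit 390)) (XT.lf (nat_lit 0) (nat_lit 2467209154) (nat_lit 1292) (nat_lit 4571185374) (nat_lit 76) (nat_lit 188859945) (nat_lit 272) (nat_lit 5) (nat_lit 289) (nat_lit 5) (nat_lit 273) (nat_lit 5) (nat_lit 416) (nat_lit 395) (nat_lit 389)))))) (XT.nd (nat_lit 468) (nat_lit 3648) (nat_lit 0) (XT.nd (nat_lit 234) (nat_lit 2280) (nat_lit 0) (XT.nd (nat_lit 78) (nat_lit 1292) (nat_lit 0) (XT.lf (nat_lit 0) (nat_lit 360263563) (nat_lit 836) (nat_lit 3398427048) (nat_lit 76) (nat_lit 3578744468) (nat_lit 261) (nat_lit 5) (nat_lit 272) (nat_lit 5) (nat_lit 262) (nat_lit 5) (nat_lit 417) (nat_lit 395) (nat_lit 388)) (XT.nd (nat_lit 78) (nat_lit 684) (nat_lit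 0) (XT.lf (nat_lit 0) (nat_lit 5321295550) (nat_lit 608) (nat_lit 176821760) (nat_lit 684) (nat_lit 1957859443) (nat_lit 253) (nat_lit 5) (nat_lit 261) (nat_lit 5) (nat_lit 262) (nat_lit 5) (nat_lit 418) (nat_lit 395) (nat_lit 387)) (XT.lf (nat_lit 0) (nat_lit 3151361078) (nat_lit 684) (nat_lit 799613172) (nat_lit 76) (nat_lit 3631468863) (nat_lit 244) (nat_lit 5) (nat_lit 253) (nat_lit 5) (nat_lit 245) (nat_lit 5) (nat_lit 419) (nat_lit 395) (nat_lit 386)))) (XT.nd (nat_lit 78) (nat_lit 1140) (nat_lit 0) (XT.lf (nat_lit 0) (nat_lit 631832355) (nat_lit 608) (nat_lit 7061434095) (nat_lit 76) (nat_lit 24647657) (nat_lit 229) (nat_lit 5) (nat_lit 237) (nat_lit 5) (nat_lit 230) (nat_lit 5) (nat_lit 420) (nat_lit 395) (nat_lit 385)) (XT.nd (nat_lit 78) (nat_lit 608) (nat_lit 0) (XT.lf (nat_lit 0) (nat_lit 2181045334) (nat_lit 532) (nat_lit 3611718873) (nat_lit 608) (nat_lit 2068035926) (nat_lit 222)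 (nat_lit 5) (nat_lit 229) (nat_lit 5) (nat_lit 230) (nat_lit 5) (nat_lit 421) (nat_lit 395) (nat_lit 384)) (XT.lf (nat_lit 0) (nat_lit 3041067371) (nat_lit 608) (nat_lit 4208025178) (nat_lit 76) (nat_lit 763785389) (nat_lit 214) (nat_lit 5) (nat_lit 222) (nat_lit 5) (nat_lit 215) (nat_lit 5) (nat_lit 422) (nat_lit 395) (nat_lit 383))))) (XT.nd (nat_lit 234) (nat_lit 1672) (nat_lit 0) (XT.nd (nat_lit 78) (nat_lit 1444) (nat_lit 0) (XT.lf (nat_lit 0) (nat_lit 127934368) (nat_lit 532) (nat_lit 2667328678) (nat_lit 76) (nat_lit 5378450134) (nat_lit 207) (nat_lit 5) (nat_lit 214) (nat_lit 5) (nat_lit 208) (nat_lit 5) (nat_lit 423) (nat_lit 395) (nat_lit 382)) (XT.nd (nat_lit 78) (nat_lit 988) (nat_lit 0) (XT.lf (nat_lit 0) (nat_lit 5311932154) (nat_lit 532) (nat_lit 1068386604) (nat_lit 76) (nat_lit 1962875133) (nat_lit 201) (nat_lit 5) (nat_lit 208) (nat_lit 5) (nat_lit 202) (nat_lit 5) (nat_lit 424)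 (nat_lit 395) (nat_lit 381)) (XT.lf (nat_lit 0) (nat_lit 619434842) (nat_lit 456) (nat_lit 1525107582) (nat_lit 532) (nat_lit 6377377291) (nat_lit 188) (nat_lit 5) (nat_lit 194) (nat_lit 5) (nat_lit 195) (nat_lit 5) (nat_lit 425) (nat_lit 395) (nat_lit 380)))) (XT.nd (nat_lit 156) (nat_lit 836) (nat_lit 0) (XT.nd (nat_lit 78) (nat_lit 456) (nat_lit 0) (XT.lf (nat_lit 0) (nat_lit 2390629480) (nat_lit 380) (nat_lit 5099960159) (nat_lit 456) (nat_lit 1218905533) (nat_lit 183) (nat_lit 5) (nat_lit 188) (nat_lit 5) (nat_lit 189) (nat_lit 5) (nat_lit 426) (nat_lit 395) (nat_lit 379)) (XT.lf (nat_lit 0) (nat_lit 4067325222) (nat_lit 456) (nat_lit 4674592187) (nat_lit 76) (nat_lit 164804387) (nat_lit 177) (nat_lit 5) (nat_lit 183) (nat_lit 5) (nat_lit 178) (nat_lit 5) (nat_lit 427) (nat_lit 395) (nat_lit 378))) (XT.nd (nat_lit 78) (nat_lit 380) (nat_lit 0) (XT.lf (nat_lit 0) (nat_lit 464043701) (nat_lit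 456) (nat_lit 2981471638) (nat_lit 76) (nat_lit 5668001171) (nat_lit 171) (nat_lit 5) (nat_lit 177) (nat_lit 5) (nat_lit 172) (nat_lit 5) (nat_lit 428) (nat_lit 395) (nat_lit 377)) (XT.lf (nat_lit 0) (nat_lit 5903932692) (nat_lit 456) (nat_lit 1241600019) (nat_lit 76) (nat_lit 2184570889) (nat_lit 166) (nat_lit 5) (nat_lit 172) (nat_lit 5) (nat_lit 167) (nat_lit 5) (nat_lit 429) (nat_lit 395) (nat_lit 376))))))))
noncomputable def xc39 : XT := (XT.nd (nat_lit 1950) (nat_lit 3116) (nat_lit 0) (XT.nd (nat_lit 936) (nat_lit 2812) (nat_lit 0) (XT.nd (nat_lit 468) (nat_lit 1976) (nat_lit 0) (XT.nd (nat_lit 234) (nat_lit 988) (nat_lit 0) (XT.nd (nat_lit 78) (nat_lit 684) (nat_lit 0) (XT.lf (nat_lit 0) (nat_lit 570688843) (nat_lit 380) (nat_lit 1443992359) (nat_lit 456) (nat_lit 7542377413) (nat_lit 156) (nat_lit 5) (nat_lit 161) (nat_lit 5) (nat_lit 162) (nat_lit 5) (nat_lit 430) (nat_lit 395) (nat_lit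 375)) (XT.nd (nat_lit 78) (nat_lit 380) (nat_lit 0) (XT.lf (nat_lit 0) (nat_lit 2445478903) (nat_lit 304) (nat_lit 5231417161) (nat_lit 380) (nat_lit 2116869557) (nat_lit 152) (nat_lit 5) (nat_lit 156) (nat_lit 5) (nat_lit 157) (nat_lit 5) (nat_lit 431) (nat_lit 395) (nat_lit 374)) (XT.lf (nat_lit 0) (nat_lit 3502126869) (nat_lit 380) (nat_lit 5662632441) (nat_lit 76) (nat_lit 876779409) (nat_lit 147) (nat_lit 5) (nat_lit 152) (nat_lit 5) (nat_lit 148) (nat_lit 5) (nat_lit 432) (nat_lit 395) (nat_lit 373)))) (XT.nd (nat_lit 78) (nat_lit 684) (nat_lit 0) (XT.lf (nat_lit 0) (nat_lit 6353424316) (nat_lit 304) (nat_lit 3033751550) (nat_lit 380) (nat_lit 913053363) (nat_lit 143) (nat_lit 5) (nat_lit 147) (nat_lit 5) (nat_lit 148) (nat_lit 5) (nat_lit 433) (nat_lit 395) (nat_lit 372)) (XT.nd (nat_lit 78) (nat_lit 304) (nat_lit 0) (XT.lf (nat_lit 0) (nat_lit 4912612488) (nat_lit 380) (nat_lit 2209488608)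 (nat_lit 76) (nat_lit 3447871459) (nat_lit 138) (nat_lit 5) (nat_lit 143) (nat_lit 5) (nat_lit 139) (nat_lit 5) (nat_lit 434) (nat_lit 395) (nat_lit 371)) (XT.lf (nat_lit 0) (nat_lit 173647360) (nat_lit 304) (nat_lit 412394403) (nat_lit 76) (nat_lit 10266295748) (nat_lit 134) (nat_lit 5) (nat_lit 138) (nat_lit 5) (nat_lit 135) (nat_lit 5) (nat_lit 435) (nat_lit 395) (nat_lit 370))))) (XT.nd (nat_lit 234) (nat_lit 836) (nat_lit 0) (XT.nd (nat_lit 78) (nat_lit 608) (nat_lit 0) (XT.lf (nat_lit 0) (nat_lit 1394631803) (nat_lit 228) (nat_lit 4854695906) (nat_lit 304) (nat_lit 4895728395) (nat_lit 127) (nat_lit 5) (nat_lit 130) (nat_lit 5) (nat_lit 131) (nat_lit 5) (nat_lit 436) (nat_lit 395) (nat_lit 369)) (XT.nd (nat_lit 78) (nat_lit 228) (nat_lit 0) (XT.lf (nat_lit 0) (nat_lit 1183680662) (nat_lit 380) (nat_lit 8180185086) (nat_lit 76) (nat_lit 2087316078) (nat_lit 122) (nat_lit 5) (nat_lit 127)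 (nat_lit 5) (nat_lit 123) (nat_lit 5) (nat_lit 437) (nat_lit 395) (nat_lit 368)) (XT.lf (nat_lit 0) (nat_lit 5145693648) (nat_lit 228) (nat_lit 2375677892) (nat_lit 304) (nat_lit 4248138460) (nat_lit 119) (nat_lit 5) (nat_lit 122) (nat_lit 5) (nat_lit 123) (nat_lit 5) (nat_lit 438) (nat_lit 395) (nat_lit 367)))) (XT.nd (nat_lit 78) (nat_lit 532) (nat_lit 0) (XT.lf (nat_lit 0) (nat_lit 2091708914) (nat_lit 304) (nat_lit 5055219104) (nat_lit 76) (nat_lit 4954446339) (nat_lit 115) (nat_lit 5) (nat_lit 119) (nat_lit 5) (nat_lit 116) (nat_lit 5) (nat_lit 439) (nat_lit 395) (nat_lit 366)) (XT.nd (nat_lit 78) (nat_lit 304) (nat_lit 0) (XT.lf (nat_lit 0) (nat_lit 8705102746) (nat_lit 304) (nat_lit 3477978264) (nat_lit 76) (nat_lit 264171901) (nat_lit 112) (nat_lit 5) (nat_lit 116) (nat_lit 5) (nat_lit 113) (nat_lit 5) (nat_lit 440) (nat_lit 395) (nat_lit 365)) (XT.lf (nat_lit 0) (nat_lit 2879396077) (nat_lit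 304) (nat_lit 1926399608) (nat_lit 76) (nat_lit 8000943619) (nat_lit 108) (nat_lit 5) (nat_lit 112) (nat_lit 5) (nat_lit 109) (nat_lit 5) (nat_lit 441) (nat_lit 395) (nat_lit 364)))))) (XT.nd (nat_lit 468) (nat_lit 1292) (nat_lit 0) (XT.nd (nat_lit 234) (nat_lit 684) (nat_lit 0) (XT.nd (nat_lit 78) (nat_lit 684) (nat_lit 0) (XT.lf (nat_lit 0) (nat_lit 9812889676) (nat_lit 228) (nat_lit 371893692) (nat_lit 76) (nat_lit 2996570570) (nat_lit 106) (nat_lit 5) (nat_lit 109) (nat_lit 5) (nat_lit 107) (nat_lit 5) (nat_lit 442) (nat_lit 395) (nat_lit 363)) (XT.nd (nat_lit 78) (nat_lit 228) (nat_lit 0) (XT.lf (nat_lit 0) (nat_lit 1188574466) (nat_lit 152) (nat_lit 2355870559) (nat_lit 228) (nat_lit 10026409742) (nat_lit 100) (nat_lit 5) (nat_lit 102) (nat_lit 5) (nat_lit 103) (nat_lit 5) (nat_lit 443) (nat_lit 395) (nat_lit 362)) (XT.lf (nat_lit 0) (nat_lit 2725497415) (nat_lit 228) (nat_lit 8107831937)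 (nat_lit 304) (nat_lit 3142512673) (nat_lit 97) (nat_lit 5) (nat_lit 100) (nat_lit 5) (nat_lit 101) (nat_lit 5) (nat_lit 444) (nat_lit 395) (nat_lit 361)))) (XT.nd (nat_lit 78) (nat_lit 456) (nat_lit 0) (XT.lf (nat_lit 0) (nat_lit 4075681919) (nat_lit 228) (nat_lit 10146051253) (nat_lit 76) (nat_lit 176083344) (nat_lit 94) (nat_lit 5) (nat_lit 97) (nat_lit 5) (nat_lit 95) (nat_lit 5) (nat_lit 445) (nat_lit 395) (nat_lit 360)) (XT.nd (nat_lit 78) (nat_lit 228) (nat_lit 0) (XT.lf (nat_lit 0) (nat_lit 5711474353) (nat_lit 228) (nat_lit 6010439564) (nat_lit 304) (nat_lit 3114089161) (nat_lit 91) (nat_lit 5) (nat_lit 94) (nat_lit 5) (nat_lit 95) (nat_lit 5) (nat_lit 446) (nat_lit 395) (nat_lit 359)) (XT.lf (nat_lit 0) (nat_lit 4448704725) (nat_lit 228) (nat_lit 8150865009) (nat_lit 76) (nat_lit 2692816266) (nat_lit 88) (nat_lit 5) (nat_lit 91) (nat_lit 5) (nat_lit 89) (nat_lit 5) (nat_lit 447) (nat_lit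 395) (nat_lit 358))))) (XT.nd (nat_lit 234) (nat_lit 760) (nat_lit 0) (XT.nd (nat_lit 78) (nat_lit 380) (nat_lit 0) (XT.lf (nat_lit 0) (nat_lit 8510894389) (nat_lit 152) (nat_lit 3935667414) (nat_lit 228) (nat_lit 3320470580) (nat_lit 86) (nat_lit 5) (nat_lit 88) (nat_lit 5) (nat_lit 89) (nat_lit 5) (nat_lit 448) (nat_lit 395) (nat_lit 357)) (XT.nd (nat_lit 78) (nat_lit 152) (nat_lit 0) (XT.lf (nat_lit 0) (nat_lit 4605955646) (nat_lit 228) (nat_lit 6453744016) (nat_lit 76) (nat_lit 5200907223) (nat_lit 83) (nat_lit 5) (nat_lit 86) (nat_lit 5) (nat_lit 84) (nat_lit 5) (nat_lit 449) (nat_lit 395) (nat_lit 356)) (XT.lf (nat_lit 0) (nat_lit 11041430277) (nat_lit 152) (nat_lit 1929175796) (nat_lit 228) (nat_lit 3803958533) (nat_lit 81) (nat_lit 5) (nat_lit 83) (nat_lit 5) (nat_lit 84) (nat_lit 5) (nat_lit 450) (nat_lit 395) (nat_lit 355)))) (XT.nd (nat_lit 156) (nat_lit 380) (nat_lit 0) (XT.nd (nat_lit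 78) (nat_lit 152) (nat_lit 0) (XT.lf (nat_lit 0) (nat_lit 4503404155) (nat_lit 228) (nat_lit 5150876277) (nat_lit 76) (nat_lit 7654144172) (nat_lit 78) (nat_lit 5) (nat_lit 81) (nat_lit 5) (nat_lit 79) (nat_lit 5) (nat_lit 451) (nat_lit 395) (nat_lit 354)) (XT.lf (nat_lit 0) (nat_lit 13203183542) (nat_lit 152) (nat_lit 44591593) (nat_lit 228) (nat_lit 4617070296) (nat_lit 76) (nat_lit 5) (nat_lit 78) (nat_lit 5) (nat_lit 79) (nat_lit 5) (nat_lit 452) (nat_lit 395) (nat_lit 353))) (XT.nd (nat_lit 78) (nat_lit 152) (nat_lit 0) (XT.lf (nat_lit 0) (nat_lit 4086373038) (nat_lit 228) (nat_lit 4358251477) (nat_lit 76) (nat_lit 9997808538) (nat_lit 73) (nat_lit 5) (nat_lit 76) (nat_lit 5) (nat_lit 74) (nat_lit 5) (nat_lit 453) (nat_lit 395) (nat_lit 352)) (XT.lf (nat_lit 0) (nat_lit 13236458457) (nat_lit 228) (nat_lit 4185522384) (nat_lit 76) (nat_lit 1622345298) (nat_lit 71) (nat_lit 5) (nat_lit 74)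 (nat_lit 5) (nat_lit 72) (nat_lit 4) (nat_lit 454) (nat_lit 395) (nat_lit 351))))))) (XT.nd (nat_lit 1014) (nat_lit 1140) (nat_lit 0) (XT.nd (nat_lit 468) (nat_lit 988) (nat_lit 0) (XT.nd (nat_lit 234) (nat_lit 456) (nat_lit 0) (XT.nd (nat_lit 78) (nat_lit 304) (nat_lit 0) (XT.lf (nat_lit 0) (nat_lit 3287719712) (nat_lit 228) (nat_lit 4215507627) (nat_lit 76) (nat_lit 12166724811) (nat_lit 68) (nat_lit 5) (nat_lit 71) (nat_lit 5) (nat_lit 69) (nat_lit 5) (nat_lit 455) (nat_lit 395) (nat_lit 350)) (XT.nd (nat_lit 78) (nat_lit 152) (nat_lit 0) (XT.lf (nat_lit 0) (nat_lit 12847962604) (nat_lit 228) (nat_lit 4440566326) (nat_lit 76) (nat_lit 3032711156) (nat_lit 66) (nat_lit 5) (nat_lit 69) (nat_lit 5) (nat_lit 67) (nat_lit 4) (nat_lit 456) (nat_lit 395) (nat_lit 349)) (XT.lf (nat_lit 0) (nat_lit 2025678767) (nat_lit 152) (nat_lit 4890442361) (nat_lit 76) (nat_lit 14082996051) (nat_lit 64) (nat_lit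 5) (nat_lit 66) (nat_lit 5) (nat_lit 65) (nat_lit 5) (nat_lit 457) (nat_lit 395) (nat_lit 348)))) (XT.nd (nat_lit 78) (nat_lit 304) (nat_lit 0) (XT.lf (nat_lit 0) (nat_lit 11994779559) (nat_lit 228) (nat_lit 5610182487) (nat_lit 76) (nat_lit 4099218460) (nat_lit 62) (nat_lit 5) (nat_lit 65) (nat_lit 5) (nat_lit 63) (nat_lit 4) (nat_lit 458) (nat_lit 395) (nat_lit 347)) (XT.nd (nat_lit 78) (nat_lit 152) (nat_lit 0) (XT.lf (nat_lit 0) (nat_lit 201309286) (nat_lit 152) (nat_lit 6584305932) (nat_lit 76) (nat_lit 15653366531) (nat_lit 60) (nat_lit 5) (nat_lit 62) (nat_lit 5) (nat_lit 61) (nat_lit 5) (nat_lit 459) (nat_lit 395) (nat_lit 346)) (XT.lf (nat_lit 0) (nat_lit 10571424132) (nat_lit 228) (nat_lit 7914630062) (nat_lit 76) (nat_lit 4716648902) (nat_lit 58) (nat_lit 5) (nat_lit 61) (nat_lit 5) (nat_lit 59) (nat_lit 4) (nat_lit 460) (nat_lit 395) (nat_lit 345))))) (XT.nd (nat_lit 234) (nat_lit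 608) (nat_lit 0) (XT.nd (nat_lit 78) (nat_lit 304) (nat_lit 0) (XT.lf (nat_lit 0) (nat_lit 14438352584) (nat_lit 76) (nat_lit 7210222180) (nat_lit 152) (nat_lit 2350383894) (nat_lit 57) (nat_lit 5) (nat_lit 58) (nat_lit 5) (nat_lit 59) (nat_lit 4) (nat_lit 461) (nat_lit 395) (nat_lit 344)) (XT.nd (nat_lit 78) (nat_lit 76) (nat_lit 0) (XT.lf (nat_lit 0) (nat_lit 8450745978) (nat_lit 228) (nat_lit 11617338909) (nat_lit 76) (nat_lit 4759381416) (nat_lit 54) (nat_lit 5) (nat_lit 57) (nat_lit 5) (nat_lit 55) (nat_lit 4) (nat_lit 462) (nat_lit 395) (nat_lit 343)) (XT.lf (nat_lit 0) (nat_lit 11596015044) (nat_lit 76) (nat_lit 8347850532) (nat_lit 152) (nat_lit 5746822905) (nat_lit 53) (nat_lit 5) (nat_lit 54) (nat_lit 5) (nat_lit 55) (nat_lit 4) (nat_lit 463) (nat_lit 395) (nat_lit 342)))) (XT.nd (nat_lit 156) (nat_lit 304) (nat_lit 0) (XT.nd (nat_lit 78) (nat_lit 76) (nat_lit 0) (XT.lf (nat_lit 0) (nat_lit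 5480087978) (nat_lit 228) (nat_lit 17032806989) (nat_lit 76) (nat_lit 4077483364) (nat_lit 50) (nat_lit 5) (nat_lit 53) (nat_lit 5) (nat_lit 51) (nat_lit 4) (nat_lit 464) (nat_lit 395) (nat_lit 341)) (XT.lf (nat_lit 0) (nat_lit 6997188705) (nat_lit 76) (nat_lit 10371384487) (nat_lit 152) (nat_lit 10158203188) (nat_lit 49) (nat_lit 5) (nat_lit 50) (nat_lit 5) (nat_lit 51) (nat_lit 4) (nat_lit 465) (nat_lit 395) (nat_lit 340))) (XT.nd (nat_lit 78) (nat_lit 76) (nat_lit 0) (XT.lf (nat_lit 0) (nat_lit 1476763385) (nat_lit 228) (nat_lit 24535868810) (nat_lit 76) (nat_lit 2492134615) (nat_lit 46) (nat_lit 5) (nat_lit 49) (nat_lit 5) (nat_lit 47) (nat_lit 4) (nat_lit 466) (nat_lit 395) (nat_lit 339)) (XT.lf (nat_lit 0) (nat_lit 244997999) (nat_lit 76) (nat_lit 13484043177) (nat_lit 152) (nat_lit 15792231559) (nat_lit 45) (nat_lit 5) (nat_lit 46) (nat_lit 5) (nat_lit 47) (nat_lit 4) (nat_lit 467) (nat_lit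 395) (nat_lit 338)))))) (XT.nd (nat_lit 468) (nat_lit 684) (nat_lit 0) (XT.nd (nat_lit 234) (nat_lit 228) (nat_lit 0) (XT.nd (nat_lit 78) (nat_lit 228) (nat_lit 0) (XT.lf (nat_lit 0) (nat_lit 26635354955) (nat_lit 76) (nat_lit 136675623) (nat_lit 152) (nat_lit 3811233082) (nat_lit 45) (nat_lit 5) (nat_lit 46) (nat_lit 5) (nat_lit 47) (nat_lit 4) (nat_lit 468) (nat_lit 395) (nat_lit 337)) (XT.nd (nat_lit 78) (nat_lit 76) (nat_lit 0) (XT.lf (nat_lit 0) (nat_lit 8881715982) (nat_lit 152) (nat_lit 8955203940) (nat_lit 76) (nat_lit 13850387552) (nat_lit 43) (nat_lit 5) (nat_lit 45) (nat_lit 5) (nat_lit 44) (nat_lit 4) (nat_lit 469) (nat_lit 395) (nat_lit 336)) (XT.lf (nat_lit 0) (nat_lit 18162971894) (nat_lit 76) (nat_lit 4115153495) (nat_lit 152) (nat_lit 10562869310) (nat_lit 42) (nat_lit 5) (nat_lit 43) (nat_lit 5) (nat_lit 44) (nat_lit 4) (nat_lit 470) (nat_lit 395) (nat_lit 335)))) (XT.nd (nat_lit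 78) (nat_lit 76) (nat_lit 0) (XT.lf (nat_lit 0) (nat_lit 2496074828) (nat_lit 152) (nat_lit 21277155838) (nat_lit 76) (nat_lit 10271012479) (nat_lit 40) (nat_lit 5) (nat_lit 42) (nat_lit 5) (nat_lit 41) (nat_lit 4) (nat_lit 471) (nat_lit 395) (nat_lit 334)) (XT.nd (nat_lit 78) (nat_lit 0) (nat_lit 0) (XT.lf (nat_lit 0) (nat_lit 6434345223) (nat_lit 76) (nat_lit 9745916239) (nat_lit 152) (nat_lit 19118534561) (nat_lit 39) (nat_lit 5) (nat_lit 40) (nat_lit 5) (nat_lit 41) (nat_lit 4) (nat_lit 472) (nat_lit 395) (nat_lit 333)) (XT.lf (nat_lit 0) (nat_lit 30751903944) (nat_lit 152) (nat_lit 810808092) (nat_lit 0) (nat_lit 5047269058) (nat_lit 39) (nat_lit 5) (nat_lit 41) (nat_lit 4) (nat_lit 39) (nat_lit 4) (nat_lit 473) (nat_lit 395) (nat_lit 332))))) (XT.nd (nat_lit 234) (nat_lit 380) (nat_lit 0) (XT.nd (nat_lit 78) (nat_lit 152) (nat_lit 0) (XT.lf (nat_lit 0) (nat_lit 8225468586) (nat_lit 152)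 (nat_lit 9066284912) (nat_lit 76) (nat_lit 20683124315) (nat_lit 37) (nat_lit 5) (nat_lit 39) (nat_lit 5) (nat_lit 38) (nat_lit 4) (nat_lit 474) (nat_lit 395) (nat_lit 331)) (XT.nd (nat_lit 78) (nat_lit 76) (nat_lit 0) (XT.lf (nat_lit 0) (nat_lit 20953837218) (nat_lit 76) (nat_lit 2087713702) (nat_lit 152) (nat_lit 16360244739) (nat_lit 36) (nat_lit 5) (nat_lit 37) (nat_lit 5) (nat_lit 38) (nat_lit 4) (nat_lit 475) (nat_lit 395) (nat_lit 330)) (XT.lf (nat_lit 0) (nat_lit 11745222951) (nat_lit 76) (nat_lit 27133575035) (nat_lit 76) (nat_lit 2012852226) (nat_lit 35) (nat_lit 4) (nat_lit 36) (nat_lit 5) (nat_lit 36) (nat_lit 4) (nat_lit 476) (nat_lit 395) (nat_lit 329)))) (XT.nd (nat_lit 156) (nat_lit 228) (nat_lit 0) (XT.nd (nat_lit 78) (nat_lit 0) (nat_lit 0) (XT.lf (nat_lit 0) (nat_lit 1142504077) (nat_lit 76) (nat_lit 11819566581) (nat_lit 152) (nat_lit 29485218938) (nat_lit 33) (nat_lit 5) (nat_lit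 34) (nat_lit 5) (nat_lit 35) (nat_lit 4) (nat_lit 477) (nat_lit 395) (nat_lit 328)) (XT.lf (nat_lit 0) (nat_lit 28930685290) (nat_lit 152) (nat_lit 10693550189) (nat_lit 0) (nat_lit 4447281795) (nat_lit 33) (nat_lit 5) (nat_lit 35) (nat_lit 4) (nat_lit 33) (nat_lit 4) (nat_lit 478) (nat_lit 395) (nat_lit 327))) (XT.nd (nat_lit 78) (nat_lit 76) (nat_lit 0) (XT.lf (nat_lit 0) (nat_lit 197349446) (nat_lit 152) (nat_lit 24126617905) (nat_lit 76) (nat_lit 21444762288) (nat_lit 31) (nat_lit 5) (nat_lit 33) (nat_lit 5) (nat_lit 32) (nat_lit 4) (nat_lit 479) (nat_lit 395) (nat_lit 326)) (XT.lf (nat_lit 0) (nat_lit 8170852286) (nat_lit 76) (nat_lit 7957145758) (nat_lit 152) (nat_lit 31414147754) (nat_lit 30) (nat_lit 5) (nat_lit 31) (nat_lit 5) (nat_lit 32) (nat_lit 4) (nat_lit 480) (nat_lit 395) (nat_lit 325))))))))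
noncomputable def xc40 : XT := (XT.nd (nat_lit 57330) (nat_lit 0) (nat_lit 7904) (XT.nd (nat_lit 936) (nat_lit 380) (nat_lit 0) (XT.nd (nat_lit 468) (nat_lit 304) (nat_lit 0) (XT.nd (nat_lit 234) (nat_lit 228) (nat_lit 0) (XT.nd (nat_lit 78) (nat_lit 228) (nat_lit 0) (XT.lf (nat_lit 0) (nat_lit 33141881540) (nat_lit 152) (nat_lit 7003852612) (nat_lit 0) (nat_lit 9249898743) (nat_lit 30) (nat_lit 5) (nat_lit 32) (nat_lit 4) (nat_lit 30) (nat_lit 4) (nat_lit 481) (nat_lit 395) (nat_lit 324)) (XT.nd (nat_lit 78) (nat_lit 152) (nat_lit 0) (XT.lf (nat_lit 0) (nat_lit 27336725206) (nat_lit 76) (nat_lit 23962516013) (nat_lit 76) (nat_lit 33770816) (nat_lit 29) (nat_lit 4) (nat_lit 30) (nat_lit 5) (nat_lit 30) (nat_lit 4) (nat_lit 482) (nat_lit 395) (nat_lit 323)) (XT.lf (nat_lit 0) (nat_lit 10112297814) (nat_lit 76) (nat_lit 6673936087) (nat_lit 152) (nat_lit 36572504607) (nat_lit 27) (nat_lit 5) (nat_lit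 28) (nat_lit 5) (nat_lit 29) (nat_lit 4) (nat_lit 483) (nat_lit 395) (nat_lit 322)))) (XT.nd (nat_lit 78) (nat_lit 228) (nat_lit 0) (XT.lf (nat_lit 0) (nat_lit 34758047176) (nat_lit 152) (nat_lit 9258459613) (nat_lit 0) (nat_lit 11459890294) (nat_lit 27) (nat_lit 5) (nat_lit 29) (nat_lit 4) (nat_lit 27) (nat_lit 4) (nat_lit 484) (nat_lit 395) (nat_lit 321)) (XT.nd (nat_lit 78) (nat_lit 152) (nat_lit 0) (XT.lf (nat_lit 0) (nat_lit 26794169668) (nat_lit 76) (nat_lit 27113195565) (nat_lit 76) (nat_lit 3784206893) (nat_lit 26) (nat_lit 4) (nat_lit 27) (nat_lit 5) (nat_lit 27) (nat_lit 4) (nat_lit 485) (nat_lit 395) (nat_lit 320)) (XT.lf (nat_lit 0) (nat_lit 4695851536) (nat_lit 76) (nat_lit 9123953300) (nat_lit 152) (nat_lit 46190777050) (nat_lit 24) (nat_lit 5) (nat_lit 25) (nat_lit 5) (nat_lit 26) (nat_lit 4) (nat_lit 486) (nat_lit 395) (nat_lit 319))))) (XT.nd (nat_lit 234) (nat_lit 152) (nat_lit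 0) (XT.nd (nat_lit 78) (nat_lit 152) (nat_lit 0) (XT.lf (nat_lit 0) (nat_lit 32597367691) (nat_lit 152) (nat_lit 19943697907) (nat_lit 0) (nat_lit 9892204949) (nat_lit 24) (nat_lit 5) (nat_lit 26) (nat_lit 4) (nat_lit 24) (nat_lit 4) (nat_lit 487) (nat_lit 395) (nat_lit 318)) (XT.nd (nat_lit 78) (nat_lit 76) (nat_lit 0) (XT.lf (nat_lit 0) (nat_lit 17359764677) (nat_lit 76) (nat_lit 35170922048) (nat_lit 76) (nat_lit 12439901384) (nat_lit 23) (nat_lit 4) (nat_lit 24) (nat_lit 5) (nat_lit 24) (nat_lit 4) (nat_lit 488) (nat_lit 395) (nat_lit 317)) (XT.lf (nat_lit 0) (nat_lit 5878292273) (nat_lit 152) (nat_lit 10822713942) (nat_lit 76) (nat_lit 50927103725) (nat_lit 22) (nat_lit 5) (nat_lit 24) (nat_lit 5) (nat_lit 23) (nat_lit 4) (nat_lit 489) (nat_lit 395) (nat_lit 316)))) (XT.nd (nat_lit 78) (nat_lit 76) (nat_lit 0) (XT.lf (nat_lit 0) (nat_lit 25118260807) (nat_lit 152) (nat_lit 42286029883) (nat_lit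 0) (nat_lit 3002628619) (nat_lit 21) (nat_lit 5) (nat_lit 23) (nat_lit 4) (nat_lit 21) (nat_lit 4) (nat_lit 490) (nat_lit 395) (nat_lit 315)) (XT.nd (nat_lit 78) (nat_lit 76) (nat_lit 0) (XT.lf (nat_lit 0) (nat_lit 45562807226) (nat_lit 152) (nat_lit 4329096626) (nat_lit 0) (nat_lit 23425488586) (nat_lit 21) (nat_lit 5) (nat_lit 23) (nat_lit 4) (nat_lit 21) (nat_lit 4) (nat_lit 491) (nat_lit 395) (nat_lit 314)) (XT.lf (nat_lit 0) (nat_lit 36158955451) (nat_lit 76) (nat_lit 31181539699) (nat_lit 76) (nat_lit 9023567296) (nat_lit 20) (nat_lit 4) (nat_lit 21) (nat_lit 5) (nat_lit 21) (nat_lit 4) (nat_lit 492) (nat_lit 395) (nat_lit 313)))))) (XT.nd (nat_lit 55848) (nat_lit 0) (nat_lit 23028) (XT.nd (nat_lit 234) (nat_lit 228) (nat_lit 0) (XT.nd (nat_lit 78) (nat_lit 76) (nat_lit 0) (XT.lf (nat_lit 0) (nat_lit 10445354142) (nat_lit 152) (nat_lit 973573745) (nat_lit 76) (nat_lit 68140797500) (nat_lit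 19) (nat_lit 5) (nat_lit 21) (nat_lit 5) (nat_lit 20) (nat_lit 4) (nat_lit 493) (nat_lit 395) (nat_lit 312)) (XT.nd (nat_lit 78) (nat_lit 0) (nat_lit 0) (XT.lf (nat_lit 0) (nat_lit 31155523782) (nat_lit 152) (nat_lit 42137691341) (nat_lit 0) (nat_lit 9605643950) (nat_lit 18) (nat_lit 5) (nat_lit 20) (nat_lit 4) (nat_lit 18) (nat_lit 4) (nat_lit 494) (nat_lit 395) (nat_lit 311)) (XT.lf (nat_lit 0) (nat_lit 52993026941) (nat_lit 152) (nat_lit 1983343028) (nat_lit 0) (nat_lit 31425825267) (nat_lit 18) (nat_lit 5) (nat_lit 20) (nat_lit 4) (nat_lit 18) (nat_lit 4) (nat_lit 495) (nat_lit 395) (nat_lit 310)))) (XT.nd (nat_lit 78) (nat_lit 152) (nat_lit 0) (XT.lf (nat_lit 0) (nat_lit 40913927339) (nat_lit 76) (nat_lit 35369814968) (nat_lit 76) (nat_lit 13786116302) (nat_lit 17) (nat_lit 4) (nat_lit 18) (nat_lit 5) (nat_lit 18) (nat_lit 4) (nat_lit 496) (nat_lit 395) (nat_lit 309)) (XT.nd (nat_lit 78)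 (nat_lit 76) (nat_lit 0) (XT.lf (nat_lit 0) (nat_lit 6674333175) (nat_lit 152) (nat_lit 8050513741) (nat_lit 76) (nat_lit 79194413811) (nat_lit 16) (nat_lit 5) (nat_lit 18) (nat_lit 5) (nat_lit 17) (nat_lit 4) (nat_lit 497) (nat_lit 395) (nat_lit 308)) (XT.lf (nat_lit 0) (nat_lit 28259091519) (nat_lit 152) (nat_lit 62412091839) (nat_lit 0) (nat_lit 7274263028) (nat_lit 15) (nat_lit 5) (nat_lit 17) (nat_lit 4) (nat_lit 15) (nat_lit 4) (nat_lit 498) (nat_lit 395) (nat_lit 307))))) (XT.nd (nat_lit 234) (nat_lit 3724) (nat_lit 0) (XT.nd (nat_lit 78) (nat_lit 1444) (nat_lit 0) (XT.lf (nat_lit 0) (nat_lit 1438672661) (nat_lit 532) (nat_lit 937750669) (nat_lit 532) (nat_lit 937750669) (nat_lit 386) (nat_lit 4) (nat_lit 393) (nat_lit 5) (nat_lit 393) (nat_lit 4) (nat_lit 408) (nat_lit 396) (nat_lit 396)) (XT.nd (nat_lit 78) (nat_lit 760) (nat_lit 0) (XT.lf (nat_lit 0) (nat_lit 3236588220) (nat_lit 608)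 (nat_lit 225682795) (nat_lit 684) (nat_lit 3216829381) (nat_lit 377) (nat_lit 5) (nat_lit 385) (nat_lit 5) (nat_lit 386) (nat_lit 4) (nat_lit 409) (nat_lit 396) (nat_lit 395)) (XT.lf (nat_lit 0) (nat_lit 2045699512) (nat_lit 760) (nat_lit 3034687206) (nat_lit 76) (nat_lit 1657064723) (nat_lit 367) (nat_lit 5) (nat_lit 377) (nat_lit 5) (nat_lit 368) (nat_lit 4) (nat_lit 410) (nat_lit 396) (nat_lit 394)))) (XT.nd (nat_lit 156) (nat_lit 2052) (nat_lit 0) (XT.nd (nat_lit 78) (nat_lit 836) (nat_lit 0) (XT.lf (nat_lit 0) (nat_lit 486657141) (nat_lit 836) (nat_lit 2515653351) (nat_lit 76) (nat_lit 3801546615) (nat_lit 356) (nat_lit 5) (nat_lit 367) (nat_lit 5) (nat_lit 357) (nat_lit 5) (nat_lit 411) (nat_lit 396) (nat_lit 393)) (XT.lf (nat_lit 0) (nat_lit 4983604243) (nat_lit 836) (nat_lit 647820689) (nat_lit 912) (nat_lit 1246723986) (nat_lit 345) (nat_lit 5) (nat_lit 356) (nat_lit 5) (nat_lit 357)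 (nat_lit 5) (nat_lit 412) (nat_lit 396) (nat_lit 392))) (XT.nd (nat_lit 78) (nat_lit 1064) (nat_lit 0) (XT.lf (nat_lit 0) (nat_lit 3831009322) (nat_lit 988) (nat_lit 1183739285) (nat_lit 76) (nat_lit 1945318565) (nat_lit 332) (nat_lit 5) (nat_lit 345) (nat_lit 5) (nat_lit 333) (nat_lit 5) (nat_lit 413) (nat_lit 396) (nat_lit 391)) (XT.lf (nat_lit 0) (nat_lit 1882732560) (nat_lit 1064) (nat_lit 367038581) (nat_lit 76) (nat_lit 4800444733) (nat_lit 318) (nat_lit 5) (nat_lit 332) (nat_lit 5) (nat_lit 319) (nat_lit 5) (nat_lit 414) (nat_lit 396) (nat_lit 390))))))) (XT.nd (nat_lit 936) (nat_lit 5244) (nat_lit 0) (XT.nd (nat_lit 468) (nat_lit 3648) (nat_lit 0) (XT.nd (nat_lit 234) (nat_lit 1900) (nat_lit 0) (XT.nd (nat_lit 78) (nat_lit 2128) (nat_lit 0) (XT.lf (nat_lit 0) (nat_lit 564490997) (nat_lit 1140) (nat_lit 6366715033) (nat_lit 1216) (nat_lit 217288536) (nat_lit 289) (nat_lit 5) (nat_lit 304)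 (nat_lit 5) (nat_lit 305) (nat_lit 5) (nat_lit 415) (nat_lit 396) (nat_lit 389)) (XT.nd (nat_lit 78) (nat_lit 836) (nat_lit 0) (XT.lf (nat_lit 0) (nat_lit 1575568442) (nat_lit 1216) (nat_lit 3182384616) (nat_lit 1292) (nat_lit 2496126659) (nat_lit 272) (nat_lit 5) (nat_lit 288) (nat_lit 5) (nat_lit 289) (nat_lit 5) (nat_lit 416) (nat_lit 396) (nat_lit 388)) (XT.lf (nat_lit 0) (nat_lit 2421565272) (nat_lit 836) (nat_lit 4669202713) (nat_lit 76) (nat_lit 277624442) (nat_lit 261) (nat_lit 5) (nat_lit 272) (nat_lit 5) (nat_lit 262) (nat_lit 5) (nat_lit 417) (nat_lit 396) (nat_lit 387)))) (XT.nd (nat_lit 78) (nat_lit 1292) (nat_lit 0) (XT.lf (nat_lit 0) (nat_lit 3905563157) (nat_lit 608) (nat_lit 3528927839) (nat_lit 684) (nat_lit 56221211) (nat_lit 253) (nat_lit 5) (nat_lit 261) (nat_lit 5) (nat_lit 262) (nat_lit 5) (nat_lit 418) (nat_lit 396) (nat_lit 386)) (XT.nd (nat_lit 78) (nat_lit 608) (nat_lit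 0) (XT.lf (nat_lit 0) (nat_lit 4859879019) (nat_lit 684) (nat_lit 2421707664) (nat_lit 76) (nat_lit 339751851) (nat_lit 244) (nat_lit 5) (nat_lit 253) (nat_lit 5) (nat_lit 245) (nat_lit 5) (nat_lit 419) (nat_lit 396) (nat_lit 385)) (XT.lf (nat_lit 0) (nat_lit 2139836259) (nat_lit 608) (nat_lit 1186065035) (nat_lit 76) (nat_lit 4434323775) (nat_lit 236) (nat_lit 5) (nat_lit 244) (nat_lit 5) (nat_lit 237) (nat_lit 5) (nat_lit 420) (nat_lit 396) (nat_lit 384))))) (XT.nd (nat_lit 234) (nat_lit 1444) (nat_lit 0) (XT.nd (nat_lit 78) (nat_lit 1140) (nat_lit 0) (XT.lf (nat_lit 0) (nat_lit 144737448) (nat_lit 532) (nat_lit 6990124893) (nat_lit 608) (nat_lit 773250570) (nat_lit 222) (nat_lit 5) (nat_lit 229) (nat_lit 5) (nat_lit 230) (nat_lit 5) (nat_lit 421) (nat_lit 396) (nat_lit 383)) (XT.nd (nat_lit 78) (nat_lit 532) (nat_lit 0) (XT.lf (nat_lit 0) (nat_lit 1554003223) (nat_lit 532) (nat_lit 2627532889)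 (nat_lit 608) (nat_lit 3882175523) (nat_lit 214) (nat_lit 5) (nat_lit 221) (nat_lit 5) (nat_lit 222) (nat_lit 5) (nat_lit 422) (nat_lit 396) (nat_lit 382)) (XT.lf (nat_lit 0) (nat_lit 1049735106) (nat_lit 532) (nat_lit 5173404332) (nat_lit 76) (nat_lit 2005511427) (nat_lit 207) (nat_lit 5) (nat_lit 214) (nat_lit 5) (nat_lit 208) (nat_lit 5) (nat_lit 423) (nat_lit 396) (nat_lit 381)))) (XT.nd (nat_lit 78) (nat_lit 988) (nat_lit 0) (XT.lf (nat_lit 0) (nat_lit 4620096029) (nat_lit 456) (nat_lit 1474850218) (nat_lit 532) (nat_lit 2307368995) (nat_lit 201) (nat_lit 5) (nat_lit 207) (nat_lit 5) (nat_lit 208) (nat_lit 5) (nat_lit 424) (nat_lit 396) (nat_lit 380)) (XT.nd (nat_lit 78) (nat_lit 456) (nat_lit 0) (XT.lf (nat_lit 0) (nat_lit 2714581744) (nat_lit 532) (nat_lit 2332545672) (nat_lit 76) (nat_lit 3537915280) (nat_lit 194) (nat_lit 5) (nat_lit 201) (nat_lit 5) (nat_lit 195) (nat_lit 5) (nat_lit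 425) (nat_lit 396) (nat_lit 379)) (XT.lf (nat_lit 0) (nat_lit 7891013476) (nat_lit 532) (nat_lit 802776959) (nat_lit 76) (nat_lit 83933850) (nat_lit 188) (nat_lit 5) (nat_lit 195) (nat_lit 5) (nat_lit 189) (nat_lit 5) (nat_lit 426) (nat_lit 396) (nat_lit 378)))))) (XT.nd (nat_lit 468) (nat_lit 2432) (nat_lit 0) (XT.nd (nat_lit 234) (nat_lit 1140) (nat_lit 0) (XT.nd (nat_lit 78) (nat_lit 836) (nat_lit 0) (XT.lf (nat_lit 0) (nat_lit 768221831) (nat_lit 380) (nat_lit 3494543547) (nat_lit 456) (nat_lit 4716014240) (nat_lit 177) (nat_lit 5) (nat_lit 182) (nat_lit 5) (nat_lit 183) (nat_lit 5) (nat_lit 427) (nat_lit 396) (nat_lit 377)) (XT.nd (nat_lit 78) (nat_lit 380) (nat_lit 0) (XT.lf (nat_lit 0) (nat_lit 429809422) (nat_lit 456) (nat_lit 6748096792) (nat_lit 76) (nat_lit 2012303914) (nat_lit 171) (nat_lit 5) (nat_lit 177) (nat_lit 5) (nat_lit 172) (nat_lit 5) (nat_lit 428) (nat_lit 396) (nat_lit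 376)) (XT.lf (nat_lit 0) (nat_lit 4152475095) (nat_lit 380) (nat_lit 1575274838) (nat_lit 456) (nat_lit 3683320128) (nat_lit 166) (nat_lit 5) (nat_lit 171) (nat_lit 5) (nat_lit 172) (nat_lit 5) (nat_lit 429) (nat_lit 396) (nat_lit 375)))) (XT.nd (nat_lit 78) (nat_lit 760) (nat_lit 0) (XT.lf (nat_lit 0) (nat_lit 1620301779) (nat_lit 380) (nat_lit 3718477796) (nat_lit 76) (nat_lit 4303600404) (nat_lit 161) (nat_lit 5) (nat_lit 166) (nat_lit 5) (nat_lit 162) (nat_lit 5) (nat_lit 430) (nat_lit 396) (nat_lit 374)) (XT.nd (nat_lit 78) (nat_lit 380) (nat_lit 0) (XT.lf (nat_lit 0) (nat_lit 7105379386) (nat_lit 456) (nat_lit 2129673216) (nat_lit 76) (nat_lit 649361171) (nat_lit 156) (nat_lit 5) (nat_lit 162) (nat_lit 5) (nat_lit 157) (nat_lit 5) (nat_lit 431) (nat_lit 396) (nat_lit 373)) (XT.lf (nat_lit 0) (nat_lit 2703578499) (nat_lit 380) (nat_lit 513983874) (nat_lit 76) (nat_lit 6919306310) (nat_lit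 151) (nat_lit 5) (nat_lit 156) (nat_lit 5) (nat_lit 152) (nat_lit 5) (nat_lit 432) (nat_lit 396) (nat_lit 372))))) (XT.nd (nat_lit 234) (nat_lit 1216) (nat_lit 0) (XT.nd (nat_lit 78) (nat_lit 608) (nat_lit 0) (XT.lf (nat_lit 0) (nat_lit 1172167162) (nat_lit 304) (nat_lit 7255472029) (nat_lit 380) (nat_lit 1972760808) (nat_lit 143) (nat_lit 5) (nat_lit 147) (nat_lit 5) (nat_lit 148) (nat_lit 5) (nat_lit 433) (nat_lit 396) (nat_lit 371)) (XT.nd (nat_lit 78) (nat_lit 228) (nat_lit 0) (XT.lf (nat_lit 0) (nat_lit 2906171203) (nat_lit 304) (nat_lit 807479231) (nat_lit 380) (nat_lit 6961606804) (nat_lit 138) (nat_lit 5) (nat_lit 142) (nat_lit 5) (nat_lit 143) (nat_lit 5) (nat_lit 434) (nat_lit 396) (nat_lit 370)) (XT.lf (nat_lit 0) (nat_lit 4667807416) (nat_lit 228) (nat_lit 5028199044) (nat_lit 304) (nat_lit 1265712333) (nat_lit 135) (nat_lit 5) (nat_lit 138) (nat_lit 5) (nat_lit 139) (nat_lit 5) (nat_lit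 435) (nat_lit 396) (nat_lit 369)))) (XT.nd (nat_lit 156) (nat_lit 608) (nat_lit 0) (XT.nd (nat_lit 78) (nat_lit 228) (nat_lit 0) (XT.lf (nat_lit 0) (nat_lit 4649316851) (nat_lit 380) (nat_lit 4798362655) (nat_lit 76) (nat_lit 1812692461) (nat_lit 130) (nat_lit 5) (nat_lit 135) (nat_lit 5) (nat_lit 131) (nat_lit 5) (nat_lit 436) (nat_lit 396) (nat_lit 368)) (XT.lf (nat_lit 0) (nat_lit 8295175181) (nat_lit 228) (nat_lit 2596270810) (nat_lit 304) (nat_lit 680427833) (nat_lit 127) (nat_lit 5) (nat_lit 130) (nat_lit 5) (nat_lit 131) (nat_lit 5) (nat_lit 437) (nat_lit 396) (nat_lit 367))) (XT.nd (nat_lit 78) (nat_lit 228) (nat_lit 0) (XT.lf (nat_lit 0) (nat_lit 5496217586) (nat_lit 380) (nat_lit 1765689230) (nat_lit 76) (nat_lit 4633729096) (nat_lit 122) (nat_lit 5) (nat_lit 127) (nat_lit 5) (nat_lit 123) (nat_lit 5) (nat_lit 438) (nat_lit 396) (nat_lit 366)) (XT.lf (nat_lit 0) (nat_lit 12012145848)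 (nat_lit 304) (nat_lit 203362271) (nat_lit 76) (nat_lit 18555811) (nat_lit 119) (nat_lit 5) (nat_lit 123) (nat_lit 5) (nat_lit 120) (nat_lit 5) (nat_lit 439) (nat_lit 396) (nat_lit 365))))))))
noncomputable def xc41 : XT := (XT.nd (nat_lit 1950) (nat_lit 2356) (nat_lit 0) (XT.nd (nat_lit 936) (nat_lit 2128) (nat_lit 0) (XT.nd (nat_lit 468) (nat_lit 1140) (nat_lit 0) (XT.nd (nat_lit 234) (nat_lit 760) (nat_lit 0) (XT.nd (nat_lit 78) (nat_lit 456) (nat_lit 0) (XT.lf (nat_lit 0) (nat_lit 1333804679) (nat_lit 228) (nat_lit 4919827862) (nat_lit 304) (nat_lit 6330646193) (nat_lit 112) (nat_lit 5) (nat_lit 115) (nat_lit 5) (nat_lit 116) (nat_lit 5) (nat_lit 440) (nat_lit 396) (nat_lit 364)) (XT.nd (nat_lit 78) (nat_lit 152) (nat_lit 0) (XT.lf (nat_lit 0) (nat_lit 153058463) (nat_lit 304) (nat_lit 10026713245) (nat_lit 76) (nat_lit 2770396974) (nat_lit 108) (nat_lit 5) (nat_lit 112) (nat_lit 5) (nat_lit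 109) (nat_lit 5) (nat_lit 441) (nat_lit 396) (nat_lit 363)) (XT.lf (nat_lit 0) (nat_lit 4474506702) (nat_lit 152) (nat_lit 2441203605) (nat_lit 228) (nat_lit 6414204465) (nat_lit 106) (nat_lit 5) (nat_lit 108) (nat_lit 5) (nat_lit 109) (nat_lit 5) (nat_lit 442) (nat_lit 396) (nat_lit 362)))) (XT.nd (nat_lit 78) (nat_lit 456) (nat_lit 0) (XT.lf (nat_lit 0) (nat_lit 378189869) (nat_lit 304) (nat_lit 7687821917) (nat_lit 76) (nat_lit 5659686326) (nat_lit 102) (nat_lit 5) (nat_lit 106) (nat_lit 5) (nat_lit 103) (nat_lit 5) (nat_lit 443) (nat_lit 396) (nat_lit 361)) (XT.nd (nat_lit 78) (nat_lit 304) (nat_lit 0) (XT.lf (nat_lit 0) (nat_lit 7450352941) (nat_lit 228) (nat_lit 6560335637) (nat_lit 76) (nat_lit 126503894) (nat_lit 100) (nat_lit 5) (nat_lit 103) (nat_lit 5) (nat_lit 101) (nat_lit 5) (nat_lit 444) (nat_lit 396) (nat_lit 360)) (XT.lf (nat_lit 0) (nat_lit 434742202) (nat_lit 304) (nat_lit 5474454888)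 (nat_lit 76) (nat_lit 8655970294) (nat_lit 96) (nat_lit 5) (nat_lit 100) (nat_lit 5) (nat_lit 97) (nat_lit 5) (nat_lit 445) (nat_lit 396) (nat_lit 359))))) (XT.nd (nat_lit 234) (nat_lit 532) (nat_lit 0) (XT.nd (nat_lit 78) (nat_lit 456) (nat_lit 0) (XT.lf (nat_lit 0) (nat_lit 7858304760) (nat_lit 228) (nat_lit 4445239757) (nat_lit 76) (nat_lit 2706494325) (nat_lit 94) (nat_lit 5) (nat_lit 97) (nat_lit 5) (nat_lit 95) (nat_lit 5) (nat_lit 446) (nat_lit 396) (nat_lit 358)) (XT.nd (nat_lit 78) (nat_lit 152) (nat_lit 0) (XT.lf (nat_lit 0) (nat_lit 294999151) (nat_lit 304) (nat_lit 3449207198) (nat_lit 76) (nat_lit 11729229721) (nat_lit 90) (nat_lit 5) (nat_lit 94) (nat_lit 5) (nat_lit 91) (nat_lit 5) (nat_lit 447) (nat_lit 396) (nat_lit 357)) (XT.lf (nat_lit 0) (nat_lit 8086729426) (nat_lit 228) (nat_lit 2555504744) (nat_lit 76) (nat_lit 5312036323) (nat_lit 88) (nat_lit 5) (nat_lit 91) (nat_lit 5)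 (nat_lit 89) (nat_lit 5) (nat_lit 448) (nat_lit 396) (nat_lit 356)))) (XT.nd (nat_lit 78) (nat_lit 380) (nat_lit 0) (XT.lf (nat_lit 0) (nat_lit 14767270600) (nat_lit 152) (nat_lit 1610611160) (nat_lit 228) (nat_lit 77978083) (nat_lit 86) (nat_lit 5) (nat_lit 88) (nat_lit 5) (nat_lit 89) (nat_lit 5) (nat_lit 449) (nat_lit 396) (nat_lit 355)) (XT.nd (nat_lit 78) (nat_lit 152) (nat_lit 0) (XT.lf (nat_lit 0) (nat_lit 8098121485) (nat_lit 228) (nat_lit 974461807) (nat_lit 76) (nat_lit 7902962665) (nat_lit 83) (nat_lit 5) (nat_lit 86) (nat_lit 5) (nat_lit 84) (nat_lit 5) (nat_lit 450) (nat_lit 396) (nat_lit 354)) (XT.lf (nat_lit 0) (nat_lit 16784169791) (nat_lit 228) (nat_lit 293407486) (nat_lit 76) (nat_lit 440540525) (nat_lit 81) (nat_lit 5) (nat_lit 84) (nat_lit 5) (nat_lit 82) (nat_lit 4) (nat_lit 451) (nat_lit 396) (nat_lit 353)))))) (XT.nd (nat_lit 468) (nat_lit 912) (nat_lit 0) (XT.nd (nat_lit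 234) (nat_lit 456) (nat_lit 0) (XT.nd (nat_lit 78) (nat_lit 380) (nat_lit 0) (XT.lf (nat_lit 0) (nat_lit 201067725) (nat_lit 152) (nat_lit 7646352322) (nat_lit 228) (nat_lit 10232653269) (nat_lit 76) (nat_lit 5) (nat_lit 78) (nat_lit 5) (nat_lit 79) (nat_lit 5) (nat_lit 452) (nat_lit 396) (nat_lit 352)) (XT.nd (nat_lit 78) (nat_lit 228) (nat_lit 0) (XT.lf (nat_lit 0) (nat_lit 630409165) (nat_lit 152) (nat_lit 16329494030) (nat_lit 228) (nat_lit 1706495044) (nat_lit 74) (nat_lit 5) (nat_lit 76) (nat_lit 5) (nat_lit 77) (nat_lit 4) (nat_lit 453) (nat_lit 396) (nat_lit 351)) (XT.lf (nat_lit 0) (nat_lit 854389820) (nat_lit 152) (nat_lit 6424553904) (nat_lit 228) (nat_lit 11995781006) (nat_lit 71) (nat_lit 5) (nat_lit 73) (nat_lit 5) (nat_lit 74) (nat_lit 5) (nat_lit 454) (nat_lit 396) (nat_lit 350)))) (XT.nd (nat_lit 78) (nat_lit 304) (nat_lit 0) (XT.lf (nat_lit 0) (nat_lit 946415487) (nat_lit 152)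 (nat_lit 15872427692) (nat_lit 228) (nat_lit 3089908684) (nat_lit 69) (nat_lit 5) (nat_lit 71) (nat_lit 5) (nat_lit 72) (nat_lit 4) (nat_lit 455) (nat_lit 396) (nat_lit 349)) (XT.nd (nat_lit 78) (nat_lit 76) (nat_lit 0) (XT.lf (nat_lit 0) (nat_lit 816718442) (nat_lit 152) (nat_lit 5493868003) (nat_lit 228) (nat_lit 14256948252) (nat_lit 66) (nat_lit 5) (nat_lit 68) (nat_lit 5) (nat_lit 69) (nat_lit 5) (nat_lit 456) (nat_lit 396) (nat_lit 348)) (XT.lf (nat_lit 0) (nat_lit 484924113) (nat_lit 76) (nat_lit 15796028298) (nat_lit 152) (nat_lit 4972478940) (nat_lit 65) (nat_lit 5) (nat_lit 66) (nat_lit 5) (nat_lit 67) (nat_lit 4) (nat_lit 457) (nat_lit 396) (nat_lit 347))))) (XT.nd (nat_lit 234) (nat_lit 532) (nat_lit 0) (XT.nd (nat_lit 78) (nat_lit 304) (nat_lit 0) (XT.lf (nat_lit 0) (nat_lit 4855091853) (nat_lit 152) (nat_lit 89753108) (nat_lit 76) (nat_lit 17022242744) (nat_lit 64) (nat_lit 5) (nat_lit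 66) (nat_lit 5) (nat_lit 65) (nat_lit 5) (nat_lit 458) (nat_lit 396) (nat_lit 346)) (XT.nd (nat_lit 78) (nat_lit 152) (nat_lit 0) (XT.lf (nat_lit 0) (nat_lit 15261523248) (nat_lit 228) (nat_lit 932284710) (nat_lit 76) (nat_lit 6515436708) (nat_lit 62) (nat_lit 5) (nat_lit 65) (nat_lit 5) (nat_lit 63) (nat_lit 4) (nat_lit 459) (nat_lit 396) (nat_lit 345)) (XT.lf (nat_lit 0) (nat_lit 2823408970) (nat_lit 152) (nat_lit 2045136892) (nat_lit 76) (nat_lit 18613899378) (nat_lit 60) (nat_lit 5) (nat_lit 62) (nat_lit 5) (nat_lit 61) (nat_lit 5) (nat_lit 460) (nat_lit 396) (nat_lit 344)))) (XT.nd (nat_lit 156) (nat_lit 228) (nat_lit 0) (XT.nd (nat_lit 78) (nat_lit 152) (nat_lit 0) (XT.lf (nat_lit 0) (nat_lit 13654210065) (nat_lit 228) (nat_lit 3526523259) (nat_lit 76) (nat_lit 7105359846) (nat_lit 58) (nat_lit 5) (nat_lit 61) (nat_lit 5) (nat_lit 59) (nat_lit 4) (nat_lit 461) (nat_lit 396) (nat_lit 343))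 (XT.lf (nat_lit 0) (nat_lit 82145104) (nat_lit 152) (nat_lit 5318300616) (nat_lit 76) (nat_lit 19724006146) (nat_lit 56) (nat_lit 5) (nat_lit 58) (nat_lit 5) (nat_lit 57) (nat_lit 5) (nat_lit 462) (nat_lit 396) (nat_lit 342))) (XT.nd (nat_lit 78) (nat_lit 76) (nat_lit 0) (XT.lf (nat_lit 0) (nat_lit 11320415320) (nat_lit 228) (nat_lit 7583844487) (nat_lit 76) (nat_lit 7091061375) (nat_lit 54) (nat_lit 5) (nat_lit 57) (nat_lit 5) (nat_lit 55) (nat_lit 4) (nat_lit 463) (nat_lit 396) (nat_lit 341)) (XT.lf (nat_lit 0) (nat_lit 16657907420) (nat_lit 76) (nat_lit 6656837986) (nat_lit 152) (nat_lit 3589167403) (nat_lit 53) (nat_lit 5) (nat_lit 54) (nat_lit 5) (nat_lit 55) (nat_lit 4) (nat_lit 464) (nat_lit 396) (nat_lit 340))))))) (XT.nd (nat_lit 1014) (nat_lit 988) (nat_lit 0) (XT.nd (nat_lit 468) (nat_lit 608) (nat_lit 0) (XT.nd (nat_lit 234) (nat_lit 228) (nat_lit 0) (XT.nd (nat_lit 78) (nat_lit 304)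 (nat_lit 0) (XT.lf (nat_lit 0) (nat_lit 8099460398) (nat_lit 228) (nat_lit 13434484861) (nat_lit 76) (nat_lit 6315498946) (nat_lit 50) (nat_lit 5) (nat_lit 53) (nat_lit 5) (nat_lit 51) (nat_lit 4) (nat_lit 465) (nat_lit 396) (nat_lit 339)) (XT.nd (nat_lit 78) (nat_lit 228) (nat_lit 0) (XT.lf (nat_lit 0) (nat_lit 11669453336) (nat_lit 76) (nat_lit 8842781947) (nat_lit 152) (nat_lit 8322535292) (nat_lit 49) (nat_lit 5) (nat_lit 50) (nat_lit 5) (nat_lit 51) (nat_lit 4) (nat_lit 466) (nat_lit 396) (nat_lit 338)) (XT.lf (nat_lit 0) (nat_lit 3799170930) (nat_lit 228) (nat_lit 21472055018) (nat_lit 76) (nat_lit 4591241103) (nat_lit 46) (nat_lit 5) (nat_lit 49) (nat_lit 5) (nat_lit 47) (nat_lit 4) (nat_lit 467) (nat_lit 396) (nat_lit 337)))) (XT.nd (nat_lit 78) (nat_lit 152) (nat_lit 0) (XT.lf (nat_lit 0) (nat_lit 4424865736) (nat_lit 76) (nat_lit 12172183834) (nat_lit 152) (nat_lit 14334762952) (nat_lit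 45) (nat_lit 5) (nat_lit 46) (nat_lit 5) (nat_lit 47) (nat_lit 4) (nat_lit 468) (nat_lit 396) (nat_lit 336)) (XT.nd (nat_lit 78) (nat_lit 152) (nat_lit 0) (XT.lf (nat_lit 0) (nat_lit 30205107440) (nat_lit 152) (nat_lit 130543260) (nat_lit 0) (nat_lit 1713868397) (nat_lit 45) (nat_lit 5) (nat_lit 47) (nat_lit 4) (nat_lit 45) (nat_lit 4) (nat_lit 469) (nat_lit 396) (nat_lit 335)) (XT.lf (nat_lit 0) (nat_lit 11379529754) (nat_lit 152) (nat_lit 5463684367) (nat_lit 76) (nat_lit 16366778941) (nat_lit 43) (nat_lit 5) (nat_lit 45) (nat_lit 5) (nat_lit 44) (nat_lit 4) (nat_lit 470) (nat_lit 396) (nat_lit 334))))) (XT.nd (nat_lit 234) (nat_lit 304) (nat_lit 0) (XT.nd (nat_lit 78) (nat_lit 228) (nat_lit 0) (XT.lf (nat_lit 0) (nat_lit 22897481595) (nat_lit 76) (nat_lit 2487262790) (nat_lit 152) (nat_lit 9038453956) (nat_lit 42) (nat_lit 5) (nat_lit 43) (nat_lit 5) (nat_lit 44) (nat_lit 4) (nat_lit 471) (nat_lit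 396) (nat_lit 333)) (XT.nd (nat_lit 78) (nat_lit 76) (nat_lit 0) (XT.lf (nat_lit 0) (nat_lit 4590982811) (nat_lit 152) (nat_lit 18544055907) (nat_lit 76) (nat_lit 12552253623) (nat_lit 40) (nat_lit 5) (nat_lit 42) (nat_lit 5) (nat_lit 41) (nat_lit 4) (nat_lit 472) (nat_lit 396) (nat_lit 332)) (XT.lf (nat_lit 0) (nat_lit 10444181177) (nat_lit 76) (nat_lit 8456835565) (nat_lit 152) (nat_lit 18105309830) (nat_lit 39) (nat_lit 5) (nat_lit 40) (nat_lit 5) (nat_lit 41) (nat_lit 4) (nat_lit 473) (nat_lit 396) (nat_lit 331)))) (XT.nd (nat_lit 156) (nat_lit 152) (nat_lit 0) (XT.nd (nat_lit 78) (nat_lit 76) (nat_lit 0) (XT.lf (nat_lit 0) (nat_lit 2753284989) (nat_lit 76) (nat_lit 31399649768) (nat_lit 76) (nat_lit 4231588051) (nat_lit 38) (nat_lit 4) (nat_lit 39) (nat_lit 5) (nat_lit 39) (nat_lit 4) (nat_lit 474) (nat_lit 396) (nat_lit 330)) (XT.lf (nat_lit 0) (nat_lit 10437092378) (nat_lit 152) (nat_lit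 6034597530) (nat_lit 76) (nat_lit 23347871103) (nat_lit 37) (nat_lit 5) (nat_lit 39) (nat_lit 5) (nat_lit 38) (nat_lit 4) (nat_lit 475) (nat_lit 396) (nat_lit 329))) (XT.nd (nat_lit 78) (nat_lit 76) (nat_lit 0) (XT.lf (nat_lit 0) (nat_lit 25386633835) (nat_lit 76) (nat_lit 554153721) (nat_lit 152) (nat_lit 15378635320) (nat_lit 36) (nat_lit 5) (nat_lit 37) (nat_lit 5) (nat_lit 38) (nat_lit 4) (nat_lit 476) (nat_lit 396) (nat_lit 328)) (XT.lf (nat_lit 0) (nat_lit 15656220633) (nat_lit 76) (nat_lit 26877423256) (nat_lit 76) (nat_lit 351216136) (nat_lit 35) (nat_lit 4) (nat_lit 36) (nat_lit 5) (nat_lit 36) (nat_lit 4) (nat_lit 477) (nat_lit 396) (nat_lit 327)))))) (XT.nd (nat_lit 468) (nat_lit 456) (nat_lit 0) (XT.nd (nat_lit 234) (nat_lit 228) (nat_lit 0) (XT.nd (nat_lit 78) (nat_lit 152) (nat_lit 0) (XT.lf (nat_lit 0) (nat_lit 4461537168) (nat_lit 76) (nat_lit 10825602283) (nat_lit 152) (nat_lit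 29232163580) (nat_lit 33) (nat_lit 5) (nat_lit 34) (nat_lit 5) (nat_lit 35) (nat_lit 4) (nat_lit 478) (nat_lit 396) (nat_lit 326)) (XT.nd (nat_lit 78) (nat_lit 152) (nat_lit 0) (XT.lf (nat_lit 0) (nat_lit 31988839267) (nat_lit 152) (nat_lit 8088205324) (nat_lit 0) (nat_lit 6149659873) (nat_lit 33) (nat_lit 5) (nat_lit 35) (nat_lit 4) (nat_lit 33) (nat_lit 4) (nat_lit 479) (nat_lit 396) (nat_lit 325)) (XT.lf (nat_lit 0) (nat_lit 1786935941) (nat_lit 152) (nat_lit 22251457968) (nat_lit 76) (nat_lit 23971343578) (nat_lit 31) (nat_lit 5) (nat_lit 33) (nat_lit 5) (nat_lit 32) (nat_lit 4) (nat_lit 480) (nat_lit 396) (nat_lit 324)))) (XT.nd (nat_lit 78) (nat_lit 152) (nat_lit 0) (XT.lf (nat_lit 0) (nat_lit 11572555417) (nat_lit 76) (nat_lit 6895108927) (nat_lit 152) (nat_lit 31405555454) (nat_lit 30) (nat_lit 5) (nat_lit 31) (nat_lit 5) (nat_lit 32) (nat_lit 4) (nat_lit 481) (nat_lit 396) (nat_lit 323))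 (XT.nd (nat_lit 78) (nat_lit 152) (nat_lit 0) (XT.lf (nat_lit 0) (nat_lit 36272594468) (nat_lit 152) (nat_lit 4472940090) (nat_lit 0) (nat_lit 11075637800) (nat_lit 30) (nat_lit 5) (nat_lit 32) (nat_lit 4) (nat_lit 30) (nat_lit 4) (nat_lit 482) (nat_lit 396) (nat_lit 322)) (XT.lf (nat_lit 0) (nat_lit 1409773430) (nat_lit 152) (nat_lit 22368461184) (nat_lit 76) (nat_lit 30078070940) (nat_lit 28) (nat_lit 5) (nat_lit 30) (nat_lit 5) (nat_lit 29) (nat_lit 4) (nat_lit 483) (nat_lit 396) (nat_lit 321))))) (XT.nd (nat_lit 234) (nat_lit 304) (nat_lit 0) (XT.nd (nat_lit 78) (nat_lit 76) (nat_lit 0) (XT.lf (nat_lit 0) (nat_lit 13364167873) (nat_lit 76) (nat_lit 5663529597) (nat_lit 152) (nat_lit 36956883804) (nat_lit 27) (nat_lit 5) (nat_lit 28) (nat_lit 5) (nat_lit 29) (nat_lit 4) (nat_lit 484) (nat_lit 396) (nat_lit 320)) (XT.nd (nat_lit 78) (nat_lit 76) (nat_lit 0) (XT.lf (nat_lit 0) (nat_lit 37843637360)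 (nat_lit 152) (nat_lit 7078116894) (nat_lit 0) (nat_lit 13288003855) (nat_lit 27) (nat_lit 5) (nat_lit 29) (nat_lit 4) (nat_lit 27) (nat_lit 4) (nat_lit 485) (nat_lit 396) (nat_lit 319)) (XT.lf (nat_lit 0) (nat_lit 30701375170) (nat_lit 76) (nat_lit 27209550891) (nat_lit 76) (nat_lit 2625952043) (nat_lit 26) (nat_lit 4) (nat_lit 27) (nat_lit 5) (nat_lit 27) (nat_lit 4) (nat_lit 486) (nat_lit 396) (nat_lit 318)))) (XT.nd (nat_lit 156) (nat_lit 152) (nat_lit 0) (XT.nd (nat_lit 78) (nat_lit 0) (nat_lit 0) (XT.lf (nat_lit 0) (nat_lit 7450109857) (nat_lit 76) (nat_lit 8343162243) (nat_lit 152) (nat_lit 47179339742) (nat_lit 24) (nat_lit 5) (nat_lit 25) (nat_lit 5) (nat_lit 26) (nat_lit 4) (nat_lit 487) (nat_lit 396) (nat_lit 317)) (XT.lf (nat_lit 0) (nat_lit 35459967233) (nat_lit 152) (nat_lit 18516050240) (nat_lit 0) (nat_lit 11541911022) (nat_lit 24) (nat_lit 5) (nat_lit 26) (nat_lit 4) (nat_lit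 24) (nat_lit 4) (nat_lit 488) (nat_lit 396) (nat_lit 316))) (XT.nd (nat_lit 78) (nat_lit 76) (nat_lit 0) (XT.lf (nat_lit 0) (nat_lit 20583078134) (nat_lit 76) (nat_lit 35770813428) (nat_lit 76) (nat_lit 11829303319) (nat_lit 23) (nat_lit 4) (nat_lit 24) (nat_lit 5) (nat_lit 24) (nat_lit 4) (nat_lit 489) (nat_lit 396) (nat_lit 315)) (XT.lf (nat_lit 0) (nat_lit 7323198127) (nat_lit 152) (nat_lit 9097754954) (nat_lit 76) (nat_lit 54554011795) (nat_lit 22) (nat_lit 5) (nat_lit 24) (nat_lit 5) (nat_lit 23) (nat_lit 4) (nat_lit 490) (nat_lit 396) (nat_lit 314))))))))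
noncomputable def xc42 : XT := (XT.nd (nat_lit 57174) (nat_lit 0) (nat_lit 5472) (XT.nd (nat_lit 56160) (nat_lit 0) (nat_lit 15580) (XT.nd (nat_lit 468) (nat_lit 152) (nat_lit 0) (XT.nd (nat_lit 234) (nat_lit 152) (nat_lit 0) (XT.nd (nat_lit 78) (nat_lit 76) (nat_lit 0) (XT.lf (nat_lit 0) (nat_lit 27501932779) (nat_lit 152) (nat_lit 42176071904) (nat_lit 0) (nat_lit 4215407992) (nat_lit 21) (nat_lit 5) (nat_lit 23) (nat_lit 4) (nat_lit 21) (nat_lit 4) (nat_lit 491) (nat_lit 396) (nat_lit 313)) (XT.nd (nat_lit 78) (nat_lit 76) (nat_lit 0) (XT.lf (nat_lit 0) (nat_lit 48915003713) (nat_lit 152) (nat_lit 2427209102) (nat_lit 0) (nat_lit 25608808675) (nat_lit 21) (nat_lit 5) (nat_lit 23) (nat_lit 4) (nat_lit 21) (nat_lit 4) (nat_lit 492) (nat_lit 396) (nat_lit 312)) (XT.lf (nat_lit 0) (nat_lit 40024523721) (nat_lit 76) (nat_lit 31725685890) (nat_lit 76) (nat_lit 8400757280) (nat_lit 20) (nat_lit 4)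 (nat_lit 21) (nat_lit 5) (nat_lit 21) (nat_lit 4) (nat_lit 493) (nat_lit 396) (nat_lit 311)))) (XT.nd (nat_lit 78) (nat_lit 0) (nat_lit 0) (XT.lf (nat_lit 0) (nat_lit 976415563) (nat_lit 76) (nat_lit 11003478855) (nat_lit 152) (nat_lit 71527432429) (nat_lit 18) (nat_lit 5) (nat_lit 19) (nat_lit 5) (nat_lit 20) (nat_lit 4) (nat_lit 494) (nat_lit 396) (nat_lit 310)) (XT.nd (nat_lit 78) (nat_lit 0) (nat_lit 0) (XT.lf (nat_lit 0) (nat_lit 33696038749) (nat_lit 152) (nat_lit 42301607118) (nat_lit 0) (nat_lit 11016658157) (nat_lit 18) (nat_lit 5) (nat_lit 20) (nat_lit 4) (nat_lit 18) (nat_lit 4) (nat_lit 495) (nat_lit 396) (nat_lit 309)) (XT.lf (nat_lit 0) (nat_lit 56578619981) (nat_lit 152) (nat_lit 232063712) (nat_lit 0) (nat_lit 33883527968) (nat_lit 18) (nat_lit 5) (nat_lit 20) (nat_lit 4) (nat_lit 18) (nat_lit 4) (nat_lit 496) (nat_lit 396) (nat_lit 308))))) (XT.nd (nat_lit 55458) (nat_lit 0) (nat_lit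 27360) (XT.nd (nat_lit 78) (nat_lit 76) (nat_lit 0) (XT.lf (nat_lit 0) (nat_lit 44757027496) (nat_lit 76) (nat_lit 36249552712) (nat_lit 76) (nat_lit 13539497440) (nat_lit 17) (nat_lit 4) (nat_lit 18) (nat_lit 5) (nat_lit 18) (nat_lit 4) (nat_lit 497) (nat_lit 396) (nat_lit 307)) (XT.nd (nat_lit 55302) (nat_lit 0) (nat_lit 29184) (XT.lf (nat_lit 0) (nat_lit 7882013087) (nat_lit 152) (nat_lit 6723819427) (nat_lit 76) (nat_lit 83983159068) (nat_lit 16) (nat_lit 5) (nat_lit 18) (nat_lit 5) (nat_lit 17) (nat_lit 4) (nat_lit 498) (nat_lit 396) (nat_lit 306)) (XT.lf (nat_lit 0) (nat_lit 1325630786) (nat_lit 380) (nat_lit 973843221) (nat_lit 380) (nat_lit 973843221) (nat_lit 400) (nat_lit 4) (nat_lit 405) (nat_lit 5) (nat_lit 405) (nat_lit 4) (nat_lit 406) (nat_lit 397) (nat_lit 397)))) (XT.nd (nat_lit 78) (nat_lit 1292) (nat_lit 0) (XT.lf (nat_lit 0) (nat_lit 2641598955) (nat_lit 456) (nat_lit 679807145)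 (nat_lit 532) (nat_lit 3264179118) (nat_lit 393) (nat_lit 5) (nat_lit 399) (nat_lit 5) (nat_lit 400) (nat_lit 4) (nat_lit 407) (nat_lit 397) (nat_lit 396)) (XT.nd (nat_lit 78) (nat_lit 684) (nat_lit 0) (XT.lf (nat_lit 0) (nat_lit 1915370534) (nat_lit 608) (nat_lit 3885032794) (nat_lit 76) (nat_lit 831876851) (nat_lit 385) (nat_lit 5) (nat_lit 393) (nat_lit 5) (nat_lit 386) (nat_lit 4) (nat_lit 408) (nat_lit 397) (nat_lit 395)) (XT.lf (nat_lit 0) (nat_lit 377261318) (nat_lit 684) (nat_lit 3719612026) (nat_lit 76) (nat_lit 2589907328) (nat_lit 376) (nat_lit 5) (nat_lit 385) (nat_lit 5) (nat_lit 377) (nat_lit 5) (nat_lit 409) (nat_lit 397) (nat_lit 394)))))) (XT.nd (nat_lit 468) (nat_lit 6232) (nat_lit 0) (XT.nd (nat_lit 234) (nat_lit 3116) (nat_lit 0) (XT.nd (nat_lit 78) (nat_lit 1748) (nat_lit 0) (XT.lf (nat_lit 0) (nat_lit 3295137359) (nat_lit 684) (nat_lit 2123589103) (nat_lit 760) (nat_lit 1330275714)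 (nat_lit 367) (nat_lit 5) (nat_lit 376) (nat_lit 5) (nat_lit 377) (nat_lit 5) (nat_lit 410) (nat_lit 397) (nat_lit 393)) (XT.nd (nat_lit 78) (nat_lit 912) (nat_lit 0) (XT.lf (nat_lit 0) (nat_lit 3623397148) (nat_lit 836) (nat_lit 3080847039) (nat_lit 76) (nat_lit 115014177) (nat_lit 356) (nat_lit 5) (nat_lit 367) (nat_lit 5) (nat_lit 357) (nat_lit 5) (nat_lit 411) (nat_lit 397) (nat_lit 392)) (XT.lf (nat_lit 0) (nat_lit 1701880670) (nat_lit 912) (nat_lit 2618029091) (nat_lit 76) (nat_lit 2577226633) (nat_lit 344) (nat_lit 5) (nat_lit 356) (nat_lit 5) (nat_lit 345) (nat_lit 5) (nat_lit 412) (nat_lit 397) (nat_lit 391)))) (XT.nd (nat_lit 78) (nat_lit 2204) (nat_lit 0) (XT.lf (nat_lit 0) (nat_lit 4935609874) (nat_lit 912) (nat_lit 1667993354) (nat_lit 988) (nat_lit 379682571) (nat_lit 332) (nat_lit 5) (nat_lit 344) (nat_lit 5) (nat_lit 345) (nat_lit 5) (nat_lit 413) (nat_lit 397) (nat_lit 390)) (XT.nd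 (nat_lit 78) (nat_lit 1140) (nat_lit 0) (XT.lf (nat_lit 0) (nat_lit 4432284158) (nat_lit 1064) (nat_lit 1395340111) (nat_lit 76) (nat_lit 1249439744) (nat_lit 318) (nat_lit 5) (nat_lit 332) (nat_lit 5) (nat_lit 319) (nat_lit 5) (nat_lit 414) (nat_lit 397) (nat_lit 389)) (XT.lf (nat_lit 0) (nat_lit 2119033692) (nat_lit 1140) (nat_lit 649283026) (nat_lit 76) (nat_lit 4410637352) (nat_lit 303) (nat_lit 5) (nat_lit 318) (nat_lit 5) (nat_lit 304) (nat_lit 5) (nat_lit 415) (nat_lit 397) (nat_lit 388))))) (XT.nd (nat_lit 234) (nat_lit 2356) (nat_lit 0) (XT.nd (nat_lit 78) (nat_lit 1520) (nat_lit 0) (XT.lf (nat_lit 0) (nat_lit 203255844) (nat_lit 1216) (nat_lit 6727112934) (nat_lit 1292) (nat_lit 358930505) (nat_lit 272) (nat_lit 5) (nat_lit 288) (nat_lit 5) (nat_lit 289) (nat_lit 5) (nat_lit 416) (nat_lit 397) (nat_lit 387)) (XT.nd (nat_lit 78) (nat_lit 684) (nat_lit 0) (XT.lf (nat_lit 0) (nat_lit 1131507934)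 (nat_lit 760) (nat_lit 3257533304) (nat_lit 836) (nat_lit 3017825173) (nat_lit 261) (nat_lit 5) (nat_lit 271) (nat_lit 5) (nat_lit 272) (nat_lit 5) (nat_lit 417) (nat_lit 397) (nat_lit 386)) (XT.lf (nat_lit 0) (nat_lit 1680817594) (nat_lit 684) (nat_lit 5364898705) (nat_lit 76) (nat_lit 487620360) (nat_lit 252) (nat_lit 5) (nat_lit 261) (nat_lit 5) (nat_lit 253) (nat_lit 5) (nat_lit 418) (nat_lit 397) (nat_lit 385)))) (XT.nd (nat_lit 156) (nat_lit 1140) (nat_lit 0) (XT.nd (nat_lit 78) (nat_lit 608) (nat_lit 0) (XT.lf (nat_lit 0) (nat_lit 3274520874) (nat_lit 608) (nat_lit 3196380615) (nat_lit 684) (nat_lit 1196819514) (nat_lit 244) (nat_lit 5) (nat_lit 252) (nat_lit 5) (nat_lit 253) (nat_lit 5) (nat_lit 419) (nat_lit 397) (nat_lit 384)) (XT.lf (nat_lit 0) (nat_lit 3522343584) (nat_lit 608) (nat_lit 3342486352) (nat_lit 76) (nat_lit 945899064) (nat_lit 236) (nat_lit 5) (nat_lit 244) (nat_lit 5)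 (nat_lit 237) (nat_lit 5) (nat_lit 420) (nat_lit 397) (nat_lit 383))) (XT.nd (nat_lit 78) (nat_lit 532) (nat_lit 0) (XT.lf (nat_lit 0) (nat_lit 417429947) (nat_lit 608) (nat_lit 2217942506) (nat_lit 76) (nat_lit 5327018630) (nat_lit 228) (nat_lit 5) (nat_lit 236) (nat_lit 5) (nat_lit 229) (nat_lit 5) (nat_lit 421) (nat_lit 397) (nat_lit 382)) (XT.lf (nat_lit 0) (nat_lit 5199799996) (nat_lit 608) (nat_lit 1032741179) (nat_lit 76) (nat_lit 1889967176) (nat_lit 221) (nat_lit 5) (nat_lit 229) (nat_lit 5) (nat_lit 222) (nat_lit 5) (nat_lit 422) (nat_lit 397) (nat_lit 381))))))) (XT.nd (nat_lit 1014) (nat_lit 3800) (nat_lit 0) (XT.nd (nat_lit 468) (nat_lit 2888) (nat_lit 0) (XT.nd (nat_lit 234) (nat_lit 1368) (nat_lit 0) (XT.nd (nat_lit 78) (nat_lit 988) (nat_lit 0) (XT.lf (nat_lit 0) (nat_lit 233099102) (nat_lit 456) (nat_lit 1607621487) (nat_lit 532) (nat_lit 6450963141) (nat_lit 207) (nat_lit 5)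 (nat_lit 213) (nat_lit 5) (nat_lit 214) (nat_lit 5) (nat_lit 423) (nat_lit 397) (nat_lit 380)) (XT.nd (nat_lit 78) (nat_lit 532) (nat_lit 0) (XT.lf (nat_lit 0) (nat_lit 1580321721) (nat_lit 456) (nat_lit 5171571133) (nat_lit 532) (nat_lit 1717495529) (nat_lit 201) (nat_lit 5) (nat_lit 207) (nat_lit 5) (nat_lit 208) (nat_lit 5) (nat_lit 424) (nat_lit 397) (nat_lit 379)) (XT.lf (nat_lit 0) (nat_lit 3002278885) (nat_lit 456) (nat_lit 137379392) (nat_lit 532) (nat_lit 5516903713) (nat_lit 194) (nat_lit 5) (nat_lit 200) (nat_lit 5) (nat_lit 201) (nat_lit 5) (nat_lit 425) (nat_lit 397) (nat_lit 378)))) (XT.nd (nat_lit 78) (nat_lit 912) (nat_lit 0) (XT.lf (nat_lit 0) (nat_lit 4478643995) (nat_lit 456) (nat_lit 3717580145) (nat_lit 532) (nat_lit 656632245) (nat_lit 188) (nat_lit 5) (nat_lit 194) (nat_lit 5) (nat_lit 195) (nat_lit 5) (nat_lit 426) (nat_lit 397) (nat_lit 377)) (XT.nd (nat_lit 78) (nat_lit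 456) (nat_lit 0) (XT.lf (nat_lit 0) (nat_lit 4326639894) (nat_lit 456) (nat_lit 3043006556) (nat_lit 76) (nat_lit 1689065911) (nat_lit 182) (nat_lit 5) (nat_lit 188) (nat_lit 5) (nat_lit 183) (nat_lit 5) (nat_lit 427) (nat_lit 397) (nat_lit 376)) (XT.lf (nat_lit 0) (nat_lit 259417068) (nat_lit 456) (nat_lit 1647632476) (nat_lit 76) (nat_lit 7367751770) (nat_lit 176) (nat_lit 5) (nat_lit 182) (nat_lit 5) (nat_lit 177) (nat_lit 5) (nat_lit 428) (nat_lit 397) (nat_lit 375))))) (XT.nd (nat_lit 234) (nat_lit 1368) (nat_lit 0) (XT.nd (nat_lit 78) (nat_lit 1140) (nat_lit 0) (XT.lf (nat_lit 0) (nat_lit 5404240765) (nat_lit 456) (nat_lit 226462994) (nat_lit 76) (nat_lit 3869564694) (nat_lit 171) (nat_lit 5) (nat_lit 177) (nat_lit 5) (nat_lit 172) (nat_lit 5) (nat_lit 429) (nat_lit 397) (nat_lit 374)) (XT.nd (nat_lit 78) (nat_lit 380) (nat_lit 0) (XT.lf (nat_lit 0) (nat_lit 1052165852) (nat_lit 380) (nat_lit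 8438732511) (nat_lit 76) (nat_lit 245716148) (nat_lit 161) (nat_lit 5) (nat_lit 166) (nat_lit 5) (nat_lit 162) (nat_lit 5) (nat_lit 430) (nat_lit 397) (nat_lit 373)) (XT.lf (nat_lit 0) (nat_lit 2838916441) (nat_lit 380) (nat_lit 3570405633) (nat_lit 456) (nat_lit 3573175939) (nat_lit 156) (nat_lit 5) (nat_lit 161) (nat_lit 5) (nat_lit 162) (nat_lit 5) (nat_lit 431) (nat_lit 397) (nat_lit 372)))) (XT.nd (nat_lit 156) (nat_lit 684) (nat_lit 0) (XT.nd (nat_lit 78) (nat_lit 304) (nat_lit 0) (XT.lf (nat_lit 0) (nat_lit 1767212618) (nat_lit 380) (nat_lit 5793256789) (nat_lit 76) (nat_lit 2679455313) (nat_lit 151) (nat_lit 5) (nat_lit 156) (nat_lit 5) (nat_lit 152) (nat_lit 5) (nat_lit 432) (nat_lit 397) (nat_lit 371)) (XT.lf (nat_lit 0) (nat_lit 6091983590) (nat_lit 304) (nat_lit 1234284634) (nat_lit 380) (nat_lit 3182148592) (nat_lit 147) (nat_lit 5) (nat_lit 151) (nat_lit 5) (nat_lit 152) (nat_lit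 5) (nat_lit 433) (nat_lit 397) (nat_lit 370))) (XT.nd (nat_lit 78) (nat_lit 304) (nat_lit 0) (XT.lf (nat_lit 0) (nat_lit 2374462330) (nat_lit 380) (nat_lit 3017932140) (nat_lit 76) (nat_lit 5395840166) (nat_lit 142) (nat_lit 5) (nat_lit 147) (nat_lit 5) (nat_lit 143) (nat_lit 5) (nat_lit 434) (nat_lit 397) (nat_lit 369)) (XT.lf (nat_lit 0) (nat_lit 8170129090) (nat_lit 380) (nat_lit 1581119091) (nat_lit 76) (nat_lit 1329058045) (nat_lit 138) (nat_lit 5) (nat_lit 143) (nat_lit 5) (nat_lit 139) (nat_lit 5) (nat_lit 435) (nat_lit 397) (nat_lit 368)))))) (XT.nd (nat_lit 468) (nat_lit 1824) (nat_lit 0) (XT.nd (nat_lit 234) (nat_lit 760) (nat_lit 0) (XT.nd (nat_lit 78) (nat_lit 912) (nat_lit 0) (XT.lf (nat_lit 0) (nat_lit 2874957383) (nat_lit 304) (nat_lit 132142462) (nat_lit 76) (nat_lit 8377201960) (nat_lit 134) (nat_lit 5) (nat_lit 138) (nat_lit 5) (nat_lit 135) (nat_lit 5) (nat_lit 436) (nat_lit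 397) (nat_lit 367)) (XT.nd (nat_lit 78) (nat_lit 380) (nat_lit 0) (XT.lf (nat_lit 0) (nat_lit 1366982581) (nat_lit 228) (nat_lit 7588883200) (nat_lit 304) (nat_lit 2744782742) (nat_lit 127) (nat_lit 5) (nat_lit 130) (nat_lit 5) (nat_lit 131) (nat_lit 5) (nat_lit 437) (nat_lit 397) (nat_lit 366)) (XT.lf (nat_lit 0) (nat_lit 2898054601) (nat_lit 304) (nat_lit 395784977) (nat_lit 380) (nat_lit 8736523150) (nat_lit 122) (nat_lit 5) (nat_lit 126) (nat_lit 5) (nat_lit 127) (nat_lit 5) (nat_lit 438) (nat_lit 397) (nat_lit 365)))) (XT.nd (nat_lit 78) (nat_lit 532) (nat_lit 0) (XT.lf (nat_lit 0) (nat_lit 4421424507) (nat_lit 228) (nat_lit 5250021850) (nat_lit 304) (nat_lit 2701501291) (nat_lit 119) (nat_lit 5) (nat_lit 122) (nat_lit 5) (nat_lit 123) (nat_lit 5) (nat_lit 439) (nat_lit 397) (nat_lit 364)) (XT.nd (nat_lit 78) (nat_lit 228) (nat_lit 0) (XT.lf (nat_lit 0) (nat_lit 3621339587) (nat_lit 304)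 (nat_lit 6760628050) (nat_lit 76) (nat_lit 2347949443) (nat_lit 115) (nat_lit 5) (nat_lit 119) (nat_lit 5) (nat_lit 116) (nat_lit 5) (nat_lit 440) (nat_lit 397) (nat_lit 363)) (XT.lf (nat_lit 0) (nat_lit 7520607340) (nat_lit 228) (nat_lit 2773033088) (nat_lit 304) (nat_lit 2807629555) (nat_lit 112) (nat_lit 5) (nat_lit 115) (nat_lit 5) (nat_lit 116) (nat_lit 5) (nat_lit 441) (nat_lit 397) (nat_lit 362))))) (XT.nd (nat_lit 234) (nat_lit 1064) (nat_lit 0) (XT.nd (nat_lit 78) (nat_lit 456) (nat_lit 0) (XT.lf (nat_lit 0) (nat_lit 3826742558) (nat_lit 304) (nat_lit 4423370290) (nat_lit 76) (nat_lit 5237210796) (nat_lit 108) (nat_lit 5) (nat_lit 112) (nat_lit 5) (nat_lit 109) (nat_lit 5) (nat_lit 442) (nat_lit 397) (nat_lit 361)) (XT.nd (nat_lit 78) (nat_lit 304) (nat_lit 0) (XT.lf (nat_lit 0) (nat_lit 10627921268) (nat_lit 152) (nat_lit 182032614) (nat_lit 228) (nat_lit 3079648090) (nat_lit 106) (nat_lit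 5) (nat_lit 108) (nat_lit 5) (nat_lit 109) (nat_lit 5) (nat_lit 443) (nat_lit 397) (nat_lit 360)) (XT.lf (nat_lit 0) (nat_lit 3889095874) (nat_lit 304) (nat_lit 2161158319) (nat_lit 76) (nat_lit 8256640869) (nat_lit 102) (nat_lit 5) (nat_lit 106) (nat_lit 5) (nat_lit 103) (nat_lit 5) (nat_lit 444) (nat_lit 397) (nat_lit 359)))) (XT.nd (nat_lit 156) (nat_lit 608) (nat_lit 0) (XT.nd (nat_lit 78) (nat_lit 304) (nat_lit 0) (XT.lf (nat_lit 0) (nat_lit 11226466086) (nat_lit 228) (nat_lit 1067690009) (nat_lit 76) (nat_lit 2447475696) (nat_lit 100) (nat_lit 5) (nat_lit 103) (nat_lit 5) (nat_lit 101) (nat_lit 5) (nat_lit 445) (nat_lit 397) (nat_lit 358)) (XT.lf (nat_lit 0) (nat_lit 3785270861) (nat_lit 304) (nat_lit 27824970) (nat_lit 76) (nat_lit 11380177283) (nat_lit 96) (nat_lit 5) (nat_lit 100) (nat_lit 5) (nat_lit 97) (nat_lit 5) (nat_lit 446) (nat_lit 397) (nat_lit 357))) (XT.nd (nat_lit 78) (nat_lit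 228) (nat_lit 0) (XT.lf (nat_lit 0) (nat_lit 982615070) (nat_lit 228) (nat_lit 10524162664) (nat_lit 304) (nat_lit 4155821180) (nat_lit 91) (nat_lit 5) (nat_lit 94) (nat_lit 5) (nat_lit 95) (nat_lit 5) (nat_lit 447) (nat_lit 397) (nat_lit 356)) (XT.lf (nat_lit 0) (nat_lit 1949357095) (nat_lit 152) (nat_lit 1554629130) (nat_lit 228) (nat_lit 12647040133) (nat_lit 88) (nat_lit 5) (nat_lit 90) (nat_lit 5) (nat_lit 91) (nat_lit 5) (nat_lit 448) (nat_lit 397) (nat_lit 355))))))))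
noncomputable def xc43 : XT := (XT.nd (nat_lit 1950) (nat_lit 1748) (nat_lit 0) (XT.nd (nat_lit 936) (nat_lit 1596) (nat_lit 0) (XT.nd (nat_lit 468) (nat_lit 912) (nat_lit 0) (XT.nd (nat_lit 234) (nat_lit 608) (nat_lit 0) (XT.nd (nat_lit 78) (nat_lit 380) (nat_lit 0) (XT.lf (nat_lit 0) (nat_lit 2816490334) (nat_lit 152) (nat_lit 8799689722) (nat_lit 228) (nat_lit 5041808249) (nat_lit 86) (nat_lit 5) (nat_lit 88) (nat_lit 5) (nat_lit 89) (nat_lit 5) (nat_lit 449) (nat_lit 397) (nat_lit 354)) (XT.nd (nat_lit 78) (nat_lit 152) (nat_lit 0) (XT.lf (nat_lit 0) (nat_lit 2992450803) (nat_lit 228) (nat_lit 13544578970) (nat_lit 76) (nat_lit 649240741) (nat_lit 83) (nat_lit 5) (nat_lit 86) (nat_lit 5) (nat_lit 84) (nat_lit 5) (nat_lit 450) (nat_lit 397) (nat_lit 353)) (XT.lf (nat_lit 0) (nat_lit 4323744213) (nat_lit 152) (nat_lit 7179456301) (nat_lit 228) (nat_lit 6230904188) (nat_lit 81) (nat_lit 5) (nat_lit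 83) (nat_lit 5) (nat_lit 84) (nat_lit 5) (nat_lit 451) (nat_lit 397) (nat_lit 352)))) (XT.nd (nat_lit 78) (nat_lit 380) (nat_lit 0) (XT.lf (nat_lit 0) (nat_lit 2209830853) (nat_lit 228) (nat_lit 13362253070) (nat_lit 76) (nat_lit 2733001578) (nat_lit 78) (nat_lit 5) (nat_lit 81) (nat_lit 5) (nat_lit 79) (nat_lit 5) (nat_lit 452) (nat_lit 397) (nat_lit 351)) (XT.nd (nat_lit 78) (nat_lit 228) (nat_lit 0) (XT.lf (nat_lit 0) (nat_lit 5396722908) (nat_lit 152) (nat_lit 5720047198) (nat_lit 228) (nat_lit 7780809614) (nat_lit 76) (nat_lit 5) (nat_lit 78) (nat_lit 5) (nat_lit 79) (nat_lit 5) (nat_lit 453) (nat_lit 397) (nat_lit 350)) (XT.lf (nat_lit 0) (nat_lit 1081277553) (nat_lit 228) (nat_lit 13764486699) (nat_lit 76) (nat_lit 4669152917) (nat_lit 73) (nat_lit 5) (nat_lit 76) (nat_lit 5) (nat_lit 74) (nat_lit 5) (nat_lit 454) (nat_lit 397) (nat_lit 349))))) (XT.nd (nat_lit 234) (nat_lit 380) (nat_lit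 0) (XT.nd (nat_lit 78) (nat_lit 380) (nat_lit 0) (XT.lf (nat_lit 0) (nat_lit 5905389138) (nat_lit 152) (nat_lit 4488627747) (nat_lit 228) (nat_lit 9761744845) (nat_lit 71) (nat_lit 5) (nat_lit 73) (nat_lit 5) (nat_lit 74) (nat_lit 5) (nat_lit 455) (nat_lit 397) (nat_lit 348)) (XT.nd (nat_lit 78) (nat_lit 228) (nat_lit 0) (XT.lf (nat_lit 0) (nat_lit 5917708233) (nat_lit 152) (nat_lit 14430193258) (nat_lit 228) (nat_lit 475486902) (nat_lit 69) (nat_lit 5) (nat_lit 71) (nat_lit 5) (nat_lit 72) (nat_lit 4) (nat_lit 456) (nat_lit 397) (nat_lit 347)) (XT.lf (nat_lit 0) (nat_lit 5693013016) (nat_lit 152) (nat_lit 3565189537) (nat_lit 228) (nat_lit 12258600573) (nat_lit 66) (nat_lit 5) (nat_lit 68) (nat_lit 5) (nat_lit 69) (nat_lit 5) (nat_lit 457) (nat_lit 397) (nat_lit 346)))) (XT.nd (nat_lit 78) (nat_lit 304) (nat_lit 0) (XT.lf (nat_lit 0) (nat_lit 5262289168) (nat_lit 76) (nat_lit 14405321647) (nat_lit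 152) (nat_lit 2571175014) (nat_lit 65) (nat_lit 5) (nat_lit 66) (nat_lit 5) (nat_lit 67) (nat_lit 4) (nat_lit 458) (nat_lit 397) (nat_lit 345)) (XT.nd (nat_lit 78) (nat_lit 76) (nat_lit 0) (XT.lf (nat_lit 0) (nat_lit 4571113564) (nat_lit 152) (nat_lit 3045166778) (nat_lit 228) (nat_lit 15373480422) (nat_lit 62) (nat_lit 5) (nat_lit 64) (nat_lit 5) (nat_lit 65) (nat_lit 5) (nat_lit 459) (nat_lit 397) (nat_lit 344)) (XT.lf (nat_lit 0) (nat_lit 3588547773) (nat_lit 76) (nat_lit 14889598847) (nat_lit 152) (nat_lit 5292831666) (nat_lit 61) (nat_lit 5) (nat_lit 62) (nat_lit 5) (nat_lit 63) (nat_lit 4) (nat_lit 460) (nat_lit 397) (nat_lit 343)))))) (XT.nd (nat_lit 468) (nat_lit 760) (nat_lit 0) (XT.nd (nat_lit 234) (nat_lit 456) (nat_lit 0) (XT.nd (nat_lit 78) (nat_lit 152) (nat_lit 0) (XT.lf (nat_lit 0) (nat_lit 2313519466) (nat_lit 152) (nat_lit 3042490952) (nat_lit 228) (nat_lit 19228701163) (nat_lit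 58) (nat_lit 5) (nat_lit 60) (nat_lit 5) (nat_lit 61) (nat_lit 5) (nat_lit 461) (nat_lit 397) (nat_lit 342)) (XT.nd (nat_lit 78) (nat_lit 76) (nat_lit 0) (XT.lf (nat_lit 0) (nat_lit 648895225) (nat_lit 76) (nat_lit 16011010972) (nat_lit 152) (nat_lit 8770694454) (nat_lit 57) (nat_lit 5) (nat_lit 58) (nat_lit 5) (nat_lit 59) (nat_lit 4) (nat_lit 462) (nat_lit 397) (nat_lit 341)) (XT.lf (nat_lit 0) (nat_lit 2355540808) (nat_lit 152) (nat_lit 1324249418) (nat_lit 76) (nat_lit 22632706080) (nat_lit 56) (nat_lit 5) (nat_lit 58) (nat_lit 5) (nat_lit 57) (nat_lit 5) (nat_lit 463) (nat_lit 397) (nat_lit 340)))) (XT.nd (nat_lit 78) (nat_lit 304) (nat_lit 0) (XT.lf (nat_lit 0) (nat_lit 14106056986) (nat_lit 228) (nat_lit 3777674928) (nat_lit 76) (nat_lit 9344671939) (nat_lit 54) (nat_lit 5) (nat_lit 57) (nat_lit 5) (nat_lit 55) (nat_lit 4) (nat_lit 464) (nat_lit 397) (nat_lit 339)) (XT.nd (nat_lit 78) (nat_lit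 228) (nat_lit 0) (XT.lf (nat_lit 0) (nat_lit 21556192020) (nat_lit 76) (nat_lit 5077294332) (nat_lit 152) (nat_lit 1550941738) (nat_lit 53) (nat_lit 5) (nat_lit 54) (nat_lit 5) (nat_lit 55) (nat_lit 4) (nat_lit 465) (nat_lit 397) (nat_lit 338)) (XT.lf (nat_lit 0) (nat_lit 10631751350) (nat_lit 228) (nat_lit 10069961960) (nat_lit 76) (nat_lit 8476300119) (nat_lit 50) (nat_lit 5) (nat_lit 53) (nat_lit 5) (nat_lit 51) (nat_lit 4) (nat_lit 466) (nat_lit 397) (nat_lit 337))))) (XT.nd (nat_lit 234) (nat_lit 380) (nat_lit 0) (XT.nd (nat_lit 78) (nat_lit 304) (nat_lit 0) (XT.lf (nat_lit 0) (nat_lit 16173474934) (nat_lit 76) (nat_lit 7428075907) (nat_lit 152) (nat_lit 6612967675) (nat_lit 49) (nat_lit 5) (nat_lit 50) (nat_lit 5) (nat_lit 51) (nat_lit 4) (nat_lit 467) (nat_lit 397) (nat_lit 336)) (XT.nd (nat_lit 78) (nat_lit 76) (nat_lit 0) (XT.lf (nat_lit 0) (nat_lit 6028648184) (nat_lit 228) (nat_lit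 18653950529) (nat_lit 76) (nat_lit 6611732644) (nat_lit 46) (nat_lit 5) (nat_lit 49) (nat_lit 5) (nat_lit 47) (nat_lit 4) (nat_lit 468) (nat_lit 397) (nat_lit 335)) (XT.lf (nat_lit 0) (nat_lit 8426261256) (nat_lit 76) (nat_lit 10979376698) (nat_lit 152) (nat_lit 13013333131) (nat_lit 45) (nat_lit 5) (nat_lit 46) (nat_lit 5) (nat_lit 47) (nat_lit 4) (nat_lit 469) (nat_lit 397) (nat_lit 334)))) (XT.nd (nat_lit 156) (nat_lit 228) (nat_lit 0) (XT.nd (nat_lit 78) (nat_lit 0) (nat_lit 0) (XT.lf (nat_lit 0) (nat_lit 55732698) (nat_lit 152) (nat_lit 30021509344) (nat_lit 76) (nat_lit 3516609553) (nat_lit 43) (nat_lit 5) (nat_lit 45) (nat_lit 5) (nat_lit 44) (nat_lit 4) (nat_lit 470) (nat_lit 397) (nat_lit 333)) (XT.lf (nat_lit 0) (nat_lit 13811298053) (nat_lit 152) (nat_lit 2163825710) (nat_lit 76) (nat_lit 18839423566) (nat_lit 43) (nat_lit 5) (nat_lit 45) (nat_lit 5) (nat_lit 44) (nat_lit 4) (nat_lit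 471) (nat_lit 397) (nat_lit 332))) (XT.nd (nat_lit 78) (nat_lit 152) (nat_lit 0) (XT.lf (nat_lit 0) (nat_lit 27512977993) (nat_lit 76) (nat_lit 948452796) (nat_lit 152) (nat_lit 7628645297) (nat_lit 42) (nat_lit 5) (nat_lit 43) (nat_lit 5) (nat_lit 44) (nat_lit 4) (nat_lit 472) (nat_lit 397) (nat_lit 331)) (XT.lf (nat_lit 0) (nat_lit 6607474574) (nat_lit 152) (nat_lit 16027306118) (nat_lit 76) (nat_lit 14783213714) (nat_lit 40) (nat_lit 5) (nat_lit 42) (nat_lit 5) (nat_lit 41) (nat_lit 4) (nat_lit 473) (nat_lit 397) (nat_lit 330))))))) (XT.nd (nat_lit 1014) (nat_lit 760) (nat_lit 0) (XT.nd (nat_lit 468) (nat_lit 456) (nat_lit 0) (XT.nd (nat_lit 234) (nat_lit 304) (nat_lit 0) (XT.nd (nat_lit 78) (nat_lit 152) (nat_lit 0) (XT.lf (nat_lit 0) (nat_lit 14311622611) (nat_lit 76) (nat_lit 7268451505) (nat_lit 152) (nat_lit 17224496900) (nat_lit 39) (nat_lit 5) (nat_lit 40) (nat_lit 5) (nat_lit 41) (nat_lit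 4) (nat_lit 474) (nat_lit 397) (nat_lit 329)) (XT.nd (nat_lit 78) (nat_lit 76) (nat_lit 0) (XT.lf (nat_lit 0) (nat_lit 6175826327) (nat_lit 76) (nat_lit 31382516773) (nat_lit 76) (nat_lit 2694423773) (nat_lit 38) (nat_lit 4) (nat_lit 39) (nat_lit 5) (nat_lit 39) (nat_lit 4) (nat_lit 475) (nat_lit 397) (nat_lit 328)) (XT.lf (nat_lit 0) (nat_lit 12591917847) (nat_lit 152) (nat_lit 3175328197) (nat_lit 76) (nat_lit 25994258375) (nat_lit 37) (nat_lit 5) (nat_lit 39) (nat_lit 5) (nat_lit 38) (nat_lit 4) (nat_lit 476) (nat_lit 397) (nat_lit 327)))) (XT.nd (nat_lit 78) (nat_lit 228) (nat_lit 0) (XT.lf (nat_lit 0) (nat_lit 28831239647) (nat_lit 152) (nat_lit 13620141512) (nat_lit 0) (nat_lit 886167131) (nat_lit 36) (nat_lit 5) (nat_lit 38) (nat_lit 4) (nat_lit 36) (nat_lit 4) (nat_lit 477) (nat_lit 397) (nat_lit 326)) (XT.nd (nat_lit 78) (nat_lit 76) (nat_lit 0) (XT.lf (nat_lit 0) (nat_lit 1205666657)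 (nat_lit 152) (nat_lit 25540568057) (nat_lit 76) (nat_lit 18235917153) (nat_lit 34) (nat_lit 5) (nat_lit 36) (nat_lit 5) (nat_lit 35) (nat_lit 4) (nat_lit 478) (nat_lit 397) (nat_lit 325)) (XT.lf (nat_lit 0) (nat_lit 7643260635) (nat_lit 76) (nat_lit 9929292714) (nat_lit 152) (nat_lit 29127044951) (nat_lit 33) (nat_lit 5) (nat_lit 34) (nat_lit 5) (nat_lit 35) (nat_lit 4) (nat_lit 479) (nat_lit 397) (nat_lit 324))))) (XT.nd (nat_lit 234) (nat_lit 228) (nat_lit 0) (XT.nd (nat_lit 78) (nat_lit 228) (nat_lit 0) (XT.lf (nat_lit 0) (nat_lit 35050067818) (nat_lit 152) (nat_lit 5644522733) (nat_lit 0) (nat_lit 7799559182) (nat_lit 33) (nat_lit 5) (nat_lit 35) (nat_lit 4) (nat_lit 33) (nat_lit 4) (nat_lit 480) (nat_lit 397) (nat_lit 323)) (XT.nd (nat_lit 78) (nat_lit 76) (nat_lit 0) (XT.lf (nat_lit 0) (nat_lit 3309134461) (nat_lit 152) (nat_lit 20569027844) (nat_lit 76) (nat_lit 26489042889) (nat_lit 31)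 (nat_lit 5) (nat_lit 33) (nat_lit 5) (nat_lit 32) (nat_lit 4) (nat_lit 481) (nat_lit 397) (nat_lit 322)) (XT.lf (nat_lit 0) (nat_lit 14866068009) (nat_lit 76) (nat_lit 5915697373) (nat_lit 152) (nat_lit 31543361854) (nat_lit 30) (nat_lit 5) (nat_lit 31) (nat_lit 5) (nat_lit 32) (nat_lit 4) (nat_lit 482) (nat_lit 397) (nat_lit 321)))) (XT.nd (nat_lit 156) (nat_lit 76) (nat_lit 0) (XT.nd (nat_lit 78) (nat_lit 152) (nat_lit 0) (XT.lf (nat_lit 0) (nat_lit 39422839929) (nat_lit 152) (nat_lit 2083339791) (nat_lit 0) (nat_lit 12865922293) (nat_lit 30) (nat_lit 5) (nat_lit 32) (nat_lit 4) (nat_lit 30) (nat_lit 4) (nat_lit 483) (nat_lit 397) (nat_lit 320)) (XT.lf (nat_lit 0) (nat_lit 2790503234) (nat_lit 152) (nat_lit 20922440587) (nat_lit 76) (nat_lit 32796841583) (nat_lit 28) (nat_lit 5) (nat_lit 30) (nat_lit 5) (nat_lit 29) (nat_lit 4) (nat_lit 484) (nat_lit 397) (nat_lit 319))) (XT.nd (nat_lit 78)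 (nat_lit 0) (nat_lit 0) (XT.lf (nat_lit 0) (nat_lit 16523310660) (nat_lit 76) (nat_lit 4727564766) (nat_lit 152) (nat_lit 37494754269) (nat_lit 27) (nat_lit 5) (nat_lit 28) (nat_lit 5) (nat_lit 29) (nat_lit 4) (nat_lit 485) (nat_lit 397) (nat_lit 318)) (XT.lf (nat_lit 0) (nat_lit 40958211814) (nat_lit 152) (nat_lit 5034502829) (nat_lit 0) (nat_lit 15090834021) (nat_lit 27) (nat_lit 5) (nat_lit 29) (nat_lit 4) (nat_lit 27) (nat_lit 4) (nat_lit 486) (nat_lit 397) (nat_lit 317)))))) (XT.nd (nat_lit 468) (nat_lit 304) (nat_lit 0) (XT.nd (nat_lit 234) (nat_lit 228) (nat_lit 0) (XT.nd (nat_lit 78) (nat_lit 152) (nat_lit 0) (XT.lf (nat_lit 0) (nat_lit 34565239411) (nat_lit 76) (nat_lit 27427802175) (nat_lit 76) (nat_lit 1535058992) (nat_lit 26) (nat_lit 4) (nat_lit 27) (nat_lit 5) (nat_lit 27) (nat_lit 4) (nat_lit 487) (nat_lit 397) (nat_lit 316)) (XT.nd (nat_lit 78) (nat_lit 0) (nat_lit 0) (XT.lf (nat_lit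 0) (nat_lit 10107845050) (nat_lit 76) (nat_lit 7638335120) (nat_lit 152) (nat_lit 48340142411) (nat_lit 24) (nat_lit 5) (nat_lit 25) (nat_lit 5) (nat_lit 26) (nat_lit 4) (nat_lit 488) (nat_lit 397) (nat_lit 315)) (XT.lf (nat_lit 0) (nat_lit 38351089093) (nat_lit 152) (nat_lit 17242458138) (nat_lit 0) (nat_lit 13166712536) (nat_lit 24) (nat_lit 5) (nat_lit 26) (nat_lit 4) (nat_lit 24) (nat_lit 4) (nat_lit 489) (nat_lit 397) (nat_lit 314)))) (XT.nd (nat_lit 78) (nat_lit 152) (nat_lit 0) (XT.lf (nat_lit 0) (nat_lit 23748581449) (nat_lit 76) (nat_lit 36508420110) (nat_lit 76) (nat_lit 11302770177) (nat_lit 23) (nat_lit 4) (nat_lit 24) (nat_lit 5) (nat_lit 24) (nat_lit 4) (nat_lit 490) (nat_lit 397) (nat_lit 313)) (XT.nd (nat_lit 78) (nat_lit 76) (nat_lit 0) (XT.lf (nat_lit 0) (nat_lit 8733341018) (nat_lit 152) (nat_lit 7497228023) (nat_lit 76) (nat_lit 58261805704) (nat_lit 22) (nat_lit 5) (nat_lit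 24) (nat_lit 5) (nat_lit 23) (nat_lit 4) (nat_lit 491) (nat_lit 397) (nat_lit 312)) (XT.lf (nat_lit 0) (nat_lit 29899940014) (nat_lit 152) (nat_lit 42267406590) (nat_lit 0) (nat_lit 5390031401) (nat_lit 21) (nat_lit 5) (nat_lit 23) (nat_lit 4) (nat_lit 21) (nat_lit 4) (nat_lit 492) (nat_lit 397) (nat_lit 311))))) (XT.nd (nat_lit 234) (nat_lit 76) (nat_lit 0) (XT.nd (nat_lit 78) (nat_lit 228) (nat_lit 0) (XT.lf (nat_lit 0) (nat_lit 52334954466) (nat_lit 152) (nat_lit 627170596) (nat_lit 0) (nat_lit 27807204356) (nat_lit 21) (nat_lit 5) (nat_lit 23) (nat_lit 4) (nat_lit 21) (nat_lit 4) (nat_lit 493) (nat_lit 397) (nat_lit 310)) (XT.nd (nat_lit 78) (nat_lit 152) (nat_lit 0) (XT.lf (nat_lit 0) (nat_lit 43892072353) (nat_lit 76) (nat_lit 32391398035) (nat_lit 76) (nat_lit 7846656023) (nat_lit 20) (nat_lit 4) (nat_lit 21) (nat_lit 5) (nat_lit 21) (nat_lit 4) (nat_lit 494) (nat_lit 397) (nat_lit 309))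 (XT.lf (nat_lit 0) (nat_lit 2856540489) (nat_lit 76) (nat_lit 10649600035) (nat_lit 152) (nat_lit 74148720038) (nat_lit 18) (nat_lit 5) (nat_lit 19) (nat_lit 5) (nat_lit 20) (nat_lit 4) (nat_lit 495) (nat_lit 397) (nat_lit 308)))) (XT.nd (nat_lit 156) (nat_lit 0) (nat_lit 0) (XT.nd (nat_lit 78) (nat_lit 76) (nat_lit 0) (XT.lf (nat_lit 0) (nat_lit 36272213728) (nat_lit 152) (nat_lit 42654357505) (nat_lit 0) (nat_lit 12411692434) (nat_lit 18) (nat_lit 5) (nat_lit 20) (nat_lit 4) (nat_lit 18) (nat_lit 4) (nat_lit 496) (nat_lit 397) (nat_lit 307)) (XT.lf (nat_lit 0) (nat_lit 1463296786) (nat_lit 76) (nat_lit 58807247004) (nat_lit 76) (nat_lit 34932474987) (nat_lit 17) (nat_lit 4) (nat_lit 18) (nat_lit 5) (nat_lit 18) (nat_lit 4) (nat_lit 497) (nat_lit 397) (nat_lit 306))) (XT.nd (nat_lit 55146) (nat_lit 0) (nat_lit 29868) (XT.lf (nat_lit 0) (nat_lit 48625177094) (nat_lit 76) (nat_lit 37255905174)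 (nat_lit 76) (nat_lit 13367561041) (nat_lit 17) (nat_lit 4) (nat_lit 18) (nat_lit 5) (nat_lit 18) (nat_lit 4) (nat_lit 498) (nat_lit 397) (nat_lit 305)) (XT.lf (nat_lit 0) (nat_lit 1582678059) (nat_lit 228) (nat_lit 830759835) (nat_lit 228) (nat_lit 830759835) (nat_lit 410) (nat_lit 4) (nat_lit 413) (nat_lit 5) (nat_lit 413) (nat_lit 4) (nat_lit 404) (nat_lit 398) (nat_lit 398))))))))
noncomputable def xc44 : XT := (XT.nd (nat_lit 1950) (nat_lit 7448) (nat_lit 0) (XT.nd (nat_lit 936) (nat_lit 8816) (nat_lit 0) (XT.nd (nat_lit 468) (nat_lit 6004) (nat_lit 0) (XT.nd (nat_lit 234) (nat_lit 1976) (nat_lit 0) (XT.nd (nat_lit 78) (nat_lit 988) (nat_lit 0) (XT.lf (nat_lit 0) (nat_lit 2785074758) (nat_lit 304) (nat_lit 771649332) (nat_lit 380) (nat_lit 2958874694) (nat_lit 405) (nat_lit 5) (nat_lit 409) (nat_lit 5) (nat_lit 410) (nat_lit 4) (nat_lit 405) (nat_lit 398) (nat_lit 397)) (XT.nd (nat_lit 78)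 (nat_lit 532) (nat_lit 0) (XT.lf (nat_lit 0) (nat_lit 2158596938) (nat_lit 456) (nat_lit 4024801845) (nat_lit 76) (nat_lit 367224176) (nat_lit 399) (nat_lit 5) (nat_lit 405) (nat_lit 5) (nat_lit 400) (nat_lit 4) (nat_lit 406) (nat_lit 398) (nat_lit 396)) (XT.lf (nat_lit 0) (nat_lit 634785123) (nat_lit 532) (nat_lit 4212956141) (nat_lit 76) (nat_lit 1745603809) (nat_lit 392) (nat_lit 5) (nat_lit 399) (nat_lit 5) (nat_lit 393) (nat_lit 5) (nat_lit 407) (nat_lit 398) (nat_lit 395)))) (XT.nd (nat_lit 78) (nat_lit 1444) (nat_lit 0) (XT.lf (nat_lit 0) (nat_lit 2345664586) (nat_lit 532) (nat_lit 3251168006) (nat_lit 608) (nat_lit 1046933704) (nat_lit 385) (nat_lit 5) (nat_lit 392) (nat_lit 5) (nat_lit 393) (nat_lit 5) (nat_lit 408) (nat_lit 398) (nat_lit 394)) (XT.nd (nat_lit 78) (nat_lit 760) (nat_lit 0) (XT.lf (nat_lit 0) (nat_lit 2424126844) (nat_lit 608) (nat_lit 1391563638) (nat_lit 684) (nat_lit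 2886365304) (nat_lit 376) (nat_lit 5) (nat_lit 384) (nat_lit 5) (nat_lit 385) (nat_lit 5) (nat_lit 409) (nat_lit 398) (nat_lit 393)) (XT.lf (nat_lit 0) (nat_lit 1899371271) (nat_lit 760) (nat_lit 4153087494) (nat_lit 76) (nat_lit 715840656) (nat_lit 366) (nat_lit 5) (nat_lit 376) (nat_lit 5) (nat_lit 367) (nat_lit 5) (nat_lit 410) (nat_lit 398) (nat_lit 392))))) (XT.nd (nat_lit 234) (nat_lit 3344) (nat_lit 0) (XT.nd (nat_lit 78) (nat_lit 1900) (nat_lit 0) (XT.lf (nat_lit 0) (nat_lit 2908810950) (nat_lit 760) (nat_lit 3781767981) (nat_lit 836) (nat_lit 151731732) (nat_lit 356) (nat_lit 5) (nat_lit 366) (nat_lit 5) (nat_lit 367) (nat_lit 5) (nat_lit 411) (nat_lit 398) (nat_lit 391)) (XT.nd (nat_lit 78) (nat_lit 988) (nat_lit 0) (XT.lf (nat_lit 0) (nat_lit 3300372254) (nat_lit 836) (nat_lit 1228913666) (nat_lit 912) (nat_lit 2394784780) (nat_lit 344) (nat_lit 5) (nat_lit 355) (nat_lit 5) (nat_lit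 356) (nat_lit 5) (nat_lit 412) (nat_lit 398) (nat_lit 390)) (XT.lf (nat_lit 0) (nat_lit 2231130880) (nat_lit 988) (nat_lit 3219393570) (nat_lit 76) (nat_lit 1563307296) (nat_lit 331) (nat_lit 5) (nat_lit 344) (nat_lit 5) (nat_lit 332) (nat_lit 5) (nat_lit 413) (nat_lit 398) (nat_lit 389)))) (XT.nd (nat_lit 78) (nat_lit 2356) (nat_lit 0) (XT.lf (nat_lit 0) (nat_lit 4391217157) (nat_lit 988) (nat_lit 2504791837) (nat_lit 1064) (nat_lit 215717263) (nat_lit 318) (nat_lit 5) (nat_lit 331) (nat_lit 5) (nat_lit 332) (nat_lit 5) (nat_lit 414) (nat_lit 398) (nat_lit 388)) (XT.nd (nat_lit 78) (nat_lit 1216) (nat_lit 0) (XT.lf (nat_lit 0) (nat_lit 4351073254) (nat_lit 1140) (nat_lit 2142183359) (nat_lit 76) (nat_lit 724180641) (nat_lit 303) (nat_lit 5) (nat_lit 318) (nat_lit 5) (nat_lit 304) (nat_lit 5) (nat_lit 415) (nat_lit 398) (nat_lit 387)) (XT.lf (nat_lit 0) (nat_lit 1667351719) (nat_lit 1216) (nat_lit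 1480462786) (nat_lit 76) (nat_lit 4183413380) (nat_lit 287) (nat_lit 5) (nat_lit 303) (nat_lit 5) (nat_lit 288) (nat_lit 5) (nat_lit 416) (nat_lit 398) (nat_lit 386)))))) (XT.nd (nat_lit 468) (nat_lit 3800) (nat_lit 0) (XT.nd (nat_lit 234) (nat_lit 1672) (nat_lit 0) (XT.nd (nat_lit 78) (nat_lit 2128) (nat_lit 0) (XT.lf (nat_lit 0) (nat_lit 6247575904) (nat_lit 1292) (nat_lit 725607632) (nat_lit 76) (nat_lit 480359100) (nat_lit 271) (nat_lit 5) (nat_lit 288) (nat_lit 5) (nat_lit 272) (nat_lit 5) (nat_lit 417) (nat_lit 398) (nat_lit 385)) (XT.nd (nat_lit 78) (nat_lit 684) (nat_lit 0) (XT.lf (nat_lit 0) (nat_lit 91498681) (nat_lit 608) (nat_lit 3231871869) (nat_lit 684) (nat_lit 4260164971) (nat_lit 252) (nat_lit 5) (nat_lit 260) (nat_lit 5) (nat_lit 261) (nat_lit 5) (nat_lit 418) (nat_lit 398) (nat_lit 384)) (XT.lf (nat_lit 0) (nat_lit 235506202) (nat_lit 684) (nat_lit 6695491478) (nat_lit 76) (nat_lit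 791402068) (nat_lit 243) (nat_lit 5) (nat_lit 252) (nat_lit 5) (nat_lit 244) (nat_lit 5) (nat_lit 419) (nat_lit 398) (nat_lit 383)))) (XT.nd (nat_lit 78) (nat_lit 1140) (nat_lit 0) (XT.lf (nat_lit 0) (nat_lit 2011621609) (nat_lit 532) (nat_lit 2791301579) (nat_lit 608) (nat_lit 3066014645) (nat_lit 236) (nat_lit 5) (nat_lit 243) (nat_lit 5) (nat_lit 244) (nat_lit 5) (nat_lit 420) (nat_lit 398) (nat_lit 382)) (XT.nd (nat_lit 78) (nat_lit 532) (nat_lit 0) (XT.lf (nat_lit 0) (nat_lit 1470322960) (nat_lit 608) (nat_lit 4934356081) (nat_lit 76) (nat_lit 1619958819) (nat_lit 228) (nat_lit 5) (nat_lit 236) (nat_lit 5) (nat_lit 229) (nat_lit 5) (nat_lit 421) (nat_lit 398) (nat_lit 381)) (XT.lf (nat_lit 0) (nat_lit 4233559045) (nat_lit 532) (nat_lit 1883543036) (nat_lit 608) (nat_lit 2071741442) (nat_lit 221) (nat_lit 5) (nat_lit 228) (nat_lit 5) (nat_lit 229) (nat_lit 5) (nat_lit 422) (nat_lit 398) (nat_lit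 380))))) (XT.nd (nat_lit 234) (nat_lit 2204) (nat_lit 0) (XT.nd (nat_lit 78) (nat_lit 988) (nat_lit 0) (XT.lf (nat_lit 0) (nat_lit 2537657535) (nat_lit 608) (nat_lit 2915249625) (nat_lit 76) (nat_lit 2909008187) (nat_lit 213) (nat_lit 5) (nat_lit 221) (nat_lit 5) (nat_lit 214) (nat_lit 5) (nat_lit 423) (nat_lit 398) (nat_lit 379)) (XT.nd (nat_lit 78) (nat_lit 532) (nat_lit 0) (XT.lf (nat_lit 0) (nat_lit 6743042604) (nat_lit 456) (nat_lit 544897189) (nat_lit 532) (nat_lit 1256525107) (nat_lit 207) (nat_lit 5) (nat_lit 213) (nat_lit 5) (nat_lit 214) (nat_lit 5) (nat_lit 424) (nat_lit 398) (nat_lit 378)) (XT.lf (nat_lit 0) (nat_lit 3456829132) (nat_lit 532) (nat_lit 652627801) (nat_lit 76) (nat_lit 4626109601) (nat_lit 200) (nat_lit 5) (nat_lit 207) (nat_lit 5) (nat_lit 201) (nat_lit 5) (nat_lit 425) (nat_lit 398) (nat_lit 377)))) (XT.nd (nat_lit 156) (nat_lit 836) (nat_lit 0) (XT.nd (nat_lit 78)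 (nat_lit 456) (nat_lit 0) (XT.lf (nat_lit 0) (nat_lit 590602189) (nat_lit 456) (nat_lit 7760674241) (nat_lit 532) (nat_lit 585464083) (nat_lit 188) (nat_lit 5) (nat_lit 194) (nat_lit 5) (nat_lit 195) (nat_lit 5) (nat_lit 426) (nat_lit 398) (nat_lit 376)) (XT.lf (nat_lit 0) (nat_lit 1877128925) (nat_lit 380) (nat_lit 2384753525) (nat_lit 456) (nat_lit 4884744441) (nat_lit 182) (nat_lit 5) (nat_lit 187) (nat_lit 5) (nat_lit 188) (nat_lit 5) (nat_lit 427) (nat_lit 398) (nat_lit 375))) (XT.nd (nat_lit 78) (nat_lit 456) (nat_lit 0) (XT.lf (nat_lit 0) (nat_lit 3239496580) (nat_lit 380) (nat_lit 6094582568) (nat_lit 456) (nat_lit 32945739) (nat_lit 177) (nat_lit 5) (nat_lit 182) (nat_lit 5) (nat_lit 183) (nat_lit 5) (nat_lit 428) (nat_lit 398) (nat_lit 374)) (XT.lf (nat_lit 0) (nat_lit 4642531542) (nat_lit 380) (nat_lit 313580081) (nat_lit 456) (nat_lit 4641095230) (nat_lit 171) (nat_lit 5) (nat_lit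 176) (nat_lit 5) (nat_lit 177) (nat_lit 5) (nat_lit 429) (nat_lit 398) (nat_lit 373))))))) (XT.nd (nat_lit 1014) (nat_lit 2888) (nat_lit 0) (XT.nd (nat_lit 468) (nat_lit 2052) (nat_lit 0) (XT.nd (nat_lit 234) (nat_lit 1292) (nat_lit 0) (XT.nd (nat_lit 78) (nat_lit 760) (nat_lit 0) (XT.lf (nat_lit 0) (nat_lit 380050354) (nat_lit 456) (nat_lit 3739041702) (nat_lit 76) (nat_lit 5718760633) (nat_lit 165) (nat_lit 5) (nat_lit 171) (nat_lit 5) (nat_lit 166) (nat_lit 5) (nat_lit 430) (nat_lit 398) (nat_lit 372)) (XT.nd (nat_lit 78) (nat_lit 456) (nat_lit 0) (XT.lf (nat_lit 0) (nat_lit 5562598721) (nat_lit 380) (nat_lit 2491220905) (nat_lit 76) (nat_lit 2035166293) (nat_lit 161) (nat_lit 5) (nat_lit 166) (nat_lit 5) (nat_lit 162) (nat_lit 5) (nat_lit 431) (nat_lit 398) (nat_lit 371)) (XT.lf (nat_lit 0) (nat_lit 669696823) (nat_lit 456) (nat_lit 1190616377) (nat_lit 76) (nat_lit 8491272092) (nat_lit 155)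 (nat_lit 5) (nat_lit 161) (nat_lit 5) (nat_lit 156) (nat_lit 5) (nat_lit 432) (nat_lit 398) (nat_lit 370)))) (XT.nd (nat_lit 78) (nat_lit 684) (nat_lit 0) (XT.lf (nat_lit 0) (nat_lit 122120638) (nat_lit 304) (nat_lit 5952675012) (nat_lit 380) (nat_lit 4549910561) (nat_lit 147) (nat_lit 5) (nat_lit 151) (nat_lit 5) (nat_lit 152) (nat_lit 5) (nat_lit 433) (nat_lit 398) (nat_lit 369)) (XT.nd (nat_lit 78) (nat_lit 304) (nat_lit 0) (XT.lf (nat_lit 0) (nat_lit 861230404) (nat_lit 380) (nat_lit 9384672278) (nat_lit 76) (nat_lit 664189936) (nat_lit 142) (nat_lit 5) (nat_lit 147) (nat_lit 5) (nat_lit 143) (nat_lit 5) (nat_lit 434) (nat_lit 398) (nat_lit 368)) (XT.lf (nat_lit 0) (nat_lit 2921560826) (nat_lit 304) (nat_lit 3595573056) (nat_lit 380) (nat_lit 4689232138) (nat_lit 138) (nat_lit 5) (nat_lit 142) (nat_lit 5) (nat_lit 143) (nat_lit 5) (nat_lit 435) (nat_lit 398) (nat_lit 367))))) (XT.nd (nat_lit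 234) (nat_lit 1140) (nat_lit 0) (XT.nd (nat_lit 78) (nat_lit 608) (nat_lit 0) (XT.lf (nat_lit 0) (nat_lit 966572446) (nat_lit 304) (nat_lit 7142596724) (nat_lit 76) (nat_lit 3406635080) (nat_lit 134) (nat_lit 5) (nat_lit 138) (nat_lit 5) (nat_lit 135) (nat_lit 5) (nat_lit 436) (nat_lit 398) (nat_lit 366)) (XT.nd (nat_lit 78) (nat_lit 304) (nat_lit 0) (XT.lf (nat_lit 0) (nat_lit 5837926154) (nat_lit 304) (nat_lit 1026485745) (nat_lit 380) (nat_lit 4973238985) (nat_lit 130) (nat_lit 5) (nat_lit 134) (nat_lit 5) (nat_lit 135) (nat_lit 5) (nat_lit 437) (nat_lit 398) (nat_lit 365)) (XT.lf (nat_lit 0) (nat_lit 951825749) (nat_lit 304) (nat_lit 4846294082) (nat_lit 76) (nat_lit 6374606438) (nat_lit 126) (nat_lit 5) (nat_lit 130) (nat_lit 5) (nat_lit 127) (nat_lit 5) (nat_lit 438) (nat_lit 398) (nat_lit 364)))) (XT.nd (nat_lit 156) (nat_lit 532) (nat_lit 0) (XT.nd (nat_lit 78) (nat_lit 304) (nat_lit 0)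 (XT.lf (nat_lit 0) (nat_lit 7128742951) (nat_lit 380) (nat_lit 3690528512) (nat_lit 76) (nat_lit 1702067324) (nat_lit 122) (nat_lit 5) (nat_lit 127) (nat_lit 5) (nat_lit 123) (nat_lit 5) (nat_lit 439) (nat_lit 398) (nat_lit 363)) (XT.lf (nat_lit 0) (nat_lit 808653616) (nat_lit 304) (nat_lit 2524545410) (nat_lit 76) (nat_lit 9551114768) (nat_lit 118) (nat_lit 5) (nat_lit 122) (nat_lit 5) (nat_lit 119) (nat_lit 5) (nat_lit 440) (nat_lit 398) (nat_lit 362))) (XT.nd (nat_lit 78) (nat_lit 304) (nat_lit 0) (XT.lf (nat_lit 0) (nat_lit 7296212276) (nat_lit 304) (nat_lit 1383719462) (nat_lit 76) (nat_lit 4581283310) (nat_lit 115) (nat_lit 5) (nat_lit 119) (nat_lit 5) (nat_lit 116) (nat_lit 5) (nat_lit 441) (nat_lit 398) (nat_lit 361)) (XT.lf (nat_lit 0) (nat_lit 524141599) (nat_lit 304) (nat_lit 211922751) (nat_lit 76) (nat_lit 12918325687) (nat_lit 111) (nat_lit 5) (nat_lit 115) (nat_lit 5) (nat_lit 112)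 (nat_lit 5) (nat_lit 442) (nat_lit 398) (nat_lit 360)))))) (XT.nd (nat_lit 468) (nat_lit 1368) (nat_lit 0) (XT.nd (nat_lit 234) (nat_lit 684) (nat_lit 0) (XT.nd (nat_lit 78) (nat_lit 456) (nat_lit 0) (XT.lf (nat_lit 0) (nat_lit 910348843) (nat_lit 152) (nat_lit 6441680014) (nat_lit 228) (nat_lit 6709304590) (nat_lit 106) (nat_lit 5) (nat_lit 108) (nat_lit 5) (nat_lit 109) (nat_lit 5) (nat_lit 443) (nat_lit 398) (nat_lit 359)) (XT.nd (nat_lit 78) (nat_lit 152) (nat_lit 0) (XT.lf (nat_lit 0) (nat_lit 119434385) (nat_lit 304) (nat_lit 12415184358) (nat_lit 76) (nat_lit 1951384444) (nat_lit 102) (nat_lit 5) (nat_lit 106) (nat_lit 5) (nat_lit 103) (nat_lit 5) (nat_lit 444) (nat_lit 398) (nat_lit 358)) (XT.lf (nat_lit 0) (nat_lit 3153827148) (nat_lit 152) (nat_lit 4127383810) (nat_lit 228) (nat_lit 7644801488) (nat_lit 100) (nat_lit 5) (nat_lit 102) (nat_lit 5) (nat_lit 103) (nat_lit 5) (nat_lit 445)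 (nat_lit 398) (nat_lit 357)))) (XT.nd (nat_lit 78) (nat_lit 456) (nat_lit 0) (XT.lf (nat_lit 0) (nat_lit 4241198947) (nat_lit 228) (nat_lit 10674520891) (nat_lit 304) (nat_lit 468872239) (nat_lit 97) (nat_lit 5) (nat_lit 100) (nat_lit 5) (nat_lit 101) (nat_lit 5) (nat_lit 446) (nat_lit 398) (nat_lit 356)) (XT.nd (nat_lit 78) (nat_lit 228) (nat_lit 0) (XT.lf (nat_lit 0) (nat_lit 5261992704) (nat_lit 152) (nat_lit 1782435255) (nat_lit 228) (nat_lit 8816149968) (nat_lit 94) (nat_lit 5) (nat_lit 96) (nat_lit 5) (nat_lit 97) (nat_lit 5) (nat_lit 447) (nat_lit 398) (nat_lit 355)) (XT.lf (nat_lit 0) (nat_lit 6240824512) (nat_lit 228) (nat_lit 8835684453) (nat_lit 304) (nat_lit 1279138568) (nat_lit 91) (nat_lit 5) (nat_lit 94) (nat_lit 5) (nat_lit 95) (nat_lit 5) (nat_lit 448) (nat_lit 398) (nat_lit 354))))) (XT.nd (nat_lit 234) (nat_lit 760) (nat_lit 0) (XT.nd (nat_lit 78) (nat_lit 380) (nat_lit 0) (XT.lf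 (nat_lit 0) (nat_lit 6614008889) (nat_lit 228) (nat_lit 9710527721) (nat_lit 76) (nat_lit 545765614) (nat_lit 88) (nat_lit 5) (nat_lit 91) (nat_lit 5) (nat_lit 89) (nat_lit 5) (nat_lit 449) (nat_lit 398) (nat_lit 353)) (XT.nd (nat_lit 78) (nat_lit 228) (nat_lit 0) (XT.lf (nat_lit 0) (nat_lit 7994206323) (nat_lit 152) (nat_lit 7061214323) (nat_lit 228) (nat_lit 2349494363) (nat_lit 86) (nat_lit 5) (nat_lit 88) (nat_lit 5) (nat_lit 89) (nat_lit 5) (nat_lit 450) (nat_lit 398) (nat_lit 352)) (XT.lf (nat_lit 0) (nat_lit 5959797612) (nat_lit 228) (nat_lit 9209848596) (nat_lit 76) (nat_lit 2791202901) (nat_lit 83) (nat_lit 5) (nat_lit 86) (nat_lit 5) (nat_lit 84) (nat_lit 5) (nat_lit 451) (nat_lit 398) (nat_lit 351)))) (XT.nd (nat_lit 156) (nat_lit 380) (nat_lit 0) (XT.nd (nat_lit 78) (nat_lit 228) (nat_lit 0) (XT.lf (nat_lit 0) (nat_lit 9408223938) (nat_lit 152) (nat_lit 5400480531) (nat_lit 228) (nat_lit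 3730001626) (nat_lit 81) (nat_lit 5) (nat_lit 83) (nat_lit 5) (nat_lit 84) (nat_lit 5) (nat_lit 452) (nat_lit 398) (nat_lit 350)) (XT.lf (nat_lit 0) (nat_lit 5012828949) (nat_lit 228) (nat_lit 9188068553) (nat_lit 76) (nat_lit 4938488135) (nat_lit 78) (nat_lit 5) (nat_lit 81) (nat_lit 5) (nat_lit 79) (nat_lit 5) (nat_lit 453) (nat_lit 398) (nat_lit 349))) (XT.nd (nat_lit 78) (nat_lit 228) (nat_lit 0) (XT.lf (nat_lit 0) (nat_lit 10370052748) (nat_lit 152) (nat_lit 3912060678) (nat_lit 228) (nat_lit 5481889716) (nat_lit 76) (nat_lit 5) (nat_lit 78) (nat_lit 5) (nat_lit 79) (nat_lit 5) (nat_lit 454) (nat_lit 398) (nat_lit 348)) (XT.lf (nat_lit 0) (nat_lit 3709611264) (nat_lit 228) (nat_lit 9775996511) (nat_lit 76) (nat_lit 6927669578) (nat_lit 73) (nat_lit 5) (nat_lit 76) (nat_lit 5) (nat_lit 74) (nat_lit 5) (nat_lit 455) (nat_lit 398) (nat_lit 347))))))))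
noncomputable def xc45 : XT := (XT.nd (nat_lit 1950) (nat_lit 1140) (nat_lit 0) (XT.nd (nat_lit 936) (nat_lit 1292) (nat_lit 0) (XT.nd (nat_lit 468) (nat_lit 836) (nat_lit 0) (XT.nd (nat_lit 234) (nat_lit 380) (nat_lit 0) (XT.nd (nat_lit 78) (nat_lit 380) (nat_lit 0) (XT.lf (nat_lit 0) (nat_lit 10743316034) (nat_lit 152) (nat_lit 2665754053) (nat_lit 228) (nat_lit 7679469084) (nat_lit 71) (nat_lit 5) (nat_lit 73) (nat_lit 5) (nat_lit 74) (nat_lit 5) (nat_lit 456) (nat_lit 398) (nat_lit 346)) (XT.nd (nat_lit 78) (nat_lit 152) (nat_lit 0) (XT.lf (nat_lit 0) (nat_lit 1972962469) (nat_lit 228) (nat_lit 11130830262) (nat_lit 76) (nat_lit 8686895852) (nat_lit 68) (nat_lit 5) (nat_lit 71) (nat_lit 5) (nat_lit 69) (nat_lit 5) (nat_lit 457) (nat_lit 398) (nat_lit 345)) (XT.lf (nat_lit 0) (nat_lit 10363567205) (nat_lit 152) (nat_lit 1744925779) (nat_lit 228) (nat_lit 10412396732) (nat_lit 66) (nat_lit 5)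 (nat_lit 68) (nat_lit 5) (nat_lit 69) (nat_lit 5) (nat_lit 458) (nat_lit 398) (nat_lit 344)))) (XT.nd (nat_lit 78) (nat_lit 304) (nat_lit 0) (XT.lf (nat_lit 0) (nat_lit 9836622538) (nat_lit 76) (nat_lit 13147802636) (nat_lit 152) (nat_lit 296171068) (nat_lit 65) (nat_lit 5) (nat_lit 66) (nat_lit 5) (nat_lit 67) (nat_lit 4) (nat_lit 459) (nat_lit 398) (nat_lit 343)) (XT.nd (nat_lit 78) (nat_lit 76) (nat_lit 0) (XT.lf (nat_lit 0) (nat_lit 9032984349) (nat_lit 152) (nat_lit 1249241826) (nat_lit 228) (nat_lit 13788352294) (nat_lit 62) (nat_lit 5) (nat_lit 64) (nat_lit 5) (nat_lit 65) (nat_lit 5) (nat_lit 460) (nat_lit 398) (nat_lit 342)) (XT.lf (nat_lit 0) (nat_lit 7928454732) (nat_lit 76) (nat_lit 13707743669) (nat_lit 152) (nat_lit 3256193627) (nat_lit 61) (nat_lit 5) (nat_lit 62) (nat_lit 5) (nat_lit 63) (nat_lit 4) (nat_lit 461) (nat_lit 398) (nat_lit 341))))) (XT.nd (nat_lit 234) (nat_lit 304)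 (nat_lit 0) (XT.nd (nat_lit 78) (nat_lit 304) (nat_lit 0) (XT.lf (nat_lit 0) (nat_lit 6514139249) (nat_lit 152) (nat_lit 1297865686) (nat_lit 228) (nat_lit 17936193921) (nat_lit 58) (nat_lit 5) (nat_lit 60) (nat_lit 5) (nat_lit 61) (nat_lit 5) (nat_lit 462) (nat_lit 398) (nat_lit 340)) (XT.nd (nat_lit 78) (nat_lit 228) (nat_lit 0) (XT.lf (nat_lit 0) (nat_lit 4695343262) (nat_lit 76) (nat_lit 14937502076) (nat_lit 152) (nat_lit 7004989425) (nat_lit 57) (nat_lit 5) (nat_lit 58) (nat_lit 5) (nat_lit 59) (nat_lit 4) (nat_lit 463) (nat_lit 398) (nat_lit 339)) (XT.lf (nat_lit 0) (nat_lit 2522679623) (nat_lit 152) (nat_lit 2033199284) (nat_lit 228) (nat_lit 23009675134) (nat_lit 54) (nat_lit 5) (nat_lit 56) (nat_lit 5) (nat_lit 57) (nat_lit 5) (nat_lit 464) (nat_lit 398) (nat_lit 338)))) (XT.nd (nat_lit 78) (nat_lit 304) (nat_lit 0) (XT.lf (nat_lit 0) (nat_lit 16824621422) (nat_lit 228) (nat_lit 170312158)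 (nat_lit 76) (nat_lit 11534406666) (nat_lit 54) (nat_lit 5) (nat_lit 57) (nat_lit 5) (nat_lit 55) (nat_lit 4) (nat_lit 465) (nat_lit 398) (nat_lit 337)) (XT.nd (nat_lit 78) (nat_lit 152) (nat_lit 0) (XT.lf (nat_lit 0) (nat_lit 375541946) (nat_lit 152) (nat_lit 3217234793) (nat_lit 76) (nat_lit 25942095309) (nat_lit 52) (nat_lit 5) (nat_lit 54) (nat_lit 5) (nat_lit 53) (nat_lit 5) (nat_lit 466) (nat_lit 398) (nat_lit 336)) (XT.lf (nat_lit 0) (nat_lit 13092878993) (nat_lit 228) (nat_lit 6912464915) (nat_lit 76) (nat_lit 10573608301) (nat_lit 50) (nat_lit 5) (nat_lit 53) (nat_lit 5) (nat_lit 51) (nat_lit 4) (nat_lit 467) (nat_lit 398) (nat_lit 335)))))) (XT.nd (nat_lit 468) (nat_lit 684) (nat_lit 0) (XT.nd (nat_lit 234) (nat_lit 228) (nat_lit 0) (XT.nd (nat_lit 78) (nat_lit 304) (nat_lit 0) (XT.lf (nat_lit 0) (nat_lit 20538202132) (nat_lit 76) (nat_lit 6115266426) (nat_lit 152) (nat_lit 5015548592)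 (nat_lit 49) (nat_lit 5) (nat_lit 50) (nat_lit 5) (nat_lit 51) (nat_lit 4) (nat_lit 468) (nat_lit 398) (nat_lit 334)) (XT.nd (nat_lit 78) (nat_lit 76) (nat_lit 0) (XT.lf (nat_lit 0) (nat_lit 8179984184) (nat_lit 228) (nat_lit 16056754867) (nat_lit 76) (nat_lit 8566745113) (nat_lit 46) (nat_lit 5) (nat_lit 49) (nat_lit 5) (nat_lit 47) (nat_lit 4) (nat_lit 469) (nat_lit 398) (nat_lit 333)) (XT.lf (nat_lit 0) (nat_lit 12276283828) (nat_lit 76) (nat_lit 9894407820) (nat_lit 152) (nat_lit 11815321357) (nat_lit 45) (nat_lit 5) (nat_lit 46) (nat_lit 5) (nat_lit 47) (nat_lit 4) (nat_lit 470) (nat_lit 398) (nat_lit 332)))) (XT.nd (nat_lit 78) (nat_lit 76) (nat_lit 0) (XT.lf (nat_lit 0) (nat_lit 1832606773) (nat_lit 152) (nat_lit 28119686835) (nat_lit 76) (nat_lit 5267969248) (nat_lit 43) (nat_lit 5) (nat_lit 45) (nat_lit 5) (nat_lit 44) (nat_lit 4) (nat_lit 471) (nat_lit 398) (nat_lit 331)) (XT.nd (nat_lit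 78) (nat_lit 0) (nat_lit 0) (XT.lf (nat_lit 0) (nat_lit 988119999) (nat_lit 76) (nat_lit 15212848456) (nat_lit 152) (nat_lit 20303277176) (nat_lit 42) (nat_lit 5) (nat_lit 43) (nat_lit 5) (nat_lit 44) (nat_lit 4) (nat_lit 472) (nat_lit 398) (nat_lit 330)) (XT.lf (nat_lit 0) (nat_lit 31528840133) (nat_lit 152) (nat_lit 5813688831) (nat_lit 0) (nat_lit 502667554) (nat_lit 42) (nat_lit 5) (nat_lit 44) (nat_lit 4) (nat_lit 42) (nat_lit 4) (nat_lit 473) (nat_lit 398) (nat_lit 329))))) (XT.nd (nat_lit 234) (nat_lit 380) (nat_lit 0) (XT.nd (nat_lit 78) (nat_lit 152) (nat_lit 0) (XT.lf (nat_lit 0) (nat_lit 8558657938) (nat_lit 152) (nat_lit 13704904908) (nat_lit 76) (nat_lit 16976657765) (nat_lit 40) (nat_lit 5) (nat_lit 42) (nat_lit 5) (nat_lit 41) (nat_lit 4) (nat_lit 474) (nat_lit 398) (nat_lit 328)) (XT.nd (nat_lit 78) (nat_lit 76) (nat_lit 0) (XT.lf (nat_lit 0) (nat_lit 18061428117) (nat_lit 76)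 (nat_lit 6170444749) (nat_lit 152) (nat_lit 16465695966) (nat_lit 39) (nat_lit 5) (nat_lit 40) (nat_lit 5) (nat_lit 41) (nat_lit 4) (nat_lit 475) (nat_lit 398) (nat_lit 327)) (XT.lf (nat_lit 0) (nat_lit 9464097996) (nat_lit 76) (nat_lit 31512082082) (nat_lit 76) (nat_lit 1242982893) (nat_lit 38) (nat_lit 4) (nat_lit 39) (nat_lit 5) (nat_lit 39) (nat_lit 4) (nat_lit 476) (nat_lit 398) (nat_lit 326)))) (XT.nd (nat_lit 156) (nat_lit 228) (nat_lit 0) (XT.nd (nat_lit 78) (nat_lit 76) (nat_lit 0) (XT.lf (nat_lit 0) (nat_lit 14702666437) (nat_lit 152) (nat_lit 466975142) (nat_lit 76) (nat_lit 28635462193) (nat_lit 37) (nat_lit 5) (nat_lit 39) (nat_lit 5) (nat_lit 38) (nat_lit 4) (nat_lit 477) (nat_lit 398) (nat_lit 325)) (XT.lf (nat_lit 0) (nat_lit 31723147134) (nat_lit 152) (nat_lit 11486006842) (nat_lit 0) (nat_lit 2251722044) (nat_lit 36) (nat_lit 5) (nat_lit 38) (nat_lit 4) (nat_lit 36) (nat_lit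 4) (nat_lit 478) (nat_lit 398) (nat_lit 324))) (XT.nd (nat_lit 78) (nat_lit 76) (nat_lit 0) (XT.lf (nat_lit 0) (nat_lit 2687489613) (nat_lit 152) (nat_lit 24054822406) (nat_lit 76) (nat_lit 20446264897) (nat_lit 34) (nat_lit 5) (nat_lit 36) (nat_lit 5) (nat_lit 35) (nat_lit 4) (nat_lit 479) (nat_lit 398) (nat_lit 323)) (XT.lf (nat_lit 0) (nat_lit 10709003358) (nat_lit 76) (nat_lit 9121821128) (nat_lit 152) (nat_lit 29162329800) (nat_lit 33) (nat_lit 5) (nat_lit 34) (nat_lit 5) (nat_lit 35) (nat_lit 4) (nat_lit 480) (nat_lit 398) (nat_lit 322))))))) (XT.nd (nat_lit 1014) (nat_lit 228) (nat_lit 0) (XT.nd (nat_lit 468) (nat_lit 456) (nat_lit 0) (XT.nd (nat_lit 234) (nat_lit 228) (nat_lit 0) (XT.nd (nat_lit 78) (nat_lit 228) (nat_lit 0) (XT.lf (nat_lit 0) (nat_lit 38128454735) (nat_lit 152) (nat_lit 3343444691) (nat_lit 0) (nat_lit 9407148312) (nat_lit 33) (nat_lit 5) (nat_lit 35) (nat_lit 4) (nat_lit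 33) (nat_lit 4) (nat_lit 481) (nat_lit 398) (nat_lit 321)) (XT.nd (nat_lit 78) (nat_lit 76) (nat_lit 0) (XT.lf (nat_lit 0) (nat_lit 4774229934) (nat_lit 152) (nat_lit 19062329103) (nat_lit 76) (nat_lit 29009986763) (nat_lit 31) (nat_lit 5) (nat_lit 33) (nat_lit 5) (nat_lit 32) (nat_lit 4) (nat_lit 482) (nat_lit 398) (nat_lit 320)) (XT.lf (nat_lit 0) (nat_lit 18071851974) (nat_lit 76) (nat_lit 5010423738) (nat_lit 152) (nat_lit 31821236186) (nat_lit 30) (nat_lit 5) (nat_lit 31) (nat_lit 5) (nat_lit 32) (nat_lit 4) (nat_lit 483) (nat_lit 398) (nat_lit 319)))) (XT.nd (nat_lit 78) (nat_lit 152) (nat_lit 0) (XT.lf (nat_lit 0) (nat_lit 186423349) (nat_lit 76) (nat_lit 42421700467) (nat_lit 76) (nat_lit 14446131384) (nat_lit 29) (nat_lit 4) (nat_lit 30) (nat_lit 5) (nat_lit 30) (nat_lit 4) (nat_lit 484) (nat_lit 398) (nat_lit 318)) (XT.nd (nat_lit 78) (nat_lit 76) (nat_lit 0) (XT.lf (nat_lit 0) (nat_lit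 4118455727) (nat_lit 152) (nat_lit 19642536625) (nat_lit 76) (nat_lit 35538603930) (nat_lit 28) (nat_lit 5) (nat_lit 30) (nat_lit 5) (nat_lit 29) (nat_lit 4) (nat_lit 485) (nat_lit 398) (nat_lit 317)) (XT.lf (nat_lit 0) (nat_lit 19608827117) (nat_lit 76) (nat_lit 3858145898) (nat_lit 152) (nat_lit 38181307196) (nat_lit 27) (nat_lit 5) (nat_lit 28) (nat_lit 5) (nat_lit 29) (nat_lit 4) (nat_lit 486) (nat_lit 398) (nat_lit 316))))) (XT.nd (nat_lit 234) (nat_lit 228) (nat_lit 0) (XT.nd (nat_lit 78) (nat_lit 228) (nat_lit 0) (XT.lf (nat_lit 0) (nat_lit 44114868514) (nat_lit 152) (nat_lit 3111606738) (nat_lit 0) (nat_lit 16877965268) (nat_lit 27) (nat_lit 5) (nat_lit 29) (nat_lit 4) (nat_lit 27) (nat_lit 4) (nat_lit 487) (nat_lit 398) (nat_lit 315)) (XT.nd (nat_lit 78) (nat_lit 152) (nat_lit 0) (XT.lf (nat_lit 0) (nat_lit 38405787533) (nat_lit 76) (nat_lit 27763159394) (nat_lit 76) (nat_lit 503248991)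 (nat_lit 26) (nat_lit 4) (nat_lit 27) (nat_lit 5) (nat_lit 27) (nat_lit 4) (nat_lit 488) (nat_lit 398) (nat_lit 314)) (XT.lf (nat_lit 0) (nat_lit 12686008005) (nat_lit 76) (nat_lit 7002578194) (nat_lit 152) (nat_lit 49670379174) (nat_lit 24) (nat_lit 5) (nat_lit 25) (nat_lit 5) (nat_lit 26) (nat_lit 4) (nat_lit 489) (nat_lit 398) (nat_lit 313)))) (XT.nd (nat_lit 156) (nat_lit 152) (nat_lit 0) (XT.nd (nat_lit 78) (nat_lit 76) (nat_lit 0) (XT.lf (nat_lit 0) (nat_lit 41282814522) (nat_lit 152) (nat_lit 16109665296) (nat_lit 0) (nat_lit 14775348357) (nat_lit 24) (nat_lit 5) (nat_lit 26) (nat_lit 4) (nat_lit 24) (nat_lit 4) (nat_lit 490) (nat_lit 398) (nat_lit 312)) (XT.lf (nat_lit 0) (nat_lit 26873742412) (nat_lit 76) (nat_lit 37380613008) (nat_lit 76) (nat_lit 10853851263) (nat_lit 23) (nat_lit 4) (nat_lit 24) (nat_lit 5) (nat_lit 24) (nat_lit 4) (nat_lit 491) (nat_lit 398) (nat_lit 311))) (XT.nd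 (nat_lit 78) (nat_lit 76) (nat_lit 0) (XT.lf (nat_lit 0) (nat_lit 10116931412) (nat_lit 152) (nat_lit 6007767719) (nat_lit 76) (nat_lit 62063869520) (nat_lit 22) (nat_lit 5) (nat_lit 24) (nat_lit 5) (nat_lit 23) (nat_lit 4) (nat_lit 492) (nat_lit 398) (nat_lit 310)) (XT.lf (nat_lit 0) (nat_lit 32322747079) (nat_lit 152) (nat_lit 42550873146) (nat_lit 0) (nat_lit 6533776063) (nat_lit 21) (nat_lit 5) (nat_lit 23) (nat_lit 4) (nat_lit 21) (nat_lit 4) (nat_lit 493) (nat_lit 398) (nat_lit 309)))))) (XT.nd (nat_lit 55458) (nat_lit 0) (nat_lit 26448) (XT.nd (nat_lit 234) (nat_lit 0) (nat_lit 0) (XT.nd (nat_lit 78) (nat_lit 152) (nat_lit 0) (XT.lf (nat_lit 0) (nat_lit 1105814801) (nat_lit 76) (nat_lit 54740145789) (nat_lit 76) (nat_lit 28934992009) (nat_lit 20) (nat_lit 4) (nat_lit 21) (nat_lit 5) (nat_lit 21) (nat_lit 4) (nat_lit 494) (nat_lit 398) (nat_lit 308)) (XT.nd (nat_lit 78) (nat_lit 152) (nat_lit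 0) (XT.lf (nat_lit 0) (nat_lit 47779485446) (nat_lit 76) (nat_lit 33175981861) (nat_lit 76) (nat_lit 7355415925) (nat_lit 20) (nat_lit 4) (nat_lit 21) (nat_lit 5) (nat_lit 21) (nat_lit 4) (nat_lit 495) (nat_lit 398) (nat_lit 307)) (XT.lf (nat_lit 0) (nat_lit 4660414360) (nat_lit 76) (nat_lit 10362077531) (nat_lit 152) (nat_lit 76989866687) (nat_lit 18) (nat_lit 5) (nat_lit 19) (nat_lit 5) (nat_lit 20) (nat_lit 4) (nat_lit 496) (nat_lit 398) (nat_lit 306)))) (XT.nd (nat_lit 55068) (nat_lit 0) (nat_lit 30020) (XT.lf (nat_lit 0) (nat_lit 38894326040) (nat_lit 152) (nat_lit 43188590148) (nat_lit 0) (nat_lit 13797992583) (nat_lit 18) (nat_lit 5) (nat_lit 20) (nat_lit 4) (nat_lit 18) (nat_lit 4) (nat_lit 497) (nat_lit 398) (nat_lit 305)) (XT.nd (nat_lit 78) (nat_lit 228) (nat_lit 0) (XT.lf (nat_lit 0) (nat_lit 2212905837) (nat_lit 76) (nat_lit 506953449) (nat_lit 76) (nat_lit 506953449) (nat_lit 416)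 (nat_lit 4) (nat_lit 417) (nat_lit 5) (nat_lit 417) (nat_lit 4) (nat_lit 402) (nat_lit 399) (nat_lit 399)) (XT.lf (nat_lit 0) (nat_lit 3671434962) (nat_lit 152) (nat_lit 499978207) (nat_lit 228) (nat_lit 2297656435) (nat_lit 413) (nat_lit 5) (nat_lit 415) (nat_lit 5) (nat_lit 416) (nat_lit 4) (nat_lit 403) (nat_lit 399) (nat_lit 398))))) (XT.nd (nat_lit 234) (nat_lit 2508) (nat_lit 0) (XT.nd (nat_lit 78) (nat_lit 760) (nat_lit 0) (XT.lf (nat_lit 0) (nat_lit 2778691219) (nat_lit 304) (nat_lit 3451160875) (nat_lit 76) (nat_lit 262490218) (nat_lit 409) (nat_lit 5) (nat_lit 413) (nat_lit 5) (nat_lit 410) (nat_lit 4) (nat_lit 404) (nat_lit 399) (nat_lit 397)) (XT.nd (nat_lit 78) (nat_lit 380) (nat_lit 0) (XT.lf (nat_lit 0) (nat_lit 1262687527) (nat_lit 380) (nat_lit 3994465140) (nat_lit 76) (nat_lit 1266194205) (nat_lit 404) (nat_lit 5) (nat_lit 409) (nat_lit 5) (nat_lit 405) (nat_lit 5) (nat_lit 405)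 (nat_lit 399) (nat_lit 396)) (XT.lf (nat_lit 0) (nat_lit 2134591752) (nat_lit 380) (nat_lit 4034598005) (nat_lit 456) (nat_lit 392982690) (nat_lit 399) (nat_lit 5) (nat_lit 404) (nat_lit 5) (nat_lit 405) (nat_lit 5) (nat_lit 406) (nat_lit 399) (nat_lit 395)))) (XT.nd (nat_lit 156) (nat_lit 1368) (nat_lit 0) (XT.nd (nat_lit 78) (nat_lit 608) (nat_lit 0) (XT.lf (nat_lit 0) (nat_lit 1847423724) (nat_lit 456) (nat_lit 2548385067) (nat_lit 532) (nat_lit 2212785443) (nat_lit 392) (nat_lit 5) (nat_lit 398) (nat_lit 5) (nat_lit 399) (nat_lit 5) (nat_lit 407) (nat_lit 399) (nat_lit 394)) (XT.lf (nat_lit 0) (nat_lit 1679779666) (nat_lit 532) (nat_lit 806923133) (nat_lit 608) (nat_lit 4176367956) (nat_lit 384) (nat_lit 5) (nat_lit 391) (nat_lit 5) (nat_lit 392) (nat_lit 5) (nat_lit 408) (nat_lit 399) (nat_lit 393))) (XT.nd (nat_lit 78) (nat_lit 684) (nat_lit 0) (XT.lf (nat_lit 0) (nat_lit 448272121) (nat_lit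 684) (nat_lit 5105533503) (nat_lit 76) (nat_lit 1171554247) (nat_lit 375) (nat_lit 5) (nat_lit 384) (nat_lit 5) (nat_lit 376) (nat_lit 5) (nat_lit 409) (nat_lit 399) (nat_lit 392)) (XT.lf (nat_lit 0) (nat_lit 1651682036) (nat_lit 684) (nat_lit 3382924545) (nat_lit 760) (nat_lit 1760500395) (nat_lit 366) (nat_lit 5) (nat_lit 375) (nat_lit 5) (nat_lit 376) (nat_lit 5) (nat_lit 410) (nat_lit 399) (nat_lit 391))))))))
noncomputable def xc46 : XT := (XT.nd (nat_lit 1950) (nat_lit 6080) (nat_lit 0) (XT.nd (nat_lit 936) (nat_lit 6004) (nat_lit 0) (XT.nd (nat_lit 468) (nat_lit 5016) (nat_lit 0) (XT.nd (nat_lit 234) (nat_lit 3344) (nat_lit 0) (XT.nd (nat_lit 78) (nat_lit 1824) (nat_lit 0) (XT.lf (nat_lit 0) (nat_lit 1795354049) (nat_lit 760) (nat_lit 946888433) (nat_lit 836) (nat_lit 4130766021) (nat_lit 355) (nat_lit 5) (nat_lit 365) (nat_lit 5) (nat_lit 366) (nat_lit 5) (nat_lit 411) (nat_lit 399) (nat_lit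 390)) (XT.nd (nat_lit 78) (nat_lit 912) (nat_lit 0) (XT.lf (nat_lit 0) (nat_lit 316226426) (nat_lit 912) (nat_lit 4919959962) (nat_lit 76) (nat_lit 1722649193) (nat_lit 343) (nat_lit 5) (nat_lit 355) (nat_lit 5) (nat_lit 344) (nat_lit 5) (nat_lit 412) (nat_lit 399) (nat_lit 389)) (XT.lf (nat_lit 0) (nat_lit 2366003629) (nat_lit 912) (nat_lit 2386085656) (nat_lit 988) (nat_lit 2300151796) (nat_lit 331) (nat_lit 5) (nat_lit 343) (nat_lit 5) (nat_lit 344) (nat_lit 5) (nat_lit 413) (nat_lit 399) (nat_lit 388)))) (XT.nd (nat_lit 78) (nat_lit 2280) (nat_lit 0) (XT.lf (nat_lit 0) (nat_lit 2073624390) (nat_lit 1064) (nat_lit 4355744573) (nat_lit 76) (nat_lit 724614855) (nat_lit 317) (nat_lit 5) (nat_lit 331) (nat_lit 5) (nat_lit 318) (nat_lit 5) (nat_lit 414) (nat_lit 399) (nat_lit 387)) (XT.nd (nat_lit 78) (nat_lit 1216) (nat_lit 0) (XT.lf (nat_lit 0) (nat_lit 3313939149) (nat_lit 1064) (nat_lit 3191961929)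 (nat_lit 1140) (nat_lit 757671835) (nat_lit 303) (nat_lit 5) (nat_lit 317) (nat_lit 5) (nat_lit 318) (nat_lit 5) (nat_lit 415) (nat_lit 399) (nat_lit 386)) (XT.lf (nat_lit 0) (nat_lit 3582342986) (nat_lit 1216) (nat_lit 3461195855) (nat_lit 76) (nat_lit 337822006) (nat_lit 287) (nat_lit 5) (nat_lit 303) (nat_lit 5) (nat_lit 288) (nat_lit 5) (nat_lit 416) (nat_lit 399) (nat_lit 385))))) (XT.nd (nat_lit 234) (nat_lit 2280) (nat_lit 0) (XT.nd (nat_lit 78) (nat_lit 1444) (nat_lit 0) (XT.lf (nat_lit 0) (nat_lit 520682132) (nat_lit 1292) (nat_lit 2898228819) (nat_lit 76) (nat_lit 4088361851) (nat_lit 270) (nat_lit 5) (nat_lit 287) (nat_lit 5) (nat_lit 271) (nat_lit 5) (nat_lit 417) (nat_lit 399) (nat_lit 384)) (XT.nd (nat_lit 78) (nat_lit 684) (nat_lit 0) (XT.lf (nat_lit 0) (nat_lit 4874114565) (nat_lit 836) (nat_lit 2259458410) (nat_lit 76) (nat_lit 507941485) (nat_lit 260) (nat_lit 5) (nat_lit 271)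 (nat_lit 5) (nat_lit 261) (nat_lit 5) (nat_lit 418) (nat_lit 399) (nat_lit 383)) (XT.lf (nat_lit 0) (nat_lit 1564685638) (nat_lit 684) (nat_lit 1553441059) (nat_lit 76) (nat_lit 4665878670) (nat_lit 251) (nat_lit 5) (nat_lit 260) (nat_lit 5) (nat_lit 252) (nat_lit 5) (nat_lit 419) (nat_lit 399) (nat_lit 382)))) (XT.nd (nat_lit 78) (nat_lit 1672) (nat_lit 0) (XT.lf (nat_lit 0) (nat_lit 5976543198) (nat_lit 684) (nat_lit 770125124) (nat_lit 76) (nat_lit 1188564265) (nat_lit 243) (nat_lit 5) (nat_lit 252) (nat_lit 5) (nat_lit 244) (nat_lit 5) (nat_lit 420) (nat_lit 399) (nat_lit 381)) (XT.nd (nat_lit 78) (nat_lit 532) (nat_lit 0) (XT.lf (nat_lit 0) (nat_lit 75097802) (nat_lit 532) (nat_lit 2339939086) (nat_lit 608) (nat_lit 5679827167) (nat_lit 228) (nat_lit 5) (nat_lit 235) (nat_lit 5) (nat_lit 236) (nat_lit 5) (nat_lit 421) (nat_lit 399) (nat_lit 380)) (XT.lf (nat_lit 0) (nat_lit 1009857492) (nat_lit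 532) (nat_lit 5913312867) (nat_lit 608) (nat_lit 1340078413) (nat_lit 221) (nat_lit 5) (nat_lit 228) (nat_lit 5) (nat_lit 229) (nat_lit 5) (nat_lit 422) (nat_lit 399) (nat_lit 379)))))) (XT.nd (nat_lit 468) (nat_lit 3040) (nat_lit 0) (XT.nd (nat_lit 234) (nat_lit 1368) (nat_lit 0) (XT.nd (nat_lit 78) (nat_lit 988) (nat_lit 0) (XT.lf (nat_lit 0) (nat_lit 2006457166) (nat_lit 532) (nat_lit 1103861101) (nat_lit 608) (nat_lit 5330151281) (nat_lit 213) (nat_lit 5) (nat_lit 220) (nat_lit 5) (nat_lit 221) (nat_lit 5) (nat_lit 423) (nat_lit 399) (nat_lit 378)) (XT.nd (nat_lit 78) (nat_lit 532) (nat_lit 0) (XT.lf (nat_lit 0) (nat_lit 3066913985) (nat_lit 456) (nat_lit 4667790956) (nat_lit 532) (nat_lit 892108360) (nat_lit 207) (nat_lit 5) (nat_lit 213) (nat_lit 5) (nat_lit 214) (nat_lit 5) (nat_lit 424) (nat_lit 399) (nat_lit 377)) (XT.lf (nat_lit 0) (nat_lit 3658365724) (nat_lit 532) (nat_lit 4632009753)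 (nat_lit 76) (nat_lit 532123468) (nat_lit 200) (nat_lit 5) (nat_lit 207) (nat_lit 5) (nat_lit 201) (nat_lit 5) (nat_lit 425) (nat_lit 399) (nat_lit 376)))) (XT.nd (nat_lit 78) (nat_lit 912) (nat_lit 0) (XT.lf (nat_lit 0) (nat_lit 5372925711) (nat_lit 456) (nat_lit 3047630085) (nat_lit 532) (nat_lit 607100109) (nat_lit 194) (nat_lit 5) (nat_lit 200) (nat_lit 5) (nat_lit 201) (nat_lit 5) (nat_lit 426) (nat_lit 399) (nat_lit 375)) (XT.nd (nat_lit 78) (nat_lit 380) (nat_lit 0) (XT.lf (nat_lit 0) (nat_lit 4082828235) (nat_lit 532) (nat_lit 2636779018) (nat_lit 76) (nat_lit 2522690595) (nat_lit 187) (nat_lit 5) (nat_lit 194) (nat_lit 5) (nat_lit 188) (nat_lit 5) (nat_lit 427) (nat_lit 399) (nat_lit 374)) (XT.lf (nat_lit 0) (nat_lit 7916292093) (nat_lit 380) (nat_lit 1078281819) (nat_lit 456) (nat_lit 472948904) (nat_lit 182) (nat_lit 5) (nat_lit 187) (nat_lit 5) (nat_lit 188) (nat_lit 5) (nat_lit 428)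 (nat_lit 399) (nat_lit 373))))) (XT.nd (nat_lit 234) (nat_lit 1444) (nat_lit 0) (XT.nd (nat_lit 78) (nat_lit 1140) (nat_lit 0) (XT.lf (nat_lit 0) (nat_lit 4384269483) (nat_lit 456) (nat_lit 450759688) (nat_lit 76) (nat_lit 4867027679) (nat_lit 176) (nat_lit 5) (nat_lit 182) (nat_lit 5) (nat_lit 177) (nat_lit 5) (nat_lit 429) (nat_lit 399) (nat_lit 372)) (XT.nd (nat_lit 78) (nat_lit 380) (nat_lit 0) (XT.lf (nat_lit 0) (nat_lit 740297293) (nat_lit 380) (nat_lit 8746107611) (nat_lit 456) (nat_lit 461441344) (nat_lit 166) (nat_lit 5) (nat_lit 171) (nat_lit 5) (nat_lit 172) (nat_lit 5) (nat_lit 430) (nat_lit 399) (nat_lit 371)) (XT.lf (nat_lit 0) (nat_lit 1951047227) (nat_lit 304) (nat_lit 2638469220) (nat_lit 380) (nat_lit 5613824893) (nat_lit 161) (nat_lit 5) (nat_lit 165) (nat_lit 5) (nat_lit 166) (nat_lit 5) (nat_lit 431) (nat_lit 399) (nat_lit 370)))) (XT.nd (nat_lit 156) (nat_lit 684) (nat_lit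 0) (XT.nd (nat_lit 78) (nat_lit 380) (nat_lit 0) (XT.lf (nat_lit 0) (nat_lit 3224415313) (nat_lit 380) (nat_lit 6690686697) (nat_lit 456) (nat_lit 555444789) (nat_lit 156) (nat_lit 5) (nat_lit 161) (nat_lit 5) (nat_lit 162) (nat_lit 5) (nat_lit 432) (nat_lit 399) (nat_lit 369)) (XT.lf (nat_lit 0) (nat_lit 4529004916) (nat_lit 304) (nat_lit 161766509) (nat_lit 380) (nat_lit 6058157749) (nat_lit 151) (nat_lit 5) (nat_lit 155) (nat_lit 5) (nat_lit 156) (nat_lit 5) (nat_lit 433) (nat_lit 399) (nat_lit 368))) (XT.nd (nat_lit 78) (nat_lit 380) (nat_lit 0) (XT.lf (nat_lit 0) (nat_lit 5866187935) (nat_lit 304) (nat_lit 4393398624) (nat_lit 380) (nat_lit 779344677) (nat_lit 147) (nat_lit 5) (nat_lit 151) (nat_lit 5) (nat_lit 152) (nat_lit 5) (nat_lit 434) (nat_lit 399) (nat_lit 367)) (XT.lf (nat_lit 0) (nat_lit 4709877263) (nat_lit 380) (nat_lit 4107830275) (nat_lit 76) (nat_lit 2523187014) (nat_lit 142)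 (nat_lit 5) (nat_lit 147) (nat_lit 5) (nat_lit 143) (nat_lit 5) (nat_lit 435) (nat_lit 399) (nat_lit 366))))))) (XT.nd (nat_lit 1014) (nat_lit 2432) (nat_lit 0) (XT.nd (nat_lit 468) (nat_lit 1596) (nat_lit 0) (XT.nd (nat_lit 234) (nat_lit 1140) (nat_lit 0) (XT.nd (nat_lit 78) (nat_lit 608) (nat_lit 0) (XT.lf (nat_lit 0) (nat_lit 8649004381) (nat_lit 304) (nat_lit 1872004683) (nat_lit 380) (nat_lit 1134825047) (nat_lit 138) (nat_lit 5) (nat_lit 142) (nat_lit 5) (nat_lit 143) (nat_lit 5) (nat_lit 436) (nat_lit 399) (nat_lit 365)) (XT.nd (nat_lit 78) (nat_lit 304) (nat_lit 0) (XT.lf (nat_lit 0) (nat_lit 4624033383) (nat_lit 304) (nat_lit 1916148681) (nat_lit 76) (nat_lit 5442667181) (nat_lit 134) (nat_lit 5) (nat_lit 138) (nat_lit 5) (nat_lit 135) (nat_lit 5) (nat_lit 437) (nat_lit 399) (nat_lit 364)) (XT.lf (nat_lit 0) (nat_lit 10705267014) (nat_lit 380) (nat_lit 779285726) (nat_lit 76) (nat_lit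 839602845) (nat_lit 130) (nat_lit 5) (nat_lit 135) (nat_lit 5) (nat_lit 131) (nat_lit 5) (nat_lit 438) (nat_lit 399) (nat_lit 363)))) (XT.nd (nat_lit 78) (nat_lit 532) (nat_lit 0) (XT.lf (nat_lit 0) (nat_lit 338727908) (nat_lit 304) (nat_lit 4090347911) (nat_lit 380) (nat_lit 8248982014) (nat_lit 122) (nat_lit 5) (nat_lit 126) (nat_lit 5) (nat_lit 127) (nat_lit 5) (nat_lit 439) (nat_lit 399) (nat_lit 362)) (XT.nd (nat_lit 78) (nat_lit 304) (nat_lit 0) (XT.lf (nat_lit 0) (nat_lit 1500622411) (nat_lit 228) (nat_lit 9331595873) (nat_lit 304) (nat_lit 2214381071) (nat_lit 119) (nat_lit 5) (nat_lit 122) (nat_lit 5) (nat_lit 123) (nat_lit 5) (nat_lit 440) (nat_lit 399) (nat_lit 361)) (XT.lf (nat_lit 0) (nat_lit 2659432615) (nat_lit 228) (nat_lit 1471343080) (nat_lit 304) (nat_lit 9298937664) (nat_lit 115) (nat_lit 5) (nat_lit 118) (nat_lit 5) (nat_lit 119) (nat_lit 5) (nat_lit 441) (nat_lit 399) (nat_lit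 360))))) (XT.nd (nat_lit 234) (nat_lit 912) (nat_lit 0) (XT.nd (nat_lit 78) (nat_lit 456) (nat_lit 0) (XT.lf (nat_lit 0) (nat_lit 3804962119) (nat_lit 228) (nat_lit 7061621165) (nat_lit 304) (nat_lit 2961177665) (nat_lit 112) (nat_lit 5) (nat_lit 115) (nat_lit 5) (nat_lit 116) (nat_lit 5) (nat_lit 442) (nat_lit 399) (nat_lit 359)) (XT.nd (nat_lit 78) (nat_lit 152) (nat_lit 0) (XT.lf (nat_lit 0) (nat_lit 3707571810) (nat_lit 304) (nat_lit 9283220646) (nat_lit 76) (nat_lit 1251278578) (nat_lit 108) (nat_lit 5) (nat_lit 112) (nat_lit 5) (nat_lit 109) (nat_lit 5) (nat_lit 443) (nat_lit 399) (nat_lit 358)) (XT.lf (nat_lit 0) (nat_lit 6078154790) (nat_lit 152) (nat_lit 4706766998) (nat_lit 228) (nat_lit 3887213099) (nat_lit 106) (nat_lit 5) (nat_lit 108) (nat_lit 5) (nat_lit 109) (nat_lit 5) (nat_lit 444) (nat_lit 399) (nat_lit 357)))) (XT.nd (nat_lit 156) (nat_lit 456) (nat_lit 0) (XT.nd (nat_lit 78)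 (nat_lit 152) (nat_lit 0) (XT.lf (nat_lit 0) (nat_lit 3141923985) (nat_lit 304) (nat_lit 7929752284) (nat_lit 76) (nat_lit 4047848150) (nat_lit 102) (nat_lit 5) (nat_lit 106) (nat_lit 5) (nat_lit 103) (nat_lit 5) (nat_lit 445) (nat_lit 399) (nat_lit 356)) (XT.lf (nat_lit 0) (nat_lit 8271341849) (nat_lit 152) (nat_lit 2294480685) (nat_lit 228) (nat_lit 5018604107) (nat_lit 100) (nat_lit 5) (nat_lit 102) (nat_lit 5) (nat_lit 103) (nat_lit 5) (nat_lit 446) (nat_lit 399) (nat_lit 355))) (XT.nd (nat_lit 78) (nat_lit 152) (nat_lit 0) (XT.lf (nat_lit 0) (nat_lit 2392826301) (nat_lit 304) (nat_lit 6754374638) (nat_lit 76) (nat_lit 6920247097) (nat_lit 96) (nat_lit 5) (nat_lit 100) (nat_lit 5) (nat_lit 97) (nat_lit 5) (nat_lit 447) (nat_lit 399) (nat_lit 354)) (XT.lf (nat_lit 0) (nat_lit 10182772608) (nat_lit 228) (nat_lit 6246304124) (nat_lit 76) (nat_lit 140708720) (nat_lit 94) (nat_lit 5) (nat_lit 97)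 (nat_lit 5) (nat_lit 95) (nat_lit 5) (nat_lit 448) (nat_lit 399) (nat_lit 353)))))) (XT.nd (nat_lit 468) (nat_lit 1216) (nat_lit 0) (XT.nd (nat_lit 234) (nat_lit 532) (nat_lit 0) (XT.nd (nat_lit 78) (nat_lit 380) (nat_lit 0) (XT.lf (nat_lit 0) (nat_lit 1426228308) (nat_lit 304) (nat_lit 5828052458) (nat_lit 76) (nat_lit 9837023244) (nat_lit 90) (nat_lit 5) (nat_lit 94) (nat_lit 5) (nat_lit 91) (nat_lit 5) (nat_lit 449) (nat_lit 399) (nat_lit 352)) (XT.nd (nat_lit 78) (nat_lit 228) (nat_lit 0) (XT.lf (nat_lit 0) (nat_lit 9620913053) (nat_lit 228) (nat_lit 5492622128) (nat_lit 76) (nat_lit 2519786744) (nat_lit 88) (nat_lit 5) (nat_lit 91) (nat_lit 5) (nat_lit 89) (nat_lit 5) (nat_lit 450) (nat_lit 399) (nat_lit 351)) (XT.lf (nat_lit 0) (nat_lit 199717640) (nat_lit 228) (nat_lit 5236613308) (nat_lit 76) (nat_lit 12760791288) (nat_lit 85) (nat_lit 5) (nat_lit 88) (nat_lit 5) (nat_lit 86) (nat_lit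 5) (nat_lit 451) (nat_lit 399) (nat_lit 350)))) (XT.nd (nat_lit 78) (nat_lit 380) (nat_lit 0) (XT.lf (nat_lit 0) (nat_lit 8813546466) (nat_lit 228) (nat_lit 5124346176) (nat_lit 76) (nat_lit 4844141843) (nat_lit 83) (nat_lit 5) (nat_lit 86) (nat_lit 5) (nat_lit 84) (nat_lit 5) (nat_lit 452) (nat_lit 399) (nat_lit 349)) (XT.nd (nat_lit 78) (nat_lit 228) (nat_lit 0) (XT.lf (nat_lit 0) (nat_lit 14294319955) (nat_lit 152) (nat_lit 3731322166) (nat_lit 228) (nat_lit 1365528672) (nat_lit 81) (nat_lit 5) (nat_lit 83) (nat_lit 5) (nat_lit 84) (nat_lit 5) (nat_lit 453) (nat_lit 399) (nat_lit 348)) (XT.lf (nat_lit 0) (nat_lit 7705653211) (nat_lit 228) (nat_lit 5255365704) (nat_lit 76) (nat_lit 7061908214) (nat_lit 78) (nat_lit 5) (nat_lit 81) (nat_lit 5) (nat_lit 79) (nat_lit 5) (nat_lit 454) (nat_lit 399) (nat_lit 347))))) (XT.nd (nat_lit 234) (nat_lit 684) (nat_lit 0) (XT.nd (nat_lit 78) (nat_lit 380)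 (nat_lit 0) (XT.lf (nat_lit 0) (nat_lit 15154762817) (nat_lit 152) (nat_lit 2208354070) (nat_lit 228) (nat_lit 3317924900) (nat_lit 76) (nat_lit 5) (nat_lit 78) (nat_lit 5) (nat_lit 79) (nat_lit 5) (nat_lit 455) (nat_lit 399) (nat_lit 346)) (XT.nd (nat_lit 78) (nat_lit 152) (nat_lit 0) (XT.lf (nat_lit 0) (nat_lit 6230030451) (nat_lit 228) (nat_lit 6022878403) (nat_lit 76) (nat_lit 9110841280) (nat_lit 73) (nat_lit 5) (nat_lit 76) (nat_lit 5) (nat_lit 74) (nat_lit 5) (nat_lit 456) (nat_lit 399) (nat_lit 345)) (XT.lf (nat_lit 0) (nat_lit 15400806044) (nat_lit 152) (nat_lit 942075695) (nat_lit 228) (nat_lit 5732047523) (nat_lit 71) (nat_lit 5) (nat_lit 73) (nat_lit 5) (nat_lit 74) (nat_lit 5) (nat_lit 457) (nat_lit 399) (nat_lit 344)))) (XT.nd (nat_lit 156) (nat_lit 304) (nat_lit 0) (XT.nd (nat_lit 78) (nat_lit 152) (nat_lit 0) (XT.lf (nat_lit 0) (nat_lit 4305153750) (nat_lit 228) (nat_lit 7591830096)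 (nat_lit 76) (nat_lit 10916107007) (nat_lit 68) (nat_lit 5) (nat_lit 71) (nat_lit 5) (nat_lit 69) (nat_lit 5) (nat_lit 458) (nat_lit 399) (nat_lit 343)) (XT.lf (nat_lit 0) (nat_lit 14859889364) (nat_lit 152) (nat_lit 19452580) (nat_lit 228) (nat_lit 8702509657) (nat_lit 66) (nat_lit 5) (nat_lit 68) (nat_lit 5) (nat_lit 69) (nat_lit 5) (nat_lit 459) (nat_lit 399) (nat_lit 342))) (XT.nd (nat_lit 78) (nat_lit 152) (nat_lit 0) (XT.lf (nat_lit 0) (nat_lit 1832649282) (nat_lit 152) (nat_lit 10160127939) (nat_lit 76) (nat_lit 12387700859) (nat_lit 64) (nat_lit 5) (nat_lit 66) (nat_lit 5) (nat_lit 65) (nat_lit 5) (nat_lit 460) (nat_lit 399) (nat_lit 341)) (XT.lf (nat_lit 0) (nat_lit 12873396561) (nat_lit 228) (nat_lit 11891823375) (nat_lit 76) (nat_lit 446470125) (nat_lit 62) (nat_lit 5) (nat_lit 65) (nat_lit 5) (nat_lit 63) (nat_lit 4) (nat_lit 461) (nat_lit 399) (nat_lit 340))))))))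
noncomputable def xc47 : XT := (XT.nd (nat_lit 1950) (nat_lit 760) (nat_lit 0) (XT.nd (nat_lit 936) (nat_lit 1064) (nat_lit 0) (XT.nd (nat_lit 468) (nat_lit 608) (nat_lit 0) (XT.nd (nat_lit 234) (nat_lit 532) (nat_lit 0) (XT.nd (nat_lit 78) (nat_lit 304) (nat_lit 0) (XT.lf (nat_lit 0) (nat_lit 12098555084) (nat_lit 76) (nat_lit 12645888113) (nat_lit 152) (nat_lit 1331674853) (nat_lit 61) (nat_lit 5) (nat_lit 62) (nat_lit 5) (nat_lit 63) (nat_lit 4) (nat_lit 462) (nat_lit 399) (nat_lit 339)) (XT.nd (nat_lit 78) (nat_lit 76) (nat_lit 0) (XT.lf (nat_lit 0) (nat_lit 10190799582) (nat_lit 228) (nat_lit 16434400426) (nat_lit 76) (nat_lit 350670002) (nat_lit 58) (nat_lit 5) (nat_lit 61) (nat_lit 5) (nat_lit 59) (nat_lit 4) (nat_lit 463) (nat_lit 399) (nat_lit 338)) (XT.lf (nat_lit 0) (nat_lit 8570929722) (nat_lit 76) (nat_lit 13984550020) (nat_lit 152) (nat_lit 5355928465) (nat_lit 57) (nat_lit 5) (nat_lit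 58) (nat_lit 5) (nat_lit 59) (nat_lit 4) (nat_lit 464) (nat_lit 399) (nat_lit 337)))) (XT.nd (nat_lit 78) (nat_lit 304) (nat_lit 0) (XT.lf (nat_lit 0) (nat_lit 6223248462) (nat_lit 152) (nat_lit 461733267) (nat_lit 228) (nat_lit 22201728889) (nat_lit 54) (nat_lit 5) (nat_lit 56) (nat_lit 5) (nat_lit 57) (nat_lit 5) (nat_lit 465) (nat_lit 399) (nat_lit 336)) (XT.nd (nat_lit 78) (nat_lit 228) (nat_lit 0) (XT.lf (nat_lit 0) (nat_lit 3329449278) (nat_lit 76) (nat_lit 16194495526) (nat_lit 152) (nat_lit 10376041725) (nat_lit 53) (nat_lit 5) (nat_lit 54) (nat_lit 5) (nat_lit 55) (nat_lit 4) (nat_lit 466) (nat_lit 399) (nat_lit 335)) (XT.lf (nat_lit 0) (nat_lit 2227245) (nat_lit 152) (nat_lit 2181004898) (nat_lit 228) (nat_lit 28774644028) (nat_lit 50) (nat_lit 5) (nat_lit 52) (nat_lit 5) (nat_lit 53) (nat_lit 5) (nat_lit 467) (nat_lit 399) (nat_lit 334))))) (XT.nd (nat_lit 234) (nat_lit 304) (nat_lit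 0) (XT.nd (nat_lit 78) (nat_lit 304) (nat_lit 0) (XT.lf (nat_lit 0) (nat_lit 15497672670) (nat_lit 228) (nat_lit 3937457646) (nat_lit 76) (nat_lit 12620196358) (nat_lit 50) (nat_lit 5) (nat_lit 53) (nat_lit 5) (nat_lit 51) (nat_lit 4) (nat_lit 468) (nat_lit 399) (nat_lit 333)) (XT.nd (nat_lit 78) (nat_lit 228) (nat_lit 0) (XT.lf (nat_lit 0) (nat_lit 24790557547) (nat_lit 76) (nat_lit 4893398658) (nat_lit 152) (nat_lit 3517511993) (nat_lit 49) (nat_lit 5) (nat_lit 50) (nat_lit 5) (nat_lit 51) (nat_lit 4) (nat_lit 469) (nat_lit 399) (nat_lit 332)) (XT.lf (nat_lit 0) (nat_lit 10266900482) (nat_lit 228) (nat_lit 13657875433) (nat_lit 76) (nat_lit 10468484488) (nat_lit 46) (nat_lit 5) (nat_lit 49) (nat_lit 5) (nat_lit 47) (nat_lit 4) (nat_lit 470) (nat_lit 399) (nat_lit 331)))) (XT.nd (nat_lit 78) (nat_lit 228) (nat_lit 0) (XT.lf (nat_lit 0) (nat_lit 16000038617) (nat_lit 76) (nat_lit 8907098540) (nat_lit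 152) (nat_lit 10729281593) (nat_lit 45) (nat_lit 5) (nat_lit 46) (nat_lit 5) (nat_lit 47) (nat_lit 4) (nat_lit 471) (nat_lit 399) (nat_lit 330)) (XT.nd (nat_lit 78) (nat_lit 76) (nat_lit 0) (XT.lf (nat_lit 0) (nat_lit 3533386716) (nat_lit 152) (nat_lit 26439142400) (nat_lit 76) (nat_lit 6960419155) (nat_lit 43) (nat_lit 5) (nat_lit 45) (nat_lit 5) (nat_lit 44) (nat_lit 4) (nat_lit 472) (nat_lit 399) (nat_lit 329)) (XT.lf (nat_lit 0) (nat_lit 4035580048) (nat_lit 76) (nat_lit 14536779393) (nat_lit 152) (nat_lit 19710207491) (nat_lit 42) (nat_lit 5) (nat_lit 43) (nat_lit 5) (nat_lit 44) (nat_lit 4) (nat_lit 473) (nat_lit 399) (nat_lit 328)))))) (XT.nd (nat_lit 468) (nat_lit 608) (nat_lit 0) (XT.nd (nat_lit 234) (nat_lit 228) (nat_lit 0) (XT.nd (nat_lit 78) (nat_lit 228) (nat_lit 0) (XT.lf (nat_lit 0) (nat_lit 34605427962) (nat_lit 152) (nat_lit 3217578529) (nat_lit 0) (nat_lit 1869397189) (nat_lit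 42) (nat_lit 5) (nat_lit 44) (nat_lit 4) (nat_lit 42) (nat_lit 4) (nat_lit 474) (nat_lit 399) (nat_lit 327)) (XT.nd (nat_lit 78) (nat_lit 76) (nat_lit 0) (XT.lf (nat_lit 0) (nat_lit 10456712953) (nat_lit 152) (nat_lit 11556801839) (nat_lit 76) (nat_lit 19144568536) (nat_lit 40) (nat_lit 5) (nat_lit 42) (nat_lit 5) (nat_lit 41) (nat_lit 4) (nat_lit 475) (nat_lit 399) (nat_lit 326)) (XT.lf (nat_lit 0) (nat_lit 21716630476) (nat_lit 76) (nat_lit 5153407502) (nat_lit 152) (nat_lit 15819569628) (nat_lit 39) (nat_lit 5) (nat_lit 40) (nat_lit 5) (nat_lit 41) (nat_lit 4) (nat_lit 476) (nat_lit 399) (nat_lit 325)))) (XT.nd (nat_lit 78) (nat_lit 76) (nat_lit 0) (XT.lf (nat_lit 0) (nat_lit 130957405) (nat_lit 152) (nat_lit 31649682532) (nat_lit 76) (nat_lit 12507499587) (nat_lit 37) (nat_lit 5) (nat_lit 39) (nat_lit 5) (nat_lit 38) (nat_lit 4) (nat_lit 477) (nat_lit 399) (nat_lit 324)) (XT.nd (nat_lit 78)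 (nat_lit 0) (nat_lit 0) (XT.lf (nat_lit 0) (nat_lit 2152235845) (nat_lit 76) (nat_lit 14649701681) (nat_lit 152) (nat_lit 29152459856) (nat_lit 36) (nat_lit 5) (nat_lit 37) (nat_lit 5) (nat_lit 38) (nat_lit 4) (nat_lit 478) (nat_lit 399) (nat_lit 323)) (XT.lf (nat_lit 0) (nat_lit 34624810618) (nat_lit 152) (nat_lit 9506890635) (nat_lit 0) (nat_lit 3562717720) (nat_lit 36) (nat_lit 5) (nat_lit 38) (nat_lit 4) (nat_lit 36) (nat_lit 4) (nat_lit 479) (nat_lit 399) (nat_lit 322))))) (XT.nd (nat_lit 234) (nat_lit 380) (nat_lit 0) (XT.nd (nat_lit 78) (nat_lit 76) (nat_lit 0) (XT.lf (nat_lit 0) (nat_lit 4111242436) (nat_lit 152) (nat_lit 22751646016) (nat_lit 76) (nat_lit 22646402983) (nat_lit 34) (nat_lit 5) (nat_lit 36) (nat_lit 5) (nat_lit 35) (nat_lit 4) (nat_lit 480) (nat_lit 399) (nat_lit 321)) (XT.nd (nat_lit 78) (nat_lit 0) (nat_lit 0) (XT.lf (nat_lit 0) (nat_lit 13678539414) (nat_lit 76) (nat_lit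 8395203594) (nat_lit 152) (nat_lit 29331496268) (nat_lit 33) (nat_lit 5) (nat_lit 34) (nat_lit 5) (nat_lit 35) (nat_lit 4) (nat_lit 481) (nat_lit 399) (nat_lit 320)) (XT.lf (nat_lit 0) (nat_lit 41237492915) (nat_lit 152) (nat_lit 1167483884) (nat_lit 0) (nat_lit 10981914952) (nat_lit 33) (nat_lit 5) (nat_lit 35) (nat_lit 4) (nat_lit 33) (nat_lit 4) (nat_lit 482) (nat_lit 399) (nat_lit 319)))) (XT.nd (nat_lit 156) (nat_lit 152) (nat_lit 0) (XT.nd (nat_lit 78) (nat_lit 76) (nat_lit 0) (XT.lf (nat_lit 0) (nat_lit 6191752088) (nat_lit 152) (nat_lit 17715989654) (nat_lit 76) (nat_lit 31545739371) (nat_lit 31) (nat_lit 5) (nat_lit 33) (nat_lit 5) (nat_lit 32) (nat_lit 4) (nat_lit 483) (nat_lit 399) (nat_lit 318)) (XT.lf (nat_lit 0) (nat_lit 21208987035) (nat_lit 76) (nat_lit 4171549457) (nat_lit 152) (nat_lit 32233800252) (nat_lit 30) (nat_lit 5) (nat_lit 31) (nat_lit 5) (nat_lit 32) (nat_lit 4) (nat_lit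 484) (nat_lit 399) (nat_lit 317))) (XT.nd (nat_lit 78) (nat_lit 76) (nat_lit 0) (XT.lf (nat_lit 0) (nat_lit 2388457264) (nat_lit 76) (nat_lit 43470787514) (nat_lit 76) (nat_lit 14014076653) (nat_lit 29) (nat_lit 4) (nat_lit 30) (nat_lit 5) (nat_lit 30) (nat_lit 4) (nat_lit 485) (nat_lit 399) (nat_lit 316)) (XT.lf (nat_lit 0) (nat_lit 5402317136) (nat_lit 152) (nat_lit 18514889314) (nat_lit 76) (nat_lit 38315008293) (nat_lit 28) (nat_lit 5) (nat_lit 30) (nat_lit 5) (nat_lit 29) (nat_lit 4) (nat_lit 486) (nat_lit 399) (nat_lit 315))))))) (XT.nd (nat_lit 55848) (nat_lit 0) (nat_lit 22724) (XT.nd (nat_lit 468) (nat_lit 380) (nat_lit 0) (XT.nd (nat_lit 234) (nat_lit 152) (nat_lit 0) (XT.nd (nat_lit 78) (nat_lit 152) (nat_lit 0) (XT.lf (nat_lit 0) (nat_lit 22638566362) (nat_lit 76) (nat_lit 3048062619) (nat_lit 152) (nat_lit 39012653930) (nat_lit 27) (nat_lit 5) (nat_lit 28) (nat_lit 5) (nat_lit 29)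 (nat_lit 4) (nat_lit 487) (nat_lit 399) (nat_lit 314)) (XT.nd (nat_lit 78) (nat_lit 152) (nat_lit 0) (XT.lf (nat_lit 0) (nat_lit 47326277345) (nat_lit 152) (nat_lit 1294741512) (nat_lit 0) (nat_lit 18658452688) (nat_lit 27) (nat_lit 5) (nat_lit 29) (nat_lit 4) (nat_lit 27) (nat_lit 4) (nat_lit 488) (nat_lit 399) (nat_lit 313)) (XT.lf (nat_lit 0) (nat_lit 467778131) (nat_lit 152) (nat_lit 27739103219) (nat_lit 76) (nat_lit 41769480943) (nat_lit 25) (nat_lit 5) (nat_lit 27) (nat_lit 5) (nat_lit 26) (nat_lit 4) (nat_lit 489) (nat_lit 399) (nat_lit 312)))) (XT.nd (nat_lit 78) (nat_lit 76) (nat_lit 0) (XT.lf (nat_lit 0) (nat_lit 15200372535) (nat_lit 76) (nat_lit 6429647074) (nat_lit 152) (nat_lit 51168165383) (nat_lit 24) (nat_lit 5) (nat_lit 25) (nat_lit 5) (nat_lit 26) (nat_lit 4) (nat_lit 490) (nat_lit 399) (nat_lit 311)) (XT.nd (nat_lit 78) (nat_lit 76) (nat_lit 0) (XT.lf (nat_lit 0) (nat_lit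 44266838217) (nat_lit 152) (nat_lit 15105701168) (nat_lit 0) (nat_lit 16376066064) (nat_lit 24) (nat_lit 5) (nat_lit 26) (nat_lit 4) (nat_lit 24) (nat_lit 4) (nat_lit 491) (nat_lit 399) (nat_lit 310)) (XT.lf (nat_lit 0) (nat_lit 29975009478) (nat_lit 76) (nat_lit 38385037664) (nat_lit 76) (nat_lit 10476763852) (nat_lit 23) (nat_lit 4) (nat_lit 24) (nat_lit 5) (nat_lit 24) (nat_lit 4) (nat_lit 492) (nat_lit 399) (nat_lit 309))))) (XT.nd (nat_lit 234) (nat_lit 152) (nat_lit 0) (XT.nd (nat_lit 78) (nat_lit 152) (nat_lit 0) (XT.lf (nat_lit 0) (nat_lit 11481665368) (nat_lit 152) (nat_lit 4617161361) (nat_lit 76) (nat_lit 65973388195) (nat_lit 22) (nat_lit 5) (nat_lit 24) (nat_lit 5) (nat_lit 23) (nat_lit 4) (nat_lit 493) (nat_lit 399) (nat_lit 308)) (XT.nd (nat_lit 78) (nat_lit 76) (nat_lit 0) (XT.lf (nat_lit 0) (nat_lit 34780435511) (nat_lit 152) (nat_lit 43018640138) (nat_lit 0) (nat_lit 7653429122)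 (nat_lit 21) (nat_lit 5) (nat_lit 23) (nat_lit 4) (nat_lit 21) (nat_lit 4) (nat_lit 494) (nat_lit 399) (nat_lit 307)) (XT.lf (nat_lit 0) (nat_lit 2773305042) (nat_lit 76) (nat_lit 56681928244) (nat_lit 76) (nat_lit 29540243611) (nat_lit 20) (nat_lit 4) (nat_lit 21) (nat_lit 5) (nat_lit 21) (nat_lit 4) (nat_lit 495) (nat_lit 399) (nat_lit 306)))) (XT.nd (nat_lit 54990) (nat_lit 0) (nat_lit 30324) (XT.nd (nat_lit 78) (nat_lit 152) (nat_lit 0) (XT.lf (nat_lit 0) (nat_lit 51703887813) (nat_lit 76) (nat_lit 34077423969) (nat_lit 76) (nat_lit 6921760056) (nat_lit 20) (nat_lit 4) (nat_lit 21) (nat_lit 5) (nat_lit 21) (nat_lit 4) (nat_lit 496) (nat_lit 399) (nat_lit 305)) (XT.lf (nat_lit 0) (nat_lit 6400053534) (nat_lit 76) (nat_lit 10136414962) (nat_lit 152) (nat_lit 80053610040) (nat_lit 18) (nat_lit 5) (nat_lit 19) (nat_lit 5) (nat_lit 20) (nat_lit 4) (nat_lit 497) (nat_lit 399) (nat_lit 304))) (XT.nd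 (nat_lit 78) (nat_lit 76) (nat_lit 0) (XT.lf (nat_lit 0) (nat_lit 1073741823) (nat_lit 0) (nat_lit 0) (nat_lit 0) (nat_lit 0) (nat_lit 418) (nat_lit 0) (nat_lit 1) (nat_lit 0) (nat_lit 1) (nat_lit 0) (nat_lit 400) (nat_lit 400) (nat_lit 400)) (XT.lf (nat_lit 0) (nat_lit 5171826921) (nat_lit 76) (nat_lit 1138724804) (nat_lit 0) (nat_lit 135466461) (nat_lit 417) (nat_lit 5) (nat_lit 418) (nat_lit 0) (nat_lit 417) (nat_lit 4) (nat_lit 401) (nat_lit 400) (nat_lit 399)))))) (XT.nd (nat_lit 468) (nat_lit 5624) (nat_lit 0) (XT.nd (nat_lit 234) (nat_lit 1292) (nat_lit 0) (XT.nd (nat_lit 78) (nat_lit 532) (nat_lit 0) (XT.lf (nat_lit 0) (nat_lit 3780766939) (nat_lit 152) (nat_lit 2157937345) (nat_lit 76) (nat_lit 518727937) (nat_lit 415) (nat_lit 5) (nat_lit 417) (nat_lit 5) (nat_lit 416) (nat_lit 4) (nat_lit 402) (nat_lit 400) (nat_lit 398)) (XT.nd (nat_lit 78) (nat_lit 304) (nat_lit 0) (XT.lf (nat_lit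 0) (nat_lit 2266171687) (nat_lit 228) (nat_lit 3059652540) (nat_lit 76) (nat_lit 1150890198) (nat_lit 412) (nat_lit 5) (nat_lit 415) (nat_lit 5) (nat_lit 413) (nat_lit 5) (nat_lit 403) (nat_lit 400) (nat_lit 397)) (XT.lf (nat_lit 0) (nat_lit 624578779) (nat_lit 304) (nat_lit 3845539699) (nat_lit 76) (nat_lit 2033782512) (nat_lit 408) (nat_lit 5) (nat_lit 412) (nat_lit 5) (nat_lit 409) (nat_lit 5) (nat_lit 404) (nat_lit 400) (nat_lit 396)))) (XT.nd (nat_lit 78) (nat_lit 988) (nat_lit 0) (XT.lf (nat_lit 0) (nat_lit 2010526181) (nat_lit 304) (nat_lit 3357490024) (nat_lit 380) (nat_lit 1170689186) (nat_lit 404) (nat_lit 5) (nat_lit 408) (nat_lit 5) (nat_lit 409) (nat_lit 5) (nat_lit 405) (nat_lit 400) (nat_lit 395)) (XT.nd (nat_lit 78) (nat_lit 532) (nat_lit 0) (XT.lf (nat_lit 0) (nat_lit 1476555713) (nat_lit 380) (nat_lit 1988634222) (nat_lit 456) (nat_lit 3116117972) (nat_lit 398) (nat_lit 5) (nat_lit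 403) (nat_lit 5) (nat_lit 404) (nat_lit 5) (nat_lit 406) (nat_lit 400) (nat_lit 394)) (XT.lf (nat_lit 0) (nat_lit 1062142512) (nat_lit 456) (nat_lit 365860134) (nat_lit 532) (nat_lit 5203969510) (nat_lit 391) (nat_lit 5) (nat_lit 397) (nat_lit 5) (nat_lit 398) (nat_lit 5) (nat_lit 407) (nat_lit 400) (nat_lit 393))))) (XT.nd (nat_lit 234) (nat_lit 3648) (nat_lit 0) (XT.nd (nat_lit 78) (nat_lit 1444) (nat_lit 0) (XT.lf (nat_lit 0) (nat_lit 744603134) (nat_lit 532) (nat_lit 5196948524) (nat_lit 608) (nat_lit 748588712) (nat_lit 384) (nat_lit 5) (nat_lit 391) (nat_lit 5) (nat_lit 392) (nat_lit 5) (nat_lit 408) (nat_lit 400) (nat_lit 392)) (XT.nd (nat_lit 78) (nat_lit 760) (nat_lit 0) (XT.lf (nat_lit 0) (nat_lit 524378729) (nat_lit 608) (nat_lit 3136478103) (nat_lit 684) (nat_lit 3095076818) (nat_lit 375) (nat_lit 5) (nat_lit 383) (nat_lit 5) (nat_lit 384) (nat_lit 5) (nat_lit 409) (nat_lit 400) (nat_lit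 391)) (XT.lf (nat_lit 0) (nat_lit 419787121) (nat_lit 684) (nat_lit 817706796) (nat_lit 760) (nat_lit 5592505438) (nat_lit 365) (nat_lit 5) (nat_lit 374) (nat_lit 5) (nat_lit 375) (nat_lit 5) (nat_lit 410) (nat_lit 400) (nat_lit 390)))) (XT.nd (nat_lit 156) (nat_lit 1976) (nat_lit 0) (XT.nd (nat_lit 78) (nat_lit 912) (nat_lit 0) (XT.lf (nat_lit 0) (nat_lit 400684057) (nat_lit 760) (nat_lit 5166942170) (nat_lit 836) (nat_lit 1343952954) (nat_lit 355) (nat_lit 5) (nat_lit 365) (nat_lit 5) (nat_lit 366) (nat_lit 5) (nat_lit 411) (nat_lit 400) (nat_lit 389)) (XT.lf (nat_lit 0) (nat_lit 474096011) (nat_lit 836) (nat_lit 2429043285) (nat_lit 912) (nat_lit 4097864290) (nat_lit 343) (nat_lit 5) (nat_lit 354) (nat_lit 5) (nat_lit 355) (nat_lit 5) (nat_lit 412) (nat_lit 400) (nat_lit 388))) (XT.nd (nat_lit 78) (nat_lit 988) (nat_lit 0) (XT.lf (nat_lit 0) (nat_lit 89860186) (nat_lit 988) (nat_lit 6442872489)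 (nat_lit 76) (nat_lit 566137406) (nat_lit 330) (nat_lit 5) (nat_lit 343) (nat_lit 5) (nat_lit 331) (nat_lit 5) (nat_lit 413) (nat_lit 400) (nat_lit 387)) (XT.lf (nat_lit 0) (nat_lit 897948890) (nat_lit 988) (nat_lit 3389933347) (nat_lit 1064) (nat_lit 2916024538) (nat_lit 317) (nat_lit 5) (nat_lit 330) (nat_lit 5) (nat_lit 331) (nat_lit 5) (nat_lit 414) (nat_lit 400) (nat_lit 386))))))))
noncomputable def xc48 : XT := (XT.nd (nat_lit 1950) (nat_lit 5168) (nat_lit 0) (XT.nd (nat_lit 936) (nat_lit 5168) (nat_lit 0) (XT.nd (nat_lit 468) (nat_lit 3724) (nat_lit 0) (XT.nd (nat_lit 234) (nat_lit 2052) (nat_lit 0) (XT.nd (nat_lit 78) (nat_lit 2432) (nat_lit 0) (XT.lf (nat_lit 0) (nat_lit 1224229284) (nat_lit 1140) (nat_lit 6066014738) (nat_lit 76) (nat_lit 27524560) (nat_lit 302) (nat_lit 5) (nat_lit 317) (nat_lit 5) (nat_lit 303) (nat_lit 5) (nat_lit 415) (nat_lit 400) (nat_lit 385)) (XT.nd (nat_lit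 78) (nat_lit 1292) (nat_lit 0) (XT.lf (nat_lit 0) (nat_lit 1664290341) (nat_lit 1140) (nat_lit 3761958713) (nat_lit 1216) (nat_lit 2012812722) (nat_lit 287) (nat_lit 5) (nat_lit 302) (nat_lit 5) (nat_lit 303) (nat_lit 5) (nat_lit 416) (nat_lit 400) (nat_lit 384)) (XT.lf (nat_lit 0) (nat_lit 2116786998) (nat_lit 1292) (nat_lit 5392601129) (nat_lit 76) (nat_lit 59753233) (nat_lit 270) (nat_lit 5) (nat_lit 287) (nat_lit 5) (nat_lit 271) (nat_lit 5) (nat_lit 417) (nat_lit 400) (nat_lit 383)))) (XT.nd (nat_lit 78) (nat_lit 1292) (nat_lit 0) (XT.lf (nat_lit 0) (nat_lit 2750322672) (nat_lit 760) (nat_lit 3597973575) (nat_lit 836) (nat_lit 1358768640) (nat_lit 260) (nat_lit 5) (nat_lit 270) (nat_lit 5) (nat_lit 271) (nat_lit 5) (nat_lit 418) (nat_lit 400) (nat_lit 382)) (XT.nd (nat_lit 78) (nat_lit 608) (nat_lit 0) (XT.lf (nat_lit 0) (nat_lit 2794653334) (nat_lit 684) (nat_lit 4444155144) (nat_lit 76)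 (nat_lit 614898732) (nat_lit 251) (nat_lit 5) (nat_lit 260) (nat_lit 5) (nat_lit 252) (nat_lit 5) (nat_lit 419) (nat_lit 400) (nat_lit 381)) (XT.lf (nat_lit 0) (nat_lit 4136867164) (nat_lit 608) (nat_lit 2943162289) (nat_lit 684) (nat_lit 928720708) (nat_lit 243) (nat_lit 5) (nat_lit 251) (nat_lit 5) (nat_lit 252) (nat_lit 5) (nat_lit 420) (nat_lit 400) (nat_lit 380))))) (XT.nd (nat_lit 234) (nat_lit 1976) (nat_lit 0) (XT.nd (nat_lit 78) (nat_lit 1140) (nat_lit 0) (XT.lf (nat_lit 0) (nat_lit 3281035306) (nat_lit 608) (nat_lit 3239138875) (nat_lit 76) (nat_lit 1652246267) (nat_lit 235) (nat_lit 5) (nat_lit 243) (nat_lit 5) (nat_lit 236) (nat_lit 5) (nat_lit 421) (nat_lit 400) (nat_lit 379)) (XT.nd (nat_lit 78) (nat_lit 608) (nat_lit 0) (XT.lf (nat_lit 0) (nat_lit 5807758456) (nat_lit 532) (nat_lit 1835988860) (nat_lit 608) (nat_lit 701439238) (nat_lit 228) (nat_lit 5) (nat_lit 235) (nat_lit 5)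 (nat_lit 236) (nat_lit 5) (nat_lit 422) (nat_lit 400) (nat_lit 378)) (XT.lf (nat_lit 0) (nat_lit 3595528238) (nat_lit 608) (nat_lit 1793542655) (nat_lit 76) (nat_lit 3137398613) (nat_lit 220) (nat_lit 5) (nat_lit 228) (nat_lit 5) (nat_lit 221) (nat_lit 5) (nat_lit 423) (nat_lit 400) (nat_lit 377)))) (XT.nd (nat_lit 78) (nat_lit 1444) (nat_lit 0) (XT.lf (nat_lit 0) (nat_lit 7749258875) (nat_lit 532) (nat_lit 309055529) (nat_lit 608) (nat_lit 659363380) (nat_lit 213) (nat_lit 5) (nat_lit 220) (nat_lit 5) (nat_lit 221) (nat_lit 5) (nat_lit 424) (nat_lit 400) (nat_lit 376)) (XT.nd (nat_lit 78) (nat_lit 912) (nat_lit 0) (XT.lf (nat_lit 0) (nat_lit 3754347447) (nat_lit 532) (nat_lit 121464109) (nat_lit 76) (nat_lit 5041466663) (nat_lit 206) (nat_lit 5) (nat_lit 213) (nat_lit 5) (nat_lit 207) (nat_lit 5) (nat_lit 425) (nat_lit 400) (nat_lit 375)) (XT.lf (nat_lit 0) (nat_lit 822282858) (nat_lit 456) (nat_lit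 7540464827) (nat_lit 532) (nat_lit 764315726) (nat_lit 194) (nat_lit 5) (nat_lit 200) (nat_lit 5) (nat_lit 201) (nat_lit 5) (nat_lit 426) (nat_lit 400) (nat_lit 374)))))) (XT.nd (nat_lit 468) (nat_lit 2660) (nat_lit 0) (XT.nd (nat_lit 234) (nat_lit 1140) (nat_lit 0) (XT.nd (nat_lit 78) (nat_lit 836) (nat_lit 0) (XT.lf (nat_lit 0) (nat_lit 1799423231) (nat_lit 456) (nat_lit 1988366317) (nat_lit 532) (nat_lit 5558201312) (nat_lit 187) (nat_lit 5) (nat_lit 193) (nat_lit 5) (nat_lit 194) (nat_lit 5) (nat_lit 427) (nat_lit 400) (nat_lit 373)) (XT.nd (nat_lit 78) (nat_lit 456) (nat_lit 0) (XT.lf (nat_lit 0) (nat_lit 2838477981) (nat_lit 380) (nat_lit 5725726769) (nat_lit 456) (nat_lit 1011083793) (nat_lit 182) (nat_lit 5) (nat_lit 187) (nat_lit 5) (nat_lit 188) (nat_lit 5) (nat_lit 428) (nat_lit 400) (nat_lit 372)) (XT.lf (nat_lit 0) (nat_lit 3693881613) (nat_lit 456) (nat_lit 5888854710) (nat_lit 76)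 (nat_lit 232135896) (nat_lit 176) (nat_lit 5) (nat_lit 182) (nat_lit 5) (nat_lit 177) (nat_lit 5) (nat_lit 429) (nat_lit 400) (nat_lit 371)))) (XT.nd (nat_lit 78) (nat_lit 760) (nat_lit 0) (XT.lf (nat_lit 0) (nat_lit 5051869810) (nat_lit 380) (nat_lit 3607601092) (nat_lit 456) (nat_lit 1405298374) (nat_lit 171) (nat_lit 5) (nat_lit 176) (nat_lit 5) (nat_lit 177) (nat_lit 5) (nat_lit 430) (nat_lit 400) (nat_lit 370)) (XT.nd (nat_lit 78) (nat_lit 304) (nat_lit 0) (XT.lf (nat_lit 0) (nat_lit 3497997301) (nat_lit 456) (nat_lit 4102346052) (nat_lit 76) (nat_lit 2725186031) (nat_lit 165) (nat_lit 5) (nat_lit 171) (nat_lit 5) (nat_lit 166) (nat_lit 5) (nat_lit 431) (nat_lit 400) (nat_lit 369)) (XT.lf (nat_lit 0) (nat_lit 7450119761) (nat_lit 304) (nat_lit 1204658188) (nat_lit 380) (nat_lit 1943030969) (nat_lit 161) (nat_lit 5) (nat_lit 165) (nat_lit 5) (nat_lit 166) (nat_lit 5) (nat_lit 432) (nat_lit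 400) (nat_lit 368))))) (XT.nd (nat_lit 234) (nat_lit 1520) (nat_lit 0) (XT.nd (nat_lit 78) (nat_lit 684) (nat_lit 0) (XT.lf (nat_lit 0) (nat_lit 3184405726) (nat_lit 456) (nat_lit 2183046189) (nat_lit 76) (nat_lit 5513524397) (nat_lit 155) (nat_lit 5) (nat_lit 161) (nat_lit 5) (nat_lit 156) (nat_lit 5) (nat_lit 433) (nat_lit 400) (nat_lit 367)) (XT.nd (nat_lit 78) (nat_lit 380) (nat_lit 0) (XT.lf (nat_lit 0) (nat_lit 8567386138) (nat_lit 380) (nat_lit 1171199176) (nat_lit 76) (nat_lit 1437976843) (nat_lit 151) (nat_lit 5) (nat_lit 156) (nat_lit 5) (nat_lit 152) (nat_lit 5) (nat_lit 434) (nat_lit 400) (nat_lit 366)) (XT.lf (nat_lit 0) (nat_lit 2753252522) (nat_lit 380) (nat_lit 147741347) (nat_lit 76) (nat_lit 8582942372) (nat_lit 146) (nat_lit 5) (nat_lit 151) (nat_lit 5) (nat_lit 147) (nat_lit 5) (nat_lit 435) (nat_lit 400) (nat_lit 365)))) (XT.nd (nat_lit 156) (nat_lit 608) (nat_lit 0) (XT.nd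 (nat_lit 78) (nat_lit 304) (nat_lit 0) (XT.lf (nat_lit 0) (nat_lit 916522843) (nat_lit 304) (nat_lit 7489436545) (nat_lit 380) (nat_lit 3397676857) (nat_lit 138) (nat_lit 5) (nat_lit 142) (nat_lit 5) (nat_lit 143) (nat_lit 5) (nat_lit 436) (nat_lit 400) (nat_lit 364)) (XT.lf (nat_lit 0) (nat_lit 2023746028) (nat_lit 228) (nat_lit 196947758) (nat_lit 304) (nat_lit 9916156595) (nat_lit 134) (nat_lit 5) (nat_lit 137) (nat_lit 5) (nat_lit 138) (nat_lit 5) (nat_lit 437) (nat_lit 400) (nat_lit 363))) (XT.nd (nat_lit 78) (nat_lit 304) (nat_lit 0) (XT.lf (nat_lit 0) (nat_lit 3113264622) (nat_lit 304) (nat_lit 5045486435) (nat_lit 380) (nat_lit 4323707734) (nat_lit 130) (nat_lit 5) (nat_lit 134) (nat_lit 5) (nat_lit 135) (nat_lit 5) (nat_lit 438) (nat_lit 400) (nat_lit 362)) (XT.lf (nat_lit 0) (nat_lit 1588476066) (nat_lit 304) (nat_lit 8596122518) (nat_lit 76) (nat_lit 2658205575) (nat_lit 126) (nat_lit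 5) (nat_lit 130) (nat_lit 5) (nat_lit 127) (nat_lit 5) (nat_lit 439) (nat_lit 400) (nat_lit 361))))))) (XT.nd (nat_lit 936) (nat_lit 2280) (nat_lit 0) (XT.nd (nat_lit 468) (nat_lit 1368) (nat_lit 0) (XT.nd (nat_lit 234) (nat_lit 684) (nat_lit 0) (XT.nd (nat_lit 78) (nat_lit 532) (nat_lit 0) (XT.lf (nat_lit 0) (nat_lit 5370276537) (nat_lit 304) (nat_lit 2436304867) (nat_lit 380) (nat_lit 5410321361) (nat_lit 122) (nat_lit 5) (nat_lit 126) (nat_lit 5) (nat_lit 127) (nat_lit 5) (nat_lit 440) (nat_lit 400) (nat_lit 360)) (XT.nd (nat_lit 78) (nat_lit 228) (nat_lit 0) (XT.lf (nat_lit 0) (nat_lit 821342672) (nat_lit 304) (nat_lit 7093011044) (nat_lit 76) (nat_lit 5691865924) (nat_lit 118) (nat_lit 5) (nat_lit 122) (nat_lit 5) (nat_lit 119) (nat_lit 5) (nat_lit 441) (nat_lit 400) (nat_lit 359)) (XT.lf (nat_lit 0) (nat_lit 7340544593) (nat_lit 304) (nat_lit 6357164122) (nat_lit 76) (nat_lit 313061943)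 (nat_lit 115) (nat_lit 5) (nat_lit 119) (nat_lit 5) (nat_lit 116) (nat_lit 5) (nat_lit 442) (nat_lit 400) (nat_lit 358)))) (XT.nd (nat_lit 78) (nat_lit 456) (nat_lit 0) (XT.lf (nat_lit 0) (nat_lit 8790478453) (nat_lit 228) (nat_lit 5539891651) (nat_lit 304) (nat_lit 100849481) (nat_lit 112) (nat_lit 5) (nat_lit 115) (nat_lit 5) (nat_lit 116) (nat_lit 5) (nat_lit 443) (nat_lit 400) (nat_lit 357)) (XT.nd (nat_lit 78) (nat_lit 152) (nat_lit 0) (XT.lf (nat_lit 0) (nat_lit 6765381750) (nat_lit 304) (nat_lit 4964206243) (nat_lit 76) (nat_lit 3138121758) (nat_lit 108) (nat_lit 5) (nat_lit 112) (nat_lit 5) (nat_lit 109) (nat_lit 5) (nat_lit 444) (nat_lit 400) (nat_lit 356)) (XT.lf (nat_lit 0) (nat_lit 11028129201) (nat_lit 152) (nat_lit 3076348417) (nat_lit 228) (nat_lit 1217576729) (nat_lit 106) (nat_lit 5) (nat_lit 108) (nat_lit 5) (nat_lit 109) (nat_lit 5) (nat_lit 445) (nat_lit 400) (nat_lit 355)))))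 (XT.nd (nat_lit 234) (nat_lit 608) (nat_lit 0) (XT.nd (nat_lit 78) (nat_lit 456) (nat_lit 0) (XT.lf (nat_lit 0) (nat_lit 6035090824) (nat_lit 304) (nat_lit 3694773874) (nat_lit 76) (nat_lit 6063296778) (nat_lit 102) (nat_lit 5) (nat_lit 106) (nat_lit 5) (nat_lit 103) (nat_lit 5) (nat_lit 446) (nat_lit 400) (nat_lit 354)) (XT.nd (nat_lit 78) (nat_lit 304) (nat_lit 0) (XT.lf (nat_lit 0) (nat_lit 13183614922) (nat_lit 152) (nat_lit 559524614) (nat_lit 228) (nat_lit 2540792856) (nat_lit 100) (nat_lit 5) (nat_lit 102) (nat_lit 5) (nat_lit 103) (nat_lit 5) (nat_lit 447) (nat_lit 400) (nat_lit 353)) (XT.lf (nat_lit 0) (nat_lit 5120662897) (nat_lit 304) (nat_lit 2610047377) (nat_lit 76) (nat_lit 9061637950) (nat_lit 96) (nat_lit 5) (nat_lit 100) (nat_lit 5) (nat_lit 97) (nat_lit 5) (nat_lit 448) (nat_lit 400) (nat_lit 352)))) (XT.nd (nat_lit 78) (nat_lit 456) (nat_lit 0) (XT.lf (nat_lit 0) (nat_lit 13235325118)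 (nat_lit 228) (nat_lit 2146628574) (nat_lit 76) (nat_lit 1939803040) (nat_lit 94) (nat_lit 5) (nat_lit 97) (nat_lit 5) (nat_lit 95) (nat_lit 5) (nat_lit 449) (nat_lit 400) (nat_lit 351)) (XT.nd (nat_lit 78) (nat_lit 152) (nat_lit 0) (XT.lf (nat_lit 0) (nat_lit 3985626050) (nat_lit 304) (nat_lit 1784216025) (nat_lit 76) (nat_lit 12101185215) (nat_lit 90) (nat_lit 5) (nat_lit 94) (nat_lit 5) (nat_lit 91) (nat_lit 5) (nat_lit 450) (nat_lit 400) (nat_lit 350)) (XT.lf (nat_lit 0) (nat_lit 12529354369) (nat_lit 228) (nat_lit 1501101779) (nat_lit 76) (nat_lit 4411520163) (nat_lit 88) (nat_lit 5) (nat_lit 91) (nat_lit 5) (nat_lit 89) (nat_lit 5) (nat_lit 451) (nat_lit 400) (nat_lit 349)))))) (XT.nd (nat_lit 468) (nat_lit 1140) (nat_lit 0) (XT.nd (nat_lit 234) (nat_lit 532) (nat_lit 0) (XT.nd (nat_lit 78) (nat_lit 380) (nat_lit 0) (XT.lf (nat_lit 0) (nat_lit 2584803087) (nat_lit 228) (nat_lit 1307136222)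 (nat_lit 76) (nat_lit 15143610519) (nat_lit 85) (nat_lit 5) (nat_lit 88) (nat_lit 5) (nat_lit 86) (nat_lit 5) (nat_lit 452) (nat_lit 400) (nat_lit 348)) (XT.nd (nat_lit 78) (nat_lit 228) (nat_lit 0) (XT.lf (nat_lit 0) (nat_lit 11572372518) (nat_lit 228) (nat_lit 1257212148) (nat_lit 76) (nat_lit 6821839907) (nat_lit 83) (nat_lit 5) (nat_lit 86) (nat_lit 5) (nat_lit 84) (nat_lit 5) (nat_lit 453) (nat_lit 400) (nat_lit 347)) (XT.lf (nat_lit 0) (nat_lit 862830615) (nat_lit 228) (nat_lit 1287449169) (nat_lit 76) (nat_lit 18142648739) (nat_lit 80) (nat_lit 5) (nat_lit 83) (nat_lit 5) (nat_lit 81) (nat_lit 5) (nat_lit 454) (nat_lit 400) (nat_lit 346)))) (XT.nd (nat_lit 78) (nat_lit 380) (nat_lit 0) (XT.lf (nat_lit 0) (nat_lit 10306067676) (nat_lit 228) (nat_lit 1534364124) (nat_lit 76) (nat_lit 9117040515) (nat_lit 78) (nat_lit 5) (nat_lit 81) (nat_lit 5) (nat_lit 79) (nat_lit 5) (nat_lit 455) (nat_lit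 400) (nat_lit 345)) (XT.nd (nat_lit 78) (nat_lit 228) (nat_lit 0) (XT.lf (nat_lit 0) (nat_lit 19782076860) (nat_lit 152) (nat_lit 596041940) (nat_lit 228) (nat_lit 1272429489) (nat_lit 76) (nat_lit 5) (nat_lit 78) (nat_lit 5) (nat_lit 79) (nat_lit 5) (nat_lit 456) (nat_lit 400) (nat_lit 344)) (XT.lf (nat_lit 0) (nat_lit 8659390137) (nat_lit 228) (nat_lit 2476477711) (nat_lit 76) (nat_lit 11232404407) (nat_lit 73) (nat_lit 5) (nat_lit 76) (nat_lit 5) (nat_lit 74) (nat_lit 5) (nat_lit 457) (nat_lit 400) (nat_lit 343))))) (XT.nd (nat_lit 234) (nat_lit 608) (nat_lit 0) (XT.nd (nat_lit 78) (nat_lit 380) (nat_lit 0) (XT.lf (nat_lit 0) (nat_lit 19219640531) (nat_lit 228) (nat_lit 3215544563) (nat_lit 76) (nat_lit 681578723) (nat_lit 71) (nat_lit 5) (nat_lit 74) (nat_lit 5) (nat_lit 72) (nat_lit 4) (nat_lit 458) (nat_lit 400) (nat_lit 342)) (XT.nd (nat_lit 78) (nat_lit 152) (nat_lit 0) (XT.lf (nat_lit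 0) (nat_lit 6546300923) (nat_lit 228) (nat_lit 4256644568) (nat_lit 76) (nat_lit 13089909058) (nat_lit 68) (nat_lit 5) (nat_lit 71) (nat_lit 5) (nat_lit 69) (nat_lit 5) (nat_lit 459) (nat_lit 400) (nat_lit 341)) (XT.lf (nat_lit 0) (nat_lit 17603021347) (nat_lit 228) (nat_lit 5506343438) (nat_lit 76) (nat_lit 1592079301) (nat_lit 66) (nat_lit 5) (nat_lit 69) (nat_lit 5) (nat_lit 67) (nat_lit 4) (nat_lit 460) (nat_lit 400) (nat_lit 340)))) (XT.nd (nat_lit 156) (nat_lit 304) (nat_lit 0) (XT.nd (nat_lit 78) (nat_lit 152) (nat_lit 0) (XT.lf (nat_lit 0) (nat_lit 3863112198) (nat_lit 152) (nat_lit 7082596808) (nat_lit 76) (nat_lit 14595527532) (nat_lit 64) (nat_lit 5) (nat_lit 66) (nat_lit 5) (nat_lit 65) (nat_lit 5) (nat_lit 461) (nat_lit 400) (nat_lit 339)) (XT.lf (nat_lit 0) (nat_lit 15412456845) (nat_lit 228) (nat_lit 8962567332) (nat_lit 76) (nat_lit 2040292928) (nat_lit 62) (nat_lit 5) (nat_lit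 65) (nat_lit 5) (nat_lit 63) (nat_lit 4) (nat_lit 462) (nat_lit 400) (nat_lit 338))) (XT.nd (nat_lit 78) (nat_lit 152) (nat_lit 0) (XT.lf (nat_lit 0) (nat_lit 485350419) (nat_lit 152) (nat_lit 11203130342) (nat_lit 76) (nat_lit 15636068171) (nat_lit 60) (nat_lit 5) (nat_lit 62) (nat_lit 5) (nat_lit 61) (nat_lit 5) (nat_lit 463) (nat_lit 400) (nat_lit 337)) (XT.lf (nat_lit 0) (nat_lit 12515572281) (nat_lit 228) (nat_lit 13856335876) (nat_lit 76) (nat_lit 1898214058) (nat_lit 58) (nat_lit 5) (nat_lit 61) (nat_lit 5) (nat_lit 59) (nat_lit 4) (nat_lit 464) (nat_lit 400) (nat_lit 336))))))))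
noncomputable def xc49 : XT := (XT.nd (nat_lit 1950) (nat_lit 456) (nat_lit 0) (XT.nd (nat_lit 936) (nat_lit 1064) (nat_lit 0) (XT.nd (nat_lit 468) (nat_lit 684) (nat_lit 0) (XT.nd (nat_lit 234) (nat_lit 304) (nat_lit 0) (XT.nd (nat_lit 78) (nat_lit 304) (nat_lit 0) (XT.lf (nat_lit 0) (nat_lit 12301806637) (nat_lit 76) (nat_lit 13141984178) (nat_lit 152) (nat_lit 3810291390) (nat_lit 57) (nat_lit 5) (nat_lit 58) (nat_lit 5) (nat_lit 59) (nat_lit 4) (nat_lit 465) (nat_lit 400) (nat_lit 335)) (XT.nd (nat_lit 78) (nat_lit 76) (nat_lit 0) (XT.lf (nat_lit 0) (nat_lit 8753701485) (nat_lit 228) (nat_lit 20512634405) (nat_lit 76) (nat_lit 1012601890) (nat_lit 54) (nat_lit 5) (nat_lit 57) (nat_lit 5) (nat_lit 55) (nat_lit 4) (nat_lit 466) (nat_lit 400) (nat_lit 334)) (XT.lf (nat_lit 0) (nat_lit 6681260579) (nat_lit 76) (nat_lit 15505816180) (nat_lit 152) (nat_lit 9157230341) (nat_lit 53) (nat_lit 5) (nat_lit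 54) (nat_lit 5) (nat_lit 55) (nat_lit 4) (nat_lit 467) (nat_lit 400) (nat_lit 333)))) (XT.nd (nat_lit 78) (nat_lit 76) (nat_lit 0) (XT.lf (nat_lit 0) (nat_lit 3129372189) (nat_lit 152) (nat_lit 815658019) (nat_lit 228) (nat_lit 28511095294) (nat_lit 50) (nat_lit 5) (nat_lit 52) (nat_lit 5) (nat_lit 53) (nat_lit 5) (nat_lit 468) (nat_lit 400) (nat_lit 332)) (XT.nd (nat_lit 78) (nat_lit 76) (nat_lit 0) (XT.lf (nat_lit 0) (nat_lit 17859993698) (nat_lit 228) (nat_lit 1122420765) (nat_lit 76) (nat_lit 14627993152) (nat_lit 50) (nat_lit 5) (nat_lit 53) (nat_lit 5) (nat_lit 51) (nat_lit 4) (nat_lit 469) (nat_lit 400) (nat_lit 331)) (XT.lf (nat_lit 0) (nat_lit 28955659399) (nat_lit 76) (nat_lit 3752462160) (nat_lit 152) (nat_lit 2107161716) (nat_lit 49) (nat_lit 5) (nat_lit 50) (nat_lit 5) (nat_lit 51) (nat_lit 4) (nat_lit 470) (nat_lit 400) (nat_lit 330))))) (XT.nd (nat_lit 234) (nat_lit 228) (nat_lit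 0) (XT.nd (nat_lit 78) (nat_lit 228) (nat_lit 0) (XT.lf (nat_lit 0) (nat_lit 12302165768) (nat_lit 228) (nat_lit 11436717342) (nat_lit 76) (nat_lit 12328327869) (nat_lit 46) (nat_lit 5) (nat_lit 49) (nat_lit 5) (nat_lit 47) (nat_lit 4) (nat_lit 471) (nat_lit 400) (nat_lit 329)) (XT.nd (nat_lit 78) (nat_lit 152) (nat_lit 0) (XT.lf (nat_lit 0) (nat_lit 19620848346) (nat_lit 76) (nat_lit 8008208868) (nat_lit 152) (nat_lit 9744833354) (nat_lit 45) (nat_lit 5) (nat_lit 46) (nat_lit 5) (nat_lit 47) (nat_lit 4) (nat_lit 472) (nat_lit 400) (nat_lit 328)) (XT.lf (nat_lit 0) (nat_lit 5169602180) (nat_lit 152) (nat_lit 24961526933) (nat_lit 76) (nat_lit 8604631899) (nat_lit 43) (nat_lit 5) (nat_lit 45) (nat_lit 5) (nat_lit 44) (nat_lit 4) (nat_lit 473) (nat_lit 400) (nat_lit 327)))) (XT.nd (nat_lit 78) (nat_lit 152) (nat_lit 0) (XT.lf (nat_lit 0) (nat_lit 6956682451) (nat_lit 76) (nat_lit 13960478693) (nat_lit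 152) (nat_lit 19237002633) (nat_lit 42) (nat_lit 5) (nat_lit 43) (nat_lit 5) (nat_lit 44) (nat_lit 4) (nat_lit 474) (nat_lit 400) (nat_lit 326)) (XT.nd (nat_lit 78) (nat_lit 152) (nat_lit 0) (XT.lf (nat_lit 0) (nat_lit 37696375842) (nat_lit 152) (nat_lit 760049526) (nat_lit 0) (nat_lit 3179734402) (nat_lit 42) (nat_lit 5) (nat_lit 44) (nat_lit 4) (nat_lit 42) (nat_lit 4) (nat_lit 475) (nat_lit 400) (nat_lit 325)) (XT.lf (nat_lit 0) (nat_lit 12312992698) (nat_lit 152) (nat_lit 9564711488) (nat_lit 76) (nat_lit 21298239486) (nat_lit 40) (nat_lit 5) (nat_lit 42) (nat_lit 5) (nat_lit 41) (nat_lit 4) (nat_lit 476) (nat_lit 400) (nat_lit 324)))))) (XT.nd (nat_lit 468) (nat_lit 532) (nat_lit 0) (XT.nd (nat_lit 234) (nat_lit 228) (nat_lit 0) (XT.nd (nat_lit 78) (nat_lit 228) (nat_lit 0) (XT.lf (nat_lit 0) (nat_lit 25298725904) (nat_lit 76) (nat_lit 4208756350) (nat_lit 152) (nat_lit 15277748892) (nat_lit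 39) (nat_lit 5) (nat_lit 40) (nat_lit 5) (nat_lit 41) (nat_lit 4) (nat_lit 477) (nat_lit 400) (nat_lit 323)) (XT.nd (nat_lit 78) (nat_lit 76) (nat_lit 0) (XT.lf (nat_lit 0) (nat_lit 1416980666) (nat_lit 152) (nat_lit 30755441065) (nat_lit 76) (nat_lit 14291704843) (nat_lit 37) (nat_lit 5) (nat_lit 39) (nat_lit 5) (nat_lit 38) (nat_lit 4) (nat_lit 478) (nat_lit 400) (nat_lit 322)) (XT.lf (nat_lit 0) (nat_lit 4665578388) (nat_lit 76) (nat_lit 14218129360) (nat_lit 152) (nat_lit 29331125337) (nat_lit 36) (nat_lit 5) (nat_lit 37) (nat_lit 5) (nat_lit 38) (nat_lit 4) (nat_lit 479) (nat_lit 400) (nat_lit 321)))) (XT.nd (nat_lit 78) (nat_lit 228) (nat_lit 0) (XT.lf (nat_lit 0) (nat_lit 37549253985) (nat_lit 152) (nat_lit 7666211086) (nat_lit 0) (nat_lit 4827846418) (nat_lit 36) (nat_lit 5) (nat_lit 38) (nat_lit 4) (nat_lit 36) (nat_lit 4) (nat_lit 480) (nat_lit 400) (nat_lit 320)) (XT.nd (nat_lit 78)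 (nat_lit 76) (nat_lit 0) (XT.lf (nat_lit 0) (nat_lit 5486308724) (nat_lit 152) (nat_lit 21616287265) (nat_lit 76) (nat_lit 24847044982) (nat_lit 34) (nat_lit 5) (nat_lit 36) (nat_lit 5) (nat_lit 35) (nat_lit 4) (nat_lit 481) (nat_lit 400) (nat_lit 319)) (XT.lf (nat_lit 0) (nat_lit 16570254037) (nat_lit 76) (nat_lit 7742212217) (nat_lit 152) (nat_lit 29628955416) (nat_lit 33) (nat_lit 5) (nat_lit 34) (nat_lit 5) (nat_lit 35) (nat_lit 4) (nat_lit 482) (nat_lit 400) (nat_lit 318))))) (XT.nd (nat_lit 234) (nat_lit 304) (nat_lit 0) (XT.nd (nat_lit 78) (nat_lit 152) (nat_lit 0) (XT.lf (nat_lit 0) (nat_lit 917333136) (nat_lit 76) (nat_lit 43481660050) (nat_lit 76) (nat_lit 11624227254) (nat_lit 32) (nat_lit 4) (nat_lit 33) (nat_lit 5) (nat_lit 33) (nat_lit 4) (nat_lit 483) (nat_lit 400) (nat_lit 317)) (XT.nd (nat_lit 78) (nat_lit 76) (nat_lit 0) (XT.lf (nat_lit 0) (nat_lit 7570555709) (nat_lit 152) (nat_lit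 16516114848) (nat_lit 76) (nat_lit 34107383047) (nat_lit 31) (nat_lit 5) (nat_lit 33) (nat_lit 5) (nat_lit 32) (nat_lit 4) (nat_lit 484) (nat_lit 400) (nat_lit 316)) (XT.lf (nat_lit 0) (nat_lit 24295325241) (nat_lit 76) (nat_lit 3392013126) (nat_lit 152) (nat_lit 32776558072) (nat_lit 30) (nat_lit 5) (nat_lit 31) (nat_lit 5) (nat_lit 32) (nat_lit 4) (nat_lit 485) (nat_lit 400) (nat_lit 315)))) (XT.nd (nat_lit 156) (nat_lit 152) (nat_lit 0) (XT.nd (nat_lit 78) (nat_lit 76) (nat_lit 0) (XT.lf (nat_lit 0) (nat_lit 4496735227) (nat_lit 76) (nat_lit 44671993125) (nat_lit 76) (nat_lit 13667740758) (nat_lit 29) (nat_lit 4) (nat_lit 30) (nat_lit 5) (nat_lit 30) (nat_lit 4) (nat_lit 486) (nat_lit 400) (nat_lit 314)) (XT.lf (nat_lit 0) (nat_lit 6650155099) (nat_lit 152) (nat_lit 17527006440) (nat_lit 76) (nat_lit 41137311240) (nat_lit 28) (nat_lit 5) (nat_lit 30) (nat_lit 5) (nat_lit 29) (nat_lit 4) (nat_lit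 487) (nat_lit 400) (nat_lit 313))) (XT.nd (nat_lit 78) (nat_lit 76) (nat_lit 0) (XT.lf (nat_lit 0) (nat_lit 25629268277) (nat_lit 76) (nat_lit 2290723734) (nat_lit 152) (nat_lit 39985764063) (nat_lit 27) (nat_lit 5) (nat_lit 28) (nat_lit 5) (nat_lit 29) (nat_lit 4) (nat_lit 488) (nat_lit 400) (nat_lit 312)) (XT.lf (nat_lit 0) (nat_lit 438137318) (nat_lit 76) (nat_lit 50170833706) (nat_lit 76) (nat_lit 20006963622) (nat_lit 26) (nat_lit 4) (nat_lit 27) (nat_lit 5) (nat_lit 27) (nat_lit 4) (nat_lit 489) (nat_lit 400) (nat_lit 311))))))) (XT.nd (nat_lit 55926) (nat_lit 0) (nat_lit 19000) (XT.nd (nat_lit 468) (nat_lit 76) (nat_lit 0) (XT.nd (nat_lit 234) (nat_lit 228) (nat_lit 0) (XT.nd (nat_lit 78) (nat_lit 76) (nat_lit 0) (XT.lf (nat_lit 0) (nat_lit 1385387775) (nat_lit 152) (nat_lit 27370460945) (nat_lit 76) (nat_lit 44692487422) (nat_lit 25) (nat_lit 5) (nat_lit 27) (nat_lit 5) (nat_lit 26) (nat_lit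 4) (nat_lit 490) (nat_lit 400) (nat_lit 310)) (XT.nd (nat_lit 78) (nat_lit 0) (nat_lit 0) (XT.lf (nat_lit 0) (nat_lit 17665664749) (nat_lit 76) (nat_lit 5913886771) (nat_lit 152) (nat_lit 52832484991) (nat_lit 24) (nat_lit 5) (nat_lit 25) (nat_lit 5) (nat_lit 26) (nat_lit 4) (nat_lit 491) (nat_lit 400) (nat_lit 309)) (XT.lf (nat_lit 0) (nat_lit 47314541098) (nat_lit 152) (nat_lit 14219764103) (nat_lit 0) (nat_lit 17976683688) (nat_lit 24) (nat_lit 5) (nat_lit 26) (nat_lit 4) (nat_lit 24) (nat_lit 4) (nat_lit 492) (nat_lit 400) (nat_lit 308)))) (XT.nd (nat_lit 78) (nat_lit 152) (nat_lit 0) (XT.lf (nat_lit 0) (nat_lit 33067936774) (nat_lit 76) (nat_lit 39520066424) (nat_lit 76) (nat_lit 10166334493) (nat_lit 23) (nat_lit 4) (nat_lit 24) (nat_lit 5) (nat_lit 24) (nat_lit 4) (nat_lit 493) (nat_lit 400) (nat_lit 307)) (XT.nd (nat_lit 78) (nat_lit 76) (nat_lit 0) (XT.lf (nat_lit 0) (nat_lit 12834784813)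 (nat_lit 152) (nat_lit 3314237349) (nat_lit 76) (nat_lit 70003418329) (nat_lit 22) (nat_lit 5) (nat_lit 24) (nat_lit 5) (nat_lit 23) (nat_lit 4) (nat_lit 494) (nat_lit 400) (nat_lit 306)) (XT.lf (nat_lit 0) (nat_lit 37282768923) (nat_lit 152) (nat_lit 43664105782) (nat_lit 0) (nat_lit 8755342534) (nat_lit 21) (nat_lit 5) (nat_lit 23) (nat_lit 4) (nat_lit 21) (nat_lit 4) (nat_lit 495) (nat_lit 400) (nat_lit 305))))) (XT.nd (nat_lit 55146) (nat_lit 0) (nat_lit 29032) (XT.nd (nat_lit 78) (nat_lit 0) (nat_lit 0) (XT.lf (nat_lit 0) (nat_lit 4374282765) (nat_lit 76) (nat_lit 58794732289) (nat_lit 76) (nat_lit 30253992300) (nat_lit 20) (nat_lit 4) (nat_lit 21) (nat_lit 5) (nat_lit 21) (nat_lit 4) (nat_lit 496) (nat_lit 400) (nat_lit 304)) (XT.nd (nat_lit 54990) (nat_lit 0) (nat_lit 29944) (XT.lf (nat_lit 0) (nat_lit 55681760748) (nat_lit 76) (nat_lit 35094350056) (nat_lit 76) (nat_lit 6540930448) (nat_lit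 20) (nat_lit 4) (nat_lit 21) (nat_lit 5) (nat_lit 21) (nat_lit 4) (nat_lit 497) (nat_lit 400) (nat_lit 303)) (XT.lf (nat_lit 0) (nat_lit 1826138251) (nat_lit 228) (nat_lit 700307754) (nat_lit 228) (nat_lit 700307754) (nat_lit 414) (nat_lit 3) (nat_lit 417) (nat_lit 3) (nat_lit 417) (nat_lit 5) (nat_lit 401) (nat_lit 401) (nat_lit 398)))) (XT.nd (nat_lit 156) (nat_lit 380) (nat_lit 0) (XT.nd (nat_lit 78) (nat_lit 304) (nat_lit 0) (XT.lf (nat_lit 0) (nat_lit 2010278778) (nat_lit 228) (nat_lit 2547071890) (nat_lit 304) (nat_lit 1911557242) (nat_lit 411) (nat_lit 5) (nat_lit 414) (nat_lit 3) (nat_lit 415) (nat_lit 5) (nat_lit 402) (nat_lit 401) (nat_lit 397)) (XT.lf (nat_lit 0) (nat_lit 242443292) (nat_lit 304) (nat_lit 3576779363) (nat_lit 380) (nat_lit 2673025604) (nat_lit 407) (nat_lit 5) (nat_lit 411) (nat_lit 5) (nat_lit 412) (nat_lit 5) (nat_lit 403) (nat_lit 401) (nat_lit 396))) (XT.nd (nat_lit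 78) (nat_lit 380) (nat_lit 0) (XT.lf (nat_lit 76) (nat_lit 2015524346) (nat_lit 0) (nat_lit 2819634820) (nat_lit 380) (nat_lit 1687926454) (nat_lit 408) (nat_lit 5) (nat_lit 407) (nat_lit 5) (nat_lit 412) (nat_lit 5) (nat_lit 404) (nat_lit 401) (nat_lit 395)) (XT.lf (nat_lit 76) (nat_lit 1233719681) (nat_lit 0) (nat_lit 1568620204) (nat_lit 456) (nat_lit 3759515076) (nat_lit 403) (nat_lit 5) (nat_lit 402) (nat_lit 5) (nat_lit 408) (nat_lit 5) (nat_lit 405) (nat_lit 401) (nat_lit 394)))))) (XT.nd (nat_lit 468) (nat_lit 7144) (nat_lit 0) (XT.nd (nat_lit 234) (nat_lit 1976) (nat_lit 0) (XT.nd (nat_lit 78) (nat_lit 456) (nat_lit 0) (XT.lf (nat_lit 76) (nat_lit 571617273) (nat_lit 0) (nat_lit 64974563) (nat_lit 532) (nat_lit 5972108433) (nat_lit 397) (nat_lit 5) (nat_lit 396) (nat_lit 5) (nat_lit 403) (nat_lit 5) (nat_lit 406) (nat_lit 401) (nat_lit 393)) (XT.nd (nat_lit 78) (nat_lit 532) (nat_lit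 0) (XT.lf (nat_lit 0) (nat_lit 4979217241) (nat_lit 456) (nat_lit 4682600) (nat_lit 76) (nat_lit 1678833730) (nat_lit 397) (nat_lit 5) (nat_lit 403) (nat_lit 5) (nat_lit 398) (nat_lit 5) (nat_lit 407) (nat_lit 401) (nat_lit 392)) (XT.lf (nat_lit 0) (nat_lit 2570052340) (nat_lit 532) (nat_lit 464032235) (nat_lit 76) (nat_lit 3690493031) (nat_lit 390) (nat_lit 5) (nat_lit 397) (nat_lit 5) (nat_lit 391) (nat_lit 5) (nat_lit 408) (nat_lit 401) (nat_lit 391)))) (XT.nd (nat_lit 78) (nat_lit 1368) (nat_lit 0) (XT.lf (nat_lit 0) (nat_lit 18795830) (nat_lit 608) (nat_lit 810608909) (nat_lit 76) (nat_lit 5965315968) (nat_lit 382) (nat_lit 5) (nat_lit 390) (nat_lit 5) (nat_lit 383) (nat_lit 5) (nat_lit 409) (nat_lit 401) (nat_lit 390)) (XT.nd (nat_lit 78) (nat_lit 760) (nat_lit 0) (XT.lf (nat_lit 0) (nat_lit 4154506489) (nat_lit 684) (nat_lit 1086302784) (nat_lit 76) (nat_lit 1631216791) (nat_lit 374) (nat_lit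 5) (nat_lit 383) (nat_lit 5) (nat_lit 375) (nat_lit 5) (nat_lit 410) (nat_lit 401) (nat_lit 389)) (XT.lf (nat_lit 0) (nat_lit 1356445293) (nat_lit 760) (nat_lit 1260395022) (nat_lit 76) (nat_lit 4340700805) (nat_lit 364) (nat_lit 5) (nat_lit 374) (nat_lit 5) (nat_lit 365) (nat_lit 5) (nat_lit 411) (nat_lit 401) (nat_lit 388))))) (XT.nd (nat_lit 234) (nat_lit 4560) (nat_lit 0) (XT.nd (nat_lit 78) (nat_lit 1824) (nat_lit 0) (XT.lf (nat_lit 0) (nat_lit 5427100208) (nat_lit 836) (nat_lit 1342218804) (nat_lit 76) (nat_lit 281799019) (nat_lit 354) (nat_lit 5) (nat_lit 365) (nat_lit 5) (nat_lit 355) (nat_lit 5) (nat_lit 412) (nat_lit 401) (nat_lit 387)) (XT.nd (nat_lit 78) (nat_lit 912) (nat_lit 0) (XT.lf (nat_lit 0) (nat_lit 2385485807) (nat_lit 912) (nat_lit 1354934306) (nat_lit 76) (nat_lit 3411780598) (nat_lit 342) (nat_lit 5) (nat_lit 354) (nat_lit 5) (nat_lit 343) (nat_lit 5) (nat_lit 413) (nat_lit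 401) (nat_lit 386)) (XT.lf (nat_lit 0) (nat_lit 5995335501) (nat_lit 912) (nat_lit 433933241) (nat_lit 988) (nat_lit 832625524) (nat_lit 330) (nat_lit 5) (nat_lit 342) (nat_lit 5) (nat_lit 343) (nat_lit 5) (nat_lit 414) (nat_lit 401) (nat_lit 385)))) (XT.nd (nat_lit 156) (nat_lit 2432) (nat_lit 0) (XT.nd (nat_lit 78) (nat_lit 1064) (nat_lit 0) (XT.lf (nat_lit 0) (nat_lit 3140532673) (nat_lit 1064) (nat_lit 1122946000) (nat_lit 76) (nat_lit 3115497275) (nat_lit 316) (nat_lit 5) (nat_lit 330) (nat_lit 5) (nat_lit 317) (nat_lit 5) (nat_lit 415) (nat_lit 401) (nat_lit 384)) (XT.lf (nat_lit 0) (nat_lit 6626746736) (nat_lit 1064) (nat_lit 559579850) (nat_lit 1140) (nat_lit 318655477) (nat_lit 302) (nat_lit 5) (nat_lit 316) (nat_lit 5) (nat_lit 317) (nat_lit 5) (nat_lit 416) (nat_lit 401) (nat_lit 383))) (XT.nd (nat_lit 78) (nat_lit 1216) (nat_lit 0) (XT.lf (nat_lit 0) (nat_lit 3651516075) (nat_lit 1216)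 (nat_lit 588852355) (nat_lit 76) (nat_lit 3398019903) (nat_lit 286) (nat_lit 5) (nat_lit 302) (nat_lit 5) (nat_lit 287) (nat_lit 5) (nat_lit 417) (nat_lit 401) (nat_lit 382)) (XT.lf (nat_lit 0) (nat_lit 7583995035) (nat_lit 1216) (nat_lit 140113622) (nat_lit 1292) (nat_lit 56993725) (nat_lit 270) (nat_lit 5) (nat_lit 286) (nat_lit 5) (nat_lit 287) (nat_lit 5) (nat_lit 418) (nat_lit 401) (nat_lit 381))))))))
noncomputable def xc50 : XT := (XT.nd (nat_lit 1950) (nat_lit 4940) (nat_lit 0) (XT.nd (nat_lit 936) (nat_lit 4636) (nat_lit 0) (XT.nd (nat_lit 468) (nat_lit 2812) (nat_lit 0) (XT.nd (nat_lit 234) (nat_lit 1672) (nat_lit 0) (XT.nd (nat_lit 78) (nat_lit 1216) (nat_lit 0) (XT.lf (nat_lit 0) (nat_lit 231098178) (nat_lit 608) (nat_lit 3715245886) (nat_lit 684) (nat_lit 3984786981) (nat_lit 251) (nat_lit 5) (nat_lit 259) (nat_lit 5) (nat_lit 260) (nat_lit 5) (nat_lit 419) (nat_lit 401) (nat_lit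 380)) (XT.nd (nat_lit 78) (nat_lit 608) (nat_lit 0) (XT.lf (nat_lit 0) (nat_lit 764998399) (nat_lit 608) (nat_lit 7317068315) (nat_lit 684) (nat_lit 8617160) (nat_lit 243) (nat_lit 5) (nat_lit 251) (nat_lit 5) (nat_lit 252) (nat_lit 5) (nat_lit 420) (nat_lit 401) (nat_lit 379)) (XT.lf (nat_lit 0) (nat_lit 1331672718) (nat_lit 532) (nat_lit 2721288586) (nat_lit 608) (nat_lit 4205052956) (nat_lit 235) (nat_lit 5) (nat_lit 242) (nat_lit 5) (nat_lit 243) (nat_lit 5) (nat_lit 421) (nat_lit 401) (nat_lit 378)))) (XT.nd (nat_lit 78) (nat_lit 1140) (nat_lit 0) (XT.lf (nat_lit 0) (nat_lit 1987316432) (nat_lit 532) (nat_lit 6289149023) (nat_lit 608) (nat_lit 158509001) (nat_lit 228) (nat_lit 5) (nat_lit 235) (nat_lit 5) (nat_lit 236) (nat_lit 5) (nat_lit 422) (nat_lit 401) (nat_lit 377)) (XT.nd (nat_lit 78) (nat_lit 532) (nat_lit 0) (XT.lf (nat_lit 0) (nat_lit 2685655363) (nat_lit 532) (nat_lit 1298013705)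 (nat_lit 608) (nat_lit 4636774124) (nat_lit 220) (nat_lit 5) (nat_lit 227) (nat_lit 5) (nat_lit 228) (nat_lit 5) (nat_lit 423) (nat_lit 401) (nat_lit 376)) (XT.lf (nat_lit 0) (nat_lit 3453089825) (nat_lit 532) (nat_lit 4868018764) (nat_lit 608) (nat_lit 494319002) (nat_lit 213) (nat_lit 5) (nat_lit 220) (nat_lit 5) (nat_lit 221) (nat_lit 5) (nat_lit 424) (nat_lit 401) (nat_lit 375))))) (XT.nd (nat_lit 234) (nat_lit 1292) (nat_lit 0) (XT.nd (nat_lit 78) (nat_lit 988) (nat_lit 0) (XT.lf (nat_lit 0) (nat_lit 3758260350) (nat_lit 532) (nat_lit 4745420794) (nat_lit 76) (nat_lit 516051150) (nat_lit 206) (nat_lit 5) (nat_lit 213) (nat_lit 5) (nat_lit 207) (nat_lit 5) (nat_lit 425) (nat_lit 401) (nat_lit 374)) (XT.nd (nat_lit 78) (nat_lit 532) (nat_lit 0) (XT.lf (nat_lit 0) (nat_lit 5149756528) (nat_lit 456) (nat_lit 3080162436) (nat_lit 532) (nat_lit 1003714616) (nat_lit 200) (nat_lit 5) (nat_lit 206)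 (nat_lit 5) (nat_lit 207) (nat_lit 5) (nat_lit 426) (nat_lit 401) (nat_lit 373)) (XT.lf (nat_lit 0) (nat_lit 3399327302) (nat_lit 532) (nat_lit 3383115538) (nat_lit 76) (nat_lit 2674812075) (nat_lit 193) (nat_lit 5) (nat_lit 200) (nat_lit 5) (nat_lit 194) (nat_lit 5) (nat_lit 427) (nat_lit 401) (nat_lit 372)))) (XT.nd (nat_lit 78) (nat_lit 836) (nat_lit 0) (XT.lf (nat_lit 0) (nat_lit 7065823861) (nat_lit 456) (nat_lit 947969919) (nat_lit 532) (nat_lit 1677629473) (nat_lit 187) (nat_lit 5) (nat_lit 193) (nat_lit 5) (nat_lit 194) (nat_lit 5) (nat_lit 428) (nat_lit 401) (nat_lit 371)) (XT.nd (nat_lit 78) (nat_lit 380) (nat_lit 0) (XT.lf (nat_lit 0) (nat_lit 2902649752) (nat_lit 456) (nat_lit 1848470916) (nat_lit 76) (nat_lit 5184220538) (nat_lit 181) (nat_lit 5) (nat_lit 187) (nat_lit 5) (nat_lit 182) (nat_lit 5) (nat_lit 429) (nat_lit 401) (nat_lit 370)) (XT.lf (nat_lit 0) (nat_lit 7695172152) (nat_lit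 456) (nat_lit 1015119058) (nat_lit 76) (nat_lit 1480149794) (nat_lit 176) (nat_lit 5) (nat_lit 182) (nat_lit 5) (nat_lit 177) (nat_lit 5) (nat_lit 430) (nat_lit 401) (nat_lit 369)))))) (XT.nd (nat_lit 468) (nat_lit 2052) (nat_lit 0) (XT.nd (nat_lit 234) (nat_lit 988) (nat_lit 0) (XT.nd (nat_lit 78) (nat_lit 1140) (nat_lit 0) (XT.lf (nat_lit 0) (nat_lit 2273438212) (nat_lit 456) (nat_lit 154661478) (nat_lit 76) (nat_lit 8028101411) (nat_lit 170) (nat_lit 5) (nat_lit 176) (nat_lit 5) (nat_lit 171) (nat_lit 5) (nat_lit 431) (nat_lit 401) (nat_lit 368)) (XT.nd (nat_lit 78) (nat_lit 456) (nat_lit 0) (XT.lf (nat_lit 0) (nat_lit 751114603) (nat_lit 304) (nat_lit 6532681747) (nat_lit 380) (nat_lit 3449086413) (nat_lit 161) (nat_lit 5) (nat_lit 165) (nat_lit 5) (nat_lit 166) (nat_lit 5) (nat_lit 432) (nat_lit 401) (nat_lit 367)) (XT.lf (nat_lit 0) (nat_lit 1532119803) (nat_lit 456) (nat_lit 9305730695)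 (nat_lit 76) (nat_lit 183911287) (nat_lit 155) (nat_lit 5) (nat_lit 161) (nat_lit 5) (nat_lit 156) (nat_lit 5) (nat_lit 433) (nat_lit 401) (nat_lit 366)))) (XT.nd (nat_lit 78) (nat_lit 684) (nat_lit 0) (XT.lf (nat_lit 0) (nat_lit 2675923747) (nat_lit 304) (nat_lit 4100447186) (nat_lit 380) (nat_lit 4545146902) (nat_lit 151) (nat_lit 5) (nat_lit 155) (nat_lit 5) (nat_lit 156) (nat_lit 5) (nat_lit 434) (nat_lit 401) (nat_lit 365)) (XT.nd (nat_lit 78) (nat_lit 304) (nat_lit 0) (XT.lf (nat_lit 0) (nat_lit 687931604) (nat_lit 380) (nat_lit 7938985578) (nat_lit 76) (nat_lit 3007554561) (nat_lit 146) (nat_lit 5) (nat_lit 151) (nat_lit 5) (nat_lit 147) (nat_lit 5) (nat_lit 435) (nat_lit 401) (nat_lit 364)) (XT.lf (nat_lit 0) (nat_lit 4722302351) (nat_lit 304) (nat_lit 1439037042) (nat_lit 380) (nat_lit 5798218660) (nat_lit 142) (nat_lit 5) (nat_lit 146) (nat_lit 5) (nat_lit 147) (nat_lit 5) (nat_lit 436)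 (nat_lit 401) (nat_lit 363))))) (XT.nd (nat_lit 234) (nat_lit 1140) (nat_lit 0) (XT.nd (nat_lit 78) (nat_lit 608) (nat_lit 0) (XT.lf (nat_lit 0) (nat_lit 5783742368) (nat_lit 304) (nat_lit 6219725649) (nat_lit 380) (nat_lit 294593463) (nat_lit 138) (nat_lit 5) (nat_lit 142) (nat_lit 5) (nat_lit 143) (nat_lit 5) (nat_lit 437) (nat_lit 401) (nat_lit 362)) (XT.nd (nat_lit 78) (nat_lit 304) (nat_lit 0) (XT.lf (nat_lit 0) (nat_lit 5447444825) (nat_lit 304) (nat_lit 5793467223) (nat_lit 76) (nat_lit 1408902279) (nat_lit 134) (nat_lit 5) (nat_lit 138) (nat_lit 5) (nat_lit 135) (nat_lit 5) (nat_lit 438) (nat_lit 401) (nat_lit 361)) (XT.lf (nat_lit 0) (nat_lit 7953973305) (nat_lit 304) (nat_lit 3626992915) (nat_lit 380) (nat_lit 1434799485) (nat_lit 130) (nat_lit 5) (nat_lit 134) (nat_lit 5) (nat_lit 135) (nat_lit 5) (nat_lit 439) (nat_lit 401) (nat_lit 360)))) (XT.nd (nat_lit 156) (nat_lit 532) (nat_lit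 0) (XT.nd (nat_lit 78) (nat_lit 304) (nat_lit 0) (XT.lf (nat_lit 0) (nat_lit 4627755368) (nat_lit 304) (nat_lit 4343300942) (nat_lit 76) (nat_lit 4424733910) (nat_lit 126) (nat_lit 5) (nat_lit 130) (nat_lit 5) (nat_lit 127) (nat_lit 5) (nat_lit 440) (nat_lit 401) (nat_lit 359)) (XT.lf (nat_lit 0) (nat_lit 10187191482) (nat_lit 304) (nat_lit 872351006) (nat_lit 380) (nat_lit 2731985045) (nat_lit 122) (nat_lit 5) (nat_lit 126) (nat_lit 5) (nat_lit 127) (nat_lit 5) (nat_lit 441) (nat_lit 401) (nat_lit 358))) (XT.nd (nat_lit 78) (nat_lit 228) (nat_lit 0) (XT.lf (nat_lit 0) (nat_lit 3675173271) (nat_lit 304) (nat_lit 2905335552) (nat_lit 76) (nat_lit 7621323214) (nat_lit 118) (nat_lit 5) (nat_lit 122) (nat_lit 5) (nat_lit 119) (nat_lit 5) (nat_lit 442) (nat_lit 401) (nat_lit 357)) (XT.lf (nat_lit 0) (nat_lit 10445060016) (nat_lit 304) (nat_lit 2197217306) (nat_lit 76) (nat_lit 1986606572) (nat_lit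 115) (nat_lit 5) (nat_lit 119) (nat_lit 5) (nat_lit 116) (nat_lit 5) (nat_lit 443) (nat_lit 401) (nat_lit 356))))))) (XT.nd (nat_lit 1014) (nat_lit 1976) (nat_lit 0) (XT.nd (nat_lit 468) (nat_lit 1368) (nat_lit 0) (XT.nd (nat_lit 234) (nat_lit 836) (nat_lit 0) (XT.nd (nat_lit 78) (nat_lit 456) (nat_lit 0) (XT.lf (nat_lit 0) (nat_lit 2571623448) (nat_lit 304) (nat_lit 1518785975) (nat_lit 76) (nat_lit 10981860213) (nat_lit 111) (nat_lit 5) (nat_lit 115) (nat_lit 5) (nat_lit 112) (nat_lit 5) (nat_lit 444) (nat_lit 401) (nat_lit 355)) (XT.nd (nat_lit 78) (nat_lit 228) (nat_lit 0) (XT.lf (nat_lit 0) (nat_lit 9709030747) (nat_lit 304) (nat_lit 873935435) (nat_lit 76) (nat_lit 4949702904) (nat_lit 108) (nat_lit 5) (nat_lit 112) (nat_lit 5) (nat_lit 109) (nat_lit 5) (nat_lit 445) (nat_lit 401) (nat_lit 354)) (XT.lf (nat_lit 0) (nat_lit 1293530371) (nat_lit 228) (nat_lit 231276809) (nat_lit 76) (nat_lit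 14487062599) (nat_lit 105) (nat_lit 5) (nat_lit 108) (nat_lit 5) (nat_lit 106) (nat_lit 5) (nat_lit 446) (nat_lit 401) (nat_lit 353)))) (XT.nd (nat_lit 78) (nat_lit 456) (nat_lit 0) (XT.lf (nat_lit 0) (nat_lit 327759410) (nat_lit 152) (nat_lit 8493933304) (nat_lit 228) (nat_lit 7686348269) (nat_lit 100) (nat_lit 5) (nat_lit 102) (nat_lit 5) (nat_lit 103) (nat_lit 5) (nat_lit 447) (nat_lit 401) (nat_lit 352)) (XT.nd (nat_lit 78) (nat_lit 228) (nat_lit 0) (XT.lf (nat_lit 0) (nat_lit 904602223) (nat_lit 228) (nat_lit 15947614238) (nat_lit 304) (nat_lit 173032908) (nat_lit 97) (nat_lit 5) (nat_lit 100) (nat_lit 5) (nat_lit 101) (nat_lit 5) (nat_lit 448) (nat_lit 401) (nat_lit 351)) (XT.lf (nat_lit 0) (nat_lit 1351164172) (nat_lit 152) (nat_lit 6404230092) (nat_lit 228) (nat_lit 9805005114) (nat_lit 94) (nat_lit 5) (nat_lit 96) (nat_lit 5) (nat_lit 97) (nat_lit 5) (nat_lit 449) (nat_lit 401) (nat_lit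 350))))) (XT.nd (nat_lit 234) (nat_lit 760) (nat_lit 0) (XT.nd (nat_lit 78) (nat_lit 380) (nat_lit 0) (XT.lf (nat_lit 0) (nat_lit 1782631228) (nat_lit 228) (nat_lit 14438547252) (nat_lit 304) (nat_lit 1896747940) (nat_lit 91) (nat_lit 5) (nat_lit 94) (nat_lit 5) (nat_lit 95) (nat_lit 5) (nat_lit 450) (nat_lit 401) (nat_lit 349)) (XT.nd (nat_lit 78) (nat_lit 152) (nat_lit 0) (XT.lf (nat_lit 0) (nat_lit 2099736209) (nat_lit 152) (nat_lit 4362122734) (nat_lit 228) (nat_lit 12234230363) (nat_lit 88) (nat_lit 5) (nat_lit 90) (nat_lit 5) (nat_lit 91) (nat_lit 5) (nat_lit 451) (nat_lit 401) (nat_lit 348)) (XT.lf (nat_lit 0) (nat_lit 2339010785) (nat_lit 152) (nat_lit 13041014728) (nat_lit 228) (nat_lit 3917151322) (nat_lit 86) (nat_lit 5) (nat_lit 88) (nat_lit 5) (nat_lit 89) (nat_lit 5) (nat_lit 452) (nat_lit 401) (nat_lit 347)))) (XT.nd (nat_lit 156) (nat_lit 380) (nat_lit 0) (XT.nd (nat_lit 78) (nat_lit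 152) (nat_lit 0) (XT.lf (nat_lit 0) (nat_lit 2477491432) (nat_lit 152) (nat_lit 2414652291) (nat_lit 228) (nat_lit 15029681368) (nat_lit 83) (nat_lit 5) (nat_lit 85) (nat_lit 5) (nat_lit 86) (nat_lit 5) (nat_lit 453) (nat_lit 401) (nat_lit 346)) (XT.lf (nat_lit 0) (nat_lit 2468089779) (nat_lit 152) (nat_lit 11809255386) (nat_lit 228) (nat_lit 6292708384) (nat_lit 81) (nat_lit 5) (nat_lit 83) (nat_lit 5) (nat_lit 84) (nat_lit 5) (nat_lit 454) (nat_lit 401) (nat_lit 345))) (XT.nd (nat_lit 78) (nat_lit 152) (nat_lit 0) (XT.lf (nat_lit 0) (nat_lit 2368280118) (nat_lit 152) (nat_lit 618196177) (nat_lit 228) (nat_lit 18258543324) (nat_lit 78) (nat_lit 5) (nat_lit 80) (nat_lit 5) (nat_lit 81) (nat_lit 5) (nat_lit 455) (nat_lit 401) (nat_lit 344)) (XT.lf (nat_lit 0) (nat_lit 2042164354) (nat_lit 152) (nat_lit 10808027083) (nat_lit 228) (nat_lit 9094156353) (nat_lit 76) (nat_lit 5) (nat_lit 78) (nat_lit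 5) (nat_lit 79) (nat_lit 5) (nat_lit 456) (nat_lit 401) (nat_lit 343)))))) (XT.nd (nat_lit 468) (nat_lit 1064) (nat_lit 0) (XT.nd (nat_lit 234) (nat_lit 380) (nat_lit 0) (XT.nd (nat_lit 78) (nat_lit 304) (nat_lit 0) (XT.lf (nat_lit 0) (nat_lit 681587277) (nat_lit 228) (nat_lit 21051215718) (nat_lit 76) (nat_lit 940787518) (nat_lit 73) (nat_lit 5) (nat_lit 76) (nat_lit 5) (nat_lit 74) (nat_lit 5) (nat_lit 457) (nat_lit 401) (nat_lit 342)) (XT.nd (nat_lit 78) (nat_lit 152) (nat_lit 0) (XT.lf (nat_lit 0) (nat_lit 907238271) (nat_lit 152) (nat_lit 10114802087) (nat_lit 228) (nat_lit 12406637502) (nat_lit 71) (nat_lit 5) (nat_lit 73) (nat_lit 5) (nat_lit 74) (nat_lit 5) (nat_lit 458) (nat_lit 401) (nat_lit 341)) (XT.lf (nat_lit 0) (nat_lit 55857734) (nat_lit 152) (nat_lit 22002057592) (nat_lit 228) (nat_lit 2158255911) (nat_lit 69) (nat_lit 5) (nat_lit 71) (nat_lit 5) (nat_lit 72) (nat_lit 4) (nat_lit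 459) (nat_lit 401) (nat_lit 340)))) (XT.nd (nat_lit 78) (nat_lit 304) (nat_lit 0) (XT.lf (nat_lit 0) (nat_lit 8711157453) (nat_lit 228) (nat_lit 1100064521) (nat_lit 76) (nat_lit 15221045509) (nat_lit 68) (nat_lit 5) (nat_lit 71) (nat_lit 5) (nat_lit 69) (nat_lit 5) (nat_lit 460) (nat_lit 401) (nat_lit 339)) (XT.nd (nat_lit 78) (nat_lit 152) (nat_lit 0) (XT.lf (nat_lit 0) (nat_lit 20279007920) (nat_lit 228) (nat_lit 2469623810) (nat_lit 76) (nat_lit 3133910878) (nat_lit 66) (nat_lit 5) (nat_lit 69) (nat_lit 5) (nat_lit 67) (nat_lit 4) (nat_lit 461) (nat_lit 401) (nat_lit 338)) (XT.lf (nat_lit 0) (nat_lit 5814844180) (nat_lit 152) (nat_lit 4184538414) (nat_lit 76) (nat_lit 16766067293) (nat_lit 64) (nat_lit 5) (nat_lit 66) (nat_lit 5) (nat_lit 65) (nat_lit 5) (nat_lit 462) (nat_lit 401) (nat_lit 337))))) (XT.nd (nat_lit 234) (nat_lit 608) (nat_lit 0) (XT.nd (nat_lit 78) (nat_lit 304) (nat_lit 0)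 (XT.lf (nat_lit 0) (nat_lit 17902254704) (nat_lit 228) (nat_lit 6214462399) (nat_lit 76) (nat_lit 3567703763) (nat_lit 62) (nat_lit 5) (nat_lit 65) (nat_lit 5) (nat_lit 63) (nat_lit 4) (nat_lit 463) (nat_lit 401) (nat_lit 336)) (XT.nd (nat_lit 78) (nat_lit 152) (nat_lit 0) (XT.lf (nat_lit 0) (nat_lit 2193358487) (nat_lit 152) (nat_lit 8625082908) (nat_lit 76) (nat_lit 17821742467) (nat_lit 60) (nat_lit 5) (nat_lit 62) (nat_lit 5) (nat_lit 61) (nat_lit 5) (nat_lit 464) (nat_lit 401) (nat_lit 335)) (XT.lf (nat_lit 0) (nat_lit 14787820481) (nat_lit 228) (nat_lit 11465447844) (nat_lit 76) (nat_lit 3380889437) (nat_lit 58) (nat_lit 5) (nat_lit 61) (nat_lit 5) (nat_lit 59) (nat_lit 4) (nat_lit 465) (nat_lit 401) (nat_lit 334)))) (XT.nd (nat_lit 156) (nat_lit 304) (nat_lit 0) (XT.nd (nat_lit 78) (nat_lit 228) (nat_lit 0) (XT.lf (nat_lit 0) (nat_lit 15912208015) (nat_lit 76) (nat_lit 12400631376) (nat_lit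 152) (nat_lit 2355968319) (nat_lit 57) (nat_lit 5) (nat_lit 58) (nat_lit 5) (nat_lit 59) (nat_lit 4) (nat_lit 466) (nat_lit 401) (nat_lit 333)) (XT.lf (nat_lit 0) (nat_lit 10768829693) (nat_lit 228) (nat_lit 18563807645) (nat_lit 76) (nat_lit 2412856692) (nat_lit 54) (nat_lit 5) (nat_lit 57) (nat_lit 5) (nat_lit 55) (nat_lit 4) (nat_lit 467) (nat_lit 401) (nat_lit 332))) (XT.nd (nat_lit 78) (nat_lit 228) (nat_lit 0) (XT.lf (nat_lit 0) (nat_lit 9904519833) (nat_lit 76) (nat_lit 14922010280) (nat_lit 152) (nat_lit 8039025219) (nat_lit 53) (nat_lit 5) (nat_lit 54) (nat_lit 5) (nat_lit 55) (nat_lit 4) (nat_lit 468) (nat_lit 401) (nat_lit 331)) (XT.lf (nat_lit 0) (nat_lit 5645894223) (nat_lit 228) (nat_lit 27916372856) (nat_lit 76) (nat_lit 471497018) (nat_lit 50) (nat_lit 5) (nat_lit 53) (nat_lit 5) (nat_lit 51) (nat_lit 4) (nat_lit 469) (nat_lit 401) (nat_lit 330))))))))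
noncomputable def xc51 : XT := (XT.nd (nat_lit 1950) (nat_lit 228) (nat_lit 0) (XT.nd (nat_lit 936) (nat_lit 988) (nat_lit 0) (XT.nd (nat_lit 468) (nat_lit 456) (nat_lit 0) (XT.nd (nat_lit 234) (nat_lit 304) (nat_lit 0) (XT.nd (nat_lit 78) (nat_lit 228) (nat_lit 0) (XT.lf (nat_lit 0) (nat_lit 1584263832) (nat_lit 76) (nat_lit 18623810976) (nat_lit 152) (nat_lit 15039144264) (nat_lit 49) (nat_lit 5) (nat_lit 50) (nat_lit 5) (nat_lit 51) (nat_lit 4) (nat_lit 470) (nat_lit 401) (nat_lit 329)) (XT.nd (nat_lit 78) (nat_lit 228) (nat_lit 0) (XT.lf (nat_lit 0) (nat_lit 33057024206) (nat_lit 76) (nat_lit 2683299390) (nat_lit 152) (nat_lit 773766173) (nat_lit 49) (nat_lit 5) (nat_lit 50) (nat_lit 5) (nat_lit 51) (nat_lit 4) (nat_lit 471) (nat_lit 401) (nat_lit 328)) (XT.lf (nat_lit 0) (nat_lit 14297700597) (nat_lit 228) (nat_lit 9374492564) (nat_lit 76) (nat_lit 14156915833) (nat_lit 46) (nat_lit 5) (nat_lit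 49) (nat_lit 5) (nat_lit 47) (nat_lit 4) (nat_lit 472) (nat_lit 401) (nat_lit 327)))) (XT.nd (nat_lit 78) (nat_lit 228) (nat_lit 0) (XT.lf (nat_lit 0) (nat_lit 23160446590) (nat_lit 76) (nat_lit 7189349833) (nat_lit 152) (nat_lit 8852562713) (nat_lit 45) (nat_lit 5) (nat_lit 46) (nat_lit 5) (nat_lit 47) (nat_lit 4) (nat_lit 473) (nat_lit 401) (nat_lit 326)) (XT.nd (nat_lit 78) (nat_lit 76) (nat_lit 0) (XT.lf (nat_lit 0) (nat_lit 6751933651) (nat_lit 152) (nat_lit 23670308417) (nat_lit 76) (nat_lit 10210547654) (nat_lit 43) (nat_lit 5) (nat_lit 45) (nat_lit 5) (nat_lit 44) (nat_lit 4) (nat_lit 474) (nat_lit 401) (nat_lit 325)) (XT.lf (nat_lit 0) (nat_lit 9771023059) (nat_lit 76) (nat_lit 13476516532) (nat_lit 152) (nat_lit 18875755048) (nat_lit 42) (nat_lit 5) (nat_lit 43) (nat_lit 5) (nat_lit 44) (nat_lit 4) (nat_lit 475) (nat_lit 401) (nat_lit 324))))) (XT.nd (nat_lit 234) (nat_lit 228) (nat_lit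 0) (XT.nd (nat_lit 78) (nat_lit 152) (nat_lit 0) (XT.lf (nat_lit 0) (nat_lit 1608304999) (nat_lit 76) (nat_lit 39222523326) (nat_lit 76) (nat_lit 2849610694) (nat_lit 41) (nat_lit 4) (nat_lit 42) (nat_lit 5) (nat_lit 42) (nat_lit 4) (nat_lit 476) (nat_lit 401) (nat_lit 323)) (XT.nd (nat_lit 78) (nat_lit 76) (nat_lit 0) (XT.lf (nat_lit 0) (nat_lit 14138115438) (nat_lit 152) (nat_lit 7711944392) (nat_lit 76) (nat_lit 23448360099) (nat_lit 40) (nat_lit 5) (nat_lit 42) (nat_lit 5) (nat_lit 41) (nat_lit 4) (nat_lit 477) (nat_lit 401) (nat_lit 322)) (XT.lf (nat_lit 0) (nat_lit 28827847145) (nat_lit 76) (nat_lit 3328653099) (nat_lit 152) (nat_lit 14832748157) (nat_lit 39) (nat_lit 5) (nat_lit 40) (nat_lit 5) (nat_lit 41) (nat_lit 4) (nat_lit 478) (nat_lit 401) (nat_lit 321)))) (XT.nd (nat_lit 78) (nat_lit 76) (nat_lit 0) (XT.lf (nat_lit 0) (nat_lit 2648351595) (nat_lit 152) (nat_lit 30046749996) (nat_lit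 76) (nat_lit 16057383307) (nat_lit 37) (nat_lit 5) (nat_lit 39) (nat_lit 5) (nat_lit 38) (nat_lit 4) (nat_lit 479) (nat_lit 401) (nat_lit 320)) (XT.nd (nat_lit 78) (nat_lit 0) (nat_lit 0) (XT.lf (nat_lit 0) (nat_lit 7080926016) (nat_lit 76) (nat_lit 13873201448) (nat_lit 152) (nat_lit 29637629438) (nat_lit 36) (nat_lit 5) (nat_lit 37) (nat_lit 5) (nat_lit 38) (nat_lit 4) (nat_lit 480) (nat_lit 401) (nat_lit 319)) (XT.lf (nat_lit 0) (nat_lit 40508986830) (nat_lit 152) (nat_lit 5948819527) (nat_lit 0) (nat_lit 6055173261) (nat_lit 36) (nat_lit 5) (nat_lit 38) (nat_lit 4) (nat_lit 36) (nat_lit 4) (nat_lit 481) (nat_lit 401) (nat_lit 318)))))) (XT.nd (nat_lit 468) (nat_lit 456) (nat_lit 0) (XT.nd (nat_lit 234) (nat_lit 228) (nat_lit 0) (XT.nd (nat_lit 78) (nat_lit 152) (nat_lit 0) (XT.lf (nat_lit 0) (nat_lit 6821398914) (nat_lit 152) (nat_lit 20635477091) (nat_lit 76) (nat_lit 27058396643) (nat_lit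 34) (nat_lit 5) (nat_lit 36) (nat_lit 5) (nat_lit 35) (nat_lit 4) (nat_lit 482) (nat_lit 401) (nat_lit 317)) (XT.nd (nat_lit 78) (nat_lit 76) (nat_lit 0) (XT.lf (nat_lit 0) (nat_lit 19401295223) (nat_lit 76) (nat_lit 7156305544) (nat_lit 152) (nat_lit 30049980814) (nat_lit 33) (nat_lit 5) (nat_lit 34) (nat_lit 5) (nat_lit 35) (nat_lit 4) (nat_lit 483) (nat_lit 401) (nat_lit 316)) (XT.lf (nat_lit 0) (nat_lit 2929266182) (nat_lit 76) (nat_lit 44697970398) (nat_lit 76) (nat_lit 11166871463) (nat_lit 32) (nat_lit 4) (nat_lit 33) (nat_lit 5) (nat_lit 33) (nat_lit 4) (nat_lit 484) (nat_lit 401) (nat_lit 315)))) (XT.nd (nat_lit 78) (nat_lit 152) (nat_lit 0) (XT.lf (nat_lit 0) (nat_lit 8918893940) (nat_lit 152) (nat_lit 15450152528) (nat_lit 76) (nat_lit 36705592750) (nat_lit 31) (nat_lit 5) (nat_lit 33) (nat_lit 5) (nat_lit 32) (nat_lit 4) (nat_lit 485) (nat_lit 401) (nat_lit 314)) (XT.nd (nat_lit 78)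 (nat_lit 76) (nat_lit 0) (XT.lf (nat_lit 0) (nat_lit 27347632414) (nat_lit 76) (nat_lit 2665365435) (nat_lit 152) (nat_lit 33445832966) (nat_lit 30) (nat_lit 5) (nat_lit 31) (nat_lit 5) (nat_lit 32) (nat_lit 4) (nat_lit 486) (nat_lit 401) (nat_lit 313)) (XT.lf (nat_lit 0) (nat_lit 6525522193) (nat_lit 76) (nat_lit 46023657393) (nat_lit 76) (nat_lit 13401431897) (nat_lit 29) (nat_lit 4) (nat_lit 30) (nat_lit 5) (nat_lit 30) (nat_lit 4) (nat_lit 487) (nat_lit 401) (nat_lit 312))))) (XT.nd (nat_lit 234) (nat_lit 228) (nat_lit 0) (XT.nd (nat_lit 78) (nat_lit 152) (nat_lit 0) (XT.lf (nat_lit 0) (nat_lit 7869485626) (nat_lit 152) (nat_lit 16667640354) (nat_lit 76) (nat_lit 44016446672) (nat_lit 28) (nat_lit 5) (nat_lit 30) (nat_lit 5) (nat_lit 29) (nat_lit 4) (nat_lit 488) (nat_lit 401) (nat_lit 311)) (XT.nd (nat_lit 78) (nat_lit 76) (nat_lit 0) (XT.lf (nat_lit 0) (nat_lit 28596694136) (nat_lit 76)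 (nat_lit 1580097093) (nat_lit 152) (nat_lit 41098410485) (nat_lit 27) (nat_lit 5) (nat_lit 28) (nat_lit 5) (nat_lit 29) (nat_lit 4) (nat_lit 489) (nat_lit 401) (nat_lit 310)) (XT.lf (nat_lit 0) (nat_lit 2115075655) (nat_lit 76) (nat_lit 51867616513) (nat_lit 76) (nat_lit 20138723724) (nat_lit 26) (nat_lit 4) (nat_lit 27) (nat_lit 5) (nat_lit 27) (nat_lit 4) (nat_lit 490) (nat_lit 401) (nat_lit 309)))) (XT.nd (nat_lit 156) (nat_lit 76) (nat_lit 0) (XT.nd (nat_lit 78) (nat_lit 76) (nat_lit 0) (XT.lf (nat_lit 0) (nat_lit 2265741732) (nat_lit 152) (nat_lit 27146605366) (nat_lit 76) (nat_lit 47684057309) (nat_lit 25) (nat_lit 5) (nat_lit 27) (nat_lit 5) (nat_lit 26) (nat_lit 4) (nat_lit 491) (nat_lit 401) (nat_lit 308)) (XT.lf (nat_lit 0) (nat_lit 20095681398) (nat_lit 76) (nat_lit 5450177339) (nat_lit 152) (nat_lit 54663144467) (nat_lit 24) (nat_lit 5) (nat_lit 25) (nat_lit 5) (nat_lit 26) (nat_lit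 4) (nat_lit 492) (nat_lit 401) (nat_lit 307))) (XT.nd (nat_lit 78) (nat_lit 76) (nat_lit 0) (XT.lf (nat_lit 0) (nat_lit 50437058148) (nat_lit 152) (nat_lit 13442115460) (nat_lit 0) (nat_lit 19584646509) (nat_lit 24) (nat_lit 5) (nat_lit 26) (nat_lit 4) (nat_lit 24) (nat_lit 4) (nat_lit 493) (nat_lit 401) (nat_lit 306)) (XT.lf (nat_lit 0) (nat_lit 36167298984) (nat_lit 76) (nat_lit 40784756254) (nat_lit 76) (nat_lit 9917945956) (nat_lit 23) (nat_lit 4) (nat_lit 24) (nat_lit 5) (nat_lit 24) (nat_lit 4) (nat_lit 494) (nat_lit 401) (nat_lit 305))))))) (XT.nd (nat_lit 56004) (nat_lit 0) (nat_lit 15200) (XT.nd (nat_lit 55458) (nat_lit 0) (nat_lit 26144) (XT.nd (nat_lit 55224) (nat_lit 0) (nat_lit 28956) (XT.nd (nat_lit 78) (nat_lit 152) (nat_lit 0) (XT.lf (nat_lit 0) (nat_lit 14183132832) (nat_lit 152) (nat_lit 2088763656) (nat_lit 76) (nat_lit 74166954982) (nat_lit 22) (nat_lit 5) (nat_lit 24) (nat_lit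 5) (nat_lit 23) (nat_lit 4) (nat_lit 495) (nat_lit 401) (nat_lit 304)) (XT.nd (nat_lit 78) (nat_lit 76) (nat_lit 0) (XT.lf (nat_lit 0) (nat_lit 39839253524) (nat_lit 152) (nat_lit 44481808702) (nat_lit 0) (nat_lit 9845483316) (nat_lit 21) (nat_lit 5) (nat_lit 23) (nat_lit 4) (nat_lit 21) (nat_lit 4) (nat_lit 496) (nat_lit 401) (nat_lit 303)) (XT.lf (nat_lit 0) (nat_lit 5919357422) (nat_lit 76) (nat_lit 61080235464) (nat_lit 76) (nat_lit 31074389429) (nat_lit 20) (nat_lit 4) (nat_lit 21) (nat_lit 5) (nat_lit 21) (nat_lit 4) (nat_lit 497) (nat_lit 401) (nat_lit 302)))) (XT.nd (nat_lit 78) (nat_lit 380) (nat_lit 0) (XT.lf (nat_lit 0) (nat_lit 57593169) (nat_lit 380) (nat_lit 1593295035) (nat_lit 380) (nat_lit 1593295035) (nat_lit 406) (nat_lit 3) (nat_lit 411) (nat_lit 3) (nat_lit 411) (nat_lit 5) (nat_lit 402) (nat_lit 402) (nat_lit 396)) (XT.nd (nat_lit 78) (nat_lit 380) (nat_lit 0) (XT.lf (nat_lit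 76) (nat_lit 2150874243) (nat_lit 0) (nat_lit 2418233651) (nat_lit 380) (nat_lit 1946175315) (nat_lit 407) (nat_lit 5) (nat_lit 406) (nat_lit 3) (nat_lit 411) (nat_lit 5) (nat_lit 403) (nat_lit 402) (nat_lit 395)) (XT.lf (nat_lit 76) (nat_lit 1119936547) (nat_lit 0) (nat_lit 1285443515) (nat_lit 456) (nat_lit 4144818028) (nat_lit 402) (nat_lit 5) (nat_lit 401) (nat_lit 5) (nat_lit 407) (nat_lit 5) (nat_lit 404) (nat_lit 402) (nat_lit 394))))) (XT.nd (nat_lit 234) (nat_lit 1900) (nat_lit 0) (XT.nd (nat_lit 78) (nat_lit 532) (nat_lit 0) (XT.lf (nat_lit 0) (nat_lit 111176912) (nat_lit 456) (nat_lit 6385196052) (nat_lit 532) (nat_lit 96808995) (nat_lit 396) (nat_lit 5) (nat_lit 402) (nat_lit 5) (nat_lit 403) (nat_lit 5) (nat_lit 405) (nat_lit 402) (nat_lit 393)) (XT.nd (nat_lit 78) (nat_lit 532) (nat_lit 0) (XT.lf (nat_lit 0) (nat_lit 4298858504) (nat_lit 456) (nat_lit 611173099) (nat_lit 532) (nat_lit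 1733010430) (nat_lit 396) (nat_lit 5) (nat_lit 402) (nat_lit 5) (nat_lit 403) (nat_lit 5) (nat_lit 406) (nat_lit 402) (nat_lit 392)) (XT.lf (nat_lit 0) (nat_lit 1758388569) (nat_lit 532) (nat_lit 1314894867) (nat_lit 608) (nat_lit 3627716975) (nat_lit 389) (nat_lit 5) (nat_lit 396) (nat_lit 5) (nat_lit 397) (nat_lit 5) (nat_lit 407) (nat_lit 402) (nat_lit 391)))) (XT.nd (nat_lit 156) (nat_lit 1368) (nat_lit 0) (XT.nd (nat_lit 78) (nat_lit 532) (nat_lit 0) (XT.lf (nat_lit 76) (nat_lit 4851595341) (nat_lit 0) (nat_lit 974616700) (nat_lit 608) (nat_lit 940775131) (nat_lit 390) (nat_lit 5) (nat_lit 389) (nat_lit 5) (nat_lit 397) (nat_lit 5) (nat_lit 408) (nat_lit 402) (nat_lit 390)) (XT.lf (nat_lit 0) (nat_lit 3030122970) (nat_lit 608) (nat_lit 2435647867) (nat_lit 76) (nat_lit 1374662279) (nat_lit 382) (nat_lit 5) (nat_lit 390) (nat_lit 5) (nat_lit 383) (nat_lit 5) (nat_lit 409) (nat_lit 402) (nat_lit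 389))) (XT.nd (nat_lit 78) (nat_lit 684) (nat_lit 0) (XT.lf (nat_lit 0) (nat_lit 98674531) (nat_lit 684) (nat_lit 2856486495) (nat_lit 76) (nat_lit 3966878683) (nat_lit 373) (nat_lit 5) (nat_lit 382) (nat_lit 5) (nat_lit 374) (nat_lit 5) (nat_lit 410) (nat_lit 402) (nat_lit 388)) (XT.lf (nat_lit 0) (nat_lit 3814222462) (nat_lit 684) (nat_lit 153472204) (nat_lit 760) (nat_lit 3043667623) (nat_lit 364) (nat_lit 5) (nat_lit 373) (nat_lit 5) (nat_lit 374) (nat_lit 5) (nat_lit 411) (nat_lit 402) (nat_lit 387)))))) (XT.nd (nat_lit 468) (nat_lit 5016) (nat_lit 0) (XT.nd (nat_lit 234) (nat_lit 3268) (nat_lit 0) (XT.nd (nat_lit 78) (nat_lit 1824) (nat_lit 0) (XT.lf (nat_lit 0) (nat_lit 787598280) (nat_lit 836) (nat_lit 3457956140) (nat_lit 76) (nat_lit 2862974713) (nat_lit 353) (nat_lit 5) (nat_lit 364) (nat_lit 5) (nat_lit 354) (nat_lit 5) (nat_lit 412) (nat_lit 402) (nat_lit 386)) (XT.nd (nat_lit 78)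 (nat_lit 988) (nat_lit 0) (XT.lf (nat_lit 0) (nat_lit 3575906382) (nat_lit 836) (nat_lit 1037965101) (nat_lit 912) (nat_lit 2599847888) (nat_lit 342) (nat_lit 5) (nat_lit 353) (nat_lit 5) (nat_lit 354) (nat_lit 5) (nat_lit 413) (nat_lit 402) (nat_lit 385)) (XT.lf (nat_lit 0) (nat_lit 1178871294) (nat_lit 988) (nat_lit 3741706230) (nat_lit 76) (nat_lit 2406358117) (nat_lit 329) (nat_lit 5) (nat_lit 342) (nat_lit 5) (nat_lit 330) (nat_lit 5) (nat_lit 414) (nat_lit 402) (nat_lit 384)))) (XT.nd (nat_lit 78) (nat_lit 2280) (nat_lit 0) (XT.lf (nat_lit 0) (nat_lit 3675252128) (nat_lit 988) (nat_lit 1312728627) (nat_lit 1064) (nat_lit 2460256637) (nat_lit 316) (nat_lit 5) (nat_lit 329) (nat_lit 5) (nat_lit 330) (nat_lit 5) (nat_lit 415) (nat_lit 402) (nat_lit 383)) (XT.nd (nat_lit 78) (nat_lit 1140) (nat_lit 0) (XT.lf (nat_lit 0) (nat_lit 1302148556) (nat_lit 1140) (nat_lit 3734266978) (nat_lit 76) (nat_lit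 2541298305) (nat_lit 301) (nat_lit 5) (nat_lit 316) (nat_lit 5) (nat_lit 302) (nat_lit 5) (nat_lit 416) (nat_lit 402) (nat_lit 382)) (XT.lf (nat_lit 0) (nat_lit 4088148476) (nat_lit 1140) (nat_lit 1030085819) (nat_lit 1216) (nat_lit 2597252975) (nat_lit 286) (nat_lit 5) (nat_lit 301) (nat_lit 5) (nat_lit 302) (nat_lit 5) (nat_lit 417) (nat_lit 402) (nat_lit 381))))) (XT.nd (nat_lit 234) (nat_lit 2280) (nat_lit 0) (XT.nd (nat_lit 78) (nat_lit 1444) (nat_lit 0) (XT.lf (nat_lit 0) (nat_lit 1182680907) (nat_lit 1292) (nat_lit 3458390739) (nat_lit 76) (nat_lit 3220484871) (nat_lit 269) (nat_lit 5) (nat_lit 286) (nat_lit 5) (nat_lit 270) (nat_lit 5) (nat_lit 418) (nat_lit 402) (nat_lit 380)) (XT.nd (nat_lit 78) (nat_lit 684) (nat_lit 0) (XT.lf (nat_lit 0) (nat_lit 4794211182) (nat_lit 760) (nat_lit 234465067) (nat_lit 836) (nat_lit 2987599678) (nat_lit 259) (nat_lit 5) (nat_lit 269) (nat_lit 5) (nat_lit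 270) (nat_lit 5) (nat_lit 419) (nat_lit 402) (nat_lit 379)) (XT.lf (nat_lit 0) (nat_lit 841695759) (nat_lit 684) (nat_lit 2933652184) (nat_lit 76) (nat_lit 4404041991) (nat_lit 250) (nat_lit 5) (nat_lit 259) (nat_lit 5) (nat_lit 251) (nat_lit 5) (nat_lit 420) (nat_lit 402) (nat_lit 378)))) (XT.nd (nat_lit 156) (nat_lit 1064) (nat_lit 0) (XT.nd (nat_lit 78) (nat_lit 608) (nat_lit 0) (XT.lf (nat_lit 0) (nat_lit 4749498421) (nat_lit 684) (nat_lit 2585415792) (nat_lit 76) (nat_lit 1016429704) (nat_lit 242) (nat_lit 5) (nat_lit 251) (nat_lit 5) (nat_lit 243) (nat_lit 5) (nat_lit 421) (nat_lit 402) (nat_lit 377)) (XT.lf (nat_lit 0) (nat_lit 296705511) (nat_lit 608) (nat_lit 2177020497) (nat_lit 76) (nat_lit 6058645830) (nat_lit 234) (nat_lit 5) (nat_lit 242) (nat_lit 5) (nat_lit 235) (nat_lit 5) (nat_lit 422) (nat_lit 402) (nat_lit 376))) (XT.nd (nat_lit 78) (nat_lit 532) (nat_lit 0) (XT.lf (nat_lit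 0) (nat_lit 4293948637) (nat_lit 608) (nat_lit 1729899854) (nat_lit 76) (nat_lit 2698217352) (nat_lit 227) (nat_lit 5) (nat_lit 235) (nat_lit 5) (nat_lit 228) (nat_lit 5) (nat_lit 423) (nat_lit 402) (nat_lit 375)) (XT.lf (nat_lit 0) (nat_lit 7714050561) (nat_lit 532) (nat_lit 760737975) (nat_lit 608) (nat_lit 446974667) (nat_lit 220) (nat_lit 5) (nat_lit 227) (nat_lit 5) (nat_lit 228) (nat_lit 5) (nat_lit 424) (nat_lit 402) (nat_lit 374))))))))
noncomputable def xc52 : XT := (XT.nd (nat_lit 1950) (nat_lit 4028) (nat_lit 0) (XT.nd (nat_lit 936) (nat_lit 3800) (nat_lit 0) (XT.nd (nat_lit 468) (nat_lit 2280) (nat_lit 0) (XT.nd (nat_lit 234) (nat_lit 1292) (nat_lit 0) (XT.nd (nat_lit 78) (nat_lit 1444) (nat_lit 0) (XT.lf (nat_lit 0) (nat_lit 3672888815) (nat_lit 608) (nat_lit 667181138) (nat_lit 76) (nat_lit 4789951905) (nat_lit 212) (nat_lit 5) (nat_lit 220) (nat_lit 5) (nat_lit 213) (nat_lit 5)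 (nat_lit 425) (nat_lit 402) (nat_lit 373)) (XT.nd (nat_lit 78) (nat_lit 988) (nat_lit 0) (XT.lf (nat_lit 0) (nat_lit 7982698639) (nat_lit 532) (nat_lit 52402743) (nat_lit 76) (nat_lit 1313690412) (nat_lit 206) (nat_lit 5) (nat_lit 213) (nat_lit 5) (nat_lit 207) (nat_lit 5) (nat_lit 426) (nat_lit 402) (nat_lit 372)) (XT.lf (nat_lit 0) (nat_lit 601741541) (nat_lit 456) (nat_lit 2300346615) (nat_lit 532) (nat_lit 6674699625) (nat_lit 193) (nat_lit 5) (nat_lit 199) (nat_lit 5) (nat_lit 200) (nat_lit 5) (nat_lit 427) (nat_lit 402) (nat_lit 371)))) (XT.nd (nat_lit 78) (nat_lit 836) (nat_lit 0) (XT.lf (nat_lit 0) (nat_lit 1306964345) (nat_lit 456) (nat_lit 6071898136) (nat_lit 532) (nat_lit 2436236013) (nat_lit 187) (nat_lit 5) (nat_lit 193) (nat_lit 5) (nat_lit 194) (nat_lit 5) (nat_lit 428) (nat_lit 402) (nat_lit 370)) (XT.nd (nat_lit 78) (nat_lit 380) (nat_lit 0) (XT.lf (nat_lit 0) (nat_lit 1991780792)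 (nat_lit 456) (nat_lit 7995140599) (nat_lit 76) (nat_lit 77336525) (nat_lit 181) (nat_lit 5) (nat_lit 187) (nat_lit 5) (nat_lit 182) (nat_lit 5) (nat_lit 429) (nat_lit 402) (nat_lit 369)) (XT.lf (nat_lit 0) (nat_lit 2844753026) (nat_lit 380) (nat_lit 3807310188) (nat_lit 456) (nat_lit 3671271925) (nat_lit 176) (nat_lit 5) (nat_lit 181) (nat_lit 5) (nat_lit 182) (nat_lit 5) (nat_lit 430) (nat_lit 402) (nat_lit 368))))) (XT.nd (nat_lit 234) (nat_lit 1140) (nat_lit 0) (XT.nd (nat_lit 78) (nat_lit 684) (nat_lit 0) (XT.lf (nat_lit 0) (nat_lit 963595944) (nat_lit 456) (nat_lit 6909981514) (nat_lit 76) (nat_lit 2720569984) (nat_lit 170) (nat_lit 5) (nat_lit 176) (nat_lit 5) (nat_lit 171) (nat_lit 5) (nat_lit 431) (nat_lit 402) (nat_lit 367)) (XT.nd (nat_lit 78) (nat_lit 304) (nat_lit 0) (XT.lf (nat_lit 0) (nat_lit 4547383402) (nat_lit 380) (nat_lit 1257777229) (nat_lit 456) (nat_lit 5070741283) (nat_lit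 165) (nat_lit 5) (nat_lit 170) (nat_lit 5) (nat_lit 171) (nat_lit 5) (nat_lit 432) (nat_lit 402) (nat_lit 366)) (XT.lf (nat_lit 0) (nat_lit 5454706547) (nat_lit 304) (nat_lit 5506775510) (nat_lit 380) (nat_lit 208099275) (nat_lit 161) (nat_lit 5) (nat_lit 165) (nat_lit 5) (nat_lit 166) (nat_lit 5) (nat_lit 433) (nat_lit 402) (nat_lit 365)))) (XT.nd (nat_lit 78) (nat_lit 684) (nat_lit 0) (XT.lf (nat_lit 0) (nat_lit 4853508941) (nat_lit 456) (nat_lit 5089202624) (nat_lit 76) (nat_lit 1532294868) (nat_lit 155) (nat_lit 5) (nat_lit 161) (nat_lit 5) (nat_lit 156) (nat_lit 5) (nat_lit 434) (nat_lit 402) (nat_lit 364)) (XT.nd (nat_lit 78) (nat_lit 380) (nat_lit 0) (XT.lf (nat_lit 0) (nat_lit 7357331264) (nat_lit 304) (nat_lit 2891842302) (nat_lit 380) (nat_lit 1543924498) (nat_lit 151) (nat_lit 5) (nat_lit 155) (nat_lit 5) (nat_lit 156) (nat_lit 5) (nat_lit 435) (nat_lit 402) (nat_lit 363)) (XT.lf (nat_lit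 0) (nat_lit 3793785885) (nat_lit 380) (nat_lit 3778523773) (nat_lit 76) (nat_lit 4551301682) (nat_lit 146) (nat_lit 5) (nat_lit 151) (nat_lit 5) (nat_lit 147) (nat_lit 5) (nat_lit 436) (nat_lit 402) (nat_lit 362)))))) (XT.nd (nat_lit 468) (nat_lit 1748) (nat_lit 0) (XT.nd (nat_lit 234) (nat_lit 1140) (nat_lit 0) (XT.nd (nat_lit 78) (nat_lit 608) (nat_lit 0) (XT.lf (nat_lit 0) (nat_lit 9385191278) (nat_lit 304) (nat_lit 51965753) (nat_lit 380) (nat_lit 3030927110) (nat_lit 142) (nat_lit 5) (nat_lit 146) (nat_lit 5) (nat_lit 147) (nat_lit 5) (nat_lit 437) (nat_lit 402) (nat_lit 361)) (XT.nd (nat_lit 78) (nat_lit 228) (nat_lit 0) (XT.lf (nat_lit 0) (nat_lit 2607461042) (nat_lit 380) (nat_lit 2405598447) (nat_lit 76) (nat_lit 7812284124) (nat_lit 137) (nat_lit 5) (nat_lit 142) (nat_lit 5) (nat_lit 138) (nat_lit 5) (nat_lit 438) (nat_lit 402) (nat_lit 360)) (XT.lf (nat_lit 0) (nat_lit 8547666674) (nat_lit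 304) (nat_lit 1708261213) (nat_lit 76) (nat_lit 2941172433) (nat_lit 134) (nat_lit 5) (nat_lit 138) (nat_lit 5) (nat_lit 135) (nat_lit 5) (nat_lit 439) (nat_lit 402) (nat_lit 359)))) (XT.nd (nat_lit 78) (nat_lit 760) (nat_lit 0) (XT.lf (nat_lit 0) (nat_lit 1284311680) (nat_lit 380) (nat_lit 995626168) (nat_lit 76) (nat_lit 11303865592) (nat_lit 129) (nat_lit 5) (nat_lit 134) (nat_lit 5) (nat_lit 130) (nat_lit 5) (nat_lit 440) (nat_lit 402) (nat_lit 358)) (XT.nd (nat_lit 78) (nat_lit 532) (nat_lit 0) (XT.lf (nat_lit 0) (nat_lit 7543819327) (nat_lit 304) (nat_lit 313184627) (nat_lit 76) (nat_lit 6127710340) (nat_lit 126) (nat_lit 5) (nat_lit 130) (nat_lit 5) (nat_lit 127) (nat_lit 5) (nat_lit 441) (nat_lit 402) (nat_lit 357)) (XT.lf (nat_lit 0) (nat_lit 421517544) (nat_lit 228) (nat_lit 13797438815) (nat_lit 304) (nat_lit 183644779) (nat_lit 119) (nat_lit 5) (nat_lit 122) (nat_lit 5) (nat_lit 123)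 (nat_lit 5) (nat_lit 442) (nat_lit 402) (nat_lit 356))))) (XT.nd (nat_lit 234) (nat_lit 912) (nat_lit 0) (XT.nd (nat_lit 78) (nat_lit 532) (nat_lit 0) (XT.lf (nat_lit 0) (nat_lit 1090704874) (nat_lit 228) (nat_lit 5329970962) (nat_lit 304) (nat_lit 8414109152) (nat_lit 115) (nat_lit 5) (nat_lit 118) (nat_lit 5) (nat_lit 119) (nat_lit 5) (nat_lit 443) (nat_lit 402) (nat_lit 355)) (XT.nd (nat_lit 78) (nat_lit 304) (nat_lit 0) (XT.lf (nat_lit 0) (nat_lit 1789339438) (nat_lit 228) (nat_lit 11678156293) (nat_lit 304) (nat_lit 1817554179) (nat_lit 112) (nat_lit 5) (nat_lit 115) (nat_lit 5) (nat_lit 116) (nat_lit 5) (nat_lit 444) (nat_lit 402) (nat_lit 354)) (XT.lf (nat_lit 0) (nat_lit 2446645081) (nat_lit 228) (nat_lit 2703789363) (nat_lit 304) (nat_lit 10601689631) (nat_lit 108) (nat_lit 5) (nat_lit 111) (nat_lit 5) (nat_lit 112) (nat_lit 5) (nat_lit 445) (nat_lit 402) (nat_lit 353)))) (XT.nd (nat_lit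 156) (nat_lit 456) (nat_lit 0) (XT.nd (nat_lit 78) (nat_lit 304) (nat_lit 0) (XT.lf (nat_lit 0) (nat_lit 3077552188) (nat_lit 152) (nat_lit 9509669791) (nat_lit 228) (nat_lit 3650058230) (nat_lit 106) (nat_lit 5) (nat_lit 108) (nat_lit 5) (nat_lit 109) (nat_lit 5) (nat_lit 446) (nat_lit 402) (nat_lit 352)) (XT.lf (nat_lit 0) (nat_lit 3697848577) (nat_lit 228) (nat_lit 6143447) (nat_lit 304) (nat_lit 13037875645) (nat_lit 102) (nat_lit 5) (nat_lit 105) (nat_lit 5) (nat_lit 106) (nat_lit 5) (nat_lit 447) (nat_lit 402) (nat_lit 351))) (XT.nd (nat_lit 78) (nat_lit 304) (nat_lit 0) (XT.lf (nat_lit 0) (nat_lit 4230298752) (nat_lit 152) (nat_lit 7320806749) (nat_lit 228) (nat_lit 5713476216) (nat_lit 100) (nat_lit 5) (nat_lit 102) (nat_lit 5) (nat_lit 103) (nat_lit 5) (nat_lit 448) (nat_lit 402) (nat_lit 350)) (XT.lf (nat_lit 0) (nat_lit 2074917914) (nat_lit 304) (nat_lit 13053173193) (nat_lit 76) (nat_lit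 2680685875) (nat_lit 96) (nat_lit 5) (nat_lit 100) (nat_lit 5) (nat_lit 97) (nat_lit 5) (nat_lit 449) (nat_lit 402) (nat_lit 349))))))) (XT.nd (nat_lit 1014) (nat_lit 1672) (nat_lit 0) (XT.nd (nat_lit 468) (nat_lit 1216) (nat_lit 0) (XT.nd (nat_lit 234) (nat_lit 532) (nat_lit 0) (XT.nd (nat_lit 78) (nat_lit 456) (nat_lit 0) (XT.lf (nat_lit 0) (nat_lit 5179499009) (nat_lit 152) (nat_lit 5145584566) (nat_lit 228) (nat_lit 8047691960) (nat_lit 94) (nat_lit 5) (nat_lit 96) (nat_lit 5) (nat_lit 97) (nat_lit 5) (nat_lit 450) (nat_lit 402) (nat_lit 348)) (XT.nd (nat_lit 78) (nat_lit 152) (nat_lit 0) (XT.lf (nat_lit 0) (nat_lit 196580182) (nat_lit 304) (nat_lit 13387973121) (nat_lit 76) (nat_lit 5375192503) (nat_lit 90) (nat_lit 5) (nat_lit 94) (nat_lit 5) (nat_lit 91) (nat_lit 5) (nat_lit 451) (nat_lit 402) (nat_lit 347)) (XT.lf (nat_lit 0) (nat_lit 5842317490) (nat_lit 152) (nat_lit 3024555962) (nat_lit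 228) (nat_lit 10701398683) (nat_lit 88) (nat_lit 5) (nat_lit 90) (nat_lit 5) (nat_lit 91) (nat_lit 5) (nat_lit 452) (nat_lit 402) (nat_lit 346)))) (XT.nd (nat_lit 78) (nat_lit 380) (nat_lit 0) (XT.lf (nat_lit 0) (nat_lit 6035586056) (nat_lit 152) (nat_lit 12144874695) (nat_lit 228) (nat_lit 2020475725) (nat_lit 86) (nat_lit 5) (nat_lit 88) (nat_lit 5) (nat_lit 89) (nat_lit 5) (nat_lit 453) (nat_lit 402) (nat_lit 345)) (XT.nd (nat_lit 78) (nat_lit 152) (nat_lit 0) (XT.lf (nat_lit 0) (nat_lit 6118191190) (nat_lit 152) (nat_lit 1006365884) (nat_lit 228) (nat_lit 13733580674) (nat_lit 83) (nat_lit 5) (nat_lit 85) (nat_lit 5) (nat_lit 86) (nat_lit 5) (nat_lit 454) (nat_lit 402) (nat_lit 344)) (XT.lf (nat_lit 0) (nat_lit 6051298867) (nat_lit 152) (nat_lit 10880318011) (nat_lit 228) (nat_lit 4608589680) (nat_lit 81) (nat_lit 5) (nat_lit 83) (nat_lit 5) (nat_lit 84) (nat_lit 5) (nat_lit 455) (nat_lit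 402) (nat_lit 343))))) (XT.nd (nat_lit 234) (nat_lit 608) (nat_lit 0) (XT.nd (nat_lit 78) (nat_lit 380) (nat_lit 0) (XT.lf (nat_lit 0) (nat_lit 5043074645) (nat_lit 228) (nat_lit 16373006679) (nat_lit 76) (nat_lit 833843870) (nat_lit 78) (nat_lit 5) (nat_lit 81) (nat_lit 5) (nat_lit 79) (nat_lit 5) (nat_lit 456) (nat_lit 402) (nat_lit 342)) (XT.nd (nat_lit 78) (nat_lit 228) (nat_lit 0) (XT.lf (nat_lit 0) (nat_lit 5486957727) (nat_lit 152) (nat_lit 9860269635) (nat_lit 228) (nat_lit 7638580913) (nat_lit 76) (nat_lit 5) (nat_lit 78) (nat_lit 5) (nat_lit 79) (nat_lit 5) (nat_lit 457) (nat_lit 402) (nat_lit 341)) (XT.lf (nat_lit 0) (nat_lit 2545152151) (nat_lit 228) (nat_lit 18780122806) (nat_lit 76) (nat_lit 2426998529) (nat_lit 73) (nat_lit 5) (nat_lit 76) (nat_lit 5) (nat_lit 74) (nat_lit 5) (nat_lit 458) (nat_lit 402) (nat_lit 340)))) (XT.nd (nat_lit 156) (nat_lit 304) (nat_lit 0) (XT.nd (nat_lit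 78) (nat_lit 152) (nat_lit 0) (XT.lf (nat_lit 0) (nat_lit 4180982016) (nat_lit 152) (nat_lit 9165560692) (nat_lit 228) (nat_lit 11200260379) (nat_lit 71) (nat_lit 5) (nat_lit 73) (nat_lit 5) (nat_lit 74) (nat_lit 5) (nat_lit 459) (nat_lit 402) (nat_lit 339)) (XT.lf (nat_lit 0) (nat_lit 3232686857) (nat_lit 152) (nat_lit 21660907876) (nat_lit 228) (nat_lit 481299981) (nat_lit 69) (nat_lit 5) (nat_lit 71) (nat_lit 5) (nat_lit 72) (nat_lit 4) (nat_lit 460) (nat_lit 402) (nat_lit 338))) (XT.nd (nat_lit 78) (nat_lit 76) (nat_lit 0) (XT.lf (nat_lit 0) (nat_lit 1938923899) (nat_lit 152) (nat_lit 8893133842) (nat_lit 228) (nat_lit 15401168922) (nat_lit 66) (nat_lit 5) (nat_lit 68) (nat_lit 5) (nat_lit 69) (nat_lit 5) (nat_lit 461) (nat_lit 402) (nat_lit 337)) (XT.lf (nat_lit 0) (nat_lit 419189915) (nat_lit 76) (nat_lit 22506673651) (nat_lit 152) (nat_lit 4201729565) (nat_lit 65) (nat_lit 5) (nat_lit 66)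 (nat_lit 5) (nat_lit 67) (nat_lit 4) (nat_lit 462) (nat_lit 402) (nat_lit 336)))))) (XT.nd (nat_lit 468) (nat_lit 836) (nat_lit 0) (XT.nd (nat_lit 234) (nat_lit 456) (nat_lit 0) (XT.nd (nat_lit 78) (nat_lit 304) (nat_lit 0) (XT.lf (nat_lit 0) (nat_lit 7700667000) (nat_lit 152) (nat_lit 1443934737) (nat_lit 76) (nat_lit 18911185518) (nat_lit 64) (nat_lit 5) (nat_lit 66) (nat_lit 5) (nat_lit 65) (nat_lit 5) (nat_lit 463) (nat_lit 402) (nat_lit 335)) (XT.nd (nat_lit 78) (nat_lit 152) (nat_lit 0) (XT.lf (nat_lit 0) (nat_lit 20356709858) (nat_lit 228) (nat_lit 3626107697) (nat_lit 76) (nat_lit 5038965312) (nat_lit 62) (nat_lit 5) (nat_lit 65) (nat_lit 5) (nat_lit 63) (nat_lit 4) (nat_lit 464) (nat_lit 402) (nat_lit 334)) (XT.lf (nat_lit 0) (nat_lit 3830228722) (nat_lit 152) (nat_lit 6209893560) (nat_lit 76) (nat_lit 19986181870) (nat_lit 60) (nat_lit 5) (nat_lit 62) (nat_lit 5) (nat_lit 61) (nat_lit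 5) (nat_lit 465) (nat_lit 402) (nat_lit 333)))) (XT.nd (nat_lit 78) (nat_lit 304) (nat_lit 0) (XT.lf (nat_lit 0) (nat_lit 17020607956) (nat_lit 228) (nat_lit 9241709056) (nat_lit 76) (nat_lit 4808677380) (nat_lit 58) (nat_lit 5) (nat_lit 61) (nat_lit 5) (nat_lit 59) (nat_lit 4) (nat_lit 466) (nat_lit 402) (nat_lit 332)) (XT.nd (nat_lit 78) (nat_lit 228) (nat_lit 0) (XT.lf (nat_lit 0) (nat_lit 19424653832) (nat_lit 76) (nat_lit 11752225746) (nat_lit 152) (nat_lit 981850508) (nat_lit 57) (nat_lit 5) (nat_lit 58) (nat_lit 5) (nat_lit 59) (nat_lit 4) (nat_lit 467) (nat_lit 402) (nat_lit 331)) (XT.lf (nat_lit 0) (nat_lit 12738058600) (nat_lit 228) (nat_lit 16794076504) (nat_lit 76) (nat_lit 3757648920) (nat_lit 54) (nat_lit 5) (nat_lit 57) (nat_lit 5) (nat_lit 55) (nat_lit 4) (nat_lit 468) (nat_lit 402) (nat_lit 330))))) (XT.nd (nat_lit 234) (nat_lit 456) (nat_lit 0) (XT.nd (nat_lit 78) (nat_lit 304)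 (nat_lit 0) (XT.lf (nat_lit 0) (nat_lit 13020331969) (nat_lit 76) (nat_lit 14435370015) (nat_lit 152) (nat_lit 7011437578) (nat_lit 53) (nat_lit 5) (nat_lit 54) (nat_lit 5) (nat_lit 55) (nat_lit 4) (nat_lit 469) (nat_lit 402) (nat_lit 329)) (XT.nd (nat_lit 78) (nat_lit 76) (nat_lit 0) (XT.lf (nat_lit 0) (nat_lit 7299477041) (nat_lit 228) (nat_lit 26710390601) (nat_lit 76) (nat_lit 1684392225) (nat_lit 50) (nat_lit 5) (nat_lit 53) (nat_lit 5) (nat_lit 51) (nat_lit 4) (nat_lit 470) (nat_lit 402) (nat_lit 328)) (XT.lf (nat_lit 0) (nat_lit 4190697821) (nat_lit 76) (nat_lit 18358062593) (nat_lit 152) (nat_lit 14420859926) (nat_lit 49) (nat_lit 5) (nat_lit 50) (nat_lit 5) (nat_lit 51) (nat_lit 4) (nat_lit 471) (nat_lit 402) (nat_lit 327)))) (XT.nd (nat_lit 156) (nat_lit 228) (nat_lit 0) (XT.nd (nat_lit 78) (nat_lit 152) (nat_lit 0) (XT.lf (nat_lit 0) (nat_lit 482926291) (nat_lit 152) (nat_lit 1189719620)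 (nat_lit 76) (nat_lit 36628949466) (nat_lit 48) (nat_lit 5) (nat_lit 50) (nat_lit 5) (nat_lit 49) (nat_lit 5) (nat_lit 472) (nat_lit 402) (nat_lit 326)) (XT.lf (nat_lit 0) (nat_lit 16264673193) (nat_lit 228) (nat_lit 7454046538) (nat_lit 76) (nat_lit 15964236972) (nat_lit 46) (nat_lit 5) (nat_lit 49) (nat_lit 5) (nat_lit 47) (nat_lit 4) (nat_lit 473) (nat_lit 402) (nat_lit 325))) (XT.nd (nat_lit 78) (nat_lit 152) (nat_lit 0) (XT.lf (nat_lit 0) (nat_lit 26639154476) (nat_lit 76) (nat_lit 6442903965) (nat_lit 152) (nat_lit 8043932520) (nat_lit 45) (nat_lit 5) (nat_lit 46) (nat_lit 5) (nat_lit 47) (nat_lit 4) (nat_lit 474) (nat_lit 402) (nat_lit 324)) (XT.lf (nat_lit 0) (nat_lit 8290302545) (nat_lit 152) (nat_lit 22550608542) (nat_lit 76) (nat_lit 11787455227) (nat_lit 43) (nat_lit 5) (nat_lit 45) (nat_lit 5) (nat_lit 44) (nat_lit 4) (nat_lit 475) (nat_lit 402) (nat_lit 323))))))))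
noncomputable def xc53 : XT := (XT.nd (nat_lit 57018) (nat_lit 0) (nat_lit 11780) (XT.nd (nat_lit 936) (nat_lit 684) (nat_lit 0) (XT.nd (nat_lit 468) (nat_lit 456) (nat_lit 0) (XT.nd (nat_lit 234) (nat_lit 304) (nat_lit 0) (XT.nd (nat_lit 78) (nat_lit 152) (nat_lit 0) (XT.lf (nat_lit 0) (nat_lit 12496768303) (nat_lit 76) (nat_lit 13078246128) (nat_lit 152) (nat_lit 18619454169) (nat_lit 42) (nat_lit 5) (nat_lit 43) (nat_lit 5) (nat_lit 44) (nat_lit 4) (nat_lit 476) (nat_lit 402) (nat_lit 322)) (XT.nd (nat_lit 78) (nat_lit 76) (nat_lit 0) (XT.lf (nat_lit 0) (nat_lit 3885763154) (nat_lit 76) (nat_lit 40127157818) (nat_lit 76) (nat_lit 1817287428) (nat_lit 41) (nat_lit 4) (nat_lit 42) (nat_lit 5) (nat_lit 42) (nat_lit 4) (nat_lit 477) (nat_lit 402) (nat_lit 321)) (XT.lf (nat_lit 0) (nat_lit 15942048969) (nat_lit 152) (nat_lit 5983253476) (nat_lit 76) (nat_lit 25605094329) (nat_lit 40) (nat_lit 5)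 (nat_lit 42) (nat_lit 5) (nat_lit 41) (nat_lit 4) (nat_lit 478) (nat_lit 402) (nat_lit 320)))) (XT.nd (nat_lit 78) (nat_lit 228) (nat_lit 0) (XT.lf (nat_lit 0) (nat_lit 32322921993) (nat_lit 76) (nat_lit 2505932858) (nat_lit 152) (nat_lit 14477888351) (nat_lit 39) (nat_lit 5) (nat_lit 40) (nat_lit 5) (nat_lit 41) (nat_lit 4) (nat_lit 479) (nat_lit 402) (nat_lit 319)) (XT.nd (nat_lit 78) (nat_lit 76) (nat_lit 0) (XT.lf (nat_lit 0) (nat_lit 3833396744) (nat_lit 152) (nat_lit 29511479222) (nat_lit 76) (nat_lit 17813625010) (nat_lit 37) (nat_lit 5) (nat_lit 39) (nat_lit 5) (nat_lit 38) (nat_lit 4) (nat_lit 480) (nat_lit 402) (nat_lit 318)) (XT.lf (nat_lit 0) (nat_lit 9414172959) (nat_lit 76) (nat_lit 13609188613) (nat_lit 152) (nat_lit 30067309400) (nat_lit 36) (nat_lit 5) (nat_lit 37) (nat_lit 5) (nat_lit 38) (nat_lit 4) (nat_lit 481) (nat_lit 402) (nat_lit 317))))) (XT.nd (nat_lit 234) (nat_lit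 228) (nat_lit 0) (XT.nd (nat_lit 78) (nat_lit 228) (nat_lit 0) (XT.lf (nat_lit 0) (nat_lit 43516087098) (nat_lit 152) (nat_lit 4340861760) (nat_lit 0) (nat_lit 7252203600) (nat_lit 36) (nat_lit 5) (nat_lit 38) (nat_lit 4) (nat_lit 36) (nat_lit 4) (nat_lit 482) (nat_lit 402) (nat_lit 316)) (XT.nd (nat_lit 78) (nat_lit 76) (nat_lit 0) (XT.lf (nat_lit 0) (nat_lit 8124622831) (nat_lit 152) (nat_lit 19797296717) (nat_lit 76) (nat_lit 29290227505) (nat_lit 34) (nat_lit 5) (nat_lit 36) (nat_lit 5) (nat_lit 35) (nat_lit 4) (nat_lit 483) (nat_lit 402) (nat_lit 315)) (XT.lf (nat_lit 0) (nat_lit 22187712350) (nat_lit 76) (nat_lit 6631565461) (nat_lit 152) (nat_lit 30590645503) (nat_lit 33) (nat_lit 5) (nat_lit 34) (nat_lit 5) (nat_lit 35) (nat_lit 4) (nat_lit 484) (nat_lit 402) (nat_lit 314)))) (XT.nd (nat_lit 78) (nat_lit 152) (nat_lit 0) (XT.lf (nat_lit 0) (nat_lit 4859009662) (nat_lit 76) (nat_lit 46064140886)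 (nat_lit 76) (nat_lit 10783204013) (nat_lit 32) (nat_lit 4) (nat_lit 33) (nat_lit 5) (nat_lit 33) (nat_lit 4) (nat_lit 485) (nat_lit 402) (nat_lit 313)) (XT.nd (nat_lit 78) (nat_lit 76) (nat_lit 0) (XT.lf (nat_lit 0) (nat_lit 10244485299) (nat_lit 152) (nat_lit 14506770755) (nat_lit 76) (nat_lit 39350705086) (nat_lit 31) (nat_lit 5) (nat_lit 33) (nat_lit 5) (nat_lit 32) (nat_lit 4) (nat_lit 486) (nat_lit 402) (nat_lit 312)) (XT.lf (nat_lit 0) (nat_lit 30381717808) (nat_lit 76) (nat_lit 1985710035) (nat_lit 152) (nat_lit 34238711454) (nat_lit 30) (nat_lit 5) (nat_lit 31) (nat_lit 5) (nat_lit 32) (nat_lit 4) (nat_lit 487) (nat_lit 402) (nat_lit 311)))))) (XT.nd (nat_lit 468) (nat_lit 228) (nat_lit 0) (XT.nd (nat_lit 234) (nat_lit 228) (nat_lit 0) (XT.nd (nat_lit 78) (nat_lit 152) (nat_lit 0) (XT.lf (nat_lit 0) (nat_lit 8488034315) (nat_lit 76) (nat_lit 47524898868) (nat_lit 76) (nat_lit 13210101317)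 (nat_lit 29) (nat_lit 4) (nat_lit 30) (nat_lit 5) (nat_lit 30) (nat_lit 4) (nat_lit 488) (nat_lit 402) (nat_lit 310)) (XT.nd (nat_lit 78) (nat_lit 76) (nat_lit 0) (XT.lf (nat_lit 0) (nat_lit 9067334304) (nat_lit 152) (nat_lit 15926676423) (nat_lit 76) (nat_lit 46963092017) (nat_lit 28) (nat_lit 5) (nat_lit 30) (nat_lit 5) (nat_lit 29) (nat_lit 4) (nat_lit 489) (nat_lit 402) (nat_lit 309)) (XT.lf (nat_lit 0) (nat_lit 31555746481) (nat_lit 76) (nat_lit 910654940) (nat_lit 152) (nat_lit 42349120777) (nat_lit 27) (nat_lit 5) (nat_lit 28) (nat_lit 5) (nat_lit 29) (nat_lit 4) (nat_lit 490) (nat_lit 402) (nat_lit 308)))) (XT.nd (nat_lit 78) (nat_lit 152) (nat_lit 0) (XT.lf (nat_lit 0) (nat_lit 3721991770) (nat_lit 76) (nat_lit 53724708106) (nat_lit 76) (nat_lit 20357824918) (nat_lit 26) (nat_lit 4) (nat_lit 27) (nat_lit 5) (nat_lit 27) (nat_lit 4) (nat_lit 491) (nat_lit 402) (nat_lit 307)) (XT.nd (nat_lit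 78) (nat_lit 76) (nat_lit 0) (XT.lf (nat_lit 0) (nat_lit 3114706431) (nat_lit 152) (nat_lit 27059601280) (nat_lit 76) (nat_lit 50754832071) (nat_lit 25) (nat_lit 5) (nat_lit 27) (nat_lit 5) (nat_lit 26) (nat_lit 4) (nat_lit 492) (nat_lit 402) (nat_lit 306)) (XT.lf (nat_lit 0) (nat_lit 22503398269) (nat_lit 76) (nat_lit 5033884600) (nat_lit 152) (nat_lit 56660732736) (nat_lit 24) (nat_lit 5) (nat_lit 25) (nat_lit 5) (nat_lit 26) (nat_lit 4) (nat_lit 493) (nat_lit 402) (nat_lit 305))))) (XT.nd (nat_lit 234) (nat_lit 76) (nat_lit 0) (XT.nd (nat_lit 78) (nat_lit 152) (nat_lit 0) (XT.lf (nat_lit 0) (nat_lit 53645341891) (nat_lit 152) (nat_lit 12763983730) (nat_lit 0) (nat_lit 21207079411) (nat_lit 24) (nat_lit 5) (nat_lit 26) (nat_lit 4) (nat_lit 24) (nat_lit 4) (nat_lit 494) (nat_lit 402) (nat_lit 304)) (XT.nd (nat_lit 78) (nat_lit 76) (nat_lit 0) (XT.lf (nat_lit 0) (nat_lit 39287197149) (nat_lit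 76) (nat_lit 42178811763) (nat_lit 76) (nat_lit 9727489276) (nat_lit 23) (nat_lit 4) (nat_lit 24) (nat_lit 5) (nat_lit 24) (nat_lit 4) (nat_lit 495) (nat_lit 402) (nat_lit 303)) (XT.lf (nat_lit 0) (nat_lit 15533204464) (nat_lit 152) (nat_lit 931355526) (nat_lit 76) (nat_lit 78476995010) (nat_lit 22) (nat_lit 5) (nat_lit 24) (nat_lit 5) (nat_lit 23) (nat_lit 4) (nat_lit 496) (nat_lit 402) (nat_lit 302)))) (XT.nd (nat_lit 55224) (nat_lit 0) (nat_lit 28424) (XT.nd (nat_lit 55146) (nat_lit 0) (nat_lit 28880) (XT.lf (nat_lit 0) (nat_lit 42459194572) (nat_lit 152) (nat_lit 45467348234) (nat_lit 0) (nat_lit 10929479619) (nat_lit 21) (nat_lit 5) (nat_lit 23) (nat_lit 4) (nat_lit 21) (nat_lit 4) (nat_lit 497) (nat_lit 402) (nat_lit 301)) (XT.lf (nat_lit 0) (nat_lit 568296267) (nat_lit 0) (nat_lit 568296267) (nat_lit 380) (nat_lit 2136564939) (nat_lit 401) (nat_lit 5) (nat_lit 401) (nat_lit 3) (nat_lit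 406) (nat_lit 3) (nat_lit 403) (nat_lit 403) (nat_lit 394))) (XT.nd (nat_lit 78) (nat_lit 456) (nat_lit 0) (XT.lf (nat_lit 0) (nat_lit 6431291299) (nat_lit 380) (nat_lit 26956474) (nat_lit 456) (nat_lit 127135839) (nat_lit 401) (nat_lit 5) (nat_lit 406) (nat_lit 3) (nat_lit 407) (nat_lit 5) (nat_lit 404) (nat_lit 403) (nat_lit 393)) (XT.lf (nat_lit 0) (nat_lit 3891406550) (nat_lit 456) (nat_lit 1088599202) (nat_lit 532) (nat_lit 1651236589) (nat_lit 395) (nat_lit 5) (nat_lit 401) (nat_lit 5) (nat_lit 402) (nat_lit 5) (nat_lit 405) (nat_lit 403) (nat_lit 392))))))) (XT.nd (nat_lit 1014) (nat_lit 7068) (nat_lit 0) (XT.nd (nat_lit 468) (nat_lit 7220) (nat_lit 0) (XT.nd (nat_lit 234) (nat_lit 1292) (nat_lit 0) (XT.nd (nat_lit 78) (nat_lit 532) (nat_lit 0) (XT.lf (nat_lit 0) (nat_lit 1218543881) (nat_lit 532) (nat_lit 2037896641) (nat_lit 608) (nat_lit 3428867079) (nat_lit 388) (nat_lit 5) (nat_lit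 395) (nat_lit 5) (nat_lit 396) (nat_lit 5) (nat_lit 406) (nat_lit 403) (nat_lit 391)) (XT.nd (nat_lit 78) (nat_lit 532) (nat_lit 0) (XT.lf (nat_lit 76) (nat_lit 3856269415) (nat_lit 0) (nat_lit 1266415161) (nat_lit 608) (nat_lit 1624527434) (nat_lit 389) (nat_lit 5) (nat_lit 388) (nat_lit 5) (nat_lit 396) (nat_lit 5) (nat_lit 407) (nat_lit 403) (nat_lit 390)) (XT.lf (nat_lit 0) (nat_lit 2187524199) (nat_lit 608) (nat_lit 3655175305) (nat_lit 684) (nat_lit 974153844) (nat_lit 381) (nat_lit 5) (nat_lit 389) (nat_lit 5) (nat_lit 390) (nat_lit 5) (nat_lit 408) (nat_lit 403) (nat_lit 389)))) (XT.nd (nat_lit 78) (nat_lit 1292) (nat_lit 0) (XT.lf (nat_lit 76) (nat_lit 2562020920) (nat_lit 0) (nat_lit 3436607534) (nat_lit 684) (nat_lit 895679076) (nat_lit 382) (nat_lit 5) (nat_lit 381) (nat_lit 5) (nat_lit 390) (nat_lit 5) (nat_lit 409) (nat_lit 403) (nat_lit 388)) (XT.nd (nat_lit 78) (nat_lit 608) (nat_lit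 0) (XT.lf (nat_lit 76) (nat_lit 2055649721) (nat_lit 0) (nat_lit 749179373) (nat_lit 760) (nat_lit 4174826272) (nat_lit 373) (nat_lit 5) (nat_lit 372) (nat_lit 5) (nat_lit 382) (nat_lit 5) (nat_lit 410) (nat_lit 403) (nat_lit 387)) (XT.lf (nat_lit 0) (nat_lit 1638397735) (nat_lit 684) (nat_lit 4905439567) (nat_lit 760) (nat_lit 529073112) (nat_lit 364) (nat_lit 5) (nat_lit 373) (nat_lit 5) (nat_lit 374) (nat_lit 5) (nat_lit 411) (nat_lit 403) (nat_lit 386))))) (XT.nd (nat_lit 234) (nat_lit 4560) (nat_lit 0) (XT.nd (nat_lit 78) (nat_lit 1824) (nat_lit 0) (XT.lf (nat_lit 0) (nat_lit 1298528247) (nat_lit 760) (nat_lit 1804917694) (nat_lit 836) (nat_lit 4070426193) (nat_lit 353) (nat_lit 5) (nat_lit 363) (nat_lit 5) (nat_lit 364) (nat_lit 5) (nat_lit 412) (nat_lit 403) (nat_lit 385)) (XT.nd (nat_lit 78) (nat_lit 988) (nat_lit 0) (XT.lf (nat_lit 0) (nat_lit 1052674295) (nat_lit 836) (nat_lit 5740966690)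 (nat_lit 912) (nat_lit 489532005) (nat_lit 342) (nat_lit 5) (nat_lit 353) (nat_lit 5) (nat_lit 354) (nat_lit 5) (nat_lit 413) (nat_lit 403) (nat_lit 384)) (XT.lf (nat_lit 0) (nat_lit 869401853) (nat_lit 912) (nat_lit 2237084711) (nat_lit 988) (nat_lit 4293565893) (nat_lit 329) (nat_lit 5) (nat_lit 341) (nat_lit 5) (nat_lit 342) (nat_lit 5) (nat_lit 414) (nat_lit 403) (nat_lit 383)))) (XT.nd (nat_lit 156) (nat_lit 2432) (nat_lit 0) (XT.nd (nat_lit 78) (nat_lit 1140) (nat_lit 0) (XT.lf (nat_lit 0) (nat_lit 776860698) (nat_lit 988) (nat_lit 6001611235) (nat_lit 1064) (nat_lit 747020897) (nat_lit 316) (nat_lit 5) (nat_lit 329) (nat_lit 5) (nat_lit 330) (nat_lit 5) (nat_lit 415) (nat_lit 403) (nat_lit 382)) (XT.lf (nat_lit 0) (nat_lit 741994102) (nat_lit 1064) (nat_lit 2099852333) (nat_lit 1140) (nat_lit 4816854998) (nat_lit 301) (nat_lit 5) (nat_lit 315) (nat_lit 5) (nat_lit 316) (nat_lit 5) (nat_lit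 416) (nat_lit 403) (nat_lit 381))) (XT.nd (nat_lit 78) (nat_lit 1292) (nat_lit 0) (XT.lf (nat_lit 0) (nat_lit 787049074) (nat_lit 1140) (nat_lit 5737292260) (nat_lit 1216) (nat_lit 1276163182) (nat_lit 286) (nat_lit 5) (nat_lit 301) (nat_lit 5) (nat_lit 302) (nat_lit 5) (nat_lit 417) (nat_lit 403) (nat_lit 380)) (XT.lf (nat_lit 0) (nat_lit 893864532) (nat_lit 1216) (nat_lit 1439230603) (nat_lit 1292) (nat_lit 5617464818) (nat_lit 269) (nat_lit 5) (nat_lit 285) (nat_lit 5) (nat_lit 286) (nat_lit 5) (nat_lit 418) (nat_lit 403) (nat_lit 379)))))) (XT.nd (nat_lit 468) (nat_lit 3344) (nat_lit 0) (XT.nd (nat_lit 234) (nat_lit 1672) (nat_lit 0) (XT.nd (nat_lit 78) (nat_lit 1292) (nat_lit 0) (XT.lf (nat_lit 0) (nat_lit 1062806349) (nat_lit 760) (nat_lit 4990431625) (nat_lit 836) (nat_lit 2055836274) (nat_lit 259) (nat_lit 5) (nat_lit 269) (nat_lit 5) (nat_lit 270) (nat_lit 5) (nat_lit 419) (nat_lit 403)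 (nat_lit 378)) (XT.nd (nat_lit 78) (nat_lit 608) (nat_lit 0) (XT.lf (nat_lit 0) (nat_lit 1305813332) (nat_lit 608) (nat_lit 294028377) (nat_lit 684) (nat_lit 6676758761) (nat_lit 250) (nat_lit 5) (nat_lit 258) (nat_lit 5) (nat_lit 259) (nat_lit 5) (nat_lit 420) (nat_lit 403) (nat_lit 377)) (XT.lf (nat_lit 0) (nat_lit 1586600931) (nat_lit 608) (nat_lit 3796854275) (nat_lit 684) (nat_lit 3068841925) (nat_lit 242) (nat_lit 5) (nat_lit 250) (nat_lit 5) (nat_lit 251) (nat_lit 5) (nat_lit 421) (nat_lit 403) (nat_lit 376)))) (XT.nd (nat_lit 78) (nat_lit 1064) (nat_lit 0) (XT.lf (nat_lit 0) (nat_lit 670557275) (nat_lit 608) (nat_lit 6689238764) (nat_lit 76) (nat_lit 1277853558) (nat_lit 234) (nat_lit 5) (nat_lit 242) (nat_lit 5) (nat_lit 235) (nat_lit 5) (nat_lit 422) (nat_lit 403) (nat_lit 375)) (XT.nd (nat_lit 78) (nat_lit 532) (nat_lit 0) (XT.lf (nat_lit 0) (nat_lit 2343251027) (nat_lit 532) (nat_lit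 2186599194) (nat_lit 608) (nat_lit 4301646859) (nat_lit 227) (nat_lit 5) (nat_lit 234) (nat_lit 5) (nat_lit 235) (nat_lit 5) (nat_lit 423) (nat_lit 403) (nat_lit 374)) (XT.lf (nat_lit 0) (nat_lit 2808514790) (nat_lit 532) (nat_lit 5769881595) (nat_lit 608) (nat_lit 456781128) (nat_lit 220) (nat_lit 5) (nat_lit 227) (nat_lit 5) (nat_lit 228) (nat_lit 5) (nat_lit 424) (nat_lit 403) (nat_lit 373))))) (XT.nd (nat_lit 234) (nat_lit 1748) (nat_lit 0) (XT.nd (nat_lit 78) (nat_lit 988) (nat_lit 0) (XT.lf (nat_lit 0) (nat_lit 3319382249) (nat_lit 532) (nat_lit 184656234) (nat_lit 608) (nat_lit 5744190756) (nat_lit 212) (nat_lit 5) (nat_lit 219) (nat_lit 5) (nat_lit 220) (nat_lit 5) (nat_lit 425) (nat_lit 403) (nat_lit 372)) (XT.nd (nat_lit 78) (nat_lit 532) (nat_lit 0) (XT.lf (nat_lit 0) (nat_lit 3872332931) (nat_lit 456) (nat_lit 3814435374) (nat_lit 532) (nat_lit 1784055828) (nat_lit 206) (nat_lit 5)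 (nat_lit 212) (nat_lit 5) (nat_lit 213) (nat_lit 5) (nat_lit 426) (nat_lit 403) (nat_lit 371)) (XT.lf (nat_lit 0) (nat_lit 2335560820) (nat_lit 532) (nat_lit 5222438940) (nat_lit 76) (nat_lit 2145654120) (nat_lit 199) (nat_lit 5) (nat_lit 206) (nat_lit 5) (nat_lit 200) (nat_lit 5) (nat_lit 427) (nat_lit 403) (nat_lit 370)))) (XT.nd (nat_lit 156) (nat_lit 760) (nat_lit 0) (XT.nd (nat_lit 78) (nat_lit 532) (nat_lit 0) (XT.lf (nat_lit 0) (nat_lit 5135067721) (nat_lit 456) (nat_lit 1519710968) (nat_lit 532) (nat_lit 3291923657) (nat_lit 193) (nat_lit 5) (nat_lit 199) (nat_lit 5) (nat_lit 200) (nat_lit 5) (nat_lit 428) (nat_lit 403) (nat_lit 369)) (XT.lf (nat_lit 0) (nat_lit 1014024138) (nat_lit 532) (nat_lit 4366614444) (nat_lit 76) (nat_lit 4819643169) (nat_lit 186) (nat_lit 5) (nat_lit 193) (nat_lit 5) (nat_lit 187) (nat_lit 5) (nat_lit 429) (nat_lit 403) (nat_lit 368))) (XT.nd (nat_lit 78) (nat_lit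 380) (nat_lit 0) (XT.lf (nat_lit 0) (nat_lit 5497975041) (nat_lit 456) (nat_lit 3890006095) (nat_lit 76) (nat_lit 1076677523) (nat_lit 181) (nat_lit 5) (nat_lit 187) (nat_lit 5) (nat_lit 182) (nat_lit 5) (nat_lit 430) (nat_lit 403) (nat_lit 367)) (XT.lf (nat_lit 0) (nat_lit 7362750400) (nat_lit 380) (nat_lit 2908364368) (nat_lit 456) (nat_lit 469208917) (nat_lit 176) (nat_lit 5) (nat_lit 181) (nat_lit 5) (nat_lit 182) (nat_lit 5) (nat_lit 431) (nat_lit 403) (nat_lit 366))))))))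
noncomputable def xc54 : XT := (XT.nd (nat_lit 1950) (nat_lit 3420) (nat_lit 0) (XT.nd (nat_lit 936) (nat_lit 2812) (nat_lit 0) (XT.nd (nat_lit 468) (nat_lit 1824) (nat_lit 0) (XT.nd (nat_lit 234) (nat_lit 1368) (nat_lit 0) (XT.nd (nat_lit 78) (nat_lit 760) (nat_lit 0) (XT.lf (nat_lit 0) (nat_lit 4225431244) (nat_lit 456) (nat_lit 2854488089) (nat_lit 76) (nat_lit 3946985124) (nat_lit 170) (nat_lit 5) (nat_lit 176) (nat_lit 5) (nat_lit 171) (nat_lit 5) (nat_lit 432) (nat_lit 403) (nat_lit 365)) (XT.nd (nat_lit 78) (nat_lit 380) (nat_lit 0) (XT.lf (nat_lit 0) (nat_lit 9049591506) (nat_lit 380) (nat_lit 147543810) (nat_lit 456) (nat_lit 2128995247) (nat_lit 165) (nat_lit 5) (nat_lit 170) (nat_lit 5) (nat_lit 171) (nat_lit 5) (nat_lit 433) (nat_lit 403) (nat_lit 364)) (XT.lf (nat_lit 0) (nat_lit 2821435684) (nat_lit 380) (nat_lit 1705393688) (nat_lit 76) (nat_lit 7109747616) (nat_lit 160) (nat_lit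 5) (nat_lit 165) (nat_lit 5) (nat_lit 161) (nat_lit 5) (nat_lit 434) (nat_lit 403) (nat_lit 363)))) (XT.nd (nat_lit 78) (nat_lit 988) (nat_lit 0) (XT.lf (nat_lit 0) (nat_lit 8039298354) (nat_lit 456) (nat_lit 1097118896) (nat_lit 76) (nat_lit 2823592620) (nat_lit 155) (nat_lit 5) (nat_lit 161) (nat_lit 5) (nat_lit 156) (nat_lit 5) (nat_lit 435) (nat_lit 403) (nat_lit 362)) (XT.nd (nat_lit 78) (nat_lit 608) (nat_lit 0) (XT.lf (nat_lit 0) (nat_lit 1281697290) (nat_lit 380) (nat_lit 459592916) (nat_lit 76) (nat_lit 10555375440) (nat_lit 150) (nat_lit 5) (nat_lit 155) (nat_lit 5) (nat_lit 151) (nat_lit 5) (nat_lit 436) (nat_lit 403) (nat_lit 361)) (XT.lf (nat_lit 0) (nat_lit 169565060) (nat_lit 304) (nat_lit 6601442758) (nat_lit 380) (nat_lit 5874758781) (nat_lit 142) (nat_lit 5) (nat_lit 146) (nat_lit 5) (nat_lit 147) (nat_lit 5) (nat_lit 437) (nat_lit 403) (nat_lit 360))))) (XT.nd (nat_lit 234)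 (nat_lit 912) (nat_lit 0) (XT.nd (nat_lit 78) (nat_lit 608) (nat_lit 0) (XT.lf (nat_lit 0) (nat_lit 863974921) (nat_lit 304) (nat_lit 11757378964) (nat_lit 380) (nat_lit 388383980) (nat_lit 138) (nat_lit 5) (nat_lit 142) (nat_lit 5) (nat_lit 143) (nat_lit 5) (nat_lit 438) (nat_lit 403) (nat_lit 359)) (XT.nd (nat_lit 78) (nat_lit 304) (nat_lit 0) (XT.lf (nat_lit 0) (nat_lit 1523314759) (nat_lit 228) (nat_lit 3869296764) (nat_lit 304) (nat_lit 7994004296) (nat_lit 134) (nat_lit 5) (nat_lit 137) (nat_lit 5) (nat_lit 138) (nat_lit 5) (nat_lit 439) (nat_lit 403) (nat_lit 358)) (XT.lf (nat_lit 0) (nat_lit 2217746501) (nat_lit 304) (nat_lit 9343564796) (nat_lit 380) (nat_lit 2217721293) (nat_lit 130) (nat_lit 5) (nat_lit 134) (nat_lit 5) (nat_lit 135) (nat_lit 5) (nat_lit 440) (nat_lit 403) (nat_lit 357)))) (XT.nd (nat_lit 78) (nat_lit 608) (nat_lit 0) (XT.lf (nat_lit 0) (nat_lit 2916052188) (nat_lit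 228) (nat_lit 965225344) (nat_lit 304) (nat_lit 10305423903) (nat_lit 126) (nat_lit 5) (nat_lit 129) (nat_lit 5) (nat_lit 130) (nat_lit 5) (nat_lit 441) (nat_lit 403) (nat_lit 356)) (XT.nd (nat_lit 78) (nat_lit 304) (nat_lit 0) (XT.lf (nat_lit 0) (nat_lit 3593691403) (nat_lit 304) (nat_lit 6796944094) (nat_lit 380) (nat_lit 4218930831) (nat_lit 122) (nat_lit 5) (nat_lit 126) (nat_lit 5) (nat_lit 127) (nat_lit 5) (nat_lit 442) (nat_lit 403) (nat_lit 355)) (XT.lf (nat_lit 0) (nat_lit 2240706568) (nat_lit 304) (nat_lit 10754452181) (nat_lit 76) (nat_lit 2054462230) (nat_lit 118) (nat_lit 5) (nat_lit 122) (nat_lit 5) (nat_lit 119) (nat_lit 5) (nat_lit 443) (nat_lit 403) (nat_lit 354)))))) (XT.nd (nat_lit 468) (nat_lit 1444) (nat_lit 0) (XT.nd (nat_lit 234) (nat_lit 608) (nat_lit 0) (XT.nd (nat_lit 78) (nat_lit 532) (nat_lit 0) (XT.lf (nat_lit 0) (nat_lit 4956596282) (nat_lit 228) (nat_lit 4135817896)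 (nat_lit 304) (nat_lit 6413329210) (nat_lit 115) (nat_lit 5) (nat_lit 118) (nat_lit 5) (nat_lit 119) (nat_lit 5) (nat_lit 444) (nat_lit 403) (nat_lit 353)) (XT.nd (nat_lit 78) (nat_lit 228) (nat_lit 0) (XT.lf (nat_lit 0) (nat_lit 439961991) (nat_lit 304) (nat_lit 10348696222) (nat_lit 76) (nat_lit 5191619797) (nat_lit 111) (nat_lit 5) (nat_lit 115) (nat_lit 5) (nat_lit 112) (nat_lit 5) (nat_lit 445) (nat_lit 403) (nat_lit 352)) (XT.lf (nat_lit 0) (nat_lit 6263406827) (nat_lit 228) (nat_lit 1381161027) (nat_lit 304) (nat_lit 8827835368) (nat_lit 108) (nat_lit 5) (nat_lit 111) (nat_lit 5) (nat_lit 112) (nat_lit 5) (nat_lit 446) (nat_lit 403) (nat_lit 351)))) (XT.nd (nat_lit 78) (nat_lit 456) (nat_lit 0) (XT.lf (nat_lit 0) (nat_lit 6871744606) (nat_lit 152) (nat_lit 8523283904) (nat_lit 228) (nat_lit 1588544531) (nat_lit 106) (nat_lit 5) (nat_lit 108) (nat_lit 5) (nat_lit 109) (nat_lit 5) (nat_lit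 447) (nat_lit 403) (nat_lit 350)) (XT.nd (nat_lit 78) (nat_lit 152) (nat_lit 0) (XT.lf (nat_lit 0) (nat_lit 6032912558) (nat_lit 304) (nat_lit 10067283221) (nat_lit 76) (nat_lit 1414252245) (nat_lit 102) (nat_lit 5) (nat_lit 106) (nat_lit 5) (nat_lit 103) (nat_lit 5) (nat_lit 448) (nat_lit 403) (nat_lit 349)) (XT.lf (nat_lit 0) (nat_lit 7966667540) (nat_lit 152) (nat_lit 6237574325) (nat_lit 228) (nat_lit 3861109694) (nat_lit 100) (nat_lit 5) (nat_lit 102) (nat_lit 5) (nat_lit 103) (nat_lit 5) (nat_lit 449) (nat_lit 403) (nat_lit 348))))) (XT.nd (nat_lit 234) (nat_lit 684) (nat_lit 0) (XT.nd (nat_lit 78) (nat_lit 456) (nat_lit 0) (XT.lf (nat_lit 0) (nat_lit 4222253059) (nat_lit 304) (nat_lit 10194031538) (nat_lit 76) (nat_lit 4221446200) (nat_lit 96) (nat_lit 5) (nat_lit 100) (nat_lit 5) (nat_lit 97) (nat_lit 5) (nat_lit 450) (nat_lit 403) (nat_lit 347)) (XT.nd (nat_lit 78) (nat_lit 304) (nat_lit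 0) (XT.lf (nat_lit 0) (nat_lit 8849609223) (nat_lit 152) (nat_lit 3970793926) (nat_lit 228) (nat_lit 6411470291) (nat_lit 94) (nat_lit 5) (nat_lit 96) (nat_lit 5) (nat_lit 97) (nat_lit 5) (nat_lit 451) (nat_lit 403) (nat_lit 346)) (XT.lf (nat_lit 0) (nat_lit 2155889932) (nat_lit 304) (nat_lit 10660598539) (nat_lit 76) (nat_lit 7032604021) (nat_lit 90) (nat_lit 5) (nat_lit 94) (nat_lit 5) (nat_lit 91) (nat_lit 5) (nat_lit 452) (nat_lit 403) (nat_lit 345)))) (XT.nd (nat_lit 156) (nat_lit 380) (nat_lit 0) (XT.nd (nat_lit 78) (nat_lit 152) (nat_lit 0) (XT.lf (nat_lit 0) (nat_lit 9433838779) (nat_lit 152) (nat_lit 1764742573) (nat_lit 228) (nat_lit 9291304718) (nat_lit 88) (nat_lit 5) (nat_lit 90) (nat_lit 5) (nat_lit 91) (nat_lit 5) (nat_lit 453) (nat_lit 403) (nat_lit 344)) (XT.lf (nat_lit 0) (nat_lit 9584190512) (nat_lit 152) (nat_lit 11347863764) (nat_lit 228) (nat_lit 223510248) (nat_lit 86) (nat_lit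 5) (nat_lit 88) (nat_lit 5) (nat_lit 89) (nat_lit 5) (nat_lit 454) (nat_lit 403) (nat_lit 343))) (XT.nd (nat_lit 78) (nat_lit 152) (nat_lit 0) (XT.lf (nat_lit 0) (nat_lit 9286957620) (nat_lit 228) (nat_lit 12236032725) (nat_lit 76) (nat_lit 323738124) (nat_lit 83) (nat_lit 5) (nat_lit 86) (nat_lit 5) (nat_lit 84) (nat_lit 5) (nat_lit 455) (nat_lit 403) (nat_lit 342)) (XT.lf (nat_lit 0) (nat_lit 9492008571) (nat_lit 152) (nat_lit 10046193191) (nat_lit 228) (nat_lit 3026090253) (nat_lit 81) (nat_lit 5) (nat_lit 83) (nat_lit 5) (nat_lit 84) (nat_lit 5) (nat_lit 456) (nat_lit 403) (nat_lit 341))))))) (XT.nd (nat_lit 1014) (nat_lit 1368) (nat_lit 0) (XT.nd (nat_lit 468) (nat_lit 912) (nat_lit 0) (XT.nd (nat_lit 234) (nat_lit 532) (nat_lit 0) (XT.nd (nat_lit 78) (nat_lit 380) (nat_lit 0) (XT.lf (nat_lit 0) (nat_lit 7030842108) (nat_lit 228) (nat_lit 14070269082) (nat_lit 76) (nat_lit 2209126503) (nat_lit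 78) (nat_lit 5) (nat_lit 81) (nat_lit 5) (nat_lit 79) (nat_lit 5) (nat_lit 457) (nat_lit 403) (nat_lit 340)) (XT.nd (nat_lit 78) (nat_lit 228) (nat_lit 0) (XT.lf (nat_lit 0) (nat_lit 8793219585) (nat_lit 152) (nat_lit 9003479215) (nat_lit 228) (nat_lit 6287826731) (nat_lit 76) (nat_lit 5) (nat_lit 78) (nat_lit 5) (nat_lit 79) (nat_lit 5) (nat_lit 458) (nat_lit 403) (nat_lit 339)) (XT.lf (nat_lit 0) (nat_lit 4331807046) (nat_lit 228) (nat_lit 16704477067) (nat_lit 76) (nat_lit 3853719552) (nat_lit 73) (nat_lit 5) (nat_lit 76) (nat_lit 5) (nat_lit 74) (nat_lit 5) (nat_lit 459) (nat_lit 403) (nat_lit 338)))) (XT.nd (nat_lit 78) (nat_lit 380) (nat_lit 0) (XT.lf (nat_lit 0) (nat_lit 7318268605) (nat_lit 152) (nat_lit 8304127617) (nat_lit 228) (nat_lit 10103394488) (nat_lit 71) (nat_lit 5) (nat_lit 73) (nat_lit 5) (nat_lit 74) (nat_lit 5) (nat_lit 460) (nat_lit 403) (nat_lit 337)) (XT.nd (nat_lit 78)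 (nat_lit 152) (nat_lit 0) (XT.lf (nat_lit 0) (nat_lit 1091833932) (nat_lit 228) (nat_lit 20333835365) (nat_lit 76) (nat_lit 5170406317) (nat_lit 68) (nat_lit 5) (nat_lit 71) (nat_lit 5) (nat_lit 69) (nat_lit 5) (nat_lit 461) (nat_lit 403) (nat_lit 336)) (XT.lf (nat_lit 0) (nat_lit 4863062621) (nat_lit 152) (nat_lit 8049524637) (nat_lit 228) (nat_lit 14586047750) (nat_lit 66) (nat_lit 5) (nat_lit 68) (nat_lit 5) (nat_lit 69) (nat_lit 5) (nat_lit 462) (nat_lit 403) (nat_lit 335))))) (XT.nd (nat_lit 234) (nat_lit 608) (nat_lit 0) (XT.nd (nat_lit 78) (nat_lit 228) (nat_lit 0) (XT.lf (nat_lit 0) (nat_lit 3219199561) (nat_lit 76) (nat_lit 22357109428) (nat_lit 152) (nat_lit 2862458098) (nat_lit 65) (nat_lit 5) (nat_lit 66) (nat_lit 5) (nat_lit 67) (nat_lit 4) (nat_lit 463) (nat_lit 403) (nat_lit 334)) (XT.nd (nat_lit 78) (nat_lit 0) (nat_lit 0) (XT.lf (nat_lit 0) (nat_lit 1182527199) (nat_lit 152) (nat_lit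 8361325459) (nat_lit 228) (nat_lit 19870904371) (nat_lit 62) (nat_lit 5) (nat_lit 64) (nat_lit 5) (nat_lit 65) (nat_lit 5) (nat_lit 464) (nat_lit 403) (nat_lit 333)) (XT.lf (nat_lit 0) (nat_lit 22788914892) (nat_lit 228) (nat_lit 1177864036) (nat_lit 76) (nat_lit 6463590549) (nat_lit 62) (nat_lit 5) (nat_lit 65) (nat_lit 5) (nat_lit 63) (nat_lit 4) (nat_lit 465) (nat_lit 403) (nat_lit 332)))) (XT.nd (nat_lit 156) (nat_lit 304) (nat_lit 0) (XT.nd (nat_lit 78) (nat_lit 152) (nat_lit 0) (XT.lf (nat_lit 0) (nat_lit 5406957674) (nat_lit 152) (nat_lit 3938580081) (nat_lit 76) (nat_lit 22140459017) (nat_lit 60) (nat_lit 5) (nat_lit 62) (nat_lit 5) (nat_lit 61) (nat_lit 5) (nat_lit 466) (nat_lit 403) (nat_lit 331)) (XT.lf (nat_lit 0) (nat_lit 19226192957) (nat_lit 228) (nat_lit 7166822916) (nat_lit 76) (nat_lit 6190828682) (nat_lit 58) (nat_lit 5) (nat_lit 61) (nat_lit 5) (nat_lit 59) (nat_lit 4) (nat_lit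 467) (nat_lit 403) (nat_lit 330))) (XT.nd (nat_lit 78) (nat_lit 152) (nat_lit 0) (XT.lf (nat_lit 0) (nat_lit 315980334) (nat_lit 152) (nat_lit 10870155986) (nat_lit 76) (nat_lit 22540965218) (nat_lit 56) (nat_lit 5) (nat_lit 58) (nat_lit 5) (nat_lit 57) (nat_lit 5) (nat_lit 468) (nat_lit 403) (nat_lit 329)) (XT.lf (nat_lit 0) (nat_lit 14672727900) (nat_lit 228) (nat_lit 15186685977) (nat_lit 76) (nat_lit 5055870952) (nat_lit 54) (nat_lit 5) (nat_lit 57) (nat_lit 5) (nat_lit 55) (nat_lit 4) (nat_lit 469) (nat_lit 403) (nat_lit 328)))))) (XT.nd (nat_lit 468) (nat_lit 684) (nat_lit 0) (XT.nd (nat_lit 234) (nat_lit 304) (nat_lit 0) (XT.nd (nat_lit 78) (nat_lit 304) (nat_lit 0) (XT.lf (nat_lit 0) (nat_lit 16048297452) (nat_lit 76) (nat_lit 14039006290) (nat_lit 152) (nat_lit 6065375532) (nat_lit 53) (nat_lit 5) (nat_lit 54) (nat_lit 5) (nat_lit 55) (nat_lit 4) (nat_lit 470) (nat_lit 403) (nat_lit 327))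 (XT.nd (nat_lit 78) (nat_lit 76) (nat_lit 0) (XT.lf (nat_lit 0) (nat_lit 8908249630) (nat_lit 228) (nat_lit 25686000020) (nat_lit 76) (nat_lit 2847360458) (nat_lit 50) (nat_lit 5) (nat_lit 53) (nat_lit 5) (nat_lit 51) (nat_lit 4) (nat_lit 471) (nat_lit 403) (nat_lit 326)) (XT.lf (nat_lit 0) (nat_lit 6692496474) (nat_lit 76) (nat_lit 18190306828) (nat_lit 152) (nat_lit 13899053442) (nat_lit 49) (nat_lit 5) (nat_lit 50) (nat_lit 5) (nat_lit 51) (nat_lit 4) (nat_lit 472) (nat_lit 403) (nat_lit 325)))) (XT.nd (nat_lit 78) (nat_lit 76) (nat_lit 0) (XT.lf (nat_lit 0) (nat_lit 976090336) (nat_lit 152) (nat_lit 700933627) (nat_lit 228) (nat_lit 38504509676) (nat_lit 46) (nat_lit 5) (nat_lit 48) (nat_lit 5) (nat_lit 49) (nat_lit 5) (nat_lit 473) (nat_lit 403) (nat_lit 324)) (XT.nd (nat_lit 78) (nat_lit 76) (nat_lit 0) (XT.lf (nat_lit 0) (nat_lit 18213587184) (nat_lit 228) (nat_lit 5659700653) (nat_lit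 76) (nat_lit 17759705371) (nat_lit 46) (nat_lit 5) (nat_lit 49) (nat_lit 5) (nat_lit 47) (nat_lit 4) (nat_lit 474) (nat_lit 403) (nat_lit 323)) (XT.lf (nat_lit 0) (nat_lit 30076042410) (nat_lit 76) (nat_lit 5761953147) (nat_lit 152) (nat_lit 7311200957) (nat_lit 45) (nat_lit 5) (nat_lit 46) (nat_lit 5) (nat_lit 47) (nat_lit 4) (nat_lit 475) (nat_lit 403) (nat_lit 322))))) (XT.nd (nat_lit 234) (nat_lit 380) (nat_lit 0) (XT.nd (nat_lit 78) (nat_lit 152) (nat_lit 0) (XT.lf (nat_lit 0) (nat_lit 9793953464) (nat_lit 152) (nat_lit 21589054801) (nat_lit 76) (nat_lit 13344066257) (nat_lit 43) (nat_lit 5) (nat_lit 45) (nat_lit 5) (nat_lit 44) (nat_lit 4) (nat_lit 476) (nat_lit 403) (nat_lit 321)) (XT.nd (nat_lit 78) (nat_lit 76) (nat_lit 0) (XT.lf (nat_lit 0) (nat_lit 15150807709) (nat_lit 76) (nat_lit 12759735548) (nat_lit 152) (nat_lit 18461911112) (nat_lit 42) (nat_lit 5) (nat_lit 43) (nat_lit 5) (nat_lit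 44) (nat_lit 4) (nat_lit 477) (nat_lit 403) (nat_lit 320)) (XT.lf (nat_lit 0) (nat_lit 6072833991) (nat_lit 76) (nat_lit 41175246616) (nat_lit 76) (nat_lit 842570121) (nat_lit 41) (nat_lit 4) (nat_lit 42) (nat_lit 5) (nat_lit 42) (nat_lit 4) (nat_lit 478) (nat_lit 403) (nat_lit 319)))) (XT.nd (nat_lit 156) (nat_lit 228) (nat_lit 0) (XT.nd (nat_lit 78) (nat_lit 76) (nat_lit 0) (XT.lf (nat_lit 0) (nat_lit 17734187934) (nat_lit 152) (nat_lit 4364694485) (nat_lit 76) (nat_lit 27778152878) (nat_lit 40) (nat_lit 5) (nat_lit 42) (nat_lit 5) (nat_lit 41) (nat_lit 4) (nat_lit 479) (nat_lit 403) (nat_lit 318)) (XT.lf (nat_lit 0) (nat_lit 35801818651) (nat_lit 76) (nat_lit 1734038665) (nat_lit 152) (nat_lit 14207227472) (nat_lit 39) (nat_lit 5) (nat_lit 40) (nat_lit 5) (nat_lit 41) (nat_lit 4) (nat_lit 480) (nat_lit 403) (nat_lit 317))) (XT.nd (nat_lit 78) (nat_lit 76) (nat_lit 0) (XT.lf (nat_lit 0) (nat_lit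 4979830817) (nat_lit 152) (nat_lit 29138882412) (nat_lit 76) (nat_lit 19569043255) (nat_lit 37) (nat_lit 5) (nat_lit 39) (nat_lit 5) (nat_lit 38) (nat_lit 4) (nat_lit 481) (nat_lit 403) (nat_lit 316)) (XT.lf (nat_lit 0) (nat_lit 11680074933) (nat_lit 76) (nat_lit 13421010485) (nat_lit 152) (nat_lit 30616297082) (nat_lit 36) (nat_lit 5) (nat_lit 37) (nat_lit 5) (nat_lit 38) (nat_lit 4) (nat_lit 482) (nat_lit 403) (nat_lit 315))))))))
noncomputable def xc55 : XT := (XT.nd (nat_lit 57096) (nat_lit 0) (nat_lit 8816) (XT.nd (nat_lit 936) (nat_lit 228) (nat_lit 0) (XT.nd (nat_lit 468) (nat_lit 456) (nat_lit 0) (XT.nd (nat_lit 234) (nat_lit 228) (nat_lit 0) (XT.nd (nat_lit 78) (nat_lit 228) (nat_lit 0) (XT.lf (nat_lit 0) (nat_lit 46582277781) (nat_lit 152) (nat_lit 2829652020) (nat_lit 0) (nat_lit 8425944552) (nat_lit 36) (nat_lit 5) (nat_lit 38) (nat_lit 4) (nat_lit 36) (nat_lit 4) (nat_lit 483) (nat_lit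 403) (nat_lit 314)) (XT.nd (nat_lit 78) (nat_lit 76) (nat_lit 0) (XT.lf (nat_lit 0) (nat_lit 9403555988) (nat_lit 152) (nat_lit 19091057944) (nat_lit 76) (nat_lit 31551937094) (nat_lit 34) (nat_lit 5) (nat_lit 36) (nat_lit 5) (nat_lit 35) (nat_lit 4) (nat_lit 484) (nat_lit 403) (nat_lit 313)) (XT.lf (nat_lit 0) (nat_lit 24944583107) (nat_lit 76) (nat_lit 6162640006) (nat_lit 152) (nat_lit 31247765667) (nat_lit 33) (nat_lit 5) (nat_lit 34) (nat_lit 5) (nat_lit 35) (nat_lit 4) (nat_lit 485) (nat_lit 403) (nat_lit 312)))) (XT.nd (nat_lit 78) (nat_lit 152) (nat_lit 0) (XT.lf (nat_lit 0) (nat_lit 6719447829) (nat_lit 76) (nat_lit 47579385997) (nat_lit 76) (nat_lit 10467932446) (nat_lit 32) (nat_lit 4) (nat_lit 33) (nat_lit 5) (nat_lit 33) (nat_lit 4) (nat_lit 486) (nat_lit 403) (nat_lit 311)) (XT.nd (nat_lit 78) (nat_lit 76) (nat_lit 0) (XT.lf (nat_lit 0) (nat_lit 11554575018) (nat_lit 152) (nat_lit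 13675747026) (nat_lit 76) (nat_lit 42052782471) (nat_lit 31) (nat_lit 5) (nat_lit 33) (nat_lit 5) (nat_lit 32) (nat_lit 4) (nat_lit 487) (nat_lit 403) (nat_lit 310)) (XT.lf (nat_lit 0) (nat_lit 33412553154) (nat_lit 76) (nat_lit 1347649803) (nat_lit 152) (nat_lit 35152993366) (nat_lit 30) (nat_lit 5) (nat_lit 31) (nat_lit 5) (nat_lit 32) (nat_lit 4) (nat_lit 488) (nat_lit 403) (nat_lit 309))))) (XT.nd (nat_lit 234) (nat_lit 228) (nat_lit 0) (XT.nd (nat_lit 78) (nat_lit 152) (nat_lit 0) (XT.lf (nat_lit 0) (nat_lit 10396550328) (nat_lit 76) (nat_lit 49175573385) (nat_lit 76) (nat_lit 13089289217) (nat_lit 29) (nat_lit 4) (nat_lit 30) (nat_lit 5) (nat_lit 30) (nat_lit 4) (nat_lit 489) (nat_lit 403) (nat_lit 308)) (XT.nd (nat_lit 78) (nat_lit 76) (nat_lit 0) (XT.lf (nat_lit 0) (nat_lit 10250292308) (nat_lit 152) (nat_lit 15295032060) (nat_lit 76) (nat_lit 49987730075) (nat_lit 28) (nat_lit 5) (nat_lit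 30) (nat_lit 5) (nat_lit 29) (nat_lit 4) (nat_lit 490) (nat_lit 403) (nat_lit 307)) (XT.lf (nat_lit 0) (nat_lit 34520579281) (nat_lit 76) (nat_lit 277324187) (nat_lit 152) (nat_lit 43737134428) (nat_lit 27) (nat_lit 5) (nat_lit 28) (nat_lit 5) (nat_lit 29) (nat_lit 4) (nat_lit 491) (nat_lit 403) (nat_lit 306)))) (XT.nd (nat_lit 78) (nat_lit 152) (nat_lit 0) (XT.lf (nat_lit 0) (nat_lit 5269689845) (nat_lit 76) (nat_lit 55743107474) (nat_lit 76) (nat_lit 20661126602) (nat_lit 26) (nat_lit 4) (nat_lit 27) (nat_lit 5) (nat_lit 27) (nat_lit 4) (nat_lit 492) (nat_lit 403) (nat_lit 305)) (XT.nd (nat_lit 78) (nat_lit 76) (nat_lit 0) (XT.lf (nat_lit 0) (nat_lit 3937723035) (nat_lit 152) (nat_lit 27102527508) (nat_lit 76) (nat_lit 53915314624) (nat_lit 25) (nat_lit 5) (nat_lit 27) (nat_lit 5) (nat_lit 26) (nat_lit 4) (nat_lit 493) (nat_lit 403) (nat_lit 304)) (XT.lf (nat_lit 0) (nat_lit 24901069588) (nat_lit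 76) (nat_lit 4660815468) (nat_lit 152) (nat_lit 58826586647) (nat_lit 24) (nat_lit 5) (nat_lit 25) (nat_lit 5) (nat_lit 26) (nat_lit 4) (nat_lit 494) (nat_lit 403) (nat_lit 303)))))) (XT.nd (nat_lit 55614) (nat_lit 0) (nat_lit 25156) (XT.nd (nat_lit 55380) (nat_lit 0) (nat_lit 27816) (XT.nd (nat_lit 78) (nat_lit 228) (nat_lit 0) (XT.lf (nat_lit 0) (nat_lit 56950221987) (nat_lit 152) (nat_lit 12177477698) (nat_lit 0) (nat_lit 22850835266) (nat_lit 24) (nat_lit 5) (nat_lit 26) (nat_lit 4) (nat_lit 24) (nat_lit 4) (nat_lit 495) (nat_lit 403) (nat_lit 302)) (XT.nd (nat_lit 78) (nat_lit 152) (nat_lit 0) (XT.lf (nat_lit 0) (nat_lit 42441156296) (nat_lit 76) (nat_lit 43702552982) (nat_lit 76) (nat_lit 9591320448) (nat_lit 23) (nat_lit 4) (nat_lit 24) (nat_lit 5) (nat_lit 24) (nat_lit 4) (nat_lit 496) (nat_lit 403) (nat_lit 301)) (XT.lf (nat_lit 0) (nat_lit 169924336) (nat_lit 76) (nat_lit 16722902557)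 (nat_lit 152) (nat_lit 82778306473) (nat_lit 21) (nat_lit 5) (nat_lit 22) (nat_lit 5) (nat_lit 23) (nat_lit 4) (nat_lit 497) (nat_lit 403) (nat_lit 300)))) (XT.nd (nat_lit 78) (nat_lit 532) (nat_lit 0) (XT.lf (nat_lit 0) (nat_lit 1877858179) (nat_lit 532) (nat_lit 717898822) (nat_lit 532) (nat_lit 717898822) (nat_lit 394) (nat_lit 3) (nat_lit 401) (nat_lit 3) (nat_lit 401) (nat_lit 5) (nat_lit 404) (nat_lit 404) (nat_lit 392)) (XT.nd (nat_lit 78) (nat_lit 0) (nat_lit 0) (XT.lf (nat_lit 0) (nat_lit 949000534) (nat_lit 532) (nat_lit 2632132907) (nat_lit 608) (nat_lit 3096335344) (nat_lit 387) (nat_lit 5) (nat_lit 394) (nat_lit 3) (nat_lit 395) (nat_lit 5) (nat_lit 405) (nat_lit 404) (nat_lit 391)) (XT.lf (nat_lit 76) (nat_lit 2998918505) (nat_lit 0) (nat_lit 1702433160) (nat_lit 608) (nat_lit 2034010610) (nat_lit 388) (nat_lit 5) (nat_lit 387) (nat_lit 5) (nat_lit 395) (nat_lit 5) (nat_lit 406)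 (nat_lit 404) (nat_lit 390))))) (XT.nd (nat_lit 234) (nat_lit 1444) (nat_lit 0) (XT.nd (nat_lit 78) (nat_lit 684) (nat_lit 0) (XT.lf (nat_lit 0) (nat_lit 1624394986) (nat_lit 608) (nat_lit 4744528628) (nat_lit 684) (nat_lit 432316272) (nat_lit 380) (nat_lit 5) (nat_lit 388) (nat_lit 5) (nat_lit 389) (nat_lit 5) (nat_lit 407) (nat_lit 404) (nat_lit 389)) (XT.nd (nat_lit 78) (nat_lit 684) (nat_lit 0) (XT.lf (nat_lit 76) (nat_lit 1197285758) (nat_lit 0) (nat_lit 4069062388) (nat_lit 684) (nat_lit 1608253003) (nat_lit 381) (nat_lit 5) (nat_lit 380) (nat_lit 5) (nat_lit 389) (nat_lit 5) (nat_lit 408) (nat_lit 404) (nat_lit 388)) (XT.lf (nat_lit 76) (nat_lit 435802893) (nat_lit 0) (nat_lit 1496756634) (nat_lit 760) (nat_lit 5023457502) (nat_lit 372) (nat_lit 5) (nat_lit 371) (nat_lit 5) (nat_lit 381) (nat_lit 5) (nat_lit 409) (nat_lit 404) (nat_lit 387)))) (XT.nd (nat_lit 156) (nat_lit 760) (nat_lit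 0) (XT.nd (nat_lit 78) (nat_lit 760) (nat_lit 0) (XT.lf (nat_lit 0) (nat_lit 5479903182) (nat_lit 684) (nat_lit 234891659) (nat_lit 760) (nat_lit 1330414435) (nat_lit 372) (nat_lit 5) (nat_lit 381) (nat_lit 5) (nat_lit 382) (nat_lit 5) (nat_lit 410) (nat_lit 404) (nat_lit 386)) (XT.lf (nat_lit 0) (nat_lit 1901980209) (nat_lit 760) (nat_lit 821236309) (nat_lit 836) (nat_lit 4418813632) (nat_lit 362) (nat_lit 5) (nat_lit 372) (nat_lit 5) (nat_lit 373) (nat_lit 5) (nat_lit 411) (nat_lit 404) (nat_lit 385))) (XT.nd (nat_lit 78) (nat_lit 836) (nat_lit 0) (XT.lf (nat_lit 0) (nat_lit 5383363212) (nat_lit 760) (nat_lit 1320454795) (nat_lit 76) (nat_lit 543273923) (nat_lit 363) (nat_lit 5) (nat_lit 373) (nat_lit 5) (nat_lit 364) (nat_lit 5) (nat_lit 412) (nat_lit 404) (nat_lit 384)) (XT.lf (nat_lit 0) (nat_lit 1554082959) (nat_lit 836) (nat_lit 1757170578) (nat_lit 76) (nat_lit 4048557432) (nat_lit 352)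 (nat_lit 5) (nat_lit 363) (nat_lit 5) (nat_lit 353) (nat_lit 5) (nat_lit 413) (nat_lit 404) (nat_lit 383))))))) (XT.nd (nat_lit 1014) (nat_lit 5700) (nat_lit 0) (XT.nd (nat_lit 468) (nat_lit 4332) (nat_lit 0) (XT.nd (nat_lit 234) (nat_lit 3496) (nat_lit 0) (XT.nd (nat_lit 78) (nat_lit 1976) (nat_lit 0) (XT.lf (nat_lit 0) (nat_lit 4995736418) (nat_lit 912) (nat_lit 2112416536) (nat_lit 76) (nat_lit 372765588) (nat_lit 341) (nat_lit 5) (nat_lit 353) (nat_lit 5) (nat_lit 342) (nat_lit 5) (nat_lit 414) (nat_lit 404) (nat_lit 382)) (XT.nd (nat_lit 78) (nat_lit 988) (nat_lit 0) (XT.lf (nat_lit 0) (nat_lit 912599617) (nat_lit 988) (nat_lit 2408426990) (nat_lit 76) (nat_lit 4288890824) (nat_lit 328) (nat_lit 5) (nat_lit 341) (nat_lit 5) (nat_lit 329) (nat_lit 5) (nat_lit 415) (nat_lit 404) (nat_lit 381)) (XT.lf (nat_lit 0) (nat_lit 4342909705) (nat_lit 1064) (nat_lit 2636316555) (nat_lit 76) (nat_lit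 768025681) (nat_lit 315) (nat_lit 5) (nat_lit 329) (nat_lit 5) (nat_lit 316) (nat_lit 5) (nat_lit 416) (nat_lit 404) (nat_lit 380)))) (XT.nd (nat_lit 78) (nat_lit 2356) (nat_lit 0) (XT.lf (nat_lit 0) (nat_lit 926699) (nat_lit 1140) (nat_lit 2799062055) (nat_lit 76) (nat_lit 5093030090) (nat_lit 300) (nat_lit 5) (nat_lit 315) (nat_lit 5) (nat_lit 301) (nat_lit 5) (nat_lit 417) (nat_lit 404) (nat_lit 379)) (XT.nd (nat_lit 78) (nat_lit 1216) (nat_lit 0) (XT.lf (nat_lit 0) (nat_lit 3446559696) (nat_lit 1216) (nat_lit 2914187546) (nat_lit 76) (nat_lit 1686140013) (nat_lit 285) (nat_lit 5) (nat_lit 301) (nat_lit 5) (nat_lit 286) (nat_lit 5) (nat_lit 418) (nat_lit 404) (nat_lit 378)) (XT.lf (nat_lit 0) (nat_lit 5248430368) (nat_lit 1216) (nat_lit 1776447105) (nat_lit 1292) (nat_lit 1184797217) (nat_lit 269) (nat_lit 5) (nat_lit 285) (nat_lit 5) (nat_lit 286) (nat_lit 5) (nat_lit 419) (nat_lit 404) (nat_lit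 377))))) (XT.nd (nat_lit 234) (nat_lit 2204) (nat_lit 0) (XT.nd (nat_lit 78) (nat_lit 1292) (nat_lit 0) (XT.lf (nat_lit 0) (nat_lit 2324499590) (nat_lit 836) (nat_lit 2965121119) (nat_lit 76) (nat_lit 3091227540) (nat_lit 258) (nat_lit 5) (nat_lit 269) (nat_lit 5) (nat_lit 259) (nat_lit 5) (nat_lit 420) (nat_lit 404) (nat_lit 376)) (XT.nd (nat_lit 78) (nat_lit 684) (nat_lit 0) (XT.lf (nat_lit 0) (nat_lit 5657324670) (nat_lit 608) (nat_lit 293239537) (nat_lit 684) (nat_lit 2610723364) (nat_lit 250) (nat_lit 5) (nat_lit 258) (nat_lit 5) (nat_lit 259) (nat_lit 5) (nat_lit 421) (nat_lit 404) (nat_lit 375)) (XT.lf (nat_lit 0) (nat_lit 990957518) (nat_lit 684) (nat_lit 2805808564) (nat_lit 76) (nat_lit 4953620179) (nat_lit 241) (nat_lit 5) (nat_lit 250) (nat_lit 5) (nat_lit 242) (nat_lit 5) (nat_lit 422) (nat_lit 404) (nat_lit 374)))) (XT.nd (nat_lit 156) (nat_lit 1140) (nat_lit 0) (XT.nd (nat_lit 78)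 (nat_lit 532) (nat_lit 0) (XT.lf (nat_lit 0) (nat_lit 4700070541) (nat_lit 608) (nat_lit 2658560433) (nat_lit 76) (nat_lit 1590122428) (nat_lit 234) (nat_lit 5) (nat_lit 242) (nat_lit 5) (nat_lit 235) (nat_lit 5) (nat_lit 423) (nat_lit 404) (nat_lit 373)) (XT.lf (nat_lit 0) (nat_lit 6700427978) (nat_lit 532) (nat_lit 1902372749) (nat_lit 608) (nat_lit 554021170) (nat_lit 227) (nat_lit 5) (nat_lit 234) (nat_lit 5) (nat_lit 235) (nat_lit 5) (nat_lit 424) (nat_lit 404) (nat_lit 372))) (XT.nd (nat_lit 78) (nat_lit 532) (nat_lit 0) (XT.lf (nat_lit 0) (nat_lit 3274782514) (nat_lit 608) (nat_lit 2230341649) (nat_lit 76) (nat_lit 3868807461) (nat_lit 219) (nat_lit 5) (nat_lit 227) (nat_lit 5) (nat_lit 220) (nat_lit 5) (nat_lit 425) (nat_lit 404) (nat_lit 371)) (XT.lf (nat_lit 0) (nat_lit 7289768833) (nat_lit 608) (nat_lit 1940273213) (nat_lit 76) (nat_lit 371528737) (nat_lit 212) (nat_lit 5) (nat_lit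 220) (nat_lit 5) (nat_lit 213) (nat_lit 5) (nat_lit 426) (nat_lit 404) (nat_lit 370)))))) (XT.nd (nat_lit 468) (nat_lit 2508) (nat_lit 0) (XT.nd (nat_lit 234) (nat_lit 1748) (nat_lit 0) (XT.nd (nat_lit 78) (nat_lit 912) (nat_lit 0) (XT.lf (nat_lit 0) (nat_lit 1678824226) (nat_lit 532) (nat_lit 1629369053) (nat_lit 76) (nat_lit 6530549162) (nat_lit 205) (nat_lit 5) (nat_lit 212) (nat_lit 5) (nat_lit 206) (nat_lit 5) (nat_lit 427) (nat_lit 404) (nat_lit 369)) (XT.nd (nat_lit 78) (nat_lit 456) (nat_lit 0) (XT.lf (nat_lit 0) (nat_lit 5846908609) (nat_lit 532) (nat_lit 1278451661) (nat_lit 76) (nat_lit 2960975173) (nat_lit 199) (nat_lit 5) (nat_lit 206) (nat_lit 5) (nat_lit 200) (nat_lit 5) (nat_lit 428) (nat_lit 404) (nat_lit 368)) (XT.lf (nat_lit 0) (nat_lit 9476391721) (nat_lit 456) (nat_lit 783312863) (nat_lit 532) (nat_lit 85534853) (nat_lit 193) (nat_lit 5) (nat_lit 199) (nat_lit 5) (nat_lit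 200) (nat_lit 5) (nat_lit 429) (nat_lit 404) (nat_lit 367)))) (XT.nd (nat_lit 78) (nat_lit 1216) (nat_lit 0) (XT.lf (nat_lit 0) (nat_lit 4259423963) (nat_lit 532) (nat_lit 464911704) (nat_lit 76) (nat_lit 5889534454) (nat_lit 186) (nat_lit 5) (nat_lit 193) (nat_lit 5) (nat_lit 187) (nat_lit 5) (nat_lit 430) (nat_lit 404) (nat_lit 366)) (XT.nd (nat_lit 78) (nat_lit 456) (nat_lit 0) (XT.lf (nat_lit 0) (nat_lit 1594125) (nat_lit 380) (nat_lit 8861186337) (nat_lit 456) (nat_lit 2031857015) (nat_lit 176) (nat_lit 5) (nat_lit 181) (nat_lit 5) (nat_lit 182) (nat_lit 5) (nat_lit 431) (nat_lit 404) (nat_lit 365)) (XT.lf (nat_lit 0) (nat_lit 497370993) (nat_lit 380) (nat_lit 2035293962) (nat_lit 456) (nat_lit 8653830426) (nat_lit 170) (nat_lit 5) (nat_lit 175) (nat_lit 5) (nat_lit 176) (nat_lit 5) (nat_lit 432) (nat_lit 404) (nat_lit 364))))) (XT.nd (nat_lit 234) (nat_lit 1368) (nat_lit 0) (XT.nd (nat_lit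 78) (nat_lit 760) (nat_lit 0) (XT.lf (nat_lit 0) (nat_lit 1014412276) (nat_lit 380) (nat_lit 6346921955) (nat_lit 456) (nat_lit 4128686081) (nat_lit 165) (nat_lit 5) (nat_lit 170) (nat_lit 5) (nat_lit 171) (nat_lit 5) (nat_lit 433) (nat_lit 404) (nat_lit 363)) (XT.nd (nat_lit 78) (nat_lit 380) (nat_lit 0) (XT.lf (nat_lit 0) (nat_lit 674140502) (nat_lit 380) (nat_lit 10219179490) (nat_lit 76) (nat_lit 913329370) (nat_lit 160) (nat_lit 5) (nat_lit 165) (nat_lit 5) (nat_lit 161) (nat_lit 5) (nat_lit 434) (nat_lit 404) (nat_lit 362)) (XT.lf (nat_lit 0) (nat_lit 2145187382) (nat_lit 380) (nat_lit 3591388666) (nat_lit 456) (nat_lit 6398175858) (nat_lit 155) (nat_lit 5) (nat_lit 160) (nat_lit 5) (nat_lit 161) (nat_lit 5) (nat_lit 435) (nat_lit 404) (nat_lit 361)))) (XT.nd (nat_lit 156) (nat_lit 684) (nat_lit 0) (XT.nd (nat_lit 78) (nat_lit 380) (nat_lit 0) (XT.lf (nat_lit 0) (nat_lit 2753496251) (nat_lit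 304) (nat_lit 8383726437) (nat_lit 380) (nat_lit 1339497585) (nat_lit 151) (nat_lit 5) (nat_lit 155) (nat_lit 5) (nat_lit 156) (nat_lit 5) (nat_lit 436) (nat_lit 404) (nat_lit 360)) (XT.lf (nat_lit 0) (nat_lit 3376863264) (nat_lit 304) (nat_lit 605627991) (nat_lit 380) (nat_lit 8849526088) (nat_lit 146) (nat_lit 5) (nat_lit 150) (nat_lit 5) (nat_lit 151) (nat_lit 5) (nat_lit 437) (nat_lit 404) (nat_lit 359))) (XT.nd (nat_lit 78) (nat_lit 380) (nat_lit 0) (XT.lf (nat_lit 0) (nat_lit 4002056970) (nat_lit 304) (nat_lit 5671155849) (nat_lit 380) (nat_lit 3527570269) (nat_lit 142) (nat_lit 5) (nat_lit 146) (nat_lit 5) (nat_lit 147) (nat_lit 5) (nat_lit 438) (nat_lit 404) (nat_lit 358)) (XT.lf (nat_lit 0) (nat_lit 2114568238) (nat_lit 380) (nat_lit 8921066495) (nat_lit 76) (nat_lit 2548940309) (nat_lit 137) (nat_lit 5) (nat_lit 142) (nat_lit 5) (nat_lit 138) (nat_lit 5) (nat_lit 439) (nat_lit 404) (nat_lit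 357))))))))
noncomputable def xc56 : XT := (XT.nd (nat_lit 1950) (nat_lit 2736) (nat_lit 0) (XT.nd (nat_lit 936) (nat_lit 2356) (nat_lit 0) (XT.nd (nat_lit 468) (nat_lit 1444) (nat_lit 0) (XT.nd (nat_lit 234) (nat_lit 836) (nat_lit 0) (XT.nd (nat_lit 78) (nat_lit 608) (nat_lit 0) (XT.lf (nat_lit 0) (nat_lit 5317814339) (nat_lit 228) (nat_lit 2774850383) (nat_lit 304) (nat_lit 5890050250) (nat_lit 134) (nat_lit 5) (nat_lit 137) (nat_lit 5) (nat_lit 138) (nat_lit 5) (nat_lit 440) (nat_lit 404) (nat_lit 356)) (XT.nd (nat_lit 78) (nat_lit 228) (nat_lit 0) (XT.lf (nat_lit 0) (nat_lit 102279197) (nat_lit 380) (nat_lit 8398340697) (nat_lit 76) (nat_lit 5896177512) (nat_lit 129) (nat_lit 5) (nat_lit 134) (nat_lit 5) (nat_lit 130) (nat_lit 5) (nat_lit 441) (nat_lit 404) (nat_lit 355)) (XT.lf (nat_lit 0) (nat_lit 6384723389) (nat_lit 304) (nat_lit 8155478124) (nat_lit 76) (nat_lit 286272655) (nat_lit 126)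 (nat_lit 5) (nat_lit 130) (nat_lit 5) (nat_lit 127) (nat_lit 5) (nat_lit 442) (nat_lit 404) (nat_lit 354)))) (XT.nd (nat_lit 78) (nat_lit 532) (nat_lit 0) (XT.lf (nat_lit 0) (nat_lit 7337167265) (nat_lit 304) (nat_lit 5815947095) (nat_lit 380) (nat_lit 2119374369) (nat_lit 122) (nat_lit 5) (nat_lit 126) (nat_lit 5) (nat_lit 127) (nat_lit 5) (nat_lit 443) (nat_lit 404) (nat_lit 353)) (XT.nd (nat_lit 78) (nat_lit 228) (nat_lit 0) (XT.lf (nat_lit 0) (nat_lit 4556615671) (nat_lit 304) (nat_lit 7733143478) (nat_lit 76) (nat_lit 3445979321) (nat_lit 118) (nat_lit 5) (nat_lit 122) (nat_lit 5) (nat_lit 119) (nat_lit 5) (nat_lit 444) (nat_lit 404) (nat_lit 352)) (XT.lf (nat_lit 0) (nat_lit 8661438491) (nat_lit 228) (nat_lit 3017754719) (nat_lit 304) (nat_lit 4537637031) (nat_lit 115) (nat_lit 5) (nat_lit 118) (nat_lit 5) (nat_lit 119) (nat_lit 5) (nat_lit 445) (nat_lit 404) (nat_lit 351))))) (XT.nd (nat_lit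 234) (nat_lit 684) (nat_lit 0) (XT.nd (nat_lit 78) (nat_lit 456) (nat_lit 0) (XT.lf (nat_lit 0) (nat_lit 2558244444) (nat_lit 304) (nat_lit 7416285446) (nat_lit 76) (nat_lit 6741655675) (nat_lit 111) (nat_lit 5) (nat_lit 115) (nat_lit 5) (nat_lit 112) (nat_lit 5) (nat_lit 446) (nat_lit 404) (nat_lit 350)) (XT.nd (nat_lit 78) (nat_lit 228) (nat_lit 0) (XT.lf (nat_lit 0) (nat_lit 9927533624) (nat_lit 228) (nat_lit 127935355) (nat_lit 304) (nat_lit 7179486779) (nat_lit 108) (nat_lit 5) (nat_lit 111) (nat_lit 5) (nat_lit 112) (nat_lit 5) (nat_lit 447) (nat_lit 404) (nat_lit 349)) (XT.lf (nat_lit 0) (nat_lit 360247819) (nat_lit 228) (nat_lit 7259603866) (nat_lit 76) (nat_lit 10153319062) (nat_lit 105) (nat_lit 5) (nat_lit 108) (nat_lit 5) (nat_lit 106) (nat_lit 5) (nat_lit 448) (nat_lit 404) (nat_lit 348)))) (XT.nd (nat_lit 78) (nat_lit 456) (nat_lit 0) (XT.lf (nat_lit 0) (nat_lit 8279032508) (nat_lit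 304) (nat_lit 7279150947) (nat_lit 76) (nat_lit 2773470064) (nat_lit 102) (nat_lit 5) (nat_lit 106) (nat_lit 5) (nat_lit 103) (nat_lit 5) (nat_lit 449) (nat_lit 404) (nat_lit 347)) (XT.nd (nat_lit 78) (nat_lit 304) (nat_lit 0) (XT.lf (nat_lit 0) (nat_lit 11562147268) (nat_lit 152) (nat_lit 5234919924) (nat_lit 228) (nat_lit 2114899571) (nat_lit 100) (nat_lit 5) (nat_lit 102) (nat_lit 5) (nat_lit 103) (nat_lit 5) (nat_lit 450) (nat_lit 404) (nat_lit 346)) (XT.lf (nat_lit 0) (nat_lit 6286961404) (nat_lit 304) (nat_lit 7518426707) (nat_lit 76) (nat_lit 5708460489) (nat_lit 96) (nat_lit 5) (nat_lit 100) (nat_lit 5) (nat_lit 97) (nat_lit 5) (nat_lit 451) (nat_lit 404) (nat_lit 345)))))) (XT.nd (nat_lit 468) (nat_lit 1216) (nat_lit 0) (XT.nd (nat_lit 234) (nat_lit 532) (nat_lit 0) (XT.nd (nat_lit 78) (nat_lit 456) (nat_lit 0) (XT.lf (nat_lit 0) (nat_lit 12386089923) (nat_lit 152) (nat_lit 2870404036)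 (nat_lit 228) (nat_lit 4882967826) (nat_lit 94) (nat_lit 5) (nat_lit 96) (nat_lit 5) (nat_lit 97) (nat_lit 5) (nat_lit 452) (nat_lit 404) (nat_lit 344)) (XT.nd (nat_lit 78) (nat_lit 152) (nat_lit 0) (XT.lf (nat_lit 0) (nat_lit 4031920929) (nat_lit 304) (nat_lit 8112655007) (nat_lit 76) (nat_lit 8643782425) (nat_lit 90) (nat_lit 5) (nat_lit 94) (nat_lit 5) (nat_lit 91) (nat_lit 5) (nat_lit 453) (nat_lit 404) (nat_lit 343)) (XT.lf (nat_lit 0) (nat_lit 12898188691) (nat_lit 152) (nat_lit 573123750) (nat_lit 228) (nat_lit 7991548957) (nat_lit 88) (nat_lit 5) (nat_lit 90) (nat_lit 5) (nat_lit 91) (nat_lit 5) (nat_lit 454) (nat_lit 404) (nat_lit 342)))) (XT.nd (nat_lit 78) (nat_lit 304) (nat_lit 0) (XT.lf (nat_lit 0) (nat_lit 1457832721) (nat_lit 228) (nat_lit 9169002602) (nat_lit 76) (nat_lit 11535812190) (nat_lit 85) (nat_lit 5) (nat_lit 88) (nat_lit 5) (nat_lit 86) (nat_lit 5) (nat_lit 455) (nat_lit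 404) (nat_lit 341)) (XT.nd (nat_lit 78) (nat_lit 152) (nat_lit 0) (XT.lf (nat_lit 0) (nat_lit 11398770523) (nat_lit 228) (nat_lit 9917445548) (nat_lit 76) (nat_lit 1573306062) (nat_lit 83) (nat_lit 5) (nat_lit 86) (nat_lit 5) (nat_lit 84) (nat_lit 5) (nat_lit 456) (nat_lit 404) (nat_lit 340)) (XT.lf (nat_lit 0) (nat_lit 12812998806) (nat_lit 152) (nat_lit 9298488591) (nat_lit 228) (nat_lit 1533014802) (nat_lit 81) (nat_lit 5) (nat_lit 83) (nat_lit 5) (nat_lit 84) (nat_lit 5) (nat_lit 457) (nat_lit 404) (nat_lit 339))))) (XT.nd (nat_lit 234) (nat_lit 608) (nat_lit 0) (XT.nd (nat_lit 78) (nat_lit 380) (nat_lit 0) (XT.lf (nat_lit 0) (nat_lit 8956637031) (nat_lit 228) (nat_lit 11942591669) (nat_lit 76) (nat_lit 3529188670) (nat_lit 78) (nat_lit 5) (nat_lit 81) (nat_lit 5) (nat_lit 79) (nat_lit 5) (nat_lit 458) (nat_lit 404) (nat_lit 338)) (XT.nd (nat_lit 78) (nat_lit 228) (nat_lit 0) (XT.lf (nat_lit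 0) (nat_lit 11982915914) (nat_lit 152) (nat_lit 8229341246) (nat_lit 228) (nat_lit 5030623304) (nat_lit 76) (nat_lit 5) (nat_lit 78) (nat_lit 5) (nat_lit 79) (nat_lit 5) (nat_lit 459) (nat_lit 404) (nat_lit 337)) (XT.lf (nat_lit 0) (nat_lit 6053519654) (nat_lit 228) (nat_lit 14805322798) (nat_lit 76) (nat_lit 5230415596) (nat_lit 73) (nat_lit 5) (nat_lit 76) (nat_lit 5) (nat_lit 74) (nat_lit 5) (nat_lit 460) (nat_lit 404) (nat_lit 336)))) (XT.nd (nat_lit 156) (nat_lit 228) (nat_lit 0) (XT.nd (nat_lit 78) (nat_lit 228) (nat_lit 0) (XT.lf (nat_lit 0) (nat_lit 10340179758) (nat_lit 152) (nat_lit 7522317119) (nat_lit 228) (nat_lit 9105726199) (nat_lit 71) (nat_lit 5) (nat_lit 73) (nat_lit 5) (nat_lit 74) (nat_lit 5) (nat_lit 461) (nat_lit 404) (nat_lit 335)) (XT.lf (nat_lit 0) (nat_lit 2586187463) (nat_lit 228) (nat_lit 18710504450) (nat_lit 76) (nat_lit 6585913493) (nat_lit 68) (nat_lit 5) (nat_lit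 71) (nat_lit 5) (nat_lit 69) (nat_lit 5) (nat_lit 462) (nat_lit 404) (nat_lit 334))) (XT.nd (nat_lit 78) (nat_lit 76) (nat_lit 0) (XT.lf (nat_lit 0) (nat_lit 7670562715) (nat_lit 152) (nat_lit 7283505725) (nat_lit 228) (nat_lit 13877545494) (nat_lit 66) (nat_lit 5) (nat_lit 68) (nat_lit 5) (nat_lit 69) (nat_lit 5) (nat_lit 463) (nat_lit 404) (nat_lit 333)) (XT.lf (nat_lit 0) (nat_lit 5900839947) (nat_lit 76) (nat_lit 22318594917) (nat_lit 152) (nat_lit 1600267674) (nat_lit 65) (nat_lit 5) (nat_lit 66) (nat_lit 5) (nat_lit 67) (nat_lit 4) (nat_lit 464) (nat_lit 404) (nat_lit 332))))))) (XT.nd (nat_lit 1014) (nat_lit 1064) (nat_lit 0) (XT.nd (nat_lit 468) (nat_lit 836) (nat_lit 0) (XT.nd (nat_lit 234) (nat_lit 456) (nat_lit 0) (XT.nd (nat_lit 78) (nat_lit 152) (nat_lit 0) (XT.lf (nat_lit 0) (nat_lit 3716785226) (nat_lit 152) (nat_lit 7640329311) (nat_lit 228) (nat_lit 19488230222) (nat_lit 62) (nat_lit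 5) (nat_lit 64) (nat_lit 5) (nat_lit 65) (nat_lit 5) (nat_lit 465) (nat_lit 404) (nat_lit 331)) (XT.nd (nat_lit 78) (nat_lit 76) (nat_lit 0) (XT.lf (nat_lit 0) (nat_lit 1171175105) (nat_lit 76) (nat_lit 24051318449) (nat_lit 152) (nat_lit 6690505605) (nat_lit 61) (nat_lit 5) (nat_lit 62) (nat_lit 5) (nat_lit 63) (nat_lit 4) (nat_lit 466) (nat_lit 404) (nat_lit 330)) (XT.lf (nat_lit 0) (nat_lit 6933738678) (nat_lit 152) (nat_lit 1793732979) (nat_lit 76) (nat_lit 24295072039) (nat_lit 60) (nat_lit 5) (nat_lit 62) (nat_lit 5) (nat_lit 61) (nat_lit 5) (nat_lit 467) (nat_lit 404) (nat_lit 329)))) (XT.nd (nat_lit 78) (nat_lit 304) (nat_lit 0) (XT.lf (nat_lit 0) (nat_lit 21416123560) (nat_lit 228) (nat_lit 5224056042) (nat_lit 76) (nat_lit 7535941485) (nat_lit 58) (nat_lit 5) (nat_lit 61) (nat_lit 5) (nat_lit 59) (nat_lit 4) (nat_lit 468) (nat_lit 404) (nat_lit 328)) (XT.nd (nat_lit 78) (nat_lit 152)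 (nat_lit 0) (XT.lf (nat_lit 0) (nat_lit 1535231466) (nat_lit 152) (nat_lit 9154512741) (nat_lit 76) (nat_lit 24687556078) (nat_lit 56) (nat_lit 5) (nat_lit 58) (nat_lit 5) (nat_lit 57) (nat_lit 5) (nat_lit 469) (nat_lit 404) (nat_lit 327)) (XT.lf (nat_lit 0) (nat_lit 16583476649) (nat_lit 228) (nat_lit 13726433562) (nat_lit 76) (nat_lit 6315775236) (nat_lit 54) (nat_lit 5) (nat_lit 57) (nat_lit 5) (nat_lit 55) (nat_lit 4) (nat_lit 470) (nat_lit 404) (nat_lit 326))))) (XT.nd (nat_lit 234) (nat_lit 456) (nat_lit 0) (XT.nd (nat_lit 78) (nat_lit 304) (nat_lit 0) (XT.lf (nat_lit 0) (nat_lit 19006675031) (nat_lit 76) (nat_lit 13726777715) (nat_lit 152) (nat_lit 5192559116) (nat_lit 53) (nat_lit 5) (nat_lit 54) (nat_lit 5) (nat_lit 55) (nat_lit 4) (nat_lit 471) (nat_lit 404) (nat_lit 325)) (XT.nd (nat_lit 78) (nat_lit 76) (nat_lit 0) (XT.lf (nat_lit 0) (nat_lit 10481824231) (nat_lit 228) (nat_lit 24829791984)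 (nat_lit 76) (nat_lit 3968185281) (nat_lit 50) (nat_lit 5) (nat_lit 53) (nat_lit 5) (nat_lit 51) (nat_lit 4) (nat_lit 472) (nat_lit 404) (nat_lit 324)) (XT.lf (nat_lit 0) (nat_lit 9106272101) (nat_lit 76) (nat_lit 18115097549) (nat_lit 152) (nat_lit 13466704999) (nat_lit 49) (nat_lit 5) (nat_lit 50) (nat_lit 5) (nat_lit 51) (nat_lit 4) (nat_lit 473) (nat_lit 404) (nat_lit 323)))) (XT.nd (nat_lit 156) (nat_lit 228) (nat_lit 0) (XT.nd (nat_lit 78) (nat_lit 0) (nat_lit 0) (XT.lf (nat_lit 0) (nat_lit 2835400785) (nat_lit 228) (nat_lit 39094785337) (nat_lit 76) (nat_lit 228149461) (nat_lit 46) (nat_lit 5) (nat_lit 49) (nat_lit 5) (nat_lit 47) (nat_lit 4) (nat_lit 474) (nat_lit 404) (nat_lit 322)) (XT.lf (nat_lit 0) (nat_lit 20154362083) (nat_lit 228) (nat_lit 3977109076) (nat_lit 76) (nat_lit 19552231729) (nat_lit 46) (nat_lit 5) (nat_lit 49) (nat_lit 5) (nat_lit 47) (nat_lit 4) (nat_lit 475) (nat_lit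 404) (nat_lit 321))) (XT.nd (nat_lit 78) (nat_lit 152) (nat_lit 0) (XT.lf (nat_lit 0) (nat_lit 33489078281) (nat_lit 76) (nat_lit 5140213147) (nat_lit 152) (nat_lit 6647347681) (nat_lit 45) (nat_lit 5) (nat_lit 46) (nat_lit 5) (nat_lit 47) (nat_lit 4) (nat_lit 476) (nat_lit 404) (nat_lit 320)) (XT.lf (nat_lit 0) (nat_lit 11271529407) (nat_lit 152) (nat_lit 20773646618) (nat_lit 76) (nat_lit 14888583192) (nat_lit 43) (nat_lit 5) (nat_lit 45) (nat_lit 5) (nat_lit 44) (nat_lit 4) (nat_lit 477) (nat_lit 404) (nat_lit 319)))))) (XT.nd (nat_lit 468) (nat_lit 532) (nat_lit 0) (XT.nd (nat_lit 234) (nat_lit 304) (nat_lit 0) (XT.nd (nat_lit 78) (nat_lit 152) (nat_lit 0) (XT.lf (nat_lit 0) (nat_lit 17748893210) (nat_lit 76) (nat_lit 12515706103) (nat_lit 152) (nat_lit 18397690780) (nat_lit 42) (nat_lit 5) (nat_lit 43) (nat_lit 5) (nat_lit 44) (nat_lit 4) (nat_lit 478) (nat_lit 404) (nat_lit 318)) (XT.nd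 (nat_lit 78) (nat_lit 0) (nat_lit 0) (XT.lf (nat_lit 0) (nat_lit 80218854) (nat_lit 152) (nat_lit 42283801724) (nat_lit 76) (nat_lit 8102959418) (nat_lit 40) (nat_lit 5) (nat_lit 42) (nat_lit 5) (nat_lit 41) (nat_lit 4) (nat_lit 479) (nat_lit 404) (nat_lit 317)) (XT.lf (nat_lit 0) (nat_lit 19523424783) (nat_lit 152) (nat_lit 2843499127) (nat_lit 76) (nat_lit 29976859916) (nat_lit 40) (nat_lit 5) (nat_lit 42) (nat_lit 5) (nat_lit 41) (nat_lit 4) (nat_lit 480) (nat_lit 404) (nat_lit 316)))) (XT.nd (nat_lit 78) (nat_lit 228) (nat_lit 0) (XT.lf (nat_lit 0) (nat_lit 39281479252) (nat_lit 76) (nat_lit 1006962063) (nat_lit 152) (nat_lit 14015497873) (nat_lit 39) (nat_lit 5) (nat_lit 40) (nat_lit 5) (nat_lit 41) (nat_lit 4) (nat_lit 481) (nat_lit 404) (nat_lit 315)) (XT.nd (nat_lit 78) (nat_lit 76) (nat_lit 0) (XT.lf (nat_lit 0) (nat_lit 6094821665) (nat_lit 152) (nat_lit 28919481163) (nat_lit 76) (nat_lit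 21331837363) (nat_lit 37) (nat_lit 5) (nat_lit 39) (nat_lit 5) (nat_lit 38) (nat_lit 4) (nat_lit 482) (nat_lit 404) (nat_lit 314)) (XT.lf (nat_lit 0) (nat_lit 13892371946) (nat_lit 76) (nat_lit 13304181139) (nat_lit 152) (nat_lit 31281463150) (nat_lit 36) (nat_lit 5) (nat_lit 37) (nat_lit 5) (nat_lit 38) (nat_lit 4) (nat_lit 483) (nat_lit 404) (nat_lit 313))))) (XT.nd (nat_lit 234) (nat_lit 304) (nat_lit 0) (XT.nd (nat_lit 78) (nat_lit 228) (nat_lit 0) (XT.lf (nat_lit 0) (nat_lit 49718998316) (nat_lit 152) (nat_lit 1403558359) (nat_lit 0) (nat_lit 9582961301) (nat_lit 36) (nat_lit 5) (nat_lit 38) (nat_lit 4) (nat_lit 36) (nat_lit 4) (nat_lit 484) (nat_lit 404) (nat_lit 312)) (XT.nd (nat_lit 78) (nat_lit 76) (nat_lit 0) (XT.lf (nat_lit 0) (nat_lit 10665300241) (nat_lit 152) (nat_lit 18507194870) (nat_lit 76) (nat_lit 33852616229) (nat_lit 34) (nat_lit 5) (nat_lit 36) (nat_lit 5) (nat_lit 35) (nat_lit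 4) (nat_lit 485) (nat_lit 404) (nat_lit 311)) (XT.lf (nat_lit 0) (nat_lit 27686129849) (nat_lit 76) (nat_lit 5744691527) (nat_lit 152) (nat_lit 32018850449) (nat_lit 33) (nat_lit 5) (nat_lit 34) (nat_lit 5) (nat_lit 35) (nat_lit 4) (nat_lit 486) (nat_lit 404) (nat_lit 310)))) (XT.nd (nat_lit 156) (nat_lit 152) (nat_lit 0) (XT.nd (nat_lit 78) (nat_lit 76) (nat_lit 0) (XT.lf (nat_lit 0) (nat_lit 8522529231) (nat_lit 76) (nat_lit 49243650595) (nat_lit 76) (nat_lit 10216334268) (nat_lit 32) (nat_lit 4) (nat_lit 33) (nat_lit 5) (nat_lit 33) (nat_lit 4) (nat_lit 487) (nat_lit 404) (nat_lit 309)) (XT.lf (nat_lit 0) (nat_lit 12855991255) (nat_lit 152) (nat_lit 12947867922) (nat_lit 76) (nat_lit 44821672961) (nat_lit 31) (nat_lit 5) (nat_lit 33) (nat_lit 5) (nat_lit 32) (nat_lit 4) (nat_lit 488) (nat_lit 404) (nat_lit 308))) (XT.nd (nat_lit 78) (nat_lit 76) (nat_lit 0) (XT.lf (nat_lit 0) (nat_lit 36454382131)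 (nat_lit 76) (nat_lit 746237977) (nat_lit 152) (nat_lit 36187147651) (nat_lit 30) (nat_lit 5) (nat_lit 31) (nat_lit 5) (nat_lit 32) (nat_lit 4) (nat_lit 489) (nat_lit 404) (nat_lit 307)) (XT.lf (nat_lit 0) (nat_lit 12262513262) (nat_lit 76) (nat_lit 50976238289) (nat_lit 76) (nat_lit 13035075976) (nat_lit 29) (nat_lit 4) (nat_lit 30) (nat_lit 5) (nat_lit 30) (nat_lit 4) (nat_lit 490) (nat_lit 404) (nat_lit 306))))))))
noncomputable def xc57 : XT := (XT.nd (nat_lit 57174) (nat_lit 0) (nat_lit 6460) (XT.nd (nat_lit 56160) (nat_lit 0) (nat_lit 16568) (XT.nd (nat_lit 468) (nat_lit 76) (nat_lit 0) (XT.nd (nat_lit 234) (nat_lit 152) (nat_lit 0) (XT.nd (nat_lit 78) (nat_lit 152) (nat_lit 0) (XT.lf (nat_lit 0) (nat_lit 11424567730) (nat_lit 152) (nat_lit 14764565355) (nat_lit 76) (nat_lit 53100707016) (nat_lit 28) (nat_lit 5) (nat_lit 30) (nat_lit 5) (nat_lit 29) (nat_lit 4) (nat_lit 491) (nat_lit 404)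 (nat_lit 305)) (XT.nd (nat_lit 78) (nat_lit 76) (nat_lit 0) (XT.lf (nat_lit 0) (nat_lit 37183260429) (nat_lit 152) (nat_lit 44940926450) (nat_lit 0) (nat_lit 318225497) (nat_lit 27) (nat_lit 5) (nat_lit 29) (nat_lit 4) (nat_lit 27) (nat_lit 4) (nat_lit 492) (nat_lit 404) (nat_lit 304)) (XT.lf (nat_lit 0) (nat_lit 6768184303) (nat_lit 76) (nat_lit 57924515874) (nat_lit 76) (nat_lit 21046029135) (nat_lit 26) (nat_lit 4) (nat_lit 27) (nat_lit 5) (nat_lit 27) (nat_lit 4) (nat_lit 493) (nat_lit 404) (nat_lit 303)))) (XT.nd (nat_lit 78) (nat_lit 76) (nat_lit 0) (XT.lf (nat_lit 0) (nat_lit 4739852980) (nat_lit 152) (nat_lit 27269396435) (nat_lit 76) (nat_lit 57175924754) (nat_lit 25) (nat_lit 5) (nat_lit 27) (nat_lit 5) (nat_lit 26) (nat_lit 4) (nat_lit 494) (nat_lit 404) (nat_lit 302)) (XT.nd (nat_lit 78) (nat_lit 0) (nat_lit 0) (XT.lf (nat_lit 0) (nat_lit 27300319354) (nat_lit 76) (nat_lit 4327177456)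 (nat_lit 152) (nat_lit 61162761580) (nat_lit 24) (nat_lit 5) (nat_lit 25) (nat_lit 5) (nat_lit 26) (nat_lit 4) (nat_lit 495) (nat_lit 404) (nat_lit 301)) (XT.lf (nat_lit 0) (nat_lit 60362461433) (nat_lit 152) (nat_lit 11675507848) (nat_lit 0) (nat_lit 24522539735) (nat_lit 24) (nat_lit 5) (nat_lit 26) (nat_lit 4) (nat_lit 24) (nat_lit 4) (nat_lit 496) (nat_lit 404) (nat_lit 300))))) (XT.nd (nat_lit 55458) (nat_lit 0) (nat_lit 26372) (XT.nd (nat_lit 55302) (nat_lit 0) (nat_lit 26980) (XT.lf (nat_lit 0) (nat_lit 45642215734) (nat_lit 76) (nat_lit 45356887552) (nat_lit 76) (nat_lit 9506221353) (nat_lit 23) (nat_lit 4) (nat_lit 24) (nat_lit 5) (nat_lit 24) (nat_lit 4) (nat_lit 497) (nat_lit 404) (nat_lit 299)) (XT.nd (nat_lit 78) (nat_lit 684) (nat_lit 0) (XT.lf (nat_lit 0) (nat_lit 1140259466) (nat_lit 0) (nat_lit 1140259466) (nat_lit 532) (nat_lit 1085188528) (nat_lit 387) (nat_lit 5) (nat_lit 387)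 (nat_lit 3) (nat_lit 394) (nat_lit 3) (nat_lit 405) (nat_lit 405) (nat_lit 390)) (XT.lf (nat_lit 76) (nat_lit 1088064640) (nat_lit 0) (nat_lit 253572373) (nat_lit 684) (nat_lit 5451851269) (nat_lit 379) (nat_lit 5) (nat_lit 378) (nat_lit 3) (nat_lit 387) (nat_lit 5) (nat_lit 406) (nat_lit 405) (nat_lit 389)))) (XT.nd (nat_lit 78) (nat_lit 684) (nat_lit 0) (XT.lf (nat_lit 0) (nat_lit 4824138316) (nat_lit 608) (nat_lit 26712162) (nat_lit 684) (nat_lit 2012051715) (nat_lit 379) (nat_lit 5) (nat_lit 387) (nat_lit 5) (nat_lit 388) (nat_lit 5) (nat_lit 407) (nat_lit 405) (nat_lit 388)) (XT.nd (nat_lit 78) (nat_lit 0) (nat_lit 76) (XT.lf (nat_lit 0) (nat_lit 1358556213) (nat_lit 684) (nat_lit 1024768104) (nat_lit 760) (nat_lit 4556774262) (nat_lit 370) (nat_lit 5) (nat_lit 379) (nat_lit 5) (nat_lit 380) (nat_lit 5) (nat_lit 408) (nat_lit 405) (nat_lit 387)) (XT.lf (nat_lit 0) (nat_lit 4729468812) (nat_lit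 684) (nat_lit 1936967152) (nat_lit 760) (nat_lit 358802332) (nat_lit 371) (nat_lit 5) (nat_lit 380) (nat_lit 5) (nat_lit 381) (nat_lit 5) (nat_lit 409) (nat_lit 405) (nat_lit 386)))))) (XT.nd (nat_lit 468) (nat_lit 6612) (nat_lit 0) (XT.nd (nat_lit 234) (nat_lit 1748) (nat_lit 0) (XT.nd (nat_lit 78) (nat_lit 760) (nat_lit 0) (XT.lf (nat_lit 0) (nat_lit 1009315742) (nat_lit 760) (nat_lit 2777542081) (nat_lit 836) (nat_lit 3331178721) (nat_lit 361) (nat_lit 5) (nat_lit 371) (nat_lit 5) (nat_lit 372) (nat_lit 5) (nat_lit 410) (nat_lit 405) (nat_lit 385)) (XT.nd (nat_lit 78) (nat_lit 760) (nat_lit 0) (XT.lf (nat_lit 76) (nat_lit 3681480167) (nat_lit 0) (nat_lit 615262869) (nat_lit 836) (nat_lit 2922170684) (nat_lit 362) (nat_lit 5) (nat_lit 361) (nat_lit 5) (nat_lit 372) (nat_lit 5) (nat_lit 411) (nat_lit 405) (nat_lit 384)) (XT.lf (nat_lit 0) (nat_lit 316386657) (nat_lit 836) (nat_lit 4226223013)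 (nat_lit 912) (nat_lit 2785128059) (nat_lit 351) (nat_lit 5) (nat_lit 362) (nat_lit 5) (nat_lit 363) (nat_lit 5) (nat_lit 412) (nat_lit 405) (nat_lit 383)))) (XT.nd (nat_lit 78) (nat_lit 1748) (nat_lit 0) (XT.lf (nat_lit 76) (nat_lit 2593007987) (nat_lit 0) (nat_lit 954790375) (nat_lit 912) (nat_lit 3896646804) (nat_lit 352) (nat_lit 5) (nat_lit 351) (nat_lit 5) (nat_lit 363) (nat_lit 5) (nat_lit 413) (nat_lit 405) (nat_lit 382)) (XT.nd (nat_lit 78) (nat_lit 988) (nat_lit 0) (XT.lf (nat_lit 0) (nat_lit 2161648314) (nat_lit 836) (nat_lit 4701466950) (nat_lit 912) (nat_lit 706251284) (nat_lit 341) (nat_lit 5) (nat_lit 352) (nat_lit 5) (nat_lit 353) (nat_lit 5) (nat_lit 414) (nat_lit 405) (nat_lit 381)) (XT.lf (nat_lit 0) (nat_lit 1798770482) (nat_lit 912) (nat_lit 706463528) (nat_lit 988) (nat_lit 5197187842) (nat_lit 328) (nat_lit 5) (nat_lit 340) (nat_lit 5) (nat_lit 341) (nat_lit 5) (nat_lit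 415) (nat_lit 405) (nat_lit 380))))) (XT.nd (nat_lit 234) (nat_lit 3344) (nat_lit 0) (XT.nd (nat_lit 78) (nat_lit 2280) (nat_lit 0) (XT.lf (nat_lit 0) (nat_lit 1496193723) (nat_lit 988) (nat_lit 4313490061) (nat_lit 1064) (nat_lit 2033869269) (nat_lit 315) (nat_lit 5) (nat_lit 328) (nat_lit 5) (nat_lit 329) (nat_lit 5) (nat_lit 416) (nat_lit 405) (nat_lit 379)) (XT.nd (nat_lit 78) (nat_lit 1140) (nat_lit 0) (XT.lf (nat_lit 0) (nat_lit 1191529307) (nat_lit 1140) (nat_lit 6719391403) (nat_lit 76) (nat_lit 82617166) (nat_lit 300) (nat_lit 5) (nat_lit 315) (nat_lit 5) (nat_lit 301) (nat_lit 5) (nat_lit 417) (nat_lit 405) (nat_lit 378)) (XT.lf (nat_lit 0) (nat_lit 1086599151) (nat_lit 1140) (nat_lit 3423622157) (nat_lit 1216) (nat_lit 3641011597) (nat_lit 285) (nat_lit 5) (nat_lit 300) (nat_lit 5) (nat_lit 301) (nat_lit 5) (nat_lit 418) (nat_lit 405) (nat_lit 377)))) (XT.nd (nat_lit 156) (nat_lit 1292)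 (nat_lit 0) (XT.nd (nat_lit 78) (nat_lit 836) (nat_lit 0) (XT.lf (nat_lit 0) (nat_lit 983845707) (nat_lit 1216) (nat_lit 6962307346) (nat_lit 1292) (nat_lit 372156381) (nat_lit 269) (nat_lit 5) (nat_lit 285) (nat_lit 5) (nat_lit 286) (nat_lit 5) (nat_lit 419) (nat_lit 405) (nat_lit 376)) (XT.lf (nat_lit 0) (nat_lit 914119078) (nat_lit 760) (nat_lit 2066800147) (nat_lit 836) (nat_lit 5512556524) (nat_lit 258) (nat_lit 5) (nat_lit 268) (nat_lit 5) (nat_lit 269) (nat_lit 5) (nat_lit 420) (nat_lit 405) (nat_lit 375))) (XT.nd (nat_lit 78) (nat_lit 684) (nat_lit 0) (XT.lf (nat_lit 0) (nat_lit 906775438) (nat_lit 608) (nat_lit 5570788124) (nat_lit 684) (nat_lit 2200249540) (nat_lit 250) (nat_lit 5) (nat_lit 258) (nat_lit 5) (nat_lit 259) (nat_lit 5) (nat_lit 421) (nat_lit 405) (nat_lit 374)) (XT.lf (nat_lit 0) (nat_lit 962473729) (nat_lit 608) (nat_lit 271950116) (nat_lit 684) (nat_lit 7637153766) (nat_lit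 241) (nat_lit 5) (nat_lit 249) (nat_lit 5) (nat_lit 250) (nat_lit 5) (nat_lit 422) (nat_lit 405) (nat_lit 373))))))) (XT.nd (nat_lit 1014) (nat_lit 3952) (nat_lit 0) (XT.nd (nat_lit 468) (nat_lit 2964) (nat_lit 0) (XT.nd (nat_lit 234) (nat_lit 1520) (nat_lit 0) (XT.nd (nat_lit 78) (nat_lit 1140) (nat_lit 0) (XT.lf (nat_lit 0) (nat_lit 1039905676) (nat_lit 532) (nat_lit 3775097671) (nat_lit 608) (nat_lit 4258810991) (nat_lit 234) (nat_lit 5) (nat_lit 241) (nat_lit 5) (nat_lit 242) (nat_lit 5) (nat_lit 423) (nat_lit 405) (nat_lit 372)) (XT.nd (nat_lit 78) (nat_lit 608) (nat_lit 0) (XT.lf (nat_lit 0) (nat_lit 1191064402) (nat_lit 532) (nat_lit 7379935460) (nat_lit 608) (nat_lit 715297915) (nat_lit 227) (nat_lit 5) (nat_lit 234) (nat_lit 5) (nat_lit 235) (nat_lit 5) (nat_lit 424) (nat_lit 405) (nat_lit 371)) (XT.lf (nat_lit 0) (nat_lit 1369818055) (nat_lit 532) (nat_lit 1597134137) (nat_lit 608) (nat_lit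 6541004802) (nat_lit 219) (nat_lit 5) (nat_lit 226) (nat_lit 5) (nat_lit 227) (nat_lit 5) (nat_lit 425) (nat_lit 405) (nat_lit 370)))) (XT.nd (nat_lit 78) (nat_lit 988) (nat_lit 0) (XT.lf (nat_lit 0) (nat_lit 1592198373) (nat_lit 532) (nat_lit 5258493379) (nat_lit 608) (nat_lit 2888853194) (nat_lit 212) (nat_lit 5) (nat_lit 219) (nat_lit 5) (nat_lit 220) (nat_lit 5) (nat_lit 426) (nat_lit 405) (nat_lit 369)) (XT.nd (nat_lit 78) (nat_lit 456) (nat_lit 0) (XT.lf (nat_lit 0) (nat_lit 947926645) (nat_lit 532) (nat_lit 8106988354) (nat_lit 76) (nat_lit 926931746) (nat_lit 205) (nat_lit 5) (nat_lit 212) (nat_lit 5) (nat_lit 206) (nat_lit 5) (nat_lit 427) (nat_lit 405) (nat_lit 368)) (XT.lf (nat_lit 0) (nat_lit 2169168610) (nat_lit 456) (nat_lit 2803136479) (nat_lit 532) (nat_lit 5261455868) (nat_lit 199) (nat_lit 5) (nat_lit 205) (nat_lit 5) (nat_lit 206) (nat_lit 5) (nat_lit 428) (nat_lit 405) (nat_lit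 367))))) (XT.nd (nat_lit 234) (nat_lit 1596) (nat_lit 0) (XT.nd (nat_lit 78) (nat_lit 912) (nat_lit 0) (XT.lf (nat_lit 0) (nat_lit 2520977127) (nat_lit 456) (nat_lit 6721484915) (nat_lit 532) (nat_lit 1254491631) (nat_lit 193) (nat_lit 5) (nat_lit 199) (nat_lit 5) (nat_lit 200) (nat_lit 5) (nat_lit 429) (nat_lit 405) (nat_lit 366)) (XT.nd (nat_lit 78) (nat_lit 380) (nat_lit 0) (XT.lf (nat_lit 0) (nat_lit 2910413185) (nat_lit 456) (nat_lit 27422741) (nat_lit 532) (nat_lit 7833357621) (nat_lit 186) (nat_lit 5) (nat_lit 192) (nat_lit 5) (nat_lit 193) (nat_lit 5) (nat_lit 430) (nat_lit 405) (nat_lit 365)) (XT.lf (nat_lit 0) (nat_lit 3313492690) (nat_lit 380) (nat_lit 4088439611) (nat_lit 456) (nat_lit 3654214818) (nat_lit 181) (nat_lit 5) (nat_lit 186) (nat_lit 5) (nat_lit 187) (nat_lit 5) (nat_lit 431) (nat_lit 405) (nat_lit 364)))) (XT.nd (nat_lit 156) (nat_lit 760) (nat_lit 0) (XT.nd (nat_lit 78)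 (nat_lit 380) (nat_lit 0) (XT.lf (nat_lit 0) (nat_lit 775742883) (nat_lit 456) (nat_lit 7579681205) (nat_lit 76) (nat_lit 2998043236) (nat_lit 175) (nat_lit 5) (nat_lit 181) (nat_lit 5) (nat_lit 176) (nat_lit 5) (nat_lit 432) (nat_lit 405) (nat_lit 363)) (XT.lf (nat_lit 0) (nat_lit 4249744486) (nat_lit 380) (nat_lit 1176395688) (nat_lit 456) (nat_lit 6236207646) (nat_lit 170) (nat_lit 5) (nat_lit 175) (nat_lit 5) (nat_lit 176) (nat_lit 5) (nat_lit 433) (nat_lit 405) (nat_lit 362))) (XT.nd (nat_lit 78) (nat_lit 380) (nat_lit 0) (XT.lf (nat_lit 0) (nat_lit 4757899489) (nat_lit 380) (nat_lit 5650880920) (nat_lit 456) (nat_lit 1574914705) (nat_lit 165) (nat_lit 5) (nat_lit 170) (nat_lit 5) (nat_lit 171) (nat_lit 5) (nat_lit 434) (nat_lit 405) (nat_lit 361)) (XT.lf (nat_lit 0) (nat_lit 3330178696) (nat_lit 380) (nat_lit 7021576157) (nat_lit 76) (nat_lit 1966145734) (nat_lit 160) (nat_lit 5) (nat_lit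 165) (nat_lit 5) (nat_lit 161) (nat_lit 5) (nat_lit 435) (nat_lit 405) (nat_lit 360)))))) (XT.nd (nat_lit 468) (nat_lit 1976) (nat_lit 0) (XT.nd (nat_lit 234) (nat_lit 912) (nat_lit 0) (XT.nd (nat_lit 78) (nat_lit 684) (nat_lit 0) (XT.lf (nat_lit 0) (nat_lit 5854703865) (nat_lit 380) (nat_lit 2700786342) (nat_lit 456) (nat_lit 4109645013) (nat_lit 155) (nat_lit 5) (nat_lit 160) (nat_lit 5) (nat_lit 161) (nat_lit 5) (nat_lit 436) (nat_lit 405) (nat_lit 359)) (XT.nd (nat_lit 78) (nat_lit 304) (nat_lit 0) (XT.lf (nat_lit 0) (nat_lit 1101209665) (nat_lit 380) (nat_lit 6582969100) (nat_lit 76) (nat_lit 5342013812) (nat_lit 150) (nat_lit 5) (nat_lit 155) (nat_lit 5) (nat_lit 151) (nat_lit 5) (nat_lit 437) (nat_lit 405) (nat_lit 358)) (XT.lf (nat_lit 0) (nat_lit 6582070546) (nat_lit 380) (nat_lit 6350948198) (nat_lit 76) (nat_lit 468240870) (nat_lit 146) (nat_lit 5) (nat_lit 151) (nat_lit 5) (nat_lit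 147) (nat_lit 5) (nat_lit 438) (nat_lit 405) (nat_lit 357)))) (XT.nd (nat_lit 78) (nat_lit 608) (nat_lit 0) (XT.lf (nat_lit 0) (nat_lit 7670652932) (nat_lit 304) (nat_lit 4811530833) (nat_lit 380) (nat_lit 1308550641) (nat_lit 142) (nat_lit 5) (nat_lit 146) (nat_lit 5) (nat_lit 147) (nat_lit 5) (nat_lit 439) (nat_lit 405) (nat_lit 356)) (XT.nd (nat_lit 78) (nat_lit 228) (nat_lit 0) (XT.lf (nat_lit 0) (nat_lit 4500944006) (nat_lit 380) (nat_lit 5894952432) (nat_lit 76) (nat_lit 3799184164) (nat_lit 137) (nat_lit 5) (nat_lit 142) (nat_lit 5) (nat_lit 138) (nat_lit 5) (nat_lit 440) (nat_lit 405) (nat_lit 355)) (XT.lf (nat_lit 0) (nat_lit 8956343462) (nat_lit 228) (nat_lit 1745419460) (nat_lit 304) (nat_lit 3913664544) (nat_lit 134) (nat_lit 5) (nat_lit 137) (nat_lit 5) (nat_lit 138) (nat_lit 5) (nat_lit 441) (nat_lit 405) (nat_lit 354))))) (XT.nd (nat_lit 234) (nat_lit 1064) (nat_lit 0) (XT.nd (nat_lit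 78) (nat_lit 532) (nat_lit 0) (XT.lf (nat_lit 0) (nat_lit 2271063941) (nat_lit 380) (nat_lit 5445354604) (nat_lit 76) (nat_lit 7335041104) (nat_lit 129) (nat_lit 5) (nat_lit 134) (nat_lit 5) (nat_lit 130) (nat_lit 5) (nat_lit 442) (nat_lit 405) (nat_lit 353)) (XT.nd (nat_lit 78) (nat_lit 304) (nat_lit 0) (XT.lf (nat_lit 0) (nat_lit 8807473602) (nat_lit 304) (nat_lit 5235395947) (nat_lit 76) (nat_lit 1461568141) (nat_lit 126) (nat_lit 5) (nat_lit 130) (nat_lit 5) (nat_lit 127) (nat_lit 5) (nat_lit 443) (nat_lit 405) (nat_lit 352)) (XT.lf (nat_lit 0) (nat_lit 10936489386) (nat_lit 304) (nat_lit 4908699819) (nat_lit 380) (nat_lit 129648752) (nat_lit 122) (nat_lit 5) (nat_lit 126) (nat_lit 5) (nat_lit 127) (nat_lit 5) (nat_lit 444) (nat_lit 405) (nat_lit 351)))) (XT.nd (nat_lit 156) (nat_lit 532) (nat_lit 0) (XT.nd (nat_lit 78) (nat_lit 228) (nat_lit 0) (XT.lf (nat_lit 0) (nat_lit 6783424935) (nat_lit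 304) (nat_lit 4891654336) (nat_lit 76) (nat_lit 4787252417) (nat_lit 118) (nat_lit 5) (nat_lit 122) (nat_lit 5) (nat_lit 119) (nat_lit 5) (nat_lit 445) (nat_lit 405) (nat_lit 350)) (XT.lf (nat_lit 0) (nat_lit 12230122564) (nat_lit 228) (nat_lit 1966960758) (nat_lit 304) (nat_lit 2772356852) (nat_lit 115) (nat_lit 5) (nat_lit 118) (nat_lit 5) (nat_lit 119) (nat_lit 5) (nat_lit 446) (nat_lit 405) (nat_lit 349))) (XT.nd (nat_lit 78) (nat_lit 228) (nat_lit 0) (XT.lf (nat_lit 0) (nat_lit 4587548371) (nat_lit 304) (nat_lit 4657988075) (nat_lit 76) (nat_lit 8249219082) (nat_lit 111) (nat_lit 5) (nat_lit 115) (nat_lit 5) (nat_lit 112) (nat_lit 5) (nat_lit 447) (nat_lit 405) (nat_lit 348)) (XT.lf (nat_lit 0) (nat_lit 12408546006) (nat_lit 304) (nat_lit 4588224426) (nat_lit 76) (nat_lit 1044235851) (nat_lit 108) (nat_lit 5) (nat_lit 112) (nat_lit 5) (nat_lit 109) (nat_lit 5) (nat_lit 448) (nat_lit 405)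 (nat_lit 347))))))))
noncomputable def xc58 : XT := (XT.nd (nat_lit 1950) (nat_lit 1976) (nat_lit 0) (XT.nd (nat_lit 936) (nat_lit 1976) (nat_lit 0) (XT.nd (nat_lit 468) (nat_lit 1064) (nat_lit 0) (XT.nd (nat_lit 234) (nat_lit 760) (nat_lit 0) (XT.nd (nat_lit 78) (nat_lit 380) (nat_lit 0) (XT.lf (nat_lit 0) (nat_lit 2188393036) (nat_lit 228) (nat_lit 4591488887) (nat_lit 76) (nat_lit 11827469399) (nat_lit 105) (nat_lit 5) (nat_lit 108) (nat_lit 5) (nat_lit 106) (nat_lit 5) (nat_lit 449) (nat_lit 405) (nat_lit 346)) (XT.nd (nat_lit 78) (nat_lit 152) (nat_lit 0) (XT.lf (nat_lit 0) (nat_lit 10456679663) (nat_lit 304) (nat_lit 4657624200) (nat_lit 76) (nat_lit 4080855773) (nat_lit 102) (nat_lit 5) (nat_lit 106) (nat_lit 5) (nat_lit 103) (nat_lit 5) (nat_lit 450) (nat_lit 405) (nat_lit 345)) (XT.lf (nat_lit 0) (nat_lit 15040160618) (nat_lit 152) (nat_lit 4304345633) (nat_lit 228) (nat_lit 461673477)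 (nat_lit 100) (nat_lit 5) (nat_lit 102) (nat_lit 5) (nat_lit 103) (nat_lit 5) (nat_lit 451) (nat_lit 405) (nat_lit 344)))) (XT.nd (nat_lit 78) (nat_lit 456) (nat_lit 0) (XT.lf (nat_lit 0) (nat_lit 8282575408) (nat_lit 304) (nat_lit 5005181233) (nat_lit 76) (nat_lit 7151200501) (nat_lit 96) (nat_lit 5) (nat_lit 100) (nat_lit 5) (nat_lit 97) (nat_lit 5) (nat_lit 452) (nat_lit 405) (nat_lit 343)) (XT.nd (nat_lit 78) (nat_lit 304) (nat_lit 0) (XT.lf (nat_lit 0) (nat_lit 15811743843) (nat_lit 152) (nat_lit 1835756813) (nat_lit 228) (nat_lit 3449949796) (nat_lit 94) (nat_lit 5) (nat_lit 96) (nat_lit 5) (nat_lit 97) (nat_lit 5) (nat_lit 453) (nat_lit 405) (nat_lit 342)) (XT.lf (nat_lit 0) (nat_lit 5837359605) (nat_lit 304) (nat_lit 5723754008) (nat_lit 76) (nat_lit 10218418896) (nat_lit 90) (nat_lit 5) (nat_lit 94) (nat_lit 5) (nat_lit 91) (nat_lit 5) (nat_lit 454) (nat_lit 405) (nat_lit 341))))) (XT.nd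 (nat_lit 234) (nat_lit 532) (nat_lit 0) (XT.nd (nat_lit 78) (nat_lit 380) (nat_lit 0) (XT.lf (nat_lit 0) (nat_lit 15703814275) (nat_lit 228) (nat_lit 6237122399) (nat_lit 76) (nat_lit 548177335) (nat_lit 88) (nat_lit 5) (nat_lit 91) (nat_lit 5) (nat_lit 89) (nat_lit 5) (nat_lit 455) (nat_lit 405) (nat_lit 340)) (XT.nd (nat_lit 78) (nat_lit 152) (nat_lit 0) (XT.lf (nat_lit 0) (nat_lit 3061734713) (nat_lit 228) (nat_lit 6925698384) (nat_lit 76) (nat_lit 13237303330) (nat_lit 85) (nat_lit 5) (nat_lit 88) (nat_lit 5) (nat_lit 86) (nat_lit 5) (nat_lit 456) (nat_lit 405) (nat_lit 339)) (XT.lf (nat_lit 0) (nat_lit 13463008389) (nat_lit 228) (nat_lit 7755368789) (nat_lit 76) (nat_lit 2770684320) (nat_lit 83) (nat_lit 5) (nat_lit 86) (nat_lit 5) (nat_lit 84) (nat_lit 5) (nat_lit 457) (nat_lit 405) (nat_lit 338)))) (XT.nd (nat_lit 78) (nat_lit 380) (nat_lit 0) (XT.lf (nat_lit 0) (nat_lit 16035408208) (nat_lit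 152) (nat_lit 8629613239) (nat_lit 228) (nat_lit 118164442) (nat_lit 81) (nat_lit 5) (nat_lit 83) (nat_lit 5) (nat_lit 84) (nat_lit 5) (nat_lit 458) (nat_lit 405) (nat_lit 337)) (XT.nd (nat_lit 78) (nat_lit 152) (nat_lit 0) (XT.lf (nat_lit 0) (nat_lit 10832362594) (nat_lit 228) (nat_lit 9971747677) (nat_lit 76) (nat_lit 4802796259) (nat_lit 78) (nat_lit 5) (nat_lit 81) (nat_lit 5) (nat_lit 79) (nat_lit 5) (nat_lit 459) (nat_lit 405) (nat_lit 336)) (XT.lf (nat_lit 0) (nat_lit 15076424838) (nat_lit 152) (nat_lit 7530321297) (nat_lit 228) (nat_lit 3856671691) (nat_lit 76) (nat_lit 5) (nat_lit 78) (nat_lit 5) (nat_lit 79) (nat_lit 5) (nat_lit 460) (nat_lit 405) (nat_lit 335)))))) (XT.nd (nat_lit 468) (nat_lit 912) (nat_lit 0) (XT.nd (nat_lit 234) (nat_lit 456) (nat_lit 0) (XT.nd (nat_lit 78) (nat_lit 380) (nat_lit 0) (XT.lf (nat_lit 0) (nat_lit 7721385892) (nat_lit 228) (nat_lit 13065427376) (nat_lit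 76) (nat_lit 6565868408) (nat_lit 73) (nat_lit 5) (nat_lit 76) (nat_lit 5) (nat_lit 74) (nat_lit 5) (nat_lit 461) (nat_lit 405) (nat_lit 334)) (XT.nd (nat_lit 78) (nat_lit 228) (nat_lit 0) (XT.lf (nat_lit 0) (nat_lit 13266256975) (nat_lit 152) (nat_lit 6812703379) (nat_lit 228) (nat_lit 8197894130) (nat_lit 71) (nat_lit 5) (nat_lit 73) (nat_lit 5) (nat_lit 74) (nat_lit 5) (nat_lit 462) (nat_lit 405) (nat_lit 333)) (XT.lf (nat_lit 0) (nat_lit 4021403262) (nat_lit 228) (nat_lit 17251451275) (nat_lit 76) (nat_lit 7964630357) (nat_lit 68) (nat_lit 5) (nat_lit 71) (nat_lit 5) (nat_lit 69) (nat_lit 5) (nat_lit 463) (nat_lit 405) (nat_lit 332)))) (XT.nd (nat_lit 78) (nat_lit 304) (nat_lit 0) (XT.lf (nat_lit 0) (nat_lit 10380029139) (nat_lit 152) (nat_lit 6587821470) (nat_lit 228) (nat_lit 13267291574) (nat_lit 66) (nat_lit 5) (nat_lit 68) (nat_lit 5) (nat_lit 69) (nat_lit 5) (nat_lit 464) (nat_lit 405)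 (nat_lit 331)) (XT.nd (nat_lit 78) (nat_lit 228) (nat_lit 0) (XT.lf (nat_lit 0) (nat_lit 8482213380) (nat_lit 76) (nat_lit 22385663001) (nat_lit 152) (nat_lit 405620442) (nat_lit 65) (nat_lit 5) (nat_lit 66) (nat_lit 5) (nat_lit 67) (nat_lit 4) (nat_lit 465) (nat_lit 405) (nat_lit 330)) (XT.lf (nat_lit 0) (nat_lit 6147641872) (nat_lit 152) (nat_lit 6989182582) (nat_lit 228) (nat_lit 19214370198) (nat_lit 62) (nat_lit 5) (nat_lit 64) (nat_lit 5) (nat_lit 65) (nat_lit 5) (nat_lit 466) (nat_lit 405) (nat_lit 329))))) (XT.nd (nat_lit 234) (nat_lit 608) (nat_lit 0) (XT.nd (nat_lit 78) (nat_lit 228) (nat_lit 0) (XT.lf (nat_lit 0) (nat_lit 3436125005) (nat_lit 76) (nat_lit 24232307729) (nat_lit 152) (nat_lit 5804613168) (nat_lit 61) (nat_lit 5) (nat_lit 62) (nat_lit 5) (nat_lit 63) (nat_lit 4) (nat_lit 467) (nat_lit 405) (nat_lit 328)) (XT.nd (nat_lit 78) (nat_lit 0) (nat_lit 0) (XT.lf (nat_lit 0) (nat_lit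 245429546) (nat_lit 152) (nat_lit 8176977163) (nat_lit 228) (nat_lit 26216950390) (nat_lit 58) (nat_lit 5) (nat_lit 60) (nat_lit 5) (nat_lit 61) (nat_lit 5) (nat_lit 468) (nat_lit 405) (nat_lit 327)) (XT.lf (nat_lit 0) (nat_lit 23601325163) (nat_lit 228) (nat_lit 3398086037) (nat_lit 76) (nat_lit 8852032317) (nat_lit 58) (nat_lit 5) (nat_lit 61) (nat_lit 5) (nat_lit 59) (nat_lit 4) (nat_lit 469) (nat_lit 405) (nat_lit 326)))) (XT.nd (nat_lit 156) (nat_lit 304) (nat_lit 0) (XT.nd (nat_lit 78) (nat_lit 152) (nat_lit 0) (XT.lf (nat_lit 0) (nat_lit 2703559584) (nat_lit 152) (nat_lit 7563121785) (nat_lit 76) (nat_lit 26846689073) (nat_lit 56) (nat_lit 5) (nat_lit 58) (nat_lit 5) (nat_lit 57) (nat_lit 5) (nat_lit 470) (nat_lit 405) (nat_lit 325)) (XT.lf (nat_lit 0) (nat_lit 18480326086) (nat_lit 228) (nat_lit 12399524660) (nat_lit 76) (nat_lit 7545043123) (nat_lit 54) (nat_lit 5) (nat_lit 57) (nat_lit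 5) (nat_lit 55) (nat_lit 4) (nat_lit 471) (nat_lit 405) (nat_lit 324))) (XT.nd (nat_lit 78) (nat_lit 228) (nat_lit 0) (XT.lf (nat_lit 0) (nat_lit 21912530512) (nat_lit 76) (nat_lit 13493226451) (nat_lit 152) (nat_lit 4385443133) (nat_lit 53) (nat_lit 5) (nat_lit 54) (nat_lit 5) (nat_lit 55) (nat_lit 4) (nat_lit 472) (nat_lit 405) (nat_lit 323)) (XT.lf (nat_lit 0) (nat_lit 12029191741) (nat_lit 228) (nat_lit 24129777695) (nat_lit 76) (nat_lit 5054083707) (nat_lit 50) (nat_lit 5) (nat_lit 53) (nat_lit 5) (nat_lit 51) (nat_lit 4) (nat_lit 473) (nat_lit 405) (nat_lit 322))))))) (XT.nd (nat_lit 1014) (nat_lit 760) (nat_lit 0) (XT.nd (nat_lit 468) (nat_lit 608) (nat_lit 0) (XT.nd (nat_lit 234) (nat_lit 304) (nat_lit 0) (XT.nd (nat_lit 78) (nat_lit 228) (nat_lit 0) (XT.lf (nat_lit 0) (nat_lit 11447436776) (nat_lit 76) (nat_lit 18127678167) (nat_lit 152) (nat_lit 13117544906) (nat_lit 49) (nat_lit 5)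 (nat_lit 50) (nat_lit 5) (nat_lit 51) (nat_lit 4) (nat_lit 474) (nat_lit 405) (nat_lit 321)) (XT.nd (nat_lit 78) (nat_lit 0) (nat_lit 0) (XT.lf (nat_lit 0) (nat_lit 3958214195) (nat_lit 228) (nat_lit 39177546880) (nat_lit 76) (nat_lit 1101024638) (nat_lit 46) (nat_lit 5) (nat_lit 49) (nat_lit 5) (nat_lit 47) (nat_lit 4) (nat_lit 475) (nat_lit 405) (nat_lit 320)) (XT.lf (nat_lit 0) (nat_lit 22096407206) (nat_lit 228) (nat_lit 2393128603) (nat_lit 76) (nat_lit 21350288748) (nat_lit 46) (nat_lit 5) (nat_lit 49) (nat_lit 5) (nat_lit 47) (nat_lit 4) (nat_lit 476) (nat_lit 405) (nat_lit 319)))) (XT.nd (nat_lit 78) (nat_lit 228) (nat_lit 0) (XT.lf (nat_lit 0) (nat_lit 36895263488) (nat_lit 76) (nat_lit 4571974228) (nat_lit 152) (nat_lit 6046006834) (nat_lit 45) (nat_lit 5) (nat_lit 46) (nat_lit 5) (nat_lit 47) (nat_lit 4) (nat_lit 477) (nat_lit 405) (nat_lit 318)) (XT.nd (nat_lit 78) (nat_lit 76) (nat_lit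 0) (XT.lf (nat_lit 0) (nat_lit 12731140589) (nat_lit 152) (nat_lit 20093634233) (nat_lit 76) (nat_lit 16428761668) (nat_lit 43) (nat_lit 5) (nat_lit 45) (nat_lit 5) (nat_lit 44) (nat_lit 4) (nat_lit 478) (nat_lit 405) (nat_lit 317)) (XT.lf (nat_lit 0) (nat_lit 20305766546) (nat_lit 76) (nat_lit 12341476694) (nat_lit 152) (nat_lit 18422050705) (nat_lit 42) (nat_lit 5) (nat_lit 43) (nat_lit 5) (nat_lit 44) (nat_lit 4) (nat_lit 479) (nat_lit 405) (nat_lit 316))))) (XT.nd (nat_lit 234) (nat_lit 380) (nat_lit 0) (XT.nd (nat_lit 78) (nat_lit 76) (nat_lit 0) (XT.lf (nat_lit 0) (nat_lit 943779752) (nat_lit 152) (nat_lit 42741391732) (nat_lit 76) (nat_lit 9279344907) (nat_lit 40) (nat_lit 5) (nat_lit 42) (nat_lit 5) (nat_lit 41) (nat_lit 4) (nat_lit 480) (nat_lit 405) (nat_lit 315)) (XT.nd (nat_lit 78) (nat_lit 76) (nat_lit 0) (XT.lf (nat_lit 0) (nat_lit 21318215027) (nat_lit 152) (nat_lit 1407959724)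 (nat_lit 76) (nat_lit 32210214834) (nat_lit 40) (nat_lit 5) (nat_lit 42) (nat_lit 5) (nat_lit 41) (nat_lit 4) (nat_lit 481) (nat_lit 405) (nat_lit 314)) (XT.lf (nat_lit 0) (nat_lit 42778042709) (nat_lit 76) (nat_lit 319189045) (nat_lit 152) (nat_lit 13898049663) (nat_lit 39) (nat_lit 5) (nat_lit 40) (nat_lit 5) (nat_lit 41) (nat_lit 4) (nat_lit 482) (nat_lit 405) (nat_lit 313)))) (XT.nd (nat_lit 156) (nat_lit 152) (nat_lit 0) (XT.nd (nat_lit 78) (nat_lit 76) (nat_lit 0) (XT.lf (nat_lit 0) (nat_lit 7185049648) (nat_lit 152) (nat_lit 28844960554) (nat_lit 76) (nat_lit 23109850497) (nat_lit 37) (nat_lit 5) (nat_lit 39) (nat_lit 5) (nat_lit 38) (nat_lit 4) (nat_lit 483) (nat_lit 405) (nat_lit 312)) (XT.lf (nat_lit 0) (nat_lit 16063900536) (nat_lit 76) (nat_lit 13254759927) (nat_lit 152) (nat_lit 32060367340) (nat_lit 36) (nat_lit 5) (nat_lit 37) (nat_lit 5) (nat_lit 38) (nat_lit 4) (nat_lit 484) (nat_lit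 405) (nat_lit 311))) (XT.nd (nat_lit 78) (nat_lit 152) (nat_lit 0) (XT.lf (nat_lit 0) (nat_lit 52937471267) (nat_lit 152) (nat_lit 51898399) (nat_lit 0) (nat_lit 10729428659) (nat_lit 36) (nat_lit 5) (nat_lit 38) (nat_lit 4) (nat_lit 36) (nat_lit 4) (nat_lit 485) (nat_lit 405) (nat_lit 310)) (XT.lf (nat_lit 0) (nat_lit 11916539360) (nat_lit 152) (nat_lit 18037165977) (nat_lit 76) (nat_lit 36201103983) (nat_lit 34) (nat_lit 5) (nat_lit 36) (nat_lit 5) (nat_lit 35) (nat_lit 4) (nat_lit 486) (nat_lit 405) (nat_lit 309)))))) (XT.nd (nat_lit 468) (nat_lit 304) (nat_lit 0) (XT.nd (nat_lit 234) (nat_lit 228) (nat_lit 0) (XT.nd (nat_lit 78) (nat_lit 152) (nat_lit 0) (XT.lf (nat_lit 0) (nat_lit 30425826443) (nat_lit 76) (nat_lit 5373349705) (nat_lit 152) (nat_lit 32902057369) (nat_lit 33) (nat_lit 5) (nat_lit 34) (nat_lit 5) (nat_lit 35) (nat_lit 4) (nat_lit 487) (nat_lit 405) (nat_lit 308)) (XT.nd (nat_lit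 78) (nat_lit 76) (nat_lit 0) (XT.lf (nat_lit 0) (nat_lit 10279366813) (nat_lit 76) (nat_lit 51057574892) (nat_lit 76) (nat_lit 10024207851) (nat_lit 32) (nat_lit 4) (nat_lit 33) (nat_lit 5) (nat_lit 33) (nat_lit 4) (nat_lit 488) (nat_lit 405) (nat_lit 307)) (XT.lf (nat_lit 0) (nat_lit 14155196701) (nat_lit 152) (nat_lit 12314838229) (nat_lit 76) (nat_lit 47667066237) (nat_lit 31) (nat_lit 5) (nat_lit 33) (nat_lit 5) (nat_lit 32) (nat_lit 4) (nat_lit 489) (nat_lit 405) (nat_lit 306)))) (XT.nd (nat_lit 78) (nat_lit 152) (nat_lit 0) (XT.lf (nat_lit 0) (nat_lit 39520821255) (nat_lit 76) (nat_lit 176933715) (nat_lit 152) (nat_lit 37340273393) (nat_lit 30) (nat_lit 5) (nat_lit 31) (nat_lit 5) (nat_lit 32) (nat_lit 4) (nat_lit 490) (nat_lit 405) (nat_lit 305)) (XT.nd (nat_lit 78) (nat_lit 76) (nat_lit 0) (XT.lf (nat_lit 0) (nat_lit 14096623430) (nat_lit 76) (nat_lit 52928121618) (nat_lit 76) (nat_lit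 13044038209) (nat_lit 29) (nat_lit 4) (nat_lit 30) (nat_lit 5) (nat_lit 30) (nat_lit 4) (nat_lit 491) (nat_lit 405) (nat_lit 304)) (XT.lf (nat_lit 0) (nat_lit 12596032676) (nat_lit 152) (nat_lit 14327992437) (nat_lit 76) (nat_lit 56312286981) (nat_lit 28) (nat_lit 5) (nat_lit 30) (nat_lit 5) (nat_lit 29) (nat_lit 4) (nat_lit 492) (nat_lit 405) (nat_lit 303))))) (XT.nd (nat_lit 234) (nat_lit 76) (nat_lit 0) (XT.nd (nat_lit 78) (nat_lit 152) (nat_lit 0) (XT.lf (nat_lit 0) (nat_lit 39630415185) (nat_lit 152) (nat_lit 46034724703) (nat_lit 0) (nat_lit 881741055) (nat_lit 27) (nat_lit 5) (nat_lit 29) (nat_lit 4) (nat_lit 27) (nat_lit 4) (nat_lit 493) (nat_lit 405) (nat_lit 302)) (XT.nd (nat_lit 78) (nat_lit 76) (nat_lit 0) (XT.lf (nat_lit 0) (nat_lit 8226783963) (nat_lit 76) (nat_lit 60271311306) (nat_lit 76) (nat_lit 21510435990) (nat_lit 26) (nat_lit 4) (nat_lit 27) (nat_lit 5) (nat_lit 27) (nat_lit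 4) (nat_lit 494) (nat_lit 405) (nat_lit 301)) (XT.lf (nat_lit 0) (nat_lit 5525819590) (nat_lit 152) (nat_lit 27555081724) (nat_lit 76) (nat_lit 60547051512) (nat_lit 25) (nat_lit 5) (nat_lit 27) (nat_lit 5) (nat_lit 26) (nat_lit 4) (nat_lit 495) (nat_lit 405) (nat_lit 300)))) (XT.nd (nat_lit 55458) (nat_lit 0) (nat_lit 26220) (XT.nd (nat_lit 78) (nat_lit 0) (nat_lit 0) (XT.lf (nat_lit 0) (nat_lit 29712225378) (nat_lit 76) (nat_lit 4029541965) (nat_lit 152) (nat_lit 63672006780) (nat_lit 24) (nat_lit 5) (nat_lit 25) (nat_lit 5) (nat_lit 26) (nat_lit 4) (nat_lit 496) (nat_lit 405) (nat_lit 299)) (XT.lf (nat_lit 0) (nat_lit 63892809763) (nat_lit 152) (nat_lit 11251715226) (nat_lit 0) (nat_lit 26228632896) (nat_lit 24) (nat_lit 5) (nat_lit 26) (nat_lit 4) (nat_lit 24) (nat_lit 4) (nat_lit 497) (nat_lit 405) (nat_lit 298))) (XT.nd (nat_lit 78) (nat_lit 684) (nat_lit 0) (XT.lf (nat_lit 0) (nat_lit 2340351997)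 (nat_lit 684) (nat_lit 544546519) (nat_lit 684) (nat_lit 544546519) (nat_lit 378) (nat_lit 3) (nat_lit 387) (nat_lit 3) (nat_lit 387) (nat_lit 5) (nat_lit 406) (nat_lit 406) (nat_lit 388)) (XT.lf (nat_lit 0) (nat_lit 1074044287) (nat_lit 684) (nat_lit 2340137300) (nat_lit 760) (nat_lit 3517902779) (nat_lit 369) (nat_lit 5) (nat_lit 378) (nat_lit 3) (nat_lit 379) (nat_lit 5) (nat_lit 407) (nat_lit 406) (nat_lit 387))))))))
noncomputable def xc59 : XT := (XT.nd (nat_lit 1950) (nat_lit 7448) (nat_lit 0) (XT.nd (nat_lit 936) (nat_lit 7828) (nat_lit 0) (XT.nd (nat_lit 468) (nat_lit 5016) (nat_lit 0) (XT.nd (nat_lit 234) (nat_lit 760) (nat_lit 0) (XT.nd (nat_lit 78) (nat_lit 684) (nat_lit 0) (XT.lf (nat_lit 76) (nat_lit 3506180470) (nat_lit 0) (nat_lit 776041784) (nat_lit 760) (nat_lit 2730983426) (nat_lit 370) (nat_lit 5) (nat_lit 369) (nat_lit 5) (nat_lit 379) (nat_lit 5) (nat_lit 408) (nat_lit 406)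 (nat_lit 386)) (XT.nd (nat_lit 78) (nat_lit 0) (nat_lit 0) (XT.lf (nat_lit 0) (nat_lit 410555758) (nat_lit 760) (nat_lit 4595744486) (nat_lit 836) (nat_lit 2095917085) (nat_lit 360) (nat_lit 5) (nat_lit 370) (nat_lit 5) (nat_lit 371) (nat_lit 5) (nat_lit 409) (nat_lit 406) (nat_lit 385)) (XT.lf (nat_lit 76) (nat_lit 1578805349) (nat_lit 0) (nat_lit 1942899753) (nat_lit 836) (nat_lit 3677150812) (nat_lit 361) (nat_lit 5) (nat_lit 360) (nat_lit 5) (nat_lit 371) (nat_lit 5) (nat_lit 410) (nat_lit 406) (nat_lit 384)))) (XT.nd (nat_lit 78) (nat_lit 836) (nat_lit 0) (XT.lf (nat_lit 76) (nat_lit 742495691) (nat_lit 0) (nat_lit 5930789675) (nat_lit 836) (nat_lit 630550064) (nat_lit 362) (nat_lit 5) (nat_lit 361) (nat_lit 5) (nat_lit 372) (nat_lit 5) (nat_lit 411) (nat_lit 406) (nat_lit 383)) (XT.nd (nat_lit 78) (nat_lit 0) (nat_lit 76) (XT.lf (nat_lit 0) (nat_lit 2419806546) (nat_lit 836) (nat_lit 35249731)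 (nat_lit 912) (nat_lit 4961271696) (nat_lit 350) (nat_lit 5) (nat_lit 361) (nat_lit 5) (nat_lit 362) (nat_lit 5) (nat_lit 412) (nat_lit 406) (nat_lit 382)) (XT.lf (nat_lit 0) (nat_lit 5520062536) (nat_lit 836) (nat_lit 719031654) (nat_lit 912) (nat_lit 1297899604) (nat_lit 351) (nat_lit 5) (nat_lit 362) (nat_lit 5) (nat_lit 363) (nat_lit 5) (nat_lit 413) (nat_lit 406) (nat_lit 381))))) (XT.nd (nat_lit 234) (nat_lit 3344) (nat_lit 0) (XT.nd (nat_lit 78) (nat_lit 836) (nat_lit 0) (XT.lf (nat_lit 0) (nat_lit 1014554890) (nat_lit 912) (nat_lit 1341353276) (nat_lit 988) (nat_lit 5309770862) (nat_lit 339) (nat_lit 5) (nat_lit 351) (nat_lit 5) (nat_lit 352) (nat_lit 5) (nat_lit 414) (nat_lit 406) (nat_lit 380)) (XT.nd (nat_lit 78) (nat_lit 912) (nat_lit 0) (XT.lf (nat_lit 0) (nat_lit 4082754397) (nat_lit 912) (nat_lit 1906453378) (nat_lit 76) (nat_lit 1813228899) (nat_lit 340) (nat_lit 5) (nat_lit 352)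 (nat_lit 5) (nat_lit 341) (nat_lit 5) (nat_lit 415) (nat_lit 406) (nat_lit 379)) (XT.lf (nat_lit 0) (nat_lit 5545322130) (nat_lit 912) (nat_lit 1701130482) (nat_lit 988) (nat_lit 701357698) (nat_lit 328) (nat_lit 5) (nat_lit 340) (nat_lit 5) (nat_lit 341) (nat_lit 5) (nat_lit 416) (nat_lit 406) (nat_lit 378)))) (XT.nd (nat_lit 78) (nat_lit 2280) (nat_lit 0) (XT.lf (nat_lit 0) (nat_lit 2373971393) (nat_lit 1064) (nat_lit 2857638595) (nat_lit 76) (nat_lit 2869541287) (nat_lit 314) (nat_lit 5) (nat_lit 328) (nat_lit 5) (nat_lit 315) (nat_lit 5) (nat_lit 417) (nat_lit 406) (nat_lit 377)) (XT.nd (nat_lit 78) (nat_lit 1216) (nat_lit 0) (XT.lf (nat_lit 0) (nat_lit 5016749156) (nat_lit 1064) (nat_lit 523967809) (nat_lit 1140) (nat_lit 2722705247) (nat_lit 300) (nat_lit 5) (nat_lit 314) (nat_lit 5) (nat_lit 315) (nat_lit 5) (nat_lit 418) (nat_lit 406) (nat_lit 376)) (XT.lf (nat_lit 0) (nat_lit 409480819)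 (nat_lit 1216) (nat_lit 3592938671) (nat_lit 76) (nat_lit 4431718302) (nat_lit 284) (nat_lit 5) (nat_lit 300) (nat_lit 5) (nat_lit 285) (nat_lit 5) (nat_lit 419) (nat_lit 406) (nat_lit 375)))))) (XT.nd (nat_lit 468) (nat_lit 3420) (nat_lit 0) (XT.nd (nat_lit 234) (nat_lit 1748) (nat_lit 0) (XT.nd (nat_lit 78) (nat_lit 1444) (nat_lit 0) (XT.lf (nat_lit 0) (nat_lit 3609140624) (nat_lit 1292) (nat_lit 3893974062) (nat_lit 76) (nat_lit 1110482129) (nat_lit 268) (nat_lit 5) (nat_lit 285) (nat_lit 5) (nat_lit 269) (nat_lit 5) (nat_lit 420) (nat_lit 406) (nat_lit 374)) (XT.nd (nat_lit 78) (nat_lit 684) (nat_lit 0) (XT.lf (nat_lit 0) (nat_lit 4654256299) (nat_lit 760) (nat_lit 2313393076) (nat_lit 836) (nat_lit 1834443549) (nat_lit 258) (nat_lit 5) (nat_lit 268) (nat_lit 5) (nat_lit 269) (nat_lit 5) (nat_lit 421) (nat_lit 406) (nat_lit 373)) (XT.lf (nat_lit 0) (nat_lit 1461428701) (nat_lit 684) (nat_lit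 4359760197) (nat_lit 76) (nat_lit 3178526516) (nat_lit 249) (nat_lit 5) (nat_lit 258) (nat_lit 5) (nat_lit 250) (nat_lit 5) (nat_lit 422) (nat_lit 406) (nat_lit 372)))) (XT.nd (nat_lit 78) (nat_lit 1140) (nat_lit 0) (XT.lf (nat_lit 0) (nat_lit 4679934346) (nat_lit 608) (nat_lit 200634208) (nat_lit 684) (nat_lit 4326239711) (nat_lit 241) (nat_lit 5) (nat_lit 249) (nat_lit 5) (nat_lit 250) (nat_lit 5) (nat_lit 423) (nat_lit 406) (nat_lit 371)) (XT.nd (nat_lit 78) (nat_lit 608) (nat_lit 0) (XT.lf (nat_lit 0) (nat_lit 4760506689) (nat_lit 532) (nat_lit 3745025762) (nat_lit 608) (nat_lit 917702550) (nat_lit 234) (nat_lit 5) (nat_lit 241) (nat_lit 5) (nat_lit 242) (nat_lit 5) (nat_lit 424) (nat_lit 406) (nat_lit 370)) (XT.lf (nat_lit 0) (nat_lit 2619931602) (nat_lit 608) (nat_lit 4762575638) (nat_lit 76) (nat_lit 2266913704) (nat_lit 226) (nat_lit 5) (nat_lit 234) (nat_lit 5) (nat_lit 227) (nat_lit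 5) (nat_lit 425) (nat_lit 406) (nat_lit 369))))) (XT.nd (nat_lit 234) (nat_lit 1824) (nat_lit 0) (XT.nd (nat_lit 78) (nat_lit 1064) (nat_lit 0) (XT.lf (nat_lit 0) (nat_lit 5061583262) (nat_lit 532) (nat_lit 1285058501) (nat_lit 608) (nat_lit 3539088863) (nat_lit 219) (nat_lit 5) (nat_lit 226) (nat_lit 5) (nat_lit 227) (nat_lit 5) (nat_lit 426) (nat_lit 406) (nat_lit 368)) (XT.nd (nat_lit 78) (nat_lit 456) (nat_lit 0) (XT.lf (nat_lit 0) (nat_lit 173146227) (nat_lit 608) (nat_lit 4851706898) (nat_lit 76) (nat_lit 5107493841) (nat_lit 211) (nat_lit 5) (nat_lit 219) (nat_lit 5) (nat_lit 212) (nat_lit 5) (nat_lit 427) (nat_lit 406) (nat_lit 367)) (XT.lf (nat_lit 0) (nat_lit 4032168954) (nat_lit 532) (nat_lit 4857406511) (nat_lit 76) (nat_lit 1499655937) (nat_lit 205) (nat_lit 5) (nat_lit 212) (nat_lit 5) (nat_lit 206) (nat_lit 5) (nat_lit 428) (nat_lit 406) (nat_lit 366)))) (XT.nd (nat_lit 156) (nat_lit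 836) (nat_lit 0) (XT.nd (nat_lit 78) (nat_lit 532) (nat_lit 0) (XT.lf (nat_lit 0) (nat_lit 5827790431) (nat_lit 456) (nat_lit 2319490518) (nat_lit 532) (nat_lit 2509803617) (nat_lit 199) (nat_lit 5) (nat_lit 205) (nat_lit 5) (nat_lit 206) (nat_lit 5) (nat_lit 429) (nat_lit 406) (nat_lit 365)) (XT.lf (nat_lit 0) (nat_lit 1563647707) (nat_lit 532) (nat_lit 4776354134) (nat_lit 76) (nat_lit 4595994171) (nat_lit 192) (nat_lit 5) (nat_lit 199) (nat_lit 5) (nat_lit 193) (nat_lit 5) (nat_lit 430) (nat_lit 406) (nat_lit 364))) (XT.nd (nat_lit 78) (nat_lit 380) (nat_lit 0) (XT.lf (nat_lit 0) (nat_lit 5844151720) (nat_lit 532) (nat_lit 4694502783) (nat_lit 76) (nat_lit 687810863) (nat_lit 186) (nat_lit 5) (nat_lit 193) (nat_lit 5) (nat_lit 187) (nat_lit 5) (nat_lit 431) (nat_lit 406) (nat_lit 363)) (XT.lf (nat_lit 0) (nat_lit 6936187975) (nat_lit 380) (nat_lit 3497358397) (nat_lit 456) (nat_lit 1095081496)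 (nat_lit 181) (nat_lit 5) (nat_lit 186) (nat_lit 5) (nat_lit 187) (nat_lit 5) (nat_lit 432) (nat_lit 406) (nat_lit 362))))))) (XT.nd (nat_lit 1014) (nat_lit 2888) (nat_lit 0) (XT.nd (nat_lit 468) (nat_lit 2204) (nat_lit 0) (XT.nd (nat_lit 234) (nat_lit 1064) (nat_lit 0) (XT.nd (nat_lit 78) (nat_lit 836) (nat_lit 0) (XT.lf (nat_lit 0) (nat_lit 3415492802) (nat_lit 456) (nat_lit 4477933935) (nat_lit 76) (nat_lit 3949240240) (nat_lit 175) (nat_lit 5) (nat_lit 181) (nat_lit 5) (nat_lit 176) (nat_lit 5) (nat_lit 433) (nat_lit 406) (nat_lit 361)) (XT.nd (nat_lit 78) (nat_lit 456) (nat_lit 0) (XT.lf (nat_lit 0) (nat_lit 7843188575) (nat_lit 380) (nat_lit 363865839) (nat_lit 456) (nat_lit 3962698935) (nat_lit 170) (nat_lit 5) (nat_lit 175) (nat_lit 5) (nat_lit 176) (nat_lit 5) (nat_lit 434) (nat_lit 406) (nat_lit 360)) (XT.lf (nat_lit 0) (nat_lit 833342330) (nat_lit 456) (nat_lit 4172495509) (nat_lit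 76) (nat_lit 7503485172) (nat_lit 164) (nat_lit 5) (nat_lit 170) (nat_lit 5) (nat_lit 165) (nat_lit 5) (nat_lit 435) (nat_lit 406) (nat_lit 359)))) (XT.nd (nat_lit 78) (nat_lit 760) (nat_lit 0) (XT.lf (nat_lit 0) (nat_lit 5875219303) (nat_lit 380) (nat_lit 4008879629) (nat_lit 76) (nat_lit 2977967665) (nat_lit 160) (nat_lit 5) (nat_lit 165) (nat_lit 5) (nat_lit 161) (nat_lit 5) (nat_lit 436) (nat_lit 406) (nat_lit 358)) (XT.nd (nat_lit 78) (nat_lit 380) (nat_lit 0) (XT.lf (nat_lit 0) (nat_lit 9414792448) (nat_lit 380) (nat_lit 1865148327) (nat_lit 456) (nat_lit 1949195620) (nat_lit 155) (nat_lit 5) (nat_lit 160) (nat_lit 5) (nat_lit 161) (nat_lit 5) (nat_lit 437) (nat_lit 406) (nat_lit 357)) (XT.lf (nat_lit 0) (nat_lit 3405918027) (nat_lit 380) (nat_lit 3635114155) (nat_lit 76) (nat_lit 6568652060) (nat_lit 150) (nat_lit 5) (nat_lit 155) (nat_lit 5) (nat_lit 151) (nat_lit 5) (nat_lit 438) (nat_lit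 406) (nat_lit 356))))) (XT.nd (nat_lit 234) (nat_lit 1216) (nat_lit 0) (XT.nd (nat_lit 78) (nat_lit 684) (nat_lit 0) (XT.lf (nat_lit 0) (nat_lit 9094001718) (nat_lit 380) (nat_lit 3429628637) (nat_lit 76) (nat_lit 1481894526) (nat_lit 146) (nat_lit 5) (nat_lit 151) (nat_lit 5) (nat_lit 147) (nat_lit 5) (nat_lit 439) (nat_lit 406) (nat_lit 355)) (XT.nd (nat_lit 78) (nat_lit 304) (nat_lit 0) (XT.lf (nat_lit 0) (nat_lit 783132677) (nat_lit 380) (nat_lit 3224166086) (nat_lit 76) (nat_lit 10409170296) (nat_lit 141) (nat_lit 5) (nat_lit 146) (nat_lit 5) (nat_lit 142) (nat_lit 5) (nat_lit 440) (nat_lit 406) (nat_lit 354)) (XT.lf (nat_lit 0) (nat_lit 6794605588) (nat_lit 380) (nat_lit 3040341880) (nat_lit 76) (nat_lit 5007553204) (nat_lit 137) (nat_lit 5) (nat_lit 142) (nat_lit 5) (nat_lit 138) (nat_lit 5) (nat_lit 441) (nat_lit 406) (nat_lit 353)))) (XT.nd (nat_lit 156) (nat_lit 608) (nat_lit 0) (XT.nd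 (nat_lit 78) (nat_lit 380) (nat_lit 0) (XT.lf (nat_lit 0) (nat_lit 12463243089) (nat_lit 228) (nat_lit 773122686) (nat_lit 304) (nat_lit 2049585215) (nat_lit 134) (nat_lit 5) (nat_lit 137) (nat_lit 5) (nat_lit 138) (nat_lit 5) (nat_lit 442) (nat_lit 406) (nat_lit 352)) (XT.lf (nat_lit 0) (nat_lit 4347130321) (nat_lit 380) (nat_lit 2658299769) (nat_lit 76) (nat_lit 8739484512) (nat_lit 129) (nat_lit 5) (nat_lit 134) (nat_lit 5) (nat_lit 130) (nat_lit 5) (nat_lit 443) (nat_lit 406) (nat_lit 351))) (XT.nd (nat_lit 78) (nat_lit 380) (nat_lit 0) (XT.lf (nat_lit 0) (nat_lit 11155796527) (nat_lit 304) (nat_lit 2478702176) (nat_lit 76) (nat_lit 2587691313) (nat_lit 126) (nat_lit 5) (nat_lit 130) (nat_lit 5) (nat_lit 127) (nat_lit 5) (nat_lit 444) (nat_lit 406) (nat_lit 350)) (XT.lf (nat_lit 0) (nat_lit 1730289201) (nat_lit 380) (nat_lit 2319711285) (nat_lit 76) (nat_lit 12667492042) (nat_lit 121) (nat_lit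 5) (nat_lit 126) (nat_lit 5) (nat_lit 122) (nat_lit 5) (nat_lit 445) (nat_lit 406) (nat_lit 349)))))) (XT.nd (nat_lit 468) (nat_lit 1444) (nat_lit 0) (XT.nd (nat_lit 234) (nat_lit 684) (nat_lit 0) (XT.nd (nat_lit 78) (nat_lit 532) (nat_lit 0) (XT.lf (nat_lit 0) (nat_lit 8935728591) (nat_lit 304) (nat_lit 2208213184) (nat_lit 76) (nat_lit 6086909034) (nat_lit 118) (nat_lit 5) (nat_lit 122) (nat_lit 5) (nat_lit 119) (nat_lit 5) (nat_lit 446) (nat_lit 406) (nat_lit 348)) (XT.nd (nat_lit 78) (nat_lit 304) (nat_lit 0) (XT.lf (nat_lit 0) (nat_lit 15685721345) (nat_lit 228) (nat_lit 975348072) (nat_lit 304) (nat_lit 1104025006) (nat_lit 115) (nat_lit 5) (nat_lit 118) (nat_lit 5) (nat_lit 119) (nat_lit 5) (nat_lit 447) (nat_lit 406) (nat_lit 347)) (XT.lf (nat_lit 0) (nat_lit 6541544115) (nat_lit 304) (nat_lit 2052690977) (nat_lit 76) (nat_lit 9723340466) (nat_lit 111) (nat_lit 5) (nat_lit 115) (nat_lit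 5) (nat_lit 112) (nat_lit 5) (nat_lit 448) (nat_lit 406) (nat_lit 346)))) (XT.nd (nat_lit 78) (nat_lit 456) (nat_lit 0) (XT.lf (nat_lit 0) (nat_lit 14708424426) (nat_lit 304) (nat_lit 2021012034) (nat_lit 76) (nat_lit 2163065939) (nat_lit 108) (nat_lit 5) (nat_lit 112) (nat_lit 5) (nat_lit 109) (nat_lit 5) (nat_lit 449) (nat_lit 406) (nat_lit 345)) (XT.nd (nat_lit 78) (nat_lit 228) (nat_lit 0) (XT.lf (nat_lit 0) (nat_lit 3939656521) (nat_lit 228) (nat_lit 2071770658) (nat_lit 76) (nat_lit 13476878590) (nat_lit 105) (nat_lit 5) (nat_lit 108) (nat_lit 5) (nat_lit 106) (nat_lit 5) (nat_lit 450) (nat_lit 406) (nat_lit 344)) (XT.lf (nat_lit 0) (nat_lit 12579237483) (nat_lit 304) (nat_lit 2182583148) (nat_lit 76) (nat_lit 5344954984) (nat_lit 102) (nat_lit 5) (nat_lit 106) (nat_lit 5) (nat_lit 103) (nat_lit 5) (nat_lit 451) (nat_lit 406) (nat_lit 343))))) (XT.nd (nat_lit 234) (nat_lit 836) (nat_lit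 0) (XT.nd (nat_lit 78) (nat_lit 380) (nat_lit 0) (XT.lf (nat_lit 0) (nat_lit 1089008067) (nat_lit 228) (nat_lit 2338088353) (nat_lit 76) (nat_lit 17322463950) (nat_lit 99) (nat_lit 5) (nat_lit 102) (nat_lit 5) (nat_lit 100) (nat_lit 5) (nat_lit 452) (nat_lit 406) (nat_lit 342)) (XT.nd (nat_lit 78) (nat_lit 152) (nat_lit 0) (XT.lf (nat_lit 0) (nat_lit 10221661941) (nat_lit 304) (nat_lit 2634880829) (nat_lit 76) (nat_lit 8558481150) (nat_lit 96) (nat_lit 5) (nat_lit 100) (nat_lit 5) (nat_lit 97) (nat_lit 5) (nat_lit 453) (nat_lit 406) (nat_lit 341)) (XT.lf (nat_lit 0) (nat_lit 19147772689) (nat_lit 152) (nat_lit 858912069) (nat_lit 228) (nat_lit 2101207902) (nat_lit 94) (nat_lit 5) (nat_lit 96) (nat_lit 5) (nat_lit 97) (nat_lit 5) (nat_lit 454) (nat_lit 406) (nat_lit 340)))) (XT.nd (nat_lit 156) (nat_lit 380) (nat_lit 0) (XT.nd (nat_lit 78) (nat_lit 152) (nat_lit 0) (XT.lf (nat_lit 0) (nat_lit 7583960130)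 (nat_lit 304) (nat_lit 3475217220) (nat_lit 76) (nat_lit 11765573264) (nat_lit 90) (nat_lit 5) (nat_lit 94) (nat_lit 5) (nat_lit 91) (nat_lit 5) (nat_lit 455) (nat_lit 406) (nat_lit 339)) (XT.lf (nat_lit 0) (nat_lit 17908252959) (nat_lit 228) (nat_lit 4054648120) (nat_lit 76) (nat_lit 1607980196) (nat_lit 88) (nat_lit 5) (nat_lit 91) (nat_lit 5) (nat_lit 89) (nat_lit 5) (nat_lit 456) (nat_lit 406) (nat_lit 338))) (XT.nd (nat_lit 78) (nat_lit 152) (nat_lit 0) (XT.lf (nat_lit 0) (nat_lit 4603492974) (nat_lit 228) (nat_lit 4821412467) (nat_lit 76) (nat_lit 14919305031) (nat_lit 85) (nat_lit 5) (nat_lit 88) (nat_lit 5) (nat_lit 86) (nat_lit 5) (nat_lit 457) (nat_lit 406) (nat_lit 337)) (XT.lf (nat_lit 0) (nat_lit 15491532360) (nat_lit 228) (nat_lit 5732299100) (nat_lit 76) (nat_lit 3923924164) (nat_lit 83) (nat_lit 5) (nat_lit 86) (nat_lit 5) (nat_lit 84) (nat_lit 5) (nat_lit 458) (nat_lit 406) (nat_lit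 336))))))))
noncomputable def xc60 : XT := (XT.nd (nat_lit 1950) (nat_lit 1140) (nat_lit 0) (XT.nd (nat_lit 936) (nat_lit 1444) (nat_lit 0) (XT.nd (nat_lit 468) (nat_lit 760) (nat_lit 0) (XT.nd (nat_lit 234) (nat_lit 608) (nat_lit 0) (XT.nd (nat_lit 78) (nat_lit 304) (nat_lit 0) (XT.lf (nat_lit 0) (nat_lit 1204785213) (nat_lit 228) (nat_lit 6815752894) (nat_lit 76) (nat_lit 17961959374) (nat_lit 80) (nat_lit 5) (nat_lit 83) (nat_lit 5) (nat_lit 81) (nat_lit 5) (nat_lit 459) (nat_lit 406) (nat_lit 335)) (XT.nd (nat_lit 78) (nat_lit 152) (nat_lit 0) (XT.lf (nat_lit 0) (nat_lit 12669122413) (nat_lit 228) (nat_lit 8141107328) (nat_lit 76) (nat_lit 6038081791) (nat_lit 78) (nat_lit 5) (nat_lit 81) (nat_lit 5) (nat_lit 79) (nat_lit 5) (nat_lit 460) (nat_lit 406) (nat_lit 334)) (XT.lf (nat_lit 0) (nat_lit 18092706967) (nat_lit 152) (nat_lit 6899592908) (nat_lit 228) (nat_lit 2756550374) (nat_lit 76)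 (nat_lit 5) (nat_lit 78) (nat_lit 5) (nat_lit 79) (nat_lit 5) (nat_lit 461) (nat_lit 406) (nat_lit 333)))) (XT.nd (nat_lit 78) (nat_lit 380) (nat_lit 0) (XT.lf (nat_lit 0) (nat_lit 9345722992) (nat_lit 228) (nat_lit 11469119097) (nat_lit 76) (nat_lit 7868249839) (nat_lit 73) (nat_lit 5) (nat_lit 76) (nat_lit 5) (nat_lit 74) (nat_lit 5) (nat_lit 462) (nat_lit 406) (nat_lit 332)) (XT.nd (nat_lit 78) (nat_lit 228) (nat_lit 0) (XT.lf (nat_lit 0) (nat_lit 16114665723) (nat_lit 152) (nat_lit 6168549798) (nat_lit 228) (nat_lit 7371400283) (nat_lit 71) (nat_lit 5) (nat_lit 73) (nat_lit 5) (nat_lit 74) (nat_lit 5) (nat_lit 463) (nat_lit 406) (nat_lit 331)) (XT.lf (nat_lit 0) (nat_lit 5406969049) (nat_lit 228) (nat_lit 15942070644) (nat_lit 76) (nat_lit 9314717828) (nat_lit 68) (nat_lit 5) (nat_lit 71) (nat_lit 5) (nat_lit 69) (nat_lit 5) (nat_lit 464) (nat_lit 406) (nat_lit 330))))) (XT.nd (nat_lit 234)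 (nat_lit 304) (nat_lit 0) (XT.nd (nat_lit 78) (nat_lit 304) (nat_lit 0) (XT.lf (nat_lit 0) (nat_lit 13008725188) (nat_lit 152) (nat_lit 5955888696) (nat_lit 228) (nat_lit 12747770715) (nat_lit 66) (nat_lit 5) (nat_lit 68) (nat_lit 5) (nat_lit 69) (nat_lit 5) (nat_lit 465) (nat_lit 406) (nat_lit 329)) (XT.nd (nat_lit 78) (nat_lit 152) (nat_lit 0) (XT.lf (nat_lit 0) (nat_lit 716003416) (nat_lit 152) (nat_lit 21830364058) (nat_lit 76) (nat_lit 10256860412) (nat_lit 64) (nat_lit 5) (nat_lit 66) (nat_lit 5) (nat_lit 65) (nat_lit 5) (nat_lit 466) (nat_lit 406) (nat_lit 328)) (XT.lf (nat_lit 0) (nat_lit 8491320913) (nat_lit 152) (nat_lit 6401532238) (nat_lit 228) (nat_lit 19042869629) (nat_lit 62) (nat_lit 5) (nat_lit 64) (nat_lit 5) (nat_lit 65) (nat_lit 5) (nat_lit 467) (nat_lit 406) (nat_lit 327)))) (XT.nd (nat_lit 78) (nat_lit 228) (nat_lit 0) (XT.lf (nat_lit 0) (nat_lit 5609193065) (nat_lit 76)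 (nat_lit 24517322987) (nat_lit 152) (nat_lit 4987888981) (nat_lit 61) (nat_lit 5) (nat_lit 62) (nat_lit 5) (nat_lit 63) (nat_lit 4) (nat_lit 468) (nat_lit 406) (nat_lit 326)) (XT.nd (nat_lit 78) (nat_lit 0) (nat_lit 0) (XT.lf (nat_lit 0) (nat_lit 2222628840) (nat_lit 152) (nat_lit 7673456930) (nat_lit 228) (nat_lit 26443613125) (nat_lit 58) (nat_lit 5) (nat_lit 60) (nat_lit 5) (nat_lit 61) (nat_lit 5) (nat_lit 469) (nat_lit 406) (nat_lit 325)) (XT.lf (nat_lit 0) (nat_lit 25792180922) (nat_lit 228) (nat_lit 1674863076) (nat_lit 76) (nat_lit 10146601061) (nat_lit 58) (nat_lit 5) (nat_lit 61) (nat_lit 5) (nat_lit 59) (nat_lit 4) (nat_lit 470) (nat_lit 406) (nat_lit 324)))))) (XT.nd (nat_lit 468) (nat_lit 532) (nat_lit 0) (XT.nd (nat_lit 234) (nat_lit 532) (nat_lit 0) (XT.nd (nat_lit 78) (nat_lit 228) (nat_lit 0) (XT.lf (nat_lit 0) (nat_lit 3828820597) (nat_lit 152) (nat_lit 6082668719) (nat_lit 76)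 (nat_lit 29027803746) (nat_lit 56) (nat_lit 5) (nat_lit 58) (nat_lit 5) (nat_lit 57) (nat_lit 5) (nat_lit 471) (nat_lit 406) (nat_lit 323)) (XT.nd (nat_lit 78) (nat_lit 76) (nat_lit 0) (XT.lf (nat_lit 0) (nat_lit 20372755636) (nat_lit 228) (nat_lit 11193441410) (nat_lit 76) (nat_lit 8750847774) (nat_lit 54) (nat_lit 5) (nat_lit 57) (nat_lit 5) (nat_lit 55) (nat_lit 4) (nat_lit 472) (nat_lit 406) (nat_lit 322)) (XT.lf (nat_lit 0) (nat_lit 24781872892) (nat_lit 76) (nat_lit 13333520291) (nat_lit 152) (nat_lit 3637147091) (nat_lit 53) (nat_lit 5) (nat_lit 54) (nat_lit 5) (nat_lit 55) (nat_lit 4) (nat_lit 473) (nat_lit 406) (nat_lit 321)))) (XT.nd (nat_lit 78) (nat_lit 304) (nat_lit 0) (XT.lf (nat_lit 0) (nat_lit 13558793095) (nat_lit 228) (nat_lit 23575265320) (nat_lit 76) (nat_lit 6111766723) (nat_lit 50) (nat_lit 5) (nat_lit 53) (nat_lit 5) (nat_lit 51) (nat_lit 4) (nat_lit 474) (nat_lit 406) (nat_lit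 320)) (XT.nd (nat_lit 78) (nat_lit 228) (nat_lit 0) (XT.lf (nat_lit 0) (nat_lit 13730331127) (nat_lit 76) (nat_lit 18223926692) (nat_lit 152) (nat_lit 12845988733) (nat_lit 49) (nat_lit 5) (nat_lit 50) (nat_lit 5) (nat_lit 51) (nat_lit 4) (nat_lit 475) (nat_lit 406) (nat_lit 319)) (XT.lf (nat_lit 0) (nat_lit 5045960162) (nat_lit 228) (nat_lit 39438485246) (nat_lit 76) (nat_lit 1937452472) (nat_lit 46) (nat_lit 5) (nat_lit 49) (nat_lit 5) (nat_lit 47) (nat_lit 4) (nat_lit 476) (nat_lit 406) (nat_lit 318))))) (XT.nd (nat_lit 234) (nat_lit 304) (nat_lit 0) (XT.nd (nat_lit 78) (nat_lit 228) (nat_lit 0) (XT.lf (nat_lit 0) (nat_lit 24048689716) (nat_lit 228) (nat_lit 895700292) (nat_lit 76) (nat_lit 23161971378) (nat_lit 46) (nat_lit 5) (nat_lit 49) (nat_lit 5) (nat_lit 47) (nat_lit 4) (nat_lit 477) (nat_lit 406) (nat_lit 317)) (XT.nd (nat_lit 78) (nat_lit 152) (nat_lit 0) (XT.lf (nat_lit 0) (nat_lit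 40310757994) (nat_lit 76) (nat_lit 4052047247) (nat_lit 152) (nat_lit 5501406287) (nat_lit 45) (nat_lit 5) (nat_lit 46) (nat_lit 5) (nat_lit 47) (nat_lit 4) (nat_lit 478) (nat_lit 406) (nat_lit 316)) (XT.lf (nat_lit 0) (nat_lit 14180427516) (nat_lit 152) (nat_lit 19539409174) (nat_lit 76) (nat_lit 17971967839) (nat_lit 43) (nat_lit 5) (nat_lit 45) (nat_lit 5) (nat_lit 44) (nat_lit 4) (nat_lit 479) (nat_lit 406) (nat_lit 315)))) (XT.nd (nat_lit 156) (nat_lit 76) (nat_lit 0) (XT.nd (nat_lit 78) (nat_lit 152) (nat_lit 0) (XT.lf (nat_lit 0) (nat_lit 22835275895) (nat_lit 76) (nat_lit 12232913599) (nat_lit 152) (nat_lit 18530886016) (nat_lit 42) (nat_lit 5) (nat_lit 43) (nat_lit 5) (nat_lit 44) (nat_lit 4) (nat_lit 480) (nat_lit 406) (nat_lit 314)) (XT.lf (nat_lit 0) (nat_lit 1770605886) (nat_lit 152) (nat_lit 43375876214) (nat_lit 76) (nat_lit 10442847317) (nat_lit 40) (nat_lit 5) (nat_lit 42) (nat_lit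 5) (nat_lit 41) (nat_lit 4) (nat_lit 481) (nat_lit 406) (nat_lit 313))) (XT.nd (nat_lit 78) (nat_lit 76) (nat_lit 0) (XT.lf (nat_lit 0) (nat_lit 23126637347) (nat_lit 152) (nat_lit 47324277) (nat_lit 76) (nat_lit 34486949542) (nat_lit 40) (nat_lit 5) (nat_lit 42) (nat_lit 5) (nat_lit 41) (nat_lit 4) (nat_lit 482) (nat_lit 406) (nat_lit 312)) (XT.lf (nat_lit 0) (nat_lit 45975822842) (nat_lit 152) (nat_lit 13519664522) (nat_lit 0) (nat_lit 327824761) (nat_lit 39) (nat_lit 5) (nat_lit 41) (nat_lit 4) (nat_lit 39) (nat_lit 4) (nat_lit 483) (nat_lit 406) (nat_lit 311))))))) (XT.nd (nat_lit 1014) (nat_lit 76) (nat_lit 0) (XT.nd (nat_lit 468) (nat_lit 532) (nat_lit 0) (XT.nd (nat_lit 234) (nat_lit 228) (nat_lit 0) (XT.nd (nat_lit 78) (nat_lit 152) (nat_lit 0) (XT.lf (nat_lit 0) (nat_lit 8256761903) (nat_lit 152) (nat_lit 28908075097) (nat_lit 76) (nat_lit 24910623081) (nat_lit 37) (nat_lit 5) (nat_lit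 39) (nat_lit 5) (nat_lit 38) (nat_lit 4) (nat_lit 484) (nat_lit 406) (nat_lit 310)) (XT.nd (nat_lit 78) (nat_lit 76) (nat_lit 0) (XT.lf (nat_lit 0) (nat_lit 18206696463) (nat_lit 76) (nat_lit 13269307204) (nat_lit 152) (nat_lit 32951214308) (nat_lit 36) (nat_lit 5) (nat_lit 37) (nat_lit 5) (nat_lit 38) (nat_lit 4) (nat_lit 485) (nat_lit 406) (nat_lit 309)) (XT.lf (nat_lit 0) (nat_lit 1259737567) (nat_lit 76) (nat_lit 55001136618) (nat_lit 76) (nat_lit 10623550163) (nat_lit 35) (nat_lit 4) (nat_lit 36) (nat_lit 5) (nat_lit 36) (nat_lit 4) (nat_lit 486) (nat_lit 406) (nat_lit 308)))) (XT.nd (nat_lit 78) (nat_lit 152) (nat_lit 0) (XT.lf (nat_lit 0) (nat_lit 13163590009) (nat_lit 152) (nat_lit 17673365649) (nat_lit 76) (nat_lit 38606040764) (nat_lit 34) (nat_lit 5) (nat_lit 36) (nat_lit 5) (nat_lit 35) (nat_lit 4) (nat_lit 487) (nat_lit 406) (nat_lit 307)) (XT.nd (nat_lit 78) (nat_lit 76) (nat_lit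 0) (XT.lf (nat_lit 0) (nat_lit 33176496541) (nat_lit 76) (nat_lit 5044668984) (nat_lit 152) (nat_lit 33896152889) (nat_lit 33) (nat_lit 5) (nat_lit 34) (nat_lit 5) (nat_lit 35) (nat_lit 4) (nat_lit 488) (nat_lit 406) (nat_lit 306)) (XT.lf (nat_lit 0) (nat_lit 12000329367) (nat_lit 76) (nat_lit 53022464310) (nat_lit 76) (nat_lit 9887828104) (nat_lit 32) (nat_lit 4) (nat_lit 33) (nat_lit 5) (nat_lit 33) (nat_lit 4) (nat_lit 489) (nat_lit 406) (nat_lit 305))))) (XT.nd (nat_lit 234) (nat_lit 304) (nat_lit 0) (XT.nd (nat_lit 78) (nat_lit 152) (nat_lit 0) (XT.lf (nat_lit 0) (nat_lit 15458336022) (nat_lit 152) (nat_lit 11769198655) (nat_lit 76) (nat_lit 50598546197) (nat_lit 31) (nat_lit 5) (nat_lit 33) (nat_lit 5) (nat_lit 32) (nat_lit 4) (nat_lit 490) (nat_lit 406) (nat_lit 304)) (XT.nd (nat_lit 78) (nat_lit 76) (nat_lit 0) (XT.lf (nat_lit 0) (nat_lit 42264017904) (nat_lit 152) (nat_lit 38251130487)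 (nat_lit 0) (nat_lit 357326832) (nat_lit 30) (nat_lit 5) (nat_lit 32) (nat_lit 4) (nat_lit 30) (nat_lit 4) (nat_lit 491) (nat_lit 406) (nat_lit 303)) (XT.lf (nat_lit 0) (nat_lit 15908923541) (nat_lit 76) (nat_lit 55033095875) (nat_lit 76) (nat_lit 13113209221) (nat_lit 29) (nat_lit 4) (nat_lit 30) (nat_lit 5) (nat_lit 30) (nat_lit 4) (nat_lit 492) (nat_lit 406) (nat_lit 302)))) (XT.nd (nat_lit 156) (nat_lit 152) (nat_lit 0) (XT.nd (nat_lit 78) (nat_lit 76) (nat_lit 0) (XT.lf (nat_lit 0) (nat_lit 13770266563) (nat_lit 152) (nat_lit 13978812752) (nat_lit 76) (nat_lit 59632703702) (nat_lit 28) (nat_lit 5) (nat_lit 30) (nat_lit 5) (nat_lit 29) (nat_lit 4) (nat_lit 493) (nat_lit 406) (nat_lit 301)) (XT.lf (nat_lit 0) (nat_lit 42145261780) (nat_lit 152) (nat_lit 47290430943) (nat_lit 0) (nat_lit 1422521334) (nat_lit 27) (nat_lit 5) (nat_lit 29) (nat_lit 4) (nat_lit 27) (nat_lit 4) (nat_lit 494) (nat_lit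 406) (nat_lit 300))) (XT.nd (nat_lit 78) (nat_lit 76) (nat_lit 0) (XT.lf (nat_lit 0) (nat_lit 9654168916) (nat_lit 76) (nat_lit 62786527338) (nat_lit 76) (nat_lit 22052720056) (nat_lit 26) (nat_lit 4) (nat_lit 27) (nat_lit 5) (nat_lit 27) (nat_lit 4) (nat_lit 495) (nat_lit 406) (nat_lit 299)) (XT.lf (nat_lit 0) (nat_lit 6300046136) (nat_lit 152) (nat_lit 27955253467) (nat_lit 76) (nat_lit 64039102973) (nat_lit 25) (nat_lit 5) (nat_lit 27) (nat_lit 5) (nat_lit 26) (nat_lit 4) (nat_lit 496) (nat_lit 406) (nat_lit 298)))))) (XT.nd (nat_lit 55848) (nat_lit 0) (nat_lit 20976) (XT.nd (nat_lit 55614) (nat_lit 0) (nat_lit 24700) (XT.nd (nat_lit 55458) (nat_lit 0) (nat_lit 25460) (XT.lf (nat_lit 0) (nat_lit 32147396788) (nat_lit 76) (nat_lit 3764811024) (nat_lit 152) (nat_lit 66357745097) (nat_lit 24) (nat_lit 5) (nat_lit 25) (nat_lit 5) (nat_lit 26) (nat_lit 4) (nat_lit 497) (nat_lit 406) (nat_lit 297))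 (XT.nd (nat_lit 78) (nat_lit 760) (nat_lit 0) (XT.lf (nat_lit 0) (nat_lit 1033612148) (nat_lit 0) (nat_lit 1033612148) (nat_lit 684) (nat_lit 1437356843) (nat_lit 369) (nat_lit 5) (nat_lit 369) (nat_lit 3) (nat_lit 378) (nat_lit 3) (nat_lit 407) (nat_lit 407) (nat_lit 386)) (XT.lf (nat_lit 0) (nat_lit 104097240) (nat_lit 760) (nat_lit 6275479867) (nat_lit 836) (nat_lit 714963053) (nat_lit 359) (nat_lit 5) (nat_lit 369) (nat_lit 5) (nat_lit 370) (nat_lit 5) (nat_lit 408) (nat_lit 407) (nat_lit 385)))) (XT.nd (nat_lit 78) (nat_lit 760) (nat_lit 0) (XT.lf (nat_lit 0) (nat_lit 3054461814) (nat_lit 760) (nat_lit 368514442) (nat_lit 836) (nat_lit 3763952769) (nat_lit 359) (nat_lit 5) (nat_lit 369) (nat_lit 5) (nat_lit 370) (nat_lit 5) (nat_lit 409) (nat_lit 407) (nat_lit 384)) (XT.nd (nat_lit 78) (nat_lit 760) (nat_lit 0) (XT.lf (nat_lit 76) (nat_lit 5846115862) (nat_lit 0) (nat_lit 180779805) (nat_lit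 836) (nat_lit 1260860337) (nat_lit 360) (nat_lit 5) (nat_lit 359) (nat_lit 5) (nat_lit 370) (nat_lit 5) (nat_lit 410) (nat_lit 407) (nat_lit 383)) (XT.lf (nat_lit 0) (nat_lit 1628283358) (nat_lit 836) (nat_lit 2466039681) (nat_lit 912) (nat_lit 3301600736) (nat_lit 349) (nat_lit 5) (nat_lit 360) (nat_lit 5) (nat_lit 361) (nat_lit 5) (nat_lit 411) (nat_lit 407) (nat_lit 382))))) (XT.nd (nat_lit 234) (nat_lit 2888) (nat_lit 0) (XT.nd (nat_lit 78) (nat_lit 836) (nat_lit 0) (XT.lf (nat_lit 76) (nat_lit 4101168701) (nat_lit 0) (nat_lit 423470175) (nat_lit 912) (nat_lit 2987870222) (nat_lit 350) (nat_lit 5) (nat_lit 349) (nat_lit 5) (nat_lit 361) (nat_lit 5) (nat_lit 412) (nat_lit 407) (nat_lit 381)) (XT.nd (nat_lit 78) (nat_lit 912) (nat_lit 0) (XT.lf (nat_lit 76) (nat_lit 3338391528) (nat_lit 0) (nat_lit 4158044838) (nat_lit 912) (nat_lit 140614893) (nat_lit 351) (nat_lit 5) (nat_lit 350) (nat_lit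 5) (nat_lit 362) (nat_lit 5) (nat_lit 413) (nat_lit 407) (nat_lit 380)) (XT.lf (nat_lit 76) (nat_lit 2642004407) (nat_lit 0) (nat_lit 61511389) (nat_lit 988) (nat_lit 5066222742) (nat_lit 339) (nat_lit 5) (nat_lit 338) (nat_lit 5) (nat_lit 351) (nat_lit 5) (nat_lit 414) (nat_lit 407) (nat_lit 379)))) (XT.nd (nat_lit 156) (nat_lit 2052) (nat_lit 0) (XT.nd (nat_lit 78) (nat_lit 912) (nat_lit 0) (XT.lf (nat_lit 76) (nat_lit 1998676548) (nat_lit 0) (nat_lit 3644725201) (nat_lit 988) (nat_lit 2266963730) (nat_lit 340) (nat_lit 5) (nat_lit 339) (nat_lit 5) (nat_lit 352) (nat_lit 5) (nat_lit 415) (nat_lit 407) (nat_lit 378)) (XT.lf (nat_lit 0) (nat_lit 591574237) (nat_lit 988) (nat_lit 6624994941) (nat_lit 76) (nat_lit 843325396) (nat_lit 327) (nat_lit 5) (nat_lit 340) (nat_lit 5) (nat_lit 328) (nat_lit 5) (nat_lit 416) (nat_lit 407) (nat_lit 377))) (XT.nd (nat_lit 78) (nat_lit 1064) (nat_lit 0) (XT.lf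 (nat_lit 0) (nat_lit 904040494) (nat_lit 988) (nat_lit 2611972118) (nat_lit 1064) (nat_lit 4701154325) (nat_lit 314) (nat_lit 5) (nat_lit 327) (nat_lit 5) (nat_lit 328) (nat_lit 5) (nat_lit 417) (nat_lit 407) (nat_lit 376)) (XT.lf (nat_lit 0) (nat_lit 442638826) (nat_lit 1064) (nat_lit 6106768234) (nat_lit 1140) (nat_lit 1834048026) (nat_lit 300) (nat_lit 5) (nat_lit 314) (nat_lit 5) (nat_lit 315) (nat_lit 5) (nat_lit 418) (nat_lit 407) (nat_lit 375))))))))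
noncomputable def xc61 : XT := (XT.nd (nat_lit 1950) (nat_lit 5548) (nat_lit 0) (XT.nd (nat_lit 936) (nat_lit 4864) (nat_lit 0) (XT.nd (nat_lit 468) (nat_lit 3268) (nat_lit 0) (XT.nd (nat_lit 234) (nat_lit 2052) (nat_lit 0) (XT.nd (nat_lit 78) (nat_lit 1216) (nat_lit 0) (XT.lf (nat_lit 0) (nat_lit 34426741) (nat_lit 1140) (nat_lit 1093937625) (nat_lit 1216) (nat_lit 7430138436) (nat_lit 284) (nat_lit 5) (nat_lit 299) (nat_lit 5) (nat_lit 300) (nat_lit 5) (nat_lit 419) (nat_lit 407) (nat_lit 374)) (XT.nd (nat_lit 78) (nat_lit 1216) (nat_lit 0) (XT.lf (nat_lit 0) (nat_lit 4201330173) (nat_lit 1216) (nat_lit 336597251) (nat_lit 76) (nat_lit 4203849911) (nat_lit 284) (nat_lit 5) (nat_lit 300) (nat_lit 5) (nat_lit 285) (nat_lit 5) (nat_lit 420) (nat_lit 407) (nat_lit 373)) (XT.lf (nat_lit 0) (nat_lit 7410712947) (nat_lit 1292) (nat_lit 638825521) (nat_lit 76) (nat_lit 885222744) (nat_lit 268) (nat_lit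 5) (nat_lit 285) (nat_lit 5) (nat_lit 269) (nat_lit 5) (nat_lit 421) (nat_lit 407) (nat_lit 372)))) (XT.nd (nat_lit 78) (nat_lit 1216) (nat_lit 0) (XT.lf (nat_lit 0) (nat_lit 1627601272) (nat_lit 836) (nat_lit 914960499) (nat_lit 76) (nat_lit 6593890326) (nat_lit 257) (nat_lit 5) (nat_lit 268) (nat_lit 5) (nat_lit 258) (nat_lit 5) (nat_lit 422) (nat_lit 407) (nat_lit 371)) (XT.nd (nat_lit 78) (nat_lit 608) (nat_lit 0) (XT.lf (nat_lit 0) (nat_lit 4914644522) (nat_lit 684) (nat_lit 1151333967) (nat_lit 76) (nat_lit 3281541676) (nat_lit 249) (nat_lit 5) (nat_lit 258) (nat_lit 5) (nat_lit 250) (nat_lit 5) (nat_lit 423) (nat_lit 407) (nat_lit 370)) (XT.lf (nat_lit 0) (nat_lit 8242127826) (nat_lit 608) (nat_lit 133646948) (nat_lit 684) (nat_lit 1193098868) (nat_lit 241) (nat_lit 5) (nat_lit 249) (nat_lit 5) (nat_lit 250) (nat_lit 5) (nat_lit 424) (nat_lit 407) (nat_lit 369))))) (XT.nd (nat_lit 234)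 (nat_lit 1596) (nat_lit 0) (XT.nd (nat_lit 78) (nat_lit 1064) (nat_lit 0) (XT.lf (nat_lit 0) (nat_lit 2215938014) (nat_lit 608) (nat_lit 1495480055) (nat_lit 76) (nat_lit 6087750922) (nat_lit 233) (nat_lit 5) (nat_lit 241) (nat_lit 5) (nat_lit 234) (nat_lit 5) (nat_lit 425) (nat_lit 407) (nat_lit 368)) (XT.nd (nat_lit 78) (nat_lit 532) (nat_lit 0) (XT.lf (nat_lit 0) (nat_lit 5795226118) (nat_lit 608) (nat_lit 1617303304) (nat_lit 76) (nat_lit 2627382243) (nat_lit 226) (nat_lit 5) (nat_lit 234) (nat_lit 5) (nat_lit 227) (nat_lit 5) (nat_lit 426) (nat_lit 407) (nat_lit 367)) (XT.lf (nat_lit 0) (nat_lit 8601079028) (nat_lit 532) (nat_lit 993817238) (nat_lit 608) (nat_lit 696572848) (nat_lit 219) (nat_lit 5) (nat_lit 226) (nat_lit 5) (nat_lit 227) (nat_lit 5) (nat_lit 427) (nat_lit 407) (nat_lit 366)))) (XT.nd (nat_lit 78) (nat_lit 988) (nat_lit 0) (XT.lf (nat_lit 0) (nat_lit 3036453474) (nat_lit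 608) (nat_lit 1762002802) (nat_lit 76) (nat_lit 5754294919) (nat_lit 211) (nat_lit 5) (nat_lit 219) (nat_lit 5) (nat_lit 212) (nat_lit 5) (nat_lit 428) (nat_lit 407) (nat_lit 365)) (XT.nd (nat_lit 78) (nat_lit 532) (nat_lit 0) (XT.lf (nat_lit 0) (nat_lit 6988286224) (nat_lit 532) (nat_lit 1785146441) (nat_lit 76) (nat_lit 2052078736) (nat_lit 205) (nat_lit 5) (nat_lit 212) (nat_lit 5) (nat_lit 206) (nat_lit 5) (nat_lit 429) (nat_lit 407) (nat_lit 364)) (XT.lf (nat_lit 0) (nat_lit 97215900) (nat_lit 532) (nat_lit 1771459939) (nat_lit 76) (nat_lit 9241085210) (nat_lit 198) (nat_lit 5) (nat_lit 205) (nat_lit 5) (nat_lit 199) (nat_lit 5) (nat_lit 430) (nat_lit 407) (nat_lit 363)))))) (XT.nd (nat_lit 468) (nat_lit 2280) (nat_lit 0) (XT.nd (nat_lit 234) (nat_lit 1216) (nat_lit 0) (XT.nd (nat_lit 78) (nat_lit 912) (nat_lit 0) (XT.lf (nat_lit 0) (nat_lit 4231544640) (nat_lit 532) (nat_lit 1762782405)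 (nat_lit 76) (nat_lit 5410296248) (nat_lit 192) (nat_lit 5) (nat_lit 199) (nat_lit 5) (nat_lit 193) (nat_lit 5) (nat_lit 431) (nat_lit 407) (nat_lit 362)) (XT.nd (nat_lit 78) (nat_lit 456) (nat_lit 0) (XT.lf (nat_lit 0) (nat_lit 8639489268) (nat_lit 532) (nat_lit 1701073897) (nat_lit 76) (nat_lit 1371673397) (nat_lit 186) (nat_lit 5) (nat_lit 193) (nat_lit 5) (nat_lit 187) (nat_lit 5) (nat_lit 432) (nat_lit 407) (nat_lit 361)) (XT.lf (nat_lit 0) (nat_lit 1311006225) (nat_lit 456) (nat_lit 1626436652) (nat_lit 76) (nat_lit 9094372194) (nat_lit 180) (nat_lit 5) (nat_lit 186) (nat_lit 5) (nat_lit 181) (nat_lit 5) (nat_lit 433) (nat_lit 407) (nat_lit 360)))) (XT.nd (nat_lit 78) (nat_lit 836) (nat_lit 0) (XT.lf (nat_lit 0) (nat_lit 5945417351) (nat_lit 456) (nat_lit 1544704710) (nat_lit 76) (nat_lit 4873500295) (nat_lit 175) (nat_lit 5) (nat_lit 181) (nat_lit 5) (nat_lit 176) (nat_lit 5) (nat_lit 434)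 (nat_lit 407) (nat_lit 359)) (XT.nd (nat_lit 78) (nat_lit 456) (nat_lit 0) (XT.lf (nat_lit 0) (nat_lit 10897619516) (nat_lit 456) (nat_lit 1411517222) (nat_lit 76) (nat_lit 400313646) (nat_lit 170) (nat_lit 5) (nat_lit 176) (nat_lit 5) (nat_lit 171) (nat_lit 5) (nat_lit 435) (nat_lit 407) (nat_lit 358)) (XT.lf (nat_lit 0) (nat_lit 3101525456) (nat_lit 456) (nat_lit 1298404727) (nat_lit 76) (nat_lit 8667708195) (nat_lit 164) (nat_lit 5) (nat_lit 170) (nat_lit 5) (nat_lit 165) (nat_lit 5) (nat_lit 436) (nat_lit 407) (nat_lit 357))))) (XT.nd (nat_lit 234) (nat_lit 1216) (nat_lit 0) (XT.nd (nat_lit 78) (nat_lit 760) (nat_lit 0) (XT.lf (nat_lit 0) (nat_lit 8326378610) (nat_lit 380) (nat_lit 1158280223) (nat_lit 76) (nat_lit 3955450760) (nat_lit 160) (nat_lit 5) (nat_lit 165) (nat_lit 5) (nat_lit 161) (nat_lit 5) (nat_lit 437) (nat_lit 407) (nat_lit 356)) (XT.nd (nat_lit 78) (nat_lit 304) (nat_lit 0)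 (XT.lf (nat_lit 0) (nat_lit 97376363) (nat_lit 456) (nat_lit 979613116) (nat_lit 76) (nat_lit 12750758239) (nat_lit 154) (nat_lit 5) (nat_lit 160) (nat_lit 5) (nat_lit 155) (nat_lit 5) (nat_lit 438) (nat_lit 407) (nat_lit 355)) (XT.lf (nat_lit 0) (nat_lit 5616710870) (nat_lit 380) (nat_lit 844531177) (nat_lit 76) (nat_lit 7767413513) (nat_lit 150) (nat_lit 5) (nat_lit 155) (nat_lit 5) (nat_lit 151) (nat_lit 5) (nat_lit 439) (nat_lit 407) (nat_lit 354)))) (XT.nd (nat_lit 156) (nat_lit 532) (nat_lit 0) (XT.nd (nat_lit 78) (nat_lit 380) (nat_lit 0) (XT.lf (nat_lit 0) (nat_lit 11528590824) (nat_lit 380) (nat_lit 663362250) (nat_lit 76) (nat_lit 2454167586) (nat_lit 146) (nat_lit 5) (nat_lit 151) (nat_lit 5) (nat_lit 147) (nat_lit 5) (nat_lit 440) (nat_lit 407) (nat_lit 353)) (XT.lf (nat_lit 0) (nat_lit 2754533835) (nat_lit 380) (nat_lit 493118659) (nat_lit 76) (nat_lit 11831410273) (nat_lit 141) (nat_lit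 5) (nat_lit 146) (nat_lit 5) (nat_lit 142) (nat_lit 5) (nat_lit 441) (nat_lit 407) (nat_lit 352))) (XT.nd (nat_lit 78) (nat_lit 228) (nat_lit 0) (XT.lf (nat_lit 0) (nat_lit 9010630091) (nat_lit 380) (nat_lit 335798272) (nat_lit 76) (nat_lit 6181658603) (nat_lit 137) (nat_lit 5) (nat_lit 142) (nat_lit 5) (nat_lit 138) (nat_lit 5) (nat_lit 442) (nat_lit 407) (nat_lit 351)) (XT.lf (nat_lit 0) (nat_lit 15713237820) (nat_lit 304) (nat_lit 135953731) (nat_lit 76) (nat_lit 146367363) (nat_lit 134) (nat_lit 5) (nat_lit 138) (nat_lit 5) (nat_lit 135) (nat_lit 5) (nat_lit 443) (nat_lit 407) (nat_lit 350))))))) (XT.nd (nat_lit 1014) (nat_lit 2204) (nat_lit 0) (XT.nd (nat_lit 468) (nat_lit 1368) (nat_lit 0) (XT.nd (nat_lit 234) (nat_lit 760) (nat_lit 0) (XT.nd (nat_lit 78) (nat_lit 836) (nat_lit 0) (XT.lf (nat_lit 0) (nat_lit 6344544146) (nat_lit 380) (nat_lit 16319006) (nat_lit 76) (nat_lit 10117675384)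 (nat_lit 129) (nat_lit 5) (nat_lit 134) (nat_lit 5) (nat_lit 130) (nat_lit 5) (nat_lit 444) (nat_lit 407) (nat_lit 349)) (XT.nd (nat_lit 78) (nat_lit 304) (nat_lit 0) (XT.lf (nat_lit 0) (nat_lit 137888858) (nat_lit 304) (nat_lit 13307589177) (nat_lit 380) (nat_lit 3535655136) (nat_lit 122) (nat_lit 5) (nat_lit 126) (nat_lit 5) (nat_lit 127) (nat_lit 5) (nat_lit 445) (nat_lit 407) (nat_lit 348)) (XT.lf (nat_lit 0) (nat_lit 262621621) (nat_lit 228) (nat_lit 3247195391) (nat_lit 304) (nat_lit 13992565939) (nat_lit 118) (nat_lit 5) (nat_lit 121) (nat_lit 5) (nat_lit 122) (nat_lit 5) (nat_lit 446) (nat_lit 407) (nat_lit 347)))) (XT.nd (nat_lit 78) (nat_lit 532) (nat_lit 0) (XT.lf (nat_lit 0) (nat_lit 343890663) (nat_lit 228) (nat_lit 10686494587) (nat_lit 304) (nat_lit 7012387419) (nat_lit 115) (nat_lit 5) (nat_lit 118) (nat_lit 5) (nat_lit 119) (nat_lit 5) (nat_lit 447) (nat_lit 407) (nat_lit 346))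 (XT.nd (nat_lit 78) (nat_lit 228) (nat_lit 0) (XT.lf (nat_lit 0) (nat_lit 448379442) (nat_lit 228) (nat_lit 26299763) (nat_lit 304) (nat_lit 18130495027) (nat_lit 111) (nat_lit 5) (nat_lit 114) (nat_lit 5) (nat_lit 115) (nat_lit 5) (nat_lit 448) (nat_lit 407) (nat_lit 345)) (XT.lf (nat_lit 0) (nat_lit 427341335) (nat_lit 228) (nat_lit 8009667512) (nat_lit 304) (nat_lit 10749231325) (nat_lit 108) (nat_lit 5) (nat_lit 111) (nat_lit 5) (nat_lit 112) (nat_lit 5) (nat_lit 449) (nat_lit 407) (nat_lit 344))))) (XT.nd (nat_lit 234) (nat_lit 760) (nat_lit 0) (XT.nd (nat_lit 78) (nat_lit 456) (nat_lit 0) (XT.lf (nat_lit 0) (nat_lit 422807926) (nat_lit 152) (nat_lit 16548413683) (nat_lit 228) (nat_lit 2819929834) (nat_lit 106) (nat_lit 5) (nat_lit 108) (nat_lit 5) (nat_lit 109) (nat_lit 5) (nat_lit 450) (nat_lit 407) (nat_lit 343)) (XT.nd (nat_lit 78) (nat_lit 152) (nat_lit 0) (XT.lf (nat_lit 0) (nat_lit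 324665704) (nat_lit 228) (nat_lit 5304295284) (nat_lit 304) (nat_lit 14788847290) (nat_lit 102) (nat_lit 5) (nat_lit 105) (nat_lit 5) (nat_lit 106) (nat_lit 5) (nat_lit 451) (nat_lit 407) (nat_lit 342)) (XT.lf (nat_lit 0) (nat_lit 167725949) (nat_lit 152) (nat_lit 14493082370) (nat_lit 228) (nat_lit 6407591492) (nat_lit 100) (nat_lit 5) (nat_lit 102) (nat_lit 5) (nat_lit 103) (nat_lit 5) (nat_lit 452) (nat_lit 407) (nat_lit 341)))) (XT.nd (nat_lit 156) (nat_lit 456) (nat_lit 0) (XT.nd (nat_lit 78) (nat_lit 228) (nat_lit 0) (XT.lf (nat_lit 0) (nat_lit 2562329999) (nat_lit 228) (nat_lit 40868569) (nat_lit 76) (nat_lit 19141147629) (nat_lit 99) (nat_lit 5) (nat_lit 102) (nat_lit 5) (nat_lit 100) (nat_lit 5) (nat_lit 453) (nat_lit 407) (nat_lit 340)) (XT.lf (nat_lit 0) (nat_lit 12115926682) (nat_lit 304) (nat_lit 389700186) (nat_lit 76) (nat_lit 9938532757) (nat_lit 96) (nat_lit 5) (nat_lit 100) (nat_lit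 5) (nat_lit 97) (nat_lit 5) (nat_lit 454) (nat_lit 407) (nat_lit 339))) (XT.nd (nat_lit 78) (nat_lit 304) (nat_lit 0) (XT.lf (nat_lit 0) (nat_lit 22347176472) (nat_lit 228) (nat_lit 759683864) (nat_lit 76) (nat_lit 66107906) (nat_lit 94) (nat_lit 5) (nat_lit 97) (nat_lit 5) (nat_lit 95) (nat_lit 5) (nat_lit 455) (nat_lit 407) (nat_lit 338)) (XT.lf (nat_lit 0) (nat_lit 9282643437) (nat_lit 304) (nat_lit 1349908249) (nat_lit 76) (nat_lit 13293746189) (nat_lit 90) (nat_lit 5) (nat_lit 94) (nat_lit 5) (nat_lit 91) (nat_lit 5) (nat_lit 456) (nat_lit 407) (nat_lit 337)))))) (XT.nd (nat_lit 468) (nat_lit 1140) (nat_lit 0) (XT.nd (nat_lit 234) (nat_lit 532) (nat_lit 0) (XT.nd (nat_lit 78) (nat_lit 380) (nat_lit 0) (XT.lf (nat_lit 0) (nat_lit 20090965354) (nat_lit 228) (nat_lit 1994949324) (nat_lit 76) (nat_lit 2624790992) (nat_lit 88) (nat_lit 5) (nat_lit 91) (nat_lit 5) (nat_lit 89) (nat_lit 5) (nat_lit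 457) (nat_lit 407) (nat_lit 336)) (XT.nd (nat_lit 78) (nat_lit 152) (nat_lit 0) (XT.lf (nat_lit 0) (nat_lit 6093233632) (nat_lit 228) (nat_lit 2839743102) (nat_lit 76) (nat_lit 16590564192) (nat_lit 85) (nat_lit 5) (nat_lit 88) (nat_lit 5) (nat_lit 86) (nat_lit 5) (nat_lit 458) (nat_lit 407) (nat_lit 335)) (XT.lf (nat_lit 0) (nat_lit 17495472742) (nat_lit 228) (nat_lit 3832212804) (nat_lit 76) (nat_lit 5040488288) (nat_lit 83) (nat_lit 5) (nat_lit 86) (nat_lit 5) (nat_lit 84) (nat_lit 5) (nat_lit 459) (nat_lit 407) (nat_lit 334)))) (XT.nd (nat_lit 78) (nat_lit 304) (nat_lit 0) (XT.lf (nat_lit 0) (nat_lit 2468141728) (nat_lit 228) (nat_lit 5008494273) (nat_lit 76) (nat_lit 19768810862) (nat_lit 80) (nat_lit 5) (nat_lit 83) (nat_lit 5) (nat_lit 81) (nat_lit 5) (nat_lit 460) (nat_lit 407) (nat_lit 333)) (XT.nd (nat_lit 78) (nat_lit 152) (nat_lit 0) (XT.lf (nat_lit 0) (nat_lit 14477310224) (nat_lit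 228) (nat_lit 6435484479) (nat_lit 76) (nat_lit 7242612383) (nat_lit 78) (nat_lit 5) (nat_lit 81) (nat_lit 5) (nat_lit 79) (nat_lit 5) (nat_lit 461) (nat_lit 407) (nat_lit 332)) (XT.lf (nat_lit 0) (nat_lit 21049461034) (nat_lit 152) (nat_lit 6330972141) (nat_lit 228) (nat_lit 1721629682) (nat_lit 76) (nat_lit 5) (nat_lit 78) (nat_lit 5) (nat_lit 79) (nat_lit 5) (nat_lit 462) (nat_lit 407) (nat_lit 331))))) (XT.nd (nat_lit 234) (nat_lit 532) (nat_lit 0) (XT.nd (nat_lit 78) (nat_lit 380) (nat_lit 0) (XT.lf (nat_lit 0) (nat_lit 10936154543) (nat_lit 228) (nat_lit 10002139996) (nat_lit 76) (nat_lit 9145188872) (nat_lit 73) (nat_lit 5) (nat_lit 76) (nat_lit 5) (nat_lit 74) (nat_lit 5) (nat_lit 463) (nat_lit 407) (nat_lit 330)) (XT.nd (nat_lit 78) (nat_lit 228) (nat_lit 0) (XT.lf (nat_lit 0) (nat_lit 18902345403) (nat_lit 152) (nat_lit 5583744863) (nat_lit 228) (nat_lit 6618529433) (nat_lit 71) (nat_lit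 5) (nat_lit 73) (nat_lit 5) (nat_lit 74) (nat_lit 5) (nat_lit 464) (nat_lit 407) (nat_lit 329)) (XT.lf (nat_lit 0) (nat_lit 6751689950) (nat_lit 228) (nat_lit 14769148603) (nat_lit 76) (nat_lit 10643815129) (nat_lit 68) (nat_lit 5) (nat_lit 71) (nat_lit 5) (nat_lit 69) (nat_lit 5) (nat_lit 465) (nat_lit 407) (nat_lit 328)))) (XT.nd (nat_lit 156) (nat_lit 228) (nat_lit 0) (XT.nd (nat_lit 78) (nat_lit 152) (nat_lit 0) (XT.lf (nat_lit 0) (nat_lit 15572716634) (nat_lit 152) (nat_lit 5381734064) (nat_lit 228) (nat_lit 12312247288) (nat_lit 66) (nat_lit 5) (nat_lit 68) (nat_lit 5) (nat_lit 69) (nat_lit 5) (nat_lit 466) (nat_lit 407) (nat_lit 327)) (XT.lf (nat_lit 0) (nat_lit 1780006770) (nat_lit 152) (nat_lit 21020395156) (nat_lit 76) (nat_lit 11612087944) (nat_lit 64) (nat_lit 5) (nat_lit 66) (nat_lit 5) (nat_lit 65) (nat_lit 5) (nat_lit 467) (nat_lit 407) (nat_lit 326))) (XT.nd (nat_lit 78) (nat_lit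 76) (nat_lit 0) (XT.lf (nat_lit 0) (nat_lit 10762868318) (nat_lit 152) (nat_lit 5871622934) (nat_lit 228) (nat_lit 18968057029) (nat_lit 62) (nat_lit 5) (nat_lit 64) (nat_lit 5) (nat_lit 65) (nat_lit 5) (nat_lit 468) (nat_lit 407) (nat_lit 325)) (XT.lf (nat_lit 0) (nat_lit 7704856174) (nat_lit 76) (nat_lit 24902735504) (nat_lit 152) (nat_lit 4233242754) (nat_lit 61) (nat_lit 5) (nat_lit 62) (nat_lit 5) (nat_lit 63) (nat_lit 4) (nat_lit 469) (nat_lit 407) (nat_lit 324))))))))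
noncomputable def xc62 : XT := (XT.nd (nat_lit 1950) (nat_lit 228) (nat_lit 0) (XT.nd (nat_lit 936) (nat_lit 1064) (nat_lit 0) (XT.nd (nat_lit 468) (nat_lit 608) (nat_lit 0) (XT.nd (nat_lit 234) (nat_lit 456) (nat_lit 0) (XT.nd (nat_lit 78) (nat_lit 152) (nat_lit 0) (XT.lf (nat_lit 0) (nat_lit 4116007735) (nat_lit 152) (nat_lit 7229584115) (nat_lit 228) (nat_lit 26782406221) (nat_lit 58) (nat_lit 5) (nat_lit 60) (nat_lit 5) (nat_lit 61) (nat_lit 5) (nat_lit 470) (nat_lit 407) (nat_lit 323)) (XT.nd (nat_lit 78) (nat_lit 152) (nat_lit 0) (XT.lf (nat_lit 0) (nat_lit 27998605841) (nat_lit 228) (nat_lit 41483996) (nat_lit 76) (nat_lit 11426690413) (nat_lit 58) (nat_lit 5) (nat_lit 61) (nat_lit 5) (nat_lit 59) (nat_lit 4) (nat_lit 471) (nat_lit 407) (nat_lit 322)) (XT.lf (nat_lit 0) (nat_lit 4918296124) (nat_lit 152) (nat_lit 4700988862) (nat_lit 76) (nat_lit 31239992318) (nat_lit 56) (nat_lit 5) (nat_lit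 58) (nat_lit 5) (nat_lit 57) (nat_lit 5) (nat_lit 472) (nat_lit 407) (nat_lit 321)))) (XT.nd (nat_lit 78) (nat_lit 304) (nat_lit 0) (XT.lf (nat_lit 0) (nat_lit 22269772780) (nat_lit 228) (nat_lit 10096823700) (nat_lit 76) (nat_lit 9939911699) (nat_lit 54) (nat_lit 5) (nat_lit 57) (nat_lit 5) (nat_lit 55) (nat_lit 4) (nat_lit 473) (nat_lit 407) (nat_lit 320)) (XT.nd (nat_lit 78) (nat_lit 228) (nat_lit 0) (XT.lf (nat_lit 0) (nat_lit 27629779103) (nat_lit 76) (nat_lit 13243400403) (nat_lit 152) (nat_lit 2941391568) (nat_lit 53) (nat_lit 5) (nat_lit 54) (nat_lit 5) (nat_lit 55) (nat_lit 4) (nat_lit 474) (nat_lit 407) (nat_lit 319)) (XT.lf (nat_lit 0) (nat_lit 15078584694) (nat_lit 228) (nat_lit 23156748532) (nat_lit 76) (nat_lit 7147494588) (nat_lit 50) (nat_lit 5) (nat_lit 53) (nat_lit 5) (nat_lit 51) (nat_lit 4) (nat_lit 475) (nat_lit 407) (nat_lit 318))))) (XT.nd (nat_lit 234) (nat_lit 228) (nat_lit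 0) (XT.nd (nat_lit 78) (nat_lit 304) (nat_lit 0) (XT.lf (nat_lit 0) (nat_lit 15968342025) (nat_lit 76) (nat_lit 18400306353) (nat_lit 152) (nat_lit 12647078721) (nat_lit 49) (nat_lit 5) (nat_lit 50) (nat_lit 5) (nat_lit 51) (nat_lit 4) (nat_lit 476) (nat_lit 407) (nat_lit 317)) (XT.nd (nat_lit 78) (nat_lit 76) (nat_lit 0) (XT.lf (nat_lit 0) (nat_lit 6105364978) (nat_lit 228) (nat_lit 39870328802) (nat_lit 76) (nat_lit 2743056707) (nat_lit 46) (nat_lit 5) (nat_lit 49) (nat_lit 5) (nat_lit 47) (nat_lit 4) (nat_lit 477) (nat_lit 407) (nat_lit 316)) (XT.lf (nat_lit 0) (nat_lit 536731792) (nat_lit 76) (nat_lit 25488224955) (nat_lit 152) (nat_lit 24463480036) (nat_lit 45) (nat_lit 5) (nat_lit 46) (nat_lit 5) (nat_lit 47) (nat_lit 4) (nat_lit 478) (nat_lit 407) (nat_lit 315)))) (XT.nd (nat_lit 78) (nat_lit 228) (nat_lit 0) (XT.lf (nat_lit 0) (nat_lit 43750995514) (nat_lit 76) (nat_lit 3575714741) (nat_lit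 152) (nat_lit 5008312529) (nat_lit 45) (nat_lit 5) (nat_lit 46) (nat_lit 5) (nat_lit 47) (nat_lit 4) (nat_lit 479) (nat_lit 407) (nat_lit 314)) (XT.nd (nat_lit 78) (nat_lit 76) (nat_lit 0) (XT.lf (nat_lit 0) (nat_lit 15626618866) (nat_lit 152) (nat_lit 19102405237) (nat_lit 76) (nat_lit 19525231164) (nat_lit 43) (nat_lit 5) (nat_lit 45) (nat_lit 5) (nat_lit 44) (nat_lit 4) (nat_lit 480) (nat_lit 407) (nat_lit 313)) (XT.lf (nat_lit 0) (nat_lit 25350482793) (nat_lit 76) (nat_lit 12186385194) (nat_lit 152) (nat_lit 18720680000) (nat_lit 42) (nat_lit 5) (nat_lit 43) (nat_lit 5) (nat_lit 44) (nat_lit 4) (nat_lit 481) (nat_lit 407) (nat_lit 312)))))) (XT.nd (nat_lit 468) (nat_lit 532) (nat_lit 0) (XT.nd (nat_lit 234) (nat_lit 304) (nat_lit 0) (XT.nd (nat_lit 78) (nat_lit 76) (nat_lit 0) (XT.lf (nat_lit 0) (nat_lit 2566290056) (nat_lit 152) (nat_lit 44181781041) (nat_lit 76) (nat_lit 11599488698) (nat_lit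 40) (nat_lit 5) (nat_lit 42) (nat_lit 5) (nat_lit 41) (nat_lit 4) (nat_lit 482) (nat_lit 407) (nat_lit 311)) (XT.nd (nat_lit 78) (nat_lit 0) (nat_lit 0) (XT.lf (nat_lit 0) (nat_lit 1273142615) (nat_lit 76) (nat_lit 23695544705) (nat_lit 152) (nat_lit 35554677405) (nat_lit 39) (nat_lit 5) (nat_lit 40) (nat_lit 5) (nat_lit 41) (nat_lit 4) (nat_lit 483) (nat_lit 407) (nat_lit 310)) (XT.lf (nat_lit 0) (nat_lit 48933980109) (nat_lit 152) (nat_lit 12921076800) (nat_lit 0) (nat_lit 939620358) (nat_lit 39) (nat_lit 5) (nat_lit 41) (nat_lit 4) (nat_lit 39) (nat_lit 4) (nat_lit 484) (nat_lit 407) (nat_lit 309)))) (XT.nd (nat_lit 78) (nat_lit 152) (nat_lit 0) (XT.lf (nat_lit 0) (nat_lit 9315822014) (nat_lit 152) (nat_lit 29102564127) (nat_lit 76) (nat_lit 26741442271) (nat_lit 37) (nat_lit 5) (nat_lit 39) (nat_lit 5) (nat_lit 38) (nat_lit 4) (nat_lit 485) (nat_lit 407) (nat_lit 308)) (XT.nd (nat_lit 78)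 (nat_lit 76) (nat_lit 0) (XT.lf (nat_lit 0) (nat_lit 20332088792) (nat_lit 76) (nat_lit 13344844473) (nat_lit 152) (nat_lit 33952814571) (nat_lit 36) (nat_lit 5) (nat_lit 37) (nat_lit 5) (nat_lit 38) (nat_lit 4) (nat_lit 486) (nat_lit 407) (nat_lit 307)) (XT.lf (nat_lit 0) (nat_lit 2515754297) (nat_lit 76) (nat_lit 57172280244) (nat_lit 76) (nat_lit 10522171187) (nat_lit 35) (nat_lit 4) (nat_lit 36) (nat_lit 5) (nat_lit 36) (nat_lit 4) (nat_lit 487) (nat_lit 407) (nat_lit 306))))) (XT.nd (nat_lit 234) (nat_lit 304) (nat_lit 0) (XT.nd (nat_lit 78) (nat_lit 152) (nat_lit 0) (XT.lf (nat_lit 0) (nat_lit 14412448584) (nat_lit 152) (nat_lit 17409044247) (nat_lit 76) (nat_lit 41075917932) (nat_lit 34) (nat_lit 5) (nat_lit 36) (nat_lit 5) (nat_lit 35) (nat_lit 4) (nat_lit 488) (nat_lit 407) (nat_lit 305)) (XT.nd (nat_lit 78) (nat_lit 76) (nat_lit 0) (XT.lf (nat_lit 0) (nat_lit 35950404159) (nat_lit 76)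 (nat_lit 4755090000) (nat_lit 152) (nat_lit 35000477677) (nat_lit 33) (nat_lit 5) (nat_lit 34) (nat_lit 5) (nat_lit 35) (nat_lit 4) (nat_lit 489) (nat_lit 407) (nat_lit 304)) (XT.lf (nat_lit 0) (nat_lit 13695125168) (nat_lit 76) (nat_lit 55140263874) (nat_lit 76) (nat_lit 9803906457) (nat_lit 32) (nat_lit 4) (nat_lit 33) (nat_lit 5) (nat_lit 33) (nat_lit 4) (nat_lit 490) (nat_lit 407) (nat_lit 303)))) (XT.nd (nat_lit 156) (nat_lit 152) (nat_lit 0) (XT.nd (nat_lit 78) (nat_lit 76) (nat_lit 0) (XT.lf (nat_lit 0) (nat_lit 16771279568) (nat_lit 152) (nat_lit 11304251344) (nat_lit 76) (nat_lit 53625640534) (nat_lit 31) (nat_lit 5) (nat_lit 33) (nat_lit 5) (nat_lit 32) (nat_lit 4) (nat_lit 491) (nat_lit 407) (nat_lit 302)) (XT.lf (nat_lit 0) (nat_lit 44906163034) (nat_lit 152) (nat_lit 39129536315) (nat_lit 0) (nat_lit 864519242) (nat_lit 30) (nat_lit 5) (nat_lit 32) (nat_lit 4) (nat_lit 30) (nat_lit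 4) (nat_lit 492) (nat_lit 407) (nat_lit 301))) (XT.nd (nat_lit 78) (nat_lit 76) (nat_lit 0) (XT.lf (nat_lit 0) (nat_lit 17708876692) (nat_lit 76) (nat_lit 57293656045) (nat_lit 76) (nat_lit 13240043470) (nat_lit 29) (nat_lit 4) (nat_lit 30) (nat_lit 5) (nat_lit 30) (nat_lit 4) (nat_lit 493) (nat_lit 407) (nat_lit 300)) (XT.lf (nat_lit 0) (nat_lit 14952595994) (nat_lit 152) (nat_lit 13711241546) (nat_lit 76) (nat_lit 63072209518) (nat_lit 28) (nat_lit 5) (nat_lit 30) (nat_lit 5) (nat_lit 29) (nat_lit 4) (nat_lit 494) (nat_lit 407) (nat_lit 299))))))) (XT.nd (nat_lit 56472) (nat_lit 0) (nat_lit 13224) (XT.nd (nat_lit 55926) (nat_lit 0) (nat_lit 22876) (XT.nd (nat_lit 55692) (nat_lit 0) (nat_lit 24548) (XT.nd (nat_lit 78) (nat_lit 152) (nat_lit 0) (XT.lf (nat_lit 0) (nat_lit 44736267124) (nat_lit 152) (nat_lit 48706172450) (nat_lit 0) (nat_lit 1944162799) (nat_lit 27) (nat_lit 5) (nat_lit 29) (nat_lit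 4) (nat_lit 27) (nat_lit 4) (nat_lit 495) (nat_lit 407) (nat_lit 298)) (XT.nd (nat_lit 78) (nat_lit 76) (nat_lit 0) (XT.lf (nat_lit 0) (nat_lit 11058460813) (nat_lit 76) (nat_lit 65473835987) (nat_lit 76) (nat_lit 22671693716) (nat_lit 26) (nat_lit 4) (nat_lit 27) (nat_lit 5) (nat_lit 27) (nat_lit 4) (nat_lit 496) (nat_lit 407) (nat_lit 297)) (XT.lf (nat_lit 0) (nat_lit 7066690680) (nat_lit 152) (nat_lit 28466320137) (nat_lit 76) (nat_lit 67662553708) (nat_lit 25) (nat_lit 5) (nat_lit 27) (nat_lit 5) (nat_lit 26) (nat_lit 4) (nat_lit 497) (nat_lit 407) (nat_lit 296)))) (XT.nd (nat_lit 78) (nat_lit 760) (nat_lit 0) (XT.lf (nat_lit 0) (nat_lit 1451955435) (nat_lit 836) (nat_lit 1069723369) (nat_lit 836) (nat_lit 1069723369) (nat_lit 358) (nat_lit 3) (nat_lit 369) (nat_lit 3) (nat_lit 369) (nat_lit 5) (nat_lit 408) (nat_lit 408) (nat_lit 384)) (XT.nd (nat_lit 78) (nat_lit 760) (nat_lit 0) (XT.lf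 (nat_lit 76) (nat_lit 3801582864) (nat_lit 0) (nat_lit 1912809691) (nat_lit 836) (nat_lit 1565024075) (nat_lit 359) (nat_lit 5) (nat_lit 358) (nat_lit 3) (nat_lit 369) (nat_lit 5) (nat_lit 409) (nat_lit 408) (nat_lit 383)) (XT.lf (nat_lit 0) (nat_lit 1146197370) (nat_lit 836) (nat_lit 4750061879) (nat_lit 912) (nat_lit 1487679148) (nat_lit 348) (nat_lit 5) (nat_lit 359) (nat_lit 5) (nat_lit 360) (nat_lit 5) (nat_lit 410) (nat_lit 408) (nat_lit 382))))) (XT.nd (nat_lit 234) (nat_lit 836) (nat_lit 0) (XT.nd (nat_lit 78) (nat_lit 836) (nat_lit 0) (XT.lf (nat_lit 76) (nat_lit 1528080355) (nat_lit 0) (nat_lit 2335632349) (nat_lit 912) (nat_lit 3632464305) (nat_lit 349) (nat_lit 5) (nat_lit 348) (nat_lit 5) (nat_lit 360) (nat_lit 5) (nat_lit 411) (nat_lit 408) (nat_lit 381)) (XT.nd (nat_lit 78) (nat_lit 912) (nat_lit 0) (XT.lf (nat_lit 76) (nat_lit 502457687) (nat_lit 0) (nat_lit 6122681590) (nat_lit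 912) (nat_lit 991693507) (nat_lit 350) (nat_lit 5) (nat_lit 349) (nat_lit 5) (nat_lit 361) (nat_lit 5) (nat_lit 412) (nat_lit 408) (nat_lit 380)) (XT.lf (nat_lit 0) (nat_lit 1677424800) (nat_lit 912) (nat_lit 462180301) (nat_lit 988) (nat_lit 5605513472) (nat_lit 337) (nat_lit 5) (nat_lit 349) (nat_lit 5) (nat_lit 350) (nat_lit 5) (nat_lit 413) (nat_lit 408) (nat_lit 379)))) (XT.nd (nat_lit 156) (nat_lit 912) (nat_lit 0) (XT.nd (nat_lit 78) (nat_lit 0) (nat_lit 0) (XT.lf (nat_lit 0) (nat_lit 4396249364) (nat_lit 912) (nat_lit 1358285619) (nat_lit 988) (nat_lit 2126927073) (nat_lit 338) (nat_lit 5) (nat_lit 350) (nat_lit 5) (nat_lit 351) (nat_lit 5) (nat_lit 414) (nat_lit 408) (nat_lit 378)) (XT.lf (nat_lit 76) (nat_lit 5837586905) (nat_lit 0) (nat_lit 1355327894) (nat_lit 988) (nat_lit 833489754) (nat_lit 339) (nat_lit 5) (nat_lit 338) (nat_lit 5) (nat_lit 351) (nat_lit 5) (nat_lit 415) (nat_lit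 408) (nat_lit 377))) (XT.nd (nat_lit 78) (nat_lit 0) (nat_lit 0) (XT.lf (nat_lit 0) (nat_lit 1873502751) (nat_lit 988) (nat_lit 2983791103) (nat_lit 1064) (nat_lit 3321951121) (nat_lit 326) (nat_lit 5) (nat_lit 339) (nat_lit 5) (nat_lit 340) (nat_lit 5) (nat_lit 416) (nat_lit 408) (nat_lit 376)) (XT.lf (nat_lit 76) (nat_lit 4624443013) (nat_lit 0) (nat_lit 24928314) (nat_lit 1064) (nat_lit 3691619784) (nat_lit 327) (nat_lit 5) (nat_lit 326) (nat_lit 5) (nat_lit 340) (nat_lit 5) (nat_lit 417) (nat_lit 408) (nat_lit 375)))))) (XT.nd (nat_lit 468) (nat_lit 3800) (nat_lit 0) (XT.nd (nat_lit 234) (nat_lit 2660) (nat_lit 0) (XT.nd (nat_lit 78) (nat_lit 2280) (nat_lit 0) (XT.lf (nat_lit 0) (nat_lit 4096306613) (nat_lit 988) (nat_lit 3461928376) (nat_lit 1064) (nat_lit 952796081) (nat_lit 314) (nat_lit 5) (nat_lit 327) (nat_lit 5) (nat_lit 328) (nat_lit 5) (nat_lit 418) (nat_lit 408) (nat_lit 374)) (XT.nd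 (nat_lit 78) (nat_lit 1140) (nat_lit 0) (XT.lf (nat_lit 0) (nat_lit 1855720918) (nat_lit 1140) (nat_lit 5066697261) (nat_lit 76) (nat_lit 1767522130) (nat_lit 299) (nat_lit 5) (nat_lit 314) (nat_lit 5) (nat_lit 300) (nat_lit 5) (nat_lit 419) (nat_lit 408) (nat_lit 373)) (XT.lf (nat_lit 0) (nat_lit 3195559888) (nat_lit 1140) (nat_lit 1585205295) (nat_lit 1216) (nat_lit 4096901294) (nat_lit 284) (nat_lit 5) (nat_lit 299) (nat_lit 5) (nat_lit 300) (nat_lit 5) (nat_lit 420) (nat_lit 408) (nat_lit 372)))) (XT.nd (nat_lit 78) (nat_lit 1444) (nat_lit 0) (XT.lf (nat_lit 0) (nat_lit 2818107028) (nat_lit 1216) (nat_lit 5041127607) (nat_lit 1292) (nat_lit 1215356442) (nat_lit 268) (nat_lit 5) (nat_lit 284) (nat_lit 5) (nat_lit 285) (nat_lit 5) (nat_lit 421) (nat_lit 408) (nat_lit 371)) (XT.nd (nat_lit 78) (nat_lit 608) (nat_lit 0) (XT.lf (nat_lit 0) (nat_lit 1773078118) (nat_lit 836) (nat_lit 6791553350)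 (nat_lit 76) (nat_lit 716289531) (nat_lit 257) (nat_lit 5) (nat_lit 268) (nat_lit 5) (nat_lit 258) (nat_lit 5) (nat_lit 422) (nat_lit 408) (nat_lit 370)) (XT.lf (nat_lit 0) (nat_lit 2185570185) (nat_lit 608) (nat_lit 2733699616) (nat_lit 684) (nat_lit 4576956546) (nat_lit 249) (nat_lit 5) (nat_lit 257) (nat_lit 5) (nat_lit 258) (nat_lit 5) (nat_lit 423) (nat_lit 408) (nat_lit 369))))) (XT.nd (nat_lit 234) (nat_lit 2052) (nat_lit 0) (XT.nd (nat_lit 78) (nat_lit 1140) (nat_lit 0) (XT.lf (nat_lit 0) (nat_lit 1936751043) (nat_lit 608) (nat_lit 6308133541) (nat_lit 684) (nat_lit 1476771877) (nat_lit 241) (nat_lit 5) (nat_lit 249) (nat_lit 5) (nat_lit 250) (nat_lit 5) (nat_lit 424) (nat_lit 408) (nat_lit 368)) (XT.nd (nat_lit 78) (nat_lit 532) (nat_lit 0) (XT.lf (nat_lit 0) (nat_lit 1731453328) (nat_lit 532) (nat_lit 35651493) (nat_lit 608) (nat_lit 8190059993) (nat_lit 233) (nat_lit 5) (nat_lit 240)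 (nat_lit 5) (nat_lit 241) (nat_lit 5) (nat_lit 425) (nat_lit 408) (nat_lit 367)) (XT.lf (nat_lit 0) (nat_lit 1535557896) (nat_lit 532) (nat_lit 3672806334) (nat_lit 608) (nat_lit 4993693959) (nat_lit 226) (nat_lit 5) (nat_lit 233) (nat_lit 5) (nat_lit 234) (nat_lit 5) (nat_lit 426) (nat_lit 408) (nat_lit 366)))) (XT.nd (nat_lit 156) (nat_lit 912) (nat_lit 0) (XT.nd (nat_lit 78) (nat_lit 608) (nat_lit 0) (XT.lf (nat_lit 0) (nat_lit 1397955221) (nat_lit 532) (nat_lit 7461738171) (nat_lit 608) (nat_lit 1598381847) (nat_lit 219) (nat_lit 5) (nat_lit 226) (nat_lit 5) (nat_lit 227) (nat_lit 5) (nat_lit 427) (nat_lit 408) (nat_lit 365)) (XT.lf (nat_lit 0) (nat_lit 1292202507) (nat_lit 532) (nat_lit 688395582) (nat_lit 608) (nat_lit 8744177276) (nat_lit 211) (nat_lit 5) (nat_lit 218) (nat_lit 5) (nat_lit 219) (nat_lit 5) (nat_lit 428) (nat_lit 408) (nat_lit 364))) (XT.nd (nat_lit 78) (nat_lit 456) (nat_lit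 0) (XT.lf (nat_lit 0) (nat_lit 1195714507) (nat_lit 456) (nat_lit 4593307222) (nat_lit 532) (nat_lit 5212824367) (nat_lit 205) (nat_lit 5) (nat_lit 211) (nat_lit 5) (nat_lit 212) (nat_lit 5) (nat_lit 429) (nat_lit 408) (nat_lit 363)) (XT.lf (nat_lit 0) (nat_lit 1155056543) (nat_lit 456) (nat_lit 8692167802) (nat_lit 532) (nat_lit 1443781396) (nat_lit 199) (nat_lit 5) (nat_lit 205) (nat_lit 5) (nat_lit 206) (nat_lit 5) (nat_lit 430) (nat_lit 408) (nat_lit 362))))))))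
noncomputable def xc63 : XT := (XT.nd (nat_lit 1950) (nat_lit 3876) (nat_lit 0) (XT.nd (nat_lit 936) (nat_lit 3268) (nat_lit 0) (XT.nd (nat_lit 468) (nat_lit 2052) (nat_lit 0) (XT.nd (nat_lit 234) (nat_lit 1292) (nat_lit 0) (XT.nd (nat_lit 78) (nat_lit 836) (nat_lit 0) (XT.lf (nat_lit 0) (nat_lit 1131633754) (nat_lit 456) (nat_lit 1413144591) (nat_lit 532) (nat_lit 9046731532) (nat_lit 192) (nat_lit 5) (nat_lit 198) (nat_lit 5) (nat_lit 199) (nat_lit 5) (nat_lit 431) (nat_lit 408) (nat_lit 361)) (XT.nd (nat_lit 78) (nat_lit 380) (nat_lit 0) (XT.lf (nat_lit 0) (nat_lit 1120965645) (nat_lit 456) (nat_lit 5681879069) (nat_lit 532) (nat_lit 5100781702) (nat_lit 186) (nat_lit 5) (nat_lit 192) (nat_lit 5) (nat_lit 193) (nat_lit 5) (nat_lit 432) (nat_lit 408) (nat_lit 360)) (XT.lf (nat_lit 0) (nat_lit 1164629382) (nat_lit 380) (nat_lit 10188442142) (nat_lit 456) (nat_lit 875913055) (nat_lit 181) (nat_lit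 5) (nat_lit 186) (nat_lit 5) (nat_lit 187) (nat_lit 5) (nat_lit 433) (nat_lit 408) (nat_lit 359)))) (XT.nd (nat_lit 78) (nat_lit 836) (nat_lit 0) (XT.lf (nat_lit 0) (nat_lit 1204241569) (nat_lit 380) (nat_lit 2395595511) (nat_lit 456) (nat_lit 8966486068) (nat_lit 175) (nat_lit 5) (nat_lit 180) (nat_lit 5) (nat_lit 181) (nat_lit 5) (nat_lit 434) (nat_lit 408) (nat_lit 358)) (XT.nd (nat_lit 78) (nat_lit 456) (nat_lit 0) (XT.lf (nat_lit 0) (nat_lit 1266377927) (nat_lit 380) (nat_lit 7128302002) (nat_lit 456) (nat_lit 4522197831) (nat_lit 170) (nat_lit 5) (nat_lit 175) (nat_lit 5) (nat_lit 176) (nat_lit 5) (nat_lit 435) (nat_lit 408) (nat_lit 357)) (XT.lf (nat_lit 0) (nat_lit 240517949) (nat_lit 456) (nat_lit 11902597765) (nat_lit 76) (nat_lit 1138842906) (nat_lit 164) (nat_lit 5) (nat_lit 170) (nat_lit 5) (nat_lit 165) (nat_lit 5) (nat_lit 436) (nat_lit 408) (nat_lit 356))))) (XT.nd (nat_lit 234)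 (nat_lit 988) (nat_lit 0) (XT.nd (nat_lit 78) (nat_lit 760) (nat_lit 0) (XT.lf (nat_lit 0) (nat_lit 1461304229) (nat_lit 304) (nat_lit 3828860105) (nat_lit 380) (nat_lit 8369526815) (nat_lit 160) (nat_lit 5) (nat_lit 164) (nat_lit 5) (nat_lit 165) (nat_lit 5) (nat_lit 437) (nat_lit 408) (nat_lit 355)) (XT.nd (nat_lit 78) (nat_lit 380) (nat_lit 0) (XT.lf (nat_lit 0) (nat_lit 1582063822) (nat_lit 380) (nat_lit 9132665377) (nat_lit 456) (nat_lit 3337918000) (nat_lit 155) (nat_lit 5) (nat_lit 160) (nat_lit 5) (nat_lit 161) (nat_lit 5) (nat_lit 438) (nat_lit 408) (nat_lit 354)) (XT.lf (nat_lit 0) (nat_lit 1731520344) (nat_lit 304) (nat_lit 295844685) (nat_lit 380) (nat_lit 12433732685) (nat_lit 150) (nat_lit 5) (nat_lit 154) (nat_lit 5) (nat_lit 155) (nat_lit 5) (nat_lit 439) (nat_lit 408) (nat_lit 353)))) (XT.nd (nat_lit 78) (nat_lit 684) (nat_lit 0) (XT.lf (nat_lit 0) (nat_lit 1845248516) (nat_lit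 304) (nat_lit 5920826432) (nat_lit 380) (nat_lit 7117687253) (nat_lit 146) (nat_lit 5) (nat_lit 150) (nat_lit 5) (nat_lit 151) (nat_lit 5) (nat_lit 440) (nat_lit 408) (nat_lit 352)) (XT.nd (nat_lit 78) (nat_lit 380) (nat_lit 0) (XT.lf (nat_lit 0) (nat_lit 2007262429) (nat_lit 304) (nat_lit 11912870675) (nat_lit 380) (nat_lit 1403582796) (nat_lit 142) (nat_lit 5) (nat_lit 146) (nat_lit 5) (nat_lit 147) (nat_lit 5) (nat_lit 441) (nat_lit 408) (nat_lit 351)) (XT.lf (nat_lit 0) (nat_lit 2147491916) (nat_lit 304) (nat_lit 2518014360) (nat_lit 380) (nat_lit 11114074245) (nat_lit 137) (nat_lit 5) (nat_lit 141) (nat_lit 5) (nat_lit 142) (nat_lit 5) (nat_lit 442) (nat_lit 408) (nat_lit 350)))))) (XT.nd (nat_lit 468) (nat_lit 1596) (nat_lit 0) (XT.nd (nat_lit 234) (nat_lit 836) (nat_lit 0) (XT.nd (nat_lit 78) (nat_lit 608) (nat_lit 0) (XT.lf (nat_lit 0) (nat_lit 2282945058) (nat_lit 228) (nat_lit 8902015772)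 (nat_lit 304) (nat_lit 5067589829) (nat_lit 134) (nat_lit 5) (nat_lit 137) (nat_lit 5) (nat_lit 138) (nat_lit 5) (nat_lit 443) (nat_lit 408) (nat_lit 349)) (XT.nd (nat_lit 78) (nat_lit 228) (nat_lit 0) (XT.lf (nat_lit 0) (nat_lit 1403226701) (nat_lit 380) (nat_lit 14295350048) (nat_lit 76) (nat_lit 1045819622) (nat_lit 129) (nat_lit 5) (nat_lit 134) (nat_lit 5) (nat_lit 130) (nat_lit 5) (nat_lit 444) (nat_lit 408) (nat_lit 348)) (XT.lf (nat_lit 0) (nat_lit 2549527757) (nat_lit 228) (nat_lit 5751315668) (nat_lit 304) (nat_lit 8952250260) (nat_lit 126) (nat_lit 5) (nat_lit 129) (nat_lit 5) (nat_lit 130) (nat_lit 5) (nat_lit 445) (nat_lit 408) (nat_lit 347)))) (XT.nd (nat_lit 78) (nat_lit 532) (nat_lit 0) (XT.lf (nat_lit 0) (nat_lit 2677503237) (nat_lit 304) (nat_lit 13034269319) (nat_lit 380) (nat_lit 2070406545) (nat_lit 122) (nat_lit 5) (nat_lit 126) (nat_lit 5) (nat_lit 127) (nat_lit 5) (nat_lit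 446) (nat_lit 408) (nat_lit 346)) (XT.nd (nat_lit 78) (nat_lit 228) (nat_lit 0) (XT.lf (nat_lit 0) (nat_lit 2767175482) (nat_lit 228) (nat_lit 2475404702) (nat_lit 304) (nat_lit 13088027962) (nat_lit 118) (nat_lit 5) (nat_lit 121) (nat_lit 5) (nat_lit 122) (nat_lit 5) (nat_lit 447) (nat_lit 408) (nat_lit 345)) (XT.lf (nat_lit 0) (nat_lit 2817919363) (nat_lit 228) (nat_lit 10279270263) (nat_lit 304) (nat_lit 5802095711) (nat_lit 115) (nat_lit 5) (nat_lit 118) (nat_lit 5) (nat_lit 119) (nat_lit 5) (nat_lit 448) (nat_lit 408) (nat_lit 344))))) (XT.nd (nat_lit 234) (nat_lit 912) (nat_lit 0) (XT.nd (nat_lit 78) (nat_lit 380) (nat_lit 0) (XT.lf (nat_lit 0) (nat_lit 1987937869) (nat_lit 304) (nat_lit 16612628231) (nat_lit 76) (nat_lit 890026307) (nat_lit 111) (nat_lit 5) (nat_lit 115) (nat_lit 5) (nat_lit 112) (nat_lit 5) (nat_lit 449) (nat_lit 408) (nat_lit 343)) (XT.nd (nat_lit 78) (nat_lit 152) (nat_lit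 0) (XT.lf (nat_lit 0) (nat_lit 2830170593) (nat_lit 228) (nat_lit 7470428533) (nat_lit 304) (nat_lit 9801553435) (nat_lit 108) (nat_lit 5) (nat_lit 111) (nat_lit 5) (nat_lit 112) (nat_lit 5) (nat_lit 450) (nat_lit 408) (nat_lit 342)) (XT.lf (nat_lit 0) (nat_lit 2790527706) (nat_lit 152) (nat_lit 16433500333) (nat_lit 228) (nat_lit 1514413211) (nat_lit 106) (nat_lit 5) (nat_lit 108) (nat_lit 5) (nat_lit 109) (nat_lit 5) (nat_lit 451) (nat_lit 408) (nat_lit 341)))) (XT.nd (nat_lit 156) (nat_lit 456) (nat_lit 0) (XT.nd (nat_lit 78) (nat_lit 152) (nat_lit 0) (XT.lf (nat_lit 0) (nat_lit 2647764123) (nat_lit 228) (nat_lit 4635568898) (nat_lit 304) (nat_lit 14114048126) (nat_lit 102) (nat_lit 5) (nat_lit 105) (nat_lit 5) (nat_lit 106) (nat_lit 5) (nat_lit 452) (nat_lit 408) (nat_lit 340)) (XT.lf (nat_lit 0) (nat_lit 2448264467) (nat_lit 152) (nat_lit 14283522344) (nat_lit 228) (nat_lit 5349771205) (nat_lit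 100) (nat_lit 5) (nat_lit 102) (nat_lit 5) (nat_lit 103) (nat_lit 5) (nat_lit 453) (nat_lit 408) (nat_lit 339))) (XT.nd (nat_lit 78) (nat_lit 152) (nat_lit 0) (XT.lf (nat_lit 0) (nat_lit 2189494745) (nat_lit 228) (nat_lit 1808956820) (nat_lit 304) (nat_lit 18793757466) (nat_lit 96) (nat_lit 5) (nat_lit 99) (nat_lit 5) (nat_lit 100) (nat_lit 5) (nat_lit 454) (nat_lit 408) (nat_lit 338)) (XT.lf (nat_lit 0) (nat_lit 1781519421) (nat_lit 152) (nat_lit 12211915175) (nat_lit 228) (nat_lit 9534672782) (nat_lit 94) (nat_lit 5) (nat_lit 96) (nat_lit 5) (nat_lit 97) (nat_lit 5) (nat_lit 455) (nat_lit 408) (nat_lit 337))))))) (XT.nd (nat_lit 1014) (nat_lit 1596) (nat_lit 0) (XT.nd (nat_lit 468) (nat_lit 1216) (nat_lit 0) (XT.nd (nat_lit 234) (nat_lit 608) (nat_lit 0) (XT.nd (nat_lit 78) (nat_lit 152) (nat_lit 0) (XT.lf (nat_lit 0) (nat_lit 398593484) (nat_lit 304) (nat_lit 22947391820) (nat_lit 76) (nat_lit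 948318074) (nat_lit 90) (nat_lit 5) (nat_lit 94) (nat_lit 5) (nat_lit 91) (nat_lit 5) (nat_lit 456) (nat_lit 408) (nat_lit 336)) (XT.nd (nat_lit 78) (nat_lit 0) (nat_lit 0) (XT.lf (nat_lit 0) (nat_lit 681213374) (nat_lit 152) (nat_lit 10268922539) (nat_lit 228) (nat_lit 14136280165) (nat_lit 88) (nat_lit 5) (nat_lit 90) (nat_lit 5) (nat_lit 91) (nat_lit 5) (nat_lit 457) (nat_lit 408) (nat_lit 335)) (XT.lf (nat_lit 0) (nat_lit 22263132440) (nat_lit 228) (nat_lit 42604997) (nat_lit 76) (nat_lit 3605383636) (nat_lit 88) (nat_lit 5) (nat_lit 91) (nat_lit 5) (nat_lit 89) (nat_lit 5) (nat_lit 458) (nat_lit 408) (nat_lit 334)))) (XT.nd (nat_lit 78) (nat_lit 380) (nat_lit 0) (XT.lf (nat_lit 0) (nat_lit 7540358814) (nat_lit 228) (nat_lit 965639565) (nat_lit 76) (nat_lit 18259361254) (nat_lit 85) (nat_lit 5) (nat_lit 88) (nat_lit 5) (nat_lit 86) (nat_lit 5) (nat_lit 459) (nat_lit 408) (nat_lit 333)) (XT.nd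 (nat_lit 78) (nat_lit 228) (nat_lit 0) (XT.lf (nat_lit 0) (nat_lit 19485315554) (nat_lit 228) (nat_lit 2040420949) (nat_lit 76) (nat_lit 6127313534) (nat_lit 83) (nat_lit 5) (nat_lit 86) (nat_lit 5) (nat_lit 84) (nat_lit 5) (nat_lit 460) (nat_lit 408) (nat_lit 332)) (XT.lf (nat_lit 0) (nat_lit 3682811630) (nat_lit 228) (nat_lit 3310577702) (nat_lit 76) (nat_lit 21581517635) (nat_lit 80) (nat_lit 5) (nat_lit 83) (nat_lit 5) (nat_lit 81) (nat_lit 5) (nat_lit 461) (nat_lit 408) (nat_lit 331))))) (XT.nd (nat_lit 234) (nat_lit 684) (nat_lit 0) (XT.nd (nat_lit 78) (nat_lit 380) (nat_lit 0) (XT.lf (nat_lit 0) (nat_lit 16266692008) (nat_lit 228) (nat_lit 4840997283) (nat_lit 76) (nat_lit 8423451849) (nat_lit 78) (nat_lit 5) (nat_lit 81) (nat_lit 5) (nat_lit 79) (nat_lit 5) (nat_lit 462) (nat_lit 408) (nat_lit 330)) (XT.nd (nat_lit 78) (nat_lit 228) (nat_lit 0) (XT.lf (nat_lit 0) (nat_lit 23963266257)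 (nat_lit 152) (nat_lit 5818858243) (nat_lit 228) (nat_lit 743993969) (nat_lit 76) (nat_lit 5) (nat_lit 78) (nat_lit 5) (nat_lit 79) (nat_lit 5) (nat_lit 463) (nat_lit 408) (nat_lit 329)) (XT.lf (nat_lit 0) (nat_lit 12501688257) (nat_lit 228) (nat_lit 8651512252) (nat_lit 76) (nat_lit 10403832933) (nat_lit 73) (nat_lit 5) (nat_lit 76) (nat_lit 5) (nat_lit 74) (nat_lit 5) (nat_lit 464) (nat_lit 408) (nat_lit 328)))) (XT.nd (nat_lit 156) (nat_lit 304) (nat_lit 0) (XT.nd (nat_lit 78) (nat_lit 228) (nat_lit 0) (XT.lf (nat_lit 0) (nat_lit 21645146477) (nat_lit 152) (nat_lit 5052743965) (nat_lit 228) (nat_lit 5932275982) (nat_lit 71) (nat_lit 5) (nat_lit 73) (nat_lit 5) (nat_lit 74) (nat_lit 5) (nat_lit 465) (nat_lit 408) (nat_lit 327)) (XT.lf (nat_lit 0) (nat_lit 8063761929) (nat_lit 228) (nat_lit 13720734764) (nat_lit 76) (nat_lit 11959100134) (nat_lit 68) (nat_lit 5) (nat_lit 71) (nat_lit 5) (nat_lit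 69) (nat_lit 5) (nat_lit 466) (nat_lit 408) (nat_lit 326))) (XT.nd (nat_lit 78) (nat_lit 152) (nat_lit 0) (XT.lf (nat_lit 0) (nat_lit 18087003428) (nat_lit 152) (nat_lit 4859937259) (nat_lit 228) (nat_lit 11954696876) (nat_lit 66) (nat_lit 5) (nat_lit 68) (nat_lit 5) (nat_lit 69) (nat_lit 5) (nat_lit 467) (nat_lit 408) (nat_lit 325)) (XT.lf (nat_lit 0) (nat_lit 2801617706) (nat_lit 152) (nat_lit 20346710057) (nat_lit 76) (nat_lit 12956759925) (nat_lit 64) (nat_lit 5) (nat_lit 66) (nat_lit 5) (nat_lit 65) (nat_lit 5) (nat_lit 468) (nat_lit 408) (nat_lit 324)))))) (XT.nd (nat_lit 468) (nat_lit 836) (nat_lit 0) (XT.nd (nat_lit 234) (nat_lit 304) (nat_lit 0) (XT.nd (nat_lit 78) (nat_lit 304) (nat_lit 0) (XT.lf (nat_lit 0) (nat_lit 12976278272) (nat_lit 152) (nat_lit 5394241798) (nat_lit 228) (nat_lit 18984980442) (nat_lit 62) (nat_lit 5) (nat_lit 64) (nat_lit 5) (nat_lit 65) (nat_lit 5) (nat_lit 469)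 (nat_lit 408) (nat_lit 323)) (XT.nd (nat_lit 78) (nat_lit 228) (nat_lit 0) (XT.lf (nat_lit 0) (nat_lit 9736542027) (nat_lit 76) (nat_lit 25385556060) (nat_lit 152) (nat_lit 3534210400) (nat_lit 61) (nat_lit 5) (nat_lit 62) (nat_lit 5) (nat_lit 63) (nat_lit 4) (nat_lit 470) (nat_lit 408) (nat_lit 322)) (XT.lf (nat_lit 0) (nat_lit 5938359100) (nat_lit 152) (nat_lit 6840455012) (nat_lit 228) (nat_lit 27229565027) (nat_lit 58) (nat_lit 5) (nat_lit 60) (nat_lit 5) (nat_lit 61) (nat_lit 5) (nat_lit 471) (nat_lit 408) (nat_lit 321)))) (XT.nd (nat_lit 78) (nat_lit 228) (nat_lit 0) (XT.lf (nat_lit 0) (nat_lit 1544052309) (nat_lit 76) (nat_lit 28700905223) (nat_lit 152) (nat_lit 11169730464) (nat_lit 57) (nat_lit 5) (nat_lit 58) (nat_lit 5) (nat_lit 59) (nat_lit 4) (nat_lit 472) (nat_lit 408) (nat_lit 320)) (XT.nd (nat_lit 78) (nat_lit 152) (nat_lit 0) (XT.lf (nat_lit 0) (nat_lit 5978754692) (nat_lit 152)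 (nat_lit 3406955954) (nat_lit 76) (nat_lit 33492058496) (nat_lit 56) (nat_lit 5) (nat_lit 58) (nat_lit 5) (nat_lit 57) (nat_lit 5) (nat_lit 473) (nat_lit 408) (nat_lit 319)) (XT.lf (nat_lit 0) (nat_lit 24179977394) (nat_lit 228) (nat_lit 9099361230) (nat_lit 76) (nat_lit 11118559472) (nat_lit 54) (nat_lit 5) (nat_lit 57) (nat_lit 5) (nat_lit 55) (nat_lit 4) (nat_lit 474) (nat_lit 408) (nat_lit 318))))) (XT.nd (nat_lit 234) (nat_lit 456) (nat_lit 0) (XT.nd (nat_lit 78) (nat_lit 304) (nat_lit 0) (XT.lf (nat_lit 0) (nat_lit 30470508481) (nat_lit 76) (nat_lit 13219134231) (nat_lit 152) (nat_lit 2292440395) (nat_lit 53) (nat_lit 5) (nat_lit 54) (nat_lit 5) (nat_lit 55) (nat_lit 4) (nat_lit 475) (nat_lit 408) (nat_lit 317)) (XT.nd (nat_lit 78) (nat_lit 76) (nat_lit 0) (XT.lf (nat_lit 0) (nat_lit 16596098457) (nat_lit 228) (nat_lit 22865805864) (nat_lit 76) (nat_lit 8167127394) (nat_lit 50) (nat_lit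 5) (nat_lit 53) (nat_lit 5) (nat_lit 51) (nat_lit 4) (nat_lit 476) (nat_lit 408) (nat_lit 316)) (XT.lf (nat_lit 0) (nat_lit 18174010230) (nat_lit 76) (nat_lit 18653821286) (nat_lit 152) (nat_lit 12516430889) (nat_lit 49) (nat_lit 5) (nat_lit 50) (nat_lit 5) (nat_lit 51) (nat_lit 4) (nat_lit 477) (nat_lit 408) (nat_lit 315)))) (XT.nd (nat_lit 156) (nat_lit 152) (nat_lit 0) (XT.nd (nat_lit 78) (nat_lit 76) (nat_lit 0) (XT.lf (nat_lit 0) (nat_lit 7142702895) (nat_lit 228) (nat_lit 40466946643) (nat_lit 76) (nat_lit 3523050007) (nat_lit 46) (nat_lit 5) (nat_lit 49) (nat_lit 5) (nat_lit 47) (nat_lit 4) (nat_lit 478) (nat_lit 408) (nat_lit 314)) (XT.lf (nat_lit 0) (nat_lit 1920425163) (nat_lit 76) (nat_lit 26116031566) (nat_lit 152) (nat_lit 24955069207) (nat_lit 45) (nat_lit 5) (nat_lit 46) (nat_lit 5) (nat_lit 47) (nat_lit 4) (nat_lit 479) (nat_lit 408) (nat_lit 313))) (XT.nd (nat_lit 78) (nat_lit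 152) (nat_lit 0) (XT.lf (nat_lit 0) (nat_lit 47230789844) (nat_lit 76) (nat_lit 3138686539) (nat_lit 152) (nat_lit 4561980699) (nat_lit 45) (nat_lit 5) (nat_lit 46) (nat_lit 5) (nat_lit 47) (nat_lit 4) (nat_lit 480) (nat_lit 408) (nat_lit 312)) (XT.lf (nat_lit 0) (nat_lit 17076584707) (nat_lit 152) (nat_lit 18775009040) (nat_lit 76) (nat_lit 21095293114) (nat_lit 43) (nat_lit 5) (nat_lit 45) (nat_lit 5) (nat_lit 44) (nat_lit 4) (nat_lit 481) (nat_lit 408) (nat_lit 311))))))))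
noncomputable def xc64 : XT := (XT.nd (nat_lit 57486) (nat_lit 0) (nat_lit 8740) (XT.nd (nat_lit 936) (nat_lit 304) (nat_lit 0) (XT.nd (nat_lit 468) (nat_lit 456) (nat_lit 0) (XT.nd (nat_lit 234) (nat_lit 228) (nat_lit 0) (XT.nd (nat_lit 78) (nat_lit 228) (nat_lit 0) (XT.lf (nat_lit 0) (nat_lit 27863760315) (nat_lit 76) (nat_lit 12198721156) (nat_lit 152) (nat_lit 18988459745) (nat_lit 42) (nat_lit 5) (nat_lit 43) (nat_lit 5) (nat_lit 44) (nat_lit 4) (nat_lit 482) (nat_lit 408) (nat_lit 310)) (XT.nd (nat_lit 78) (nat_lit 76) (nat_lit 0) (XT.lf (nat_lit 0) (nat_lit 3336013969) (nat_lit 152) (nat_lit 45154689609) (nat_lit 76) (nat_lit 12754972443) (nat_lit 40) (nat_lit 5) (nat_lit 42) (nat_lit 5) (nat_lit 41) (nat_lit 4) (nat_lit 483) (nat_lit 408) (nat_lit 309)) (XT.lf (nat_lit 0) (nat_lit 2537545364) (nat_lit 76) (nat_lit 24301984729) (nat_lit 152) (nat_lit 36691312064) (nat_lit 39) (nat_lit 5)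 (nat_lit 40) (nat_lit 5) (nat_lit 41) (nat_lit 4) (nat_lit 484) (nat_lit 408) (nat_lit 308)))) (XT.nd (nat_lit 78) (nat_lit 228) (nat_lit 0) (XT.lf (nat_lit 0) (nat_lit 51978743626) (nat_lit 152) (nat_lit 12411057219) (nat_lit 0) (nat_lit 1526650681) (nat_lit 39) (nat_lit 5) (nat_lit 41) (nat_lit 4) (nat_lit 39) (nat_lit 4) (nat_lit 485) (nat_lit 408) (nat_lit 307)) (XT.nd (nat_lit 78) (nat_lit 76) (nat_lit 0) (XT.lf (nat_lit 0) (nat_lit 10367755533) (nat_lit 152) (nat_lit 29423075803) (nat_lit 76) (nat_lit 28609387887) (nat_lit 37) (nat_lit 5) (nat_lit 39) (nat_lit 5) (nat_lit 38) (nat_lit 4) (nat_lit 486) (nat_lit 408) (nat_lit 306)) (XT.lf (nat_lit 0) (nat_lit 22450786207) (nat_lit 76) (nat_lit 13478818588) (nat_lit 152) (nat_lit 35064550127) (nat_lit 36) (nat_lit 5) (nat_lit 37) (nat_lit 5) (nat_lit 38) (nat_lit 4) (nat_lit 487) (nat_lit 408) (nat_lit 305))))) (XT.nd (nat_lit 234) (nat_lit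 228) (nat_lit 0) (XT.nd (nat_lit 78) (nat_lit 152) (nat_lit 0) (XT.lf (nat_lit 0) (nat_lit 3723655255) (nat_lit 76) (nat_lit 59505802915) (nat_lit 76) (nat_lit 10474532368) (nat_lit 35) (nat_lit 4) (nat_lit 36) (nat_lit 5) (nat_lit 36) (nat_lit 4) (nat_lit 488) (nat_lit 408) (nat_lit 304)) (XT.nd (nat_lit 78) (nat_lit 76) (nat_lit 0) (XT.lf (nat_lit 0) (nat_lit 15668834347) (nat_lit 152) (nat_lit 17238235974) (nat_lit 76) (nat_lit 43619124378) (nat_lit 34) (nat_lit 5) (nat_lit 36) (nat_lit 5) (nat_lit 35) (nat_lit 4) (nat_lit 489) (nat_lit 408) (nat_lit 303)) (XT.lf (nat_lit 0) (nat_lit 38759337329) (nat_lit 76) (nat_lit 4501404652) (nat_lit 152) (nat_lit 36214916204) (nat_lit 33) (nat_lit 5) (nat_lit 34) (nat_lit 5) (nat_lit 35) (nat_lit 4) (nat_lit 490) (nat_lit 408) (nat_lit 302)))) (XT.nd (nat_lit 78) (nat_lit 152) (nat_lit 0) (XT.lf (nat_lit 0) (nat_lit 15372878553) (nat_lit 76) (nat_lit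 57413536793) (nat_lit 76) (nat_lit 9769554793) (nat_lit 32) (nat_lit 4) (nat_lit 33) (nat_lit 5) (nat_lit 33) (nat_lit 4) (nat_lit 491) (nat_lit 408) (nat_lit 301)) (XT.nd (nat_lit 78) (nat_lit 76) (nat_lit 0) (XT.lf (nat_lit 0) (nat_lit 18099663723) (nat_lit 152) (nat_lit 10913992488) (nat_lit 76) (nat_lit 56757867710) (nat_lit 31) (nat_lit 5) (nat_lit 33) (nat_lit 5) (nat_lit 32) (nat_lit 4) (nat_lit 492) (nat_lit 408) (nat_lit 300)) (XT.lf (nat_lit 0) (nat_lit 47631239199) (nat_lit 152) (nat_lit 40148007964) (nat_lit 0) (nat_lit 1351578372) (nat_lit 30) (nat_lit 5) (nat_lit 32) (nat_lit 4) (nat_lit 30) (nat_lit 4) (nat_lit 493) (nat_lit 408) (nat_lit 299)))))) (XT.nd (nat_lit 56004) (nat_lit 0) (nat_lit 22724) (XT.nd (nat_lit 234) (nat_lit 76) (nat_lit 0) (XT.nd (nat_lit 78) (nat_lit 152) (nat_lit 0) (XT.lf (nat_lit 0) (nat_lit 19505437963) (nat_lit 76) (nat_lit 59712901546) (nat_lit 76) (nat_lit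 13422384680) (nat_lit 29) (nat_lit 4) (nat_lit 30) (nat_lit 5) (nat_lit 30) (nat_lit 4) (nat_lit 494) (nat_lit 408) (nat_lit 298)) (XT.nd (nat_lit 78) (nat_lit 76) (nat_lit 0) (XT.lf (nat_lit 0) (nat_lit 16148131556) (nat_lit 152) (nat_lit 13520148890) (nat_lit 76) (nat_lit 66641122154) (nat_lit 28) (nat_lit 5) (nat_lit 30) (nat_lit 5) (nat_lit 29) (nat_lit 4) (nat_lit 495) (nat_lit 408) (nat_lit 297)) (XT.lf (nat_lit 0) (nat_lit 47411848965) (nat_lit 152) (nat_lit 50280909607) (nat_lit 0) (nat_lit 2450001686) (nat_lit 27) (nat_lit 5) (nat_lit 29) (nat_lit 4) (nat_lit 27) (nat_lit 4) (nat_lit 496) (nat_lit 408) (nat_lit 296)))) (XT.nd (nat_lit 55614) (nat_lit 0) (nat_lit 24396) (XT.lf (nat_lit 0) (nat_lit 12447287211) (nat_lit 76) (nat_lit 68337534391) (nat_lit 76) (nat_lit 23366582399) (nat_lit 26) (nat_lit 4) (nat_lit 27) (nat_lit 5) (nat_lit 27) (nat_lit 4) (nat_lit 497) (nat_lit 408) (nat_lit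 295)) (XT.nd (nat_lit 78) (nat_lit 0) (nat_lit 0) (XT.lf (nat_lit 0) (nat_lit 244246538) (nat_lit 0) (nat_lit 244246538) (nat_lit 836) (nat_lit 3201609792) (nat_lit 347) (nat_lit 5) (nat_lit 347) (nat_lit 3) (nat_lit 358) (nat_lit 3) (nat_lit 409) (nat_lit 409) (nat_lit 382)) (XT.lf (nat_lit 0) (nat_lit 3531361350) (nat_lit 836) (nat_lit 870872557) (nat_lit 912) (nat_lit 3085855203) (nat_lit 347) (nat_lit 5) (nat_lit 358) (nat_lit 3) (nat_lit 359) (nat_lit 5) (nat_lit 410) (nat_lit 409) (nat_lit 381))))) (XT.nd (nat_lit 234) (nat_lit 836) (nat_lit 0) (XT.nd (nat_lit 78) (nat_lit 836) (nat_lit 0) (XT.lf (nat_lit 76) (nat_lit 5467141052) (nat_lit 0) (nat_lit 644555469) (nat_lit 912) (nat_lit 1492769189) (nat_lit 348) (nat_lit 5) (nat_lit 347) (nat_lit 5) (nat_lit 359) (nat_lit 5) (nat_lit 411) (nat_lit 409) (nat_lit 380)) (XT.nd (nat_lit 78) (nat_lit 0) (nat_lit 0) (XT.lf (nat_lit 0) (nat_lit 1003392111)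 (nat_lit 912) (nat_lit 3359568458) (nat_lit 988) (nat_lit 3365516975) (nat_lit 336) (nat_lit 5) (nat_lit 348) (nat_lit 5) (nat_lit 349) (nat_lit 5) (nat_lit 412) (nat_lit 409) (nat_lit 379)) (XT.lf (nat_lit 76) (nat_lit 3341625559) (nat_lit 0) (nat_lit 166125789) (nat_lit 988) (nat_lit 4353108116) (nat_lit 337) (nat_lit 5) (nat_lit 336) (nat_lit 5) (nat_lit 349) (nat_lit 5) (nat_lit 413) (nat_lit 409) (nat_lit 378)))) (XT.nd (nat_lit 156) (nat_lit 0) (nat_lit 0) (XT.nd (nat_lit 78) (nat_lit 912) (nat_lit 0) (XT.lf (nat_lit 76) (nat_lit 2363155254) (nat_lit 0) (nat_lit 3732393585) (nat_lit 988) (nat_lit 1905603862) (nat_lit 338) (nat_lit 5) (nat_lit 337) (nat_lit 5) (nat_lit 350) (nat_lit 5) (nat_lit 414) (nat_lit 409) (nat_lit 377)) (XT.lf (nat_lit 0) (nat_lit 586868002) (nat_lit 988) (nat_lit 6693146418) (nat_lit 1064) (nat_lit 870223875) (nat_lit 325) (nat_lit 5) (nat_lit 338) (nat_lit 5) (nat_lit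 339) (nat_lit 5) (nat_lit 415) (nat_lit 409) (nat_lit 376))) (XT.nd (nat_lit 78) (nat_lit 0) (nat_lit 76) (XT.lf (nat_lit 76) (nat_lit 580604483) (nat_lit 0) (nat_lit 2556463926) (nat_lit 1064) (nat_lit 5170002459) (nat_lit 326) (nat_lit 5) (nat_lit 325) (nat_lit 5) (nat_lit 339) (nat_lit 5) (nat_lit 416) (nat_lit 409) (nat_lit 375)) (XT.lf (nat_lit 0) (nat_lit 5783383067) (nat_lit 988) (nat_lit 229940966) (nat_lit 1064) (nat_lit 2459395474) (nat_lit 326) (nat_lit 5) (nat_lit 339) (nat_lit 5) (nat_lit 340) (nat_lit 5) (nat_lit 417) (nat_lit 409) (nat_lit 374))))))) (XT.nd (nat_lit 936) (nat_lit 5320) (nat_lit 0) (XT.nd (nat_lit 468) (nat_lit 3496) (nat_lit 0) (XT.nd (nat_lit 234) (nat_lit 3192) (nat_lit 0) (XT.nd (nat_lit 78) (nat_lit 2052) (nat_lit 0) (XT.lf (nat_lit 76) (nat_lit 7675489806) (nat_lit 0) (nat_lit 867937090) (nat_lit 1064) (nat_lit 103812293) (nat_lit 327) (nat_lit 5) (nat_lit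 326) (nat_lit 5) (nat_lit 340) (nat_lit 5) (nat_lit 418) (nat_lit 409) (nat_lit 373)) (XT.nd (nat_lit 78) (nat_lit 1064) (nat_lit 0) (XT.lf (nat_lit 0) (nat_lit 2561657802) (nat_lit 1064) (nat_lit 1699977867) (nat_lit 76) (nat_lit 4568076324) (nat_lit 313) (nat_lit 5) (nat_lit 327) (nat_lit 5) (nat_lit 314) (nat_lit 5) (nat_lit 419) (nat_lit 409) (nat_lit 372)) (XT.lf (nat_lit 0) (nat_lit 5344328297) (nat_lit 1140) (nat_lit 2369784214) (nat_lit 76) (nat_lit 1307610187) (nat_lit 299) (nat_lit 5) (nat_lit 314) (nat_lit 5) (nat_lit 300) (nat_lit 5) (nat_lit 420) (nat_lit 409) (nat_lit 371)))) (XT.nd (nat_lit 78) (nat_lit 2052) (nat_lit 0) (XT.lf (nat_lit 0) (nat_lit 6221017529) (nat_lit 1140) (nat_lit 2060448134) (nat_lit 1216) (nat_lit 941434284) (nat_lit 284) (nat_lit 5) (nat_lit 299) (nat_lit 5) (nat_lit 300) (nat_lit 5) (nat_lit 421) (nat_lit 409) (nat_lit 370)) (XT.nd (nat_lit 78) (nat_lit 760)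 (nat_lit 0) (XT.lf (nat_lit 0) (nat_lit 1910952424) (nat_lit 1292) (nat_lit 3610313275) (nat_lit 76) (nat_lit 3911817989) (nat_lit 267) (nat_lit 5) (nat_lit 284) (nat_lit 5) (nat_lit 268) (nat_lit 5) (nat_lit 422) (nat_lit 409) (nat_lit 369)) (XT.lf (nat_lit 0) (nat_lit 4899141002) (nat_lit 836) (nat_lit 4175292577) (nat_lit 76) (nat_lit 578706722) (nat_lit 257) (nat_lit 5) (nat_lit 268) (nat_lit 5) (nat_lit 258) (nat_lit 5) (nat_lit 423) (nat_lit 409) (nat_lit 368))))) (XT.nd (nat_lit 234) (nat_lit 1672) (nat_lit 0) (XT.nd (nat_lit 78) (nat_lit 1216) (nat_lit 0) (XT.lf (nat_lit 0) (nat_lit 5165958619) (nat_lit 608) (nat_lit 2919643992) (nat_lit 684) (nat_lit 1797153041) (nat_lit 249) (nat_lit 5) (nat_lit 257) (nat_lit 5) (nat_lit 258) (nat_lit 5) (nat_lit 424) (nat_lit 409) (nat_lit 367)) (XT.nd (nat_lit 78) (nat_lit 532) (nat_lit 0) (XT.lf (nat_lit 0) (nat_lit 1316570482) (nat_lit 684) (nat_lit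 5227143073) (nat_lit 76) (nat_lit 3578744831) (nat_lit 240) (nat_lit 5) (nat_lit 249) (nat_lit 5) (nat_lit 241) (nat_lit 5) (nat_lit 425) (nat_lit 409) (nat_lit 366)) (XT.lf (nat_lit 0) (nat_lit 4585451266) (nat_lit 608) (nat_lit 5707258470) (nat_lit 76) (nat_lit 79822754) (nat_lit 233) (nat_lit 5) (nat_lit 241) (nat_lit 5) (nat_lit 234) (nat_lit 5) (nat_lit 426) (nat_lit 409) (nat_lit 365)))) (XT.nd (nat_lit 78) (nat_lit 1140) (nat_lit 0) (XT.lf (nat_lit 0) (nat_lit 4457744490) (nat_lit 532) (nat_lit 3638724087) (nat_lit 608) (nat_lit 2536299243) (nat_lit 226) (nat_lit 5) (nat_lit 233) (nat_lit 5) (nat_lit 234) (nat_lit 5) (nat_lit 427) (nat_lit 409) (nat_lit 364)) (XT.nd (nat_lit 78) (nat_lit 532) (nat_lit 0) (XT.lf (nat_lit 0) (nat_lit 911882911) (nat_lit 608) (nat_lit 6606644693) (nat_lit 76) (nat_lit 3385692067) (nat_lit 218) (nat_lit 5) (nat_lit 226) (nat_lit 5) (nat_lit 219) (nat_lit 5)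 (nat_lit 428) (nat_lit 409) (nat_lit 363)) (XT.lf (nat_lit 0) (nat_lit 4164309844) (nat_lit 532) (nat_lit 377957105) (nat_lit 608) (nat_lit 6644372499) (nat_lit 211) (nat_lit 5) (nat_lit 218) (nat_lit 5) (nat_lit 219) (nat_lit 5) (nat_lit 429) (nat_lit 409) (nat_lit 362)))))) (XT.nd (nat_lit 468) (nat_lit 2584) (nat_lit 0) (XT.nd (nat_lit 234) (nat_lit 1292) (nat_lit 0) (XT.nd (nat_lit 78) (nat_lit 988) (nat_lit 0) (XT.lf (nat_lit 0) (nat_lit 4051543884) (nat_lit 456) (nat_lit 4402333779) (nat_lit 532) (nat_lit 3026326672) (nat_lit 205) (nat_lit 5) (nat_lit 211) (nat_lit 5) (nat_lit 212) (nat_lit 5) (nat_lit 430) (nat_lit 409) (nat_lit 361)) (XT.nd (nat_lit 78) (nat_lit 456) (nat_lit 0) (XT.lf (nat_lit 0) (nat_lit 829634144) (nat_lit 532) (nat_lit 7799998564) (nat_lit 76) (nat_lit 3156443459) (nat_lit 198) (nat_lit 5) (nat_lit 205) (nat_lit 5) (nat_lit 199) (nat_lit 5) (nat_lit 431) (nat_lit 409)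 (nat_lit 360)) (XT.lf (nat_lit 0) (nat_lit 3935322013) (nat_lit 456) (nat_lit 968837897) (nat_lit 532) (nat_lit 7199545605) (nat_lit 192) (nat_lit 5) (nat_lit 198) (nat_lit 5) (nat_lit 199) (nat_lit 5) (nat_lit 432) (nat_lit 409) (nat_lit 359)))) (XT.nd (nat_lit 78) (nat_lit 836) (nat_lit 0) (XT.lf (nat_lit 0) (nat_lit 3906015413) (nat_lit 456) (nat_lit 5393768935) (nat_lit 532) (nat_lit 3133923678) (nat_lit 186) (nat_lit 5) (nat_lit 192) (nat_lit 5) (nat_lit 193) (nat_lit 5) (nat_lit 433) (nat_lit 409) (nat_lit 358)) (XT.nd (nat_lit 78) (nat_lit 380) (nat_lit 0) (XT.lf (nat_lit 0) (nat_lit 1204623490) (nat_lit 456) (nat_lit 8857778855) (nat_lit 76) (nat_lit 2714739163) (nat_lit 180) (nat_lit 5) (nat_lit 186) (nat_lit 5) (nat_lit 181) (nat_lit 5) (nat_lit 434) (nat_lit 409) (nat_lit 357)) (XT.lf (nat_lit 0) (nat_lit 3936551422) (nat_lit 380) (nat_lit 1875044654) (nat_lit 456) (nat_lit 7321741680)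 (nat_lit 175) (nat_lit 5) (nat_lit 180) (nat_lit 5) (nat_lit 181) (nat_lit 5) (nat_lit 435) (nat_lit 409) (nat_lit 356))))) (XT.nd (nat_lit 234) (nat_lit 1444) (nat_lit 0) (XT.nd (nat_lit 78) (nat_lit 760) (nat_lit 0) (XT.lf (nat_lit 0) (nat_lit 3978764994) (nat_lit 380) (nat_lit 6801991864) (nat_lit 456) (nat_lit 2722642563) (nat_lit 170) (nat_lit 5) (nat_lit 175) (nat_lit 5) (nat_lit 176) (nat_lit 5) (nat_lit 436) (nat_lit 409) (nat_lit 355)) (XT.nd (nat_lit 78) (nat_lit 304) (nat_lit 0) (XT.lf (nat_lit 0) (nat_lit 2175892089) (nat_lit 456) (nat_lit 9834762049) (nat_lit 76) (nat_lit 1877395041) (nat_lit 164) (nat_lit 5) (nat_lit 170) (nat_lit 5) (nat_lit 165) (nat_lit 5) (nat_lit 437) (nat_lit 409) (nat_lit 354)) (XT.lf (nat_lit 0) (nat_lit 4121001670) (nat_lit 304) (nat_lit 3290295403) (nat_lit 380) (nat_lit 6875387589) (nat_lit 160) (nat_lit 5) (nat_lit 164) (nat_lit 5) (nat_lit 165) (nat_lit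 5) (nat_lit 438) (nat_lit 409) (nat_lit 353)))) (XT.nd (nat_lit 156) (nat_lit 684) (nat_lit 0) (XT.nd (nat_lit 78) (nat_lit 380) (nat_lit 0) (XT.lf (nat_lit 0) (nat_lit 4221223890) (nat_lit 380) (nat_lit 8828747557) (nat_lit 456) (nat_lit 1651044549) (nat_lit 155) (nat_lit 5) (nat_lit 160) (nat_lit 5) (nat_lit 161) (nat_lit 5) (nat_lit 439) (nat_lit 409) (nat_lit 352)) (XT.lf (nat_lit 0) (nat_lit 3888405227) (nat_lit 380) (nat_lit 10795452294) (nat_lit 76) (nat_lit 447247509) (nat_lit 150) (nat_lit 5) (nat_lit 155) (nat_lit 5) (nat_lit 151) (nat_lit 5) (nat_lit 440) (nat_lit 409) (nat_lit 351))) (XT.nd (nat_lit 78) (nat_lit 380) (nat_lit 0) (XT.lf (nat_lit 0) (nat_lit 4431528602) (nat_lit 304) (nat_lit 5425546001) (nat_lit 380) (nat_lit 5719549679) (nat_lit 146) (nat_lit 5) (nat_lit 150) (nat_lit 5) (nat_lit 151) (nat_lit 5) (nat_lit 441) (nat_lit 409) (nat_lit 350)) (XT.lf (nat_lit 0) (nat_lit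 224141936) (nat_lit 380) (nat_lit 11469670199) (nat_lit 76) (nat_lit 4346213519) (nat_lit 141) (nat_lit 5) (nat_lit 146) (nat_lit 5) (nat_lit 142) (nat_lit 5) (nat_lit 442) (nat_lit 409) (nat_lit 349))))))))
noncomputable def xc65 : XT := (XT.nd (nat_lit 1950) (nat_lit 2812) (nat_lit 0) (XT.nd (nat_lit 936) (nat_lit 2432) (nat_lit 0) (XT.nd (nat_lit 468) (nat_lit 1368) (nat_lit 0) (XT.nd (nat_lit 234) (nat_lit 836) (nat_lit 0) (XT.nd (nat_lit 78) (nat_lit 608) (nat_lit 0) (XT.lf (nat_lit 0) (nat_lit 4681688498) (nat_lit 304) (nat_lit 1830083542) (nat_lit 380) (nat_lit 10008181910) (nat_lit 137) (nat_lit 5) (nat_lit 141) (nat_lit 5) (nat_lit 142) (nat_lit 5) (nat_lit 443) (nat_lit 409) (nat_lit 348)) (XT.nd (nat_lit 78) (nat_lit 380) (nat_lit 0) (XT.lf (nat_lit 0) (nat_lit 4793963459) (nat_lit 228) (nat_lit 8516917506) (nat_lit 304) (nat_lit 3707091461) (nat_lit 134) (nat_lit 5) (nat_lit 137) (nat_lit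 5) (nat_lit 138) (nat_lit 5) (nat_lit 444) (nat_lit 409) (nat_lit 347)) (XT.lf (nat_lit 0) (nat_lit 3011068467) (nat_lit 380) (nat_lit 12613058269) (nat_lit 76) (nat_lit 1911168930) (nat_lit 129) (nat_lit 5) (nat_lit 134) (nat_lit 5) (nat_lit 130) (nat_lit 5) (nat_lit 445) (nat_lit 409) (nat_lit 346)))) (XT.nd (nat_lit 78) (nat_lit 608) (nat_lit 0) (XT.lf (nat_lit 0) (nat_lit 5005352204) (nat_lit 228) (nat_lit 5197372452) (nat_lit 304) (nat_lit 7868237485) (nat_lit 126) (nat_lit 5) (nat_lit 129) (nat_lit 5) (nat_lit 130) (nat_lit 5) (nat_lit 446) (nat_lit 409) (nat_lit 345)) (XT.nd (nat_lit 78) (nat_lit 304) (nat_lit 0) (XT.lf (nat_lit 0) (nat_lit 5108630041) (nat_lit 304) (nat_lit 12834554834) (nat_lit 380) (nat_lit 684556034) (nat_lit 122) (nat_lit 5) (nat_lit 126) (nat_lit 5) (nat_lit 127) (nat_lit 5) (nat_lit 447) (nat_lit 409) (nat_lit 344)) (XT.lf (nat_lit 0) (nat_lit 5165328160) (nat_lit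 228) (nat_lit 1751872933) (nat_lit 304) (nat_lit 12287403262) (nat_lit 118) (nat_lit 5) (nat_lit 121) (nat_lit 5) (nat_lit 122) (nat_lit 5) (nat_lit 448) (nat_lit 409) (nat_lit 343))))) (XT.nd (nat_lit 234) (nat_lit 608) (nat_lit 0) (XT.nd (nat_lit 78) (nat_lit 532) (nat_lit 0) (XT.lf (nat_lit 0) (nat_lit 5187236344) (nat_lit 228) (nat_lit 9939221029) (nat_lit 304) (nat_lit 4676408135) (nat_lit 115) (nat_lit 5) (nat_lit 118) (nat_lit 5) (nat_lit 119) (nat_lit 5) (nat_lit 449) (nat_lit 409) (nat_lit 342)) (XT.nd (nat_lit 78) (nat_lit 228) (nat_lit 0) (XT.lf (nat_lit 0) (nat_lit 3438618348) (nat_lit 304) (nat_lit 15219458417) (nat_lit 76) (nat_lit 1766366348) (nat_lit 111) (nat_lit 5) (nat_lit 115) (nat_lit 5) (nat_lit 112) (nat_lit 5) (nat_lit 450) (nat_lit 409) (nat_lit 341)) (XT.lf (nat_lit 0) (nat_lit 5131735532) (nat_lit 228) (nat_lit 6991594082) (nat_lit 304) (nat_lit 8944565839) (nat_lit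 108) (nat_lit 5) (nat_lit 111) (nat_lit 5) (nat_lit 112) (nat_lit 5) (nat_lit 451) (nat_lit 409) (nat_lit 340)))) (XT.nd (nat_lit 78) (nat_lit 456) (nat_lit 0) (XT.lf (nat_lit 0) (nat_lit 5058470765) (nat_lit 152) (nat_lit 16400450602) (nat_lit 228) (nat_lit 278103835) (nat_lit 106) (nat_lit 5) (nat_lit 108) (nat_lit 5) (nat_lit 109) (nat_lit 5) (nat_lit 452) (nat_lit 409) (nat_lit 339)) (XT.nd (nat_lit 78) (nat_lit 152) (nat_lit 0) (XT.lf (nat_lit 0) (nat_lit 4872547008) (nat_lit 228) (nat_lit 4020235189) (nat_lit 304) (nat_lit 13536991777) (nat_lit 102) (nat_lit 5) (nat_lit 105) (nat_lit 5) (nat_lit 106) (nat_lit 5) (nat_lit 453) (nat_lit 409) (nat_lit 338)) (XT.lf (nat_lit 0) (nat_lit 4631586734) (nat_lit 152) (nat_lit 14150338693) (nat_lit 228) (nat_lit 4367191863) (nat_lit 100) (nat_lit 5) (nat_lit 102) (nat_lit 5) (nat_lit 103) (nat_lit 5) (nat_lit 454) (nat_lit 409) (nat_lit 337)))))) (XT.nd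 (nat_lit 468) (nat_lit 1140) (nat_lit 0) (XT.nd (nat_lit 234) (nat_lit 532) (nat_lit 0) (XT.nd (nat_lit 78) (nat_lit 456) (nat_lit 0) (XT.lf (nat_lit 0) (nat_lit 4324602839) (nat_lit 228) (nat_lit 1060552049) (nat_lit 304) (nat_lit 18510957476) (nat_lit 96) (nat_lit 5) (nat_lit 99) (nat_lit 5) (nat_lit 100) (nat_lit 5) (nat_lit 455) (nat_lit 409) (nat_lit 336)) (XT.nd (nat_lit 78) (nat_lit 304) (nat_lit 0) (XT.lf (nat_lit 0) (nat_lit 3865015533) (nat_lit 152) (nat_lit 11985209341) (nat_lit 228) (nat_lit 8819475559) (nat_lit 94) (nat_lit 5) (nat_lit 96) (nat_lit 5) (nat_lit 97) (nat_lit 5) (nat_lit 456) (nat_lit 409) (nat_lit 335)) (XT.lf (nat_lit 0) (nat_lit 1558344172) (nat_lit 304) (nat_lit 22108738449) (nat_lit 76) (nat_lit 1807649979) (nat_lit 90) (nat_lit 5) (nat_lit 94) (nat_lit 5) (nat_lit 91) (nat_lit 5) (nat_lit 457) (nat_lit 409) (nat_lit 334)))) (XT.nd (nat_lit 78) (nat_lit 380) (nat_lit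 0) (XT.lf (nat_lit 0) (nat_lit 2644368055) (nat_lit 152) (nat_lit 9957362107) (nat_lit 228) (nat_lit 13705797128) (nat_lit 88) (nat_lit 5) (nat_lit 90) (nat_lit 5) (nat_lit 91) (nat_lit 5) (nat_lit 458) (nat_lit 409) (nat_lit 333)) (XT.nd (nat_lit 78) (nat_lit 228) (nat_lit 0) (XT.lf (nat_lit 0) (nat_lit 1852725855) (nat_lit 152) (nat_lit 22600437428) (nat_lit 228) (nat_lit 2721124790) (nat_lit 86) (nat_lit 5) (nat_lit 88) (nat_lit 5) (nat_lit 89) (nat_lit 5) (nat_lit 459) (nat_lit 409) (nat_lit 332)) (XT.lf (nat_lit 0) (nat_lit 830946912) (nat_lit 152) (nat_lit 8130665485) (nat_lit 228) (nat_lit 19110611564) (nat_lit 83) (nat_lit 5) (nat_lit 85) (nat_lit 5) (nat_lit 86) (nat_lit 5) (nat_lit 460) (nat_lit 409) (nat_lit 331))))) (XT.nd (nat_lit 234) (nat_lit 760) (nat_lit 0) (XT.nd (nat_lit 78) (nat_lit 380) (nat_lit 0) (XT.lf (nat_lit 0) (nat_lit 21470981944) (nat_lit 228) (nat_lit 343437466)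 (nat_lit 76) (nat_lit 7190868173) (nat_lit 83) (nat_lit 5) (nat_lit 86) (nat_lit 5) (nat_lit 84) (nat_lit 5) (nat_lit 461) (nat_lit 409) (nat_lit 330)) (XT.nd (nat_lit 78) (nat_lit 152) (nat_lit 0) (XT.lf (nat_lit 0) (nat_lit 4856759754) (nat_lit 228) (nat_lit 1708903608) (nat_lit 76) (nat_lit 23408227285) (nat_lit 80) (nat_lit 5) (nat_lit 83) (nat_lit 5) (nat_lit 81) (nat_lit 5) (nat_lit 462) (nat_lit 409) (nat_lit 329)) (XT.lf (nat_lit 0) (nat_lit 18046481277) (nat_lit 228) (nat_lit 3344941550) (nat_lit 76) (nat_lit 9587217499) (nat_lit 78) (nat_lit 5) (nat_lit 81) (nat_lit 5) (nat_lit 79) (nat_lit 5) (nat_lit 463) (nat_lit 409) (nat_lit 328)))) (XT.nd (nat_lit 156) (nat_lit 380) (nat_lit 0) (XT.nd (nat_lit 78) (nat_lit 152) (nat_lit 0) (XT.lf (nat_lit 0) (nat_lit 180045919) (nat_lit 228) (nat_lit 5176315804) (nat_lit 76) (nat_lit 26667848688) (nat_lit 75) (nat_lit 5) (nat_lit 78) (nat_lit 5)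 (nat_lit 76) (nat_lit 5) (nat_lit 464) (nat_lit 409) (nat_lit 327)) (XT.lf (nat_lit 0) (nat_lit 14050787172) (nat_lit 228) (nat_lit 7405416896) (nat_lit 76) (nat_lit 11650904051) (nat_lit 73) (nat_lit 5) (nat_lit 76) (nat_lit 5) (nat_lit 74) (nat_lit 5) (nat_lit 465) (nat_lit 409) (nat_lit 326))) (XT.nd (nat_lit 78) (nat_lit 228) (nat_lit 0) (XT.lf (nat_lit 0) (nat_lit 24357956004) (nat_lit 152) (nat_lit 4570516636) (nat_lit 228) (nat_lit 5306277607) (nat_lit 71) (nat_lit 5) (nat_lit 73) (nat_lit 5) (nat_lit 74) (nat_lit 5) (nat_lit 466) (nat_lit 409) (nat_lit 325)) (XT.lf (nat_lit 0) (nat_lit 9350838897) (nat_lit 228) (nat_lit 12786026588) (nat_lit 76) (nat_lit 13267344708) (nat_lit 68) (nat_lit 5) (nat_lit 71) (nat_lit 5) (nat_lit 69) (nat_lit 5) (nat_lit 467) (nat_lit 409) (nat_lit 324))))))) (XT.nd (nat_lit 1014) (nat_lit 1064) (nat_lit 0) (XT.nd (nat_lit 468) (nat_lit 912) (nat_lit 0) (XT.nd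 (nat_lit 234) (nat_lit 380) (nat_lit 0) (XT.nd (nat_lit 78) (nat_lit 304) (nat_lit 0) (XT.lf (nat_lit 0) (nat_lit 20565640186) (nat_lit 152) (nat_lit 4385579466) (nat_lit 228) (nat_lit 11669744393) (nat_lit 66) (nat_lit 5) (nat_lit 68) (nat_lit 5) (nat_lit 69) (nat_lit 5) (nat_lit 468) (nat_lit 409) (nat_lit 323)) (XT.nd (nat_lit 78) (nat_lit 152) (nat_lit 0) (XT.lf (nat_lit 0) (nat_lit 3787603895) (nat_lit 152) (nat_lit 19799687413) (nat_lit 76) (nat_lit 14297629743) (nat_lit 64) (nat_lit 5) (nat_lit 66) (nat_lit 5) (nat_lit 65) (nat_lit 5) (nat_lit 469) (nat_lit 409) (nat_lit 322)) (XT.lf (nat_lit 0) (nat_lit 15144608320) (nat_lit 152) (nat_lit 4964668370) (nat_lit 228) (nat_lit 19089350155) (nat_lit 62) (nat_lit 5) (nat_lit 64) (nat_lit 5) (nat_lit 65) (nat_lit 5) (nat_lit 470) (nat_lit 409) (nat_lit 321)))) (XT.nd (nat_lit 78) (nat_lit 304) (nat_lit 0) (XT.lf (nat_lit 0) (nat_lit 11716741504)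 (nat_lit 76) (nat_lit 25963390580) (nat_lit 152) (nat_lit 2884894171) (nat_lit 61) (nat_lit 5) (nat_lit 62) (nat_lit 5) (nat_lit 63) (nat_lit 4) (nat_lit 471) (nat_lit 409) (nat_lit 320)) (XT.nd (nat_lit 78) (nat_lit 76) (nat_lit 0) (XT.lf (nat_lit 0) (nat_lit 7701536445) (nat_lit 152) (nat_lit 6501653899) (nat_lit 228) (nat_lit 27782007899) (nat_lit 58) (nat_lit 5) (nat_lit 60) (nat_lit 5) (nat_lit 61) (nat_lit 5) (nat_lit 472) (nat_lit 409) (nat_lit 319)) (XT.lf (nat_lit 0) (nat_lit 3062050752) (nat_lit 76) (nat_lit 29463271156) (nat_lit 152) (nat_lit 10937021959) (nat_lit 57) (nat_lit 5) (nat_lit 58) (nat_lit 5) (nat_lit 59) (nat_lit 4) (nat_lit 473) (nat_lit 409) (nat_lit 318))))) (XT.nd (nat_lit 234) (nat_lit 608) (nat_lit 0) (XT.nd (nat_lit 78) (nat_lit 228) (nat_lit 0) (XT.lf (nat_lit 0) (nat_lit 7016507631) (nat_lit 152) (nat_lit 2190380984) (nat_lit 76) (nat_lit 35792572134) (nat_lit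 56) (nat_lit 5) (nat_lit 58) (nat_lit 5) (nat_lit 57) (nat_lit 5) (nat_lit 474) (nat_lit 409) (nat_lit 317)) (XT.nd (nat_lit 78) (nat_lit 76) (nat_lit 0) (XT.lf (nat_lit 0) (nat_lit 26111621138) (nat_lit 228) (nat_lit 8191695590) (nat_lit 76) (nat_lit 12292766075) (nat_lit 54) (nat_lit 5) (nat_lit 57) (nat_lit 5) (nat_lit 55) (nat_lit 4) (nat_lit 475) (nat_lit 409) (nat_lit 316)) (XT.lf (nat_lit 0) (nat_lit 33317607985) (nat_lit 76) (nat_lit 13257473080) (nat_lit 152) (nat_lit 1685048127) (nat_lit 53) (nat_lit 5) (nat_lit 54) (nat_lit 5) (nat_lit 55) (nat_lit 4) (nat_lit 476) (nat_lit 409) (nat_lit 315)))) (XT.nd (nat_lit 156) (nat_lit 304) (nat_lit 0) (XT.nd (nat_lit 78) (nat_lit 76) (nat_lit 0) (XT.lf (nat_lit 0) (nat_lit 18118497057) (nat_lit 228) (nat_lit 22695009904) (nat_lit 76) (nat_lit 9176171361) (nat_lit 50) (nat_lit 5) (nat_lit 53) (nat_lit 5) (nat_lit 51) (nat_lit 4) (nat_lit 477)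 (nat_lit 409) (nat_lit 314)) (XT.lf (nat_lit 0) (nat_lit 20359128977) (nat_lit 76) (nat_lit 18981976855) (nat_lit 152) (nat_lit 12450187338) (nat_lit 49) (nat_lit 5) (nat_lit 50) (nat_lit 5) (nat_lit 51) (nat_lit 4) (nat_lit 478) (nat_lit 409) (nat_lit 313))) (XT.nd (nat_lit 78) (nat_lit 76) (nat_lit 0) (XT.lf (nat_lit 0) (nat_lit 8163846809) (nat_lit 228) (nat_lit 41223265767) (nat_lit 76) (nat_lit 4282277759) (nat_lit 46) (nat_lit 5) (nat_lit 49) (nat_lit 5) (nat_lit 47) (nat_lit 4) (nat_lit 479) (nat_lit 409) (nat_lit 312)) (XT.lf (nat_lit 0) (nat_lit 3247155520) (nat_lit 76) (nat_lit 26835343678) (nat_lit 152) (nat_lit 25539253661) (nat_lit 45) (nat_lit 5) (nat_lit 46) (nat_lit 5) (nat_lit 47) (nat_lit 4) (nat_lit 480) (nat_lit 409) (nat_lit 311)))))) (XT.nd (nat_lit 468) (nat_lit 608) (nat_lit 0) (XT.nd (nat_lit 234) (nat_lit 228) (nat_lit 0) (XT.nd (nat_lit 78) (nat_lit 228) (nat_lit 0)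 (XT.lf (nat_lit 0) (nat_lit 50764433240) (nat_lit 76) (nat_lit 2737059469) (nat_lit 152) (nat_lit 4158109251) (nat_lit 45) (nat_lit 5) (nat_lit 46) (nat_lit 5) (nat_lit 47) (nat_lit 4) (nat_lit 481) (nat_lit 409) (nat_lit 310)) (XT.nd (nat_lit 78) (nat_lit 76) (nat_lit 0) (XT.lf (nat_lit 0) (nat_lit 18536885505) (nat_lit 152) (nat_lit 18550479258) (nat_lit 76) (nat_lit 22688652229) (nat_lit 43) (nat_lit 5) (nat_lit 45) (nat_lit 5) (nat_lit 44) (nat_lit 4) (nat_lit 482) (nat_lit 409) (nat_lit 309)) (XT.lf (nat_lit 0) (nat_lit 30386883371) (nat_lit 76) (nat_lit 12267175765) (nat_lit 152) (nat_lit 19331756424) (nat_lit 42) (nat_lit 5) (nat_lit 43) (nat_lit 5) (nat_lit 44) (nat_lit 4) (nat_lit 483) (nat_lit 409) (nat_lit 308)))) (XT.nd (nat_lit 78) (nat_lit 76) (nat_lit 0) (XT.lf (nat_lit 0) (nat_lit 4084591910) (nat_lit 152) (nat_lit 46291171949) (nat_lit 76) (nat_lit 13914724976) (nat_lit 40) (nat_lit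 5) (nat_lit 42) (nat_lit 5) (nat_lit 41) (nat_lit 4) (nat_lit 484) (nat_lit 409) (nat_lit 307)) (XT.nd (nat_lit 78) (nat_lit 0) (nat_lit 0) (XT.lf (nat_lit 0) (nat_lit 3753534305) (nat_lit 76) (nat_lit 24992515065) (nat_lit 152) (nat_lit 37944381783) (nat_lit 39) (nat_lit 5) (nat_lit 40) (nat_lit 5) (nat_lit 41) (nat_lit 4) (nat_lit 485) (nat_lit 409) (nat_lit 306)) (XT.lf (nat_lit 0) (nat_lit 55120142950) (nat_lit 152) (nat_lit 11983017407) (nat_lit 0) (nat_lit 2092823854) (nat_lit 39) (nat_lit 5) (nat_lit 41) (nat_lit 4) (nat_lit 39) (nat_lit 4) (nat_lit 486) (nat_lit 409) (nat_lit 305))))) (XT.nd (nat_lit 234) (nat_lit 304) (nat_lit 0) (XT.nd (nat_lit 78) (nat_lit 152) (nat_lit 0) (XT.lf (nat_lit 0) (nat_lit 11417791762) (nat_lit 152) (nat_lit 29865098952) (nat_lit 76) (nat_lit 30521375197) (nat_lit 37) (nat_lit 5) (nat_lit 39) (nat_lit 5) (nat_lit 38) (nat_lit 4) (nat_lit 487) (nat_lit 409)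 (nat_lit 304)) (XT.nd (nat_lit 78) (nat_lit 76) (nat_lit 0) (XT.lf (nat_lit 0) (nat_lit 24572956335) (nat_lit 76) (nat_lit 13669069622) (nat_lit 152) (nat_lit 36286344370) (nat_lit 36) (nat_lit 5) (nat_lit 37) (nat_lit 5) (nat_lit 38) (nat_lit 4) (nat_lit 488) (nat_lit 409) (nat_lit 303)) (XT.lf (nat_lit 0) (nat_lit 4891346629) (nat_lit 76) (nat_lit 62004819735) (nat_lit 76) (nat_lit 10477853202) (nat_lit 35) (nat_lit 4) (nat_lit 36) (nat_lit 5) (nat_lit 36) (nat_lit 4) (nat_lit 489) (nat_lit 409) (nat_lit 302)))) (XT.nd (nat_lit 156) (nat_lit 152) (nat_lit 0) (XT.nd (nat_lit 78) (nat_lit 76) (nat_lit 0) (XT.lf (nat_lit 0) (nat_lit 16938229201) (nat_lit 152) (nat_lit 17155693819) (nat_lit 76) (nat_lit 46243990392) (nat_lit 34) (nat_lit 5) (nat_lit 36) (nat_lit 5) (nat_lit 35) (nat_lit 4) (nat_lit 490) (nat_lit 409) (nat_lit 301)) (XT.lf (nat_lit 0) (nat_lit 41614685567) (nat_lit 76) (nat_lit 4280724456)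 (nat_lit 152) (nat_lit 37539870307) (nat_lit 33) (nat_lit 5) (nat_lit 34) (nat_lit 5) (nat_lit 35) (nat_lit 4) (nat_lit 491) (nat_lit 409) (nat_lit 300))) (XT.nd (nat_lit 78) (nat_lit 76) (nat_lit 0) (XT.lf (nat_lit 0) (nat_lit 17042200146) (nat_lit 76) (nat_lit 59845446944) (nat_lit 76) (nat_lit 9782252953) (nat_lit 32) (nat_lit 4) (nat_lit 33) (nat_lit 5) (nat_lit 33) (nat_lit 4) (nat_lit 492) (nat_lit 409) (nat_lit 299)) (XT.lf (nat_lit 0) (nat_lit 19448928248) (nat_lit 152) (nat_lit 10593051366) (nat_lit 76) (nat_lit 60004781639) (nat_lit 31) (nat_lit 5) (nat_lit 33) (nat_lit 5) (nat_lit 32) (nat_lit 4) (nat_lit 493) (nat_lit 409) (nat_lit 298))))))))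
noncomputable def xc66 : XT := (XT.nd (nat_lit 57564) (nat_lit 0) (nat_lit 5244) (XT.nd (nat_lit 56550) (nat_lit 0) (nat_lit 13984) (XT.nd (nat_lit 56082) (nat_lit 0) (nat_lit 22572) (XT.nd (nat_lit 234) (nat_lit 76) (nat_lit 0) (XT.nd (nat_lit 78) (nat_lit 152) (nat_lit 0) (XT.lf (nat_lit 0) (nat_lit 50447964890) (nat_lit 152) (nat_lit 41304610026) (nat_lit 0) (nat_lit 1821727058) (nat_lit 30) (nat_lit 5) (nat_lit 32) (nat_lit 4) (nat_lit 30) (nat_lit 4) (nat_lit 494) (nat_lit 409) (nat_lit 297)) (XT.nd (nat_lit 78) (nat_lit 76) (nat_lit 0) (XT.lf (nat_lit 0) (nat_lit 21307120235) (nat_lit 76) (nat_lit 62294521861) (nat_lit 76) (nat_lit 13658437281) (nat_lit 29) (nat_lit 4) (nat_lit 30) (nat_lit 5) (nat_lit 30) (nat_lit 4) (nat_lit 495) (nat_lit 409) (nat_lit 296)) (XT.lf (nat_lit 0) (nat_lit 17361801864) (nat_lit 152) (nat_lit 13401004649) (nat_lit 76) (nat_lit 70349869564) (nat_lit 28) (nat_lit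 5) (nat_lit 30) (nat_lit 5) (nat_lit 29) (nat_lit 4) (nat_lit 496) (nat_lit 409) (nat_lit 295)))) (XT.nd (nat_lit 55692) (nat_lit 0) (nat_lit 23408) (XT.lf (nat_lit 0) (nat_lit 50180417364) (nat_lit 152) (nat_lit 52014391400) (nat_lit 0) (nat_lit 2943141903) (nat_lit 27) (nat_lit 5) (nat_lit 29) (nat_lit 4) (nat_lit 27) (nat_lit 4) (nat_lit 497) (nat_lit 409) (nat_lit 294)) (XT.nd (nat_lit 78) (nat_lit 912) (nat_lit 0) (XT.lf (nat_lit 0) (nat_lit 1486793757) (nat_lit 0) (nat_lit 1486793757) (nat_lit 836) (nat_lit 826488441) (nat_lit 347) (nat_lit 5) (nat_lit 347) (nat_lit 3) (nat_lit 358) (nat_lit 3) (nat_lit 410) (nat_lit 410) (nat_lit 380)) (XT.lf (nat_lit 0) (nat_lit 654259717) (nat_lit 912) (nat_lit 6101862187) (nat_lit 988) (nat_lit 964420523) (nat_lit 335) (nat_lit 5) (nat_lit 347) (nat_lit 5) (nat_lit 348) (nat_lit 5) (nat_lit 411) (nat_lit 410) (nat_lit 379))))) (XT.nd (nat_lit 234) (nat_lit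 836) (nat_lit 0) (XT.nd (nat_lit 78) (nat_lit 0) (nat_lit 76) (XT.lf (nat_lit 76) (nat_lit 303940498) (nat_lit 0) (nat_lit 2673404027) (nat_lit 988) (nat_lit 4871117558) (nat_lit 336) (nat_lit 5) (nat_lit 335) (nat_lit 5) (nat_lit 348) (nat_lit 5) (nat_lit 412) (nat_lit 410) (nat_lit 378)) (XT.nd (nat_lit 78) (nat_lit 0) (nat_lit 0) (XT.lf (nat_lit 0) (nat_lit 5355650647) (nat_lit 912) (nat_lit 924127665) (nat_lit 988) (nat_lit 1704866225) (nat_lit 336) (nat_lit 5) (nat_lit 348) (nat_lit 5) (nat_lit 349) (nat_lit 5) (nat_lit 413) (nat_lit 410) (nat_lit 377)) (XT.lf (nat_lit 76) (nat_lit 6037499564) (nat_lit 0) (nat_lit 1767175208) (nat_lit 988) (nat_lit 324444242) (nat_lit 337) (nat_lit 5) (nat_lit 336) (nat_lit 5) (nat_lit 349) (nat_lit 5) (nat_lit 414) (nat_lit 410) (nat_lit 376)))) (XT.nd (nat_lit 78) (nat_lit 0) (nat_lit 0) (XT.lf (nat_lit 0) (nat_lit 2013799357) (nat_lit 988) (nat_lit 3228105473)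 (nat_lit 1064) (nat_lit 3039561709) (nat_lit 324) (nat_lit 5) (nat_lit 337) (nat_lit 5) (nat_lit 338) (nat_lit 5) (nat_lit 415) (nat_lit 410) (nat_lit 375)) (XT.nd (nat_lit 78) (nat_lit 0) (nat_lit 76) (XT.lf (nat_lit 76) (nat_lit 4135123187) (nat_lit 0) (nat_lit 283406702) (nat_lit 1064) (nat_lit 4024149204) (nat_lit 325) (nat_lit 5) (nat_lit 324) (nat_lit 5) (nat_lit 338) (nat_lit 5) (nat_lit 416) (nat_lit 410) (nat_lit 374)) (XT.lf (nat_lit 76) (nat_lit 3254553368) (nat_lit 0) (nat_lit 3683454189) (nat_lit 1064) (nat_lit 1674140414) (nat_lit 326) (nat_lit 5) (nat_lit 325) (nat_lit 5) (nat_lit 339) (nat_lit 5) (nat_lit 417) (nat_lit 410) (nat_lit 373)))))) (XT.nd (nat_lit 468) (nat_lit 4256) (nat_lit 0) (XT.nd (nat_lit 234) (nat_lit 2432) (nat_lit 0) (XT.nd (nat_lit 78) (nat_lit 988) (nat_lit 0) (XT.lf (nat_lit 0) (nat_lit 751552257) (nat_lit 1064) (nat_lit 6358965263) (nat_lit 1140) (nat_lit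 1680162712) (nat_lit 312) (nat_lit 5) (nat_lit 326) (nat_lit 5) (nat_lit 327) (nat_lit 5) (nat_lit 418) (nat_lit 410) (nat_lit 372)) (XT.nd (nat_lit 78) (nat_lit 988) (nat_lit 0) (XT.lf (nat_lit 76) (nat_lit 1637946301) (nat_lit 0) (nat_lit 1625821269) (nat_lit 1140) (nat_lit 5713905722) (nat_lit 313) (nat_lit 5) (nat_lit 312) (nat_lit 5) (nat_lit 327) (nat_lit 5) (nat_lit 419) (nat_lit 410) (nat_lit 371)) (XT.lf (nat_lit 0) (nat_lit 886162176) (nat_lit 1064) (nat_lit 5025313701) (nat_lit 1140) (nat_lit 3262269673) (nat_lit 299) (nat_lit 5) (nat_lit 313) (nat_lit 5) (nat_lit 314) (nat_lit 5) (nat_lit 420) (nat_lit 410) (nat_lit 370)))) (XT.nd (nat_lit 78) (nat_lit 1292) (nat_lit 0) (XT.lf (nat_lit 0) (nat_lit 191423765) (nat_lit 1140) (nat_lit 8502071081) (nat_lit 1216) (nat_lit 686093589) (nat_lit 284) (nat_lit 5) (nat_lit 299) (nat_lit 5) (nat_lit 300) (nat_lit 5) (nat_lit 421) (nat_lit 410)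 (nat_lit 369)) (XT.nd (nat_lit 78) (nat_lit 1216) (nat_lit 0) (XT.lf (nat_lit 0) (nat_lit 2019209874) (nat_lit 1216) (nat_lit 483038474) (nat_lit 76) (nat_lit 7091724385) (nat_lit 283) (nat_lit 5) (nat_lit 299) (nat_lit 5) (nat_lit 284) (nat_lit 5) (nat_lit 422) (nat_lit 410) (nat_lit 368)) (XT.lf (nat_lit 0) (nat_lit 4874685903) (nat_lit 1292) (nat_lit 1118059696) (nat_lit 76) (nat_lit 3825275766) (nat_lit 267) (nat_lit 5) (nat_lit 284) (nat_lit 5) (nat_lit 268) (nat_lit 5) (nat_lit 423) (nat_lit 410) (nat_lit 367))))) (XT.nd (nat_lit 234) (nat_lit 2204) (nat_lit 0) (XT.nd (nat_lit 78) (nat_lit 1292) (nat_lit 0) (XT.lf (nat_lit 0) (nat_lit 7899117534) (nat_lit 836) (nat_lit 1703024606) (nat_lit 76) (nat_lit 450365609) (nat_lit 257) (nat_lit 5) (nat_lit 268) (nat_lit 5) (nat_lit 258) (nat_lit 5) (nat_lit 424) (nat_lit 410) (nat_lit 366)) (XT.nd (nat_lit 78) (nat_lit 608) (nat_lit 0) (XT.lf (nat_lit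 0) (nat_lit 825495770) (nat_lit 684) (nat_lit 2276474256) (nat_lit 76) (nat_lit 7194606230) (nat_lit 248) (nat_lit 5) (nat_lit 257) (nat_lit 5) (nat_lit 249) (nat_lit 5) (nat_lit 425) (nat_lit 410) (nat_lit 365)) (XT.lf (nat_lit 0) (nat_lit 3955571757) (nat_lit 684) (nat_lit 2828997098) (nat_lit 76) (nat_lit 3766254573) (nat_lit 240) (nat_lit 5) (nat_lit 249) (nat_lit 5) (nat_lit 241) (nat_lit 5) (nat_lit 426) (nat_lit 410) (nat_lit 364)))) (XT.nd (nat_lit 156) (nat_lit 1140) (nat_lit 0) (XT.nd (nat_lit 78) (nat_lit 532) (nat_lit 0) (XT.lf (nat_lit 0) (nat_lit 7291232712) (nat_lit 608) (nat_lit 3335588511) (nat_lit 76) (nat_lit 189506725) (nat_lit 233) (nat_lit 5) (nat_lit 241) (nat_lit 5) (nat_lit 234) (nat_lit 5) (nat_lit 427) (nat_lit 410) (nat_lit 363)) (XT.lf (nat_lit 0) (nat_lit 7261501282) (nat_lit 532) (nat_lit 3623179508) (nat_lit 608) (nat_lit 207713376) (nat_lit 226) (nat_lit 5) (nat_lit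 233) (nat_lit 5) (nat_lit 234) (nat_lit 5) (nat_lit 428) (nat_lit 410) (nat_lit 362))) (XT.nd (nat_lit 78) (nat_lit 532) (nat_lit 0) (XT.lf (nat_lit 0) (nat_lit 3277145224) (nat_lit 608) (nat_lit 4315345661) (nat_lit 76) (nat_lit 3786877805) (nat_lit 218) (nat_lit 5) (nat_lit 226) (nat_lit 5) (nat_lit 219) (nat_lit 5) (nat_lit 429) (nat_lit 410) (nat_lit 361)) (XT.lf (nat_lit 0) (nat_lit 6919008069) (nat_lit 532) (nat_lit 84058356) (nat_lit 608) (nat_lit 4675444965) (nat_lit 211) (nat_lit 5) (nat_lit 218) (nat_lit 5) (nat_lit 219) (nat_lit 5) (nat_lit 430) (nat_lit 410) (nat_lit 360))))))) (XT.nd (nat_lit 1014) (nat_lit 3420) (nat_lit 0) (XT.nd (nat_lit 468) (nat_lit 2584) (nat_lit 0) (XT.nd (nat_lit 234) (nat_lit 1292) (nat_lit 0) (XT.nd (nat_lit 78) (nat_lit 988) (nat_lit 0) (XT.lf (nat_lit 0) (nat_lit 6790215094) (nat_lit 456) (nat_lit 4240918674) (nat_lit 532) (nat_lit 958015873) (nat_lit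 205) (nat_lit 5) (nat_lit 211) (nat_lit 5) (nat_lit 212) (nat_lit 5) (nat_lit 431) (nat_lit 410) (nat_lit 359)) (XT.nd (nat_lit 78) (nat_lit 456) (nat_lit 0) (XT.lf (nat_lit 0) (nat_lit 2971816593) (nat_lit 532) (nat_lit 5624759800) (nat_lit 76) (nat_lit 3715386773) (nat_lit 198) (nat_lit 5) (nat_lit 205) (nat_lit 5) (nat_lit 199) (nat_lit 5) (nat_lit 432) (nat_lit 410) (nat_lit 358)) (XT.lf (nat_lit 0) (nat_lit 6623794754) (nat_lit 456) (nat_lit 550192333) (nat_lit 532) (nat_lit 5473788187) (nat_lit 192) (nat_lit 5) (nat_lit 198) (nat_lit 5) (nat_lit 199) (nat_lit 5) (nat_lit 433) (nat_lit 410) (nat_lit 357)))) (XT.nd (nat_lit 78) (nat_lit 836) (nat_lit 0) (XT.lf (nat_lit 0) (nat_lit 6576600978) (nat_lit 456) (nat_lit 5144451407) (nat_lit 532) (nat_lit 1275293686) (nat_lit 186) (nat_lit 5) (nat_lit 192) (nat_lit 5) (nat_lit 193) (nat_lit 5) (nat_lit 434) (nat_lit 410) (nat_lit 356)) (XT.nd (nat_lit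 78) (nat_lit 380) (nat_lit 0) (XT.lf (nat_lit 0) (nat_lit 3175408287) (nat_lit 456) (nat_lit 6805472061) (nat_lit 76) (nat_lit 3377469688) (nat_lit 180) (nat_lit 5) (nat_lit 186) (nat_lit 5) (nat_lit 181) (nat_lit 5) (nat_lit 435) (nat_lit 410) (nat_lit 355)) (XT.lf (nat_lit 0) (nat_lit 6557050445) (nat_lit 380) (nat_lit 1387998127) (nat_lit 456) (nat_lit 5789353760) (nat_lit 175) (nat_lit 5) (nat_lit 180) (nat_lit 5) (nat_lit 181) (nat_lit 5) (nat_lit 436) (nat_lit 410) (nat_lit 354))))) (XT.nd (nat_lit 234) (nat_lit 1444) (nat_lit 0) (XT.nd (nat_lit 78) (nat_lit 760) (nat_lit 0) (XT.lf (nat_lit 0) (nat_lit 6580486166) (nat_lit 380) (nat_lit 6522839540) (nat_lit 456) (nat_lit 1021436679) (nat_lit 170) (nat_lit 5) (nat_lit 175) (nat_lit 5) (nat_lit 176) (nat_lit 5) (nat_lit 437) (nat_lit 410) (nat_lit 353)) (XT.nd (nat_lit 78) (nat_lit 304) (nat_lit 0) (XT.lf (nat_lit 0) (nat_lit 4029220247) (nat_lit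 456) (nat_lit 7911111848) (nat_lit 76) (nat_lit 2589505147) (nat_lit 164) (nat_lit 5) (nat_lit 170) (nat_lit 5) (nat_lit 165) (nat_lit 5) (nat_lit 438) (nat_lit 410) (nat_lit 352)) (XT.lf (nat_lit 0) (nat_lit 6673203435) (nat_lit 304) (nat_lit 2792671663) (nat_lit 380) (nat_lit 5484358268) (nat_lit 160) (nat_lit 5) (nat_lit 164) (nat_lit 5) (nat_lit 165) (nat_lit 5) (nat_lit 439) (nat_lit 410) (nat_lit 351)))) (XT.nd (nat_lit 156) (nat_lit 684) (nat_lit 0) (XT.nd (nat_lit 78) (nat_lit 380) (nat_lit 0) (XT.lf (nat_lit 0) (nat_lit 6754332138) (nat_lit 380) (nat_lit 8580342678) (nat_lit 456) (nat_lit 52173328) (nat_lit 155) (nat_lit 5) (nat_lit 160) (nat_lit 5) (nat_lit 161) (nat_lit 5) (nat_lit 440) (nat_lit 410) (nat_lit 350)) (XT.lf (nat_lit 0) (nat_lit 5681608235) (nat_lit 380) (nat_lit 9006319773) (nat_lit 76) (nat_lit 1151535313) (nat_lit 150) (nat_lit 5) (nat_lit 155) (nat_lit 5) (nat_lit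 151) (nat_lit 5) (nat_lit 441) (nat_lit 410) (nat_lit 349))) (XT.nd (nat_lit 78) (nat_lit 380) (nat_lit 0) (XT.lf (nat_lit 0) (nat_lit 6915252569) (nat_lit 304) (nat_lit 4979071144) (nat_lit 380) (nat_lit 4414577559) (nat_lit 146) (nat_lit 5) (nat_lit 150) (nat_lit 5) (nat_lit 151) (nat_lit 5) (nat_lit 442) (nat_lit 410) (nat_lit 348)) (XT.lf (nat_lit 0) (nat_lit 1749313178) (nat_lit 380) (nat_lit 9776995664) (nat_lit 76) (nat_lit 5270093567) (nat_lit 141) (nat_lit 5) (nat_lit 146) (nat_lit 5) (nat_lit 142) (nat_lit 5) (nat_lit 443) (nat_lit 410) (nat_lit 347)))))) (XT.nd (nat_lit 468) (nat_lit 1672) (nat_lit 0) (XT.nd (nat_lit 234) (nat_lit 836) (nat_lit 0) (XT.nd (nat_lit 78) (nat_lit 608) (nat_lit 0) (XT.lf (nat_lit 0) (nat_lit 7116972003) (nat_lit 304) (nat_lit 1183418525) (nat_lit 380) (nat_lit 9001474409) (nat_lit 137) (nat_lit 5) (nat_lit 141) (nat_lit 5) (nat_lit 142) (nat_lit 5) (nat_lit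 444) (nat_lit 410) (nat_lit 346)) (XT.nd (nat_lit 78) (nat_lit 380) (nat_lit 0) (XT.lf (nat_lit 0) (nat_lit 7207694419) (nat_lit 228) (nat_lit 8189748365) (nat_lit 304) (nat_lit 2428611240) (nat_lit 134) (nat_lit 5) (nat_lit 137) (nat_lit 5) (nat_lit 138) (nat_lit 5) (nat_lit 445) (nat_lit 410) (nat_lit 345)) (XT.lf (nat_lit 0) (nat_lit 4556343369) (nat_lit 380) (nat_lit 11069507752) (nat_lit 76) (nat_lit 2744195248) (nat_lit 129) (nat_lit 5) (nat_lit 134) (nat_lit 5) (nat_lit 130) (nat_lit 5) (nat_lit 446) (nat_lit 410) (nat_lit 344)))) (XT.nd (nat_lit 78) (nat_lit 608) (nat_lit 0) (XT.lf (nat_lit 0) (nat_lit 7367500139) (nat_lit 228) (nat_lit 4693967606) (nat_lit 304) (nat_lit 6872420073) (nat_lit 126) (nat_lit 5) (nat_lit 129) (nat_lit 5) (nat_lit 130) (nat_lit 5) (nat_lit 447) (nat_lit 410) (nat_lit 343)) (XT.nd (nat_lit 78) (nat_lit 228) (nat_lit 0) (XT.lf (nat_lit 0) (nat_lit 619784490)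 (nat_lit 380) (nat_lit 12077969226) (nat_lit 76) (nat_lit 6821693404) (nat_lit 121) (nat_lit 5) (nat_lit 126) (nat_lit 5) (nat_lit 122) (nat_lit 5) (nat_lit 448) (nat_lit 410) (nat_lit 342)) (XT.lf (nat_lit 0) (nat_lit 7473294255) (nat_lit 228) (nat_lit 1070938685) (nat_lit 304) (nat_lit 11582021862) (nat_lit 118) (nat_lit 5) (nat_lit 121) (nat_lit 5) (nat_lit 122) (nat_lit 5) (nat_lit 449) (nat_lit 410) (nat_lit 341))))) (XT.nd (nat_lit 234) (nat_lit 912) (nat_lit 0) (XT.nd (nat_lit 78) (nat_lit 532) (nat_lit 0) (XT.lf (nat_lit 0) (nat_lit 7467841711) (nat_lit 228) (nat_lit 9661567344) (nat_lit 304) (nat_lit 3626063133) (nat_lit 115) (nat_lit 5) (nat_lit 118) (nat_lit 5) (nat_lit 119) (nat_lit 5) (nat_lit 450) (nat_lit 410) (nat_lit 340)) (XT.nd (nat_lit 78) (nat_lit 228) (nat_lit 0) (XT.lf (nat_lit 0) (nat_lit 4836203311) (nat_lit 304) (nat_lit 13963378073) (nat_lit 76) (nat_lit 2609186912)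 (nat_lit 111) (nat_lit 5) (nat_lit 115) (nat_lit 5) (nat_lit 112) (nat_lit 5) (nat_lit 451) (nat_lit 410) (nat_lit 339)) (XT.lf (nat_lit 0) (nat_lit 7347557147) (nat_lit 228) (nat_lit 6568061879) (nat_lit 304) (nat_lit 8169966225) (nat_lit 108) (nat_lit 5) (nat_lit 111) (nat_lit 5) (nat_lit 112) (nat_lit 5) (nat_lit 452) (nat_lit 410) (nat_lit 338)))) (XT.nd (nat_lit 156) (nat_lit 456) (nat_lit 0) (XT.nd (nat_lit 78) (nat_lit 228) (nat_lit 0) (XT.lf (nat_lit 0) (nat_lit 880516879) (nat_lit 228) (nat_lit 15555804216) (nat_lit 76) (nat_lit 6352522596) (nat_lit 105) (nat_lit 5) (nat_lit 108) (nat_lit 5) (nat_lit 106) (nat_lit 5) (nat_lit 453) (nat_lit 410) (nat_lit 337)) (XT.lf (nat_lit 0) (nat_lit 7014038013) (nat_lit 228) (nat_lit 3452891253) (nat_lit 304) (nat_lit 13050341361) (nat_lit 102) (nat_lit 5) (nat_lit 105) (nat_lit 5) (nat_lit 106) (nat_lit 5) (nat_lit 454) (nat_lit 410) (nat_lit 336)))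 (XT.nd (nat_lit 78) (nat_lit 304) (nat_lit 0) (XT.lf (nat_lit 0) (nat_lit 6732471326) (nat_lit 152) (nat_lit 14089275340) (nat_lit 228) (nat_lit 3451703020) (nat_lit 100) (nat_lit 5) (nat_lit 102) (nat_lit 5) (nat_lit 103) (nat_lit 5) (nat_lit 455) (nat_lit 410) (nat_lit 335)) (XT.lf (nat_lit 0) (nat_lit 6378142149) (nat_lit 228) (nat_lit 352715605) (nat_lit 304) (nat_lit 18327672820) (nat_lit 96) (nat_lit 5) (nat_lit 99) (nat_lit 5) (nat_lit 100) (nat_lit 5) (nat_lit 456) (nat_lit 410) (nat_lit 334))))))))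
noncomputable def xc67 : XT := (XT.nd (nat_lit 1950) (nat_lit 1216) (nat_lit 0) (XT.nd (nat_lit 936) (nat_lit 1748) (nat_lit 0) (XT.nd (nat_lit 468) (nat_lit 988) (nat_lit 0) (XT.nd (nat_lit 234) (nat_lit 532) (nat_lit 0) (XT.nd (nat_lit 78) (nat_lit 456) (nat_lit 0) (XT.lf (nat_lit 0) (nat_lit 5867264170) (nat_lit 152) (nat_lit 11825012581) (nat_lit 228) (nat_lit 8179332907) (nat_lit 94) (nat_lit 5) (nat_lit 96) (nat_lit 5) (nat_lit 97) (nat_lit 5) (nat_lit 457) (nat_lit 410) (nat_lit 333)) (XT.nd (nat_lit 78) (nat_lit 152) (nat_lit 0) (XT.lf (nat_lit 0) (nat_lit 2670112640) (nat_lit 304) (nat_lit 21412794000) (nat_lit 76) (nat_lit 2634464226) (nat_lit 90) (nat_lit 5) (nat_lit 94) (nat_lit 5) (nat_lit 91) (nat_lit 5) (nat_lit 458) (nat_lit 410) (nat_lit 332)) (XT.lf (nat_lit 0) (nat_lit 4526331594) (nat_lit 152) (nat_lit 9706924945) (nat_lit 228) (nat_lit 13359525038) (nat_lit 88) (nat_lit 5)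 (nat_lit 90) (nat_lit 5) (nat_lit 91) (nat_lit 5) (nat_lit 459) (nat_lit 410) (nat_lit 331)))) (XT.nd (nat_lit 78) (nat_lit 380) (nat_lit 0) (XT.lf (nat_lit 0) (nat_lit 3667222849) (nat_lit 152) (nat_lit 22985753069) (nat_lit 228) (nat_lit 1850636800) (nat_lit 86) (nat_lit 5) (nat_lit 88) (nat_lit 5) (nat_lit 89) (nat_lit 5) (nat_lit 460) (nat_lit 410) (nat_lit 330)) (XT.nd (nat_lit 78) (nat_lit 152) (nat_lit 0) (XT.lf (nat_lit 0) (nat_lit 2564147303) (nat_lit 152) (nat_lit 7801714466) (nat_lit 228) (nat_lit 19081218862) (nat_lit 83) (nat_lit 5) (nat_lit 85) (nat_lit 5) (nat_lit 86) (nat_lit 5) (nat_lit 461) (nat_lit 410) (nat_lit 329)) (XT.lf (nat_lit 0) (nat_lit 1296438995) (nat_lit 152) (nat_lit 22177924380) (nat_lit 228) (nat_lit 6953227461) (nat_lit 81) (nat_lit 5) (nat_lit 83) (nat_lit 5) (nat_lit 84) (nat_lit 5) (nat_lit 462) (nat_lit 410) (nat_lit 328))))) (XT.nd (nat_lit 234) (nat_lit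 532) (nat_lit 0) (XT.nd (nat_lit 78) (nat_lit 380) (nat_lit 0) (XT.lf (nat_lit 0) (nat_lit 5997382361) (nat_lit 228) (nat_lit 191443592) (nat_lit 76) (nat_lit 25256764516) (nat_lit 80) (nat_lit 5) (nat_lit 83) (nat_lit 5) (nat_lit 81) (nat_lit 5) (nat_lit 463) (nat_lit 410) (nat_lit 327)) (XT.nd (nat_lit 78) (nat_lit 228) (nat_lit 0) (XT.lf (nat_lit 0) (nat_lit 19825408215) (nat_lit 228) (nat_lit 1935675615) (nat_lit 76) (nat_lit 10740132167) (nat_lit 78) (nat_lit 5) (nat_lit 81) (nat_lit 5) (nat_lit 79) (nat_lit 5) (nat_lit 464) (nat_lit 410) (nat_lit 326)) (XT.lf (nat_lit 0) (nat_lit 1047094188) (nat_lit 228) (nat_lit 3886678346) (nat_lit 76) (nat_lit 28665853151) (nat_lit 75) (nat_lit 5) (nat_lit 78) (nat_lit 5) (nat_lit 76) (nat_lit 5) (nat_lit 465) (nat_lit 410) (nat_lit 325)))) (XT.nd (nat_lit 78) (nat_lit 380) (nat_lit 0) (XT.lf (nat_lit 0) (nat_lit 15591434921) (nat_lit 228) (nat_lit 6253083686)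 (nat_lit 76) (nat_lit 12892750362) (nat_lit 73) (nat_lit 5) (nat_lit 76) (nat_lit 5) (nat_lit 74) (nat_lit 5) (nat_lit 466) (nat_lit 410) (nat_lit 324)) (XT.nd (nat_lit 78) (nat_lit 228) (nat_lit 0) (XT.lf (nat_lit 0) (nat_lit 27054812718) (nat_lit 152) (nat_lit 4132498679) (nat_lit 228) (nat_lit 4734755048) (nat_lit 71) (nat_lit 5) (nat_lit 73) (nat_lit 5) (nat_lit 74) (nat_lit 5) (nat_lit 467) (nat_lit 410) (nat_lit 323)) (XT.lf (nat_lit 0) (nat_lit 10620094105) (nat_lit 228) (nat_lit 11955264502) (nat_lit 76) (nat_lit 14574965520) (nat_lit 68) (nat_lit 5) (nat_lit 71) (nat_lit 5) (nat_lit 69) (nat_lit 5) (nat_lit 468) (nat_lit 410) (nat_lit 322)))))) (XT.nd (nat_lit 468) (nat_lit 912) (nat_lit 0) (XT.nd (nat_lit 234) (nat_lit 380) (nat_lit 0) (XT.nd (nat_lit 78) (nat_lit 304) (nat_lit 0) (XT.lf (nat_lit 0) (nat_lit 23021846538) (nat_lit 152) (nat_lit 3954196620) (nat_lit 228) (nat_lit 11452608188)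 (nat_lit 66) (nat_lit 5) (nat_lit 68) (nat_lit 5) (nat_lit 69) (nat_lit 5) (nat_lit 469) (nat_lit 410) (nat_lit 321)) (XT.nd (nat_lit 78) (nat_lit 152) (nat_lit 0) (XT.lf (nat_lit 0) (nat_lit 4744245136) (nat_lit 152) (nat_lit 19370752830) (nat_lit 76) (nat_lit 15641111522) (nat_lit 64) (nat_lit 5) (nat_lit 66) (nat_lit 5) (nat_lit 65) (nat_lit 5) (nat_lit 470) (nat_lit 410) (nat_lit 320)) (XT.lf (nat_lit 0) (nat_lit 17280084663) (nat_lit 152) (nat_lit 4578629211) (nat_lit 228) (nat_lit 19277487224) (nat_lit 62) (nat_lit 5) (nat_lit 64) (nat_lit 5) (nat_lit 65) (nat_lit 5) (nat_lit 471) (nat_lit 410) (nat_lit 319)))) (XT.nd (nat_lit 78) (nat_lit 304) (nat_lit 0) (XT.lf (nat_lit 0) (nat_lit 13657111345) (nat_lit 76) (nat_lit 26634400668) (nat_lit 152) (nat_lit 2279908268) (nat_lit 61) (nat_lit 5) (nat_lit 62) (nat_lit 5) (nat_lit 63) (nat_lit 4) (nat_lit 472) (nat_lit 410) (nat_lit 318)) (XT.nd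 (nat_lit 78) (nat_lit 76) (nat_lit 0) (XT.lf (nat_lit 0) (nat_lit 9416553757) (nat_lit 152) (nat_lit 6209209281) (nat_lit 228) (nat_lit 28437289356) (nat_lit 58) (nat_lit 5) (nat_lit 60) (nat_lit 5) (nat_lit 61) (nat_lit 5) (nat_lit 473) (nat_lit 410) (nat_lit 317)) (XT.lf (nat_lit 0) (nat_lit 4521997578) (nat_lit 76) (nat_lit 30326294733) (nat_lit 152) (nat_lit 10766235842) (nat_lit 57) (nat_lit 5) (nat_lit 58) (nat_lit 5) (nat_lit 59) (nat_lit 4) (nat_lit 474) (nat_lit 410) (nat_lit 316))))) (XT.nd (nat_lit 234) (nat_lit 608) (nat_lit 0) (XT.nd (nat_lit 78) (nat_lit 228) (nat_lit 0) (XT.lf (nat_lit 0) (nat_lit 8037460181) (nat_lit 152) (nat_lit 1041920198) (nat_lit 76) (nat_lit 38149920209) (nat_lit 56) (nat_lit 5) (nat_lit 58) (nat_lit 5) (nat_lit 57) (nat_lit 5) (nat_lit 475) (nat_lit 410) (nat_lit 315)) (XT.nd (nat_lit 78) (nat_lit 76) (nat_lit 0) (XT.lf (nat_lit 0) (nat_lit 28072662399)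 (nat_lit 228) (nat_lit 7365331434) (nat_lit 76) (nat_lit 13468201320) (nat_lit 54) (nat_lit 5) (nat_lit 57) (nat_lit 5) (nat_lit 55) (nat_lit 4) (nat_lit 476) (nat_lit 410) (nat_lit 314)) (XT.lf (nat_lit 0) (nat_lit 36184009091) (nat_lit 76) (nat_lit 13355613980) (nat_lit 152) (nat_lit 1114412292) (nat_lit 53) (nat_lit 5) (nat_lit 54) (nat_lit 5) (nat_lit 55) (nat_lit 4) (nat_lit 477) (nat_lit 410) (nat_lit 313)))) (XT.nd (nat_lit 156) (nat_lit 304) (nat_lit 0) (XT.nd (nat_lit 78) (nat_lit 76) (nat_lit 0) (XT.lf (nat_lit 0) (nat_lit 19652624792) (nat_lit 228) (nat_lit 22637845430) (nat_lit 76) (nat_lit 10179821288) (nat_lit 50) (nat_lit 5) (nat_lit 53) (nat_lit 5) (nat_lit 51) (nat_lit 4) (nat_lit 478) (nat_lit 410) (nat_lit 312)) (XT.lf (nat_lit 0) (nat_lit 22534834391) (nat_lit 76) (nat_lit 19382744182) (nat_lit 152) (nat_lit 12444973262) (nat_lit 49) (nat_lit 5) (nat_lit 50) (nat_lit 5) (nat_lit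 51) (nat_lit 4) (nat_lit 479) (nat_lit 410) (nat_lit 311))) (XT.nd (nat_lit 78) (nat_lit 76) (nat_lit 0) (XT.lf (nat_lit 0) (nat_lit 9174314677) (nat_lit 228) (nat_lit 42135197121) (nat_lit 76) (nat_lit 5025258088) (nat_lit 46) (nat_lit 5) (nat_lit 49) (nat_lit 5) (nat_lit 47) (nat_lit 4) (nat_lit 480) (nat_lit 410) (nat_lit 310)) (XT.lf (nat_lit 0) (nat_lit 4525802728) (nat_lit 76) (nat_lit 27645147627) (nat_lit 152) (nat_lit 26214339693) (nat_lit 45) (nat_lit 5) (nat_lit 46) (nat_lit 5) (nat_lit 47) (nat_lit 4) (nat_lit 481) (nat_lit 410) (nat_lit 309))))))) (XT.nd (nat_lit 1092) (nat_lit 152) (nat_lit 0) (XT.nd (nat_lit 468) (nat_lit 608) (nat_lit 0) (XT.nd (nat_lit 234) (nat_lit 228) (nat_lit 0) (XT.nd (nat_lit 78) (nat_lit 228) (nat_lit 0) (XT.lf (nat_lit 0) (nat_lit 54365787694) (nat_lit 76) (nat_lit 2367280791) (nat_lit 152) (nat_lit 3792798856) (nat_lit 45) (nat_lit 5) (nat_lit 46) (nat_lit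 5) (nat_lit 47) (nat_lit 4) (nat_lit 482) (nat_lit 410) (nat_lit 308)) (XT.nd (nat_lit 78) (nat_lit 76) (nat_lit 0) (XT.lf (nat_lit 0) (nat_lit 20013817366) (nat_lit 152) (nat_lit 18422873756) (nat_lit 76) (nat_lit 24311605893) (nat_lit 43) (nat_lit 5) (nat_lit 45) (nat_lit 5) (nat_lit 44) (nat_lit 4) (nat_lit 483) (nat_lit 410) (nat_lit 307)) (XT.lf (nat_lit 0) (nat_lit 32931111929) (nat_lit 76) (nat_lit 12389394917) (nat_lit 152) (nat_lit 19748569816) (nat_lit 42) (nat_lit 5) (nat_lit 43) (nat_lit 5) (nat_lit 44) (nat_lit 4) (nat_lit 484) (nat_lit 410) (nat_lit 306)))) (XT.nd (nat_lit 78) (nat_lit 76) (nat_lit 0) (XT.lf (nat_lit 0) (nat_lit 4816510615) (nat_lit 152) (nat_lit 47588721803) (nat_lit 76) (nat_lit 15083934159) (nat_lit 40) (nat_lit 5) (nat_lit 42) (nat_lit 5) (nat_lit 41) (nat_lit 4) (nat_lit 485) (nat_lit 410) (nat_lit 305)) (XT.nd (nat_lit 78) (nat_lit 0) (nat_lit 0) (XT.lf (nat_lit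 0) (nat_lit 4929067412) (nat_lit 76) (nat_lit 25766341363) (nat_lit 152) (nat_lit 39314166964) (nat_lit 39) (nat_lit 5) (nat_lit 40) (nat_lit 5) (nat_lit 41) (nat_lit 4) (nat_lit 486) (nat_lit 410) (nat_lit 304)) (XT.lf (nat_lit 0) (nat_lit 58368179252) (nat_lit 152) (nat_lit 11631063812) (nat_lit 0) (nat_lit 2641764947) (nat_lit 39) (nat_lit 5) (nat_lit 41) (nat_lit 4) (nat_lit 39) (nat_lit 4) (nat_lit 487) (nat_lit 410) (nat_lit 303))))) (XT.nd (nat_lit 234) (nat_lit 304) (nat_lit 0) (XT.nd (nat_lit 78) (nat_lit 152) (nat_lit 0) (XT.lf (nat_lit 0) (nat_lit 12470902168) (nat_lit 152) (nat_lit 30424902072) (nat_lit 76) (nat_lit 32484194900) (nat_lit 37) (nat_lit 5) (nat_lit 39) (nat_lit 5) (nat_lit 38) (nat_lit 4) (nat_lit 488) (nat_lit 410) (nat_lit 302)) (XT.nd (nat_lit 78) (nat_lit 76) (nat_lit 0) (XT.lf (nat_lit 0) (nat_lit 26708298770) (nat_lit 76) (nat_lit 13913802110) (nat_lit 152) (nat_lit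 37618635953) (nat_lit 36) (nat_lit 5) (nat_lit 37) (nat_lit 5) (nat_lit 38) (nat_lit 4) (nat_lit 489) (nat_lit 410) (nat_lit 301)) (XT.lf (nat_lit 0) (nat_lit 6026171204) (nat_lit 76) (nat_lit 64673066775) (nat_lit 76) (nat_lit 10529722474) (nat_lit 35) (nat_lit 4) (nat_lit 36) (nat_lit 5) (nat_lit 36) (nat_lit 4) (nat_lit 490) (nat_lit 410) (nat_lit 300)))) (XT.nd (nat_lit 156) (nat_lit 152) (nat_lit 0) (XT.nd (nat_lit 78) (nat_lit 76) (nat_lit 0) (XT.lf (nat_lit 0) (nat_lit 18225914482) (nat_lit 152) (nat_lit 17156830932) (nat_lit 76) (nat_lit 48958829181) (nat_lit 34) (nat_lit 5) (nat_lit 36) (nat_lit 5) (nat_lit 35) (nat_lit 4) (nat_lit 491) (nat_lit 410) (nat_lit 299)) (XT.lf (nat_lit 0) (nat_lit 44527511792) (nat_lit 76) (nat_lit 4090451899) (nat_lit 152) (nat_lit 38976236423) (nat_lit 33) (nat_lit 5) (nat_lit 34) (nat_lit 5) (nat_lit 35) (nat_lit 4) (nat_lit 492) (nat_lit 410) (nat_lit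 298))) (XT.nd (nat_lit 78) (nat_lit 76) (nat_lit 0) (XT.lf (nat_lit 0) (nat_lit 18711251347) (nat_lit 76) (nat_lit 62439744970) (nat_lit 76) (nat_lit 9839819497) (nat_lit 32) (nat_lit 4) (nat_lit 33) (nat_lit 5) (nat_lit 33) (nat_lit 4) (nat_lit 493) (nat_lit 410) (nat_lit 297)) (XT.lf (nat_lit 0) (nat_lit 20824350932) (nat_lit 152) (nat_lit 10336635230) (nat_lit 76) (nat_lit 63376014411) (nat_lit 31) (nat_lit 5) (nat_lit 33) (nat_lit 5) (nat_lit 32) (nat_lit 4) (nat_lit 494) (nat_lit 410) (nat_lit 296)))))) (XT.nd (nat_lit 56238) (nat_lit 0) (nat_lit 19304) (XT.nd (nat_lit 56004) (nat_lit 0) (nat_lit 22344) (XT.nd (nat_lit 55848) (nat_lit 0) (nat_lit 23180) (XT.lf (nat_lit 0) (nat_lit 23122054817) (nat_lit 76) (nat_lit 65042785584) (nat_lit 76) (nat_lit 13946740883) (nat_lit 29) (nat_lit 4) (nat_lit 30) (nat_lit 5) (nat_lit 30) (nat_lit 4) (nat_lit 496) (nat_lit 410) (nat_lit 294)) (XT.nd (nat_lit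 78) (nat_lit 0) (nat_lit 0) (XT.lf (nat_lit 0) (nat_lit 1403752513) (nat_lit 988) (nat_lit 1259155799) (nat_lit 988) (nat_lit 1259155799) (nat_lit 334) (nat_lit 3) (nat_lit 347) (nat_lit 3) (nat_lit 347) (nat_lit 5) (nat_lit 411) (nat_lit 411) (nat_lit 378)) (XT.lf (nat_lit 76) (nat_lit 3966151689) (nat_lit 0) (nat_lit 1027117864) (nat_lit 988) (nat_lit 2982916873) (nat_lit 335) (nat_lit 5) (nat_lit 334) (nat_lit 3) (nat_lit 347) (nat_lit 5) (nat_lit 412) (nat_lit 411) (nat_lit 377)))) (XT.nd (nat_lit 78) (nat_lit 912) (nat_lit 0) (XT.lf (nat_lit 76) (nat_lit 2656941104) (nat_lit 0) (nat_lit 4583575013) (nat_lit 988) (nat_lit 875802591) (nat_lit 336) (nat_lit 5) (nat_lit 335) (nat_lit 5) (nat_lit 348) (nat_lit 5) (nat_lit 413) (nat_lit 411) (nat_lit 376)) (XT.nd (nat_lit 78) (nat_lit 0) (nat_lit 0) (XT.lf (nat_lit 0) (nat_lit 1249013720) (nat_lit 988) (nat_lit 6858837608) (nat_lit 1064) (nat_lit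 157102116) (nat_lit 323) (nat_lit 5) (nat_lit 336) (nat_lit 5) (nat_lit 337) (nat_lit 5) (nat_lit 414) (nat_lit 411) (nat_lit 375)) (XT.lf (nat_lit 76) (nat_lit 180443845) (nat_lit 0) (nat_lit 3263651273) (nat_lit 1064) (nat_lit 4977233108) (nat_lit 324) (nat_lit 5) (nat_lit 323) (nat_lit 5) (nat_lit 337) (nat_lit 5) (nat_lit 415) (nat_lit 411) (nat_lit 374))))) (XT.nd (nat_lit 234) (nat_lit 2128) (nat_lit 0) (XT.nd (nat_lit 78) (nat_lit 988) (nat_lit 0) (XT.lf (nat_lit 0) (nat_lit 5720511056) (nat_lit 988) (nat_lit 965421745) (nat_lit 1064) (nat_lit 1900472546) (nat_lit 324) (nat_lit 5) (nat_lit 337) (nat_lit 5) (nat_lit 338) (nat_lit 5) (nat_lit 416) (nat_lit 411) (nat_lit 373)) (XT.nd (nat_lit 78) (nat_lit 988) (nat_lit 0) (XT.lf (nat_lit 76) (nat_lit 6696482324) (nat_lit 0) (nat_lit 1399914355) (nat_lit 1064) (nat_lit 663799715) (nat_lit 325) (nat_lit 5) (nat_lit 324) (nat_lit 5) (nat_lit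 338) (nat_lit 5) (nat_lit 417) (nat_lit 411) (nat_lit 372)) (XT.lf (nat_lit 0) (nat_lit 1615321655) (nat_lit 1064) (nat_lit 3142267644) (nat_lit 1140) (nat_lit 4184666994) (nat_lit 311) (nat_lit 5) (nat_lit 325) (nat_lit 5) (nat_lit 326) (nat_lit 5) (nat_lit 418) (nat_lit 411) (nat_lit 371)))) (XT.nd (nat_lit 156) (nat_lit 2204) (nat_lit 0) (XT.nd (nat_lit 78) (nat_lit 0) (nat_lit 0) (XT.lf (nat_lit 0) (nat_lit 3984271296) (nat_lit 1064) (nat_lit 4176653411) (nat_lit 1140) (nat_lit 972635305) (nat_lit 312) (nat_lit 5) (nat_lit 326) (nat_lit 5) (nat_lit 327) (nat_lit 5) (nat_lit 419) (nat_lit 411) (nat_lit 370)) (XT.lf (nat_lit 76) (nat_lit 4148434277) (nat_lit 0) (nat_lit 2344858606) (nat_lit 1140) (nat_lit 2840512073) (nat_lit 313) (nat_lit 5) (nat_lit 312) (nat_lit 5) (nat_lit 327) (nat_lit 5) (nat_lit 420) (nat_lit 411) (nat_lit 369))) (XT.nd (nat_lit 78) (nat_lit 1216) (nat_lit 0) (XT.lf (nat_lit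 0) (nat_lit 3385493845) (nat_lit 1064) (nat_lit 5759637420) (nat_lit 1140) (nat_lit 398433502) (nat_lit 299) (nat_lit 5) (nat_lit 313) (nat_lit 5) (nat_lit 314) (nat_lit 5) (nat_lit 421) (nat_lit 411) (nat_lit 368)) (XT.lf (nat_lit 0) (nat_lit 2139779830) (nat_lit 1216) (nat_lit 7107851861) (nat_lit 76) (nat_lit 515089367) (nat_lit 283) (nat_lit 5) (nat_lit 299) (nat_lit 5) (nat_lit 284) (nat_lit 5) (nat_lit 422) (nat_lit 411) (nat_lit 367))))))))
noncomputable def xc68 : XT := (XT.nd (nat_lit 1950) (nat_lit 5168) (nat_lit 0) (XT.nd (nat_lit 936) (nat_lit 4788) (nat_lit 0) (XT.nd (nat_lit 468) (nat_lit 3116) (nat_lit 0) (XT.nd (nat_lit 234) (nat_lit 1140) (nat_lit 0) (XT.nd (nat_lit 78) (nat_lit 1444) (nat_lit 0) (XT.lf (nat_lit 0) (nat_lit 1942909560) (nat_lit 1216) (nat_lit 2906528228) (nat_lit 1292) (nat_lit 5141716577) (nat_lit 267) (nat_lit 5) (nat_lit 283) (nat_lit 5) (nat_lit 284) (nat_lit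 5) (nat_lit 423) (nat_lit 411) (nat_lit 366)) (XT.nd (nat_lit 78) (nat_lit 684) (nat_lit 0) (XT.lf (nat_lit 0) (nat_lit 1275201587) (nat_lit 760) (nat_lit 6457005752) (nat_lit 836) (nat_lit 2497692926) (nat_lit 257) (nat_lit 5) (nat_lit 267) (nat_lit 5) (nat_lit 268) (nat_lit 5) (nat_lit 424) (nat_lit 411) (nat_lit 365)) (XT.lf (nat_lit 0) (nat_lit 313627541) (nat_lit 684) (nat_lit 9826063871) (nat_lit 76) (nat_lit 339614096) (nat_lit 248) (nat_lit 5) (nat_lit 257) (nat_lit 5) (nat_lit 249) (nat_lit 5) (nat_lit 425) (nat_lit 411) (nat_lit 364)))) (XT.nd (nat_lit 78) (nat_lit 532) (nat_lit 0) (XT.lf (nat_lit 0) (nat_lit 21017858) (nat_lit 608) (nat_lit 3272879079) (nat_lit 684) (nat_lit 7444158439) (nat_lit 240) (nat_lit 5) (nat_lit 248) (nat_lit 5) (nat_lit 249) (nat_lit 5) (nat_lit 426) (nat_lit 411) (nat_lit 363)) (XT.nd (nat_lit 78) (nat_lit 532) (nat_lit 0) (XT.lf (nat_lit 0) (nat_lit 6487293884)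 (nat_lit 684) (nat_lit 558199216) (nat_lit 76) (nat_lit 3962342811) (nat_lit 240) (nat_lit 5) (nat_lit 249) (nat_lit 5) (nat_lit 241) (nat_lit 5) (nat_lit 427) (nat_lit 411) (nat_lit 362)) (XT.lf (nat_lit 0) (nat_lit 9902060907) (nat_lit 608) (nat_lit 1092360788) (nat_lit 76) (nat_lit 294848577) (nat_lit 233) (nat_lit 5) (nat_lit 241) (nat_lit 5) (nat_lit 234) (nat_lit 5) (nat_lit 428) (nat_lit 411) (nat_lit 361))))) (XT.nd (nat_lit 234) (nat_lit 1444) (nat_lit 0) (XT.nd (nat_lit 78) (nat_lit 1064) (nat_lit 0) (XT.lf (nat_lit 0) (nat_lit 1969818635) (nat_lit 608) (nat_lit 1635507651) (nat_lit 76) (nat_lit 7975791183) (nat_lit 225) (nat_lit 5) (nat_lit 233) (nat_lit 5) (nat_lit 226) (nat_lit 5) (nat_lit 429) (nat_lit 411) (nat_lit 360)) (XT.nd (nat_lit 78) (nat_lit 532) (nat_lit 0) (XT.lf (nat_lit 0) (nat_lit 5545009893) (nat_lit 608) (nat_lit 2153216104) (nat_lit 76) (nat_lit 4186562860) (nat_lit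 218) (nat_lit 5) (nat_lit 226) (nat_lit 5) (nat_lit 219) (nat_lit 5) (nat_lit 430) (nat_lit 411) (nat_lit 359)) (XT.lf (nat_lit 0) (nat_lit 9381117739) (nat_lit 608) (nat_lit 2628434175) (nat_lit 76) (nat_lit 191640445) (nat_lit 211) (nat_lit 5) (nat_lit 219) (nat_lit 5) (nat_lit 212) (nat_lit 5) (nat_lit 431) (nat_lit 411) (nat_lit 358)))) (XT.nd (nat_lit 78) (nat_lit 912) (nat_lit 0) (XT.lf (nat_lit 0) (nat_lit 987693535) (nat_lit 532) (nat_lit 3109236720) (nat_lit 76) (nat_lit 8432370578) (nat_lit 204) (nat_lit 5) (nat_lit 211) (nat_lit 5) (nat_lit 205) (nat_lit 5) (nat_lit 432) (nat_lit 411) (nat_lit 357)) (XT.nd (nat_lit 78) (nat_lit 456) (nat_lit 0) (XT.lf (nat_lit 0) (nat_lit 5025804920) (nat_lit 532) (nat_lit 3579250677) (nat_lit 76) (nat_lit 4264984811) (nat_lit 198) (nat_lit 5) (nat_lit 205) (nat_lit 5) (nat_lit 199) (nat_lit 5) (nat_lit 433) (nat_lit 411) (nat_lit 356)) (XT.lf (nat_lit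 0) (nat_lit 9215035866) (nat_lit 456) (nat_lit 154039855) (nat_lit 532) (nat_lit 3855654741) (nat_lit 192) (nat_lit 5) (nat_lit 198) (nat_lit 5) (nat_lit 199) (nat_lit 5) (nat_lit 434) (nat_lit 411) (nat_lit 355)))))) (XT.nd (nat_lit 468) (nat_lit 2356) (nat_lit 0) (XT.nd (nat_lit 234) (nat_lit 1140) (nat_lit 0) (XT.nd (nat_lit 78) (nat_lit 760) (nat_lit 0) (XT.lf (nat_lit 0) (nat_lit 479361643) (nat_lit 532) (nat_lit 4446718003) (nat_lit 76) (nat_lit 8666385048) (nat_lit 185) (nat_lit 5) (nat_lit 192) (nat_lit 5) (nat_lit 186) (nat_lit 5) (nat_lit 435) (nat_lit 411) (nat_lit 354)) (XT.nd (nat_lit 78) (nat_lit 380) (nat_lit 0) (XT.lf (nat_lit 0) (nat_lit 5067107158) (nat_lit 456) (nat_lit 4882529577) (nat_lit 76) (nat_lit 4024341872) (nat_lit 180) (nat_lit 5) (nat_lit 186) (nat_lit 5) (nat_lit 181) (nat_lit 5) (nat_lit 436) (nat_lit 411) (nat_lit 353)) (XT.lf (nat_lit 0) (nat_lit 9083244419) (nat_lit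 380) (nat_lit 930596437) (nat_lit 456) (nat_lit 4356848655) (nat_lit 175) (nat_lit 5) (nat_lit 180) (nat_lit 5) (nat_lit 181) (nat_lit 5) (nat_lit 437) (nat_lit 411) (nat_lit 352)))) (XT.nd (nat_lit 78) (nat_lit 684) (nat_lit 0) (XT.lf (nat_lit 0) (nat_lit 582419927) (nat_lit 456) (nat_lit 5699000547) (nat_lit 76) (nat_lit 8500604188) (nat_lit 169) (nat_lit 5) (nat_lit 175) (nat_lit 5) (nat_lit 170) (nat_lit 5) (nat_lit 438) (nat_lit 411) (nat_lit 351)) (XT.nd (nat_lit 78) (nat_lit 304) (nat_lit 0) (XT.lf (nat_lit 0) (nat_lit 5813024618) (nat_lit 456) (nat_lit 6115839048) (nat_lit 76) (nat_lit 3279742630) (nat_lit 164) (nat_lit 5) (nat_lit 170) (nat_lit 5) (nat_lit 165) (nat_lit 5) (nat_lit 439) (nat_lit 411) (nat_lit 350)) (XT.lf (nat_lit 0) (nat_lit 9134892344) (nat_lit 304) (nat_lit 2331726099) (nat_lit 380) (nat_lit 4185062621) (nat_lit 160) (nat_lit 5) (nat_lit 164) (nat_lit 5) (nat_lit 165)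 (nat_lit 5) (nat_lit 440) (nat_lit 411) (nat_lit 349))))) (XT.nd (nat_lit 234) (nat_lit 1292) (nat_lit 0) (XT.nd (nat_lit 78) (nat_lit 608) (nat_lit 0) (XT.lf (nat_lit 0) (nat_lit 1441627425) (nat_lit 456) (nat_lit 6927467514) (nat_lit 76) (nat_lit 7742028837) (nat_lit 154) (nat_lit 5) (nat_lit 160) (nat_lit 5) (nat_lit 155) (nat_lit 5) (nat_lit 441) (nat_lit 411) (nat_lit 348)) (XT.nd (nat_lit 78) (nat_lit 304) (nat_lit 0) (XT.lf (nat_lit 0) (nat_lit 7415831728) (nat_lit 380) (nat_lit 7344250151) (nat_lit 76) (nat_lit 1827638543) (nat_lit 150) (nat_lit 5) (nat_lit 155) (nat_lit 5) (nat_lit 151) (nat_lit 5) (nat_lit 442) (nat_lit 411) (nat_lit 347)) (XT.lf (nat_lit 0) (nat_lit 9312849699) (nat_lit 304) (nat_lit 4577002337) (nat_lit 380) (nat_lit 3192268249) (nat_lit 146) (nat_lit 5) (nat_lit 150) (nat_lit 5) (nat_lit 151) (nat_lit 5) (nat_lit 443) (nat_lit 411) (nat_lit 346)))) (XT.nd (nat_lit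 156) (nat_lit 608) (nat_lit 0) (XT.nd (nat_lit 78) (nat_lit 304) (nat_lit 0) (XT.lf (nat_lit 0) (nat_lit 3209988946) (nat_lit 380) (nat_lit 8210373297) (nat_lit 76) (nat_lit 6174477494) (nat_lit 141) (nat_lit 5) (nat_lit 146) (nat_lit 5) (nat_lit 142) (nat_lit 5) (nat_lit 444) (nat_lit 411) (nat_lit 345)) (XT.lf (nat_lit 0) (nat_lit 9469373057) (nat_lit 304) (nat_lit 573048232) (nat_lit 380) (nat_lit 8084548950) (nat_lit 137) (nat_lit 5) (nat_lit 141) (nat_lit 5) (nat_lit 142) (nat_lit 5) (nat_lit 445) (nat_lit 411) (nat_lit 344))) (XT.nd (nat_lit 78) (nat_lit 380) (nat_lit 0) (XT.lf (nat_lit 0) (nat_lit 9539990966) (nat_lit 228) (nat_lit 7916228966) (nat_lit 304) (nat_lit 1222300493) (nat_lit 134) (nat_lit 5) (nat_lit 137) (nat_lit 5) (nat_lit 138) (nat_lit 5) (nat_lit 446) (nat_lit 411) (nat_lit 343)) (XT.lf (nat_lit 0) (nat_lit 6049214034) (nat_lit 380) (nat_lit 9650916537) (nat_lit 76) (nat_lit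 3550310109) (nat_lit 129) (nat_lit 5) (nat_lit 134) (nat_lit 5) (nat_lit 130) (nat_lit 5) (nat_lit 447) (nat_lit 411) (nat_lit 342))))))) (XT.nd (nat_lit 1014) (nat_lit 2052) (nat_lit 0) (XT.nd (nat_lit 468) (nat_lit 1520) (nat_lit 0) (XT.nd (nat_lit 234) (nat_lit 760) (nat_lit 0) (XT.nd (nat_lit 78) (nat_lit 608) (nat_lit 0) (XT.lf (nat_lit 0) (nat_lit 9651412856) (nat_lit 228) (nat_lit 4236354450) (nat_lit 304) (nat_lit 5955969162) (nat_lit 126) (nat_lit 5) (nat_lit 129) (nat_lit 5) (nat_lit 130) (nat_lit 5) (nat_lit 448) (nat_lit 411) (nat_lit 341)) (XT.nd (nat_lit 78) (nat_lit 228) (nat_lit 0) (XT.lf (nat_lit 0) (nat_lit 1852172595) (nat_lit 380) (nat_lit 10767865152) (nat_lit 76) (nat_lit 7839202032) (nat_lit 121) (nat_lit 5) (nat_lit 126) (nat_lit 5) (nat_lit 122) (nat_lit 5) (nat_lit 449) (nat_lit 411) (nat_lit 340)) (XT.lf (nat_lit 0) (nat_lit 9706097005) (nat_lit 228) (nat_lit 427408164)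 (nat_lit 304) (nat_lit 10964069383) (nat_lit 118) (nat_lit 5) (nat_lit 121) (nat_lit 5) (nat_lit 122) (nat_lit 5) (nat_lit 450) (nat_lit 411) (nat_lit 339)))) (XT.nd (nat_lit 78) (nat_lit 532) (nat_lit 0) (XT.lf (nat_lit 0) (nat_lit 9674561278) (nat_lit 228) (nat_lit 9442047310) (nat_lit 304) (nat_lit 2642590410) (nat_lit 115) (nat_lit 5) (nat_lit 118) (nat_lit 5) (nat_lit 119) (nat_lit 5) (nat_lit 451) (nat_lit 411) (nat_lit 338)) (XT.nd (nat_lit 78) (nat_lit 228) (nat_lit 0) (XT.lf (nat_lit 0) (nat_lit 6189717826) (nat_lit 304) (nat_lit 12832020206) (nat_lit 76) (nat_lit 3424002037) (nat_lit 111) (nat_lit 5) (nat_lit 115) (nat_lit 5) (nat_lit 112) (nat_lit 5) (nat_lit 452) (nat_lit 411) (nat_lit 337)) (XT.lf (nat_lit 0) (nat_lit 9492018757) (nat_lit 228) (nat_lit 6195229683) (nat_lit 304) (nat_lit 7470230607) (nat_lit 108) (nat_lit 5) (nat_lit 111) (nat_lit 5) (nat_lit 112) (nat_lit 5) (nat_lit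 453) (nat_lit 411) (nat_lit 336))))) (XT.nd (nat_lit 234) (nat_lit 912) (nat_lit 0) (XT.nd (nat_lit 78) (nat_lit 380) (nat_lit 0) (XT.lf (nat_lit 0) (nat_lit 1982889897) (nat_lit 228) (nat_lit 14561375857) (nat_lit 76) (nat_lit 7352167985) (nat_lit 105) (nat_lit 5) (nat_lit 108) (nat_lit 5) (nat_lit 106) (nat_lit 5) (nat_lit 454) (nat_lit 411) (nat_lit 335)) (XT.nd (nat_lit 78) (nat_lit 152) (nat_lit 0) (XT.lf (nat_lit 0) (nat_lit 9086158195) (nat_lit 228) (nat_lit 2928614550) (nat_lit 304) (nat_lit 12647529626) (nat_lit 102) (nat_lit 5) (nat_lit 105) (nat_lit 5) (nat_lit 106) (nat_lit 5) (nat_lit 455) (nat_lit 411) (nat_lit 334)) (XT.lf (nat_lit 0) (nat_lit 8764609863) (nat_lit 152) (nat_lit 14096614128) (nat_lit 228) (nat_lit 2595854215) (nat_lit 100) (nat_lit 5) (nat_lit 102) (nat_lit 5) (nat_lit 103) (nat_lit 5) (nat_lit 456) (nat_lit 411) (nat_lit 333)))) (XT.nd (nat_lit 156) (nat_lit 456)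 (nat_lit 0) (XT.nd (nat_lit 78) (nat_lit 152) (nat_lit 0) (XT.lf (nat_lit 0) (nat_lit 8046841968) (nat_lit 304) (nat_lit 17921611806) (nat_lit 76) (nat_lit 313534777) (nat_lit 96) (nat_lit 5) (nat_lit 100) (nat_lit 5) (nat_lit 97) (nat_lit 5) (nat_lit 457) (nat_lit 411) (nat_lit 332)) (XT.lf (nat_lit 0) (nat_lit 7801441764) (nat_lit 152) (nat_lit 11727413117) (nat_lit 228) (nat_lit 7607695082) (nat_lit 94) (nat_lit 5) (nat_lit 96) (nat_lit 5) (nat_lit 97) (nat_lit 5) (nat_lit 458) (nat_lit 411) (nat_lit 331))) (XT.nd (nat_lit 78) (nat_lit 152) (nat_lit 0) (XT.lf (nat_lit 0) (nat_lit 3741351841) (nat_lit 304) (nat_lit 20849527694) (nat_lit 76) (nat_lit 3434152741) (nat_lit 90) (nat_lit 5) (nat_lit 94) (nat_lit 5) (nat_lit 91) (nat_lit 5) (nat_lit 459) (nat_lit 411) (nat_lit 330)) (XT.lf (nat_lit 0) (nat_lit 6339718592) (nat_lit 152) (nat_lit 9513536255) (nat_lit 228) (nat_lit 13091844196) (nat_lit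 88) (nat_lit 5) (nat_lit 90) (nat_lit 5) (nat_lit 91) (nat_lit 5) (nat_lit 460) (nat_lit 411) (nat_lit 329)))))) (XT.nd (nat_lit 468) (nat_lit 1064) (nat_lit 0) (XT.nd (nat_lit 234) (nat_lit 456) (nat_lit 0) (XT.nd (nat_lit 78) (nat_lit 380) (nat_lit 0) (XT.lf (nat_lit 0) (nat_lit 5412362405) (nat_lit 152) (nat_lit 23459570218) (nat_lit 228) (nat_lit 1030203352) (nat_lit 86) (nat_lit 5) (nat_lit 88) (nat_lit 5) (nat_lit 89) (nat_lit 5) (nat_lit 461) (nat_lit 411) (nat_lit 328)) (XT.nd (nat_lit 78) (nat_lit 152) (nat_lit 0) (XT.lf (nat_lit 0) (nat_lit 4226733848) (nat_lit 152) (nat_lit 7524694255) (nat_lit 228) (nat_lit 19141925356) (nat_lit 83) (nat_lit 5) (nat_lit 85) (nat_lit 5) (nat_lit 86) (nat_lit 5) (nat_lit 462) (nat_lit 411) (nat_lit 327)) (XT.lf (nat_lit 0) (nat_lit 2870762231) (nat_lit 152) (nat_lit 22623911348) (nat_lit 228) (nat_lit 6428839031) (nat_lit 81) (nat_lit 5) (nat_lit 83)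 (nat_lit 5) (nat_lit 84) (nat_lit 5) (nat_lit 463) (nat_lit 411) (nat_lit 326)))) (XT.nd (nat_lit 78) (nat_lit 228) (nat_lit 0) (XT.lf (nat_lit 0) (nat_lit 1277800991) (nat_lit 152) (nat_lit 5846050608) (nat_lit 228) (nat_lit 25869164907) (nat_lit 78) (nat_lit 5) (nat_lit 80) (nat_lit 5) (nat_lit 81) (nat_lit 5) (nat_lit 464) (nat_lit 411) (nat_lit 325)) (XT.nd (nat_lit 78) (nat_lit 228) (nat_lit 0) (XT.lf (nat_lit 0) (nat_lit 21611783274) (nat_lit 228) (nat_lit 602515620) (nat_lit 76) (nat_lit 11888071922) (nat_lit 78) (nat_lit 5) (nat_lit 81) (nat_lit 5) (nat_lit 79) (nat_lit 5) (nat_lit 465) (nat_lit 411) (nat_lit 324)) (XT.lf (nat_lit 0) (nat_lit 1877721890) (nat_lit 228) (nat_lit 2676519520) (nat_lit 76) (nat_lit 30701968510) (nat_lit 75) (nat_lit 5) (nat_lit 78) (nat_lit 5) (nat_lit 76) (nat_lit 5) (nat_lit 466) (nat_lit 411) (nat_lit 323))))) (XT.nd (nat_lit 234) (nat_lit 532) (nat_lit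 0) (XT.nd (nat_lit 78) (nat_lit 380) (nat_lit 0) (XT.lf (nat_lit 0) (nat_lit 17131195684) (nat_lit 228) (nat_lit 5184691110) (nat_lit 76) (nat_lit 14135393420) (nat_lit 73) (nat_lit 5) (nat_lit 76) (nat_lit 5) (nat_lit 74) (nat_lit 5) (nat_lit 467) (nat_lit 411) (nat_lit 322)) (XT.nd (nat_lit 78) (nat_lit 228) (nat_lit 0) (XT.lf (nat_lit 0) (nat_lit 29749012687) (nat_lit 152) (nat_lit 3734548748) (nat_lit 228) (nat_lit 4212457481) (nat_lit 71) (nat_lit 5) (nat_lit 73) (nat_lit 5) (nat_lit 74) (nat_lit 5) (nat_lit 468) (nat_lit 411) (nat_lit 321)) (XT.lf (nat_lit 0) (nat_lit 11878276372) (nat_lit 228) (nat_lit 11219636875) (nat_lit 76) (nat_lit 15888070781) (nat_lit 68) (nat_lit 5) (nat_lit 71) (nat_lit 5) (nat_lit 69) (nat_lit 5) (nat_lit 469) (nat_lit 411) (nat_lit 320)))) (XT.nd (nat_lit 156) (nat_lit 228) (nat_lit 0) (XT.nd (nat_lit 78) (nat_lit 152) (nat_lit 0) (XT.lf (nat_lit 0) (nat_lit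 25468108336) (nat_lit 152) (nat_lit 3561737001) (nat_lit 228) (nat_lit 11299049549) (nat_lit 66) (nat_lit 5) (nat_lit 68) (nat_lit 5) (nat_lit 69) (nat_lit 5) (nat_lit 470) (nat_lit 411) (nat_lit 319)) (XT.lf (nat_lit 0) (nat_lit 5677385780) (nat_lit 152) (nat_lit 19052289153) (nat_lit 76) (nat_lit 16993326093) (nat_lit 64) (nat_lit 5) (nat_lit 66) (nat_lit 5) (nat_lit 65) (nat_lit 5) (nat_lit 471) (nat_lit 411) (nat_lit 318))) (XT.nd (nat_lit 78) (nat_lit 76) (nat_lit 0) (XT.lf (nat_lit 0) (nat_lit 19394198581) (nat_lit 152) (nat_lit 4232256746) (nat_lit 228) (nat_lit 19546277286) (nat_lit 62) (nat_lit 5) (nat_lit 64) (nat_lit 5) (nat_lit 65) (nat_lit 5) (nat_lit 472) (nat_lit 411) (nat_lit 317)) (XT.lf (nat_lit 0) (nat_lit 15568568062) (nat_lit 76) (nat_lit 27397268601) (nat_lit 152) (nat_lit 1714329431) (nat_lit 61) (nat_lit 5) (nat_lit 62) (nat_lit 5) (nat_lit 63) (nat_lit 4) (nat_lit 473)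 (nat_lit 411) (nat_lit 316))))))))
noncomputable def xc69 : XT := (XT.nd (nat_lit 57876) (nat_lit 0) (nat_lit 10184) (XT.nd (nat_lit 936) (nat_lit 912) (nat_lit 0) (XT.nd (nat_lit 468) (nat_lit 608) (nat_lit 0) (XT.nd (nat_lit 234) (nat_lit 304) (nat_lit 0) (XT.nd (nat_lit 78) (nat_lit 304) (nat_lit 0) (XT.lf (nat_lit 0) (nat_lit 11093676674) (nat_lit 152) (nat_lit 5959554268) (nat_lit 228) (nat_lit 29193558415) (nat_lit 58) (nat_lit 5) (nat_lit 60) (nat_lit 5) (nat_lit 61) (nat_lit 5) (nat_lit 474) (nat_lit 411) (nat_lit 315)) (XT.nd (nat_lit 78) (nat_lit 228) (nat_lit 0) (XT.lf (nat_lit 0) (nat_lit 5933443749) (nat_lit 76) (nat_lit 31289194522) (nat_lit 152) (nat_lit 10653629527) (nat_lit 57) (nat_lit 5) (nat_lit 58) (nat_lit 5) (nat_lit 59) (nat_lit 4) (nat_lit 475) (nat_lit 411) (nat_lit 314)) (XT.lf (nat_lit 0) (nat_lit 47944147) (nat_lit 152) (nat_lit 8999675007) (nat_lit 228) (nat_lit 40524871234)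 (nat_lit 54) (nat_lit 5) (nat_lit 56) (nat_lit 5) (nat_lit 57) (nat_lit 5) (nat_lit 476) (nat_lit 411) (nat_lit 313)))) (XT.nd (nat_lit 78) (nat_lit 304) (nat_lit 0) (XT.lf (nat_lit 0) (nat_lit 30070817246) (nat_lit 228) (nat_lit 6612555888) (nat_lit 76) (nat_lit 14650270744) (nat_lit 54) (nat_lit 5) (nat_lit 57) (nat_lit 5) (nat_lit 55) (nat_lit 4) (nat_lit 477) (nat_lit 411) (nat_lit 312)) (XT.nd (nat_lit 78) (nat_lit 228) (nat_lit 0) (XT.lf (nat_lit 0) (nat_lit 39082117217) (nat_lit 76) (nat_lit 13511165423) (nat_lit 152) (nat_lit 576129965) (nat_lit 53) (nat_lit 5) (nat_lit 54) (nat_lit 5) (nat_lit 55) (nat_lit 4) (nat_lit 478) (nat_lit 411) (nat_lit 311)) (XT.lf (nat_lit 0) (nat_lit 21205054564) (nat_lit 228) (nat_lit 22688635689) (nat_lit 76) (nat_lit 11182999525) (nat_lit 50) (nat_lit 5) (nat_lit 53) (nat_lit 5) (nat_lit 51) (nat_lit 4) (nat_lit 479) (nat_lit 411) (nat_lit 310))))) (XT.nd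 (nat_lit 234) (nat_lit 228) (nat_lit 0) (XT.nd (nat_lit 78) (nat_lit 304) (nat_lit 0) (XT.lf (nat_lit 0) (nat_lit 24711688552) (nat_lit 76) (nat_lit 19854528542) (nat_lit 152) (nat_lit 12497858259) (nat_lit 49) (nat_lit 5) (nat_lit 50) (nat_lit 5) (nat_lit 51) (nat_lit 4) (nat_lit 480) (nat_lit 411) (nat_lit 309)) (XT.nd (nat_lit 78) (nat_lit 76) (nat_lit 0) (XT.lf (nat_lit 0) (nat_lit 10179312068) (nat_lit 228) (nat_lit 43199569735) (nat_lit 76) (nat_lit 5756218444) (nat_lit 46) (nat_lit 5) (nat_lit 49) (nat_lit 5) (nat_lit 47) (nat_lit 4) (nat_lit 481) (nat_lit 411) (nat_lit 308)) (XT.lf (nat_lit 0) (nat_lit 5764600286) (nat_lit 76) (nat_lit 28544898674) (nat_lit 152) (nat_lit 26979136814) (nat_lit 45) (nat_lit 5) (nat_lit 46) (nat_lit 5) (nat_lit 47) (nat_lit 4) (nat_lit 482) (nat_lit 411) (nat_lit 307)))) (XT.nd (nat_lit 78) (nat_lit 228) (nat_lit 0) (XT.lf (nat_lit 0) (nat_lit 58048369861)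 (nat_lit 76) (nat_lit 2026114987) (nat_lit 152) (nat_lit 3462515118) (nat_lit 45) (nat_lit 5) (nat_lit 46) (nat_lit 5) (nat_lit 47) (nat_lit 4) (nat_lit 483) (nat_lit 411) (nat_lit 306)) (XT.nd (nat_lit 78) (nat_lit 76) (nat_lit 0) (XT.lf (nat_lit 0) (nat_lit 21513453889) (nat_lit 152) (nat_lit 18386983916) (nat_lit 76) (nat_lit 25970289183) (nat_lit 43) (nat_lit 5) (nat_lit 45) (nat_lit 5) (nat_lit 44) (nat_lit 4) (nat_lit 484) (nat_lit 411) (nat_lit 305)) (XT.lf (nat_lit 0) (nat_lit 35507267880) (nat_lit 76) (nat_lit 12563386535) (nat_lit 152) (nat_lit 20237336692) (nat_lit 42) (nat_lit 5) (nat_lit 43) (nat_lit 5) (nat_lit 44) (nat_lit 4) (nat_lit 485) (nat_lit 411) (nat_lit 304)))))) (XT.nd (nat_lit 468) (nat_lit 380) (nat_lit 0) (XT.nd (nat_lit 234) (nat_lit 304) (nat_lit 0) (XT.nd (nat_lit 78) (nat_lit 76) (nat_lit 0) (XT.lf (nat_lit 0) (nat_lit 5535965723) (nat_lit 152) (nat_lit 49045700983)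 (nat_lit 76) (nat_lit 16267584775) (nat_lit 40) (nat_lit 5) (nat_lit 42) (nat_lit 5) (nat_lit 41) (nat_lit 4) (nat_lit 486) (nat_lit 411) (nat_lit 303)) (XT.nd (nat_lit 78) (nat_lit 0) (nat_lit 0) (XT.lf (nat_lit 0) (nat_lit 6071535651) (nat_lit 76) (nat_lit 26623094299) (nat_lit 152) (nat_lit 40801477210) (nat_lit 39) (nat_lit 5) (nat_lit 40) (nat_lit 5) (nat_lit 41) (nat_lit 4) (nat_lit 487) (nat_lit 411) (nat_lit 302)) (XT.lf (nat_lit 0) (nat_lit 61732873162) (nat_lit 152) (nat_lit 11349937215) (nat_lit 0) (nat_lit 3176846300) (nat_lit 39) (nat_lit 5) (nat_lit 41) (nat_lit 4) (nat_lit 39) (nat_lit 4) (nat_lit 488) (nat_lit 411) (nat_lit 301)))) (XT.nd (nat_lit 78) (nat_lit 152) (nat_lit 0) (XT.lf (nat_lit 0) (nat_lit 13531835774) (nat_lit 152) (nat_lit 31099478851) (nat_lit 76) (nat_lit 34504550626) (nat_lit 37) (nat_lit 5) (nat_lit 39) (nat_lit 5) (nat_lit 38) (nat_lit 4) (nat_lit 489) (nat_lit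 411) (nat_lit 300)) (XT.nd (nat_lit 78) (nat_lit 76) (nat_lit 0) (XT.lf (nat_lit 0) (nat_lit 28866112456) (nat_lit 76) (nat_lit 14211559342) (nat_lit 152) (nat_lit 39062356290) (nat_lit 36) (nat_lit 5) (nat_lit 37) (nat_lit 5) (nat_lit 38) (nat_lit 4) (nat_lit 490) (nat_lit 411) (nat_lit 299)) (XT.lf (nat_lit 0) (nat_lit 7134969328) (nat_lit 76) (nat_lit 67514888870) (nat_lit 76) (nat_lit 10628069471) (nat_lit 35) (nat_lit 4) (nat_lit 36) (nat_lit 5) (nat_lit 36) (nat_lit 4) (nat_lit 491) (nat_lit 411) (nat_lit 298))))) (XT.nd (nat_lit 312) (nat_lit 152) (nat_lit 0) (XT.nd (nat_lit 78) (nat_lit 152) (nat_lit 0) (XT.lf (nat_lit 0) (nat_lit 19537005054) (nat_lit 152) (nat_lit 17237667873) (nat_lit 76) (nat_lit 51771976327) (nat_lit 34) (nat_lit 5) (nat_lit 36) (nat_lit 5) (nat_lit 35) (nat_lit 4) (nat_lit 492) (nat_lit 411) (nat_lit 297)) (XT.nd (nat_lit 78) (nat_lit 76) (nat_lit 0) (XT.lf (nat_lit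 0) (nat_lit 47508619306) (nat_lit 76) (nat_lit 3928254513) (nat_lit 152) (nat_lit 40525386205) (nat_lit 33) (nat_lit 5) (nat_lit 34) (nat_lit 5) (nat_lit 35) (nat_lit 4) (nat_lit 493) (nat_lit 411) (nat_lit 296)) (XT.lf (nat_lit 0) (nat_lit 20387803659) (nat_lit 76) (nat_lit 65200757778) (nat_lit 76) (nat_lit 9940385435) (nat_lit 32) (nat_lit 4) (nat_lit 33) (nat_lit 5) (nat_lit 33) (nat_lit 4) (nat_lit 494) (nat_lit 411) (nat_lit 295)))) (XT.nd (nat_lit 56004) (nat_lit 0) (nat_lit 22116) (XT.nd (nat_lit 55926) (nat_lit 0) (nat_lit 23104) (XT.lf (nat_lit 0) (nat_lit 56391333219) (nat_lit 152) (nat_lit 44028094525) (nat_lit 0) (nat_lit 2723049003) (nat_lit 30) (nat_lit 5) (nat_lit 32) (nat_lit 4) (nat_lit 30) (nat_lit 4) (nat_lit 496) (nat_lit 411) (nat_lit 293)) (XT.lf (nat_lit 0) (nat_lit 3518957120) (nat_lit 988) (nat_lit 268645506) (nat_lit 988) (nat_lit 268645506) (nat_lit 334) (nat_lit 3)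 (nat_lit 347) (nat_lit 3) (nat_lit 347) (nat_lit 5) (nat_lit 412) (nat_lit 412) (nat_lit 376))) (XT.nd (nat_lit 78) (nat_lit 0) (nat_lit 76) (XT.lf (nat_lit 0) (nat_lit 883822018) (nat_lit 988) (nat_lit 2054128654) (nat_lit 1064) (nat_lit 5318253648) (nat_lit 321) (nat_lit 5) (nat_lit 334) (nat_lit 3) (nat_lit 335) (nat_lit 5) (nat_lit 413) (nat_lit 412) (nat_lit 375)) (XT.lf (nat_lit 0) (nat_lit 2868107135) (nat_lit 988) (nat_lit 3527022950) (nat_lit 1064) (nat_lit 2013175528) (nat_lit 322) (nat_lit 5) (nat_lit 335) (nat_lit 5) (nat_lit 336) (nat_lit 5) (nat_lit 414) (nat_lit 412) (nat_lit 374))))))) (XT.nd (nat_lit 1014) (nat_lit 5776) (nat_lit 0) (XT.nd (nat_lit 468) (nat_lit 5320) (nat_lit 0) (XT.nd (nat_lit 234) (nat_lit 0) (nat_lit 0) (XT.nd (nat_lit 78) (nat_lit 912) (nat_lit 0) (XT.lf (nat_lit 76) (nat_lit 3611609450) (nat_lit 0) (nat_lit 1308989580) (nat_lit 1064) (nat_lit 3648374178)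 (nat_lit 323) (nat_lit 5) (nat_lit 322) (nat_lit 5) (nat_lit 336) (nat_lit 5) (nat_lit 415) (nat_lit 412) (nat_lit 373)) (XT.nd (nat_lit 78) (nat_lit 988) (nat_lit 0) (XT.lf (nat_lit 76) (nat_lit 2381768165) (nat_lit 0) (nat_lit 4680892902) (nat_lit 1064) (nat_lit 1675434288) (nat_lit 324) (nat_lit 5) (nat_lit 323) (nat_lit 5) (nat_lit 337) (nat_lit 5) (nat_lit 416) (nat_lit 412) (nat_lit 372)) (XT.lf (nat_lit 0) (nat_lit 365264209) (nat_lit 1064) (nat_lit 7711358153) (nat_lit 1140) (nat_lit 839659057) (nat_lit 310) (nat_lit 5) (nat_lit 324) (nat_lit 5) (nat_lit 325) (nat_lit 5) (nat_lit 417) (nat_lit 412) (nat_lit 371)))) (XT.nd (nat_lit 78) (nat_lit 0) (nat_lit 76) (XT.lf (nat_lit 76) (nat_lit 40114661) (nat_lit 0) (nat_lit 2444281701) (nat_lit 1140) (nat_lit 6618177302) (nat_lit 311) (nat_lit 5) (nat_lit 310) (nat_lit 5) (nat_lit 325) (nat_lit 5) (nat_lit 418) (nat_lit 412) (nat_lit 370)) (XT.nd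 (nat_lit 78) (nat_lit 0) (nat_lit 76) (XT.lf (nat_lit 0) (nat_lit 4724538673) (nat_lit 1064) (nat_lit 1062365893) (nat_lit 1140) (nat_lit 3510849121) (nat_lit 311) (nat_lit 5) (nat_lit 325) (nat_lit 5) (nat_lit 326) (nat_lit 5) (nat_lit 419) (nat_lit 412) (nat_lit 369)) (XT.lf (nat_lit 0) (nat_lit 7081572323) (nat_lit 1064) (nat_lit 2117676455) (nat_lit 1140) (nat_lit 303320999) (nat_lit 312) (nat_lit 5) (nat_lit 326) (nat_lit 5) (nat_lit 327) (nat_lit 5) (nat_lit 420) (nat_lit 412) (nat_lit 368))))) (XT.nd (nat_lit 234) (nat_lit 3268) (nat_lit 0) (XT.nd (nat_lit 78) (nat_lit 2204) (nat_lit 0) (XT.lf (nat_lit 76) (nat_lit 6558659310) (nat_lit 0) (nat_lit 3040556207) (nat_lit 1140) (nat_lit 117150887) (nat_lit 313) (nat_lit 5) (nat_lit 312) (nat_lit 5) (nat_lit 327) (nat_lit 5) (nat_lit 421) (nat_lit 412) (nat_lit 367)) (XT.nd (nat_lit 78) (nat_lit 1140) (nat_lit 0) (XT.lf (nat_lit 0) (nat_lit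 2281765776) (nat_lit 1140) (nat_lit 4180960031) (nat_lit 76) (nat_lit 3476740140) (nat_lit 298) (nat_lit 5) (nat_lit 313) (nat_lit 5) (nat_lit 299) (nat_lit 5) (nat_lit 422) (nat_lit 412) (nat_lit 366)) (XT.lf (nat_lit 0) (nat_lit 4828284045) (nat_lit 1216) (nat_lit 5165923697) (nat_lit 76) (nat_lit 178595357) (nat_lit 283) (nat_lit 5) (nat_lit 299) (nat_lit 5) (nat_lit 284) (nat_lit 5) (nat_lit 423) (nat_lit 412) (nat_lit 365)))) (XT.nd (nat_lit 156) (nat_lit 1292) (nat_lit 0) (XT.nd (nat_lit 78) (nat_lit 760) (nat_lit 0) (XT.lf (nat_lit 0) (nat_lit 4271523557) (nat_lit 1216) (nat_lit 3300422288) (nat_lit 1292) (nat_lit 2843785577) (nat_lit 267) (nat_lit 5) (nat_lit 283) (nat_lit 5) (nat_lit 284) (nat_lit 5) (nat_lit 424) (nat_lit 412) (nat_lit 364)) (XT.lf (nat_lit 0) (nat_lit 3581617836) (nat_lit 760) (nat_lit 6918421256) (nat_lit 836) (nat_lit 169367567) (nat_lit 257) (nat_lit 5) (nat_lit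 267) (nat_lit 5) (nat_lit 268) (nat_lit 5) (nat_lit 425) (nat_lit 412) (nat_lit 363))) (XT.nd (nat_lit 78) (nat_lit 608) (nat_lit 0) (XT.lf (nat_lit 0) (nat_lit 2640665435) (nat_lit 684) (nat_lit 8021266403) (nat_lit 76) (nat_lit 271487868) (nat_lit 248) (nat_lit 5) (nat_lit 257) (nat_lit 5) (nat_lit 249) (nat_lit 5) (nat_lit 426) (nat_lit 412) (nat_lit 362)) (XT.lf (nat_lit 0) (nat_lit 2252352148) (nat_lit 608) (nat_lit 3428970407) (nat_lit 684) (nat_lit 5526467591) (nat_lit 240) (nat_lit 5) (nat_lit 248) (nat_lit 5) (nat_lit 249) (nat_lit 5) (nat_lit 427) (nat_lit 412) (nat_lit 361)))))) (XT.nd (nat_lit 468) (nat_lit 3040) (nat_lit 0) (XT.nd (nat_lit 234) (nat_lit 1064) (nat_lit 0) (XT.nd (nat_lit 78) (nat_lit 1140) (nat_lit 0) (XT.lf (nat_lit 0) (nat_lit 1633750994) (nat_lit 532) (nat_lit 7310567788) (nat_lit 608) (nat_lit 2549466188) (nat_lit 233) (nat_lit 5) (nat_lit 240) (nat_lit 5) (nat_lit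 241) (nat_lit 5) (nat_lit 428) (nat_lit 412) (nat_lit 360)) (XT.nd (nat_lit 78) (nat_lit 532) (nat_lit 0) (XT.lf (nat_lit 0) (nat_lit 640174751) (nat_lit 608) (nat_lit 10738494430) (nat_lit 76) (nat_lit 413006952) (nat_lit 225) (nat_lit 5) (nat_lit 233) (nat_lit 5) (nat_lit 226) (nat_lit 5) (nat_lit 429) (nat_lit 412) (nat_lit 359)) (XT.lf (nat_lit 0) (nat_lit 454704053) (nat_lit 532) (nat_lit 3598622014) (nat_lit 608) (nat_lit 8046889118) (nat_lit 218) (nat_lit 5) (nat_lit 225) (nat_lit 5) (nat_lit 226) (nat_lit 5) (nat_lit 430) (nat_lit 412) (nat_lit 358)))) (XT.nd (nat_lit 78) (nat_lit 1064) (nat_lit 0) (XT.lf (nat_lit 0) (nat_lit 7730657130) (nat_lit 608) (nat_lit 104054378) (nat_lit 76) (nat_lit 4586676640) (nat_lit 218) (nat_lit 5) (nat_lit 226) (nat_lit 5) (nat_lit 219) (nat_lit 5) (nat_lit 431) (nat_lit 412) (nat_lit 357)) (XT.nd (nat_lit 78) (nat_lit 532) (nat_lit 0) (XT.lf (nat_lit 0)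 (nat_lit 11690306427) (nat_lit 608) (nat_lit 611832398) (nat_lit 76) (nat_lit 453539406) (nat_lit 211) (nat_lit 5) (nat_lit 219) (nat_lit 5) (nat_lit 212) (nat_lit 5) (nat_lit 432) (nat_lit 412) (nat_lit 356)) (XT.lf (nat_lit 0) (nat_lit 2827537300) (nat_lit 532) (nat_lit 1142272189) (nat_lit 76) (nat_lit 9131900715) (nat_lit 204) (nat_lit 5) (nat_lit 211) (nat_lit 5) (nat_lit 205) (nat_lit 5) (nat_lit 433) (nat_lit 412) (nat_lit 355))))) (XT.nd (nat_lit 234) (nat_lit 1596) (nat_lit 0) (XT.nd (nat_lit 78) (nat_lit 988) (nat_lit 0) (XT.lf (nat_lit 0) (nat_lit 7005346865) (nat_lit 532) (nat_lit 1647784991) (nat_lit 76) (nat_lit 4808237406) (nat_lit 198) (nat_lit 5) (nat_lit 205) (nat_lit 5) (nat_lit 199) (nat_lit 5) (nat_lit 434) (nat_lit 412) (nat_lit 354)) (XT.nd (nat_lit 78) (nat_lit 532) (nat_lit 0) (XT.lf (nat_lit 0) (nat_lit 11505327834) (nat_lit 532) (nat_lit 2112105336) (nat_lit 76) (nat_lit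 218189755) (nat_lit 192) (nat_lit 5) (nat_lit 199) (nat_lit 5) (nat_lit 193) (nat_lit 5) (nat_lit 435) (nat_lit 412) (nat_lit 353)) (XT.lf (nat_lit 0) (nat_lit 2128989736) (nat_lit 532) (nat_lit 2599990414) (nat_lit 76) (nat_lit 9494051237) (nat_lit 185) (nat_lit 5) (nat_lit 192) (nat_lit 5) (nat_lit 186) (nat_lit 5) (nat_lit 436) (nat_lit 412) (nat_lit 352)))) (XT.nd (nat_lit 156) (nat_lit 836) (nat_lit 0) (XT.nd (nat_lit 78) (nat_lit 380) (nat_lit 0) (XT.lf (nat_lit 0) (nat_lit 6892279709) (nat_lit 456) (nat_lit 3073852349) (nat_lit 76) (nat_lit 4659117876) (nat_lit 180) (nat_lit 5) (nat_lit 186) (nat_lit 5) (nat_lit 181) (nat_lit 5) (nat_lit 437) (nat_lit 412) (nat_lit 351)) (XT.lf (nat_lit 0) (nat_lit 11531367141) (nat_lit 380) (nat_lit 499301681) (nat_lit 456) (nat_lit 3012811003) (nat_lit 175) (nat_lit 5) (nat_lit 180) (nat_lit 5) (nat_lit 181) (nat_lit 5) (nat_lit 438) (nat_lit 412) (nat_lit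 350))) (XT.nd (nat_lit 78) (nat_lit 380) (nat_lit 0) (XT.lf (nat_lit 0) (nat_lit 2093627034) (nat_lit 456) (nat_lit 3977438215) (nat_lit 76) (nat_lit 9405357579) (nat_lit 169) (nat_lit 5) (nat_lit 175) (nat_lit 5) (nat_lit 170) (nat_lit 5) (nat_lit 439) (nat_lit 412) (nat_lit 349)) (XT.lf (nat_lit 0) (nat_lit 7538907921) (nat_lit 456) (nat_lit 4434485066) (nat_lit 76) (nat_lit 3952357630) (nat_lit 164) (nat_lit 5) (nat_lit 170) (nat_lit 5) (nat_lit 165) (nat_lit 5) (nat_lit 440) (nat_lit 412) (nat_lit 348))))))))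
noncomputable def xc70 : XT := (XT.nd (nat_lit 1950) (nat_lit 3192) (nat_lit 0) (XT.nd (nat_lit 936) (nat_lit 2812) (nat_lit 0) (XT.nd (nat_lit 468) (nat_lit 1672) (nat_lit 0) (XT.nd (nat_lit 234) (nat_lit 988) (nat_lit 0) (XT.nd (nat_lit 78) (nat_lit 760) (nat_lit 0) (XT.lf (nat_lit 0) (nat_lit 11521821756) (nat_lit 304) (nat_lit 1903569413) (nat_lit 380) (nat_lit 2967092569) (nat_lit 160) (nat_lit 5) (nat_lit 164) (nat_lit 5) (nat_lit 165) (nat_lit 5) (nat_lit 441) (nat_lit 412) (nat_lit 347)) (XT.nd (nat_lit 78) (nat_lit 304) (nat_lit 0) (XT.lf (nat_lit 0) (nat_lit 2870026643) (nat_lit 456) (nat_lit 5336291959) (nat_lit 76) (nat_lit 8669470139) (nat_lit 154) (nat_lit 5) (nat_lit 160) (nat_lit 5) (nat_lit 155) (nat_lit 5) (nat_lit 442) (nat_lit 412) (nat_lit 346)) (XT.lf (nat_lit 0) (nat_lit 9101945837) (nat_lit 380) (nat_lit 5795466640) (nat_lit 76) (nat_lit 2480042208) (nat_lit 150) (nat_lit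 5) (nat_lit 155) (nat_lit 5) (nat_lit 151) (nat_lit 5) (nat_lit 443) (nat_lit 412) (nat_lit 345)))) (XT.nd (nat_lit 78) (nat_lit 684) (nat_lit 0) (XT.lf (nat_lit 0) (nat_lit 11639566561) (nat_lit 304) (nat_lit 4215355979) (nat_lit 380) (nat_lit 2043003485) (nat_lit 146) (nat_lit 5) (nat_lit 150) (nat_lit 5) (nat_lit 151) (nat_lit 5) (nat_lit 444) (nat_lit 412) (nat_lit 344)) (XT.nd (nat_lit 78) (nat_lit 304) (nat_lit 0) (XT.lf (nat_lit 0) (nat_lit 4616030442) (nat_lit 380) (nat_lit 6756518130) (nat_lit 76) (nat_lit 7064497740) (nat_lit 141) (nat_lit 5) (nat_lit 146) (nat_lit 5) (nat_lit 142) (nat_lit 5) (nat_lit 445) (nat_lit 412) (nat_lit 343)) (XT.lf (nat_lit 0) (nat_lit 11748234425) (nat_lit 380) (nat_lit 7243328629) (nat_lit 76) (nat_lit 5483838) (nat_lit 137) (nat_lit 5) (nat_lit 142) (nat_lit 5) (nat_lit 138) (nat_lit 5) (nat_lit 446) (nat_lit 412) (nat_lit 342))))) (XT.nd (nat_lit 234)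 (nat_lit 836) (nat_lit 0) (XT.nd (nat_lit 78) (nat_lit 608) (nat_lit 0) (XT.lf (nat_lit 0) (nat_lit 11805572669) (nat_lit 228) (nat_lit 7692533097) (nat_lit 304) (nat_lit 79115010) (nat_lit 134) (nat_lit 5) (nat_lit 137) (nat_lit 5) (nat_lit 138) (nat_lit 5) (nat_lit 447) (nat_lit 412) (nat_lit 341)) (XT.nd (nat_lit 78) (nat_lit 228) (nat_lit 0) (XT.lf (nat_lit 0) (nat_lit 7499115548) (nat_lit 380) (nat_lit 8344739821) (nat_lit 76) (nat_lit 4334542257) (nat_lit 129) (nat_lit 5) (nat_lit 134) (nat_lit 5) (nat_lit 130) (nat_lit 5) (nat_lit 448) (nat_lit 412) (nat_lit 340)) (XT.lf (nat_lit 0) (nat_lit 11871432668) (nat_lit 228) (nat_lit 3820225201) (nat_lit 304) (nat_lit 5110845248) (nat_lit 126) (nat_lit 5) (nat_lit 129) (nat_lit 5) (nat_lit 130) (nat_lit 5) (nat_lit 449) (nat_lit 412) (nat_lit 339)))) (XT.nd (nat_lit 78) (nat_lit 456) (nat_lit 0) (XT.lf (nat_lit 0) (nat_lit 3034485425) (nat_lit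 380) (nat_lit 9570201687) (nat_lit 76) (nat_lit 8844698604) (nat_lit 121) (nat_lit 5) (nat_lit 126) (nat_lit 5) (nat_lit 122) (nat_lit 5) (nat_lit 450) (nat_lit 412) (nat_lit 338)) (XT.nd (nat_lit 78) (nat_lit 228) (nat_lit 0) (XT.lf (nat_lit 0) (nat_lit 11695967461) (nat_lit 304) (nat_lit 10244782577) (nat_lit 76) (nat_lit 179910653) (nat_lit 118) (nat_lit 5) (nat_lit 122) (nat_lit 5) (nat_lit 119) (nat_lit 5) (nat_lit 451) (nat_lit 412) (nat_lit 337)) (XT.lf (nat_lit 0) (nat_lit 11821171412) (nat_lit 228) (nat_lit 9276872215) (nat_lit 304) (nat_lit 1718233871) (nat_lit 115) (nat_lit 5) (nat_lit 118) (nat_lit 5) (nat_lit 119) (nat_lit 5) (nat_lit 452) (nat_lit 412) (nat_lit 336)))))) (XT.nd (nat_lit 468) (nat_lit 1368) (nat_lit 0) (XT.nd (nat_lit 234) (nat_lit 684) (nat_lit 0) (XT.nd (nat_lit 78) (nat_lit 456) (nat_lit 0) (XT.lf (nat_lit 0) (nat_lit 7507552334) (nat_lit 304) (nat_lit 11814186503)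 (nat_lit 76) (nat_lit 4215933004) (nat_lit 111) (nat_lit 5) (nat_lit 115) (nat_lit 5) (nat_lit 112) (nat_lit 5) (nat_lit 453) (nat_lit 412) (nat_lit 335)) (XT.nd (nat_lit 78) (nat_lit 228) (nat_lit 0) (XT.lf (nat_lit 0) (nat_lit 11578487045) (nat_lit 228) (nat_lit 5868950087) (nat_lit 304) (nat_lit 6838541295) (nat_lit 108) (nat_lit 5) (nat_lit 111) (nat_lit 5) (nat_lit 112) (nat_lit 5) (nat_lit 454) (nat_lit 412) (nat_lit 334)) (XT.lf (nat_lit 0) (nat_lit 3041986477) (nat_lit 228) (nat_lit 13681990164) (nat_lit 76) (nat_lit 8338387958) (nat_lit 105) (nat_lit 5) (nat_lit 108) (nat_lit 5) (nat_lit 106) (nat_lit 5) (nat_lit 455) (nat_lit 412) (nat_lit 333)))) (XT.nd (nat_lit 78) (nat_lit 456) (nat_lit 0) (XT.lf (nat_lit 0) (nat_lit 11101843230) (nat_lit 228) (nat_lit 2442917146) (nat_lit 304) (nat_lit 12322691774) (nat_lit 102) (nat_lit 5) (nat_lit 105) (nat_lit 5) (nat_lit 106) (nat_lit 5) (nat_lit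 456) (nat_lit 412) (nat_lit 332)) (XT.nd (nat_lit 78) (nat_lit 304) (nat_lit 0) (XT.lf (nat_lit 0) (nat_lit 10740722416) (nat_lit 152) (nat_lit 14169131929) (nat_lit 228) (nat_lit 1792827010) (nat_lit 100) (nat_lit 5) (nat_lit 102) (nat_lit 5) (nat_lit 103) (nat_lit 5) (nat_lit 457) (nat_lit 412) (nat_lit 331)) (XT.lf (nat_lit 0) (nat_lit 9340795287) (nat_lit 304) (nat_lit 17285505551) (nat_lit 76) (nat_lit 942961424) (nat_lit 96) (nat_lit 5) (nat_lit 100) (nat_lit 5) (nat_lit 97) (nat_lit 5) (nat_lit 458) (nat_lit 412) (nat_lit 330))))) (XT.nd (nat_lit 234) (nat_lit 760) (nat_lit 0) (XT.nd (nat_lit 78) (nat_lit 456) (nat_lit 0) (XT.lf (nat_lit 0) (nat_lit 9679780869) (nat_lit 152) (nat_lit 11688976433) (nat_lit 228) (nat_lit 7098642674) (nat_lit 94) (nat_lit 5) (nat_lit 96) (nat_lit 5) (nat_lit 97) (nat_lit 5) (nat_lit 459) (nat_lit 412) (nat_lit 329)) (XT.nd (nat_lit 78) (nat_lit 152) (nat_lit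 0) (XT.lf (nat_lit 0) (nat_lit 4778971423) (nat_lit 304) (nat_lit 20410003167) (nat_lit 76) (nat_lit 4211724599) (nat_lit 90) (nat_lit 5) (nat_lit 94) (nat_lit 5) (nat_lit 91) (nat_lit 5) (nat_lit 460) (nat_lit 412) (nat_lit 328)) (XT.lf (nat_lit 0) (nat_lit 8096224175) (nat_lit 152) (nat_lit 9373580471) (nat_lit 228) (nat_lit 12897767840) (nat_lit 88) (nat_lit 5) (nat_lit 90) (nat_lit 5) (nat_lit 91) (nat_lit 5) (nat_lit 461) (nat_lit 412) (nat_lit 327)))) (XT.nd (nat_lit 156) (nat_lit 380) (nat_lit 0) (XT.nd (nat_lit 78) (nat_lit 228) (nat_lit 0) (XT.lf (nat_lit 0) (nat_lit 7099559585) (nat_lit 152) (nat_lit 24019877070) (nat_lit 228) (nat_lit 253627091) (nat_lit 86) (nat_lit 5) (nat_lit 88) (nat_lit 5) (nat_lit 89) (nat_lit 5) (nat_lit 462) (nat_lit 412) (nat_lit 326)) (XT.lf (nat_lit 0) (nat_lit 5829797688) (nat_lit 152) (nat_lit 7295844220) (nat_lit 228) (nat_lit 19288722804) (nat_lit 83)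 (nat_lit 5) (nat_lit 85) (nat_lit 5) (nat_lit 86) (nat_lit 5) (nat_lit 463) (nat_lit 412) (nat_lit 325))) (XT.nd (nat_lit 78) (nat_lit 228) (nat_lit 0) (XT.lf (nat_lit 0) (nat_lit 4383462507) (nat_lit 152) (nat_lit 23153828684) (nat_lit 228) (nat_lit 5959306104) (nat_lit 81) (nat_lit 5) (nat_lit 83) (nat_lit 5) (nat_lit 84) (nat_lit 5) (nat_lit 464) (nat_lit 412) (nat_lit 324)) (XT.lf (nat_lit 0) (nat_lit 2686650108) (nat_lit 152) (nat_lit 5544932268) (nat_lit 228) (nat_lit 26388488484) (nat_lit 78) (nat_lit 5) (nat_lit 80) (nat_lit 5) (nat_lit 81) (nat_lit 5) (nat_lit 465) (nat_lit 412) (nat_lit 323))))))) (XT.nd (nat_lit 1014) (nat_lit 1368) (nat_lit 0) (XT.nd (nat_lit 468) (nat_lit 912) (nat_lit 0) (XT.nd (nat_lit 234) (nat_lit 532) (nat_lit 0) (XT.nd (nat_lit 78) (nat_lit 228) (nat_lit 0) (XT.lf (nat_lit 0) (nat_lit 677581817) (nat_lit 152) (nat_lit 22742487306) (nat_lit 228) (nat_lit 12365541405)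 (nat_lit 76) (nat_lit 5) (nat_lit 78) (nat_lit 5) (nat_lit 79) (nat_lit 5) (nat_lit 466) (nat_lit 412) (nat_lit 322)) (XT.nd (nat_lit 78) (nat_lit 152) (nat_lit 0) (XT.lf (nat_lit 0) (nat_lit 2677524530) (nat_lit 228) (nat_lit 1536429176) (nat_lit 76) (nat_lit 32783844897) (nat_lit 75) (nat_lit 5) (nat_lit 78) (nat_lit 5) (nat_lit 76) (nat_lit 5) (nat_lit 467) (nat_lit 412) (nat_lit 321)) (XT.lf (nat_lit 0) (nat_lit 18677269316) (nat_lit 228) (nat_lit 4191275542) (nat_lit 76) (nat_lit 15384571744) (nat_lit 73) (nat_lit 5) (nat_lit 76) (nat_lit 5) (nat_lit 74) (nat_lit 5) (nat_lit 468) (nat_lit 412) (nat_lit 320)))) (XT.nd (nat_lit 78) (nat_lit 380) (nat_lit 0) (XT.lf (nat_lit 0) (nat_lit 32453206480) (nat_lit 152) (nat_lit 3372908961) (nat_lit 228) (nat_lit 3734612946) (nat_lit 71) (nat_lit 5) (nat_lit 73) (nat_lit 5) (nat_lit 74) (nat_lit 5) (nat_lit 469) (nat_lit 412) (nat_lit 319)) (XT.nd (nat_lit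 78) (nat_lit 152) (nat_lit 0) (XT.lf (nat_lit 0) (nat_lit 13131761676) (nat_lit 228) (nat_lit 10571193909) (nat_lit 76) (nat_lit 17212503332) (nat_lit 68) (nat_lit 5) (nat_lit 71) (nat_lit 5) (nat_lit 69) (nat_lit 5) (nat_lit 470) (nat_lit 412) (nat_lit 318)) (XT.lf (nat_lit 0) (nat_lit 27916270643) (nat_lit 152) (nat_lit 3204522762) (nat_lit 228) (nat_lit 11205327153) (nat_lit 66) (nat_lit 5) (nat_lit 68) (nat_lit 5) (nat_lit 69) (nat_lit 5) (nat_lit 471) (nat_lit 412) (nat_lit 317))))) (XT.nd (nat_lit 234) (nat_lit 532) (nat_lit 0) (XT.nd (nat_lit 78) (nat_lit 228) (nat_lit 0) (XT.lf (nat_lit 0) (nat_lit 6592482630) (nat_lit 152) (nat_lit 18837555475) (nat_lit 76) (nat_lit 18360143414) (nat_lit 64) (nat_lit 5) (nat_lit 66) (nat_lit 5) (nat_lit 65) (nat_lit 5) (nat_lit 472) (nat_lit 412) (nat_lit 316)) (XT.nd (nat_lit 78) (nat_lit 76) (nat_lit 0) (XT.lf (nat_lit 0) (nat_lit 21497794845) (nat_lit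 152) (nat_lit 3922051964) (nat_lit 228) (nat_lit 19893129201) (nat_lit 62) (nat_lit 5) (nat_lit 64) (nat_lit 5) (nat_lit 65) (nat_lit 5) (nat_lit 473) (nat_lit 412) (nat_lit 315)) (XT.lf (nat_lit 0) (nat_lit 17461373924) (nat_lit 76) (nat_lit 28251166408) (nat_lit 152) (nat_lit 1183652024) (nat_lit 61) (nat_lit 5) (nat_lit 62) (nat_lit 5) (nat_lit 63) (nat_lit 4) (nat_lit 474) (nat_lit 412) (nat_lit 314)))) (XT.nd (nat_lit 156) (nat_lit 228) (nat_lit 0) (XT.nd (nat_lit 78) (nat_lit 76) (nat_lit 0) (XT.lf (nat_lit 0) (nat_lit 12742505841) (nat_lit 152) (nat_lit 5749490732) (nat_lit 228) (nat_lit 30049521680) (nat_lit 58) (nat_lit 5) (nat_lit 60) (nat_lit 5) (nat_lit 61) (nat_lit 5) (nat_lit 475) (nat_lit 412) (nat_lit 313)) (XT.lf (nat_lit 0) (nat_lit 7305259967) (nat_lit 76) (nat_lit 32351690576) (nat_lit 152) (nat_lit 10595909091) (nat_lit 57) (nat_lit 5) (nat_lit 58) (nat_lit 5) (nat_lit 59)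 (nat_lit 4) (nat_lit 476) (nat_lit 412) (nat_lit 312))) (XT.nd (nat_lit 78) (nat_lit 0) (nat_lit 0) (XT.lf (nat_lit 0) (nat_lit 1105881876) (nat_lit 152) (nat_lit 8955580018) (nat_lit 228) (nat_lit 41972784987) (nat_lit 54) (nat_lit 5) (nat_lit 56) (nat_lit 5) (nat_lit 57) (nat_lit 5) (nat_lit 477) (nat_lit 412) (nat_lit 311)) (XT.lf (nat_lit 0) (nat_lit 32113606840) (nat_lit 228) (nat_lit 5926365434) (nat_lit 76) (nat_lit 15844153313) (nat_lit 54) (nat_lit 5) (nat_lit 57) (nat_lit 5) (nat_lit 55) (nat_lit 4) (nat_lit 478) (nat_lit 412) (nat_lit 310)))))) (XT.nd (nat_lit 468) (nat_lit 684) (nat_lit 0) (XT.nd (nat_lit 234) (nat_lit 304) (nat_lit 0) (XT.nd (nat_lit 78) (nat_lit 304) (nat_lit 0) (XT.lf (nat_lit 0) (nat_lit 42023894435) (nat_lit 76) (nat_lit 13722116659) (nat_lit 152) (nat_lit 66158286) (nat_lit 53) (nat_lit 5) (nat_lit 54) (nat_lit 5) (nat_lit 55) (nat_lit 4) (nat_lit 479) (nat_lit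 412) (nat_lit 309)) (XT.nd (nat_lit 78) (nat_lit 76) (nat_lit 0) (XT.lf (nat_lit 0) (nat_lit 22782131358) (nat_lit 228) (nat_lit 22842476078) (nat_lit 76) (nat_lit 12190391835) (nat_lit 50) (nat_lit 5) (nat_lit 53) (nat_lit 5) (nat_lit 51) (nat_lit 4) (nat_lit 480) (nat_lit 412) (nat_lit 308)) (XT.lf (nat_lit 0) (nat_lit 26899755918) (nat_lit 76) (nat_lit 20396141275) (nat_lit 152) (nat_lit 12606321542) (nat_lit 49) (nat_lit 5) (nat_lit 50) (nat_lit 5) (nat_lit 51) (nat_lit 4) (nat_lit 481) (nat_lit 412) (nat_lit 307)))) (XT.nd (nat_lit 78) (nat_lit 76) (nat_lit 0) (XT.lf (nat_lit 0) (nat_lit 11183771239) (nat_lit 228) (nat_lit 44414072265) (nat_lit 76) (nat_lit 6479129096) (nat_lit 46) (nat_lit 5) (nat_lit 49) (nat_lit 5) (nat_lit 47) (nat_lit 4) (nat_lit 482) (nat_lit 412) (nat_lit 306)) (XT.nd (nat_lit 78) (nat_lit 0) (nat_lit 0) (XT.lf (nat_lit 0) (nat_lit 6971204379) (nat_lit 76) (nat_lit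 29534496138) (nat_lit 152) (nat_lit 27832928245) (nat_lit 45) (nat_lit 5) (nat_lit 46) (nat_lit 5) (nat_lit 47) (nat_lit 4) (nat_lit 483) (nat_lit 412) (nat_lit 305)) (XT.lf (nat_lit 0) (nat_lit 61825430333) (nat_lit 76) (nat_lit 1710613623) (nat_lit 152) (nat_lit 3164054770) (nat_lit 45) (nat_lit 5) (nat_lit 46) (nat_lit 5) (nat_lit 47) (nat_lit 4) (nat_lit 484) (nat_lit 412) (nat_lit 304))))) (XT.nd (nat_lit 234) (nat_lit 304) (nat_lit 0) (XT.nd (nat_lit 78) (nat_lit 228) (nat_lit 0) (XT.lf (nat_lit 0) (nat_lit 23041685001) (nat_lit 152) (nat_lit 18438275490) (nat_lit 76) (nat_lit 27670711121) (nat_lit 43) (nat_lit 5) (nat_lit 45) (nat_lit 5) (nat_lit 44) (nat_lit 4) (nat_lit 485) (nat_lit 412) (nat_lit 303)) (XT.nd (nat_lit 78) (nat_lit 152) (nat_lit 0) (XT.lf (nat_lit 0) (nat_lit 38125806198) (nat_lit 76) (nat_lit 12787494067) (nat_lit 152) (nat_lit 20796902743) (nat_lit 42) (nat_lit 5) (nat_lit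 43) (nat_lit 5) (nat_lit 44) (nat_lit 4) (nat_lit 486) (nat_lit 412) (nat_lit 302)) (XT.lf (nat_lit 0) (nat_lit 6246895146) (nat_lit 152) (nat_lit 50661290422) (nat_lit 76) (nat_lit 17470491369) (nat_lit 40) (nat_lit 5) (nat_lit 42) (nat_lit 5) (nat_lit 41) (nat_lit 4) (nat_lit 487) (nat_lit 412) (nat_lit 301)))) (XT.nd (nat_lit 156) (nat_lit 228) (nat_lit 0) (XT.nd (nat_lit 78) (nat_lit 0) (nat_lit 0) (XT.lf (nat_lit 0) (nat_lit 7187824332) (nat_lit 76) (nat_lit 27562807624) (nat_lit 152) (nat_lit 42407629889) (nat_lit 39) (nat_lit 5) (nat_lit 40) (nat_lit 5) (nat_lit 41) (nat_lit 4) (nat_lit 488) (nat_lit 412) (nat_lit 300)) (XT.lf (nat_lit 0) (nat_lit 65224310423) (nat_lit 152) (nat_lit 11134958079) (nat_lit 0) (nat_lit 3701215242) (nat_lit 39) (nat_lit 5) (nat_lit 41) (nat_lit 4) (nat_lit 39) (nat_lit 4) (nat_lit 489) (nat_lit 412) (nat_lit 299))) (XT.nd (nat_lit 78) (nat_lit 76) (nat_lit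 0) (XT.lf (nat_lit 0) (nat_lit 14605151823) (nat_lit 152) (nat_lit 31886499665) (nat_lit 76) (nat_lit 36589094240) (nat_lit 37) (nat_lit 5) (nat_lit 39) (nat_lit 5) (nat_lit 38) (nat_lit 4) (nat_lit 490) (nat_lit 412) (nat_lit 298)) (XT.lf (nat_lit 0) (nat_lit 31055357985) (nat_lit 76) (nat_lit 14561200462) (nat_lit 152) (nat_lit 40618910422) (nat_lit 36) (nat_lit 5) (nat_lit 37) (nat_lit 5) (nat_lit 38) (nat_lit 4) (nat_lit 491) (nat_lit 412) (nat_lit 297))))))))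
noncomputable def xc71 : XT := (XT.nd (nat_lit 57954) (nat_lit 0) (nat_lit 4940) (XT.nd (nat_lit 56940) (nat_lit 0) (nat_lit 13148) (XT.nd (nat_lit 56472) (nat_lit 0) (nat_lit 21128) (XT.nd (nat_lit 312) (nat_lit 152) (nat_lit 0) (XT.nd (nat_lit 78) (nat_lit 152) (nat_lit 0) (XT.lf (nat_lit 0) (nat_lit 8224134632) (nat_lit 76) (nat_lit 70535230825) (nat_lit 76) (nat_lit 10771138135) (nat_lit 35) (nat_lit 4) (nat_lit 36) (nat_lit 5) (nat_lit 36) (nat_lit 4) (nat_lit 492) (nat_lit 412) (nat_lit 296)) (XT.nd (nat_lit 78) (nat_lit 76) (nat_lit 0) (XT.lf (nat_lit 0) (nat_lit 20876481020) (nat_lit 152) (nat_lit 17394785184) (nat_lit 76) (nat_lit 54691827467) (nat_lit 34) (nat_lit 5) (nat_lit 36) (nat_lit 5) (nat_lit 35) (nat_lit 4) (nat_lit 493) (nat_lit 412) (nat_lit 295)) (XT.lf (nat_lit 0) (nat_lit 50568614376) (nat_lit 76) (nat_lit 3792041405) (nat_lit 152) (nat_lit 42189150264) (nat_lit 33) (nat_lit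 5) (nat_lit 34) (nat_lit 5) (nat_lit 35) (nat_lit 4) (nat_lit 494) (nat_lit 412) (nat_lit 294)))) (XT.nd (nat_lit 56004) (nat_lit 0) (nat_lit 22040) (XT.lf (nat_lit 0) (nat_lit 23674163403) (nat_lit 152) (nat_lit 10000802812) (nat_lit 76) (nat_lit 70530600640) (nat_lit 31) (nat_lit 5) (nat_lit 33) (nat_lit 5) (nat_lit 32) (nat_lit 4) (nat_lit 496) (nat_lit 412) (nat_lit 292)) (XT.nd (nat_lit 78) (nat_lit 0) (nat_lit 0) (XT.lf (nat_lit 0) (nat_lit 666846383) (nat_lit 0) (nat_lit 666846383) (nat_lit 988) (nat_lit 2868424493) (nat_lit 321) (nat_lit 5) (nat_lit 321) (nat_lit 3) (nat_lit 334) (nat_lit 3) (nat_lit 413) (nat_lit 413) (nat_lit 374)) (XT.lf (nat_lit 0) (nat_lit 4515103288) (nat_lit 988) (nat_lit 228217836) (nat_lit 1064) (nat_lit 3817126839) (nat_lit 321) (nat_lit 5) (nat_lit 334) (nat_lit 3) (nat_lit 335) (nat_lit 5) (nat_lit 414) (nat_lit 413) (nat_lit 373))))) (XT.nd (nat_lit 234) (nat_lit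 0) (nat_lit 0) (XT.nd (nat_lit 78) (nat_lit 988) (nat_lit 0) (XT.lf (nat_lit 0) (nat_lit 6430791666) (nat_lit 988) (nat_lit 1711098500) (nat_lit 1064) (nat_lit 583343906) (nat_lit 322) (nat_lit 5) (nat_lit 335) (nat_lit 5) (nat_lit 336) (nat_lit 5) (nat_lit 415) (nat_lit 413) (nat_lit 372)) (XT.nd (nat_lit 78) (nat_lit 988) (nat_lit 0) (XT.lf (nat_lit 76) (nat_lit 5727357340) (nat_lit 0) (nat_lit 2714330012) (nat_lit 1064) (nat_lit 456617580) (nat_lit 323) (nat_lit 5) (nat_lit 322) (nat_lit 5) (nat_lit 336) (nat_lit 5) (nat_lit 416) (nat_lit 413) (nat_lit 371)) (XT.lf (nat_lit 0) (nat_lit 1432831558) (nat_lit 1064) (nat_lit 4605105739) (nat_lit 1140) (nat_lit 3042038881) (nat_lit 309) (nat_lit 5) (nat_lit 323) (nat_lit 5) (nat_lit 324) (nat_lit 5) (nat_lit 417) (nat_lit 413) (nat_lit 370)))) (XT.nd (nat_lit 78) (nat_lit 0) (nat_lit 76) (XT.lf (nat_lit 76) (nat_lit 3267375716) (nat_lit 0) (nat_lit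 134011021) (nat_lit 1140) (nat_lit 5869411080) (nat_lit 310) (nat_lit 5) (nat_lit 309) (nat_lit 5) (nat_lit 324) (nat_lit 5) (nat_lit 418) (nat_lit 413) (nat_lit 369)) (XT.nd (nat_lit 78) (nat_lit 0) (nat_lit 76) (XT.lf (nat_lit 76) (nat_lit 2076865753) (nat_lit 0) (nat_lit 3424234523) (nat_lit 1140) (nat_lit 3969101936) (nat_lit 311) (nat_lit 5) (nat_lit 310) (nat_lit 5) (nat_lit 325) (nat_lit 5) (nat_lit 419) (nat_lit 413) (nat_lit 368)) (XT.lf (nat_lit 76) (nat_lit 931736007) (nat_lit 0) (nat_lit 6784880288) (nat_lit 1140) (nat_lit 1962658496) (nat_lit 312) (nat_lit 5) (nat_lit 311) (nat_lit 5) (nat_lit 326) (nat_lit 5) (nat_lit 420) (nat_lit 413) (nat_lit 367)))))) (XT.nd (nat_lit 468) (nat_lit 3952) (nat_lit 0) (XT.nd (nat_lit 234) (nat_lit 3040) (nat_lit 0) (XT.nd (nat_lit 78) (nat_lit 0) (nat_lit 76) (XT.lf (nat_lit 0) (nat_lit 166173655) (nat_lit 1140) (nat_lit 171481122) (nat_lit 1216)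 (nat_lit 9560379084) (nat_lit 296) (nat_lit 5) (nat_lit 311) (nat_lit 5) (nat_lit 312) (nat_lit 5) (nat_lit 421) (nat_lit 413) (nat_lit 366)) (XT.nd (nat_lit 78) (nat_lit 0) (nat_lit 76) (XT.lf (nat_lit 0) (nat_lit 2427666528) (nat_lit 1140) (nat_lit 1265078255) (nat_lit 1216) (nat_lit 6432418622) (nat_lit 297) (nat_lit 5) (nat_lit 312) (nat_lit 5) (nat_lit 313) (nat_lit 5) (nat_lit 422) (nat_lit 413) (nat_lit 365)) (XT.lf (nat_lit 0) (nat_lit 4837538725) (nat_lit 1140) (nat_lit 2321080186) (nat_lit 76) (nat_lit 3203990219) (nat_lit 298) (nat_lit 5) (nat_lit 313) (nat_lit 5) (nat_lit 299) (nat_lit 5) (nat_lit 423) (nat_lit 413) (nat_lit 364)))) (XT.nd (nat_lit 78) (nat_lit 2052) (nat_lit 0) (XT.lf (nat_lit 0) (nat_lit 7268739454) (nat_lit 1140) (nat_lit 143851993) (nat_lit 1216) (nat_lit 3198013033) (nat_lit 283) (nat_lit 5) (nat_lit 298) (nat_lit 5) (nat_lit 299) (nat_lit 5) (nat_lit 424) (nat_lit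 413) (nat_lit 363)) (XT.nd (nat_lit 78) (nat_lit 836) (nat_lit 0) (XT.lf (nat_lit 0) (nat_lit 6509107461) (nat_lit 1216) (nat_lit 3690901588) (nat_lit 1292) (nat_lit 668499274) (nat_lit 267) (nat_lit 5) (nat_lit 283) (nat_lit 5) (nat_lit 284) (nat_lit 5) (nat_lit 425) (nat_lit 413) (nat_lit 362)) (XT.lf (nat_lit 0) (nat_lit 2007347690) (nat_lit 836) (nat_lit 5362407088) (nat_lit 76) (nat_lit 3767236018) (nat_lit 256) (nat_lit 5) (nat_lit 267) (nat_lit 5) (nat_lit 257) (nat_lit 5) (nat_lit 426) (nat_lit 413) (nat_lit 361))))) (XT.nd (nat_lit 234) (nat_lit 2204) (nat_lit 0) (XT.nd (nat_lit 78) (nat_lit 1140) (nat_lit 0) (XT.lf (nat_lit 0) (nat_lit 4869167204) (nat_lit 684) (nat_lit 6339698738) (nat_lit 76) (nat_lit 207867764) (nat_lit 248) (nat_lit 5) (nat_lit 257) (nat_lit 5) (nat_lit 249) (nat_lit 5) (nat_lit 427) (nat_lit 413) (nat_lit 360)) (XT.nd (nat_lit 78) (nat_lit 532) (nat_lit 0) (XT.lf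 (nat_lit 0) (nat_lit 4387902541) (nat_lit 608) (nat_lit 3593568472) (nat_lit 684) (nat_lit 3725785284) (nat_lit 240) (nat_lit 5) (nat_lit 248) (nat_lit 5) (nat_lit 249) (nat_lit 5) (nat_lit 428) (nat_lit 413) (nat_lit 359)) (XT.lf (nat_lit 0) (nat_lit 3739497405) (nat_lit 532) (nat_lit 7591634934) (nat_lit 608) (nat_lit 678734060) (nat_lit 233) (nat_lit 5) (nat_lit 240) (nat_lit 5) (nat_lit 241) (nat_lit 5) (nat_lit 429) (nat_lit 413) (nat_lit 358)))) (XT.nd (nat_lit 156) (nat_lit 1064) (nat_lit 0) (XT.nd (nat_lit 78) (nat_lit 532) (nat_lit 0) (XT.lf (nat_lit 0) (nat_lit 2558512639) (nat_lit 608) (nat_lit 9215310415) (nat_lit 76) (nat_lit 550458763) (nat_lit 225) (nat_lit 5) (nat_lit 233) (nat_lit 5) (nat_lit 226) (nat_lit 5) (nat_lit 430) (nat_lit 413) (nat_lit 357)) (XT.lf (nat_lit 0) (nat_lit 2478495389) (nat_lit 532) (nat_lit 3593236310) (nat_lit 608) (nat_lit 6578652305) (nat_lit 218) (nat_lit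 5) (nat_lit 225) (nat_lit 5) (nat_lit 226) (nat_lit 5) (nat_lit 431) (nat_lit 413) (nat_lit 356))) (XT.nd (nat_lit 78) (nat_lit 532) (nat_lit 0) (XT.lf (nat_lit 0) (nat_lit 1883804324) (nat_lit 532) (nat_lit 7982466042) (nat_lit 608) (nat_lit 3123362624) (nat_lit 211) (nat_lit 5) (nat_lit 218) (nat_lit 5) (nat_lit 219) (nat_lit 5) (nat_lit 432) (nat_lit 413) (nat_lit 355)) (XT.lf (nat_lit 0) (nat_lit 602026806) (nat_lit 532) (nat_lit 12016686749) (nat_lit 76) (nat_lit 723780409) (nat_lit 204) (nat_lit 5) (nat_lit 211) (nat_lit 5) (nat_lit 205) (nat_lit 5) (nat_lit 433) (nat_lit 413) (nat_lit 354))))))) (XT.nd (nat_lit 1014) (nat_lit 3420) (nat_lit 0) (XT.nd (nat_lit 468) (nat_lit 2584) (nat_lit 0) (XT.nd (nat_lit 234) (nat_lit 1292) (nat_lit 0) (XT.nd (nat_lit 78) (nat_lit 456) (nat_lit 0) (XT.lf (nat_lit 0) (nat_lit 740160681) (nat_lit 456) (nat_lit 3859867534) (nat_lit 532) (nat_lit 9107523968)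 (nat_lit 198) (nat_lit 5) (nat_lit 204) (nat_lit 5) (nat_lit 205) (nat_lit 5) (nat_lit 434) (nat_lit 413) (nat_lit 353)) (XT.nd (nat_lit 78) (nat_lit 0) (nat_lit 0) (XT.lf (nat_lit 0) (nat_lit 187709251) (nat_lit 456) (nat_lit 8737284569) (nat_lit 532) (nat_lit 5162067172) (nat_lit 192) (nat_lit 5) (nat_lit 198) (nat_lit 5) (nat_lit 199) (nat_lit 5) (nat_lit 435) (nat_lit 413) (nat_lit 352)) (XT.lf (nat_lit 0) (nat_lit 13594746686) (nat_lit 532) (nat_lit 316105860) (nat_lit 76) (nat_lit 570845673) (nat_lit 192) (nat_lit 5) (nat_lit 199) (nat_lit 5) (nat_lit 193) (nat_lit 5) (nat_lit 436) (nat_lit 413) (nat_lit 351)))) (XT.nd (nat_lit 78) (nat_lit 760) (nat_lit 0) (XT.lf (nat_lit 0) (nat_lit 3709960774) (nat_lit 532) (nat_lit 853288357) (nat_lit 76) (nat_lit 10326438096) (nat_lit 185) (nat_lit 5) (nat_lit 192) (nat_lit 5) (nat_lit 186) (nat_lit 5) (nat_lit 437) (nat_lit 413) (nat_lit 350)) (XT.nd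 (nat_lit 78) (nat_lit 380) (nat_lit 0) (XT.lf (nat_lit 0) (nat_lit 8662578224) (nat_lit 456) (nat_lit 1365591491) (nat_lit 76) (nat_lit 5285324483) (nat_lit 180) (nat_lit 5) (nat_lit 186) (nat_lit 5) (nat_lit 181) (nat_lit 5) (nat_lit 438) (nat_lit 413) (nat_lit 349)) (XT.lf (nat_lit 0) (nat_lit 13916516452) (nat_lit 380) (nat_lit 90865789) (nat_lit 456) (nat_lit 1746780275) (nat_lit 175) (nat_lit 5) (nat_lit 180) (nat_lit 5) (nat_lit 181) (nat_lit 5) (nat_lit 439) (nat_lit 413) (nat_lit 348))))) (XT.nd (nat_lit 234) (nat_lit 1444) (nat_lit 0) (XT.nd (nat_lit 78) (nat_lit 684) (nat_lit 0) (XT.lf (nat_lit 0) (nat_lit 3542604177) (nat_lit 456) (nat_lit 2356344268) (nat_lit 76) (nat_lit 10310748525) (nat_lit 169) (nat_lit 5) (nat_lit 175) (nat_lit 5) (nat_lit 170) (nat_lit 5) (nat_lit 440) (nat_lit 413) (nat_lit 347)) (XT.nd (nat_lit 78) (nat_lit 304) (nat_lit 0) (XT.lf (nat_lit 0) (nat_lit 9217651114)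 (nat_lit 456) (nat_lit 2853809379) (nat_lit 76) (nat_lit 4611315982) (nat_lit 164) (nat_lit 5) (nat_lit 170) (nat_lit 5) (nat_lit 165) (nat_lit 5) (nat_lit 441) (nat_lit 413) (nat_lit 346)) (XT.lf (nat_lit 0) (nat_lit 13848647352) (nat_lit 304) (nat_lit 1504649933) (nat_lit 380) (nat_lit 1820913697) (nat_lit 160) (nat_lit 5) (nat_lit 164) (nat_lit 5) (nat_lit 165) (nat_lit 5) (nat_lit 442) (nat_lit 413) (nat_lit 345)))) (XT.nd (nat_lit 156) (nat_lit 684) (nat_lit 0) (XT.nd (nat_lit 78) (nat_lit 304) (nat_lit 0) (XT.lf (nat_lit 0) (nat_lit 4243748244) (nat_lit 456) (nat_lit 3845692562) (nat_lit 76) (nat_lit 9593047827) (nat_lit 154) (nat_lit 5) (nat_lit 160) (nat_lit 5) (nat_lit 155) (nat_lit 5) (nat_lit 443) (nat_lit 413) (nat_lit 344)) (XT.lf (nat_lit 0) (nat_lit 10750079430) (nat_lit 380) (nat_lit 4347375102) (nat_lit 76) (nat_lit 3112907572) (nat_lit 150) (nat_lit 5) (nat_lit 155) (nat_lit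 5) (nat_lit 151) (nat_lit 5) (nat_lit 444) (nat_lit 413) (nat_lit 343))) (XT.nd (nat_lit 78) (nat_lit 380) (nat_lit 0) (XT.lf (nat_lit 0) (nat_lit 13909594211) (nat_lit 304) (nat_lit 3890526068) (nat_lit 380) (nat_lit 957962570) (nat_lit 146) (nat_lit 5) (nat_lit 150) (nat_lit 5) (nat_lit 151) (nat_lit 5) (nat_lit 445) (nat_lit 413) (nat_lit 342)) (XT.lf (nat_lit 0) (nat_lit 5976575319) (nat_lit 380) (nat_lit 5403302011) (nat_lit 76) (nat_lit 7944975572) (nat_lit 141) (nat_lit 5) (nat_lit 146) (nat_lit 5) (nat_lit 142) (nat_lit 5) (nat_lit 446) (nat_lit 413) (nat_lit 341)))))) (XT.nd (nat_lit 468) (nat_lit 1672) (nat_lit 0) (XT.nd (nat_lit 234) (nat_lit 836) (nat_lit 0) (XT.nd (nat_lit 78) (nat_lit 608) (nat_lit 0) (XT.lf (nat_lit 0) (nat_lit 13432676519) (nat_lit 380) (nat_lit 5935323180) (nat_lit 76) (nat_lit 545842508) (nat_lit 137) (nat_lit 5) (nat_lit 142) (nat_lit 5) (nat_lit 138) (nat_lit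 5) (nat_lit 447) (nat_lit 413) (nat_lit 340)) (XT.nd (nat_lit 78) (nat_lit 304) (nat_lit 0) (XT.lf (nat_lit 0) (nat_lit 989570898) (nat_lit 304) (nat_lit 6515684729) (nat_lit 76) (nat_lit 13018584417) (nat_lit 133) (nat_lit 5) (nat_lit 137) (nat_lit 5) (nat_lit 134) (nat_lit 5) (nat_lit 448) (nat_lit 413) (nat_lit 339)) (XT.lf (nat_lit 0) (nat_lit 8914833967) (nat_lit 380) (nat_lit 7139552737) (nat_lit 76) (nat_lit 5101579249) (nat_lit 129) (nat_lit 5) (nat_lit 134) (nat_lit 5) (nat_lit 130) (nat_lit 5) (nat_lit 449) (nat_lit 413) (nat_lit 338)))) (XT.nd (nat_lit 78) (nat_lit 608) (nat_lit 0) (XT.lf (nat_lit 0) (nat_lit 14040921916) (nat_lit 228) (nat_lit 3441670047) (nat_lit 304) (nat_lit 4329723228) (nat_lit 126) (nat_lit 5) (nat_lit 129) (nat_lit 5) (nat_lit 130) (nat_lit 5) (nat_lit 450) (nat_lit 413) (nat_lit 337)) (XT.nd (nat_lit 78) (nat_lit 228) (nat_lit 0) (XT.lf (nat_lit 0) (nat_lit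 4174603528) (nat_lit 380) (nat_lit 8474057149) (nat_lit 76) (nat_lit 9843429198) (nat_lit 121) (nat_lit 5) (nat_lit 126) (nat_lit 5) (nat_lit 122) (nat_lit 5) (nat_lit 451) (nat_lit 413) (nat_lit 336)) (XT.lf (nat_lit 0) (nat_lit 13242308662) (nat_lit 304) (nat_lit 9204228133) (nat_lit 76) (nat_lit 751202730) (nat_lit 118) (nat_lit 5) (nat_lit 122) (nat_lit 5) (nat_lit 119) (nat_lit 5) (nat_lit 452) (nat_lit 413) (nat_lit 335))))) (XT.nd (nat_lit 234) (nat_lit 912) (nat_lit 0) (XT.nd (nat_lit 78) (nat_lit 532) (nat_lit 0) (XT.lf (nat_lit 0) (nat_lit 13920513040) (nat_lit 228) (nat_lit 9162686383) (nat_lit 304) (nat_lit 845881566) (nat_lit 115) (nat_lit 5) (nat_lit 118) (nat_lit 5) (nat_lit 119) (nat_lit 5) (nat_lit 453) (nat_lit 413) (nat_lit 334)) (XT.nd (nat_lit 78) (nat_lit 228) (nat_lit 0) (XT.lf (nat_lit 0) (nat_lit 8797531871) (nat_lit 304) (nat_lit 10899739626) (nat_lit 76) (nat_lit 4989750847)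 (nat_lit 111) (nat_lit 5) (nat_lit 115) (nat_lit 5) (nat_lit 112) (nat_lit 5) (nat_lit 454) (nat_lit 413) (nat_lit 333)) (XT.lf (nat_lit 0) (nat_lit 13619422600) (nat_lit 228) (nat_lit 5585489583) (nat_lit 304) (nat_lit 6268721564) (nat_lit 108) (nat_lit 5) (nat_lit 111) (nat_lit 5) (nat_lit 112) (nat_lit 5) (nat_lit 455) (nat_lit 413) (nat_lit 332)))) (XT.nd (nat_lit 156) (nat_lit 456) (nat_lit 0) (XT.nd (nat_lit 78) (nat_lit 228) (nat_lit 0) (XT.lf (nat_lit 0) (nat_lit 4064790640) (nat_lit 228) (nat_lit 12908081069) (nat_lit 76) (nat_lit 9316406289) (nat_lit 105) (nat_lit 5) (nat_lit 108) (nat_lit 5) (nat_lit 106) (nat_lit 5) (nat_lit 456) (nat_lit 413) (nat_lit 331)) (XT.lf (nat_lit 0) (nat_lit 13073150471) (nat_lit 228) (nat_lit 1991704153) (nat_lit 304) (nat_lit 12070604744) (nat_lit 102) (nat_lit 5) (nat_lit 105) (nat_lit 5) (nat_lit 106) (nat_lit 5) (nat_lit 457) (nat_lit 413) (nat_lit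 330))) (XT.nd (nat_lit 78) (nat_lit 304) (nat_lit 0) (XT.lf (nat_lit 0) (nat_lit 12672662899) (nat_lit 152) (nat_lit 14304062081) (nat_lit 228) (nat_lit 1036373200) (nat_lit 100) (nat_lit 5) (nat_lit 102) (nat_lit 5) (nat_lit 103) (nat_lit 5) (nat_lit 458) (nat_lit 413) (nat_lit 329)) (XT.lf (nat_lit 0) (nat_lit 10616552712) (nat_lit 304) (nat_lit 16760042194) (nat_lit 76) (nat_lit 1546798754) (nat_lit 96) (nat_lit 5) (nat_lit 100) (nat_lit 5) (nat_lit 97) (nat_lit 5) (nat_lit 459) (nat_lit 413) (nat_lit 328))))))))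
noncomputable def xc72 : XT := (XT.nd (nat_lit 1950) (nat_lit 988) (nat_lit 0) (XT.nd (nat_lit 936) (nat_lit 1748) (nat_lit 0) (XT.nd (nat_lit 468) (nat_lit 988) (nat_lit 0) (XT.nd (nat_lit 234) (nat_lit 532) (nat_lit 0) (XT.nd (nat_lit 78) (nat_lit 456) (nat_lit 0) (XT.lf (nat_lit 0) (nat_lit 11513671969) (nat_lit 152) (nat_lit 11706706579) (nat_lit 228) (nat_lit 6646829083) (nat_lit 94) (nat_lit 5) (nat_lit 96) (nat_lit 5) (nat_lit 97) (nat_lit 5) (nat_lit 460) (nat_lit 413) (nat_lit 327)) (XT.nd (nat_lit 78) (nat_lit 152) (nat_lit 0) (XT.lf (nat_lit 0) (nat_lit 5789395721) (nat_lit 304) (nat_lit 20086284810) (nat_lit 76) (nat_lit 4971847538) (nat_lit 90) (nat_lit 5) (nat_lit 94) (nat_lit 5) (nat_lit 91) (nat_lit 5) (nat_lit 461) (nat_lit 413) (nat_lit 326)) (XT.lf (nat_lit 0) (nat_lit 9806722145) (nat_lit 152) (nat_lit 9283862583) (nat_lit 228) (nat_lit 12772888825) (nat_lit 88) (nat_lit 5)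 (nat_lit 90) (nat_lit 5) (nat_lit 91) (nat_lit 5) (nat_lit 462) (nat_lit 413) (nat_lit 325)))) (XT.nd (nat_lit 78) (nat_lit 304) (nat_lit 0) (XT.lf (nat_lit 0) (nat_lit 475330349) (nat_lit 228) (nat_lit 24185029413) (nat_lit 76) (nat_lit 8259286275) (nat_lit 85) (nat_lit 5) (nat_lit 88) (nat_lit 5) (nat_lit 86) (nat_lit 5) (nat_lit 463) (nat_lit 413) (nat_lit 324)) (XT.nd (nat_lit 78) (nat_lit 152) (nat_lit 0) (XT.lf (nat_lit 0) (nat_lit 7383625121) (nat_lit 152) (nat_lit 7111806728) (nat_lit 228) (nat_lit 19518194028) (nat_lit 83) (nat_lit 5) (nat_lit 85) (nat_lit 5) (nat_lit 86) (nat_lit 5) (nat_lit 464) (nat_lit 413) (nat_lit 323)) (XT.lf (nat_lit 0) (nat_lit 5844506076) (nat_lit 152) (nat_lit 23766143038) (nat_lit 228) (nat_lit 5539833878) (nat_lit 81) (nat_lit 5) (nat_lit 83) (nat_lit 5) (nat_lit 84) (nat_lit 5) (nat_lit 465) (nat_lit 413) (nat_lit 322))))) (XT.nd (nat_lit 234) (nat_lit 532)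 (nat_lit 0) (XT.nd (nat_lit 78) (nat_lit 228) (nat_lit 0) (XT.lf (nat_lit 0) (nat_lit 4040900135) (nat_lit 152) (nat_lit 5283928659) (nat_lit 228) (nat_lit 27005749943) (nat_lit 78) (nat_lit 5) (nat_lit 80) (nat_lit 5) (nat_lit 81) (nat_lit 5) (nat_lit 466) (nat_lit 413) (nat_lit 321)) (XT.nd (nat_lit 78) (nat_lit 76) (nat_lit 0) (XT.lf (nat_lit 0) (nat_lit 1911292221) (nat_lit 152) (nat_lit 23345448431) (nat_lit 228) (nat_lit 12298136885) (nat_lit 76) (nat_lit 5) (nat_lit 78) (nat_lit 5) (nat_lit 79) (nat_lit 5) (nat_lit 467) (nat_lit 413) (nat_lit 320)) (XT.lf (nat_lit 0) (nat_lit 3451687873) (nat_lit 228) (nat_lit 457770979) (nat_lit 76) (nat_lit 34918980870) (nat_lit 75) (nat_lit 5) (nat_lit 78) (nat_lit 5) (nat_lit 76) (nat_lit 5) (nat_lit 468) (nat_lit 413) (nat_lit 319)))) (XT.nd (nat_lit 78) (nat_lit 380) (nat_lit 0) (XT.lf (nat_lit 0) (nat_lit 20236542167) (nat_lit 228) (nat_lit 3264648731)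 (nat_lit 76) (nat_lit 16645780969) (nat_lit 73) (nat_lit 5) (nat_lit 76) (nat_lit 5) (nat_lit 74) (nat_lit 5) (nat_lit 469) (nat_lit 413) (nat_lit 318)) (XT.nd (nat_lit 78) (nat_lit 228) (nat_lit 0) (XT.lf (nat_lit 0) (nat_lit 35179488717) (nat_lit 152) (nat_lit 3044169171) (nat_lit 228) (nat_lit 3296883357) (nat_lit 71) (nat_lit 5) (nat_lit 73) (nat_lit 5) (nat_lit 74) (nat_lit 5) (nat_lit 470) (nat_lit 413) (nat_lit 317)) (XT.lf (nat_lit 0) (nat_lit 14386600540) (nat_lit 228) (nat_lit 10002769650) (nat_lit 76) (nat_lit 18553880437) (nat_lit 68) (nat_lit 5) (nat_lit 71) (nat_lit 5) (nat_lit 69) (nat_lit 5) (nat_lit 471) (nat_lit 413) (nat_lit 316)))))) (XT.nd (nat_lit 468) (nat_lit 912) (nat_lit 0) (XT.nd (nat_lit 234) (nat_lit 380) (nat_lit 0) (XT.nd (nat_lit 78) (nat_lit 304) (nat_lit 0) (XT.lf (nat_lit 0) (nat_lit 30377623304) (nat_lit 152) (nat_lit 2879215032) (nat_lit 228) (nat_lit 11168155984)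 (nat_lit 66) (nat_lit 5) (nat_lit 68) (nat_lit 5) (nat_lit 69) (nat_lit 5) (nat_lit 472) (nat_lit 413) (nat_lit 315)) (XT.nd (nat_lit 78) (nat_lit 152) (nat_lit 0) (XT.lf (nat_lit 0) (nat_lit 7494648768) (nat_lit 152) (nat_lit 18720614079) (nat_lit 76) (nat_lit 19747221801) (nat_lit 64) (nat_lit 5) (nat_lit 66) (nat_lit 5) (nat_lit 65) (nat_lit 5) (nat_lit 473) (nat_lit 413) (nat_lit 314)) (XT.lf (nat_lit 0) (nat_lit 23601152918) (nat_lit 152) (nat_lit 3644850598) (nat_lit 228) (nat_lit 20315938089) (nat_lit 62) (nat_lit 5) (nat_lit 64) (nat_lit 5) (nat_lit 65) (nat_lit 5) (nat_lit 474) (nat_lit 413) (nat_lit 313)))) (XT.nd (nat_lit 78) (nat_lit 304) (nat_lit 0) (XT.lf (nat_lit 0) (nat_lit 19345215826) (nat_lit 76) (nat_lit 29195728698) (nat_lit 152) (nat_lit 683747207) (nat_lit 61) (nat_lit 5) (nat_lit 62) (nat_lit 5) (nat_lit 63) (nat_lit 4) (nat_lit 475) (nat_lit 413) (nat_lit 312)) (XT.nd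 (nat_lit 78) (nat_lit 76) (nat_lit 0) (XT.lf (nat_lit 0) (nat_lit 14372053203) (nat_lit 152) (nat_lit 5576156879) (nat_lit 228) (nat_lit 31004410774) (nat_lit 58) (nat_lit 5) (nat_lit 60) (nat_lit 5) (nat_lit 61) (nat_lit 5) (nat_lit 476) (nat_lit 413) (nat_lit 311)) (XT.lf (nat_lit 0) (nat_lit 8645710294) (nat_lit 76) (nat_lit 33513979257) (nat_lit 152) (nat_lit 10590192607) (nat_lit 57) (nat_lit 5) (nat_lit 58) (nat_lit 5) (nat_lit 59) (nat_lit 4) (nat_lit 477) (nat_lit 413) (nat_lit 310))))) (XT.nd (nat_lit 234) (nat_lit 532) (nat_lit 0) (XT.nd (nat_lit 78) (nat_lit 152) (nat_lit 0) (XT.lf (nat_lit 0) (nat_lit 2118582337) (nat_lit 152) (nat_lit 8955215038) (nat_lit 228) (nat_lit 43546862053) (nat_lit 54) (nat_lit 5) (nat_lit 56) (nat_lit 5) (nat_lit 57) (nat_lit 5) (nat_lit 478) (nat_lit 413) (nat_lit 309)) (XT.nd (nat_lit 78) (nat_lit 152) (nat_lit 0) (XT.lf (nat_lit 0) (nat_lit 34208401678)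 (nat_lit 228) (nat_lit 5300399581) (nat_lit 76) (nat_lit 17054836291) (nat_lit 54) (nat_lit 5) (nat_lit 57) (nat_lit 5) (nat_lit 55) (nat_lit 4) (nat_lit 479) (nat_lit 413) (nat_lit 308)) (XT.lf (nat_lit 0) (nat_lit 411040967) (nat_lit 152) (nat_lit 13571618541) (nat_lit 76) (nat_lit 44605744517) (nat_lit 52) (nat_lit 5) (nat_lit 54) (nat_lit 5) (nat_lit 53) (nat_lit 5) (nat_lit 480) (nat_lit 413) (nat_lit 307)))) (XT.nd (nat_lit 156) (nat_lit 304) (nat_lit 0) (XT.nd (nat_lit 78) (nat_lit 76) (nat_lit 0) (XT.lf (nat_lit 0) (nat_lit 24390012588) (nat_lit 228) (nat_lit 23095174581) (nat_lit 76) (nat_lit 13206480438) (nat_lit 50) (nat_lit 5) (nat_lit 53) (nat_lit 5) (nat_lit 51) (nat_lit 4) (nat_lit 481) (nat_lit 413) (nat_lit 306)) (XT.lf (nat_lit 0) (nat_lit 29108673818) (nat_lit 76) (nat_lit 21006774919) (nat_lit 152) (nat_lit 12768220721) (nat_lit 49) (nat_lit 5) (nat_lit 50) (nat_lit 5) (nat_lit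 51) (nat_lit 4) (nat_lit 482) (nat_lit 413) (nat_lit 305))) (XT.nd (nat_lit 78) (nat_lit 76) (nat_lit 0) (XT.lf (nat_lit 0) (nat_lit 12192387072) (nat_lit 228) (nat_lit 45777201314) (nat_lit 76) (nat_lit 7197733832) (nat_lit 46) (nat_lit 5) (nat_lit 49) (nat_lit 5) (nat_lit 47) (nat_lit 4) (nat_lit 483) (nat_lit 413) (nat_lit 304)) (XT.lf (nat_lit 0) (nat_lit 8152756959) (nat_lit 76) (nat_lit 30614261788) (nat_lit 152) (nat_lit 28775445034) (nat_lit 45) (nat_lit 5) (nat_lit 46) (nat_lit 5) (nat_lit 47) (nat_lit 4) (nat_lit 484) (nat_lit 413) (nat_lit 303))))))) (XT.nd (nat_lit 57018) (nat_lit 0) (nat_lit 17024) (XT.nd (nat_lit 468) (nat_lit 532) (nat_lit 0) (XT.nd (nat_lit 234) (nat_lit 228) (nat_lit 0) (XT.nd (nat_lit 78) (nat_lit 228) (nat_lit 0) (XT.lf (nat_lit 0) (nat_lit 65710027908) (nat_lit 76) (nat_lit 1418087965) (nat_lit 152) (nat_lit 2894515010) (nat_lit 45) (nat_lit 5) (nat_lit 46)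 (nat_lit 5) (nat_lit 47) (nat_lit 4) (nat_lit 485) (nat_lit 413) (nat_lit 302)) (XT.nd (nat_lit 78) (nat_lit 76) (nat_lit 0) (XT.lf (nat_lit 0) (nat_lit 24604253077) (nat_lit 152) (nat_lit 18572835413) (nat_lit 76) (nat_lit 29418788607) (nat_lit 43) (nat_lit 5) (nat_lit 45) (nat_lit 5) (nat_lit 44) (nat_lit 4) (nat_lit 486) (nat_lit 413) (nat_lit 301)) (XT.lf (nat_lit 0) (nat_lit 40796881020) (nat_lit 76) (nat_lit 13060372812) (nat_lit 152) (nat_lit 21426497736) (nat_lit 42) (nat_lit 5) (nat_lit 43) (nat_lit 5) (nat_lit 44) (nat_lit 4) (nat_lit 487) (nat_lit 413) (nat_lit 300)))) (XT.nd (nat_lit 78) (nat_lit 76) (nat_lit 0) (XT.lf (nat_lit 0) (nat_lit 6953009641) (nat_lit 152) (nat_lit 52435447360) (nat_lit 76) (nat_lit 18697328730) (nat_lit 40) (nat_lit 5) (nat_lit 42) (nat_lit 5) (nat_lit 41) (nat_lit 4) (nat_lit 488) (nat_lit 413) (nat_lit 299)) (XT.nd (nat_lit 78) (nat_lit 0) (nat_lit 0) (XT.lf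 (nat_lit 0) (nat_lit 8284369199) (nat_lit 76) (nat_lit 28585899125) (nat_lit 152) (nat_lit 44134432080) (nat_lit 39) (nat_lit 5) (nat_lit 40) (nat_lit 5) (nat_lit 41) (nat_lit 4) (nat_lit 489) (nat_lit 413) (nat_lit 298)) (XT.lf (nat_lit 0) (nat_lit 68852685674) (nat_lit 152) (nat_lit 10981977187) (nat_lit 0) (nat_lit 4217819430) (nat_lit 39) (nat_lit 5) (nat_lit 41) (nat_lit 4) (nat_lit 39) (nat_lit 4) (nat_lit 490) (nat_lit 413) (nat_lit 297))))) (XT.nd (nat_lit 234) (nat_lit 228) (nat_lit 0) (XT.nd (nat_lit 78) (nat_lit 152) (nat_lit 0) (XT.lf (nat_lit 0) (nat_lit 15695250013) (nat_lit 152) (nat_lit 32784268522) (nat_lit 76) (nat_lit 38744459231) (nat_lit 37) (nat_lit 5) (nat_lit 39) (nat_lit 5) (nat_lit 38) (nat_lit 4) (nat_lit 491) (nat_lit 413) (nat_lit 296)) (XT.nd (nat_lit 78) (nat_lit 76) (nat_lit 0) (XT.lf (nat_lit 0) (nat_lit 33284715369) (nat_lit 76) (nat_lit 14961880125) (nat_lit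 152) (nat_lit 42290160992) (nat_lit 36) (nat_lit 5) (nat_lit 37) (nat_lit 5) (nat_lit 38) (nat_lit 4) (nat_lit 492) (nat_lit 413) (nat_lit 295)) (XT.lf (nat_lit 0) (nat_lit 9299665025) (nat_lit 76) (nat_lit 73739631832) (nat_lit 76) (nat_lit 10957463922) (nat_lit 35) (nat_lit 4) (nat_lit 36) (nat_lit 5) (nat_lit 36) (nat_lit 4) (nat_lit 493) (nat_lit 413) (nat_lit 294)))) (XT.nd (nat_lit 156) (nat_lit 152) (nat_lit 0) (XT.lf (nat_lit 0) (nat_lit 22249217282) (nat_lit 152) (nat_lit 17625280831) (nat_lit 76) (nat_lit 57726874463) (nat_lit 34) (nat_lit 5) (nat_lit 36) (nat_lit 5) (nat_lit 35) (nat_lit 4) (nat_lit 494) (nat_lit 413) (nat_lit 293)) (XT.nd (nat_lit 56082) (nat_lit 0) (nat_lit 21964) (XT.lf (nat_lit 0) (nat_lit 23792872150) (nat_lit 76) (nat_lit 71243075704) (nat_lit 76) (nat_lit 10264462845) (nat_lit 32) (nat_lit 4) (nat_lit 33) (nat_lit 5) (nat_lit 33) (nat_lit 4) (nat_lit 496) (nat_lit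 413) (nat_lit 291)) (XT.lf (nat_lit 0) (nat_lit 1558382532) (nat_lit 0) (nat_lit 1558382532) (nat_lit 988) (nat_lit 1243512205) (nat_lit 321) (nat_lit 5) (nat_lit 321) (nat_lit 3) (nat_lit 334) (nat_lit 3) (nat_lit 414) (nat_lit 414) (nat_lit 372)))))) (XT.nd (nat_lit 468) (nat_lit 3876) (nat_lit 0) (XT.nd (nat_lit 234) (nat_lit 0) (nat_lit 152) (XT.nd (nat_lit 78) (nat_lit 1064) (nat_lit 0) (XT.lf (nat_lit 76) (nat_lit 1539729641) (nat_lit 0) (nat_lit 6469526160) (nat_lit 1064) (nat_lit 880297453) (nat_lit 322) (nat_lit 5) (nat_lit 321) (nat_lit 5) (nat_lit 335) (nat_lit 5) (nat_lit 415) (nat_lit 414) (nat_lit 371)) (XT.nd (nat_lit 78) (nat_lit 0) (nat_lit 76) (XT.lf (nat_lit 0) (nat_lit 778428753) (nat_lit 1064) (nat_lit 4837176) (nat_lit 1140) (nat_lit 8283907156) (nat_lit 307) (nat_lit 5) (nat_lit 321) (nat_lit 5) (nat_lit 322) (nat_lit 5) (nat_lit 416) (nat_lit 414) (nat_lit 370)) (XT.lf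 (nat_lit 0) (nat_lit 2530662857) (nat_lit 1064) (nat_lit 1509149514) (nat_lit 1140) (nat_lit 5212761510) (nat_lit 308) (nat_lit 5) (nat_lit 322) (nat_lit 5) (nat_lit 323) (nat_lit 5) (nat_lit 417) (nat_lit 414) (nat_lit 369)))) (XT.nd (nat_lit 78) (nat_lit 0) (nat_lit 0) (XT.lf (nat_lit 0) (nat_lit 4368608388) (nat_lit 1064) (nat_lit 2974021120) (nat_lit 1140) (nat_lit 2104695809) (nat_lit 309) (nat_lit 5) (nat_lit 323) (nat_lit 5) (nat_lit 324) (nat_lit 5) (nat_lit 418) (nat_lit 414) (nat_lit 368)) (XT.nd (nat_lit 78) (nat_lit 0) (nat_lit 76) (XT.lf (nat_lit 76) (nat_lit 5238729473) (nat_lit 0) (nat_lit 1077853918) (nat_lit 1140) (nat_lit 3334709438) (nat_lit 310) (nat_lit 5) (nat_lit 309) (nat_lit 5) (nat_lit 324) (nat_lit 5) (nat_lit 419) (nat_lit 414) (nat_lit 367)) (XT.lf (nat_lit 76) (nat_lit 4026283062) (nat_lit 0) (nat_lit 4373440568) (nat_lit 1140) (nat_lit 1464623490) (nat_lit 311) (nat_lit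 5) (nat_lit 310) (nat_lit 5) (nat_lit 325) (nat_lit 5) (nat_lit 420) (nat_lit 414) (nat_lit 366))))) (XT.nd (nat_lit 234) (nat_lit 3040) (nat_lit 0) (XT.nd (nat_lit 78) (nat_lit 0) (nat_lit 0) (XT.lf (nat_lit 0) (nat_lit 514440918) (nat_lit 1140) (nat_lit 7237020322) (nat_lit 1216) (nat_lit 2335712457) (nat_lit 296) (nat_lit 5) (nat_lit 311) (nat_lit 5) (nat_lit 312) (nat_lit 5) (nat_lit 421) (nat_lit 414) (nat_lit 365)) (XT.nd (nat_lit 78) (nat_lit 0) (nat_lit 76) (XT.lf (nat_lit 76) (nat_lit 1689178991) (nat_lit 0) (nat_lit 915844459) (nat_lit 1216) (nat_lit 7714416293) (nat_lit 297) (nat_lit 5) (nat_lit 296) (nat_lit 5) (nat_lit 312) (nat_lit 5) (nat_lit 422) (nat_lit 414) (nat_lit 364)) (XT.lf (nat_lit 76) (nat_lit 541029587) (nat_lit 0) (nat_lit 4324581176) (nat_lit 1216) (nat_lit 5695762006) (nat_lit 298) (nat_lit 5) (nat_lit 297) (nat_lit 5) (nat_lit 313) (nat_lit 5) (nat_lit 423) (nat_lit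 414) (nat_lit 363)))) (XT.nd (nat_lit 156) (nat_lit 2052) (nat_lit 0) (XT.nd (nat_lit 78) (nat_lit 1140) (nat_lit 0) (XT.lf (nat_lit 0) (nat_lit 7294095624) (nat_lit 1140) (nat_lit 560555649) (nat_lit 76) (nat_lit 2959122221) (nat_lit 298) (nat_lit 5) (nat_lit 313) (nat_lit 5) (nat_lit 299) (nat_lit 5) (nat_lit 424) (nat_lit 414) (nat_lit 362)) (XT.lf (nat_lit 0) (nat_lit 9454963226) (nat_lit 1140) (nat_lit 454998548) (nat_lit 1216) (nat_lit 1166870048) (nat_lit 283) (nat_lit 5) (nat_lit 298) (nat_lit 5) (nat_lit 299) (nat_lit 5) (nat_lit 425) (nat_lit 414) (nat_lit 361))) (XT.nd (nat_lit 78) (nat_lit 760) (nat_lit 0) (XT.lf (nat_lit 0) (nat_lit 1372773544) (nat_lit 1292) (nat_lit 2693308022) (nat_lit 76) (nat_lit 7283761642) (nat_lit 266) (nat_lit 5) (nat_lit 283) (nat_lit 5) (nat_lit 267) (nat_lit 5) (nat_lit 426) (nat_lit 414) (nat_lit 360)) (XT.lf (nat_lit 0) (nat_lit 4086593457) (nat_lit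 836) (nat_lit 3745664215) (nat_lit 76) (nat_lit 3801775426) (nat_lit 256) (nat_lit 5) (nat_lit 267) (nat_lit 5) (nat_lit 257) (nat_lit 5) (nat_lit 427) (nat_lit 414) (nat_lit 359))))))))
noncomputable def xc73 : XT := (XT.nd (nat_lit 1950) (nat_lit 4864) (nat_lit 0) (XT.nd (nat_lit 936) (nat_lit 4104) (nat_lit 0) (XT.nd (nat_lit 468) (nat_lit 2736) (nat_lit 0) (XT.nd (nat_lit 234) (nat_lit 1596) (nat_lit 0) (XT.nd (nat_lit 78) (nat_lit 1216) (nat_lit 0) (XT.lf (nat_lit 0) (nat_lit 7014184291) (nat_lit 684) (nat_lit 4767675979) (nat_lit 76) (nat_lit 148243468) (nat_lit 248) (nat_lit 5) (nat_lit 257) (nat_lit 5) (nat_lit 249) (nat_lit 5) (nat_lit 428) (nat_lit 414) (nat_lit 358)) (XT.nd (nat_lit 78) (nat_lit 608) (nat_lit 0) (XT.lf (nat_lit 0) (nat_lit 6442157338) (nat_lit 608) (nat_lit 3767033331) (nat_lit 684) (nat_lit 2028169163) (nat_lit 240) (nat_lit 5) (nat_lit 248) (nat_lit 5) (nat_lit 249)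 (nat_lit 5) (nat_lit 429) (nat_lit 414) (nat_lit 357)) (XT.lf (nat_lit 0) (nat_lit 1078300184) (nat_lit 608) (nat_lit 6805418941) (nat_lit 76) (nat_lit 4673164427) (nat_lit 232) (nat_lit 5) (nat_lit 240) (nat_lit 5) (nat_lit 233) (nat_lit 5) (nat_lit 430) (nat_lit 414) (nat_lit 356)))) (XT.nd (nat_lit 78) (nat_lit 1064) (nat_lit 0) (XT.lf (nat_lit 0) (nat_lit 4397394416) (nat_lit 608) (nat_lit 7807496583) (nat_lit 76) (nat_lit 683924071) (nat_lit 225) (nat_lit 5) (nat_lit 233) (nat_lit 5) (nat_lit 226) (nat_lit 5) (nat_lit 431) (nat_lit 414) (nat_lit 355)) (XT.nd (nat_lit 78) (nat_lit 532) (nat_lit 0) (XT.lf (nat_lit 0) (nat_lit 4417437059) (nat_lit 532) (nat_lit 3604810320) (nat_lit 608) (nat_lit 5210912567) (nat_lit 218) (nat_lit 5) (nat_lit 225) (nat_lit 5) (nat_lit 226) (nat_lit 5) (nat_lit 432) (nat_lit 414) (nat_lit 354)) (XT.lf (nat_lit 0) (nat_lit 3787732276) (nat_lit 532) (nat_lit 8159290638)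 (nat_lit 608) (nat_lit 1644149142) (nat_lit 211) (nat_lit 5) (nat_lit 218) (nat_lit 5) (nat_lit 219) (nat_lit 5) (nat_lit 433) (nat_lit 414) (nat_lit 353))))) (XT.nd (nat_lit 234) (nat_lit 1292) (nat_lit 0) (XT.nd (nat_lit 78) (nat_lit 912) (nat_lit 0) (XT.lf (nat_lit 0) (nat_lit 2178794025) (nat_lit 532) (nat_lit 10784089391) (nat_lit 76) (nat_lit 1000039925) (nat_lit 204) (nat_lit 5) (nat_lit 211) (nat_lit 5) (nat_lit 205) (nat_lit 5) (nat_lit 434) (nat_lit 414) (nat_lit 352)) (XT.nd (nat_lit 78) (nat_lit 456) (nat_lit 0) (XT.lf (nat_lit 0) (nat_lit 2558045459) (nat_lit 456) (nat_lit 3762118167) (nat_lit 532) (nat_lit 8027780868) (nat_lit 198) (nat_lit 5) (nat_lit 204) (nat_lit 5) (nat_lit 205) (nat_lit 5) (nat_lit 435) (nat_lit 414) (nat_lit 351)) (XT.lf (nat_lit 0) (nat_lit 1967904103) (nat_lit 456) (nat_lit 8842198461) (nat_lit 532) (nat_lit 3937877822) (nat_lit 192) (nat_lit 5) (nat_lit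 198) (nat_lit 5) (nat_lit 199) (nat_lit 5) (nat_lit 436) (nat_lit 414) (nat_lit 350)))) (XT.nd (nat_lit 78) (nat_lit 760) (nat_lit 0) (XT.lf (nat_lit 0) (nat_lit 487893879) (nat_lit 532) (nat_lit 13748078318) (nat_lit 76) (nat_lit 927801202) (nat_lit 185) (nat_lit 5) (nat_lit 192) (nat_lit 5) (nat_lit 186) (nat_lit 5) (nat_lit 437) (nat_lit 414) (nat_lit 349)) (XT.nd (nat_lit 78) (nat_lit 380) (nat_lit 0) (XT.lf (nat_lit 0) (nat_lit 822317248) (nat_lit 380) (nat_lit 4418480695) (nat_lit 456) (nat_lit 10352777570) (nat_lit 180) (nat_lit 5) (nat_lit 185) (nat_lit 5) (nat_lit 186) (nat_lit 5) (nat_lit 438) (nat_lit 414) (nat_lit 348)) (XT.lf (nat_lit 0) (nat_lit 260050139) (nat_lit 380) (nat_lit 10131294652) (nat_lit 456) (nat_lit 5648730318) (nat_lit 175) (nat_lit 5) (nat_lit 180) (nat_lit 5) (nat_lit 181) (nat_lit 5) (nat_lit 439) (nat_lit 414) (nat_lit 347)))))) (XT.nd (nat_lit 468) (nat_lit 2204)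 (nat_lit 0) (XT.nd (nat_lit 234) (nat_lit 1064) (nat_lit 0) (XT.nd (nat_lit 78) (nat_lit 836) (nat_lit 0) (XT.lf (nat_lit 0) (nat_lit 15957941789) (nat_lit 456) (nat_lit 254319954) (nat_lit 76) (nat_lit 291889215) (nat_lit 175) (nat_lit 5) (nat_lit 181) (nat_lit 5) (nat_lit 176) (nat_lit 5) (nat_lit 440) (nat_lit 414) (nat_lit 346)) (XT.nd (nat_lit 78) (nat_lit 380) (nat_lit 0) (XT.lf (nat_lit 0) (nat_lit 4939050297) (nat_lit 456) (nat_lit 823398798) (nat_lit 76) (nat_lit 11220955401) (nat_lit 169) (nat_lit 5) (nat_lit 175) (nat_lit 5) (nat_lit 170) (nat_lit 5) (nat_lit 441) (nat_lit 414) (nat_lit 345)) (XT.lf (nat_lit 0) (nat_lit 10859302647) (nat_lit 456) (nat_lit 1361669970) (nat_lit 76) (nat_lit 5260331188) (nat_lit 164) (nat_lit 5) (nat_lit 170) (nat_lit 5) (nat_lit 165) (nat_lit 5) (nat_lit 442) (nat_lit 414) (nat_lit 344)))) (XT.nd (nat_lit 78) (nat_lit 760) (nat_lit 0) (XT.lf (nat_lit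 0) (nat_lit 16129047528) (nat_lit 304) (nat_lit 1131721023) (nat_lit 380) (nat_lit 737779337) (nat_lit 160) (nat_lit 5) (nat_lit 164) (nat_lit 5) (nat_lit 165) (nat_lit 5) (nat_lit 443) (nat_lit 414) (nat_lit 343)) (XT.nd (nat_lit 78) (nat_lit 304) (nat_lit 0) (XT.lf (nat_lit 0) (nat_lit 5571781706) (nat_lit 456) (nat_lit 2443950890) (nat_lit 76) (nat_lit 10517239159) (nat_lit 154) (nat_lit 5) (nat_lit 160) (nat_lit 5) (nat_lit 155) (nat_lit 5) (nat_lit 444) (nat_lit 414) (nat_lit 342)) (XT.lf (nat_lit 0) (nat_lit 12369702496) (nat_lit 380) (nat_lit 2988449191) (nat_lit 76) (nat_lit 3730106922) (nat_lit 150) (nat_lit 5) (nat_lit 155) (nat_lit 5) (nat_lit 151) (nat_lit 5) (nat_lit 445) (nat_lit 414) (nat_lit 341))))) (XT.nd (nat_lit 234) (nat_lit 1216) (nat_lit 0) (XT.nd (nat_lit 78) (nat_lit 608) (nat_lit 0) (XT.lf (nat_lit 0) (nat_lit 69571995) (nat_lit 380) (nat_lit 3528974923) (nat_lit 76)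 (nat_lit 16065909882) (nat_lit 145) (nat_lit 5) (nat_lit 150) (nat_lit 5) (nat_lit 146) (nat_lit 5) (nat_lit 446) (nat_lit 414) (nat_lit 340)) (XT.nd (nat_lit 78) (nat_lit 304) (nat_lit 0) (XT.lf (nat_lit 0) (nat_lit 7300114611) (nat_lit 380) (nat_lit 4139642146) (nat_lit 76) (nat_lit 8820458313) (nat_lit 141) (nat_lit 5) (nat_lit 146) (nat_lit 5) (nat_lit 142) (nat_lit 5) (nat_lit 447) (nat_lit 414) (nat_lit 339)) (XT.lf (nat_lit 0) (nat_lit 15099349232) (nat_lit 380) (nat_lit 4717194209) (nat_lit 76) (nat_lit 1063007175) (nat_lit 137) (nat_lit 5) (nat_lit 142) (nat_lit 5) (nat_lit 138) (nat_lit 5) (nat_lit 448) (nat_lit 414) (nat_lit 338)))) (XT.nd (nat_lit 156) (nat_lit 608) (nat_lit 0) (XT.nd (nat_lit 78) (nat_lit 304) (nat_lit 0) (XT.lf (nat_lit 0) (nat_lit 2010496744) (nat_lit 304) (nat_lit 5350541747) (nat_lit 76) (nat_lit 14159727588) (nat_lit 133) (nat_lit 5) (nat_lit 137) (nat_lit 5)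 (nat_lit 134) (nat_lit 5) (nat_lit 449) (nat_lit 414) (nat_lit 337)) (XT.lf (nat_lit 0) (nat_lit 10304578062) (nat_lit 380) (nat_lit 6024943912) (nat_lit 76) (nat_lit 5855805495) (nat_lit 129) (nat_lit 5) (nat_lit 134) (nat_lit 5) (nat_lit 130) (nat_lit 5) (nat_lit 450) (nat_lit 414) (nat_lit 336))) (XT.nd (nat_lit 78) (nat_lit 380) (nat_lit 0) (XT.lf (nat_lit 0) (nat_lit 16172371744) (nat_lit 228) (nat_lit 3097140021) (nat_lit 304) (nat_lit 3605924326) (nat_lit 126) (nat_lit 5) (nat_lit 129) (nat_lit 5) (nat_lit 130) (nat_lit 5) (nat_lit 451) (nat_lit 414) (nat_lit 335)) (XT.lf (nat_lit 0) (nat_lit 5279836047) (nat_lit 380) (nat_lit 7469501844) (nat_lit 76) (nat_lit 10840358630) (nat_lit 121) (nat_lit 5) (nat_lit 126) (nat_lit 5) (nat_lit 122) (nat_lit 5) (nat_lit 452) (nat_lit 414) (nat_lit 334))))))) (XT.nd (nat_lit 1014) (nat_lit 1976) (nat_lit 0) (XT.nd (nat_lit 468) (nat_lit 1444) (nat_lit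 0) (XT.nd (nat_lit 234) (nat_lit 684) (nat_lit 0) (XT.nd (nat_lit 78) (nat_lit 532) (nat_lit 0) (XT.lf (nat_lit 0) (nat_lit 14776571785) (nat_lit 304) (nat_lit 8256009995) (nat_lit 76) (nat_lit 1298782407) (nat_lit 118) (nat_lit 5) (nat_lit 122) (nat_lit 5) (nat_lit 119) (nat_lit 5) (nat_lit 453) (nat_lit 414) (nat_lit 333)) (XT.nd (nat_lit 78) (nat_lit 304) (nat_lit 0) (XT.lf (nat_lit 0) (nat_lit 15984595886) (nat_lit 228) (nat_lit 9096530957) (nat_lit 304) (nat_lit 19001949) (nat_lit 115) (nat_lit 5) (nat_lit 118) (nat_lit 5) (nat_lit 119) (nat_lit 5) (nat_lit 454) (nat_lit 414) (nat_lit 332)) (XT.lf (nat_lit 0) (nat_lit 10066979367) (nat_lit 304) (nat_lit 10079505562) (nat_lit 76) (nat_lit 5749915208) (nat_lit 111) (nat_lit 5) (nat_lit 115) (nat_lit 5) (nat_lit 112) (nat_lit 5) (nat_lit 455) (nat_lit 414) (nat_lit 331)))) (XT.nd (nat_lit 78) (nat_lit 456) (nat_lit 0) (XT.lf (nat_lit 0) (nat_lit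 15626480988) (nat_lit 228) (nat_lit 5341491493) (nat_lit 304) (nat_lit 5755176421) (nat_lit 108) (nat_lit 5) (nat_lit 111) (nat_lit 5) (nat_lit 112) (nat_lit 5) (nat_lit 456) (nat_lit 414) (nat_lit 330)) (XT.nd (nat_lit 78) (nat_lit 228) (nat_lit 0) (XT.lf (nat_lit 0) (nat_lit 5057785129) (nat_lit 228) (nat_lit 12231028339) (nat_lit 76) (nat_lit 10291159876) (nat_lit 105) (nat_lit 5) (nat_lit 108) (nat_lit 5) (nat_lit 106) (nat_lit 5) (nat_lit 457) (nat_lit 414) (nat_lit 329)) (XT.lf (nat_lit 0) (nat_lit 15011356820) (nat_lit 228) (nat_lit 1571235982) (nat_lit 304) (nat_lit 11886632381) (nat_lit 102) (nat_lit 5) (nat_lit 105) (nat_lit 5) (nat_lit 106) (nat_lit 5) (nat_lit 458) (nat_lit 414) (nat_lit 328))))) (XT.nd (nat_lit 234) (nat_lit 836) (nat_lit 0) (XT.nd (nat_lit 78) (nat_lit 456) (nat_lit 0) (XT.lf (nat_lit 0) (nat_lit 14571515420) (nat_lit 152) (nat_lit 14499059793) (nat_lit 228) (nat_lit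 320758607) (nat_lit 100) (nat_lit 5) (nat_lit 102) (nat_lit 5) (nat_lit 103) (nat_lit 5) (nat_lit 459) (nat_lit 414) (nat_lit 327)) (XT.nd (nat_lit 78) (nat_lit 152) (nat_lit 0) (XT.lf (nat_lit 0) (nat_lit 11880911105) (nat_lit 304) (nat_lit 16337510394) (nat_lit 76) (nat_lit 2129072260) (nat_lit 96) (nat_lit 5) (nat_lit 100) (nat_lit 5) (nat_lit 97) (nat_lit 5) (nat_lit 460) (nat_lit 414) (nat_lit 326)) (XT.lf (nat_lit 0) (nat_lit 13313756525) (nat_lit 152) (nat_lit 11778011363) (nat_lit 228) (nat_lit 6247428383) (nat_lit 94) (nat_lit 5) (nat_lit 96) (nat_lit 5) (nat_lit 97) (nat_lit 5) (nat_lit 461) (nat_lit 414) (nat_lit 325)))) (XT.nd (nat_lit 156) (nat_lit 380) (nat_lit 0) (XT.nd (nat_lit 78) (nat_lit 152) (nat_lit 0) (XT.lf (nat_lit 0) (nat_lit 6778616735) (nat_lit 304) (nat_lit 19871353233) (nat_lit 76) (nat_lit 5718885909) (nat_lit 90) (nat_lit 5) (nat_lit 94) (nat_lit 5) (nat_lit 91)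 (nat_lit 5) (nat_lit 462) (nat_lit 414) (nat_lit 324)) (XT.lf (nat_lit 0) (nat_lit 11481354634) (nat_lit 152) (nat_lit 9241573251) (nat_lit 228) (nat_lit 12713331537) (nat_lit 88) (nat_lit 5) (nat_lit 90) (nat_lit 5) (nat_lit 91) (nat_lit 5) (nat_lit 463) (nat_lit 414) (nat_lit 323))) (XT.nd (nat_lit 78) (nat_lit 152) (nat_lit 0) (XT.lf (nat_lit 0) (nat_lit 1167071614) (nat_lit 228) (nat_lit 24215514411) (nat_lit 76) (nat_lit 9162953705) (nat_lit 85) (nat_lit 5) (nat_lit 88) (nat_lit 5) (nat_lit 86) (nat_lit 5) (nat_lit 464) (nat_lit 414) (nat_lit 322)) (XT.lf (nat_lit 0) (nat_lit 8897783745) (nat_lit 152) (nat_lit 6969592345) (nat_lit 228) (nat_lit 19827468885) (nat_lit 83) (nat_lit 5) (nat_lit 85) (nat_lit 5) (nat_lit 86) (nat_lit 5) (nat_lit 465) (nat_lit 414) (nat_lit 321)))))) (XT.nd (nat_lit 468) (nat_lit 1064) (nat_lit 0) (XT.nd (nat_lit 234) (nat_lit 380) (nat_lit 0) (XT.nd (nat_lit 78)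 (nat_lit 380) (nat_lit 0) (XT.lf (nat_lit 0) (nat_lit 7263144481) (nat_lit 152) (nat_lit 24459777100) (nat_lit 228) (nat_lit 5166088582) (nat_lit 81) (nat_lit 5) (nat_lit 83) (nat_lit 5) (nat_lit 84) (nat_lit 5) (nat_lit 466) (nat_lit 414) (nat_lit 320)) (XT.nd (nat_lit 78) (nat_lit 152) (nat_lit 0) (XT.lf (nat_lit 0) (nat_lit 5349446296) (nat_lit 152) (nat_lit 5059916273) (nat_lit 228) (nat_lit 27719154932) (nat_lit 78) (nat_lit 5) (nat_lit 80) (nat_lit 5) (nat_lit 81) (nat_lit 5) (nat_lit 467) (nat_lit 414) (nat_lit 319)) (XT.lf (nat_lit 0) (nat_lit 3095139203) (nat_lit 152) (nat_lit 24028219048) (nat_lit 228) (nat_lit 12291110315) (nat_lit 76) (nat_lit 5) (nat_lit 78) (nat_lit 5) (nat_lit 79) (nat_lit 5) (nat_lit 468) (nat_lit 414) (nat_lit 318)))) (XT.nd (nat_lit 78) (nat_lit 152) (nat_lit 0) (XT.lf (nat_lit 0) (nat_lit 578686845) (nat_lit 152) (nat_lit 3631907402) (nat_lit 228) (nat_lit 36541641341)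 (nat_lit 73) (nat_lit 5) (nat_lit 75) (nat_lit 5) (nat_lit 76) (nat_lit 5) (nat_lit 469) (nat_lit 414) (nat_lit 317)) (XT.nd (nat_lit 78) (nat_lit 152) (nat_lit 0) (XT.lf (nat_lit 0) (nat_lit 21815634025) (nat_lit 228) (nat_lit 2397322811) (nat_lit 76) (nat_lit 17924310959) (nat_lit 73) (nat_lit 5) (nat_lit 76) (nat_lit 5) (nat_lit 74) (nat_lit 5) (nat_lit 470) (nat_lit 414) (nat_lit 316)) (XT.lf (nat_lit 0) (nat_lit 37939480761) (nat_lit 152) (nat_lit 2745234557) (nat_lit 228) (nat_lit 2895323684) (nat_lit 71) (nat_lit 5) (nat_lit 73) (nat_lit 5) (nat_lit 74) (nat_lit 5) (nat_lit 471) (nat_lit 414) (nat_lit 315))))) (XT.nd (nat_lit 234) (nat_lit 532) (nat_lit 0) (XT.nd (nat_lit 78) (nat_lit 304) (nat_lit 0) (XT.lf (nat_lit 0) (nat_lit 15648561661) (nat_lit 228) (nat_lit 9507911349) (nat_lit 76) (nat_lit 19917630638) (nat_lit 68) (nat_lit 5) (nat_lit 71) (nat_lit 5) (nat_lit 69) (nat_lit 5) (nat_lit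 472) (nat_lit 414) (nat_lit 314)) (XT.nd (nat_lit 78) (nat_lit 152) (nat_lit 0) (XT.lf (nat_lit 0) (nat_lit 32862979870) (nat_lit 152) (nat_lit 2582782253) (nat_lit 228) (nat_lit 11184670335) (nat_lit 66) (nat_lit 5) (nat_lit 68) (nat_lit 5) (nat_lit 69) (nat_lit 5) (nat_lit 473) (nat_lit 414) (nat_lit 313)) (XT.lf (nat_lit 0) (nat_lit 8388693684) (nat_lit 152) (nat_lit 18696264583) (nat_lit 76) (nat_lit 21160044311) (nat_lit 64) (nat_lit 5) (nat_lit 66) (nat_lit 5) (nat_lit 65) (nat_lit 5) (nat_lit 474) (nat_lit 414) (nat_lit 312)))) (XT.nd (nat_lit 156) (nat_lit 304) (nat_lit 0) (XT.nd (nat_lit 78) (nat_lit 76) (nat_lit 0) (XT.lf (nat_lit 0) (nat_lit 25714061658) (nat_lit 152) (nat_lit 3397792481) (nat_lit 228) (nat_lit 20813052388) (nat_lit 62) (nat_lit 5) (nat_lit 64) (nat_lit 5) (nat_lit 65) (nat_lit 5) (nat_lit 475) (nat_lit 414) (nat_lit 311)) (XT.lf (nat_lit 0) (nat_lit 21229277711) (nat_lit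 76) (nat_lit 30231028937) (nat_lit 152) (nat_lit 210825798) (nat_lit 61) (nat_lit 5) (nat_lit 62) (nat_lit 5) (nat_lit 63) (nat_lit 4) (nat_lit 476) (nat_lit 414) (nat_lit 310))) (XT.nd (nat_lit 78) (nat_lit 76) (nat_lit 0) (XT.lf (nat_lit 0) (nat_lit 15990811936) (nat_lit 152) (nat_lit 5436997930) (nat_lit 228) (nat_lit 32057953771) (nat_lit 58) (nat_lit 5) (nat_lit 60) (nat_lit 5) (nat_lit 61) (nat_lit 5) (nat_lit 477) (nat_lit 414) (nat_lit 309)) (XT.lf (nat_lit 0) (nat_lit 9962519463) (nat_lit 76) (nat_lit 34776711465) (nat_lit 152) (nat_lit 10633977123) (nat_lit 57) (nat_lit 5) (nat_lit 58) (nat_lit 5) (nat_lit 59) (nat_lit 4) (nat_lit 478) (nat_lit 414) (nat_lit 308))))))))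
noncomputable def xc74 : XT := (XT.nd (nat_lit 58110) (nat_lit 0) (nat_lit 8208) (XT.nd (nat_lit 936) (nat_lit 456) (nat_lit 0) (XT.nd (nat_lit 468) (nat_lit 532) (nat_lit 0) (XT.nd (nat_lit 234) (nat_lit 456) (nat_lit 0) (XT.nd (nat_lit 78) (nat_lit 152) (nat_lit 0) (XT.lf (nat_lit 0) (nat_lit 3092907253) (nat_lit 152) (nat_lit 8996495988) (nat_lit 228) (nat_lit 45248411791) (nat_lit 54) (nat_lit 5) (nat_lit 56) (nat_lit 5) (nat_lit 57) (nat_lit 5) (nat_lit 479) (nat_lit 414) (nat_lit 307)) (XT.nd (nat_lit 78) (nat_lit 152) (nat_lit 0) (XT.lf (nat_lit 0) (nat_lit 36362463028) (nat_lit 228) (nat_lit 4728880671) (nat_lit 76) (nat_lit 18287147550) (nat_lit 54) (nat_lit 5) (nat_lit 57) (nat_lit 5) (nat_lit 55) (nat_lit 4) (nat_lit 480) (nat_lit 414) (nat_lit 306)) (XT.lf (nat_lit 0) (nat_lit 866197670) (nat_lit 152) (nat_lit 13428972801) (nat_lit 76) (nat_lit 47209598103) (nat_lit 52) (nat_lit 5)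 (nat_lit 54) (nat_lit 5) (nat_lit 53) (nat_lit 5) (nat_lit 481) (nat_lit 414) (nat_lit 305)))) (XT.nd (nat_lit 78) (nat_lit 304) (nat_lit 0) (XT.lf (nat_lit 0) (nat_lit 26034705655) (nat_lit 228) (nat_lit 23443198343) (nat_lit 76) (nat_lit 14235574537) (nat_lit 50) (nat_lit 5) (nat_lit 53) (nat_lit 5) (nat_lit 51) (nat_lit 4) (nat_lit 482) (nat_lit 414) (nat_lit 304)) (XT.nd (nat_lit 78) (nat_lit 228) (nat_lit 0) (XT.lf (nat_lit 0) (nat_lit 31347717580) (nat_lit 76) (nat_lit 21685981312) (nat_lit 152) (nat_lit 12981763823) (nat_lit 49) (nat_lit 5) (nat_lit 50) (nat_lit 5) (nat_lit 51) (nat_lit 4) (nat_lit 483) (nat_lit 414) (nat_lit 303)) (XT.lf (nat_lit 0) (nat_lit 13209650210) (nat_lit 228) (nat_lit 47288215970) (nat_lit 76) (nat_lit 7915578148) (nat_lit 46) (nat_lit 5) (nat_lit 49) (nat_lit 5) (nat_lit 47) (nat_lit 4) (nat_lit 484) (nat_lit 414) (nat_lit 302))))) (XT.nd (nat_lit 234) (nat_lit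 304) (nat_lit 0) (XT.nd (nat_lit 78) (nat_lit 152) (nat_lit 0) (XT.lf (nat_lit 0) (nat_lit 9315943434) (nat_lit 76) (nat_lit 31784921221) (nat_lit 152) (nat_lit 29806843477) (nat_lit 45) (nat_lit 5) (nat_lit 46) (nat_lit 5) (nat_lit 47) (nat_lit 4) (nat_lit 485) (nat_lit 414) (nat_lit 301)) (XT.nd (nat_lit 78) (nat_lit 152) (nat_lit 0) (XT.lf (nat_lit 0) (nat_lit 69715099425) (nat_lit 76) (nat_lit 1146084119) (nat_lit 152) (nat_lit 2651265705) (nat_lit 45) (nat_lit 5) (nat_lit 46) (nat_lit 5) (nat_lit 47) (nat_lit 4) (nat_lit 486) (nat_lit 414) (nat_lit 300)) (XT.lf (nat_lit 0) (nat_lit 26206786661) (nat_lit 152) (nat_lit 18787324030) (nat_lit 76) (nat_lit 31220378315) (nat_lit 43) (nat_lit 5) (nat_lit 45) (nat_lit 5) (nat_lit 44) (nat_lit 4) (nat_lit 487) (nat_lit 414) (nat_lit 299)))) (XT.nd (nat_lit 78) (nat_lit 228) (nat_lit 0) (XT.lf (nat_lit 0) (nat_lit 43530407168) (nat_lit 76) (nat_lit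 13380968815) (nat_lit 152) (nat_lit 22125713649) (nat_lit 42) (nat_lit 5) (nat_lit 43) (nat_lit 5) (nat_lit 44) (nat_lit 4) (nat_lit 488) (nat_lit 414) (nat_lit 298)) (XT.nd (nat_lit 78) (nat_lit 76) (nat_lit 0) (XT.lf (nat_lit 0) (nat_lit 7657820883) (nat_lit 152) (nat_lit 54368868179) (nat_lit 76) (nat_lit 19952660286) (nat_lit 40) (nat_lit 5) (nat_lit 42) (nat_lit 5) (nat_lit 41) (nat_lit 4) (nat_lit 489) (nat_lit 414) (nat_lit 297)) (XT.lf (nat_lit 0) (nat_lit 9367207749) (nat_lit 76) (nat_lit 29693154282) (nat_lit 152) (nat_lit 45984165654) (nat_lit 39) (nat_lit 5) (nat_lit 40) (nat_lit 5) (nat_lit 41) (nat_lit 4) (nat_lit 490) (nat_lit 414) (nat_lit 296)))))) (XT.nd (nat_lit 56628) (nat_lit 0) (nat_lit 19912) (XT.nd (nat_lit 234) (nat_lit 228) (nat_lit 0) (XT.nd (nat_lit 78) (nat_lit 228) (nat_lit 0) (XT.lf (nat_lit 0) (nat_lit 72628344657) (nat_lit 152) (nat_lit 10887331107) (nat_lit 0)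 (nat_lit 4729430062) (nat_lit 39) (nat_lit 5) (nat_lit 41) (nat_lit 4) (nat_lit 39) (nat_lit 4) (nat_lit 491) (nat_lit 414) (nat_lit 295)) (XT.nd (nat_lit 78) (nat_lit 76) (nat_lit 0) (XT.lf (nat_lit 0) (nat_lit 16806398545) (nat_lit 152) (nat_lit 33791685009) (nat_lit 76) (nat_lit 40977292423) (nat_lit 37) (nat_lit 5) (nat_lit 39) (nat_lit 5) (nat_lit 38) (nat_lit 4) (nat_lit 492) (nat_lit 414) (nat_lit 294)) (XT.lf (nat_lit 0) (nat_lit 35562637744) (nat_lit 76) (nat_lit 15413030494) (nat_lit 152) (nat_lit 44078415118) (nat_lit 36) (nat_lit 5) (nat_lit 37) (nat_lit 5) (nat_lit 38) (nat_lit 4) (nat_lit 493) (nat_lit 414) (nat_lit 293)))) (XT.nd (nat_lit 156) (nat_lit 152) (nat_lit 0) (XT.lf (nat_lit 0) (nat_lit 10367209421) (nat_lit 76) (nat_lit 77134222916) (nat_lit 76) (nat_lit 11185853110) (nat_lit 35) (nat_lit 4) (nat_lit 36) (nat_lit 5) (nat_lit 36) (nat_lit 4) (nat_lit 494) (nat_lit 414)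 (nat_lit 292)) (XT.nd (nat_lit 56160) (nat_lit 0) (nat_lit 20748) (XT.lf (nat_lit 0) (nat_lit 56967055745) (nat_lit 76) (nat_lit 3590287045) (nat_lit 152) (nat_lit 45870061102) (nat_lit 33) (nat_lit 5) (nat_lit 34) (nat_lit 5) (nat_lit 35) (nat_lit 4) (nat_lit 496) (nat_lit 414) (nat_lit 290)) (XT.lf (nat_lit 0) (nat_lit 292423016) (nat_lit 1140) (nat_lit 2119332845) (nat_lit 1140) (nat_lit 2119332845) (nat_lit 306) (nat_lit 3) (nat_lit 321) (nat_lit 3) (nat_lit 321) (nat_lit 5) (nat_lit 415) (nat_lit 415) (nat_lit 370))))) (XT.nd (nat_lit 234) (nat_lit 912) (nat_lit 0) (XT.nd (nat_lit 78) (nat_lit 0) (nat_lit 0) (XT.lf (nat_lit 0) (nat_lit 2090530307) (nat_lit 1064) (nat_lit 6029769339) (nat_lit 1140) (nat_lit 1123331750) (nat_lit 307) (nat_lit 5) (nat_lit 321) (nat_lit 5) (nat_lit 322) (nat_lit 5) (nat_lit 416) (nat_lit 415) (nat_lit 369)) (XT.nd (nat_lit 78) (nat_lit 0) (nat_lit 76) (XT.lf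 (nat_lit 76) (nat_lit 1625361818) (nat_lit 0) (nat_lit 2061713270) (nat_lit 1140) (nat_lit 5746639293) (nat_lit 308) (nat_lit 5) (nat_lit 307) (nat_lit 5) (nat_lit 322) (nat_lit 5) (nat_lit 417) (nat_lit 415) (nat_lit 368)) (XT.lf (nat_lit 76) (nat_lit 63560011) (nat_lit 0) (nat_lit 5316020707) (nat_lit 1140) (nat_lit 4253259256) (nat_lit 309) (nat_lit 5) (nat_lit 308) (nat_lit 5) (nat_lit 323) (nat_lit 5) (nat_lit 418) (nat_lit 415) (nat_lit 367)))) (XT.nd (nat_lit 156) (nat_lit 1064) (nat_lit 0) (XT.nd (nat_lit 78) (nat_lit 0) (nat_lit 0) (XT.lf (nat_lit 0) (nat_lit 7184893912) (nat_lit 1064) (nat_lit 1434432012) (nat_lit 1140) (nat_lit 1221771854) (nat_lit 309) (nat_lit 5) (nat_lit 323) (nat_lit 5) (nat_lit 324) (nat_lit 5) (nat_lit 419) (nat_lit 415) (nat_lit 366)) (XT.lf (nat_lit 76) (nat_lit 7140561613) (nat_lit 0) (nat_lit 1981762347) (nat_lit 1140) (nat_lit 936209357) (nat_lit 310) (nat_lit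 5) (nat_lit 309) (nat_lit 5) (nat_lit 324) (nat_lit 5) (nat_lit 420) (nat_lit 415) (nat_lit 365))) (XT.nd (nat_lit 78) (nat_lit 0) (nat_lit 76) (XT.lf (nat_lit 0) (nat_lit 895954485) (nat_lit 1140) (nat_lit 4392774510) (nat_lit 1216) (nat_lit 4996585388) (nat_lit 295) (nat_lit 5) (nat_lit 310) (nat_lit 5) (nat_lit 311) (nat_lit 5) (nat_lit 421) (nat_lit 415) (nat_lit 364)) (XT.lf (nat_lit 0) (nat_lit 2839499814) (nat_lit 1140) (nat_lit 5850040668) (nat_lit 1216) (nat_lit 1832459818) (nat_lit 296) (nat_lit 5) (nat_lit 311) (nat_lit 5) (nat_lit 312) (nat_lit 5) (nat_lit 422) (nat_lit 415) (nat_lit 363))))))) (XT.nd (nat_lit 1014) (nat_lit 4788) (nat_lit 0) (XT.nd (nat_lit 468) (nat_lit 3952) (nat_lit 0) (XT.nd (nat_lit 234) (nat_lit 2052) (nat_lit 0) (XT.nd (nat_lit 78) (nat_lit 988) (nat_lit 0) (XT.lf (nat_lit 76) (nat_lit 3472338731) (nat_lit 0) (nat_lit 1469109462) (nat_lit 1216) (nat_lit 5827252639)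 (nat_lit 297) (nat_lit 5) (nat_lit 296) (nat_lit 5) (nat_lit 312) (nat_lit 5) (nat_lit 423) (nat_lit 415) (nat_lit 362)) (XT.nd (nat_lit 78) (nat_lit 1064) (nat_lit 0) (XT.lf (nat_lit 76) (nat_lit 2287625893) (nat_lit 0) (nat_lit 4934266565) (nat_lit 1216) (nat_lit 3803658257) (nat_lit 298) (nat_lit 5) (nat_lit 297) (nat_lit 5) (nat_lit 313) (nat_lit 5) (nat_lit 424) (nat_lit 415) (nat_lit 361)) (XT.lf (nat_lit 0) (nat_lit 1135690030) (nat_lit 1140) (nat_lit 8542807335) (nat_lit 1216) (nat_lit 1614897077) (nat_lit 283) (nat_lit 5) (nat_lit 298) (nat_lit 5) (nat_lit 299) (nat_lit 5) (nat_lit 425) (nat_lit 415) (nat_lit 360)))) (XT.nd (nat_lit 78) (nat_lit 760) (nat_lit 0) (XT.lf (nat_lit 0) (nat_lit 1384929) (nat_lit 1216) (nat_lit 745884144) (nat_lit 1292) (nat_lit 10824859551) (nat_lit 266) (nat_lit 5) (nat_lit 282) (nat_lit 5) (nat_lit 283) (nat_lit 5) (nat_lit 426) (nat_lit 415) (nat_lit 359))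 (XT.nd (nat_lit 78) (nat_lit 760) (nat_lit 0) (XT.lf (nat_lit 0) (nat_lit 3310800623) (nat_lit 1292) (nat_lit 1125192871) (nat_lit 76) (nat_lit 7424840331) (nat_lit 266) (nat_lit 5) (nat_lit 283) (nat_lit 5) (nat_lit 267) (nat_lit 5) (nat_lit 427) (nat_lit 415) (nat_lit 358)) (XT.lf (nat_lit 0) (nat_lit 6085824157) (nat_lit 836) (nat_lit 2223320916) (nat_lit 76) (nat_lit 3852342753) (nat_lit 256) (nat_lit 5) (nat_lit 267) (nat_lit 5) (nat_lit 257) (nat_lit 5) (nat_lit 428) (nat_lit 415) (nat_lit 357))))) (XT.nd (nat_lit 234) (nat_lit 2128) (nat_lit 0) (XT.nd (nat_lit 78) (nat_lit 1216) (nat_lit 0) (XT.lf (nat_lit 0) (nat_lit 9089663326) (nat_lit 684) (nat_lit 3292674112) (nat_lit 76) (nat_lit 92147538) (nat_lit 248) (nat_lit 5) (nat_lit 257) (nat_lit 5) (nat_lit 249) (nat_lit 5) (nat_lit 429) (nat_lit 415) (nat_lit 356)) (XT.nd (nat_lit 78) (nat_lit 608) (nat_lit 0) (XT.lf (nat_lit 0) (nat_lit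 8428537014) (nat_lit 608) (nat_lit 3949749111) (nat_lit 684) (nat_lit 420819902) (nat_lit 240) (nat_lit 5) (nat_lit 248) (nat_lit 5) (nat_lit 249) (nat_lit 5) (nat_lit 430) (nat_lit 415) (nat_lit 355)) (XT.lf (nat_lit 0) (nat_lit 2744064784) (nat_lit 608) (nat_lit 5448077303) (nat_lit 76) (nat_lit 4943894771) (nat_lit 232) (nat_lit 5) (nat_lit 240) (nat_lit 5) (nat_lit 233) (nat_lit 5) (nat_lit 431) (nat_lit 415) (nat_lit 354)))) (XT.nd (nat_lit 156) (nat_lit 1064) (nat_lit 0) (XT.nd (nat_lit 78) (nat_lit 532) (nat_lit 0) (XT.lf (nat_lit 0) (nat_lit 6169151797) (nat_lit 608) (nat_lit 6503014856) (nat_lit 76) (nat_lit 814213127) (nat_lit 225) (nat_lit 5) (nat_lit 233) (nat_lit 5) (nat_lit 226) (nat_lit 5) (nat_lit 432) (nat_lit 415) (nat_lit 353)) (XT.lf (nat_lit 0) (nat_lit 6284582745) (nat_lit 532) (nat_lit 3632590242) (nat_lit 608) (nat_lit 3932526356) (nat_lit 218) (nat_lit 5) (nat_lit 225)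 (nat_lit 5) (nat_lit 226) (nat_lit 5) (nat_lit 433) (nat_lit 415) (nat_lit 352))) (XT.nd (nat_lit 78) (nat_lit 532) (nat_lit 0) (XT.lf (nat_lit 0) (nat_lit 5618604364) (nat_lit 532) (nat_lit 8365623690) (nat_lit 608) (nat_lit 243017267) (nat_lit 211) (nat_lit 5) (nat_lit 218) (nat_lit 5) (nat_lit 219) (nat_lit 5) (nat_lit 434) (nat_lit 415) (nat_lit 351)) (XT.lf (nat_lit 0) (nat_lit 3690605272) (nat_lit 532) (nat_lit 9660317267) (nat_lit 76) (nat_lit 1267792939) (nat_lit 204) (nat_lit 5) (nat_lit 211) (nat_lit 5) (nat_lit 205) (nat_lit 5) (nat_lit 435) (nat_lit 415) (nat_lit 350)))))) (XT.nd (nat_lit 468) (nat_lit 2128) (nat_lit 0) (XT.nd (nat_lit 234) (nat_lit 1216) (nat_lit 0) (XT.nd (nat_lit 78) (nat_lit 988) (nat_lit 0) (XT.lf (nat_lit 0) (nat_lit 4301255436) (nat_lit 456) (nat_lit 3686511836) (nat_lit 532) (nat_lit 7036771454) (nat_lit 198) (nat_lit 5) (nat_lit 204) (nat_lit 5) (nat_lit 205)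 (nat_lit 5) (nat_lit 436) (nat_lit 415) (nat_lit 349)) (XT.nd (nat_lit 78) (nat_lit 532) (nat_lit 0) (XT.lf (nat_lit 0) (nat_lit 3672475625) (nat_lit 456) (nat_lit 8983219644) (nat_lit 532) (nat_lit 2790288530) (nat_lit 192) (nat_lit 5) (nat_lit 198) (nat_lit 5) (nat_lit 199) (nat_lit 5) (nat_lit 437) (nat_lit 415) (nat_lit 348)) (XT.lf (nat_lit 0) (nat_lit 1786035730) (nat_lit 532) (nat_lit 12814316850) (nat_lit 76) (nat_lit 1283172406) (nat_lit 185) (nat_lit 5) (nat_lit 192) (nat_lit 5) (nat_lit 186) (nat_lit 5) (nat_lit 438) (nat_lit 415) (nat_lit 347)))) (XT.nd (nat_lit 78) (nat_lit 836) (nat_lit 0) (XT.lf (nat_lit 0) (nat_lit 2438128114) (nat_lit 380) (nat_lit 4292939187) (nat_lit 456) (nat_lit 9605126133) (nat_lit 180) (nat_lit 5) (nat_lit 185) (nat_lit 5) (nat_lit 186) (nat_lit 5) (nat_lit 439) (nat_lit 415) (nat_lit 346)) (XT.nd (nat_lit 78) (nat_lit 456) (nat_lit 0) (XT.lf (nat_lit 0)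 (nat_lit 1835372873) (nat_lit 380) (nat_lit 10263471325) (nat_lit 456) (nat_lit 4707392919) (nat_lit 175) (nat_lit 5) (nat_lit 180) (nat_lit 5) (nat_lit 181) (nat_lit 5) (nat_lit 440) (nat_lit 415) (nat_lit 345)) (XT.lf (nat_lit 0) (nat_lit 596281132) (nat_lit 456) (nat_lit 16024093660) (nat_lit 76) (nat_lit 674202400) (nat_lit 169) (nat_lit 5) (nat_lit 175) (nat_lit 5) (nat_lit 170) (nat_lit 5) (nat_lit 441) (nat_lit 415) (nat_lit 344))))) (XT.nd (nat_lit 234) (nat_lit 1368) (nat_lit 0) (XT.nd (nat_lit 78) (nat_lit 380) (nat_lit 0) (XT.lf (nat_lit 0) (nat_lit 645314079) (nat_lit 380) (nat_lit 5652847361) (nat_lit 456) (nat_lit 11500869069) (nat_lit 164) (nat_lit 5) (nat_lit 169) (nat_lit 5) (nat_lit 170) (nat_lit 5) (nat_lit 442) (nat_lit 415) (nat_lit 343)) (XT.nd (nat_lit 78) (nat_lit 76) (nat_lit 0) (XT.lf (nat_lit 0) (nat_lit 54141926) (nat_lit 304) (nat_lit 12419638568) (nat_lit 380) (nat_lit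 5849272213) (nat_lit 160) (nat_lit 5) (nat_lit 164) (nat_lit 5) (nat_lit 165) (nat_lit 5) (nat_lit 443) (nat_lit 415) (nat_lit 342)) (XT.lf (nat_lit 0) (nat_lit 284681882) (nat_lit 380) (nat_lit 494254856) (nat_lit 76) (nat_lit 18088276905) (nat_lit 159) (nat_lit 5) (nat_lit 164) (nat_lit 5) (nat_lit 160) (nat_lit 5) (nat_lit 444) (nat_lit 415) (nat_lit 341)))) (XT.nd (nat_lit 156) (nat_lit 684) (nat_lit 0) (XT.nd (nat_lit 78) (nat_lit 304) (nat_lit 0) (XT.lf (nat_lit 0) (nat_lit 6862476051) (nat_lit 456) (nat_lit 1120319591) (nat_lit 76) (nat_lit 11446311039) (nat_lit 154) (nat_lit 5) (nat_lit 160) (nat_lit 5) (nat_lit 155) (nat_lit 5) (nat_lit 445) (nat_lit 415) (nat_lit 340)) (XT.lf (nat_lit 0) (nat_lit 13969701538) (nat_lit 380) (nat_lit 1708125922) (nat_lit 76) (nat_lit 4335255326) (nat_lit 150) (nat_lit 5) (nat_lit 155) (nat_lit 5) (nat_lit 151) (nat_lit 5) (nat_lit 446) (nat_lit 415) (nat_lit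 339))) (XT.nd (nat_lit 78) (nat_lit 304) (nat_lit 0) (XT.lf (nat_lit 0) (nat_lit 1030696609) (nat_lit 380) (nat_lit 2297469747) (nat_lit 76) (nat_lit 17290651370) (nat_lit 145) (nat_lit 5) (nat_lit 150) (nat_lit 5) (nat_lit 146) (nat_lit 5) (nat_lit 447) (nat_lit 415) (nat_lit 338)) (XT.lf (nat_lit 0) (nat_lit 8594562995) (nat_lit 380) (nat_lit 2955399795) (nat_lit 76) (nat_lit 9695253531) (nat_lit 141) (nat_lit 5) (nat_lit 146) (nat_lit 5) (nat_lit 142) (nat_lit 5) (nat_lit 448) (nat_lit 415) (nat_lit 337))))))))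
noncomputable def xc75 : XT := (XT.nd (nat_lit 1950) (nat_lit 2584) (nat_lit 0) (XT.nd (nat_lit 936) (nat_lit 2356) (nat_lit 0) (XT.nd (nat_lit 468) (nat_lit 1444) (nat_lit 0) (XT.nd (nat_lit 234) (nat_lit 836) (nat_lit 0) (XT.nd (nat_lit 78) (nat_lit 608) (nat_lit 0) (XT.lf (nat_lit 0) (nat_lit 16756846296) (nat_lit 380) (nat_lit 3578999380) (nat_lit 76) (nat_lit 1560486370) (nat_lit 137) (nat_lit 5) (nat_lit 142) (nat_lit 5) (nat_lit 138) (nat_lit 5) (nat_lit 449) (nat_lit 415) (nat_lit 336)) (XT.nd (nat_lit 78) (nat_lit 304) (nat_lit 0) (XT.lf (nat_lit 0) (nat_lit 2992152921) (nat_lit 304) (nat_lit 4265753898) (nat_lit 76) (nat_lit 15312352471) (nat_lit 133) (nat_lit 5) (nat_lit 137) (nat_lit 5) (nat_lit 134) (nat_lit 5) (nat_lit 450) (nat_lit 415) (nat_lit 335)) (XT.lf (nat_lit 0) (nat_lit 11676044966) (nat_lit 380) (nat_lit 4991418806) (nat_lit 76) (nat_lit 6601337070) (nat_lit 129) (nat_lit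 5) (nat_lit 134) (nat_lit 5) (nat_lit 130) (nat_lit 5) (nat_lit 451) (nat_lit 415) (nat_lit 334)))) (XT.nd (nat_lit 78) (nat_lit 608) (nat_lit 0) (XT.lf (nat_lit 0) (nat_lit 18277501652) (nat_lit 228) (nat_lit 2783413324) (nat_lit 304) (nat_lit 2933354271) (nat_lit 126) (nat_lit 5) (nat_lit 129) (nat_lit 5) (nat_lit 130) (nat_lit 5) (nat_lit 452) (nat_lit 415) (nat_lit 333)) (XT.nd (nat_lit 78) (nat_lit 228) (nat_lit 0) (XT.lf (nat_lit 0) (nat_lit 6356981901) (nat_lit 380) (nat_lit 6547504681) (nat_lit 76) (nat_lit 11840206922) (nat_lit 121) (nat_lit 5) (nat_lit 126) (nat_lit 5) (nat_lit 122) (nat_lit 5) (nat_lit 453) (nat_lit 415) (nat_lit 332)) (XT.lf (nat_lit 0) (nat_lit 16306464039) (nat_lit 304) (nat_lit 7391323380) (nat_lit 76) (nat_lit 1826324286) (nat_lit 118) (nat_lit 5) (nat_lit 122) (nat_lit 5) (nat_lit 119) (nat_lit 5) (nat_lit 454) (nat_lit 415) (nat_lit 331))))) (XT.nd (nat_lit 234)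 (nat_lit 684) (nat_lit 0) (XT.nd (nat_lit 78) (nat_lit 456) (nat_lit 0) (XT.lf (nat_lit 0) (nat_lit 753419589) (nat_lit 304) (nat_lit 8314783602) (nat_lit 76) (nat_lit 17263666233) (nat_lit 114) (nat_lit 5) (nat_lit 118) (nat_lit 5) (nat_lit 115) (nat_lit 5) (nat_lit 455) (nat_lit 415) (nat_lit 330)) (XT.nd (nat_lit 78) (nat_lit 228) (nat_lit 0) (XT.lf (nat_lit 0) (nat_lit 11322773598) (nat_lit 304) (nat_lit 9345185107) (nat_lit 76) (nat_lit 6500609897) (nat_lit 111) (nat_lit 5) (nat_lit 115) (nat_lit 5) (nat_lit 112) (nat_lit 5) (nat_lit 456) (nat_lit 415) (nat_lit 329)) (XT.lf (nat_lit 0) (nat_lit 17610605271) (nat_lit 228) (nat_lit 5133942421) (nat_lit 304) (nat_lit 5292838897) (nat_lit 108) (nat_lit 5) (nat_lit 111) (nat_lit 5) (nat_lit 112) (nat_lit 5) (nat_lit 457) (nat_lit 415) (nat_lit 328)))) (XT.nd (nat_lit 78) (nat_lit 456) (nat_lit 0) (XT.lf (nat_lit 0) (nat_lit 6027005411) (nat_lit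 228) (nat_lit 11643072469) (nat_lit 76) (nat_lit 11267335351) (nat_lit 105) (nat_lit 5) (nat_lit 108) (nat_lit 5) (nat_lit 106) (nat_lit 5) (nat_lit 458) (nat_lit 415) (nat_lit 327)) (XT.nd (nat_lit 78) (nat_lit 228) (nat_lit 0) (XT.lf (nat_lit 0) (nat_lit 16927048312) (nat_lit 228) (nat_lit 1178094036) (nat_lit 304) (nat_lit 11766675926) (nat_lit 102) (nat_lit 5) (nat_lit 105) (nat_lit 5) (nat_lit 106) (nat_lit 5) (nat_lit 459) (nat_lit 415) (nat_lit 326)) (XT.lf (nat_lit 0) (nat_lit 352277040) (nat_lit 228) (nat_lit 14396336809) (nat_lit 76) (nat_lit 16091848114) (nat_lit 99) (nat_lit 5) (nat_lit 102) (nat_lit 5) (nat_lit 100) (nat_lit 5) (nat_lit 460) (nat_lit 415) (nat_lit 325)))))) (XT.nd (nat_lit 468) (nat_lit 1140) (nat_lit 0) (XT.nd (nat_lit 234) (nat_lit 532) (nat_lit 0) (XT.nd (nat_lit 78) (nat_lit 456) (nat_lit 0) (XT.lf (nat_lit 0) (nat_lit 13140290681) (nat_lit 304) (nat_lit 16011044500)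 (nat_lit 76) (nat_lit 2693515504) (nat_lit 96) (nat_lit 5) (nat_lit 100) (nat_lit 5) (nat_lit 97) (nat_lit 5) (nat_lit 461) (nat_lit 415) (nat_lit 324)) (XT.nd (nat_lit 78) (nat_lit 304) (nat_lit 0) (XT.lf (nat_lit 0) (nat_lit 15090012113) (nat_lit 152) (nat_lit 11900671074) (nat_lit 228) (nat_lit 5896088098) (nat_lit 94) (nat_lit 5) (nat_lit 96) (nat_lit 5) (nat_lit 97) (nat_lit 5) (nat_lit 462) (nat_lit 415) (nat_lit 323)) (XT.lf (nat_lit 0) (nat_lit 7752242562) (nat_lit 304) (nat_lit 19759028996) (nat_lit 76) (nat_lit 6456935415) (nat_lit 90) (nat_lit 5) (nat_lit 94) (nat_lit 5) (nat_lit 91) (nat_lit 5) (nat_lit 463) (nat_lit 415) (nat_lit 322)))) (XT.nd (nat_lit 78) (nat_lit 380) (nat_lit 0) (XT.lf (nat_lit 0) (nat_lit 13129614095) (nat_lit 152) (nat_lit 9244257392) (nat_lit 228) (nat_lit 12715708563) (nat_lit 88) (nat_lit 5) (nat_lit 90) (nat_lit 5) (nat_lit 91) (nat_lit 5) (nat_lit 464)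 (nat_lit 415) (nat_lit 321)) (XT.nd (nat_lit 78) (nat_lit 152) (nat_lit 0) (XT.lf (nat_lit 0) (nat_lit 1831297981) (nat_lit 228) (nat_lit 24357114193) (nat_lit 76) (nat_lit 10066183581) (nat_lit 85) (nat_lit 5) (nat_lit 88) (nat_lit 5) (nat_lit 86) (nat_lit 5) (nat_lit 465) (nat_lit 415) (nat_lit 320)) (XT.lf (nat_lit 0) (nat_lit 10381201158) (nat_lit 152) (nat_lit 6866548407) (nat_lit 228) (nat_lit 20214184874) (nat_lit 83) (nat_lit 5) (nat_lit 85) (nat_lit 5) (nat_lit 86) (nat_lit 5) (nat_lit 466) (nat_lit 415) (nat_lit 319))))) (XT.nd (nat_lit 234) (nat_lit 608) (nat_lit 0) (XT.nd (nat_lit 78) (nat_lit 380) (nat_lit 0) (XT.lf (nat_lit 0) (nat_lit 8647991593) (nat_lit 152) (nat_lit 25234082881) (nat_lit 228) (nat_lit 4834155378) (nat_lit 81) (nat_lit 5) (nat_lit 83) (nat_lit 5) (nat_lit 84) (nat_lit 5) (nat_lit 467) (nat_lit 415) (nat_lit 318)) (XT.nd (nat_lit 78) (nat_lit 152) (nat_lit 0) (XT.lf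 (nat_lit 0) (nat_lit 6620547775) (nat_lit 152) (nat_lit 4870092297) (nat_lit 228) (nat_lit 28527441469) (nat_lit 78) (nat_lit 5) (nat_lit 80) (nat_lit 5) (nat_lit 81) (nat_lit 5) (nat_lit 468) (nat_lit 415) (nat_lit 317)) (XT.lf (nat_lit 0) (nat_lit 4237000354) (nat_lit 152) (nat_lit 24790172582) (nat_lit 228) (nat_lit 12341553890) (nat_lit 76) (nat_lit 5) (nat_lit 78) (nat_lit 5) (nat_lit 79) (nat_lit 5) (nat_lit 469) (nat_lit 415) (nat_lit 316)))) (XT.nd (nat_lit 156) (nat_lit 380) (nat_lit 0) (XT.nd (nat_lit 78) (nat_lit 0) (nat_lit 0) (XT.lf (nat_lit 0) (nat_lit 1577156281) (nat_lit 152) (nat_lit 3380053238) (nat_lit 228) (nat_lit 37816522211) (nat_lit 73) (nat_lit 5) (nat_lit 75) (nat_lit 5) (nat_lit 76) (nat_lit 5) (nat_lit 470) (nat_lit 415) (nat_lit 315)) (XT.lf (nat_lit 0) (nat_lit 23420941575) (nat_lit 228) (nat_lit 1582442143) (nat_lit 76) (nat_lit 19225280195) (nat_lit 73) (nat_lit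 5) (nat_lit 76) (nat_lit 5) (nat_lit 74) (nat_lit 5) (nat_lit 471) (nat_lit 415) (nat_lit 314))) (XT.nd (nat_lit 78) (nat_lit 228) (nat_lit 0) (XT.lf (nat_lit 0) (nat_lit 40744407278) (nat_lit 152) (nat_lit 2473296219) (nat_lit 228) (nat_lit 2526344887) (nat_lit 71) (nat_lit 5) (nat_lit 73) (nat_lit 5) (nat_lit 74) (nat_lit 5) (nat_lit 472) (nat_lit 415) (nat_lit 313)) (XT.lf (nat_lit 0) (nat_lit 16923172141) (nat_lit 228) (nat_lit 9080815503) (nat_lit 76) (nat_lit 21309027979) (nat_lit 68) (nat_lit 5) (nat_lit 71) (nat_lit 5) (nat_lit 69) (nat_lit 5) (nat_lit 473) (nat_lit 415) (nat_lit 312))))))) (XT.nd (nat_lit 1014) (nat_lit 836) (nat_lit 0) (XT.nd (nat_lit 468) (nat_lit 912) (nat_lit 0) (XT.nd (nat_lit 234) (nat_lit 380) (nat_lit 0) (XT.nd (nat_lit 78) (nat_lit 304) (nat_lit 0) (XT.lf (nat_lit 0) (nat_lit 35382750543) (nat_lit 152) (nat_lit 2312471452) (nat_lit 228) (nat_lit 11252390520)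 (nat_lit 66) (nat_lit 5) (nat_lit 68) (nat_lit 5) (nat_lit 69) (nat_lit 5) (nat_lit 474) (nat_lit 415) (nat_lit 311)) (XT.nd (nat_lit 78) (nat_lit 152) (nat_lit 0) (XT.lf (nat_lit 0) (nat_lit 9279160093) (nat_lit 152) (nat_lit 18759984661) (nat_lit 76) (nat_lit 22603952577) (nat_lit 64) (nat_lit 5) (nat_lit 66) (nat_lit 5) (nat_lit 65) (nat_lit 5) (nat_lit 475) (nat_lit 415) (nat_lit 310)) (XT.lf (nat_lit 0) (nat_lit 27845888182) (nat_lit 152) (nat_lit 3178293764) (nat_lit 228) (nat_lit 21383244594) (nat_lit 62) (nat_lit 5) (nat_lit 64) (nat_lit 5) (nat_lit 65) (nat_lit 5) (nat_lit 476) (nat_lit 415) (nat_lit 309)))) (XT.nd (nat_lit 78) (nat_lit 228) (nat_lit 0) (XT.lf (nat_lit 0) (nat_lit 233939655) (nat_lit 152) (nat_lit 31121256904) (nat_lit 76) (nat_lit 22886005227) (nat_lit 60) (nat_lit 5) (nat_lit 62) (nat_lit 5) (nat_lit 61) (nat_lit 5) (nat_lit 477) (nat_lit 415) (nat_lit 308)) (XT.nd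 (nat_lit 78) (nat_lit 76) (nat_lit 0) (XT.lf (nat_lit 0) (nat_lit 17606820626) (nat_lit 152) (nat_lit 5329739625) (nat_lit 228) (nat_lit 33210350288) (nat_lit 58) (nat_lit 5) (nat_lit 60) (nat_lit 5) (nat_lit 61) (nat_lit 5) (nat_lit 478) (nat_lit 415) (nat_lit 307)) (XT.lf (nat_lit 0) (nat_lit 11262934464) (nat_lit 76) (nat_lit 36140974018) (nat_lit 152) (nat_lit 10725108983) (nat_lit 57) (nat_lit 5) (nat_lit 58) (nat_lit 5) (nat_lit 59) (nat_lit 4) (nat_lit 479) (nat_lit 415) (nat_lit 306))))) (XT.nd (nat_lit 234) (nat_lit 532) (nat_lit 0) (XT.nd (nat_lit 78) (nat_lit 152) (nat_lit 0) (XT.lf (nat_lit 0) (nat_lit 4035213204) (nat_lit 152) (nat_lit 9077631625) (nat_lit 228) (nat_lit 47079273774) (nat_lit 54) (nat_lit 5) (nat_lit 56) (nat_lit 5) (nat_lit 57) (nat_lit 5) (nat_lit 480) (nat_lit 415) (nat_lit 305)) (XT.nd (nat_lit 78) (nat_lit 152) (nat_lit 0) (XT.lf (nat_lit 0) (nat_lit 38582981886)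 (nat_lit 228) (nat_lit 4206559272) (nat_lit 76) (nat_lit 19545785603) (nat_lit 54) (nat_lit 5) (nat_lit 57) (nat_lit 5) (nat_lit 55) (nat_lit 4) (nat_lit 481) (nat_lit 415) (nat_lit 304)) (XT.lf (nat_lit 0) (nat_lit 1303706787) (nat_lit 152) (nat_lit 13355544645) (nat_lit 76) (nat_lit 49908913708) (nat_lit 52) (nat_lit 5) (nat_lit 54) (nat_lit 5) (nat_lit 53) (nat_lit 5) (nat_lit 482) (nat_lit 415) (nat_lit 303)))) (XT.nd (nat_lit 156) (nat_lit 304) (nat_lit 0) (XT.nd (nat_lit 78) (nat_lit 76) (nat_lit 0) (XT.lf (nat_lit 0) (nat_lit 27722103013) (nat_lit 228) (nat_lit 23883625863) (nat_lit 76) (nat_lit 15281838595) (nat_lit 50) (nat_lit 5) (nat_lit 53) (nat_lit 5) (nat_lit 51) (nat_lit 4) (nat_lit 483) (nat_lit 415) (nat_lit 302)) (XT.lf (nat_lit 0) (nat_lit 33625860894) (nat_lit 76) (nat_lit 22433652392) (nat_lit 152) (nat_lit 13245484273) (nat_lit 49) (nat_lit 5) (nat_lit 50) (nat_lit 5) (nat_lit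 51) (nat_lit 4) (nat_lit 484) (nat_lit 415) (nat_lit 301))) (XT.nd (nat_lit 78) (nat_lit 76) (nat_lit 0) (XT.lf (nat_lit 0) (nat_lit 14239877649) (nat_lit 228) (nat_lit 48947098053) (nat_lit 76) (nat_lit 8636035173) (nat_lit 46) (nat_lit 5) (nat_lit 49) (nat_lit 5) (nat_lit 47) (nat_lit 4) (nat_lit 485) (nat_lit 415) (nat_lit 300)) (XT.lf (nat_lit 0) (nat_lit 10467045483) (nat_lit 76) (nat_lit 33047588002) (nat_lit 152) (nat_lit 30927685598) (nat_lit 45) (nat_lit 5) (nat_lit 46) (nat_lit 5) (nat_lit 47) (nat_lit 4) (nat_lit 486) (nat_lit 415) (nat_lit 299)))))) (XT.nd (nat_lit 468) (nat_lit 380) (nat_lit 0) (XT.nd (nat_lit 234) (nat_lit 228) (nat_lit 0) (XT.nd (nat_lit 78) (nat_lit 228) (nat_lit 0) (XT.lf (nat_lit 0) (nat_lit 73853525708) (nat_lit 76) (nat_lit 892360439) (nat_lit 152) (nat_lit 2431924178) (nat_lit 45) (nat_lit 5) (nat_lit 46) (nat_lit 5) (nat_lit 47) (nat_lit 4) (nat_lit 487)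 (nat_lit 415) (nat_lit 298)) (XT.nd (nat_lit 78) (nat_lit 76) (nat_lit 0) (XT.lf (nat_lit 0) (nat_lit 27854832053) (nat_lit 152) (nat_lit 19078932269) (nat_lit 76) (nat_lit 33081306779) (nat_lit 43) (nat_lit 5) (nat_lit 45) (nat_lit 5) (nat_lit 44) (nat_lit 4) (nat_lit 488) (nat_lit 415) (nat_lit 297)) (XT.lf (nat_lit 0) (nat_lit 46336117636) (nat_lit 76) (nat_lit 13748500124) (nat_lit 152) (nat_lit 22894485523) (nat_lit 42) (nat_lit 5) (nat_lit 43) (nat_lit 5) (nat_lit 44) (nat_lit 4) (nat_lit 489) (nat_lit 415) (nat_lit 296)))) (XT.nd (nat_lit 78) (nat_lit 76) (nat_lit 0) (XT.lf (nat_lit 0) (nat_lit 8364667265) (nat_lit 152) (nat_lit 56462956441) (nat_lit 76) (nat_lit 21240964610) (nat_lit 40) (nat_lit 5) (nat_lit 42) (nat_lit 5) (nat_lit 41) (nat_lit 4) (nat_lit 490) (nat_lit 415) (nat_lit 295)) (XT.nd (nat_lit 78) (nat_lit 0) (nat_lit 0) (XT.lf (nat_lit 0) (nat_lit 10442026268) (nat_lit 76)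 (nat_lit 30885712404) (nat_lit 152) (nat_lit 47959575271) (nat_lit 39) (nat_lit 5) (nat_lit 40) (nat_lit 5) (nat_lit 41) (nat_lit 4) (nat_lit 491) (nat_lit 415) (nat_lit 294)) (XT.lf (nat_lit 0) (nat_lit 76561825108) (nat_lit 152) (nat_lit 10847802025) (nat_lit 0) (nat_lit 5238663162) (nat_lit 39) (nat_lit 5) (nat_lit 41) (nat_lit 4) (nat_lit 39) (nat_lit 4) (nat_lit 492) (nat_lit 415) (nat_lit 293))))) (XT.nd (nat_lit 56472) (nat_lit 0) (nat_lit 20672) (XT.nd (nat_lit 78) (nat_lit 228) (nat_lit 0) (XT.lf (nat_lit 0) (nat_lit 17942760223) (nat_lit 152) (nat_lit 34908210811) (nat_lit 76) (nat_lit 43294284237) (nat_lit 37) (nat_lit 5) (nat_lit 39) (nat_lit 5) (nat_lit 38) (nat_lit 4) (nat_lit 493) (nat_lit 415) (nat_lit 292)) (XT.nd (nat_lit 156) (nat_lit 152) (nat_lit 0) (XT.lf (nat_lit 0) (nat_lit 37897401475) (nat_lit 76) (nat_lit 15914345387) (nat_lit 152) (nat_lit 45986413948) (nat_lit 36)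 (nat_lit 5) (nat_lit 37) (nat_lit 5) (nat_lit 38) (nat_lit 4) (nat_lit 494) (nat_lit 415) (nat_lit 291)) (XT.lf (nat_lit 0) (nat_lit 25113608668) (nat_lit 152) (nat_lit 18297161375) (nat_lit 76) (nat_lit 64177212891) (nat_lit 34) (nat_lit 5) (nat_lit 36) (nat_lit 5) (nat_lit 35) (nat_lit 4) (nat_lit 496) (nat_lit 415) (nat_lit 289)))) (XT.nd (nat_lit 156) (nat_lit 0) (nat_lit 76) (XT.nd (nat_lit 78) (nat_lit 0) (nat_lit 0) (XT.lf (nat_lit 0) (nat_lit 1733467895) (nat_lit 1140) (nat_lit 1490509865) (nat_lit 1140) (nat_lit 1490509865) (nat_lit 306) (nat_lit 3) (nat_lit 321) (nat_lit 3) (nat_lit 321) (nat_lit 5) (nat_lit 416) (nat_lit 416) (nat_lit 368)) (XT.lf (nat_lit 76) (nat_lit 4813919833) (nat_lit 0) (nat_lit 100292419) (nat_lit 1140) (nat_lit 4709334992) (nat_lit 307) (nat_lit 5) (nat_lit 306) (nat_lit 3) (nat_lit 321) (nat_lit 5) (nat_lit 417) (nat_lit 416) (nat_lit 367))) (XT.nd (nat_lit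 78) (nat_lit 0) (nat_lit 76) (XT.lf (nat_lit 76) (nat_lit 3185579511) (nat_lit 0) (nat_lit 3288819573) (nat_lit 1140) (nat_lit 3352253756) (nat_lit 308) (nat_lit 5) (nat_lit 307) (nat_lit 5) (nat_lit 322) (nat_lit 5) (nat_lit 418) (nat_lit 416) (nat_lit 366)) (XT.lf (nat_lit 76) (nat_lit 1590278863) (nat_lit 0) (nat_lit 6541655116) (nat_lit 1140) (nat_lit 1907419956) (nat_lit 309) (nat_lit 5) (nat_lit 308) (nat_lit 5) (nat_lit 323) (nat_lit 5) (nat_lit 419) (nat_lit 416) (nat_lit 365))))))))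
noncomputable def xc76 : XT := (XT.nd (nat_lit 1950) (nat_lit 6384) (nat_lit 0) (XT.nd (nat_lit 936) (nat_lit 6004) (nat_lit 0) (XT.nd (nat_lit 468) (nat_lit 4180) (nat_lit 0) (XT.nd (nat_lit 234) (nat_lit 0) (nat_lit 152) (XT.nd (nat_lit 78) (nat_lit 1140) (nat_lit 0) (XT.lf (nat_lit 76) (nat_lit 25676372) (nat_lit 0) (nat_lit 9875040213) (nat_lit 1140) (nat_lit 361141780) (nat_lit 310) (nat_lit 5) (nat_lit 309) (nat_lit 5) (nat_lit 324) (nat_lit 5) (nat_lit 420) (nat_lit 416) (nat_lit 364)) (XT.nd (nat_lit 78) (nat_lit 0) (nat_lit 76) (XT.lf (nat_lit 0) (nat_lit 1317503535) (nat_lit 1140) (nat_lit 1521032054) (nat_lit 1216) (nat_lit 7654215666) (nat_lit 294) (nat_lit 5) (nat_lit 309) (nat_lit 5) (nat_lit 310) (nat_lit 5) (nat_lit 421) (nat_lit 416) (nat_lit 363)) (XT.lf (nat_lit 0) (nat_lit 3121069730) (nat_lit 1140) (nat_lit 3050136634) (nat_lit 1216) (nat_lit 4562438519) (nat_lit 295) (nat_lit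 5) (nat_lit 310) (nat_lit 5) (nat_lit 311) (nat_lit 5) (nat_lit 422) (nat_lit 416) (nat_lit 362)))) (XT.nd (nat_lit 78) (nat_lit 0) (nat_lit 0) (XT.lf (nat_lit 0) (nat_lit 5067041108) (nat_lit 1140) (nat_lit 4556301731) (nat_lit 1216) (nat_lit 1361689827) (nat_lit 296) (nat_lit 5) (nat_lit 311) (nat_lit 5) (nat_lit 312) (nat_lit 5) (nat_lit 423) (nat_lit 416) (nat_lit 361)) (XT.nd (nat_lit 78) (nat_lit 0) (nat_lit 76) (XT.lf (nat_lit 76) (nat_lit 5186727359) (nat_lit 0) (nat_lit 2002857706) (nat_lit 1216) (nat_lit 4057042056) (nat_lit 297) (nat_lit 5) (nat_lit 296) (nat_lit 5) (nat_lit 312) (nat_lit 5) (nat_lit 424) (nat_lit 416) (nat_lit 360)) (XT.lf (nat_lit 76) (nat_lit 3961685034) (nat_lit 0) (nat_lit 5537856383) (nat_lit 1216) (nat_lit 2019336090) (nat_lit 298) (nat_lit 5) (nat_lit 297) (nat_lit 5) (nat_lit 313) (nat_lit 5) (nat_lit 425) (nat_lit 416) (nat_lit 359))))) (XT.nd (nat_lit 234)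 (nat_lit 1292) (nat_lit 0) (XT.nd (nat_lit 78) (nat_lit 1976) (nat_lit 0) (XT.lf (nat_lit 0) (nat_lit 193218514) (nat_lit 1216) (nat_lit 9037344914) (nat_lit 76) (nat_lit 2571896660) (nat_lit 282) (nat_lit 5) (nat_lit 298) (nat_lit 5) (nat_lit 283) (nat_lit 5) (nat_lit 426) (nat_lit 416) (nat_lit 358)) (XT.nd (nat_lit 78) (nat_lit 760) (nat_lit 0) (XT.lf (nat_lit 0) (nat_lit 1567193262) (nat_lit 1216) (nat_lit 999892358) (nat_lit 1292) (nat_lit 9529775945) (nat_lit 266) (nat_lit 5) (nat_lit 282) (nat_lit 5) (nat_lit 283) (nat_lit 5) (nat_lit 427) (nat_lit 416) (nat_lit 357)) (XT.lf (nat_lit 0) (nat_lit 370244443) (nat_lit 760) (nat_lit 4805245613) (nat_lit 836) (nat_lit 7227030123) (nat_lit 256) (nat_lit 5) (nat_lit 266) (nat_lit 5) (nat_lit 267) (nat_lit 5) (nat_lit 428) (nat_lit 416) (nat_lit 356)))) (XT.nd (nat_lit 78) (nat_lit 1292) (nat_lit 0) (XT.lf (nat_lit 0) (nat_lit 8018143507) (nat_lit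 836) (nat_lit 783805320) (nat_lit 76) (nat_lit 3918409827) (nat_lit 256) (nat_lit 5) (nat_lit 267) (nat_lit 5) (nat_lit 257) (nat_lit 5) (nat_lit 429) (nat_lit 416) (nat_lit 355)) (XT.nd (nat_lit 78) (nat_lit 684) (nat_lit 0) (XT.lf (nat_lit 0) (nat_lit 11108563563) (nat_lit 684) (nat_lit 1903216511) (nat_lit 76) (nat_lit 39151193) (nat_lit 248) (nat_lit 5) (nat_lit 257) (nat_lit 5) (nat_lit 249) (nat_lit 5) (nat_lit 430) (nat_lit 416) (nat_lit 354)) (XT.lf (nat_lit 0) (nat_lit 1086411015) (nat_lit 684) (nat_lit 3044743015) (nat_lit 76) (nat_lit 9262125820) (nat_lit 239) (nat_lit 5) (nat_lit 248) (nat_lit 5) (nat_lit 240) (nat_lit 5) (nat_lit 431) (nat_lit 416) (nat_lit 353)))))) (XT.nd (nat_lit 468) (nat_lit 2888) (nat_lit 0) (XT.nd (nat_lit 234) (nat_lit 1520) (nat_lit 0) (XT.nd (nat_lit 78) (nat_lit 1064) (nat_lit 0) (XT.lf (nat_lit 0) (nat_lit 4343263117) (nat_lit 608) (nat_lit 4180696509)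 (nat_lit 76) (nat_lit 5224715017) (nat_lit 232) (nat_lit 5) (nat_lit 240) (nat_lit 5) (nat_lit 233) (nat_lit 5) (nat_lit 432) (nat_lit 416) (nat_lit 352)) (XT.nd (nat_lit 78) (nat_lit 532) (nat_lit 0) (XT.lf (nat_lit 0) (nat_lit 7885217242) (nat_lit 608) (nat_lit 5290880740) (nat_lit 76) (nat_lit 942082833) (nat_lit 225) (nat_lit 5) (nat_lit 233) (nat_lit 5) (nat_lit 226) (nat_lit 5) (nat_lit 433) (nat_lit 416) (nat_lit 351)) (XT.lf (nat_lit 0) (nat_lit 8092030779) (nat_lit 532) (nat_lit 3675933501) (nat_lit 608) (nat_lit 2733296130) (nat_lit 218) (nat_lit 5) (nat_lit 225) (nat_lit 5) (nat_lit 226) (nat_lit 5) (nat_lit 434) (nat_lit 416) (nat_lit 350)))) (XT.nd (nat_lit 78) (nat_lit 912) (nat_lit 0) (XT.lf (nat_lit 0) (nat_lit 1068989384) (nat_lit 608) (nat_lit 7521235097) (nat_lit 76) (nat_lit 6308626215) (nat_lit 210) (nat_lit 5) (nat_lit 218) (nat_lit 5) (nat_lit 211) (nat_lit 5) (nat_lit 435)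 (nat_lit 416) (nat_lit 349)) (XT.nd (nat_lit 78) (nat_lit 456) (nat_lit 0) (XT.lf (nat_lit 0) (nat_lit 5147581382) (nat_lit 532) (nat_lit 8634964337) (nat_lit 76) (nat_lit 1528689177) (nat_lit 204) (nat_lit 5) (nat_lit 211) (nat_lit 5) (nat_lit 205) (nat_lit 5) (nat_lit 436) (nat_lit 416) (nat_lit 348)) (XT.lf (nat_lit 0) (nat_lit 5981449912) (nat_lit 456) (nat_lit 3631642652) (nat_lit 532) (nat_lit 6125663580) (nat_lit 198) (nat_lit 5) (nat_lit 204) (nat_lit 5) (nat_lit 205) (nat_lit 5) (nat_lit 437) (nat_lit 416) (nat_lit 347))))) (XT.nd (nat_lit 234) (nat_lit 1520) (nat_lit 0) (XT.nd (nat_lit 78) (nat_lit 912) (nat_lit 0) (XT.lf (nat_lit 0) (nat_lit 5312948673) (nat_lit 456) (nat_lit 9159284262) (nat_lit 532) (nat_lit 1710317076) (nat_lit 192) (nat_lit 5) (nat_lit 198) (nat_lit 5) (nat_lit 199) (nat_lit 5) (nat_lit 438) (nat_lit 416) (nat_lit 346)) (XT.nd (nat_lit 78) (nat_lit 380) (nat_lit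 0) (XT.lf (nat_lit 0) (nat_lit 3030663735) (nat_lit 532) (nat_lit 11984587900) (nat_lit 76) (nat_lit 1627586032) (nat_lit 185) (nat_lit 5) (nat_lit 192) (nat_lit 5) (nat_lit 186) (nat_lit 5) (nat_lit 439) (nat_lit 416) (nat_lit 345)) (XT.lf (nat_lit 0) (nat_lit 3988329308) (nat_lit 380) (nat_lit 4193331686) (nat_lit 456) (nat_lit 8937726824) (nat_lit 180) (nat_lit 5) (nat_lit 185) (nat_lit 5) (nat_lit 186) (nat_lit 5) (nat_lit 440) (nat_lit 416) (nat_lit 344)))) (XT.nd (nat_lit 156) (nat_lit 684) (nat_lit 0) (XT.nd (nat_lit 78) (nat_lit 456) (nat_lit 0) (XT.lf (nat_lit 0) (nat_lit 3344212018) (nat_lit 380) (nat_lit 10437063886) (nat_lit 456) (nat_lit 3832763549) (nat_lit 175) (nat_lit 5) (nat_lit 180) (nat_lit 5) (nat_lit 181) (nat_lit 5) (nat_lit 441) (nat_lit 416) (nat_lit 343)) (XT.lf (nat_lit 0) (nat_lit 1679386117) (nat_lit 456) (nat_lit 15399307471) (nat_lit 76) (nat_lit 1048842829) (nat_lit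 169) (nat_lit 5) (nat_lit 175) (nat_lit 5) (nat_lit 170) (nat_lit 5) (nat_lit 442) (nat_lit 416) (nat_lit 342))) (XT.nd (nat_lit 78) (nat_lit 304) (nat_lit 0) (XT.lf (nat_lit 0) (nat_lit 2062694913) (nat_lit 380) (nat_lit 5566823390) (nat_lit 456) (nat_lit 11028807499) (nat_lit 164) (nat_lit 5) (nat_lit 169) (nat_lit 5) (nat_lit 170) (nat_lit 5) (nat_lit 443) (nat_lit 416) (nat_lit 341)) (XT.lf (nat_lit 0) (nat_lit 1428595320) (nat_lit 304) (nat_lit 12653481823) (nat_lit 380) (nat_lit 5127434953) (nat_lit 160) (nat_lit 5) (nat_lit 164) (nat_lit 5) (nat_lit 165) (nat_lit 5) (nat_lit 444) (nat_lit 416) (nat_lit 340))))))) (XT.nd (nat_lit 1014) (nat_lit 2660) (nat_lit 0) (XT.nd (nat_lit 468) (nat_lit 1976) (nat_lit 0) (XT.nd (nat_lit 234) (nat_lit 988) (nat_lit 0) (XT.nd (nat_lit 78) (nat_lit 304) (nat_lit 0) (XT.lf (nat_lit 0) (nat_lit 822500892) (nat_lit 380) (nat_lit 431472139) (nat_lit 456) (nat_lit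 18527806246) (nat_lit 154) (nat_lit 5) (nat_lit 159) (nat_lit 5) (nat_lit 160) (nat_lit 5) (nat_lit 445) (nat_lit 416) (nat_lit 339)) (XT.nd (nat_lit 78) (nat_lit 0) (nat_lit 0) (XT.lf (nat_lit 0) (nat_lit 137762043) (nat_lit 304) (nat_lit 7987171370) (nat_lit 380) (nat_lit 12247912087) (nat_lit 150) (nat_lit 5) (nat_lit 154) (nat_lit 5) (nat_lit 155) (nat_lit 5) (nat_lit 446) (nat_lit 416) (nat_lit 338)) (XT.lf (nat_lit 0) (nat_lit 15558448672) (nat_lit 380) (nat_lit 496710695) (nat_lit 76) (nat_lit 4931739687) (nat_lit 150) (nat_lit 5) (nat_lit 155) (nat_lit 5) (nat_lit 151) (nat_lit 5) (nat_lit 447) (nat_lit 416) (nat_lit 337)))) (XT.nd (nat_lit 78) (nat_lit 608) (nat_lit 0) (XT.lf (nat_lit 0) (nat_lit 1950844604) (nat_lit 380) (nat_lit 1135287522) (nat_lit 76) (nat_lit 18537447878) (nat_lit 145) (nat_lit 5) (nat_lit 150) (nat_lit 5) (nat_lit 146) (nat_lit 5) (nat_lit 448) (nat_lit 416) (nat_lit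 336)) (XT.nd (nat_lit 78) (nat_lit 304) (nat_lit 0) (XT.lf (nat_lit 0) (nat_lit 9867323030) (nat_lit 380) (nat_lit 1841288189) (nat_lit 76) (nat_lit 10573460473) (nat_lit 141) (nat_lit 5) (nat_lit 146) (nat_lit 5) (nat_lit 142) (nat_lit 5) (nat_lit 449) (nat_lit 416) (nat_lit 335)) (XT.lf (nat_lit 0) (nat_lit 18413309566) (nat_lit 380) (nat_lit 2511641377) (nat_lit 76) (nat_lit 2041530042) (nat_lit 137) (nat_lit 5) (nat_lit 142) (nat_lit 5) (nat_lit 138) (nat_lit 5) (nat_lit 450) (nat_lit 416) (nat_lit 334))))) (XT.nd (nat_lit 234) (nat_lit 1140) (nat_lit 0) (XT.nd (nat_lit 78) (nat_lit 532) (nat_lit 0) (XT.lf (nat_lit 0) (nat_lit 3940972666) (nat_lit 304) (nat_lit 3252452081) (nat_lit 76) (nat_lit 16481270325) (nat_lit 133) (nat_lit 5) (nat_lit 137) (nat_lit 5) (nat_lit 134) (nat_lit 5) (nat_lit 451) (nat_lit 416) (nat_lit 333)) (XT.nd (nat_lit 78) (nat_lit 228) (nat_lit 0) (XT.lf (nat_lit 0)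 (nat_lit 13036480322) (nat_lit 380) (nat_lit 4030311922) (nat_lit 76) (nat_lit 7342053628) (nat_lit 129) (nat_lit 5) (nat_lit 134) (nat_lit 5) (nat_lit 130) (nat_lit 5) (nat_lit 452) (nat_lit 416) (nat_lit 332)) (XT.lf (nat_lit 0) (nat_lit 20367350723) (nat_lit 228) (nat_lit 2497564762) (nat_lit 304) (nat_lit 2306447136) (nat_lit 126) (nat_lit 5) (nat_lit 129) (nat_lit 5) (nat_lit 130) (nat_lit 5) (nat_lit 453) (nat_lit 416) (nat_lit 331)))) (XT.nd (nat_lit 156) (nat_lit 532) (nat_lit 0) (XT.nd (nat_lit 78) (nat_lit 228) (nat_lit 0) (XT.lf (nat_lit 0) (nat_lit 7412385692) (nat_lit 380) (nat_lit 5699848391) (nat_lit 76) (nat_lit 12847482901) (nat_lit 121) (nat_lit 5) (nat_lit 126) (nat_lit 5) (nat_lit 122) (nat_lit 5) (nat_lit 454) (nat_lit 416) (nat_lit 330)) (XT.lf (nat_lit 0) (nat_lit 17839305303) (nat_lit 304) (nat_lit 6602171077) (nat_lit 76) (nat_lit 2337234839) (nat_lit 118) (nat_lit 5)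 (nat_lit 122) (nat_lit 5) (nat_lit 119) (nat_lit 5) (nat_lit 455) (nat_lit 416) (nat_lit 329))) (XT.nd (nat_lit 78) (nat_lit 228) (nat_lit 0) (XT.lf (nat_lit 0) (nat_lit 1492208301) (nat_lit 304) (nat_lit 7590990665) (nat_lit 76) (nat_lit 18544155937) (nat_lit 114) (nat_lit 5) (nat_lit 118) (nat_lit 5) (nat_lit 115) (nat_lit 5) (nat_lit 456) (nat_lit 416) (nat_lit 328)) (XT.lf (nat_lit 0) (nat_lit 12571402312) (nat_lit 304) (nat_lit 8689273630) (nat_lit 76) (nat_lit 7245775475) (nat_lit 111) (nat_lit 5) (nat_lit 115) (nat_lit 5) (nat_lit 112) (nat_lit 5) (nat_lit 457) (nat_lit 416) (nat_lit 327)))))) (XT.nd (nat_lit 468) (nat_lit 1368) (nat_lit 0) (XT.nd (nat_lit 234) (nat_lit 608) (nat_lit 0) (XT.nd (nat_lit 78) (nat_lit 456) (nat_lit 0) (XT.lf (nat_lit 0) (nat_lit 19582110804) (nat_lit 228) (nat_lit 4960141904) (nat_lit 304) (nat_lit 4877121345) (nat_lit 108) (nat_lit 5) (nat_lit 111) (nat_lit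 5) (nat_lit 112) (nat_lit 5) (nat_lit 458) (nat_lit 416) (nat_lit 326)) (XT.nd (nat_lit 78) (nat_lit 228) (nat_lit 0) (XT.lf (nat_lit 0) (nat_lit 6978089039) (nat_lit 228) (nat_lit 11137237624) (nat_lit 76) (nat_lit 12249402781) (nat_lit 105) (nat_lit 5) (nat_lit 108) (nat_lit 5) (nat_lit 106) (nat_lit 5) (nat_lit 459) (nat_lit 416) (nat_lit 325)) (XT.lf (nat_lit 0) (nat_lit 18830202225) (nat_lit 228) (nat_lit 809149536) (nat_lit 304) (nat_lit 11707129383) (nat_lit 102) (nat_lit 5) (nat_lit 105) (nat_lit 5) (nat_lit 106) (nat_lit 5) (nat_lit 460) (nat_lit 416) (nat_lit 324)))) (XT.nd (nat_lit 78) (nat_lit 380) (nat_lit 0) (XT.lf (nat_lit 0) (nat_lit 988939841) (nat_lit 228) (nat_lit 14062879257) (nat_lit 76) (nat_lit 17312039503) (nat_lit 99) (nat_lit 5) (nat_lit 102) (nat_lit 5) (nat_lit 100) (nat_lit 5) (nat_lit 461) (nat_lit 416) (nat_lit 323)) (XT.nd (nat_lit 78) (nat_lit 152) (nat_lit 0)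 (XT.lf (nat_lit 0) (nat_lit 14400782785) (nat_lit 304) (nat_lit 15774552358) (nat_lit 76) (nat_lit 3243601375) (nat_lit 96) (nat_lit 5) (nat_lit 100) (nat_lit 5) (nat_lit 97) (nat_lit 5) (nat_lit 462) (nat_lit 416) (nat_lit 322)) (XT.lf (nat_lit 0) (nat_lit 16851830417) (nat_lit 152) (nat_lit 12072810426) (nat_lit 228) (nat_lit 5588886422) (nat_lit 94) (nat_lit 5) (nat_lit 96) (nat_lit 5) (nat_lit 97) (nat_lit 5) (nat_lit 463) (nat_lit 416) (nat_lit 321))))) (XT.nd (nat_lit 234) (nat_lit 684) (nat_lit 0) (XT.nd (nat_lit 78) (nat_lit 380) (nat_lit 0) (XT.lf (nat_lit 0) (nat_lit 8715541756) (nat_lit 304) (nat_lit 19743903894) (nat_lit 76) (nat_lit 7189854939) (nat_lit 90) (nat_lit 5) (nat_lit 94) (nat_lit 5) (nat_lit 91) (nat_lit 5) (nat_lit 464) (nat_lit 416) (nat_lit 320)) (XT.nd (nat_lit 78) (nat_lit 228) (nat_lit 0) (XT.lf (nat_lit 0) (nat_lit 14760418363) (nat_lit 152) (nat_lit 9289785888)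 (nat_lit 228) (nat_lit 12777081700) (nat_lit 88) (nat_lit 5) (nat_lit 90) (nat_lit 5) (nat_lit 91) (nat_lit 5) (nat_lit 465) (nat_lit 416) (nat_lit 319)) (XT.lf (nat_lit 0) (nat_lit 2472407358) (nat_lit 228) (nat_lit 24605195809) (nat_lit 76) (nat_lit 10973195428) (nat_lit 85) (nat_lit 5) (nat_lit 88) (nat_lit 5) (nat_lit 86) (nat_lit 5) (nat_lit 466) (nat_lit 416) (nat_lit 318)))) (XT.nd (nat_lit 156) (nat_lit 380) (nat_lit 0) (XT.nd (nat_lit 78) (nat_lit 152) (nat_lit 0) (XT.lf (nat_lit 0) (nat_lit 11842236930) (nat_lit 152) (nat_lit 6800330652) (nat_lit 228) (nat_lit 20676451981) (nat_lit 83) (nat_lit 5) (nat_lit 85) (nat_lit 5) (nat_lit 86) (nat_lit 5) (nat_lit 467) (nat_lit 416) (nat_lit 317)) (XT.lf (nat_lit 0) (nat_lit 10007094019) (nat_lit 152) (nat_lit 26088818251) (nat_lit 228) (nat_lit 4540500215) (nat_lit 81) (nat_lit 5) (nat_lit 83) (nat_lit 5) (nat_lit 84) (nat_lit 5) (nat_lit 468)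 (nat_lit 416) (nat_lit 316))) (XT.nd (nat_lit 78) (nat_lit 152) (nat_lit 0) (XT.lf (nat_lit 0) (nat_lit 7861896401) (nat_lit 152) (nat_lit 4711946309) (nat_lit 228) (nat_lit 29429848727) (nat_lit 78) (nat_lit 5) (nat_lit 80) (nat_lit 5) (nat_lit 81) (nat_lit 5) (nat_lit 469) (nat_lit 416) (nat_lit 315)) (XT.lf (nat_lit 0) (nat_lit 5344182972) (nat_lit 152) (nat_lit 25631080377) (nat_lit 228) (nat_lit 12446965425) (nat_lit 76) (nat_lit 5) (nat_lit 78) (nat_lit 5) (nat_lit 79) (nat_lit 5) (nat_lit 470) (nat_lit 416) (nat_lit 314))))))))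
noncomputable def xc77 : XT := (XT.nd (nat_lit 58266) (nat_lit 0) (nat_lit 10640) (XT.nd (nat_lit 936) (nat_lit 1444) (nat_lit 0) (XT.nd (nat_lit 468) (nat_lit 760) (nat_lit 0) (XT.nd (nat_lit 234) (nat_lit 532) (nat_lit 0) (XT.nd (nat_lit 78) (nat_lit 152) (nat_lit 0) (XT.lf (nat_lit 0) (nat_lit 2535411006) (nat_lit 152) (nat_lit 3155904395) (nat_lit 228) (nat_lit 39206485559) (nat_lit 73) (nat_lit 5) (nat_lit 75) (nat_lit 5) (nat_lit 76) (nat_lit 5) (nat_lit 471) (nat_lit 416) (nat_lit 313)) (XT.nd (nat_lit 78) (nat_lit 152) (nat_lit 0) (XT.lf (nat_lit 0) (nat_lit 25058678767) (nat_lit 228) (nat_lit 813721340) (nat_lit 76) (nat_lit 20553667732) (nat_lit 73) (nat_lit 5) (nat_lit 76) (nat_lit 5) (nat_lit 74) (nat_lit 5) (nat_lit 472) (nat_lit 416) (nat_lit 312)) (XT.lf (nat_lit 0) (nat_lit 43605167305) (nat_lit 152) (nat_lit 2225804508) (nat_lit 228) (nat_lit 2186680289) (nat_lit 71) (nat_lit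 5) (nat_lit 73) (nat_lit 5) (nat_lit 74) (nat_lit 5) (nat_lit 473) (nat_lit 416) (nat_lit 311)))) (XT.nd (nat_lit 78) (nat_lit 304) (nat_lit 0) (XT.lf (nat_lit 0) (nat_lit 18215754691) (nat_lit 228) (nat_lit 8716269962) (nat_lit 76) (nat_lit 22733223877) (nat_lit 68) (nat_lit 5) (nat_lit 71) (nat_lit 5) (nat_lit 69) (nat_lit 5) (nat_lit 474) (nat_lit 416) (nat_lit 310)) (XT.nd (nat_lit 78) (nat_lit 152) (nat_lit 0) (XT.lf (nat_lit 0) (nat_lit 37947009774) (nat_lit 152) (nat_lit 2065782177) (nat_lit 228) (nat_lit 11369192965) (nat_lit 66) (nat_lit 5) (nat_lit 68) (nat_lit 5) (nat_lit 69) (nat_lit 5) (nat_lit 475) (nat_lit 416) (nat_lit 309)) (XT.lf (nat_lit 0) (nat_lit 10170357758) (nat_lit 152) (nat_lit 18907876727) (nat_lit 76) (nat_lit 24084178370) (nat_lit 64) (nat_lit 5) (nat_lit 66) (nat_lit 5) (nat_lit 65) (nat_lit 5) (nat_lit 476) (nat_lit 416) (nat_lit 308))))) (XT.nd (nat_lit 234) (nat_lit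 304) (nat_lit 0) (XT.nd (nat_lit 78) (nat_lit 304) (nat_lit 0) (XT.lf (nat_lit 0) (nat_lit 30005641495) (nat_lit 152) (nat_lit 2984021747) (nat_lit 228) (nat_lit 22025685360) (nat_lit 62) (nat_lit 5) (nat_lit 64) (nat_lit 5) (nat_lit 65) (nat_lit 5) (nat_lit 477) (nat_lit 416) (nat_lit 307)) (XT.nd (nat_lit 78) (nat_lit 152) (nat_lit 0) (XT.lf (nat_lit 0) (nat_lit 654695210) (nat_lit 152) (nat_lit 31914904644) (nat_lit 76) (nat_lit 24371370756) (nat_lit 60) (nat_lit 5) (nat_lit 62) (nat_lit 5) (nat_lit 61) (nat_lit 5) (nat_lit 478) (nat_lit 416) (nat_lit 306)) (XT.lf (nat_lit 0) (nat_lit 19227722286) (nat_lit 152) (nat_lit 5252364291) (nat_lit 228) (nat_lit 34462249959) (nat_lit 58) (nat_lit 5) (nat_lit 60) (nat_lit 5) (nat_lit 61) (nat_lit 5) (nat_lit 479) (nat_lit 416) (nat_lit 305)))) (XT.nd (nat_lit 78) (nat_lit 228) (nat_lit 0) (XT.lf (nat_lit 0) (nat_lit 12553780987) (nat_lit 76) (nat_lit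 37608273948) (nat_lit 152) (nat_lit 10861757178) (nat_lit 57) (nat_lit 5) (nat_lit 58) (nat_lit 5) (nat_lit 59) (nat_lit 4) (nat_lit 480) (nat_lit 416) (nat_lit 304)) (XT.nd (nat_lit 78) (nat_lit 0) (nat_lit 0) (XT.lf (nat_lit 0) (nat_lit 4951405237) (nat_lit 152) (nat_lit 9197101267) (nat_lit 228) (nat_lit 49041801084) (nat_lit 54) (nat_lit 5) (nat_lit 56) (nat_lit 5) (nat_lit 57) (nat_lit 5) (nat_lit 481) (nat_lit 416) (nat_lit 303)) (XT.lf (nat_lit 0) (nat_lit 40877115748) (nat_lit 228) (nat_lit 3728664622) (nat_lit 76) (nat_lit 20835347605) (nat_lit 54) (nat_lit 5) (nat_lit 57) (nat_lit 5) (nat_lit 55) (nat_lit 4) (nat_lit 482) (nat_lit 416) (nat_lit 302)))))) (XT.nd (nat_lit 468) (nat_lit 760) (nat_lit 0) (XT.nd (nat_lit 234) (nat_lit 304) (nat_lit 0) (XT.nd (nat_lit 78) (nat_lit 228) (nat_lit 0) (XT.lf (nat_lit 0) (nat_lit 1726442452) (nat_lit 152) (nat_lit 13347696665) (nat_lit 76) (nat_lit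 52711693362) (nat_lit 52) (nat_lit 5) (nat_lit 54) (nat_lit 5) (nat_lit 53) (nat_lit 5) (nat_lit 483) (nat_lit 416) (nat_lit 301)) (XT.nd (nat_lit 78) (nat_lit 76) (nat_lit 0) (XT.lf (nat_lit 0) (nat_lit 29458015035) (nat_lit 228) (nat_lit 24414104302) (nat_lit 76) (nat_lit 16349318580) (nat_lit 50) (nat_lit 5) (nat_lit 53) (nat_lit 5) (nat_lit 51) (nat_lit 4) (nat_lit 484) (nat_lit 416) (nat_lit 300)) (XT.lf (nat_lit 0) (nat_lit 35951831884) (nat_lit 76) (nat_lit 23250003507) (nat_lit 152) (nat_lit 13558218585) (nat_lit 49) (nat_lit 5) (nat_lit 50) (nat_lit 5) (nat_lit 51) (nat_lit 4) (nat_lit 485) (nat_lit 416) (nat_lit 299)))) (XT.nd (nat_lit 78) (nat_lit 76) (nat_lit 0) (XT.lf (nat_lit 0) (nat_lit 15287241081) (nat_lit 228) (nat_lit 50754517612) (nat_lit 76) (nat_lit 9362329555) (nat_lit 46) (nat_lit 5) (nat_lit 49) (nat_lit 5) (nat_lit 47) (nat_lit 4) (nat_lit 486) (nat_lit 416) (nat_lit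 298)) (XT.nd (nat_lit 78) (nat_lit 0) (nat_lit 0) (XT.lf (nat_lit 0) (nat_lit 11611989482) (nat_lit 76) (nat_lit 34403750368) (nat_lit 152) (nat_lit 32138922438) (nat_lit 45) (nat_lit 5) (nat_lit 46) (nat_lit 5) (nat_lit 47) (nat_lit 4) (nat_lit 487) (nat_lit 416) (nat_lit 297)) (XT.lf (nat_lit 0) (nat_lit 78138194112) (nat_lit 76) (nat_lit 654867000) (nat_lit 152) (nat_lit 2234332349) (nat_lit 45) (nat_lit 5) (nat_lit 46) (nat_lit 5) (nat_lit 47) (nat_lit 4) (nat_lit 488) (nat_lit 416) (nat_lit 296))))) (XT.nd (nat_lit 234) (nat_lit 380) (nat_lit 0) (XT.nd (nat_lit 78) (nat_lit 228) (nat_lit 0) (XT.lf (nat_lit 0) (nat_lit 29553883007) (nat_lit 152) (nat_lit 19445343316) (nat_lit 76) (nat_lit 35007398920) (nat_lit 43) (nat_lit 5) (nat_lit 45) (nat_lit 5) (nat_lit 44) (nat_lit 4) (nat_lit 489) (nat_lit 416) (nat_lit 295)) (XT.nd (nat_lit 78) (nat_lit 152) (nat_lit 0) (XT.lf (nat_lit 0) (nat_lit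 49223617496) (nat_lit 76) (nat_lit 14162440203) (nat_lit 152) (nat_lit 23733074825) (nat_lit 42) (nat_lit 5) (nat_lit 43) (nat_lit 5) (nat_lit 44) (nat_lit 4) (nat_lit 490) (nat_lit 416) (nat_lit 294)) (XT.lf (nat_lit 0) (nat_lit 9076737670) (nat_lit 152) (nat_lit 58719795740) (nat_lit 76) (nat_lit 22566660286) (nat_lit 40) (nat_lit 5) (nat_lit 42) (nat_lit 5) (nat_lit 41) (nat_lit 4) (nat_lit 491) (nat_lit 416) (nat_lit 293)))) (XT.nd (nat_lit 156) (nat_lit 304) (nat_lit 0) (XT.nd (nat_lit 78) (nat_lit 0) (nat_lit 0) (XT.lf (nat_lit 0) (nat_lit 11514202984) (nat_lit 76) (nat_lit 32165055083) (nat_lit 152) (nat_lit 50063859098) (nat_lit 39) (nat_lit 5) (nat_lit 40) (nat_lit 5) (nat_lit 41) (nat_lit 4) (nat_lit 492) (nat_lit 416) (nat_lit 292)) (XT.lf (nat_lit 0) (nat_lit 80663896608) (nat_lit 152) (nat_lit 10860581572) (nat_lit 0) (nat_lit 5747999129) (nat_lit 39) (nat_lit 5) (nat_lit 41) (nat_lit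 4) (nat_lit 39) (nat_lit 4) (nat_lit 493) (nat_lit 416) (nat_lit 291))) (XT.nd (nat_lit 156) (nat_lit 152) (nat_lit 0) (XT.lf (nat_lit 0) (nat_lit 19108416830) (nat_lit 152) (nat_lit 36133840445) (nat_lit 76) (nat_lit 45702197717) (nat_lit 37) (nat_lit 5) (nat_lit 39) (nat_lit 5) (nat_lit 38) (nat_lit 4) (nat_lit 494) (nat_lit 416) (nat_lit 290)) (XT.lf (nat_lit 0) (nat_lit 12499444689) (nat_lit 76) (nat_lit 84521463222) (nat_lit 76) (nat_lit 11765292284) (nat_lit 35) (nat_lit 4) (nat_lit 36) (nat_lit 5) (nat_lit 36) (nat_lit 4) (nat_lit 496) (nat_lit 416) (nat_lit 288))))))) (XT.nd (nat_lit 1014) (nat_lit 6156) (nat_lit 0) (XT.nd (nat_lit 468) (nat_lit 2812) (nat_lit 0) (XT.nd (nat_lit 234) (nat_lit 988) (nat_lit 0) (XT.nd (nat_lit 78) (nat_lit 0) (nat_lit 0) (XT.lf (nat_lit 0) (nat_lit 3113949660) (nat_lit 1140) (nat_lit 898559509) (nat_lit 1140) (nat_lit 898559509) (nat_lit 306) (nat_lit 3)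 (nat_lit 321) (nat_lit 3) (nat_lit 321) (nat_lit 5) (nat_lit 417) (nat_lit 417) (nat_lit 366)) (XT.nd (nat_lit 78) (nat_lit 0) (nat_lit 76) (XT.lf (nat_lit 76) (nat_lit 6349358729) (nat_lit 0) (nat_lit 1287406892) (nat_lit 1140) (nat_lit 2393026891) (nat_lit 307) (nat_lit 5) (nat_lit 306) (nat_lit 3) (nat_lit 321) (nat_lit 5) (nat_lit 418) (nat_lit 417) (nat_lit 365)) (XT.lf (nat_lit 76) (nat_lit 4686309373) (nat_lit 0) (nat_lit 4472780407) (nat_lit 1140) (nat_lit 1087469617) (nat_lit 308) (nat_lit 5) (nat_lit 307) (nat_lit 5) (nat_lit 322) (nat_lit 5) (nat_lit 419) (nat_lit 417) (nat_lit 364)))) (XT.nd (nat_lit 78) (nat_lit 0) (nat_lit 0) (XT.lf (nat_lit 0) (nat_lit 311643696) (nat_lit 1140) (nat_lit 7424544348) (nat_lit 1216) (nat_lit 2736898582) (nat_lit 293) (nat_lit 5) (nat_lit 308) (nat_lit 5) (nat_lit 309) (nat_lit 5) (nat_lit 420) (nat_lit 417) (nat_lit 363)) (XT.nd (nat_lit 78) (nat_lit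 0) (nat_lit 76) (XT.lf (nat_lit 76) (nat_lit 1421586000) (nat_lit 0) (nat_lit 383002129) (nat_lit 1216) (nat_lit 8904655191) (nat_lit 294) (nat_lit 5) (nat_lit 293) (nat_lit 5) (nat_lit 309) (nat_lit 5) (nat_lit 421) (nat_lit 417) (nat_lit 362)) (XT.lf (nat_lit 0) (nat_lit 3452622343) (nat_lit 1140) (nat_lit 206254769) (nat_lit 1216) (nat_lit 7295933737) (nat_lit 294) (nat_lit 5) (nat_lit 309) (nat_lit 5) (nat_lit 310) (nat_lit 5) (nat_lit 422) (nat_lit 417) (nat_lit 361))))) (XT.nd (nat_lit 234) (nat_lit 2964) (nat_lit 0) (XT.nd (nat_lit 78) (nat_lit 0) (nat_lit 76) (XT.lf (nat_lit 0) (nat_lit 5254735480) (nat_lit 1140) (nat_lit 1785612536) (nat_lit 1216) (nat_lit 4170173926) (nat_lit 295) (nat_lit 5) (nat_lit 310) (nat_lit 5) (nat_lit 311) (nat_lit 5) (nat_lit 423) (nat_lit 417) (nat_lit 360)) (XT.nd (nat_lit 78) (nat_lit 0) (nat_lit 0) (XT.lf (nat_lit 0) (nat_lit 7212063280) (nat_lit 1140)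 (nat_lit 3345349497) (nat_lit 1216) (nat_lit 919667306) (nat_lit 296) (nat_lit 5) (nat_lit 311) (nat_lit 5) (nat_lit 312) (nat_lit 5) (nat_lit 424) (nat_lit 417) (nat_lit 359)) (XT.lf (nat_lit 76) (nat_lit 6843589071) (nat_lit 0) (nat_lit 2520499703) (nat_lit 1216) (nat_lit 2389986481) (nat_lit 297) (nat_lit 5) (nat_lit 296) (nat_lit 5) (nat_lit 312) (nat_lit 5) (nat_lit 425) (nat_lit 417) (nat_lit 358)))) (XT.nd (nat_lit 156) (nat_lit 1976) (nat_lit 0) (XT.nd (nat_lit 78) (nat_lit 1140) (nat_lit 0) (XT.lf (nat_lit 76) (nat_lit 5574443070) (nat_lit 0) (nat_lit 6138446699) (nat_lit 1216) (nat_lit 329368583) (nat_lit 298) (nat_lit 5) (nat_lit 297) (nat_lit 5) (nat_lit 313) (nat_lit 5) (nat_lit 426) (nat_lit 417) (nat_lit 357)) (XT.lf (nat_lit 0) (nat_lit 1886119680) (nat_lit 1216) (nat_lit 8027130372) (nat_lit 76) (nat_lit 2428454980) (nat_lit 282) (nat_lit 5) (nat_lit 298) (nat_lit 5) (nat_lit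 283) (nat_lit 5) (nat_lit 427) (nat_lit 417) (nat_lit 356))) (XT.nd (nat_lit 78) (nat_lit 760) (nat_lit 0) (XT.lf (nat_lit 0) (nat_lit 3065724432) (nat_lit 1216) (nat_lit 1246452969) (nat_lit 1292) (nat_lit 8340662398) (nat_lit 266) (nat_lit 5) (nat_lit 282) (nat_lit 5) (nat_lit 283) (nat_lit 5) (nat_lit 428) (nat_lit 417) (nat_lit 355)) (XT.lf (nat_lit 0) (nat_lit 1817518734) (nat_lit 760) (nat_lit 5168430425) (nat_lit 836) (nat_lit 5989801046) (nat_lit 256) (nat_lit 5) (nat_lit 266) (nat_lit 5) (nat_lit 267) (nat_lit 5) (nat_lit 429) (nat_lit 417) (nat_lit 354)))))) (XT.nd (nat_lit 468) (nat_lit 3268) (nat_lit 0) (XT.nd (nat_lit 234) (nat_lit 1596) (nat_lit 0) (XT.nd (nat_lit 78) (nat_lit 684) (nat_lit 0) (XT.lf (nat_lit 0) (nat_lit 595131534) (nat_lit 608) (nat_lit 9306309434) (nat_lit 684) (nat_lit 3410134915) (nat_lit 248) (nat_lit 5) (nat_lit 256) (nat_lit 5) (nat_lit 257) (nat_lit 5) (nat_lit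 430) (nat_lit 417) (nat_lit 353)) (XT.nd (nat_lit 78) (nat_lit 684) (nat_lit 0) (XT.lf (nat_lit 0) (nat_lit 13071712132) (nat_lit 608) (nat_lit 11361219) (nat_lit 684) (nat_lit 577518701) (nat_lit 248) (nat_lit 5) (nat_lit 256) (nat_lit 5) (nat_lit 257) (nat_lit 5) (nat_lit 431) (nat_lit 417) (nat_lit 352)) (XT.lf (nat_lit 0) (nat_lit 2519098564) (nat_lit 684) (nat_lit 1800057706) (nat_lit 76) (nat_lit 9702146845) (nat_lit 239) (nat_lit 5) (nat_lit 248) (nat_lit 5) (nat_lit 240) (nat_lit 5) (nat_lit 432) (nat_lit 417) (nat_lit 351)))) (XT.nd (nat_lit 78) (nat_lit 1064) (nat_lit 0) (XT.lf (nat_lit 0) (nat_lit 5886498921) (nat_lit 608) (nat_lit 2993101259) (nat_lit 76) (nat_lit 5516450095) (nat_lit 232) (nat_lit 5) (nat_lit 240) (nat_lit 5) (nat_lit 233) (nat_lit 5) (nat_lit 433) (nat_lit 417) (nat_lit 350)) (XT.nd (nat_lit 78) (nat_lit 532) (nat_lit 0) (XT.lf (nat_lit 0) (nat_lit 9556219922) (nat_lit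 608) (nat_lit 4161062094) (nat_lit 76) (nat_lit 1068242802) (nat_lit 225) (nat_lit 5) (nat_lit 233) (nat_lit 5) (nat_lit 226) (nat_lit 5) (nat_lit 434) (nat_lit 417) (nat_lit 349)) (XT.lf (nat_lit 0) (nat_lit 9851025874) (nat_lit 532) (nat_lit 3734300468) (nat_lit 608) (nat_lit 1603877904) (nat_lit 218) (nat_lit 5) (nat_lit 225) (nat_lit 5) (nat_lit 226) (nat_lit 5) (nat_lit 435) (nat_lit 417) (nat_lit 348))))) (XT.nd (nat_lit 234) (nat_lit 1748) (nat_lit 0) (XT.nd (nat_lit 78) (nat_lit 912) (nat_lit 0) (XT.lf (nat_lit 0) (nat_lit 2318972428) (nat_lit 608) (nat_lit 6522797916) (nat_lit 76) (nat_lit 6765895469) (nat_lit 210) (nat_lit 5) (nat_lit 218) (nat_lit 5) (nat_lit 211) (nat_lit 5) (nat_lit 436) (nat_lit 417) (nat_lit 347)) (XT.nd (nat_lit 78) (nat_lit 456) (nat_lit 0) (XT.lf (nat_lit 0) (nat_lit 6559106344) (nat_lit 532) (nat_lit 7698577594) (nat_lit 76) (nat_lit 1784267937) (nat_lit 204)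 (nat_lit 5) (nat_lit 211) (nat_lit 5) (nat_lit 205) (nat_lit 5) (nat_lit 437) (nat_lit 417) (nat_lit 346)) (XT.lf (nat_lit 0) (nat_lit 7609440053) (nat_lit 456) (nat_lit 3596268073) (nat_lit 532) (nat_lit 5286417102) (nat_lit 198) (nat_lit 5) (nat_lit 204) (nat_lit 5) (nat_lit 205) (nat_lit 5) (nat_lit 438) (nat_lit 417) (nat_lit 345)))) (XT.nd (nat_lit 156) (nat_lit 760) (nat_lit 0) (XT.nd (nat_lit 78) (nat_lit 532) (nat_lit 0) (XT.lf (nat_lit 0) (nat_lit 6900001337) (nat_lit 456) (nat_lit 9369542023) (nat_lit 532) (nat_lit 689723288) (nat_lit 192) (nat_lit 5) (nat_lit 198) (nat_lit 5) (nat_lit 199) (nat_lit 5) (nat_lit 439) (nat_lit 417) (nat_lit 344)) (XT.lf (nat_lit 0) (nat_lit 4230111859) (nat_lit 532) (nat_lit 11250080522) (nat_lit 76) (nat_lit 1963164885) (nat_lit 185) (nat_lit 5) (nat_lit 192) (nat_lit 5) (nat_lit 186) (nat_lit 5) (nat_lit 440) (nat_lit 417) (nat_lit 343))) (XT.nd (nat_lit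 78) (nat_lit 380) (nat_lit 0) (XT.lf (nat_lit 0) (nat_lit 5483251249) (nat_lit 380) (nat_lit 4117960212) (nat_lit 456) (nat_lit 8343655691) (nat_lit 180) (nat_lit 5) (nat_lit 185) (nat_lit 5) (nat_lit 186) (nat_lit 5) (nat_lit 441) (nat_lit 417) (nat_lit 342)) (XT.lf (nat_lit 0) (nat_lit 4796747337) (nat_lit 380) (nat_lit 10650907097) (nat_lit 456) (nat_lit 3017599899) (nat_lit 175) (nat_lit 5) (nat_lit 180) (nat_lit 5) (nat_lit 181) (nat_lit 5) (nat_lit 442) (nat_lit 417) (nat_lit 341))))))))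
noncomputable def xc78 : XT := (XT.nd (nat_lit 1950) (nat_lit 3496) (nat_lit 0) (XT.nd (nat_lit 936) (nat_lit 3116) (nat_lit 0) (XT.nd (nat_lit 468) (nat_lit 1520) (nat_lit 0) (XT.nd (nat_lit 234) (nat_lit 1064) (nat_lit 0) (XT.nd (nat_lit 78) (nat_lit 684) (nat_lit 0) (XT.lf (nat_lit 0) (nat_lit 2718721345) (nat_lit 456) (nat_lit 14875857087) (nat_lit 76) (nat_lit 1410518811) (nat_lit 169) (nat_lit 5) (nat_lit 175) (nat_lit 5) (nat_lit 170) (nat_lit 5) (nat_lit 443) (nat_lit 417) (nat_lit 340)) (XT.nd (nat_lit 78) (nat_lit 304) (nat_lit 0) (XT.lf (nat_lit 0) (nat_lit 3422169913) (nat_lit 380) (nat_lit 5510773323) (nat_lit 456) (nat_lit 10630492751) (nat_lit 164) (nat_lit 5) (nat_lit 169) (nat_lit 5) (nat_lit 170) (nat_lit 5) (nat_lit 444) (nat_lit 417) (nat_lit 339)) (XT.lf (nat_lit 0) (nat_lit 2744239415) (nat_lit 304) (nat_lit 12935009725) (nat_lit 380) (nat_lit 4463805911) (nat_lit 160) (nat_lit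 5) (nat_lit 164) (nat_lit 5) (nat_lit 165) (nat_lit 5) (nat_lit 445) (nat_lit 417) (nat_lit 338)))) (XT.nd (nat_lit 78) (nat_lit 608) (nat_lit 0) (XT.lf (nat_lit 0) (nat_lit 2089745632) (nat_lit 380) (nat_lit 97805845) (nat_lit 456) (nat_lit 18557060361) (nat_lit 154) (nat_lit 5) (nat_lit 159) (nat_lit 5) (nat_lit 160) (nat_lit 5) (nat_lit 446) (nat_lit 417) (nat_lit 337)) (XT.nd (nat_lit 78) (nat_lit 304) (nat_lit 0) (XT.lf (nat_lit 0) (nat_lit 1357810236) (nat_lit 304) (nat_lit 8017692987) (nat_lit 380) (nat_lit 11990531039) (nat_lit 150) (nat_lit 5) (nat_lit 154) (nat_lit 5) (nat_lit 155) (nat_lit 5) (nat_lit 447) (nat_lit 417) (nat_lit 336)) (XT.lf (nat_lit 0) (nat_lit 667739114) (nat_lit 304) (nat_lit 16482544637) (nat_lit 380) (nat_lit 4861424953) (nat_lit 146) (nat_lit 5) (nat_lit 150) (nat_lit 5) (nat_lit 151) (nat_lit 5) (nat_lit 448) (nat_lit 417) (nat_lit 335))))) (XT.nd (nat_lit 234)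 (nat_lit 836) (nat_lit 0) (XT.nd (nat_lit 78) (nat_lit 608) (nat_lit 0) (XT.lf (nat_lit 0) (nat_lit 2836244579) (nat_lit 380) (nat_lit 33724722) (nat_lit 76) (nat_lit 19811044935) (nat_lit 145) (nat_lit 5) (nat_lit 150) (nat_lit 5) (nat_lit 146) (nat_lit 5) (nat_lit 449) (nat_lit 417) (nat_lit 334)) (XT.nd (nat_lit 78) (nat_lit 304) (nat_lit 0) (XT.lf (nat_lit 0) (nat_lit 11125343954) (nat_lit 380) (nat_lit 788788793) (nat_lit 76) (nat_lit 11458999043) (nat_lit 141) (nat_lit 5) (nat_lit 146) (nat_lit 5) (nat_lit 142) (nat_lit 5) (nat_lit 450) (nat_lit 417) (nat_lit 333)) (XT.lf (nat_lit 0) (nat_lit 20076488382) (nat_lit 380) (nat_lit 1506785376) (nat_lit 76) (nat_lit 2509156977) (nat_lit 137) (nat_lit 5) (nat_lit 142) (nat_lit 5) (nat_lit 138) (nat_lit 5) (nat_lit 451) (nat_lit 417) (nat_lit 332)))) (XT.nd (nat_lit 78) (nat_lit 532) (nat_lit 0) (XT.lf (nat_lit 0) (nat_lit 4862930233) (nat_lit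 304) (nat_lit 2302521840) (nat_lit 76) (nat_lit 17671139039) (nat_lit 133) (nat_lit 5) (nat_lit 137) (nat_lit 5) (nat_lit 134) (nat_lit 5) (nat_lit 452) (nat_lit 417) (nat_lit 331)) (XT.nd (nat_lit 78) (nat_lit 228) (nat_lit 0) (XT.lf (nat_lit 0) (nat_lit 14392733460) (nat_lit 380) (nat_lit 3133707042) (nat_lit 76) (nat_lit 8081627698) (nat_lit 129) (nat_lit 5) (nat_lit 134) (nat_lit 5) (nat_lit 130) (nat_lit 5) (nat_lit 453) (nat_lit 417) (nat_lit 330)) (XT.lf (nat_lit 0) (nat_lit 22452361332) (nat_lit 228) (nat_lit 2236938032) (nat_lit 304) (nat_lit 1720114301) (nat_lit 126) (nat_lit 5) (nat_lit 129) (nat_lit 5) (nat_lit 130) (nat_lit 5) (nat_lit 454) (nat_lit 417) (nat_lit 329)))))) (XT.nd (nat_lit 468) (nat_lit 1520) (nat_lit 0) (XT.nd (nat_lit 234) (nat_lit 684) (nat_lit 0) (XT.nd (nat_lit 78) (nat_lit 532) (nat_lit 0) (XT.lf (nat_lit 0) (nat_lit 8451988827) (nat_lit 380) (nat_lit 4919052580)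 (nat_lit 76) (nat_lit 13866515216) (nat_lit 121) (nat_lit 5) (nat_lit 126) (nat_lit 5) (nat_lit 122) (nat_lit 5) (nat_lit 455) (nat_lit 417) (nat_lit 328)) (XT.nd (nat_lit 78) (nat_lit 304) (nat_lit 0) (XT.lf (nat_lit 0) (nat_lit 19382080603) (nat_lit 304) (nat_lit 5881287820) (nat_lit 76) (nat_lit 2834681015) (nat_lit 118) (nat_lit 5) (nat_lit 122) (nat_lit 5) (nat_lit 119) (nat_lit 5) (nat_lit 456) (nat_lit 417) (nat_lit 327)) (XT.lf (nat_lit 0) (nat_lit 2202753168) (nat_lit 304) (nat_lit 6936950976) (nat_lit 76) (nat_lit 19849872934) (nat_lit 114) (nat_lit 5) (nat_lit 118) (nat_lit 5) (nat_lit 115) (nat_lit 5) (nat_lit 457) (nat_lit 417) (nat_lit 326)))) (XT.nd (nat_lit 78) (nat_lit 456) (nat_lit 0) (XT.lf (nat_lit 0) (nat_lit 13819011008) (nat_lit 304) (nat_lit 8104988348) (nat_lit 76) (nat_lit 7989139154) (nat_lit 111) (nat_lit 5) (nat_lit 115) (nat_lit 5) (nat_lit 112) (nat_lit 5) (nat_lit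 458) (nat_lit 417) (nat_lit 325)) (XT.nd (nat_lit 78) (nat_lit 228) (nat_lit 0) (XT.lf (nat_lit 0) (nat_lit 21550763073) (nat_lit 228) (nat_lit 4817674951) (nat_lit 304) (nat_lit 4503871292) (nat_lit 108) (nat_lit 5) (nat_lit 111) (nat_lit 5) (nat_lit 112) (nat_lit 5) (nat_lit 459) (nat_lit 417) (nat_lit 324)) (XT.lf (nat_lit 0) (nat_lit 7916320798) (nat_lit 228) (nat_lit 10707261893) (nat_lit 76) (nat_lit 13241646764) (nat_lit 105) (nat_lit 5) (nat_lit 108) (nat_lit 5) (nat_lit 106) (nat_lit 5) (nat_lit 460) (nat_lit 417) (nat_lit 323))))) (XT.nd (nat_lit 234) (nat_lit 836) (nat_lit 0) (XT.nd (nat_lit 78) (nat_lit 456) (nat_lit 0) (XT.lf (nat_lit 0) (nat_lit 20730262447) (nat_lit 228) (nat_lit 461535175) (nat_lit 304) (nat_lit 11704839287) (nat_lit 102) (nat_lit 5) (nat_lit 105) (nat_lit 5) (nat_lit 106) (nat_lit 5) (nat_lit 461) (nat_lit 417) (nat_lit 322)) (XT.nd (nat_lit 78) (nat_lit 228)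 (nat_lit 0) (XT.lf (nat_lit 0) (nat_lit 1599882478) (nat_lit 228) (nat_lit 13810672297) (nat_lit 76) (nat_lit 18554602007) (nat_lit 99) (nat_lit 5) (nat_lit 102) (nat_lit 5) (nat_lit 100) (nat_lit 5) (nat_lit 462) (nat_lit 417) (nat_lit 321)) (XT.lf (nat_lit 0) (nat_lit 15668193870) (nat_lit 304) (nat_lit 15622650165) (nat_lit 76) (nat_lit 3782570647) (nat_lit 96) (nat_lit 5) (nat_lit 100) (nat_lit 5) (nat_lit 97) (nat_lit 5) (nat_lit 463) (nat_lit 417) (nat_lit 320)))) (XT.nd (nat_lit 156) (nat_lit 380) (nat_lit 0) (XT.nd (nat_lit 78) (nat_lit 304) (nat_lit 0) (XT.lf (nat_lit 0) (nat_lit 18608088784) (nat_lit 152) (nat_lit 12292873440) (nat_lit 228) (nat_lit 5322293481) (nat_lit 94) (nat_lit 5) (nat_lit 96) (nat_lit 5) (nat_lit 97) (nat_lit 5) (nat_lit 464) (nat_lit 417) (nat_lit 319)) (XT.lf (nat_lit 0) (nat_lit 9673483983) (nat_lit 304) (nat_lit 19821279086) (nat_lit 76) (nat_lit 7921295761)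 (nat_lit 90) (nat_lit 5) (nat_lit 94) (nat_lit 5) (nat_lit 91) (nat_lit 5) (nat_lit 465) (nat_lit 417) (nat_lit 318))) (XT.nd (nat_lit 78) (nat_lit 228) (nat_lit 0) (XT.lf (nat_lit 0) (nat_lit 16382179476) (nat_lit 152) (nat_lit 9376330173) (nat_lit 228) (nat_lit 12894926905) (nat_lit 88) (nat_lit 5) (nat_lit 90) (nat_lit 5) (nat_lit 91) (nat_lit 5) (nat_lit 466) (nat_lit 417) (nat_lit 317)) (XT.lf (nat_lit 0) (nat_lit 3094480767) (nat_lit 228) (nat_lit 24955841908) (nat_lit 76) (nat_lit 11888025420) (nat_lit 85) (nat_lit 5) (nat_lit 88) (nat_lit 5) (nat_lit 86) (nat_lit 5) (nat_lit 467) (nat_lit 417) (nat_lit 316))))))) (XT.nd (nat_lit 1014) (nat_lit 1444) (nat_lit 0) (XT.nd (nat_lit 468) (nat_lit 1140) (nat_lit 0) (XT.nd (nat_lit 234) (nat_lit 380) (nat_lit 0) (XT.nd (nat_lit 78) (nat_lit 380) (nat_lit 0) (XT.lf (nat_lit 0) (nat_lit 13288748518) (nat_lit 152) (nat_lit 6768877639) (nat_lit 228)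 (nat_lit 21212821395) (nat_lit 83) (nat_lit 5) (nat_lit 85) (nat_lit 5) (nat_lit 86) (nat_lit 5) (nat_lit 468) (nat_lit 417) (nat_lit 315)) (XT.nd (nat_lit 78) (nat_lit 228) (nat_lit 0) (XT.lf (nat_lit 0) (nat_lit 11347995519) (nat_lit 152) (nat_lit 27024126488) (nat_lit 228) (nat_lit 4281935265) (nat_lit 81) (nat_lit 5) (nat_lit 83) (nat_lit 5) (nat_lit 84) (nat_lit 5) (nat_lit 469) (nat_lit 417) (nat_lit 314)) (XT.lf (nat_lit 0) (nat_lit 9080679418) (nat_lit 152) (nat_lit 4583234687) (nat_lit 228) (nat_lit 30426089630) (nat_lit 78) (nat_lit 5) (nat_lit 80) (nat_lit 5) (nat_lit 81) (nat_lit 5) (nat_lit 470) (nat_lit 417) (nat_lit 313)))) (XT.nd (nat_lit 78) (nat_lit 228) (nat_lit 0) (XT.lf (nat_lit 0) (nat_lit 6423485181) (nat_lit 152) (nat_lit 26551091690) (nat_lit 228) (nat_lit 12605217407) (nat_lit 76) (nat_lit 5) (nat_lit 78) (nat_lit 5) (nat_lit 79) (nat_lit 5) (nat_lit 471) (nat_lit 417)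 (nat_lit 312)) (XT.nd (nat_lit 78) (nat_lit 0) (nat_lit 0) (XT.lf (nat_lit 0) (nat_lit 3459820477) (nat_lit 152) (nat_lit 2957099610) (nat_lit 228) (nat_lit 40712512545) (nat_lit 73) (nat_lit 5) (nat_lit 75) (nat_lit 5) (nat_lit 76) (nat_lit 5) (nat_lit 472) (nat_lit 417) (nat_lit 311)) (XT.lf (nat_lit 0) (nat_lit 26734914395) (nat_lit 228) (nat_lit 85388895) (nat_lit 76) (nat_lit 21914342979) (nat_lit 73) (nat_lit 5) (nat_lit 76) (nat_lit 5) (nat_lit 74) (nat_lit 5) (nat_lit 473) (nat_lit 417) (nat_lit 310))))) (XT.nd (nat_lit 234) (nat_lit 608) (nat_lit 0) (XT.nd (nat_lit 78) (nat_lit 380) (nat_lit 0) (XT.lf (nat_lit 0) (nat_lit 46532400422) (nat_lit 152) (nat_lit 2000444826) (nat_lit 228) (nat_lit 1873355036) (nat_lit 71) (nat_lit 5) (nat_lit 73) (nat_lit 5) (nat_lit 74) (nat_lit 5) (nat_lit 474) (nat_lit 417) (nat_lit 309)) (XT.nd (nat_lit 78) (nat_lit 152) (nat_lit 0) (XT.lf (nat_lit 0) (nat_lit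 19531462102) (nat_lit 228) (nat_lit 8409601540) (nat_lit 76) (nat_lit 24195276905) (nat_lit 68) (nat_lit 5) (nat_lit 71) (nat_lit 5) (nat_lit 69) (nat_lit 5) (nat_lit 475) (nat_lit 417) (nat_lit 308)) (XT.lf (nat_lit 0) (nat_lit 40565559087) (nat_lit 152) (nat_lit 1840442852) (nat_lit 228) (nat_lit 11533283379) (nat_lit 66) (nat_lit 5) (nat_lit 68) (nat_lit 5) (nat_lit 69) (nat_lit 5) (nat_lit 476) (nat_lit 417) (nat_lit 307)))) (XT.nd (nat_lit 156) (nat_lit 304) (nat_lit 0) (XT.nd (nat_lit 78) (nat_lit 152) (nat_lit 0) (XT.lf (nat_lit 0) (nat_lit 11066394612) (nat_lit 152) (nat_lit 19136620072) (nat_lit 76) (nat_lit 25605873151) (nat_lit 64) (nat_lit 5) (nat_lit 66) (nat_lit 5) (nat_lit 65) (nat_lit 5) (nat_lit 477) (nat_lit 417) (nat_lit 306)) (XT.lf (nat_lit 0) (nat_lit 32202031419) (nat_lit 152) (nat_lit 2812872082) (nat_lit 228) (nat_lit 22739920682) (nat_lit 62) (nat_lit 5) (nat_lit 64)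 (nat_lit 5) (nat_lit 65) (nat_lit 5) (nat_lit 478) (nat_lit 417) (nat_lit 305))) (XT.nd (nat_lit 78) (nat_lit 152) (nat_lit 0) (XT.lf (nat_lit 0) (nat_lit 1058458153) (nat_lit 152) (nat_lit 32819116902) (nat_lit 76) (nat_lit 25899295545) (nat_lit 60) (nat_lit 5) (nat_lit 62) (nat_lit 5) (nat_lit 61) (nat_lit 5) (nat_lit 479) (nat_lit 417) (nat_lit 304)) (XT.lf (nat_lit 0) (nat_lit 20860818722) (nat_lit 152) (nat_lit 5203089250) (nat_lit 228) (nat_lit 35814734028) (nat_lit 58) (nat_lit 5) (nat_lit 60) (nat_lit 5) (nat_lit 61) (nat_lit 5) (nat_lit 480) (nat_lit 417) (nat_lit 303)))))) (XT.nd (nat_lit 468) (nat_lit 760) (nat_lit 0) (XT.nd (nat_lit 234) (nat_lit 380) (nat_lit 0) (XT.nd (nat_lit 78) (nat_lit 228) (nat_lit 0) (XT.lf (nat_lit 0) (nat_lit 13841515206) (nat_lit 76) (nat_lit 39180525494) (nat_lit 152) (nat_lit 11042389479) (nat_lit 57) (nat_lit 5) (nat_lit 58) (nat_lit 5) (nat_lit 59) (nat_lit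 4) (nat_lit 481) (nat_lit 417) (nat_lit 302)) (XT.nd (nat_lit 78) (nat_lit 0) (nat_lit 0) (XT.lf (nat_lit 0) (nat_lit 5846985814) (nat_lit 152) (nat_lit 9353634844) (nat_lit 228) (nat_lit 51138846804) (nat_lit 54) (nat_lit 5) (nat_lit 56) (nat_lit 5) (nat_lit 57) (nat_lit 5) (nat_lit 482) (nat_lit 417) (nat_lit 301)) (XT.lf (nat_lit 0) (nat_lit 43252023479) (nat_lit 228) (nat_lit 3290859654) (nat_lit 76) (nat_lit 22160355548) (nat_lit 54) (nat_lit 5) (nat_lit 57) (nat_lit 5) (nat_lit 55) (nat_lit 4) (nat_lit 483) (nat_lit 417) (nat_lit 300)))) (XT.nd (nat_lit 78) (nat_lit 228) (nat_lit 0) (XT.lf (nat_lit 0) (nat_lit 2137073260) (nat_lit 152) (nat_lit 13402269515) (nat_lit 76) (nat_lit 55626038999) (nat_lit 52) (nat_lit 5) (nat_lit 54) (nat_lit 5) (nat_lit 53) (nat_lit 5) (nat_lit 484) (nat_lit 417) (nat_lit 299)) (XT.nd (nat_lit 78) (nat_lit 76) (nat_lit 0) (XT.lf (nat_lit 0) (nat_lit 31248200930)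 (nat_lit 228) (nat_lit 25032811464) (nat_lit 76) (nat_lit 17441966418) (nat_lit 50) (nat_lit 5) (nat_lit 53) (nat_lit 5) (nat_lit 51) (nat_lit 4) (nat_lit 485) (nat_lit 417) (nat_lit 298)) (XT.lf (nat_lit 0) (nat_lit 38334165378) (nat_lit 76) (nat_lit 24135559006) (nat_lit 152) (nat_lit 13919086520) (nat_lit 49) (nat_lit 5) (nat_lit 50) (nat_lit 5) (nat_lit 51) (nat_lit 4) (nat_lit 486) (nat_lit 417) (nat_lit 297))))) (XT.nd (nat_lit 234) (nat_lit 456) (nat_lit 0) (XT.nd (nat_lit 78) (nat_lit 76) (nat_lit 0) (XT.lf (nat_lit 0) (nat_lit 16355793203) (nat_lit 228) (nat_lit 52711803272) (nat_lit 76) (nat_lit 10097559524) (nat_lit 46) (nat_lit 5) (nat_lit 49) (nat_lit 5) (nat_lit 47) (nat_lit 4) (nat_lit 487) (nat_lit 417) (nat_lit 296)) (XT.nd (nat_lit 78) (nat_lit 0) (nat_lit 0) (XT.lf (nat_lit 0) (nat_lit 12756390975) (nat_lit 76) (nat_lit 35855260305) (nat_lit 152) (nat_lit 33441879952) (nat_lit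 45) (nat_lit 5) (nat_lit 46) (nat_lit 5) (nat_lit 47) (nat_lit 4) (nat_lit 488) (nat_lit 417) (nat_lit 295)) (XT.lf (nat_lit 0) (nat_lit 82582058121) (nat_lit 76) (nat_lit 431726938) (nat_lit 152) (nat_lit 2056536006) (nat_lit 45) (nat_lit 5) (nat_lit 46) (nat_lit 5) (nat_lit 47) (nat_lit 4) (nat_lit 489) (nat_lit 417) (nat_lit 294)))) (XT.nd (nat_lit 156) (nat_lit 228) (nat_lit 0) (XT.nd (nat_lit 78) (nat_lit 76) (nat_lit 0) (XT.lf (nat_lit 0) (nat_lit 31309408768) (nat_lit 152) (nat_lit 19884698403) (nat_lit 76) (nat_lit 37004505193) (nat_lit 43) (nat_lit 5) (nat_lit 45) (nat_lit 5) (nat_lit 44) (nat_lit 4) (nat_lit 490) (nat_lit 417) (nat_lit 293)) (XT.lf (nat_lit 0) (nat_lit 52202434632) (nat_lit 76) (nat_lit 14622503322) (nat_lit 152) (nat_lit 24642055120) (nat_lit 42) (nat_lit 5) (nat_lit 43) (nat_lit 5) (nat_lit 44) (nat_lit 4) (nat_lit 491) (nat_lit 417) (nat_lit 292))) (XT.nd (nat_lit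 78) (nat_lit 76) (nat_lit 0) (XT.lf (nat_lit 0) (nat_lit 9797093412) (nat_lit 152) (nat_lit 61142127003) (nat_lit 76) (nat_lit 23934129306) (nat_lit 40) (nat_lit 5) (nat_lit 42) (nat_lit 5) (nat_lit 41) (nat_lit 4) (nat_lit 492) (nat_lit 417) (nat_lit 291)) (XT.lf (nat_lit 0) (nat_lit 12588847739) (nat_lit 76) (nat_lit 33532996781) (nat_lit 152) (nat_lit 52300662089) (nat_lit 39) (nat_lit 5) (nat_lit 40) (nat_lit 5) (nat_lit 41) (nat_lit 4) (nat_lit 493) (nat_lit 417) (nat_lit 290))))))))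
noncomputable def xc79 : XT := (XT.nd (nat_lit 58344) (nat_lit 0) (nat_lit 4104) (XT.nd (nat_lit 57330) (nat_lit 0) (nat_lit 11780) (XT.nd (nat_lit 56862) (nat_lit 0) (nat_lit 18620) (XT.nd (nat_lit 56628) (nat_lit 0) (nat_lit 19456) (XT.nd (nat_lit 156) (nat_lit 228) (nat_lit 0) (XT.lf (nat_lit 0) (nat_lit 84945599596) (nat_lit 152) (nat_lit 10923238265) (nat_lit 0) (nat_lit 6259800727) (nat_lit 39) (nat_lit 5) (nat_lit 41) (nat_lit 4) (nat_lit 39) (nat_lit 4) (nat_lit 494) (nat_lit 417) (nat_lit 289)) (XT.nd (nat_lit 56394) (nat_lit 0) (nat_lit 20520) (XT.lf (nat_lit 0) (nat_lit 42769953086) (nat_lit 76) (nat_lit 17067470796) (nat_lit 152) (nat_lit 50174735271) (nat_lit 36) (nat_lit 5) (nat_lit 37) (nat_lit 5) (nat_lit 38) (nat_lit 4) (nat_lit 496) (nat_lit 417) (nat_lit 287)) (XT.lf (nat_lit 0) (nat_lit 4443169474) (nat_lit 1140) (nat_lit 338974243) (nat_lit 1140) (nat_lit 338974243) (nat_lit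 306) (nat_lit 3) (nat_lit 321) (nat_lit 3) (nat_lit 321) (nat_lit 5) (nat_lit 418) (nat_lit 418) (nat_lit 364)))) (XT.nd (nat_lit 78) (nat_lit 1064) (nat_lit 0) (XT.lf (nat_lit 76) (nat_lit 7841196647) (nat_lit 0) (nat_lit 2423976648) (nat_lit 1140) (nat_lit 198143224) (nat_lit 307) (nat_lit 5) (nat_lit 306) (nat_lit 3) (nat_lit 321) (nat_lit 5) (nat_lit 419) (nat_lit 418) (nat_lit 363)) (XT.nd (nat_lit 78) (nat_lit 0) (nat_lit 76) (XT.lf (nat_lit 0) (nat_lit 1043642004) (nat_lit 1140) (nat_lit 4566973247) (nat_lit 1216) (nat_lit 5083179597) (nat_lit 292) (nat_lit 5) (nat_lit 307) (nat_lit 5) (nat_lit 308) (nat_lit 5) (nat_lit 420) (nat_lit 418) (nat_lit 362)) (XT.lf (nat_lit 0) (nat_lit 2391038114) (nat_lit 1140) (nat_lit 6500776167) (nat_lit 1216) (nat_lit 2042511650) (nat_lit 293) (nat_lit 5) (nat_lit 308) (nat_lit 5) (nat_lit 309) (nat_lit 5) (nat_lit 421) (nat_lit 418) (nat_lit 361))))) (XT.nd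 (nat_lit 234) (nat_lit 912) (nat_lit 0) (XT.nd (nat_lit 78) (nat_lit 0) (nat_lit 76) (XT.lf (nat_lit 76) (nat_lit 2750539915) (nat_lit 0) (nat_lit 1121904541) (nat_lit 1216) (nat_lit 7312455404) (nat_lit 294) (nat_lit 5) (nat_lit 293) (nat_lit 5) (nat_lit 309) (nat_lit 5) (nat_lit 422) (nat_lit 418) (nat_lit 360)) (XT.nd (nat_lit 78) (nat_lit 0) (nat_lit 76) (XT.lf (nat_lit 76) (nat_lit 1065751951) (nat_lit 0) (nat_lit 4446611140) (nat_lit 1216) (nat_lit 5933120898) (nat_lit 295) (nat_lit 5) (nat_lit 294) (nat_lit 5) (nat_lit 310) (nat_lit 5) (nat_lit 423) (nat_lit 418) (nat_lit 359)) (XT.lf (nat_lit 0) (nat_lit 7311224874) (nat_lit 1140) (nat_lit 589604336) (nat_lit 1216) (nat_lit 3815973760) (nat_lit 295) (nat_lit 5) (nat_lit 310) (nat_lit 5) (nat_lit 311) (nat_lit 5) (nat_lit 424) (nat_lit 418) (nat_lit 358)))) (XT.nd (nat_lit 78) (nat_lit 1140) (nat_lit 0) (XT.lf (nat_lit 0) (nat_lit 9288467003)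 (nat_lit 1140) (nat_lit 2207612600) (nat_lit 1216) (nat_lit 502968574) (nat_lit 296) (nat_lit 5) (nat_lit 311) (nat_lit 5) (nat_lit 312) (nat_lit 5) (nat_lit 425) (nat_lit 418) (nat_lit 357)) (XT.nd (nat_lit 78) (nat_lit 1140) (nat_lit 0) (XT.lf (nat_lit 76) (nat_lit 8453365209) (nat_lit 0) (nat_lit 3025208690) (nat_lit 1216) (nat_lit 813424419) (nat_lit 297) (nat_lit 5) (nat_lit 296) (nat_lit 5) (nat_lit 312) (nat_lit 5) (nat_lit 426) (nat_lit 418) (nat_lit 356)) (XT.lf (nat_lit 0) (nat_lit 1253643244) (nat_lit 1216) (nat_lit 5472669622) (nat_lit 1292) (nat_lit 5870013464) (nat_lit 281) (nat_lit 5) (nat_lit 297) (nat_lit 5) (nat_lit 298) (nat_lit 5) (nat_lit 427) (nat_lit 418) (nat_lit 355)))))) (XT.nd (nat_lit 468) (nat_lit 3648) (nat_lit 0) (XT.nd (nat_lit 234) (nat_lit 1292) (nat_lit 0) (XT.nd (nat_lit 78) (nat_lit 1976) (nat_lit 0) (XT.lf (nat_lit 0) (nat_lit 3507174181) (nat_lit 1216) (nat_lit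 7102335609) (nat_lit 76) (nat_lit 2303132592) (nat_lit 282) (nat_lit 5) (nat_lit 298) (nat_lit 5) (nat_lit 283) (nat_lit 5) (nat_lit 428) (nat_lit 418) (nat_lit 354)) (XT.nd (nat_lit 78) (nat_lit 760) (nat_lit 0) (XT.lf (nat_lit 0) (nat_lit 4507148076) (nat_lit 1216) (nat_lit 1487066768) (nat_lit 1292) (nat_lit 7246945093) (nat_lit 266) (nat_lit 5) (nat_lit 282) (nat_lit 5) (nat_lit 283) (nat_lit 5) (nat_lit 429) (nat_lit 418) (nat_lit 353)) (XT.lf (nat_lit 0) (nat_lit 3204323984) (nat_lit 760) (nat_lit 5538346306) (nat_lit 836) (nat_lit 4839331385) (nat_lit 256) (nat_lit 5) (nat_lit 266) (nat_lit 5) (nat_lit 267) (nat_lit 5) (nat_lit 430) (nat_lit 418) (nat_lit 352)))) (XT.nd (nat_lit 78) (nat_lit 684) (nat_lit 0) (XT.lf (nat_lit 0) (nat_lit 1926027654) (nat_lit 608) (nat_lit 9822375493) (nat_lit 684) (nat_lit 2187896417) (nat_lit 248) (nat_lit 5) (nat_lit 256) (nat_lit 5) (nat_lit 257) (nat_lit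 5) (nat_lit 431) (nat_lit 418) (nat_lit 351)) (XT.nd (nat_lit 78) (nat_lit 0) (nat_lit 0) (XT.lf (nat_lit 0) (nat_lit 665837761) (nat_lit 608) (nat_lit 46541716) (nat_lit 684) (nat_lit 13591932892) (nat_lit 239) (nat_lit 5) (nat_lit 247) (nat_lit 5) (nat_lit 248) (nat_lit 5) (nat_lit 432) (nat_lit 418) (nat_lit 350)) (XT.lf (nat_lit 0) (nat_lit 3895272991) (nat_lit 684) (nat_lit 623010741) (nat_lit 76) (nat_lit 10166315171) (nat_lit 239) (nat_lit 5) (nat_lit 248) (nat_lit 5) (nat_lit 240) (nat_lit 5) (nat_lit 433) (nat_lit 418) (nat_lit 349))))) (XT.nd (nat_lit 234) (nat_lit 2052) (nat_lit 0) (XT.nd (nat_lit 78) (nat_lit 1064) (nat_lit 0) (XT.lf (nat_lit 0) (nat_lit 7383610849) (nat_lit 608) (nat_lit 1875971673) (nat_lit 76) (nat_lit 5819936388) (nat_lit 232) (nat_lit 5) (nat_lit 240) (nat_lit 5) (nat_lit 233) (nat_lit 5) (nat_lit 434) (nat_lit 418) (nat_lit 348)) (XT.nd (nat_lit 78) (nat_lit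 532) (nat_lit 0) (XT.lf (nat_lit 0) (nat_lit 11192073384) (nat_lit 608) (nat_lit 3104387142) (nat_lit 76) (nat_lit 1193360908) (nat_lit 225) (nat_lit 5) (nat_lit 233) (nat_lit 5) (nat_lit 226) (nat_lit 5) (nat_lit 435) (nat_lit 418) (nat_lit 347)) (XT.lf (nat_lit 0) (nat_lit 11572052049) (nat_lit 532) (nat_lit 3807247048) (nat_lit 608) (nat_lit 535697166) (nat_lit 218) (nat_lit 5) (nat_lit 225) (nat_lit 5) (nat_lit 226) (nat_lit 5) (nat_lit 436) (nat_lit 418) (nat_lit 346)))) (XT.nd (nat_lit 156) (nat_lit 988) (nat_lit 0) (XT.nd (nat_lit 78) (nat_lit 456) (nat_lit 0) (XT.lf (nat_lit 0) (nat_lit 3520212274) (nat_lit 608) (nat_lit 5602226759) (nat_lit 76) (nat_lit 7232841439) (nat_lit 210) (nat_lit 5) (nat_lit 218) (nat_lit 5) (nat_lit 211) (nat_lit 5) (nat_lit 437) (nat_lit 418) (nat_lit 345)) (XT.lf (nat_lit 0) (nat_lit 7933906008) (nat_lit 532) (nat_lit 6842567735) (nat_lit 76) (nat_lit 2035970495)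 (nat_lit 204) (nat_lit 5) (nat_lit 211) (nat_lit 5) (nat_lit 205) (nat_lit 5) (nat_lit 438) (nat_lit 418) (nat_lit 344))) (XT.nd (nat_lit 78) (nat_lit 532) (nat_lit 0) (XT.lf (nat_lit 0) (nat_lit 9195279535) (nat_lit 456) (nat_lit 3579295343) (nat_lit 532) (nat_lit 4511708790) (nat_lit 198) (nat_lit 5) (nat_lit 204) (nat_lit 5) (nat_lit 205) (nat_lit 5) (nat_lit 439) (nat_lit 418) (nat_lit 343)) (XT.lf (nat_lit 0) (nat_lit 273619043) (nat_lit 532) (nat_lit 9336960011) (nat_lit 76) (nat_lit 8167172843) (nat_lit 191) (nat_lit 5) (nat_lit 198) (nat_lit 5) (nat_lit 192) (nat_lit 5) (nat_lit 440) (nat_lit 418) (nat_lit 342))))))) (XT.nd (nat_lit 1014) (nat_lit 3268) (nat_lit 0) (XT.nd (nat_lit 468) (nat_lit 2052) (nat_lit 0) (XT.nd (nat_lit 234) (nat_lit 1140) (nat_lit 0) (XT.nd (nat_lit 78) (nat_lit 760) (nat_lit 0) (XT.lf (nat_lit 0) (nat_lit 5392107192) (nat_lit 532) (nat_lit 10602845978) (nat_lit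 76) (nat_lit 2291889616) (nat_lit 185) (nat_lit 5) (nat_lit 192) (nat_lit 5) (nat_lit 186) (nat_lit 5) (nat_lit 441) (nat_lit 418) (nat_lit 341)) (XT.nd (nat_lit 78) (nat_lit 380) (nat_lit 0) (XT.lf (nat_lit 0) (nat_lit 6932475469) (nat_lit 380) (nat_lit 4065320300) (nat_lit 456) (nat_lit 7816659361) (nat_lit 180) (nat_lit 5) (nat_lit 185) (nat_lit 5) (nat_lit 186) (nat_lit 5) (nat_lit 442) (nat_lit 418) (nat_lit 340)) (XT.lf (nat_lit 0) (nat_lit 6202412112) (nat_lit 380) (nat_lit 10904078318) (nat_lit 456) (nat_lit 2255280956) (nat_lit 175) (nat_lit 5) (nat_lit 180) (nat_lit 5) (nat_lit 181) (nat_lit 5) (nat_lit 443) (nat_lit 418) (nat_lit 339)))) (XT.nd (nat_lit 78) (nat_lit 684) (nat_lit 0) (XT.lf (nat_lit 0) (nat_lit 3721202465) (nat_lit 456) (nat_lit 14446483722) (nat_lit 76) (nat_lit 1761528960) (nat_lit 169) (nat_lit 5) (nat_lit 175) (nat_lit 5) (nat_lit 170) (nat_lit 5) (nat_lit 444) (nat_lit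 418) (nat_lit 338)) (XT.nd (nat_lit 78) (nat_lit 304) (nat_lit 0) (XT.lf (nat_lit 0) (nat_lit 4732816054) (nat_lit 380) (nat_lit 5483009280) (nat_lit 456) (nat_lit 10300561494) (nat_lit 164) (nat_lit 5) (nat_lit 169) (nat_lit 5) (nat_lit 170) (nat_lit 5) (nat_lit 445) (nat_lit 418) (nat_lit 337)) (XT.lf (nat_lit 0) (nat_lit 4009990460) (nat_lit 304) (nat_lit 13263260267) (nat_lit 380) (nat_lit 3852528370) (nat_lit 160) (nat_lit 5) (nat_lit 164) (nat_lit 5) (nat_lit 165) (nat_lit 5) (nat_lit 446) (nat_lit 418) (nat_lit 336))))) (XT.nd (nat_lit 234) (nat_lit 988) (nat_lit 0) (XT.nd (nat_lit 78) (nat_lit 608) (nat_lit 0) (XT.lf (nat_lit 0) (nat_lit 3088952828) (nat_lit 456) (nat_lit 18453777608) (nat_lit 76) (nat_lit 215233359) (nat_lit 154) (nat_lit 5) (nat_lit 160) (nat_lit 5) (nat_lit 155) (nat_lit 5) (nat_lit 447) (nat_lit 418) (nat_lit 335)) (XT.nd (nat_lit 78) (nat_lit 304) (nat_lit 0) (XT.lf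 (nat_lit 0) (nat_lit 2526072712) (nat_lit 304) (nat_lit 8084031648) (nat_lit 380) (nat_lit 11801144528) (nat_lit 150) (nat_lit 5) (nat_lit 154) (nat_lit 5) (nat_lit 155) (nat_lit 5) (nat_lit 448) (nat_lit 418) (nat_lit 334)) (XT.lf (nat_lit 0) (nat_lit 1789257714) (nat_lit 304) (nat_lit 16961420810) (nat_lit 380) (nat_lit 4339222240) (nat_lit 146) (nat_lit 5) (nat_lit 150) (nat_lit 5) (nat_lit 151) (nat_lit 5) (nat_lit 449) (nat_lit 418) (nat_lit 333)))) (XT.nd (nat_lit 156) (nat_lit 304) (nat_lit 0) (XT.nd (nat_lit 78) (nat_lit 304) (nat_lit 0) (XT.lf (nat_lit 0) (nat_lit 1035430922) (nat_lit 304) (nat_lit 2667189281) (nat_lit 380) (nat_lit 20090608944) (nat_lit 141) (nat_lit 5) (nat_lit 145) (nat_lit 5) (nat_lit 146) (nat_lit 5) (nat_lit 450) (nat_lit 418) (nat_lit 332)) (XT.lf (nat_lit 0) (nat_lit 214102794) (nat_lit 304) (nat_lit 12163130863) (nat_lit 380) (nat_lit 12143591858) (nat_lit 137)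 (nat_lit 5) (nat_lit 141) (nat_lit 5) (nat_lit 142) (nat_lit 5) (nat_lit 451) (nat_lit 418) (nat_lit 331))) (XT.nd (nat_lit 78) (nat_lit 304) (nat_lit 0) (XT.lf (nat_lit 0) (nat_lit 21753794286) (nat_lit 380) (nat_lit 556783991) (nat_lit 76) (nat_lit 2966179845) (nat_lit 137) (nat_lit 5) (nat_lit 142) (nat_lit 5) (nat_lit 138) (nat_lit 5) (nat_lit 452) (nat_lit 418) (nat_lit 330)) (XT.lf (nat_lit 0) (nat_lit 5763590517) (nat_lit 304) (nat_lit 1408529705) (nat_lit 76) (nat_lit 18886492088) (nat_lit 133) (nat_lit 5) (nat_lit 137) (nat_lit 5) (nat_lit 134) (nat_lit 5) (nat_lit 453) (nat_lit 418) (nat_lit 329)))))) (XT.nd (nat_lit 468) (nat_lit 1596) (nat_lit 0) (XT.nd (nat_lit 234) (nat_lit 760) (nat_lit 0) (XT.nd (nat_lit 78) (nat_lit 608) (nat_lit 0) (XT.lf (nat_lit 0) (nat_lit 15751308113) (nat_lit 380) (nat_lit 2294364752) (nat_lit 76) (nat_lit 8823551612) (nat_lit 129) (nat_lit 5) (nat_lit 134)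 (nat_lit 5) (nat_lit 130) (nat_lit 5) (nat_lit 454) (nat_lit 418) (nat_lit 328)) (XT.nd (nat_lit 78) (nat_lit 380) (nat_lit 0) (XT.lf (nat_lit 0) (nat_lit 24542456108) (nat_lit 228) (nat_lit 1999120563) (nat_lit 304) (nat_lit 1169698073) (nat_lit 126) (nat_lit 5) (nat_lit 129) (nat_lit 5) (nat_lit 130) (nat_lit 5) (nat_lit 455) (nat_lit 418) (nat_lit 327)) (XT.lf (nat_lit 0) (nat_lit 9481376342) (nat_lit 380) (nat_lit 4198303866) (nat_lit 76) (nat_lit 14901481041) (nat_lit 121) (nat_lit 5) (nat_lit 126) (nat_lit 5) (nat_lit 122) (nat_lit 5) (nat_lit 456) (nat_lit 418) (nat_lit 326)))) (XT.nd (nat_lit 78) (nat_lit 532) (nat_lit 0) (XT.lf (nat_lit 0) (nat_lit 20941488519) (nat_lit 304) (nat_lit 5222071656) (nat_lit 76) (nat_lit 3321616367) (nat_lit 118) (nat_lit 5) (nat_lit 122) (nat_lit 5) (nat_lit 119) (nat_lit 5) (nat_lit 457) (nat_lit 418) (nat_lit 325)) (XT.nd (nat_lit 78) (nat_lit 228) (nat_lit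 0) (XT.lf (nat_lit 0) (nat_lit 2889702120) (nat_lit 304) (nat_lit 6346302632) (nat_lit 76) (nat_lit 21185685582) (nat_lit 114) (nat_lit 5) (nat_lit 118) (nat_lit 5) (nat_lit 115) (nat_lit 5) (nat_lit 458) (nat_lit 418) (nat_lit 324)) (XT.lf (nat_lit 0) (nat_lit 15071447798) (nat_lit 304) (nat_lit 7586202424) (nat_lit 76) (nat_lit 8734242284) (nat_lit 111) (nat_lit 5) (nat_lit 115) (nat_lit 5) (nat_lit 112) (nat_lit 5) (nat_lit 459) (nat_lit 418) (nat_lit 323))))) (XT.nd (nat_lit 234) (nat_lit 912) (nat_lit 0) (XT.nd (nat_lit 78) (nat_lit 456) (nat_lit 0) (XT.lf (nat_lit 0) (nat_lit 23525849280) (nat_lit 228) (nat_lit 4704387226) (nat_lit 304) (nat_lit 4169331415) (nat_lit 108) (nat_lit 5) (nat_lit 111) (nat_lit 5) (nat_lit 112) (nat_lit 5) (nat_lit 460) (nat_lit 418) (nat_lit 322)) (XT.nd (nat_lit 78) (nat_lit 228) (nat_lit 0) (XT.lf (nat_lit 0) (nat_lit 8846674079) (nat_lit 228) (nat_lit 10347534182)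 (nat_lit 76) (nat_lit 14248195174) (nat_lit 105) (nat_lit 5) (nat_lit 108) (nat_lit 5) (nat_lit 106) (nat_lit 5) (nat_lit 461) (nat_lit 418) (nat_lit 321)) (XT.lf (nat_lit 0) (nat_lit 22636208777) (nat_lit 228) (nat_lit 132619337) (nat_lit 304) (nat_lit 11757068493) (nat_lit 102) (nat_lit 5) (nat_lit 105) (nat_lit 5) (nat_lit 106) (nat_lit 5) (nat_lit 462) (nat_lit 418) (nat_lit 320)))) (XT.nd (nat_lit 156) (nat_lit 456) (nat_lit 0) (XT.nd (nat_lit 78) (nat_lit 228) (nat_lit 0) (XT.lf (nat_lit 0) (nat_lit 2189169703) (nat_lit 228) (nat_lit 13634674463) (nat_lit 76) (nat_lit 19824246420) (nat_lit 99) (nat_lit 5) (nat_lit 102) (nat_lit 5) (nat_lit 100) (nat_lit 5) (nat_lit 463) (nat_lit 418) (nat_lit 319)) (XT.lf (nat_lit 0) (nat_lit 16948086053) (nat_lit 304) (nat_lit 15550603707) (nat_lit 76) (nat_lit 4313458093) (nat_lit 96) (nat_lit 5) (nat_lit 100) (nat_lit 5) (nat_lit 97) (nat_lit 5) (nat_lit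 464) (nat_lit 418) (nat_lit 318))) (XT.nd (nat_lit 78) (nat_lit 304) (nat_lit 0) (XT.lf (nat_lit 0) (nat_lit 20367215986) (nat_lit 152) (nat_lit 12559601006) (nat_lit 228) (nat_lit 5093136262) (nat_lit 94) (nat_lit 5) (nat_lit 96) (nat_lit 5) (nat_lit 97) (nat_lit 5) (nat_lit 465) (nat_lit 418) (nat_lit 317)) (XT.lf (nat_lit 0) (nat_lit 10630777356) (nat_lit 304) (nat_lit 19987109479) (nat_lit 76) (nat_lit 8654728418) (nat_lit 90) (nat_lit 5) (nat_lit 94) (nat_lit 5) (nat_lit 91) (nat_lit 5) (nat_lit 466) (nat_lit 418) (nat_lit 316))))))))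
noncomputable def xc80 : XT := (XT.nd (nat_lit 1950) (nat_lit 456) (nat_lit 0) (XT.nd (nat_lit 936) (nat_lit 1596) (nat_lit 0) (XT.nd (nat_lit 468) (nat_lit 912) (nat_lit 0) (XT.nd (nat_lit 234) (nat_lit 532) (nat_lit 0) (XT.nd (nat_lit 78) (nat_lit 380) (nat_lit 0) (XT.lf (nat_lit 0) (nat_lit 18002866857) (nat_lit 152) (nat_lit 9502339416) (nat_lit 228) (nat_lit 13067102837) (nat_lit 88) (nat_lit 5) (nat_lit 90) (nat_lit 5) (nat_lit 91) (nat_lit 5) (nat_lit 467) (nat_lit 418) (nat_lit 315)) (XT.nd (nat_lit 78) (nat_lit 152) (nat_lit 0) (XT.lf (nat_lit 0) (nat_lit 3701316407) (nat_lit 228) (nat_lit 25405798456) (nat_lit 76) (nat_lit 12814553875) (nat_lit 85) (nat_lit 5) (nat_lit 88) (nat_lit 5) (nat_lit 86) (nat_lit 5) (nat_lit 468) (nat_lit 418) (nat_lit 314)) (XT.lf (nat_lit 0) (nat_lit 14728151695) (nat_lit 152) (nat_lit 6770387692) (nat_lit 228) (nat_lit 21822257762) (nat_lit 83) (nat_lit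 5) (nat_lit 85) (nat_lit 5) (nat_lit 86) (nat_lit 5) (nat_lit 469) (nat_lit 418) (nat_lit 313)))) (XT.nd (nat_lit 78) (nat_lit 380) (nat_lit 0) (XT.lf (nat_lit 0) (nat_lit 12677796020) (nat_lit 152) (nat_lit 28040518594) (nat_lit 228) (nat_lit 4055587619) (nat_lit 81) (nat_lit 5) (nat_lit 83) (nat_lit 5) (nat_lit 84) (nat_lit 5) (nat_lit 470) (nat_lit 418) (nat_lit 312)) (XT.nd (nat_lit 78) (nat_lit 152) (nat_lit 0) (XT.lf (nat_lit 0) (nat_lit 10283636924) (nat_lit 152) (nat_lit 4481957476) (nat_lit 228) (nat_lit 31516326961) (nat_lit 78) (nat_lit 5) (nat_lit 80) (nat_lit 5) (nat_lit 81) (nat_lit 5) (nat_lit 471) (nat_lit 418) (nat_lit 311)) (XT.lf (nat_lit 0) (nat_lit 7481251786) (nat_lit 152) (nat_lit 27550716382) (nat_lit 228) (nat_lit 12814529261) (nat_lit 76) (nat_lit 5) (nat_lit 78) (nat_lit 5) (nat_lit 79) (nat_lit 5) (nat_lit 472) (nat_lit 418) (nat_lit 310))))) (XT.nd (nat_lit 234) (nat_lit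 532) (nat_lit 0) (XT.nd (nat_lit 78) (nat_lit 152) (nat_lit 0) (XT.lf (nat_lit 0) (nat_lit 4356293516) (nat_lit 152) (nat_lit 2781507874) (nat_lit 228) (nat_lit 42336077137) (nat_lit 73) (nat_lit 5) (nat_lit 75) (nat_lit 5) (nat_lit 76) (nat_lit 5) (nat_lit 473) (nat_lit 418) (nat_lit 309)) (XT.nd (nat_lit 78) (nat_lit 0) (nat_lit 0) (XT.lf (nat_lit 0) (nat_lit 619961808) (nat_lit 152) (nat_lit 27841604869) (nat_lit 228) (nat_lit 22698091206) (nat_lit 71) (nat_lit 5) (nat_lit 73) (nat_lit 5) (nat_lit 74) (nat_lit 5) (nat_lit 474) (nat_lit 418) (nat_lit 308)) (XT.lf (nat_lit 0) (nat_lit 49536548562) (nat_lit 152) (nat_lit 1795115678) (nat_lit 228) (nat_lit 1583658373) (nat_lit 71) (nat_lit 5) (nat_lit 73) (nat_lit 5) (nat_lit 74) (nat_lit 5) (nat_lit 475) (nat_lit 418) (nat_lit 307)))) (XT.nd (nat_lit 78) (nat_lit 304) (nat_lit 0) (XT.lf (nat_lit 0) (nat_lit 20875309291) (nat_lit 228) (nat_lit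 8156628629) (nat_lit 76) (nat_lit 25700180737) (nat_lit 68) (nat_lit 5) (nat_lit 71) (nat_lit 5) (nat_lit 69) (nat_lit 5) (nat_lit 476) (nat_lit 418) (nat_lit 306)) (XT.nd (nat_lit 78) (nat_lit 152) (nat_lit 0) (XT.lf (nat_lit 0) (nat_lit 43247985635) (nat_lit 152) (nat_lit 1634389319) (nat_lit 228) (nat_lit 11743172732) (nat_lit 66) (nat_lit 5) (nat_lit 68) (nat_lit 5) (nat_lit 69) (nat_lit 5) (nat_lit 477) (nat_lit 418) (nat_lit 305)) (XT.lf (nat_lit 0) (nat_lit 11971205468) (nat_lit 152) (nat_lit 19443427954) (nat_lit 76) (nat_lit 27174135845) (nat_lit 64) (nat_lit 5) (nat_lit 66) (nat_lit 5) (nat_lit 65) (nat_lit 5) (nat_lit 478) (nat_lit 418) (nat_lit 304)))))) (XT.nd (nat_lit 468) (nat_lit 836) (nat_lit 0) (XT.nd (nat_lit 234) (nat_lit 304) (nat_lit 0) (XT.nd (nat_lit 78) (nat_lit 304) (nat_lit 0) (XT.lf (nat_lit 0) (nat_lit 34443523329) (nat_lit 152) (nat_lit 2662948110) (nat_lit 228) (nat_lit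 23525851912) (nat_lit 62) (nat_lit 5) (nat_lit 64) (nat_lit 5) (nat_lit 65) (nat_lit 5) (nat_lit 479) (nat_lit 418) (nat_lit 303)) (XT.nd (nat_lit 78) (nat_lit 152) (nat_lit 0) (XT.lf (nat_lit 0) (nat_lit 1447914560) (nat_lit 152) (nat_lit 33832831953) (nat_lit 76) (nat_lit 27474855562) (nat_lit 60) (nat_lit 5) (nat_lit 62) (nat_lit 5) (nat_lit 61) (nat_lit 5) (nat_lit 480) (nat_lit 418) (nat_lit 302)) (XT.lf (nat_lit 0) (nat_lit 22513120720) (nat_lit 152) (nat_lit 5180347335) (nat_lit 228) (nat_lit 37269299819) (nat_lit 58) (nat_lit 5) (nat_lit 60) (nat_lit 5) (nat_lit 61) (nat_lit 5) (nat_lit 481) (nat_lit 418) (nat_lit 301)))) (XT.nd (nat_lit 78) (nat_lit 228) (nat_lit 0) (XT.lf (nat_lit 0) (nat_lit 15132271392) (nat_lit 76) (nat_lit 40860039614) (nat_lit 152) (nat_lit 11265751076) (nat_lit 57) (nat_lit 5) (nat_lit 58) (nat_lit 5) (nat_lit 59) (nat_lit 4) (nat_lit 482) (nat_lit 418) (nat_lit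 300)) (XT.nd (nat_lit 78) (nat_lit 0) (nat_lit 0) (XT.lf (nat_lit 0) (nat_lit 6727099563) (nat_lit 152) (nat_lit 9546195057) (nat_lit 228) (nat_lit 53373753468) (nat_lit 54) (nat_lit 5) (nat_lit 56) (nat_lit 5) (nat_lit 57) (nat_lit 5) (nat_lit 483) (nat_lit 418) (nat_lit 299)) (XT.lf (nat_lit 0) (nat_lit 45714898524) (nat_lit 228) (nat_lit 2889200189) (nat_lit 76) (nat_lit 23525280866) (nat_lit 54) (nat_lit 5) (nat_lit 57) (nat_lit 5) (nat_lit 55) (nat_lit 4) (nat_lit 484) (nat_lit 418) (nat_lit 298))))) (XT.nd (nat_lit 234) (nat_lit 456) (nat_lit 0) (XT.nd (nat_lit 78) (nat_lit 228) (nat_lit 0) (XT.lf (nat_lit 0) (nat_lit 2538084461) (nat_lit 152) (nat_lit 13516544458) (nat_lit 76) (nat_lit 58660185366) (nat_lit 52) (nat_lit 5) (nat_lit 54) (nat_lit 5) (nat_lit 53) (nat_lit 5) (nat_lit 485) (nat_lit 418) (nat_lit 297)) (XT.nd (nat_lit 78) (nat_lit 76) (nat_lit 0) (XT.lf (nat_lit 0) (nat_lit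 33098397955) (nat_lit 228) (nat_lit 25738422056) (nat_lit 76) (nat_lit 18563662843) (nat_lit 50) (nat_lit 5) (nat_lit 53) (nat_lit 5) (nat_lit 51) (nat_lit 4) (nat_lit 486) (nat_lit 418) (nat_lit 296)) (XT.lf (nat_lit 0) (nat_lit 40781251788) (nat_lit 76) (nat_lit 25091139971) (nat_lit 152) (nat_lit 14327473505) (nat_lit 49) (nat_lit 5) (nat_lit 50) (nat_lit 5) (nat_lit 51) (nat_lit 4) (nat_lit 487) (nat_lit 418) (nat_lit 295)))) (XT.nd (nat_lit 156) (nat_lit 152) (nat_lit 0) (XT.nd (nat_lit 78) (nat_lit 76) (nat_lit 0) (XT.lf (nat_lit 0) (nat_lit 17449492222) (nat_lit 228) (nat_lit 54820917045) (nat_lit 76) (nat_lit 10844717310) (nat_lit 46) (nat_lit 5) (nat_lit 49) (nat_lit 5) (nat_lit 47) (nat_lit 4) (nat_lit 488) (nat_lit 418) (nat_lit 294)) (XT.lf (nat_lit 0) (nat_lit 13905595574) (nat_lit 76) (nat_lit 37404324833) (nat_lit 152) (nat_lit 34838247322) (nat_lit 45) (nat_lit 5) (nat_lit 46)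 (nat_lit 5) (nat_lit 47) (nat_lit 4) (nat_lit 489) (nat_lit 418) (nat_lit 293))) (XT.nd (nat_lit 78) (nat_lit 152) (nat_lit 0) (XT.lf (nat_lit 0) (nat_lit 87198194409) (nat_lit 76) (nat_lit 221219488) (nat_lit 152) (nat_lit 1896766018) (nat_lit 45) (nat_lit 5) (nat_lit 46) (nat_lit 5) (nat_lit 47) (nat_lit 4) (nat_lit 490) (nat_lit 418) (nat_lit 292)) (XT.lf (nat_lit 0) (nat_lit 33126880667) (nat_lit 152) (nat_lit 20395566358) (nat_lit 76) (nat_lit 39078527576) (nat_lit 43) (nat_lit 5) (nat_lit 45) (nat_lit 5) (nat_lit 44) (nat_lit 4) (nat_lit 491) (nat_lit 418) (nat_lit 291))))))) (XT.nd (nat_lit 57408) (nat_lit 0) (nat_lit 12692) (XT.nd (nat_lit 56940) (nat_lit 0) (nat_lit 19380) (XT.nd (nat_lit 312) (nat_lit 152) (nat_lit 0) (XT.nd (nat_lit 78) (nat_lit 228) (nat_lit 0) (XT.lf (nat_lit 0) (nat_lit 55282067711) (nat_lit 76) (nat_lit 15128631762) (nat_lit 152) (nat_lit 25622299876) (nat_lit 42)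 (nat_lit 5) (nat_lit 43) (nat_lit 5) (nat_lit 44) (nat_lit 4) (nat_lit 492) (nat_lit 418) (nat_lit 290)) (XT.nd (nat_lit 78) (nat_lit 76) (nat_lit 0) (XT.lf (nat_lit 0) (nat_lit 10528688543) (nat_lit 152) (nat_lit 63733329930) (nat_lit 76) (nat_lit 25347739178) (nat_lit 40) (nat_lit 5) (nat_lit 42) (nat_lit 5) (nat_lit 41) (nat_lit 4) (nat_lit 493) (nat_lit 418) (nat_lit 289)) (XT.lf (nat_lit 0) (nat_lit 13670838522) (nat_lit 76) (nat_lit 34991677407) (nat_lit 152) (nat_lit 54674071643) (nat_lit 39) (nat_lit 5) (nat_lit 40) (nat_lit 5) (nat_lit 41) (nat_lit 4) (nat_lit 494) (nat_lit 418) (nat_lit 288)))) (XT.nd (nat_lit 56472) (nat_lit 0) (nat_lit 19304) (XT.lf (nat_lit 0) (nat_lit 21543672463) (nat_lit 152) (nat_lit 38914904620) (nat_lit 76) (nat_lit 50818371973) (nat_lit 37) (nat_lit 5) (nat_lit 39) (nat_lit 5) (nat_lit 38) (nat_lit 4) (nat_lit 496) (nat_lit 418) (nat_lit 286)) (XT.nd (nat_lit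 78) (nat_lit 0) (nat_lit 0) (XT.lf (nat_lit 0) (nat_lit 190502213) (nat_lit 0) (nat_lit 190502213) (nat_lit 1140) (nat_lit 4963743078) (nat_lit 291) (nat_lit 5) (nat_lit 291) (nat_lit 3) (nat_lit 306) (nat_lit 3) (nat_lit 419) (nat_lit 419) (nat_lit 362)) (XT.lf (nat_lit 0) (nat_lit 1854395002) (nat_lit 1140) (nat_lit 1644571199) (nat_lit 1216) (nat_lit 7425323916) (nat_lit 291) (nat_lit 5) (nat_lit 306) (nat_lit 3) (nat_lit 307) (nat_lit 5) (nat_lit 420) (nat_lit 419) (nat_lit 361))))) (XT.nd (nat_lit 234) (nat_lit 0) (nat_lit 152) (XT.nd (nat_lit 78) (nat_lit 0) (nat_lit 76) (XT.lf (nat_lit 0) (nat_lit 3057913566) (nat_lit 1140) (nat_lit 3652180699) (nat_lit 1216) (nat_lit 4459050824) (nat_lit 292) (nat_lit 5) (nat_lit 307) (nat_lit 5) (nat_lit 308) (nat_lit 5) (nat_lit 421) (nat_lit 419) (nat_lit 360)) (XT.nd (nat_lit 78) (nat_lit 0) (nat_lit 0) (XT.lf (nat_lit 0) (nat_lit 4382528553) (nat_lit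 1140) (nat_lit 5651215975) (nat_lit 1216) (nat_lit 1390685432) (nat_lit 293) (nat_lit 5) (nat_lit 308) (nat_lit 5) (nat_lit 309) (nat_lit 5) (nat_lit 422) (nat_lit 419) (nat_lit 359)) (XT.lf (nat_lit 76) (nat_lit 4028996267) (nat_lit 0) (nat_lit 1830836326) (nat_lit 1216) (nat_lit 5830066795) (nat_lit 294) (nat_lit 5) (nat_lit 293) (nat_lit 5) (nat_lit 309) (nat_lit 5) (nat_lit 423) (nat_lit 419) (nat_lit 358)))) (XT.nd (nat_lit 78) (nat_lit 0) (nat_lit 76) (XT.lf (nat_lit 76) (nat_lit 2286050504) (nat_lit 0) (nat_lit 5215520622) (nat_lit 1216) (nat_lit 4464367473) (nat_lit 295) (nat_lit 5) (nat_lit 294) (nat_lit 5) (nat_lit 310) (nat_lit 5) (nat_lit 424) (nat_lit 419) (nat_lit 357)) (XT.nd (nat_lit 78) (nat_lit 0) (nat_lit 76) (XT.lf (nat_lit 76) (nat_lit 557590906) (nat_lit 0) (nat_lit 8751541620) (nat_lit 1216) (nat_lit 2944147922) (nat_lit 296) (nat_lit 5) (nat_lit 295) (nat_lit 5) (nat_lit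 311) (nat_lit 5) (nat_lit 425) (nat_lit 419) (nat_lit 356)) (XT.lf (nat_lit 0) (nat_lit 11309172039) (nat_lit 1140) (nat_lit 1134315795) (nat_lit 1216) (nat_lit 108450701) (nat_lit 296) (nat_lit 5) (nat_lit 311) (nat_lit 5) (nat_lit 312) (nat_lit 5) (nat_lit 426) (nat_lit 419) (nat_lit 355)))))) (XT.nd (nat_lit 468) (nat_lit 3344) (nat_lit 0) (XT.nd (nat_lit 234) (nat_lit 2432) (nat_lit 0) (XT.nd (nat_lit 78) (nat_lit 0) (nat_lit 76) (XT.lf (nat_lit 0) (nat_lit 670929226) (nat_lit 1216) (nat_lit 2842242381) (nat_lit 1292) (nat_lit 9348076732) (nat_lit 280) (nat_lit 5) (nat_lit 296) (nat_lit 5) (nat_lit 297) (nat_lit 5) (nat_lit 427) (nat_lit 419) (nat_lit 354)) (XT.nd (nat_lit 78) (nat_lit 0) (nat_lit 76) (XT.lf (nat_lit 0) (nat_lit 2760980037) (nat_lit 1216) (nat_lit 4553367024) (nat_lit 1292) (nat_lit 5868126950) (nat_lit 281) (nat_lit 5) (nat_lit 297) (nat_lit 5) (nat_lit 298) (nat_lit 5) (nat_lit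 428) (nat_lit 419) (nat_lit 353)) (XT.lf (nat_lit 0) (nat_lit 5067338801) (nat_lit 1216) (nat_lit 6254594084) (nat_lit 76) (nat_lit 2194484109) (nat_lit 282) (nat_lit 5) (nat_lit 298) (nat_lit 5) (nat_lit 283) (nat_lit 5) (nat_lit 429) (nat_lit 419) (nat_lit 352)))) (XT.nd (nat_lit 78) (nat_lit 1368) (nat_lit 0) (XT.lf (nat_lit 0) (nat_lit 5900884093) (nat_lit 1216) (nat_lit 1723135435) (nat_lit 1292) (nat_lit 6238997178) (nat_lit 266) (nat_lit 5) (nat_lit 282) (nat_lit 5) (nat_lit 283) (nat_lit 5) (nat_lit 430) (nat_lit 419) (nat_lit 351)) (XT.nd (nat_lit 78) (nat_lit 608) (nat_lit 0) (XT.lf (nat_lit 0) (nat_lit 4539986273) (nat_lit 760) (nat_lit 5916392291) (nat_lit 836) (nat_lit 3766141753) (nat_lit 256) (nat_lit 5) (nat_lit 266) (nat_lit 5) (nat_lit 267) (nat_lit 5) (nat_lit 431) (nat_lit 419) (nat_lit 350)) (XT.lf (nat_lit 0) (nat_lit 3202500958) (nat_lit 608) (nat_lit 10359526547) (nat_lit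 684) (nat_lit 1034030245) (nat_lit 248) (nat_lit 5) (nat_lit 256) (nat_lit 5) (nat_lit 257) (nat_lit 5) (nat_lit 432) (nat_lit 419) (nat_lit 349))))) (XT.nd (nat_lit 234) (nat_lit 2128) (nat_lit 0) (XT.nd (nat_lit 78) (nat_lit 532) (nat_lit 0) (XT.lf (nat_lit 0) (nat_lit 1869671592) (nat_lit 608) (nat_lit 69207606) (nat_lit 684) (nat_lit 13044672099) (nat_lit 239) (nat_lit 5) (nat_lit 247) (nat_lit 5) (nat_lit 248) (nat_lit 5) (nat_lit 433) (nat_lit 419) (nat_lit 348)) (XT.nd (nat_lit 78) (nat_lit 0) (nat_lit 0) (XT.lf (nat_lit 0) (nat_lit 504943554) (nat_lit 532) (nat_lit 4723932854) (nat_lit 608) (nat_lit 10155548896) (nat_lit 232) (nat_lit 5) (nat_lit 239) (nat_lit 5) (nat_lit 240) (nat_lit 5) (nat_lit 434) (nat_lit 419) (nat_lit 347)) (XT.lf (nat_lit 0) (nat_lit 8843754641) (nat_lit 608) (nat_lit 820759237) (nat_lit 76) (nat_lit 6136025079) (nat_lit 232) (nat_lit 5) (nat_lit 240) (nat_lit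 5) (nat_lit 233) (nat_lit 5) (nat_lit 435) (nat_lit 419) (nat_lit 346)))) (XT.nd (nat_lit 156) (nat_lit 988) (nat_lit 0) (XT.nd (nat_lit 78) (nat_lit 608) (nat_lit 0) (XT.lf (nat_lit 0) (nat_lit 12802055707) (nat_lit 608) (nat_lit 2112460869) (nat_lit 76) (nat_lit 1318068378) (nat_lit 225) (nat_lit 5) (nat_lit 233) (nat_lit 5) (nat_lit 226) (nat_lit 5) (nat_lit 436) (nat_lit 419) (nat_lit 345)) (XT.lf (nat_lit 0) (nat_lit 469778114) (nat_lit 608) (nat_lit 3419896117) (nat_lit 76) (nat_lit 12790395631) (nat_lit 217) (nat_lit 5) (nat_lit 225) (nat_lit 5) (nat_lit 218) (nat_lit 5) (nat_lit 437) (nat_lit 419) (nat_lit 344))) (XT.nd (nat_lit 78) (nat_lit 456) (nat_lit 0) (XT.lf (nat_lit 0) (nat_lit 4680614021) (nat_lit 608) (nat_lit 4751534421) (nat_lit 76) (nat_lit 7711173939) (nat_lit 210) (nat_lit 5) (nat_lit 218) (nat_lit 5) (nat_lit 211) (nat_lit 5) (nat_lit 438) (nat_lit 419) (nat_lit 343)) (XT.lf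 (nat_lit 0) (nat_lit 9280119991) (nat_lit 532) (nat_lit 6059128105) (nat_lit 76) (nat_lit 2285151480) (nat_lit 204) (nat_lit 5) (nat_lit 211) (nat_lit 5) (nat_lit 205) (nat_lit 5) (nat_lit 439) (nat_lit 419) (nat_lit 342))))))))
noncomputable def xc81 : XT := (XT.nd (nat_lit 1950) (nat_lit 4104) (nat_lit 0) (XT.nd (nat_lit 936) (nat_lit 3192) (nat_lit 0) (XT.nd (nat_lit 468) (nat_lit 2128) (nat_lit 0) (XT.nd (nat_lit 234) (nat_lit 1216) (nat_lit 0) (XT.nd (nat_lit 78) (nat_lit 988) (nat_lit 0) (XT.lf (nat_lit 0) (nat_lit 10748347348) (nat_lit 456) (nat_lit 3579769287) (nat_lit 532) (nat_lit 3794864146) (nat_lit 198) (nat_lit 5) (nat_lit 204) (nat_lit 5) (nat_lit 205) (nat_lit 5) (nat_lit 440) (nat_lit 419) (nat_lit 341)) (XT.nd (nat_lit 78) (nat_lit 456) (nat_lit 0) (XT.lf (nat_lit 0) (nat_lit 1179541774) (nat_lit 532) (nat_lit 8698767629) (nat_lit 76) (nat_lit 8761403167) (nat_lit 191) (nat_lit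 5) (nat_lit 198) (nat_lit 5) (nat_lit 192) (nat_lit 5) (nat_lit 441) (nat_lit 419) (nat_lit 340)) (XT.lf (nat_lit 0) (nat_lit 6523834764) (nat_lit 532) (nat_lit 10035719733) (nat_lit 76) (nat_lit 2615614698) (nat_lit 185) (nat_lit 5) (nat_lit 192) (nat_lit 5) (nat_lit 186) (nat_lit 5) (nat_lit 442) (nat_lit 419) (nat_lit 339)))) (XT.nd (nat_lit 78) (nat_lit 836) (nat_lit 0) (XT.lf (nat_lit 0) (nat_lit 8344914804) (nat_lit 380) (nat_lit 4034084799) (nat_lit 456) (nat_lit 7351094039) (nat_lit 180) (nat_lit 5) (nat_lit 185) (nat_lit 5) (nat_lit 186) (nat_lit 5) (nat_lit 443) (nat_lit 419) (nat_lit 338)) (XT.nd (nat_lit 78) (nat_lit 456) (nat_lit 0) (XT.lf (nat_lit 0) (nat_lit 7569972543) (nat_lit 380) (nat_lit 11195881659) (nat_lit 456) (nat_lit 1539746648) (nat_lit 175) (nat_lit 5) (nat_lit 180) (nat_lit 5) (nat_lit 181) (nat_lit 5) (nat_lit 444) (nat_lit 419) (nat_lit 337)) (XT.lf (nat_lit 0) (nat_lit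 4693244496) (nat_lit 456) (nat_lit 14104711564) (nat_lit 76) (nat_lit 2104012854) (nat_lit 169) (nat_lit 5) (nat_lit 175) (nat_lit 5) (nat_lit 170) (nat_lit 5) (nat_lit 445) (nat_lit 419) (nat_lit 336))))) (XT.nd (nat_lit 234) (nat_lit 988) (nat_lit 0) (XT.nd (nat_lit 78) (nat_lit 760) (nat_lit 0) (XT.lf (nat_lit 0) (nat_lit 6003051093) (nat_lit 380) (nat_lit 5482055246) (nat_lit 456) (nat_lit 10034223678) (nat_lit 164) (nat_lit 5) (nat_lit 169) (nat_lit 5) (nat_lit 170) (nat_lit 5) (nat_lit 446) (nat_lit 419) (nat_lit 335)) (XT.nd (nat_lit 78) (nat_lit 456) (nat_lit 0) (XT.lf (nat_lit 0) (nat_lit 5234108190) (nat_lit 304) (nat_lit 13637534442) (nat_lit 380) (nat_lit 3288267862) (nat_lit 160) (nat_lit 5) (nat_lit 164) (nat_lit 5) (nat_lit 165) (nat_lit 5) (nat_lit 447) (nat_lit 419) (nat_lit 334)) (XT.lf (nat_lit 0) (nat_lit 3962684782) (nat_lit 456) (nat_lit 18348942922) (nat_lit 76) (nat_lit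 512548791) (nat_lit 154) (nat_lit 5) (nat_lit 160) (nat_lit 5) (nat_lit 155) (nat_lit 5) (nat_lit 448) (nat_lit 419) (nat_lit 333)))) (XT.nd (nat_lit 78) (nat_lit 684) (nat_lit 0) (XT.lf (nat_lit 0) (nat_lit 3650446157) (nat_lit 304) (nat_lit 8184790158) (nat_lit 380) (nat_lit 11675634350) (nat_lit 150) (nat_lit 5) (nat_lit 154) (nat_lit 5) (nat_lit 155) (nat_lit 5) (nat_lit 449) (nat_lit 419) (nat_lit 332)) (XT.nd (nat_lit 78) (nat_lit 380) (nat_lit 0) (XT.lf (nat_lit 0) (nat_lit 2865688077) (nat_lit 304) (nat_lit 17496338962) (nat_lit 380) (nat_lit 3862057310) (nat_lit 146) (nat_lit 5) (nat_lit 150) (nat_lit 5) (nat_lit 151) (nat_lit 5) (nat_lit 450) (nat_lit 419) (nat_lit 331)) (XT.lf (nat_lit 0) (nat_lit 2059126848) (nat_lit 304) (nat_lit 2486139614) (nat_lit 380) (nat_lit 20417808980) (nat_lit 141) (nat_lit 5) (nat_lit 145) (nat_lit 5) (nat_lit 146) (nat_lit 5) (nat_lit 451) (nat_lit 419)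 (nat_lit 330)))))) (XT.nd (nat_lit 468) (nat_lit 1672) (nat_lit 0) (XT.nd (nat_lit 234) (nat_lit 912) (nat_lit 0) (XT.nd (nat_lit 78) (nat_lit 304) (nat_lit 0) (XT.lf (nat_lit 0) (nat_lit 1185183801) (nat_lit 304) (nat_lit 12449226632) (nat_lit 380) (nat_lit 12093221472) (nat_lit 137) (nat_lit 5) (nat_lit 141) (nat_lit 5) (nat_lit 142) (nat_lit 5) (nat_lit 452) (nat_lit 419) (nat_lit 329)) (XT.nd (nat_lit 78) (nat_lit 76) (nat_lit 0) (XT.lf (nat_lit 0) (nat_lit 352264964) (nat_lit 228) (nat_lit 23103472783) (nat_lit 304) (nat_lit 3066349305) (nat_lit 134) (nat_lit 5) (nat_lit 137) (nat_lit 5) (nat_lit 138) (nat_lit 5) (nat_lit 453) (nat_lit 419) (nat_lit 328)) (XT.lf (nat_lit 0) (nat_lit 6648154416) (nat_lit 304) (nat_lit 563656212) (nat_lit 76) (nat_lit 20131765534) (nat_lit 133) (nat_lit 5) (nat_lit 137) (nat_lit 5) (nat_lit 134) (nat_lit 5) (nat_lit 454) (nat_lit 419) (nat_lit 327)))) (XT.nd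 (nat_lit 78) (nat_lit 608) (nat_lit 0) (XT.lf (nat_lit 0) (nat_lit 17118409101) (nat_lit 380) (nat_lit 1505656557) (nat_lit 76) (nat_lit 9571162325) (nat_lit 129) (nat_lit 5) (nat_lit 134) (nat_lit 5) (nat_lit 130) (nat_lit 5) (nat_lit 455) (nat_lit 419) (nat_lit 326)) (XT.nd (nat_lit 78) (nat_lit 380) (nat_lit 0) (XT.lf (nat_lit 0) (nat_lit 26647108809) (nat_lit 228) (nat_lit 1781920700) (nat_lit 304) (nat_lit 650929514) (nat_lit 126) (nat_lit 5) (nat_lit 129) (nat_lit 5) (nat_lit 130) (nat_lit 5) (nat_lit 456) (nat_lit 419) (nat_lit 325)) (XT.lf (nat_lit 0) (nat_lit 10505819828) (nat_lit 380) (nat_lit 3531392445) (nat_lit 76) (nat_lit 15956432702) (nat_lit 121) (nat_lit 5) (nat_lit 126) (nat_lit 5) (nat_lit 122) (nat_lit 5) (nat_lit 457) (nat_lit 419) (nat_lit 324))))) (XT.nd (nat_lit 234) (nat_lit 912) (nat_lit 0) (XT.nd (nat_lit 78) (nat_lit 532) (nat_lit 0) (XT.lf (nat_lit 0) (nat_lit 22523985971)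 (nat_lit 304) (nat_lit 4618521675) (nat_lit 76) (nat_lit 3800804941) (nat_lit 118) (nat_lit 5) (nat_lit 122) (nat_lit 5) (nat_lit 119) (nat_lit 5) (nat_lit 458) (nat_lit 419) (nat_lit 323)) (XT.nd (nat_lit 78) (nat_lit 228) (nat_lit 0) (XT.lf (nat_lit 0) (nat_lit 3557372073) (nat_lit 304) (nat_lit 5813281353) (nat_lit 76) (nat_lit 22556370316) (nat_lit 114) (nat_lit 5) (nat_lit 118) (nat_lit 5) (nat_lit 115) (nat_lit 5) (nat_lit 459) (nat_lit 419) (nat_lit 322)) (XT.lf (nat_lit 0) (nat_lit 16334304760) (nat_lit 304) (nat_lit 7127385252) (nat_lit 76) (nat_lit 9484465665) (nat_lit 111) (nat_lit 5) (nat_lit 115) (nat_lit 5) (nat_lit 112) (nat_lit 5) (nat_lit 460) (nat_lit 419) (nat_lit 321)))) (XT.nd (nat_lit 156) (nat_lit 456) (nat_lit 0) (XT.nd (nat_lit 78) (nat_lit 228) (nat_lit 0) (XT.lf (nat_lit 0) (nat_lit 25516244287) (nat_lit 228) (nat_lit 4618362621) (nat_lit 304) (nat_lit 3870103254) (nat_lit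 108) (nat_lit 5) (nat_lit 111) (nat_lit 5) (nat_lit 112) (nat_lit 5) (nat_lit 461) (nat_lit 419) (nat_lit 320)) (XT.lf (nat_lit 0) (nat_lit 9773848818) (nat_lit 228) (nat_lit 10053037144) (nat_lit 76) (nat_lit 15273045814) (nat_lit 105) (nat_lit 5) (nat_lit 108) (nat_lit 5) (nat_lit 106) (nat_lit 5) (nat_lit 462) (nat_lit 419) (nat_lit 319))) (XT.nd (nat_lit 78) (nat_lit 228) (nat_lit 0) (XT.lf (nat_lit 0) (nat_lit 24378333844) (nat_lit 304) (nat_lit 11683176713) (nat_lit 76) (nat_lit 176504570) (nat_lit 102) (nat_lit 5) (nat_lit 106) (nat_lit 5) (nat_lit 103) (nat_lit 5) (nat_lit 463) (nat_lit 419) (nat_lit 318)) (XT.lf (nat_lit 0) (nat_lit 2760572045) (nat_lit 228) (nat_lit 13530438618) (nat_lit 76) (nat_lit 21125585101) (nat_lit 99) (nat_lit 5) (nat_lit 102) (nat_lit 5) (nat_lit 100) (nat_lit 5) (nat_lit 464) (nat_lit 419) (nat_lit 317))))))) (XT.nd (nat_lit 1014) (nat_lit 1748) (nat_lit 0)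 (XT.nd (nat_lit 468) (nat_lit 1140) (nat_lit 0) (XT.nd (nat_lit 234) (nat_lit 532) (nat_lit 0) (XT.nd (nat_lit 78) (nat_lit 456) (nat_lit 0) (XT.lf (nat_lit 0) (nat_lit 18245814610) (nat_lit 304) (nat_lit 15554275419) (nat_lit 76) (nat_lit 4839116407) (nat_lit 96) (nat_lit 5) (nat_lit 100) (nat_lit 5) (nat_lit 97) (nat_lit 5) (nat_lit 465) (nat_lit 419) (nat_lit 316)) (XT.nd (nat_lit 78) (nat_lit 304) (nat_lit 0) (XT.lf (nat_lit 0) (nat_lit 22137252761) (nat_lit 152) (nat_lit 12872010892) (nat_lit 228) (nat_lit 4898566869) (nat_lit 94) (nat_lit 5) (nat_lit 96) (nat_lit 5) (nat_lit 97) (nat_lit 5) (nat_lit 466) (nat_lit 419) (nat_lit 315)) (XT.lf (nat_lit 0) (nat_lit 11591902777) (nat_lit 304) (nat_lit 20237953786) (nat_lit 76) (nat_lit 9393467441) (nat_lit 90) (nat_lit 5) (nat_lit 94) (nat_lit 5) (nat_lit 91) (nat_lit 5) (nat_lit 467) (nat_lit 419) (nat_lit 314)))) (XT.nd (nat_lit 78) (nat_lit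 380) (nat_lit 0) (XT.lf (nat_lit 0) (nat_lit 19630065444) (nat_lit 152) (nat_lit 9666520092) (nat_lit 228) (nat_lit 13291822683) (nat_lit 88) (nat_lit 5) (nat_lit 90) (nat_lit 5) (nat_lit 91) (nat_lit 5) (nat_lit 468) (nat_lit 419) (nat_lit 313)) (XT.nd (nat_lit 78) (nat_lit 152) (nat_lit 0) (XT.lf (nat_lit 0) (nat_lit 4296460777) (nat_lit 228) (nat_lit 25952428019) (nat_lit 76) (nat_lit 13756530715) (nat_lit 85) (nat_lit 5) (nat_lit 88) (nat_lit 5) (nat_lit 86) (nat_lit 5) (nat_lit 469) (nat_lit 419) (nat_lit 312)) (XT.lf (nat_lit 0) (nat_lit 16167476061) (nat_lit 152) (nat_lit 6803298161) (nat_lit 228) (nat_lit 22504114684) (nat_lit 83) (nat_lit 5) (nat_lit 85) (nat_lit 5) (nat_lit 86) (nat_lit 5) (nat_lit 470) (nat_lit 419) (nat_lit 311))))) (XT.nd (nat_lit 234) (nat_lit 608) (nat_lit 0) (XT.nd (nat_lit 78) (nat_lit 380) (nat_lit 0) (XT.lf (nat_lit 0) (nat_lit 14003205753) (nat_lit 152) (nat_lit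 29138858158) (nat_lit 228) (nat_lit 3858870937) (nat_lit 81) (nat_lit 5) (nat_lit 83) (nat_lit 5) (nat_lit 84) (nat_lit 5) (nat_lit 471) (nat_lit 419) (nat_lit 310)) (XT.nd (nat_lit 78) (nat_lit 152) (nat_lit 0) (XT.lf (nat_lit 0) (nat_lit 11477114493) (nat_lit 152) (nat_lit 4406337485) (nat_lit 228) (nat_lit 32701152696) (nat_lit 78) (nat_lit 5) (nat_lit 80) (nat_lit 5) (nat_lit 81) (nat_lit 5) (nat_lit 472) (nat_lit 419) (nat_lit 309)) (XT.lf (nat_lit 0) (nat_lit 8523425346) (nat_lit 152) (nat_lit 28630810122) (nat_lit 228) (nat_lit 13073442558) (nat_lit 76) (nat_lit 5) (nat_lit 78) (nat_lit 5) (nat_lit 79) (nat_lit 5) (nat_lit 473) (nat_lit 419) (nat_lit 308)))) (XT.nd (nat_lit 156) (nat_lit 228) (nat_lit 0) (XT.nd (nat_lit 78) (nat_lit 152) (nat_lit 0) (XT.lf (nat_lit 0) (nat_lit 5230327706) (nat_lit 152) (nat_lit 2627207562) (nat_lit 228) (nat_lit 44079129489) (nat_lit 73) (nat_lit 5) (nat_lit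 75) (nat_lit 5) (nat_lit 76) (nat_lit 5) (nat_lit 474) (nat_lit 419) (nat_lit 307)) (XT.lf (nat_lit 0) (nat_lit 1296224774) (nat_lit 152) (nat_lit 28942874265) (nat_lit 228) (nat_lit 23467886800) (nat_lit 71) (nat_lit 5) (nat_lit 73) (nat_lit 5) (nat_lit 74) (nat_lit 5) (nat_lit 475) (nat_lit 419) (nat_lit 306))) (XT.nd (nat_lit 78) (nat_lit 228) (nat_lit 0) (XT.lf (nat_lit 0) (nat_lit 52627913967) (nat_lit 152) (nat_lit 1607908750) (nat_lit 228) (nat_lit 1315118466) (nat_lit 71) (nat_lit 5) (nat_lit 73) (nat_lit 5) (nat_lit 74) (nat_lit 5) (nat_lit 476) (nat_lit 419) (nat_lit 305)) (XT.lf (nat_lit 0) (nat_lit 22252203175) (nat_lit 228) (nat_lit 7953618347) (nat_lit 76) (nat_lit 27252890442) (nat_lit 68) (nat_lit 5) (nat_lit 71) (nat_lit 5) (nat_lit 69) (nat_lit 5) (nat_lit 477) (nat_lit 419) (nat_lit 304)))))) (XT.nd (nat_lit 468) (nat_lit 912) (nat_lit 0) (XT.nd (nat_lit 234) (nat_lit 380) (nat_lit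 0) (XT.nd (nat_lit 78) (nat_lit 304) (nat_lit 0) (XT.lf (nat_lit 0) (nat_lit 46003716975) (nat_lit 152) (nat_lit 1445745360) (nat_lit 228) (nat_lit 11997655799) (nat_lit 66) (nat_lit 5) (nat_lit 68) (nat_lit 5) (nat_lit 69) (nat_lit 5) (nat_lit 478) (nat_lit 419) (nat_lit 303)) (XT.nd (nat_lit 78) (nat_lit 152) (nat_lit 0) (XT.lf (nat_lit 0) (nat_lit 12888578554) (nat_lit 152) (nat_lit 19826009219) (nat_lit 76) (nat_lit 28794039043) (nat_lit 64) (nat_lit 5) (nat_lit 66) (nat_lit 5) (nat_lit 65) (nat_lit 5) (nat_lit 479) (nat_lit 419) (nat_lit 302)) (XT.lf (nat_lit 0) (nat_lit 36738389146) (nat_lit 152) (nat_lit 2532542158) (nat_lit 228) (nat_lit 24383718382) (nat_lit 62) (nat_lit 5) (nat_lit 64) (nat_lit 5) (nat_lit 65) (nat_lit 5) (nat_lit 480) (nat_lit 419) (nat_lit 301)))) (XT.nd (nat_lit 78) (nat_lit 228) (nat_lit 0) (XT.lf (nat_lit 0) (nat_lit 1825556093) (nat_lit 152) (nat_lit 34955547661)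 (nat_lit 76) (nat_lit 29103106494) (nat_lit 60) (nat_lit 5) (nat_lit 62) (nat_lit 5) (nat_lit 61) (nat_lit 5) (nat_lit 481) (nat_lit 419) (nat_lit 300)) (XT.nd (nat_lit 78) (nat_lit 76) (nat_lit 0) (XT.lf (nat_lit 0) (nat_lit 24191394499) (nat_lit 152) (nat_lit 5182769348) (nat_lit 228) (nat_lit 38827847885) (nat_lit 58) (nat_lit 5) (nat_lit 60) (nat_lit 5) (nat_lit 61) (nat_lit 5) (nat_lit 482) (nat_lit 419) (nat_lit 299)) (XT.lf (nat_lit 0) (nat_lit 16431905756) (nat_lit 76) (nat_lit 42649515830) (nat_lit 152) (nat_lit 11530845545) (nat_lit 57) (nat_lit 5) (nat_lit 58) (nat_lit 5) (nat_lit 59) (nat_lit 4) (nat_lit 483) (nat_lit 419) (nat_lit 298))))) (XT.nd (nat_lit 234) (nat_lit 532) (nat_lit 0) (XT.nd (nat_lit 78) (nat_lit 152) (nat_lit 0) (XT.lf (nat_lit 0) (nat_lit 7596574232) (nat_lit 152) (nat_lit 9773961472) (nat_lit 228) (nat_lit 55750345289) (nat_lit 54) (nat_lit 5) (nat_lit 56) (nat_lit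 5) (nat_lit 57) (nat_lit 5) (nat_lit 484) (nat_lit 419) (nat_lit 297)) (XT.nd (nat_lit 78) (nat_lit 152) (nat_lit 0) (XT.lf (nat_lit 0) (nat_lit 48273000704) (nat_lit 228) (nat_lit 2520097888) (nat_lit 76) (nat_lit 24934567622) (nat_lit 54) (nat_lit 5) (nat_lit 57) (nat_lit 5) (nat_lit 55) (nat_lit 4) (nat_lit 485) (nat_lit 419) (nat_lit 296)) (XT.lf (nat_lit 0) (nat_lit 2931798242) (nat_lit 152) (nat_lit 13688209745) (nat_lit 76) (nat_lit 61822531973) (nat_lit 52) (nat_lit 5) (nat_lit 54) (nat_lit 5) (nat_lit 53) (nat_lit 5) (nat_lit 486) (nat_lit 419) (nat_lit 295)))) (XT.nd (nat_lit 156) (nat_lit 304) (nat_lit 0) (XT.nd (nat_lit 78) (nat_lit 76) (nat_lit 0) (XT.lf (nat_lit 0) (nat_lit 35014349125) (nat_lit 228) (nat_lit 26530077871) (nat_lit 76) (nat_lit 19718238823) (nat_lit 50) (nat_lit 5) (nat_lit 53) (nat_lit 5) (nat_lit 51) (nat_lit 4) (nat_lit 487) (nat_lit 419) (nat_lit 294)) (XT.lf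 (nat_lit 0) (nat_lit 43301382986) (nat_lit 76) (nat_lit 26117853899) (nat_lit 152) (nat_lit 14783015124) (nat_lit 49) (nat_lit 5) (nat_lit 50) (nat_lit 5) (nat_lit 51) (nat_lit 4) (nat_lit 488) (nat_lit 419) (nat_lit 293))) (XT.nd (nat_lit 78) (nat_lit 76) (nat_lit 0) (XT.lf (nat_lit 0) (nat_lit 18572224754) (nat_lit 228) (nat_lit 57084433291) (nat_lit 76) (nat_lit 11606708105) (nat_lit 46) (nat_lit 5) (nat_lit 49) (nat_lit 5) (nat_lit 47) (nat_lit 4) (nat_lit 489) (nat_lit 419) (nat_lit 292)) (XT.lf (nat_lit 0) (nat_lit 15064716668) (nat_lit 76) (nat_lit 39053499363) (nat_lit 152) (nat_lit 36330067508) (nat_lit 45) (nat_lit 5) (nat_lit 46) (nat_lit 5) (nat_lit 47) (nat_lit 4) (nat_lit 490) (nat_lit 419) (nat_lit 291))))))))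
noncomputable def xc82 : XT := (XT.nd (nat_lit 58578) (nat_lit 0) (nat_lit 4332) (XT.nd (nat_lit 57564) (nat_lit 0) (nat_lit 12540) (XT.nd (nat_lit 57096) (nat_lit 0) (nat_lit 18240) (XT.nd (nat_lit 390) (nat_lit 228) (nat_lit 0) (XT.nd (nat_lit 78) (nat_lit 228) (nat_lit 0) (XT.lf (nat_lit 0) (nat_lit 91999857763) (nat_lit 76) (nat_lit 21764547) (nat_lit 152) (nat_lit 1753421290) (nat_lit 45) (nat_lit 5) (nat_lit 46) (nat_lit 5) (nat_lit 47) (nat_lit 4) (nat_lit 491) (nat_lit 419) (nat_lit 290)) (XT.nd (nat_lit 78) (nat_lit 76) (nat_lit 0) (XT.lf (nat_lit 0) (nat_lit 35011797454) (nat_lit 152) (nat_lit 20976916590) (nat_lit 76) (nat_lit 41235444542) (nat_lit 43) (nat_lit 5) (nat_lit 45) (nat_lit 5) (nat_lit 44) (nat_lit 4) (nat_lit 492) (nat_lit 419) (nat_lit 289)) (XT.lf (nat_lit 0) (nat_lit 58472031730) (nat_lit 76) (nat_lit 15680984687) (nat_lit 152) (nat_lit 26674972238) (nat_lit 42) (nat_lit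 5) (nat_lit 43) (nat_lit 5) (nat_lit 44) (nat_lit 4) (nat_lit 493) (nat_lit 419) (nat_lit 288)))) (XT.nd (nat_lit 56550) (nat_lit 0) (nat_lit 19152) (XT.lf (nat_lit 0) (nat_lit 94093646267) (nat_lit 152) (nat_lit 11190169127) (nat_lit 0) (nat_lit 7299761935) (nat_lit 39) (nat_lit 5) (nat_lit 41) (nat_lit 4) (nat_lit 39) (nat_lit 4) (nat_lit 496) (nat_lit 419) (nat_lit 285)) (XT.nd (nat_lit 78) (nat_lit 0) (nat_lit 0) (XT.lf (nat_lit 0) (nat_lit 692486034) (nat_lit 0) (nat_lit 692486034) (nat_lit 1140) (nat_lit 4197226878) (nat_lit 291) (nat_lit 5) (nat_lit 291) (nat_lit 3) (nat_lit 306) (nat_lit 3) (nat_lit 420) (nat_lit 420) (nat_lit 360)) (XT.lf (nat_lit 0) (nat_lit 3814131147) (nat_lit 1140) (nat_lit 723031269) (nat_lit 1216) (nat_lit 6876877602) (nat_lit 291) (nat_lit 5) (nat_lit 306) (nat_lit 3) (nat_lit 307) (nat_lit 5) (nat_lit 421) (nat_lit 420) (nat_lit 359))))) (XT.nd (nat_lit 234) (nat_lit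 988) (nat_lit 0) (XT.nd (nat_lit 78) (nat_lit 0) (nat_lit 76) (XT.lf (nat_lit 0) (nat_lit 4990482225) (nat_lit 1140) (nat_lit 2797926959) (nat_lit 1216) (nat_lit 3885370482) (nat_lit 292) (nat_lit 5) (nat_lit 307) (nat_lit 5) (nat_lit 308) (nat_lit 5) (nat_lit 422) (nat_lit 420) (nat_lit 358)) (XT.nd (nat_lit 78) (nat_lit 0) (nat_lit 0) (XT.lf (nat_lit 0) (nat_lit 6299558412) (nat_lit 1140) (nat_lit 4868380855) (nat_lit 1216) (nat_lit 776363194) (nat_lit 293) (nat_lit 5) (nat_lit 308) (nat_lit 5) (nat_lit 309) (nat_lit 5) (nat_lit 423) (nat_lit 420) (nat_lit 357)) (XT.lf (nat_lit 76) (nat_lit 5265302639) (nat_lit 0) (nat_lit 2514520144) (nat_lit 1216) (nat_lit 4445369336) (nat_lit 294) (nat_lit 5) (nat_lit 293) (nat_lit 5) (nat_lit 309) (nat_lit 5) (nat_lit 424) (nat_lit 420) (nat_lit 356)))) (XT.nd (nat_lit 78) (nat_lit 1140) (nat_lit 0) (XT.lf (nat_lit 76) (nat_lit 3458866367) (nat_lit 0) (nat_lit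 5972059850) (nat_lit 1216) (nat_lit 3086307416) (nat_lit 295) (nat_lit 5) (nat_lit 294) (nat_lit 5) (nat_lit 310) (nat_lit 5) (nat_lit 425) (nat_lit 420) (nat_lit 355)) (XT.nd (nat_lit 78) (nat_lit 1216) (nat_lit 0) (XT.lf (nat_lit 76) (nat_lit 1663925288) (nat_lit 0) (nat_lit 9596755353) (nat_lit 1216) (nat_lit 1560325276) (nat_lit 296) (nat_lit 5) (nat_lit 295) (nat_lit 5) (nat_lit 311) (nat_lit 5) (nat_lit 426) (nat_lit 420) (nat_lit 354)) (XT.lf (nat_lit 0) (nat_lit 149101714) (nat_lit 1216) (nat_lit 121478495) (nat_lit 1292) (nat_lit 12866146270) (nat_lit 279) (nat_lit 5) (nat_lit 295) (nat_lit 5) (nat_lit 296) (nat_lit 5) (nat_lit 427) (nat_lit 420) (nat_lit 353)))))) (XT.nd (nat_lit 468) (nat_lit 3268) (nat_lit 0) (XT.nd (nat_lit 234) (nat_lit 2508) (nat_lit 0) (XT.nd (nat_lit 78) (nat_lit 0) (nat_lit 76) (XT.lf (nat_lit 0) (nat_lit 2072601206) (nat_lit 1216) (nat_lit 1913957861) (nat_lit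 1292) (nat_lit 9476394593) (nat_lit 280) (nat_lit 5) (nat_lit 296) (nat_lit 5) (nat_lit 297) (nat_lit 5) (nat_lit 428) (nat_lit 420) (nat_lit 352)) (XT.nd (nat_lit 78) (nat_lit 0) (nat_lit 76) (XT.lf (nat_lit 0) (nat_lit 4209373376) (nat_lit 1216) (nat_lit 3699007186) (nat_lit 1292) (nat_lit 5893608411) (nat_lit 281) (nat_lit 5) (nat_lit 297) (nat_lit 5) (nat_lit 298) (nat_lit 5) (nat_lit 429) (nat_lit 420) (nat_lit 351)) (XT.lf (nat_lit 0) (nat_lit 6576765524) (nat_lit 1216) (nat_lit 5476295846) (nat_lit 76) (nat_lit 2101210480) (nat_lit 282) (nat_lit 5) (nat_lit 298) (nat_lit 5) (nat_lit 283) (nat_lit 5) (nat_lit 430) (nat_lit 420) (nat_lit 350)))) (XT.nd (nat_lit 78) (nat_lit 1444) (nat_lit 0) (XT.lf (nat_lit 0) (nat_lit 7255682142) (nat_lit 1216) (nat_lit 1955972777) (nat_lit 1292) (nat_lit 5308048924) (nat_lit 266) (nat_lit 5) (nat_lit 282) (nat_lit 5) (nat_lit 283) (nat_lit 5) (nat_lit 431)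 (nat_lit 420) (nat_lit 349)) (XT.nd (nat_lit 78) (nat_lit 684) (nat_lit 0) (XT.lf (nat_lit 0) (nat_lit 5833149840) (nat_lit 760) (nat_lit 6303938591) (nat_lit 836) (nat_lit 2761563396) (nat_lit 256) (nat_lit 5) (nat_lit 266) (nat_lit 5) (nat_lit 267) (nat_lit 5) (nat_lit 432) (nat_lit 420) (nat_lit 348)) (XT.lf (nat_lit 0) (nat_lit 58910761) (nat_lit 684) (nat_lit 10859749864) (nat_lit 76) (nat_lit 4373571083) (nat_lit 247) (nat_lit 5) (nat_lit 256) (nat_lit 5) (nat_lit 248) (nat_lit 5) (nat_lit 433) (nat_lit 420) (nat_lit 347))))) (XT.nd (nat_lit 234) (nat_lit 1596) (nat_lit 0) (XT.nd (nat_lit 78) (nat_lit 1064) (nat_lit 0) (XT.lf (nat_lit 0) (nat_lit 3024871219) (nat_lit 608) (nat_lit 91115881) (nat_lit 684) (nat_lit 12584109841) (nat_lit 239) (nat_lit 5) (nat_lit 247) (nat_lit 5) (nat_lit 248) (nat_lit 5) (nat_lit 434) (nat_lit 420) (nat_lit 346)) (XT.nd (nat_lit 78) (nat_lit 532) (nat_lit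 0) (XT.lf (nat_lit 0) (nat_lit 1593341683) (nat_lit 532) (nat_lit 4935756878) (nat_lit 608) (nat_lit 9593168466) (nat_lit 232) (nat_lit 5) (nat_lit 239) (nat_lit 5) (nat_lit 240) (nat_lit 5) (nat_lit 435) (nat_lit 420) (nat_lit 345)) (XT.lf (nat_lit 0) (nat_lit 183979774) (nat_lit 532) (nat_lit 10093266951) (nat_lit 608) (nat_lit 6283374152) (nat_lit 225) (nat_lit 5) (nat_lit 232) (nat_lit 5) (nat_lit 233) (nat_lit 5) (nat_lit 436) (nat_lit 420) (nat_lit 344)))) (XT.nd (nat_lit 156) (nat_lit 988) (nat_lit 0) (XT.nd (nat_lit 78) (nat_lit 608) (nat_lit 0) (XT.lf (nat_lit 0) (nat_lit 14394882895) (nat_lit 608) (nat_lit 1177589010) (nat_lit 76) (nat_lit 1442964473) (nat_lit 225) (nat_lit 5) (nat_lit 233) (nat_lit 5) (nat_lit 226) (nat_lit 5) (nat_lit 437) (nat_lit 420) (nat_lit 343)) (XT.lf (nat_lit 0) (nat_lit 1419601794) (nat_lit 608) (nat_lit 2561604405) (nat_lit 76) (nat_lit 13504895798) (nat_lit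 217) (nat_lit 5) (nat_lit 225) (nat_lit 5) (nat_lit 218) (nat_lit 5) (nat_lit 438) (nat_lit 420) (nat_lit 342))) (XT.nd (nat_lit 78) (nat_lit 456) (nat_lit 0) (XT.lf (nat_lit 0) (nat_lit 5807516499) (nat_lit 608) (nat_lit 3963438874) (nat_lit 76) (nat_lit 8202574294) (nat_lit 210) (nat_lit 5) (nat_lit 218) (nat_lit 5) (nat_lit 211) (nat_lit 5) (nat_lit 439) (nat_lit 420) (nat_lit 341)) (XT.lf (nat_lit 0) (nat_lit 10605367426) (nat_lit 532) (nat_lit 5341161138) (nat_lit 76) (nat_lit 2533089289) (nat_lit 204) (nat_lit 5) (nat_lit 211) (nat_lit 5) (nat_lit 205) (nat_lit 5) (nat_lit 440) (nat_lit 420) (nat_lit 340))))))) (XT.nd (nat_lit 1014) (nat_lit 3116) (nat_lit 0) (XT.nd (nat_lit 468) (nat_lit 2432) (nat_lit 0) (XT.nd (nat_lit 234) (nat_lit 1216) (nat_lit 0) (XT.nd (nat_lit 78) (nat_lit 988) (nat_lit 0) (XT.lf (nat_lit 0) (nat_lit 12277423524) (nat_lit 456) (nat_lit 3596861312) (nat_lit 532)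 (nat_lit 3129795487) (nat_lit 198) (nat_lit 5) (nat_lit 204) (nat_lit 5) (nat_lit 205) (nat_lit 5) (nat_lit 441) (nat_lit 420) (nat_lit 339)) (XT.nd (nat_lit 78) (nat_lit 456) (nat_lit 0) (XT.lf (nat_lit 0) (nat_lit 2047808458) (nat_lit 532) (nat_lit 8131401809) (nat_lit 76) (nat_lit 9368064420) (nat_lit 191) (nat_lit 5) (nat_lit 198) (nat_lit 5) (nat_lit 192) (nat_lit 5) (nat_lit 442) (nat_lit 420) (nat_lit 338)) (XT.lf (nat_lit 0) (nat_lit 7631996763) (nat_lit 532) (nat_lit 9542250804) (nat_lit 76) (nat_lit 2936083052) (nat_lit 185) (nat_lit 5) (nat_lit 192) (nat_lit 5) (nat_lit 186) (nat_lit 5) (nat_lit 443) (nat_lit 420) (nat_lit 337)))) (XT.nd (nat_lit 78) (nat_lit 836) (nat_lit 0) (XT.lf (nat_lit 0) (nat_lit 9728886677) (nat_lit 380) (nat_lit 4023089251) (nat_lit 456) (nat_lit 6941870247) (nat_lit 180) (nat_lit 5) (nat_lit 185) (nat_lit 5) (nat_lit 186) (nat_lit 5) (nat_lit 444) (nat_lit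 420) (nat_lit 336)) (XT.nd (nat_lit 78) (nat_lit 456) (nat_lit 0) (XT.lf (nat_lit 0) (nat_lit 8907600265) (nat_lit 380) (nat_lit 11525833950) (nat_lit 456) (nat_lit 865442955) (nat_lit 175) (nat_lit 5) (nat_lit 180) (nat_lit 5) (nat_lit 181) (nat_lit 5) (nat_lit 445) (nat_lit 420) (nat_lit 335)) (XT.lf (nat_lit 0) (nat_lit 5640815481) (nat_lit 456) (nat_lit 13844780390) (nat_lit 76) (nat_lit 2439968550) (nat_lit 169) (nat_lit 5) (nat_lit 175) (nat_lit 5) (nat_lit 170) (nat_lit 5) (nat_lit 446) (nat_lit 420) (nat_lit 334))))) (XT.nd (nat_lit 234) (nat_lit 1292) (nat_lit 0) (XT.nd (nat_lit 78) (nat_lit 760) (nat_lit 0) (XT.lf (nat_lit 0) (nat_lit 7240704088) (nat_lit 380) (nat_lit 5506630119) (nat_lit 456) (nat_lit 9827212966) (nat_lit 164) (nat_lit 5) (nat_lit 169) (nat_lit 5) (nat_lit 170) (nat_lit 5) (nat_lit 447) (nat_lit 420) (nat_lit 333)) (XT.nd (nat_lit 78) (nat_lit 456) (nat_lit 0) (XT.lf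 (nat_lit 0) (nat_lit 6424265489) (nat_lit 304) (nat_lit 14057380471) (nat_lit 380) (nat_lit 2766162501) (nat_lit 160) (nat_lit 5) (nat_lit 164) (nat_lit 5) (nat_lit 165) (nat_lit 5) (nat_lit 448) (nat_lit 420) (nat_lit 332)) (XT.lf (nat_lit 0) (nat_lit 4813231096) (nat_lit 456) (nat_lit 18334395905) (nat_lit 76) (nat_lit 798088942) (nat_lit 154) (nat_lit 5) (nat_lit 160) (nat_lit 5) (nat_lit 155) (nat_lit 5) (nat_lit 449) (nat_lit 420) (nat_lit 331)))) (XT.nd (nat_lit 156) (nat_lit 684) (nat_lit 0) (XT.nd (nat_lit 78) (nat_lit 304) (nat_lit 0) (XT.lf (nat_lit 0) (nat_lit 4738247203) (nat_lit 304) (nat_lit 8318797854) (nat_lit 380) (nat_lit 11610375338) (nat_lit 150) (nat_lit 5) (nat_lit 154) (nat_lit 5) (nat_lit 155) (nat_lit 5) (nat_lit 450) (nat_lit 420) (nat_lit 330)) (XT.lf (nat_lit 0) (nat_lit 3904181077) (nat_lit 304) (nat_lit 18087117009) (nat_lit 380) (nat_lit 3425567393) (nat_lit 146)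 (nat_lit 5) (nat_lit 150) (nat_lit 5) (nat_lit 151) (nat_lit 5) (nat_lit 451) (nat_lit 420) (nat_lit 329))) (XT.nd (nat_lit 78) (nat_lit 304) (nat_lit 0) (XT.lf (nat_lit 0) (nat_lit 3043647254) (nat_lit 304) (nat_lit 2325268244) (nat_lit 380) (nat_lit 20824340780) (nat_lit 141) (nat_lit 5) (nat_lit 145) (nat_lit 5) (nat_lit 146) (nat_lit 5) (nat_lit 452) (nat_lit 420) (nat_lit 328)) (XT.lf (nat_lit 0) (nat_lit 2115532213) (nat_lit 304) (nat_lit 12779569347) (nat_lit 380) (nat_lit 12101465332) (nat_lit 137) (nat_lit 5) (nat_lit 141) (nat_lit 5) (nat_lit 142) (nat_lit 5) (nat_lit 453) (nat_lit 420) (nat_lit 327)))))) (XT.nd (nat_lit 468) (nat_lit 1672) (nat_lit 0) (XT.nd (nat_lit 234) (nat_lit 836) (nat_lit 0) (XT.nd (nat_lit 78) (nat_lit 380) (nat_lit 0) (XT.lf (nat_lit 0) (nat_lit 1230216810) (nat_lit 228) (nat_lit 23960652810) (nat_lit 304) (nat_lit 2640377635) (nat_lit 134) (nat_lit 5) (nat_lit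 137) (nat_lit 5) (nat_lit 138) (nat_lit 5) (nat_lit 454) (nat_lit 420) (nat_lit 326)) (XT.nd (nat_lit 78) (nat_lit 0) (nat_lit 0) (XT.lf (nat_lit 0) (nat_lit 243108971) (nat_lit 304) (nat_lit 7280728285) (nat_lit 380) (nat_lit 21170551222) (nat_lit 129) (nat_lit 5) (nat_lit 133) (nat_lit 5) (nat_lit 134) (nat_lit 5) (nat_lit 455) (nat_lit 420) (nat_lit 325)) (XT.lf (nat_lit 0) (nat_lit 18499985413) (nat_lit 380) (nat_lit 761504978) (nat_lit 76) (nat_lit 10327664326) (nat_lit 129) (nat_lit 5) (nat_lit 134) (nat_lit 5) (nat_lit 130) (nat_lit 5) (nat_lit 456) (nat_lit 420) (nat_lit 324)))) (XT.nd (nat_lit 78) (nat_lit 608) (nat_lit 0) (XT.lf (nat_lit 0) (nat_lit 28775409733) (nat_lit 228) (nat_lit 1583346992) (nat_lit 304) (nat_lit 159890082) (nat_lit 126) (nat_lit 5) (nat_lit 129) (nat_lit 5) (nat_lit 130) (nat_lit 5) (nat_lit 457) (nat_lit 420) (nat_lit 323)) (XT.nd (nat_lit 78) (nat_lit 228) (nat_lit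 0) (XT.lf (nat_lit 0) (nat_lit 11530316869) (nat_lit 380) (nat_lit 2912654480) (nat_lit 76) (nat_lit 17035322463) (nat_lit 121) (nat_lit 5) (nat_lit 126) (nat_lit 5) (nat_lit 122) (nat_lit 5) (nat_lit 458) (nat_lit 420) (nat_lit 322)) (XT.lf (nat_lit 0) (nat_lit 24135829737) (nat_lit 304) (nat_lit 4065181488) (nat_lit 76) (nat_lit 4274843152) (nat_lit 118) (nat_lit 5) (nat_lit 122) (nat_lit 5) (nat_lit 119) (nat_lit 5) (nat_lit 459) (nat_lit 420) (nat_lit 321))))) (XT.nd (nat_lit 234) (nat_lit 912) (nat_lit 0) (XT.nd (nat_lit 78) (nat_lit 456) (nat_lit 0) (XT.lf (nat_lit 0) (nat_lit 4209784755) (nat_lit 304) (nat_lit 5332665230) (nat_lit 76) (nat_lit 23966638225) (nat_lit 114) (nat_lit 5) (nat_lit 118) (nat_lit 5) (nat_lit 115) (nat_lit 5) (nat_lit 460) (nat_lit 420) (nat_lit 320)) (XT.nd (nat_lit 78) (nat_lit 228) (nat_lit 0) (XT.lf (nat_lit 0) (nat_lit 17612956118) (nat_lit 304) (nat_lit 6723548352)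 (nat_lit 76) (nat_lit 10243052910) (nat_lit 111) (nat_lit 5) (nat_lit 115) (nat_lit 5) (nat_lit 112) (nat_lit 5) (nat_lit 461) (nat_lit 420) (nat_lit 319)) (XT.lf (nat_lit 0) (nat_lit 27530471507) (nat_lit 228) (nat_lit 4557903005) (nat_lit 304) (nat_lit 3603114329) (nat_lit 108) (nat_lit 5) (nat_lit 111) (nat_lit 5) (nat_lit 112) (nat_lit 5) (nat_lit 462) (nat_lit 420) (nat_lit 318)))) (XT.nd (nat_lit 156) (nat_lit 456) (nat_lit 0) (XT.nd (nat_lit 78) (nat_lit 228) (nat_lit 0) (XT.lf (nat_lit 0) (nat_lit 10702306369) (nat_lit 228) (nat_lit 9819295581) (nat_lit 76) (nat_lit 16320091194) (nat_lit 105) (nat_lit 5) (nat_lit 108) (nat_lit 5) (nat_lit 106) (nat_lit 5) (nat_lit 463) (nat_lit 420) (nat_lit 317)) (XT.lf (nat_lit 0) (nat_lit 26025733876) (nat_lit 304) (nat_lit 11542023123) (nat_lit 76) (nat_lit 469264129) (nat_lit 102) (nat_lit 5) (nat_lit 106) (nat_lit 5) (nat_lit 103) (nat_lit 5) (nat_lit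 464) (nat_lit 420) (nat_lit 316))) (XT.nd (nat_lit 78) (nat_lit 228) (nat_lit 0) (XT.lf (nat_lit 0) (nat_lit 3317597342) (nat_lit 228) (nat_lit 13494062981) (nat_lit 76) (nat_lit 22463158106) (nat_lit 99) (nat_lit 5) (nat_lit 102) (nat_lit 5) (nat_lit 100) (nat_lit 5) (nat_lit 465) (nat_lit 420) (nat_lit 315)) (XT.lf (nat_lit 0) (nat_lit 19566562714) (nat_lit 304) (nat_lit 15630076742) (nat_lit 76) (nat_lit 5362238132) (nat_lit 96) (nat_lit 5) (nat_lit 100) (nat_lit 5) (nat_lit 97) (nat_lit 5) (nat_lit 466) (nat_lit 420) (nat_lit 314))))))))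
noncomputable def xc83 : XT := (XT.nd (nat_lit 1950) (nat_lit 380) (nat_lit 0) (XT.nd (nat_lit 936) (nat_lit 1748) (nat_lit 0) (XT.nd (nat_lit 468) (nat_lit 988) (nat_lit 0) (XT.nd (nat_lit 234) (nat_lit 532) (nat_lit 0) (XT.nd (nat_lit 78) (nat_lit 456) (nat_lit 0) (XT.lf (nat_lit 0) (nat_lit 23925907667) (nat_lit 152) (nat_lit 13229379995) (nat_lit 228) (nat_lit 4736033801) (nat_lit 94) (nat_lit 5) (nat_lit 96) (nat_lit 5) (nat_lit 97) (nat_lit 5) (nat_lit 467) (nat_lit 420) (nat_lit 313)) (XT.nd (nat_lit 78) (nat_lit 152) (nat_lit 0) (XT.lf (nat_lit 0) (nat_lit 12561145582) (nat_lit 304) (nat_lit 20570929782) (nat_lit 76) (nat_lit 10140694194) (nat_lit 90) (nat_lit 5) (nat_lit 94) (nat_lit 5) (nat_lit 91) (nat_lit 5) (nat_lit 468) (nat_lit 420) (nat_lit 312)) (XT.lf (nat_lit 0) (nat_lit 21271029256) (nat_lit 152) (nat_lit 9867817711) (nat_lit 228) (nat_lit 13567628969) (nat_lit 88) (nat_lit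 5) (nat_lit 90) (nat_lit 5) (nat_lit 91) (nat_lit 5) (nat_lit 469) (nat_lit 420) (nat_lit 311)))) (XT.nd (nat_lit 78) (nat_lit 304) (nat_lit 0) (XT.lf (nat_lit 0) (nat_lit 4883237150) (nat_lit 228) (nat_lit 26593668141) (nat_lit 76) (nat_lit 14717599107) (nat_lit 85) (nat_lit 5) (nat_lit 88) (nat_lit 5) (nat_lit 86) (nat_lit 5) (nat_lit 470) (nat_lit 420) (nat_lit 310)) (XT.nd (nat_lit 78) (nat_lit 152) (nat_lit 0) (XT.lf (nat_lit 0) (nat_lit 17613416106) (nat_lit 152) (nat_lit 6866266775) (nat_lit 228) (nat_lit 23258113192) (nat_lit 83) (nat_lit 5) (nat_lit 85) (nat_lit 5) (nat_lit 86) (nat_lit 5) (nat_lit 471) (nat_lit 420) (nat_lit 309)) (XT.lf (nat_lit 0) (nat_lit 15330595003) (nat_lit 152) (nat_lit 30320348581) (nat_lit 228) (nat_lit 3689459779) (nat_lit 81) (nat_lit 5) (nat_lit 83) (nat_lit 5) (nat_lit 84) (nat_lit 5) (nat_lit 472) (nat_lit 420) (nat_lit 308))))) (XT.nd (nat_lit 234) (nat_lit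 380) (nat_lit 0) (XT.nd (nat_lit 78) (nat_lit 380) (nat_lit 0) (XT.lf (nat_lit 0) (nat_lit 12667111463) (nat_lit 152) (nat_lit 4354801422) (nat_lit 228) (nat_lit 33981570320) (nat_lit 78) (nat_lit 5) (nat_lit 80) (nat_lit 5) (nat_lit 81) (nat_lit 5) (nat_lit 473) (nat_lit 420) (nat_lit 307)) (XT.nd (nat_lit 78) (nat_lit 228) (nat_lit 0) (XT.lf (nat_lit 0) (nat_lit 9555592959) (nat_lit 152) (nat_lit 29792561894) (nat_lit 228) (nat_lit 13380798889) (nat_lit 76) (nat_lit 5) (nat_lit 78) (nat_lit 5) (nat_lit 79) (nat_lit 5) (nat_lit 474) (nat_lit 420) (nat_lit 306)) (XT.lf (nat_lit 0) (nat_lit 6087054536) (nat_lit 152) (nat_lit 2492467526) (nat_lit 228) (nat_lit 45944082330) (nat_lit 73) (nat_lit 5) (nat_lit 75) (nat_lit 5) (nat_lit 76) (nat_lit 5) (nat_lit 475) (nat_lit 420) (nat_lit 305)))) (XT.nd (nat_lit 78) (nat_lit 228) (nat_lit 0) (XT.lf (nat_lit 0) (nat_lit 1946310276) (nat_lit 152) (nat_lit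 30126243967) (nat_lit 228) (nat_lit 24310116544) (nat_lit 71) (nat_lit 5) (nat_lit 73) (nat_lit 5) (nat_lit 74) (nat_lit 5) (nat_lit 476) (nat_lit 420) (nat_lit 304)) (XT.nd (nat_lit 78) (nat_lit 228) (nat_lit 0) (XT.lf (nat_lit 0) (nat_lit 55816713726) (nat_lit 152) (nat_lit 1437090844) (nat_lit 228) (nat_lit 1065479536) (nat_lit 71) (nat_lit 5) (nat_lit 73) (nat_lit 5) (nat_lit 74) (nat_lit 5) (nat_lit 477) (nat_lit 420) (nat_lit 303)) (XT.lf (nat_lit 0) (nat_lit 23666970631) (nat_lit 228) (nat_lit 7797247824) (nat_lit 76) (nat_lit 28858347361) (nat_lit 68) (nat_lit 5) (nat_lit 71) (nat_lit 5) (nat_lit 69) (nat_lit 5) (nat_lit 478) (nat_lit 420) (nat_lit 302)))))) (XT.nd (nat_lit 468) (nat_lit 912) (nat_lit 0) (XT.nd (nat_lit 234) (nat_lit 380) (nat_lit 0) (XT.nd (nat_lit 78) (nat_lit 304) (nat_lit 0) (XT.lf (nat_lit 0) (nat_lit 48842072490) (nat_lit 152) (nat_lit 1272805031) (nat_lit 228) (nat_lit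 12295792040) (nat_lit 66) (nat_lit 5) (nat_lit 68) (nat_lit 5) (nat_lit 69) (nat_lit 5) (nat_lit 479) (nat_lit 420) (nat_lit 301)) (XT.nd (nat_lit 78) (nat_lit 152) (nat_lit 0) (XT.lf (nat_lit 0) (nat_lit 13822180101) (nat_lit 152) (nat_lit 20282534049) (nat_lit 76) (nat_lit 30470653834) (nat_lit 64) (nat_lit 5) (nat_lit 66) (nat_lit 5) (nat_lit 65) (nat_lit 5) (nat_lit 480) (nat_lit 420) (nat_lit 300)) (XT.lf (nat_lit 0) (nat_lit 39094754998) (nat_lit 152) (nat_lit 2420118602) (nat_lit 228) (nat_lit 25314082418) (nat_lit 62) (nat_lit 5) (nat_lit 64) (nat_lit 5) (nat_lit 65) (nat_lit 5) (nat_lit 481) (nat_lit 420) (nat_lit 299)))) (XT.nd (nat_lit 78) (nat_lit 228) (nat_lit 0) (XT.lf (nat_lit 0) (nat_lit 2193700840) (nat_lit 152) (nat_lit 36187292491) (nat_lit 76) (nat_lit 30789108217) (nat_lit 60) (nat_lit 5) (nat_lit 62) (nat_lit 5) (nat_lit 61) (nat_lit 5) (nat_lit 482) (nat_lit 420) (nat_lit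 298)) (XT.nd (nat_lit 78) (nat_lit 76) (nat_lit 0) (XT.lf (nat_lit 0) (nat_lit 25902204808) (nat_lit 152) (nat_lit 5209168265) (nat_lit 228) (nat_lit 40492671639) (nat_lit 58) (nat_lit 5) (nat_lit 60) (nat_lit 5) (nat_lit 61) (nat_lit 5) (nat_lit 483) (nat_lit 420) (nat_lit 297)) (XT.lf (nat_lit 0) (nat_lit 17746036911) (nat_lit 76) (nat_lit 44552036280) (nat_lit 152) (nat_lit 11836917904) (nat_lit 57) (nat_lit 5) (nat_lit 58) (nat_lit 5) (nat_lit 59) (nat_lit 4) (nat_lit 484) (nat_lit 420) (nat_lit 296))))) (XT.nd (nat_lit 234) (nat_lit 532) (nat_lit 0) (XT.nd (nat_lit 78) (nat_lit 152) (nat_lit 0) (XT.lf (nat_lit 0) (nat_lit 8459958218) (nat_lit 152) (nat_lit 10036316383) (nat_lit 228) (nat_lit 58272923005) (nat_lit 54) (nat_lit 5) (nat_lit 56) (nat_lit 5) (nat_lit 57) (nat_lit 5) (nat_lit 485) (nat_lit 420) (nat_lit 295)) (XT.nd (nat_lit 78) (nat_lit 152) (nat_lit 0) (XT.lf (nat_lit 0) (nat_lit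 50933686796) (nat_lit 228) (nat_lit 2180286627) (nat_lit 76) (nat_lit 26392654473) (nat_lit 54) (nat_lit 5) (nat_lit 57) (nat_lit 5) (nat_lit 55) (nat_lit 4) (nat_lit 486) (nat_lit 420) (nat_lit 294)) (XT.lf (nat_lit 0) (nat_lit 3320392288) (nat_lit 152) (nat_lit 13915330495) (nat_lit 76) (nat_lit 65121674299) (nat_lit 52) (nat_lit 5) (nat_lit 54) (nat_lit 5) (nat_lit 53) (nat_lit 5) (nat_lit 487) (nat_lit 420) (nat_lit 293)))) (XT.nd (nat_lit 156) (nat_lit 304) (nat_lit 0) (XT.nd (nat_lit 78) (nat_lit 76) (nat_lit 0) (XT.lf (nat_lit 0) (nat_lit 37001829641) (nat_lit 228) (nat_lit 27407361548) (nat_lit 76) (nat_lit 20909495742) (nat_lit 50) (nat_lit 5) (nat_lit 53) (nat_lit 5) (nat_lit 51) (nat_lit 4) (nat_lit 488) (nat_lit 420) (nat_lit 292)) (XT.lf (nat_lit 0) (nat_lit 45902795544) (nat_lit 76) (nat_lit 27217086213) (nat_lit 152) (nat_lit 15285583516) (nat_lit 49) (nat_lit 5) (nat_lit 50) (nat_lit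 5) (nat_lit 51) (nat_lit 4) (nat_lit 489) (nat_lit 420) (nat_lit 291))) (XT.nd (nat_lit 78) (nat_lit 76) (nat_lit 0) (XT.lf (nat_lit 0) (nat_lit 19727827304) (nat_lit 228) (nat_lit 59505521526) (nat_lit 76) (nat_lit 12386367710) (nat_lit 46) (nat_lit 5) (nat_lit 49) (nat_lit 5) (nat_lit 47) (nat_lit 4) (nat_lit 490) (nat_lit 420) (nat_lit 290)) (XT.lf (nat_lit 0) (nat_lit 16238670249) (nat_lit 76) (nat_lit 40805682983) (nat_lit 152) (nat_lit 37919729904) (nat_lit 45) (nat_lit 5) (nat_lit 46) (nat_lit 5) (nat_lit 47) (nat_lit 4) (nat_lit 491) (nat_lit 420) (nat_lit 289))))))) (XT.nd (nat_lit 57720) (nat_lit 0) (nat_lit 11476) (XT.nd (nat_lit 57174) (nat_lit 0) (nat_lit 18164) (XT.nd (nat_lit 56940) (nat_lit 0) (nat_lit 19076) (XT.nd (nat_lit 78) (nat_lit 380) (nat_lit 0) (XT.lf (nat_lit 0) (nat_lit 96834058650) (nat_lit 152) (nat_lit 1458577757) (nat_lit 0) (nat_lit 164811298) (nat_lit 45) (nat_lit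 5) (nat_lit 47) (nat_lit 4) (nat_lit 45) (nat_lit 4) (nat_lit 492) (nat_lit 420) (nat_lit 288)) (XT.nd (nat_lit 156) (nat_lit 228) (nat_lit 0) (XT.lf (nat_lit 0) (nat_lit 36969709552) (nat_lit 152) (nat_lit 21628095222) (nat_lit 76) (nat_lit 43481335216) (nat_lit 43) (nat_lit 5) (nat_lit 45) (nat_lit 5) (nat_lit 44) (nat_lit 4) (nat_lit 493) (nat_lit 420) (nat_lit 287)) (XT.lf (nat_lit 0) (nat_lit 12036988605) (nat_lit 152) (nat_lit 69438978802) (nat_lit 76) (nat_lit 28330904086) (nat_lit 40) (nat_lit 5) (nat_lit 42) (nat_lit 5) (nat_lit 41) (nat_lit 4) (nat_lit 495) (nat_lit 420) (nat_lit 285)))) (XT.nd (nat_lit 78) (nat_lit 0) (nat_lit 0) (XT.lf (nat_lit 0) (nat_lit 1173784904) (nat_lit 0) (nat_lit 1173784904) (nat_lit 1140) (nat_lit 3486722369) (nat_lit 291) (nat_lit 5) (nat_lit 291) (nat_lit 3) (nat_lit 306) (nat_lit 3) (nat_lit 421) (nat_lit 421) (nat_lit 358)) (XT.nd (nat_lit 78) (nat_lit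 0) (nat_lit 76) (XT.lf (nat_lit 76) (nat_lit 154275242) (nat_lit 0) (nat_lit 5545484357) (nat_lit 1216) (nat_lit 6233722869) (nat_lit 292) (nat_lit 5) (nat_lit 291) (nat_lit 5) (nat_lit 307) (nat_lit 5) (nat_lit 422) (nat_lit 421) (nat_lit 357)) (XT.lf (nat_lit 0) (nat_lit 6854222192) (nat_lit 1140) (nat_lit 1997358204) (nat_lit 1216) (nat_lit 3357069497) (nat_lit 292) (nat_lit 5) (nat_lit 307) (nat_lit 5) (nat_lit 308) (nat_lit 5) (nat_lit 423) (nat_lit 421) (nat_lit 356))))) (XT.nd (nat_lit 234) (nat_lit 1064) (nat_lit 0) (XT.nd (nat_lit 78) (nat_lit 0) (nat_lit 0) (XT.lf (nat_lit 0) (nat_lit 8154584796) (nat_lit 1140) (nat_lit 4145454393) (nat_lit 1216) (nat_lit 194903341) (nat_lit 293) (nat_lit 5) (nat_lit 308) (nat_lit 5) (nat_lit 309) (nat_lit 5) (nat_lit 424) (nat_lit 421) (nat_lit 355)) (XT.nd (nat_lit 78) (nat_lit 0) (nat_lit 76) (XT.lf (nat_lit 76) (nat_lit 6467213175) (nat_lit 0) (nat_lit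 3177336403) (nat_lit 1216) (nat_lit 3147274268) (nat_lit 294) (nat_lit 5) (nat_lit 293) (nat_lit 5) (nat_lit 309) (nat_lit 5) (nat_lit 425) (nat_lit 421) (nat_lit 354)) (XT.lf (nat_lit 76) (nat_lit 4591912486) (nat_lit 0) (nat_lit 6720334677) (nat_lit 1216) (nat_lit 1788216047) (nat_lit 295) (nat_lit 5) (nat_lit 294) (nat_lit 5) (nat_lit 310) (nat_lit 5) (nat_lit 426) (nat_lit 421) (nat_lit 353)))) (XT.nd (nat_lit 156) (nat_lit 0) (nat_lit 76) (XT.nd (nat_lit 78) (nat_lit 1216) (nat_lit 0) (XT.lf (nat_lit 76) (nat_lit 2725311880) (nat_lit 0) (nat_lit 10446331579) (nat_lit 1216) (nat_lit 249652160) (nat_lit 296) (nat_lit 5) (nat_lit 295) (nat_lit 5) (nat_lit 311) (nat_lit 5) (nat_lit 427) (nat_lit 421) (nat_lit 352)) (XT.lf (nat_lit 76) (nat_lit 846685646) (nat_lit 0) (nat_lit 614763393) (nat_lit 1292) (nat_lit 12292668587) (nat_lit 280) (nat_lit 5) (nat_lit 279) (nat_lit 5) (nat_lit 296) (nat_lit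 5) (nat_lit 428) (nat_lit 421) (nat_lit 351))) (XT.nd (nat_lit 78) (nat_lit 0) (nat_lit 76) (XT.lf (nat_lit 0) (nat_lit 3417161443) (nat_lit 1216) (nat_lit 1038774449) (nat_lit 1292) (nat_lit 9642653348) (nat_lit 280) (nat_lit 5) (nat_lit 296) (nat_lit 5) (nat_lit 297) (nat_lit 5) (nat_lit 429) (nat_lit 421) (nat_lit 350)) (XT.lf (nat_lit 0) (nat_lit 5608362985) (nat_lit 1216) (nat_lit 2902526081) (nat_lit 1292) (nat_lit 5945273062) (nat_lit 281) (nat_lit 5) (nat_lit 297) (nat_lit 5) (nat_lit 298) (nat_lit 5) (nat_lit 430) (nat_lit 421) (nat_lit 349)))))) (XT.nd (nat_lit 468) (nat_lit 3116) (nat_lit 0) (XT.nd (nat_lit 234) (nat_lit 1824) (nat_lit 0) (XT.nd (nat_lit 78) (nat_lit 1976) (nat_lit 0) (XT.lf (nat_lit 0) (nat_lit 8044887051) (nat_lit 1216) (nat_lit 4760516134) (nat_lit 76) (nat_lit 2022145984) (nat_lit 282) (nat_lit 5) (nat_lit 298) (nat_lit 5) (nat_lit 283) (nat_lit 5) (nat_lit 431)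 (nat_lit 421) (nat_lit 348)) (XT.nd (nat_lit 78) (nat_lit 760) (nat_lit 0) (XT.lf (nat_lit 0) (nat_lit 8579694226) (nat_lit 1216) (nat_lit 2186815018) (nat_lit 1292) (nat_lit 4446106142) (nat_lit 266) (nat_lit 5) (nat_lit 282) (nat_lit 5) (nat_lit 283) (nat_lit 5) (nat_lit 432) (nat_lit 421) (nat_lit 347)) (XT.lf (nat_lit 0) (nat_lit 7091849739) (nat_lit 760) (nat_lit 6702334328) (nat_lit 836) (nat_lit 1817659304) (nat_lit 256) (nat_lit 5) (nat_lit 266) (nat_lit 5) (nat_lit 267) (nat_lit 5) (nat_lit 433) (nat_lit 421) (nat_lit 346)))) (XT.nd (nat_lit 78) (nat_lit 1140) (nat_lit 0) (XT.lf (nat_lit 0) (nat_lit 1080863993) (nat_lit 684) (nat_lit 10411310553) (nat_lit 76) (nat_lit 4533882324) (nat_lit 247) (nat_lit 5) (nat_lit 256) (nat_lit 5) (nat_lit 248) (nat_lit 5) (nat_lit 434) (nat_lit 421) (nat_lit 345)) (XT.nd (nat_lit 78) (nat_lit 532) (nat_lit 0) (XT.lf (nat_lit 0) (nat_lit 4139122533) (nat_lit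 608) (nat_lit 112404460) (nat_lit 684) (nat_lit 12203976683) (nat_lit 239) (nat_lit 5) (nat_lit 247) (nat_lit 5) (nat_lit 248) (nat_lit 5) (nat_lit 435) (nat_lit 421) (nat_lit 344)) (XT.lf (nat_lit 0) (nat_lit 2637318021) (nat_lit 532) (nat_lit 5160438039) (nat_lit 608) (nat_lit 9102162149) (nat_lit 232) (nat_lit 5) (nat_lit 239) (nat_lit 5) (nat_lit 240) (nat_lit 5) (nat_lit 436) (nat_lit 421) (nat_lit 343))))) (XT.nd (nat_lit 234) (nat_lit 1976) (nat_lit 0) (XT.nd (nat_lit 78) (nat_lit 608) (nat_lit 0) (XT.lf (nat_lit 0) (nat_lit 1157286180) (nat_lit 532) (nat_lit 10540628636) (nat_lit 608) (nat_lit 5663346178) (nat_lit 225) (nat_lit 5) (nat_lit 232) (nat_lit 5) (nat_lit 233) (nat_lit 5) (nat_lit 437) (nat_lit 421) (nat_lit 342)) (XT.nd (nat_lit 78) (nat_lit 608) (nat_lit 0) (XT.lf (nat_lit 0) (nat_lit 15978776158) (nat_lit 608) (nat_lit 292708911) (nat_lit 76) (nat_lit 1568620793) (nat_lit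 225) (nat_lit 5) (nat_lit 233) (nat_lit 5) (nat_lit 226) (nat_lit 5) (nat_lit 438) (nat_lit 421) (nat_lit 341)) (XT.lf (nat_lit 0) (nat_lit 2330794831) (nat_lit 608) (nat_lit 1756091411) (nat_lit 76) (nat_lit 14248150009) (nat_lit 217) (nat_lit 5) (nat_lit 225) (nat_lit 5) (nat_lit 218) (nat_lit 5) (nat_lit 439) (nat_lit 421) (nat_lit 340)))) (XT.nd (nat_lit 156) (nat_lit 988) (nat_lit 0) (XT.nd (nat_lit 78) (nat_lit 456) (nat_lit 0) (XT.lf (nat_lit 0) (nat_lit 6907753345) (nat_lit 608) (nat_lit 3231295835) (nat_lit 76) (nat_lit 8708704512) (nat_lit 210) (nat_lit 5) (nat_lit 218) (nat_lit 5) (nat_lit 211) (nat_lit 5) (nat_lit 440) (nat_lit 421) (nat_lit 339)) (XT.lf (nat_lit 0) (nat_lit 11916807166) (nat_lit 532) (nat_lit 4682211602) (nat_lit 76) (nat_lit 2780995668) (nat_lit 204) (nat_lit 5) (nat_lit 211) (nat_lit 5) (nat_lit 205) (nat_lit 5) (nat_lit 441) (nat_lit 421) (nat_lit 338))) (XT.nd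 (nat_lit 78) (nat_lit 532) (nat_lit 0) (XT.lf (nat_lit 0) (nat_lit 13790758471) (nat_lit 456) (nat_lit 3629859535) (nat_lit 532) (nat_lit 2510945699) (nat_lit 198) (nat_lit 5) (nat_lit 204) (nat_lit 5) (nat_lit 205) (nat_lit 5) (nat_lit 442) (nat_lit 421) (nat_lit 337)) (XT.lf (nat_lit 0) (nat_lit 2884248400) (nat_lit 532) (nat_lit 7628852442) (nat_lit 76) (nat_lit 9989384734) (nat_lit 191) (nat_lit 5) (nat_lit 198) (nat_lit 5) (nat_lit 192) (nat_lit 5) (nat_lit 443) (nat_lit 421) (nat_lit 336))))))))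
noncomputable def xc84 : XT := (XT.nd (nat_lit 1950) (nat_lit 3952) (nat_lit 0) (XT.nd (nat_lit 936) (nat_lit 3040) (nat_lit 0) (XT.nd (nat_lit 468) (nat_lit 1976) (nat_lit 0) (XT.nd (nat_lit 234) (nat_lit 1140) (nat_lit 0) (XT.nd (nat_lit 78) (nat_lit 760) (nat_lit 0) (XT.lf (nat_lit 0) (nat_lit 8722866679) (nat_lit 532) (nat_lit 9116637797) (nat_lit 76) (nat_lit 3254939467) (nat_lit 185) (nat_lit 5) (nat_lit 192) (nat_lit 5) (nat_lit 186) (nat_lit 5) (nat_lit 444) (nat_lit 421) (nat_lit 335)) (XT.nd (nat_lit 78) (nat_lit 380) (nat_lit 0) (XT.lf (nat_lit 0) (nat_lit 11092180111) (nat_lit 380) (nat_lit 4031318735) (nat_lit 456) (nat_lit 6584402766) (nat_lit 180) (nat_lit 5) (nat_lit 185) (nat_lit 5) (nat_lit 186) (nat_lit 5) (nat_lit 445) (nat_lit 421) (nat_lit 334)) (XT.lf (nat_lit 0) (nat_lit 10222938640) (nat_lit 380) (nat_lit 11893652368) (nat_lit 456) (nat_lit 227271996) (nat_lit 175) (nat_lit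 5) (nat_lit 180) (nat_lit 5) (nat_lit 181) (nat_lit 5) (nat_lit 446) (nat_lit 421) (nat_lit 333)))) (XT.nd (nat_lit 78) (nat_lit 684) (nat_lit 0) (XT.lf (nat_lit 0) (nat_lit 6569485516) (nat_lit 456) (nat_lit 13661584714) (nat_lit 76) (nat_lit 2771268613) (nat_lit 169) (nat_lit 5) (nat_lit 175) (nat_lit 5) (nat_lit 170) (nat_lit 5) (nat_lit 447) (nat_lit 421) (nat_lit 332)) (XT.nd (nat_lit 78) (nat_lit 304) (nat_lit 0) (XT.lf (nat_lit 0) (nat_lit 8453079829) (nat_lit 380) (nat_lit 5555632473) (nat_lit 456) (nat_lit 9675741963) (nat_lit 164) (nat_lit 5) (nat_lit 169) (nat_lit 5) (nat_lit 170) (nat_lit 5) (nat_lit 448) (nat_lit 421) (nat_lit 331)) (XT.lf (nat_lit 0) (nat_lit 7587611996) (nat_lit 304) (nat_lit 14522579932) (nat_lit 380) (nat_lit 2281777878) (nat_lit 160) (nat_lit 5) (nat_lit 164) (nat_lit 5) (nat_lit 165) (nat_lit 5) (nat_lit 449) (nat_lit 421) (nat_lit 330))))) (XT.nd (nat_lit 234)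 (nat_lit 912) (nat_lit 0) (XT.nd (nat_lit 78) (nat_lit 608) (nat_lit 0) (XT.lf (nat_lit 0) (nat_lit 5645649635) (nat_lit 456) (nat_lit 18405769520) (nat_lit 76) (nat_lit 1073741880) (nat_lit 154) (nat_lit 5) (nat_lit 160) (nat_lit 5) (nat_lit 155) (nat_lit 5) (nat_lit 450) (nat_lit 421) (nat_lit 329)) (XT.nd (nat_lit 78) (nat_lit 304) (nat_lit 0) (XT.lf (nat_lit 0) (nat_lit 5796274064) (nat_lit 304) (nat_lit 8485094380) (nat_lit 380) (nat_lit 11602195030) (nat_lit 150) (nat_lit 5) (nat_lit 154) (nat_lit 5) (nat_lit 155) (nat_lit 5) (nat_lit 451) (nat_lit 421) (nat_lit 328)) (XT.lf (nat_lit 0) (nat_lit 4911370717) (nat_lit 304) (nat_lit 18733841203) (nat_lit 380) (nat_lit 3025786550) (nat_lit 146) (nat_lit 5) (nat_lit 150) (nat_lit 5) (nat_lit 151) (nat_lit 5) (nat_lit 452) (nat_lit 421) (nat_lit 327)))) (XT.nd (nat_lit 78) (nat_lit 532) (nat_lit 0) (XT.lf (nat_lit 0) (nat_lit 3995434210) (nat_lit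 304) (nat_lit 2182866486) (nat_lit 380) (nat_lit 21308316415) (nat_lit 141) (nat_lit 5) (nat_lit 145) (nat_lit 5) (nat_lit 146) (nat_lit 5) (nat_lit 453) (nat_lit 421) (nat_lit 326)) (XT.nd (nat_lit 78) (nat_lit 228) (nat_lit 0) (XT.lf (nat_lit 0) (nat_lit 3011412427) (nat_lit 304) (nat_lit 13153587619) (nat_lit 380) (nat_lit 12165570603) (nat_lit 137) (nat_lit 5) (nat_lit 141) (nat_lit 5) (nat_lit 142) (nat_lit 5) (nat_lit 454) (nat_lit 421) (nat_lit 325)) (XT.lf (nat_lit 0) (nat_lit 2072080120) (nat_lit 228) (nat_lit 24888396460) (nat_lit 304) (nat_lit 2246964194) (nat_lit 134) (nat_lit 5) (nat_lit 137) (nat_lit 5) (nat_lit 138) (nat_lit 5) (nat_lit 455) (nat_lit 421) (nat_lit 324)))))) (XT.nd (nat_lit 468) (nat_lit 1520) (nat_lit 0) (XT.nd (nat_lit 234) (nat_lit 836) (nat_lit 0) (XT.nd (nat_lit 78) (nat_lit 304) (nat_lit 0) (XT.lf (nat_lit 0) (nat_lit 1023270543) (nat_lit 304) (nat_lit 7374788020)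 (nat_lit 380) (nat_lit 21716046560) (nat_lit 129) (nat_lit 5) (nat_lit 133) (nat_lit 5) (nat_lit 134) (nat_lit 5) (nat_lit 456) (nat_lit 421) (nat_lit 323)) (XT.nd (nat_lit 78) (nat_lit 304) (nat_lit 0) (XT.lf (nat_lit 0) (nat_lit 19901770041) (nat_lit 380) (nat_lit 56329065) (nat_lit 76) (nat_lit 11096150839) (nat_lit 129) (nat_lit 5) (nat_lit 134) (nat_lit 5) (nat_lit 130) (nat_lit 5) (nat_lit 457) (nat_lit 421) (nat_lit 322)) (XT.lf (nat_lit 0) (nat_lit 301032135) (nat_lit 304) (nat_lit 1097517435) (nat_lit 76) (nat_lit 30632054267) (nat_lit 125) (nat_lit 5) (nat_lit 129) (nat_lit 5) (nat_lit 126) (nat_lit 5) (nat_lit 458) (nat_lit 421) (nat_lit 321)))) (XT.nd (nat_lit 78) (nat_lit 532) (nat_lit 0) (XT.lf (nat_lit 0) (nat_lit 12559627316) (nat_lit 380) (nat_lit 2336919778) (nat_lit 76) (nat_lit 18142025662) (nat_lit 121) (nat_lit 5) (nat_lit 126) (nat_lit 5) (nat_lit 122) (nat_lit 5) (nat_lit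 459) (nat_lit 421) (nat_lit 320)) (XT.nd (nat_lit 78) (nat_lit 304) (nat_lit 0) (XT.lf (nat_lit 0) (nat_lit 25783115072) (nat_lit 304) (nat_lit 3557087935) (nat_lit 76) (nat_lit 4746179836) (nat_lit 118) (nat_lit 5) (nat_lit 122) (nat_lit 5) (nat_lit 119) (nat_lit 5) (nat_lit 460) (nat_lit 421) (nat_lit 319)) (XT.lf (nat_lit 0) (nat_lit 4850699462) (nat_lit 304) (nat_lit 4899724622) (nat_lit 76) (nat_lit 25421160061) (nat_lit 114) (nat_lit 5) (nat_lit 118) (nat_lit 5) (nat_lit 115) (nat_lit 5) (nat_lit 461) (nat_lit 421) (nat_lit 318))))) (XT.nd (nat_lit 234) (nat_lit 836) (nat_lit 0) (XT.nd (nat_lit 78) (nat_lit 456) (nat_lit 0) (XT.lf (nat_lit 0) (nat_lit 18912593601) (nat_lit 304) (nat_lit 6370196371) (nat_lit 76) (nat_lit 11013132051) (nat_lit 111) (nat_lit 5) (nat_lit 115) (nat_lit 5) (nat_lit 112) (nat_lit 5) (nat_lit 462) (nat_lit 421) (nat_lit 317)) (XT.nd (nat_lit 78) (nat_lit 228) (nat_lit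 0) (XT.lf (nat_lit 0) (nat_lit 29576759259) (nat_lit 228) (nat_lit 4521509950) (nat_lit 304) (nat_lit 3365588333) (nat_lit 108) (nat_lit 5) (nat_lit 111) (nat_lit 5) (nat_lit 112) (nat_lit 5) (nat_lit 463) (nat_lit 421) (nat_lit 316)) (XT.lf (nat_lit 0) (nat_lit 11636301607) (nat_lit 228) (nat_lit 9642329819) (nat_lit 76) (nat_lit 17393141640) (nat_lit 105) (nat_lit 5) (nat_lit 108) (nat_lit 5) (nat_lit 106) (nat_lit 5) (nat_lit 464) (nat_lit 421) (nat_lit 315)))) (XT.nd (nat_lit 156) (nat_lit 380) (nat_lit 0) (XT.nd (nat_lit 78) (nat_lit 228) (nat_lit 0) (XT.lf (nat_lit 0) (nat_lit 27715667591) (nat_lit 304) (nat_lit 11461244527) (nat_lit 76) (nat_lit 750264144) (nat_lit 102) (nat_lit 5) (nat_lit 106) (nat_lit 5) (nat_lit 103) (nat_lit 5) (nat_lit 465) (nat_lit 421) (nat_lit 314)) (XT.lf (nat_lit 0) (nat_lit 3863519563) (nat_lit 228) (nat_lit 13522147021) (nat_lit 76) (nat_lit 23841457736) (nat_lit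 99) (nat_lit 5) (nat_lit 102) (nat_lit 5) (nat_lit 100) (nat_lit 5) (nat_lit 466) (nat_lit 421) (nat_lit 313))) (XT.nd (nat_lit 78) (nat_lit 152) (nat_lit 0) (XT.lf (nat_lit 0) (nat_lit 20915373728) (nat_lit 304) (nat_lit 15774925298) (nat_lit 76) (nat_lit 5885375803) (nat_lit 96) (nat_lit 5) (nat_lit 100) (nat_lit 5) (nat_lit 97) (nat_lit 5) (nat_lit 467) (nat_lit 421) (nat_lit 312)) (XT.lf (nat_lit 0) (nat_lit 25740608736) (nat_lit 152) (nat_lit 13631228640) (nat_lit 228) (nat_lit 4603255979) (nat_lit 94) (nat_lit 5) (nat_lit 96) (nat_lit 5) (nat_lit 97) (nat_lit 5) (nat_lit 468) (nat_lit 421) (nat_lit 311))))))) (XT.nd (nat_lit 1014) (nat_lit 1672) (nat_lit 0) (XT.nd (nat_lit 468) (nat_lit 1064) (nat_lit 0) (XT.nd (nat_lit 234) (nat_lit 532) (nat_lit 0) (XT.nd (nat_lit 78) (nat_lit 380) (nat_lit 0) (XT.lf (nat_lit 0) (nat_lit 13542624781) (nat_lit 304) (nat_lit 20983674281) (nat_lit 76) (nat_lit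 10899478001) (nat_lit 90) (nat_lit 5) (nat_lit 94) (nat_lit 5) (nat_lit 91) (nat_lit 5) (nat_lit 469) (nat_lit 421) (nat_lit 310)) (XT.nd (nat_lit 78) (nat_lit 228) (nat_lit 0) (XT.lf (nat_lit 0) (nat_lit 22932730868) (nat_lit 152) (nat_lit 10105400537) (nat_lit 228) (nat_lit 13893371099) (nat_lit 88) (nat_lit 5) (nat_lit 90) (nat_lit 5) (nat_lit 91) (nat_lit 5) (nat_lit 470) (nat_lit 421) (nat_lit 309)) (XT.lf (nat_lit 0) (nat_lit 5464771646) (nat_lit 228) (nat_lit 27327994378) (nat_lit 76) (nat_lit 15701317480) (nat_lit 85) (nat_lit 5) (nat_lit 88) (nat_lit 5) (nat_lit 86) (nat_lit 5) (nat_lit 471) (nat_lit 421) (nat_lit 308)))) (XT.nd (nat_lit 78) (nat_lit 380) (nat_lit 0) (XT.lf (nat_lit 0) (nat_lit 19072378287) (nat_lit 152) (nat_lit 6958154903) (nat_lit 228) (nat_lit 24084322956) (nat_lit 83) (nat_lit 5) (nat_lit 85) (nat_lit 5) (nat_lit 86) (nat_lit 5) (nat_lit 472) (nat_lit 421) (nat_lit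 307)) (XT.nd (nat_lit 78) (nat_lit 228) (nat_lit 0) (XT.lf (nat_lit 0) (nat_lit 16666039913) (nat_lit 152) (nat_lit 31586522485) (nat_lit 228) (nat_lit 3545266368) (nat_lit 81) (nat_lit 5) (nat_lit 83) (nat_lit 5) (nat_lit 84) (nat_lit 5) (nat_lit 473) (nat_lit 421) (nat_lit 306)) (XT.lf (nat_lit 0) (nat_lit 13859325309) (nat_lit 152) (nat_lit 4325962864) (nat_lit 228) (nat_lit 35358979891) (nat_lit 78) (nat_lit 5) (nat_lit 80) (nat_lit 5) (nat_lit 81) (nat_lit 5) (nat_lit 474) (nat_lit 421) (nat_lit 305))))) (XT.nd (nat_lit 234) (nat_lit 532) (nat_lit 0) (XT.nd (nat_lit 78) (nat_lit 380) (nat_lit 0) (XT.lf (nat_lit 0) (nat_lit 10583029156) (nat_lit 152) (nat_lit 31037483655) (nat_lit 228) (nat_lit 13735720197) (nat_lit 76) (nat_lit 5) (nat_lit 78) (nat_lit 5) (nat_lit 79) (nat_lit 5) (nat_lit 475) (nat_lit 421) (nat_lit 304)) (XT.nd (nat_lit 78) (nat_lit 152) (nat_lit 0) (XT.lf (nat_lit 0) (nat_lit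 6931280681) (nat_lit 152) (nat_lit 2375729983) (nat_lit 228) (nat_lit 47933800158) (nat_lit 73) (nat_lit 5) (nat_lit 75) (nat_lit 5) (nat_lit 76) (nat_lit 5) (nat_lit 476) (nat_lit 421) (nat_lit 303)) (XT.lf (nat_lit 0) (nat_lit 2574486800) (nat_lit 152) (nat_lit 31393305362) (nat_lit 228) (nat_lit 25225246321) (nat_lit 71) (nat_lit 5) (nat_lit 73) (nat_lit 5) (nat_lit 74) (nat_lit 5) (nat_lit 477) (nat_lit 421) (nat_lit 302)))) (XT.nd (nat_lit 156) (nat_lit 304) (nat_lit 0) (XT.nd (nat_lit 78) (nat_lit 228) (nat_lit 0) (XT.lf (nat_lit 0) (nat_lit 59113131327) (nat_lit 152) (nat_lit 1281087478) (nat_lit 228) (nat_lit 832681084) (nat_lit 71) (nat_lit 5) (nat_lit 73) (nat_lit 5) (nat_lit 74) (nat_lit 5) (nat_lit 478) (nat_lit 421) (nat_lit 301)) (XT.lf (nat_lit 0) (nat_lit 25124384738) (nat_lit 228) (nat_lit 7684569227) (nat_lit 76) (nat_lit 30521502731) (nat_lit 68) (nat_lit 5) (nat_lit 71) (nat_lit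 5) (nat_lit 69) (nat_lit 5) (nat_lit 479) (nat_lit 421) (nat_lit 300))) (XT.nd (nat_lit 78) (nat_lit 152) (nat_lit 0) (XT.lf (nat_lit 0) (nat_lit 51772311867) (nat_lit 152) (nat_lit 1114016623) (nat_lit 228) (nat_lit 12636888627) (nat_lit 66) (nat_lit 5) (nat_lit 68) (nat_lit 5) (nat_lit 69) (nat_lit 5) (nat_lit 480) (nat_lit 421) (nat_lit 299)) (XT.lf (nat_lit 0) (nat_lit 14775577196) (nat_lit 152) (nat_lit 20811603490) (nat_lit 76) (nat_lit 32209073454) (nat_lit 64) (nat_lit 5) (nat_lit 66) (nat_lit 5) (nat_lit 65) (nat_lit 5) (nat_lit 481) (nat_lit 421) (nat_lit 298)))))) (XT.nd (nat_lit 468) (nat_lit 912) (nat_lit 0) (XT.nd (nat_lit 234) (nat_lit 304) (nat_lit 0) (XT.nd (nat_lit 78) (nat_lit 304) (nat_lit 0) (XT.lf (nat_lit 0) (nat_lit 41520645940) (nat_lit 152) (nat_lit 2324298534) (nat_lit 228) (nat_lit 26317816577) (nat_lit 62) (nat_lit 5) (nat_lit 64) (nat_lit 5) (nat_lit 65) (nat_lit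 5) (nat_lit 482) (nat_lit 421) (nat_lit 297)) (XT.nd (nat_lit 78) (nat_lit 152) (nat_lit 0) (XT.lf (nat_lit 0) (nat_lit 2554512361) (nat_lit 152) (nat_lit 37528600378) (nat_lit 76) (nat_lit 32537948115) (nat_lit 60) (nat_lit 5) (nat_lit 62) (nat_lit 5) (nat_lit 61) (nat_lit 5) (nat_lit 483) (nat_lit 421) (nat_lit 296)) (XT.lf (nat_lit 0) (nat_lit 27651955033) (nat_lit 152) (nat_lit 5258525046) (nat_lit 228) (nat_lit 42266449311) (nat_lit 58) (nat_lit 5) (nat_lit 60) (nat_lit 5) (nat_lit 61) (nat_lit 5) (nat_lit 484) (nat_lit 421) (nat_lit 295)))) (XT.nd (nat_lit 78) (nat_lit 228) (nat_lit 0) (XT.lf (nat_lit 0) (nat_lit 19080083308) (nat_lit 76) (nat_lit 46571061821) (nat_lit 152) (nat_lit 12183439610) (nat_lit 57) (nat_lit 5) (nat_lit 58) (nat_lit 5) (nat_lit 59) (nat_lit 4) (nat_lit 485) (nat_lit 421) (nat_lit 294)) (XT.nd (nat_lit 78) (nat_lit 0) (nat_lit 0) (XT.lf (nat_lit 0) (nat_lit 9321555017)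 (nat_lit 152) (nat_lit 10332832280) (nat_lit 228) (nat_lit 60946261174) (nat_lit 54) (nat_lit 5) (nat_lit 56) (nat_lit 5) (nat_lit 57) (nat_lit 5) (nat_lit 486) (nat_lit 421) (nat_lit 293)) (XT.lf (nat_lit 0) (nat_lit 53704440122) (nat_lit 228) (nat_lit 1866791974) (nat_lit 76) (nat_lit 27903995559) (nat_lit 54) (nat_lit 5) (nat_lit 57) (nat_lit 5) (nat_lit 55) (nat_lit 4) (nat_lit 487) (nat_lit 421) (nat_lit 292))))) (XT.nd (nat_lit 234) (nat_lit 532) (nat_lit 0) (XT.nd (nat_lit 78) (nat_lit 228) (nat_lit 0) (XT.lf (nat_lit 0) (nat_lit 3705916786) (nat_lit 152) (nat_lit 14196321748) (nat_lit 76) (nat_lit 68566434411) (nat_lit 52) (nat_lit 5) (nat_lit 54) (nat_lit 5) (nat_lit 53) (nat_lit 5) (nat_lit 488) (nat_lit 421) (nat_lit 291)) (XT.nd (nat_lit 78) (nat_lit 76) (nat_lit 0) (XT.lf (nat_lit 0) (nat_lit 39066672197) (nat_lit 228) (nat_lit 28370273647) (nat_lit 76) (nat_lit 22141224478) (nat_lit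 50) (nat_lit 5) (nat_lit 53) (nat_lit 5) (nat_lit 51) (nat_lit 4) (nat_lit 489) (nat_lit 421) (nat_lit 290)) (XT.lf (nat_lit 0) (nat_lit 48593711656) (nat_lit 76) (nat_lit 28390493465) (nat_lit 152) (nat_lit 15835275514) (nat_lit 49) (nat_lit 5) (nat_lit 50) (nat_lit 5) (nat_lit 51) (nat_lit 4) (nat_lit 490) (nat_lit 421) (nat_lit 289)))) (XT.nd (nat_lit 156) (nat_lit 228) (nat_lit 0) (XT.nd (nat_lit 78) (nat_lit 76) (nat_lit 0) (XT.lf (nat_lit 0) (nat_lit 20920106481) (nat_lit 228) (nat_lit 62087932813) (nat_lit 76) (nat_lit 13186479020) (nat_lit 46) (nat_lit 5) (nat_lit 49) (nat_lit 5) (nat_lit 47) (nat_lit 4) (nat_lit 491) (nat_lit 421) (nat_lit 288)) (XT.lf (nat_lit 0) (nat_lit 17432207160) (nat_lit 76) (nat_lit 42664115569) (nat_lit 152) (nat_lit 39609964944) (nat_lit 45) (nat_lit 5) (nat_lit 46) (nat_lit 5) (nat_lit 47) (nat_lit 4) (nat_lit 492) (nat_lit 421) (nat_lit 287))) (XT.nd (nat_lit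 156) (nat_lit 228) (nat_lit 0) (XT.lf (nat_lit 0) (nat_lit 101867666253) (nat_lit 152) (nat_lit 1164025740) (nat_lit 0) (nat_lit 342864229) (nat_lit 45) (nat_lit 5) (nat_lit 47) (nat_lit 4) (nat_lit 45) (nat_lit 4) (nat_lit 493) (nat_lit 421) (nat_lit 286)) (XT.lf (nat_lit 0) (nat_lit 65221353134) (nat_lit 76) (nat_lit 16926028964) (nat_lit 152) (nat_lit 29003652164) (nat_lit 42) (nat_lit 5) (nat_lit 43) (nat_lit 5) (nat_lit 44) (nat_lit 4) (nat_lit 495) (nat_lit 421) (nat_lit 284))))))))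
noncomputable def xc85 : XT := (XT.nd (nat_lit 1950) (nat_lit 7220) (nat_lit 0) (XT.nd (nat_lit 936) (nat_lit 6536) (nat_lit 0) (XT.nd (nat_lit 468) (nat_lit 1900) (nat_lit 0) (XT.nd (nat_lit 234) (nat_lit 0) (nat_lit 76) (XT.nd (nat_lit 78) (nat_lit 0) (nat_lit 0) (XT.lf (nat_lit 0) (nat_lit 1637621149) (nat_lit 0) (nat_lit 1637621149) (nat_lit 1140) (nat_lit 2826259527) (nat_lit 291) (nat_lit 5) (nat_lit 291) (nat_lit 3) (nat_lit 306) (nat_lit 3) (nat_lit 422) (nat_lit 422) (nat_lit 356)) (XT.nd (nat_lit 78) (nat_lit 0) (nat_lit 76) (XT.lf (nat_lit 76) (nat_lit 1004226920) (nat_lit 0) (nat_lit 6524615773) (nat_lit 1216) (nat_lit 4954617444) (nat_lit 292) (nat_lit 5) (nat_lit 291) (nat_lit 5) (nat_lit 307) (nat_lit 5) (nat_lit 423) (nat_lit 422) (nat_lit 355)) (XT.lf (nat_lit 0) (nat_lit 8661074667) (nat_lit 1140) (nat_lit 1244196543) (nat_lit 1216) (nat_lit 2869531128) (nat_lit 292) (nat_lit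 5) (nat_lit 307) (nat_lit 5) (nat_lit 308) (nat_lit 5) (nat_lit 424) (nat_lit 422) (nat_lit 354)))) (XT.nd (nat_lit 78) (nat_lit 0) (nat_lit 76) (XT.lf (nat_lit 76) (nat_lit 9597606743) (nat_lit 0) (nat_lit 365086078) (nat_lit 1216) (nat_lit 3114646606) (nat_lit 293) (nat_lit 5) (nat_lit 292) (nat_lit 5) (nat_lit 308) (nat_lit 5) (nat_lit 425) (nat_lit 422) (nat_lit 353)) (XT.nd (nat_lit 78) (nat_lit 0) (nat_lit 76) (XT.lf (nat_lit 76) (nat_lit 7641952886) (nat_lit 0) (nat_lit 3823359915) (nat_lit 1216) (nat_lit 1925623437) (nat_lit 294) (nat_lit 5) (nat_lit 293) (nat_lit 5) (nat_lit 309) (nat_lit 5) (nat_lit 426) (nat_lit 422) (nat_lit 352)) (XT.lf (nat_lit 76) (nat_lit 5692349653) (nat_lit 0) (nat_lit 7464217020) (nat_lit 1216) (nat_lit 560251121) (nat_lit 295) (nat_lit 5) (nat_lit 294) (nat_lit 5) (nat_lit 310) (nat_lit 5) (nat_lit 427) (nat_lit 422) (nat_lit 351))))) (XT.nd (nat_lit 234) (nat_lit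 988) (nat_lit 0) (XT.nd (nat_lit 78) (nat_lit 0) (nat_lit 0) (XT.lf (nat_lit 0) (nat_lit 977983643) (nat_lit 1216) (nat_lit 10316152480) (nat_lit 1292) (nat_lit 2760965576) (nat_lit 279) (nat_lit 5) (nat_lit 295) (nat_lit 5) (nat_lit 296) (nat_lit 5) (nat_lit 428) (nat_lit 422) (nat_lit 350)) (XT.nd (nat_lit 78) (nat_lit 0) (nat_lit 76) (XT.lf (nat_lit 76) (nat_lit 1774985107) (nat_lit 0) (nat_lit 944246364) (nat_lit 1292) (nat_lit 11686780071) (nat_lit 280) (nat_lit 5) (nat_lit 279) (nat_lit 5) (nat_lit 296) (nat_lit 5) (nat_lit 429) (nat_lit 422) (nat_lit 349)) (XT.lf (nat_lit 0) (nat_lit 4713579765) (nat_lit 1216) (nat_lit 210095207) (nat_lit 1292) (nat_lit 9845819144) (nat_lit 280) (nat_lit 5) (nat_lit 296) (nat_lit 5) (nat_lit 297) (nat_lit 5) (nat_lit 430) (nat_lit 422) (nat_lit 348)))) (XT.nd (nat_lit 78) (nat_lit 1140) (nat_lit 0) (XT.lf (nat_lit 0) (nat_lit 6966804663) (nat_lit 1216)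 (nat_lit 2157465116) (nat_lit 1292) (nat_lit 6022114248) (nat_lit 281) (nat_lit 5) (nat_lit 297) (nat_lit 5) (nat_lit 298) (nat_lit 5) (nat_lit 431) (nat_lit 422) (nat_lit 347)) (XT.nd (nat_lit 78) (nat_lit 1216) (nat_lit 0) (XT.lf (nat_lit 0) (nat_lit 9480494896) (nat_lit 1216) (nat_lit 4100950553) (nat_lit 76) (nat_lit 1956246462) (nat_lit 282) (nat_lit 5) (nat_lit 298) (nat_lit 5) (nat_lit 283) (nat_lit 5) (nat_lit 432) (nat_lit 422) (nat_lit 346)) (XT.lf (nat_lit 0) (nat_lit 9880541048) (nat_lit 1216) (nat_lit 2416830237) (nat_lit 1292) (nat_lit 3645876096) (nat_lit 266) (nat_lit 5) (nat_lit 282) (nat_lit 5) (nat_lit 283) (nat_lit 5) (nat_lit 433) (nat_lit 422) (nat_lit 345)))))) (XT.nd (nat_lit 468) (nat_lit 2888) (nat_lit 0) (XT.nd (nat_lit 234) (nat_lit 1596) (nat_lit 0) (XT.nd (nat_lit 78) (nat_lit 1292) (nat_lit 0) (XT.lf (nat_lit 0) (nat_lit 8323578196) (nat_lit 760) (nat_lit 7112914816)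 (nat_lit 836) (nat_lit 927152462) (nat_lit 256) (nat_lit 5) (nat_lit 266) (nat_lit 5) (nat_lit 267) (nat_lit 5) (nat_lit 434) (nat_lit 422) (nat_lit 344)) (XT.nd (nat_lit 78) (nat_lit 608) (nat_lit 0) (XT.lf (nat_lit 0) (nat_lit 2059177210) (nat_lit 684) (nat_lit 10032622745) (nat_lit 76) (nat_lit 4707635567) (nat_lit 247) (nat_lit 5) (nat_lit 256) (nat_lit 5) (nat_lit 248) (nat_lit 5) (nat_lit 435) (nat_lit 422) (nat_lit 343)) (XT.lf (nat_lit 0) (nat_lit 5219555080) (nat_lit 608) (nat_lit 133201811) (nat_lit 684) (nat_lit 11898675607) (nat_lit 239) (nat_lit 5) (nat_lit 247) (nat_lit 5) (nat_lit 248) (nat_lit 5) (nat_lit 436) (nat_lit 422) (nat_lit 342)))) (XT.nd (nat_lit 78) (nat_lit 1064) (nat_lit 0) (XT.lf (nat_lit 0) (nat_lit 3643840841) (nat_lit 532) (nat_lit 5398408528) (nat_lit 608) (nat_lit 8676848724) (nat_lit 232) (nat_lit 5) (nat_lit 239) (nat_lit 5) (nat_lit 240) (nat_lit 5) (nat_lit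 437) (nat_lit 422) (nat_lit 341)) (XT.nd (nat_lit 78) (nat_lit 532) (nat_lit 0) (XT.lf (nat_lit 0) (nat_lit 2089624338) (nat_lit 532) (nat_lit 11015685771) (nat_lit 608) (nat_lit 5099169557) (nat_lit 225) (nat_lit 5) (nat_lit 232) (nat_lit 5) (nat_lit 233) (nat_lit 5) (nat_lit 438) (nat_lit 422) (nat_lit 340)) (XT.lf (nat_lit 0) (nat_lit 559593049) (nat_lit 532) (nat_lit 17007309791) (nat_lit 608) (nat_lit 1141371354) (nat_lit 218) (nat_lit 5) (nat_lit 225) (nat_lit 5) (nat_lit 226) (nat_lit 5) (nat_lit 439) (nat_lit 422) (nat_lit 339))))) (XT.nd (nat_lit 234) (nat_lit 1824) (nat_lit 0) (XT.nd (nat_lit 78) (nat_lit 988) (nat_lit 0) (XT.lf (nat_lit 0) (nat_lit 3209432483) (nat_lit 608) (nat_lit 997099415) (nat_lit 76) (nat_lit 15022244058) (nat_lit 217) (nat_lit 5) (nat_lit 225) (nat_lit 5) (nat_lit 218) (nat_lit 5) (nat_lit 440) (nat_lit 422) (nat_lit 338)) (XT.nd (nat_lit 78) (nat_lit 456) (nat_lit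 0) (XT.lf (nat_lit 0) (nat_lit 7987708832) (nat_lit 608) (nat_lit 2549037514) (nat_lit 76) (nat_lit 9231215931) (nat_lit 210) (nat_lit 5) (nat_lit 218) (nat_lit 5) (nat_lit 211) (nat_lit 5) (nat_lit 441) (nat_lit 422) (nat_lit 337)) (XT.lf (nat_lit 0) (nat_lit 13221192985) (nat_lit 532) (nat_lit 4076405998) (nat_lit 76) (nat_lit 3030024511) (nat_lit 204) (nat_lit 5) (nat_lit 211) (nat_lit 5) (nat_lit 205) (nat_lit 5) (nat_lit 442) (nat_lit 422) (nat_lit 336)))) (XT.nd (nat_lit 156) (nat_lit 836) (nat_lit 0) (XT.nd (nat_lit 78) (nat_lit 532) (nat_lit 0) (XT.lf (nat_lit 0) (nat_lit 15296136550) (nat_lit 456) (nat_lit 3678159911) (nat_lit 532) (nat_lit 1933237145) (nat_lit 198) (nat_lit 5) (nat_lit 204) (nat_lit 5) (nat_lit 205) (nat_lit 5) (nat_lit 443) (nat_lit 422) (nat_lit 335)) (XT.lf (nat_lit 0) (nat_lit 3694265373) (nat_lit 532) (nat_lit 7185696917) (nat_lit 76) (nat_lit 10627554282) (nat_lit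 191) (nat_lit 5) (nat_lit 198) (nat_lit 5) (nat_lit 192) (nat_lit 5) (nat_lit 444) (nat_lit 422) (nat_lit 334))) (XT.nd (nat_lit 78) (nat_lit 380) (nat_lit 0) (XT.lf (nat_lit 0) (nat_lit 9802338881) (nat_lit 532) (nat_lit 8753671005) (nat_lit 76) (nat_lit 3573742914) (nat_lit 185) (nat_lit 5) (nat_lit 192) (nat_lit 5) (nat_lit 186) (nat_lit 5) (nat_lit 445) (nat_lit 422) (nat_lit 333)) (XT.lf (nat_lit 0) (nat_lit 12442117098) (nat_lit 380) (nat_lit 4057896030) (nat_lit 456) (nat_lit 6274565315) (nat_lit 180) (nat_lit 5) (nat_lit 185) (nat_lit 5) (nat_lit 186) (nat_lit 5) (nat_lit 446) (nat_lit 422) (nat_lit 332))))))) (XT.nd (nat_lit 1014) (nat_lit 3040) (nat_lit 0) (XT.nd (nat_lit 468) (nat_lit 1900) (nat_lit 0) (XT.nd (nat_lit 234) (nat_lit 1064) (nat_lit 0) (XT.nd (nat_lit 78) (nat_lit 760) (nat_lit 0) (XT.lf (nat_lit 0) (nat_lit 372048887) (nat_lit 456) (nat_lit 11923437723) (nat_lit 76) (nat_lit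 11147357599) (nat_lit 174) (nat_lit 5) (nat_lit 180) (nat_lit 5) (nat_lit 175) (nat_lit 5) (nat_lit 447) (nat_lit 422) (nat_lit 331)) (XT.nd (nat_lit 78) (nat_lit 380) (nat_lit 0) (XT.lf (nat_lit 0) (nat_lit 7484471593) (nat_lit 456) (nat_lit 13550618874) (nat_lit 76) (nat_lit 3099674796) (nat_lit 169) (nat_lit 5) (nat_lit 175) (nat_lit 5) (nat_lit 170) (nat_lit 5) (nat_lit 448) (nat_lit 422) (nat_lit 330)) (XT.lf (nat_lit 0) (nat_lit 9647017753) (nat_lit 380) (nat_lit 5628126885) (nat_lit 456) (nat_lit 9576461803) (nat_lit 164) (nat_lit 5) (nat_lit 169) (nat_lit 5) (nat_lit 170) (nat_lit 5) (nat_lit 449) (nat_lit 422) (nat_lit 329)))) (XT.nd (nat_lit 78) (nat_lit 760) (nat_lit 0) (XT.lf (nat_lit 0) (nat_lit 8730832263) (nat_lit 304) (nat_lit 15033135630) (nat_lit 380) (nat_lit 1831066094) (nat_lit 160) (nat_lit 5) (nat_lit 164) (nat_lit 5) (nat_lit 165) (nat_lit 5) (nat_lit 450) (nat_lit 422)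 (nat_lit 328)) (XT.nd (nat_lit 78) (nat_lit 304) (nat_lit 0) (XT.lf (nat_lit 0) (nat_lit 6464673145) (nat_lit 456) (nat_lit 18559304091) (nat_lit 76) (nat_lit 1341259805) (nat_lit 154) (nat_lit 5) (nat_lit 160) (nat_lit 5) (nat_lit 155) (nat_lit 5) (nat_lit 451) (nat_lit 422) (nat_lit 327)) (XT.lf (nat_lit 0) (nat_lit 6830862826) (nat_lit 304) (nat_lit 8682915207) (nat_lit 380) (nat_lit 11648337367) (nat_lit 150) (nat_lit 5) (nat_lit 154) (nat_lit 5) (nat_lit 155) (nat_lit 5) (nat_lit 452) (nat_lit 422) (nat_lit 326))))) (XT.nd (nat_lit 234) (nat_lit 912) (nat_lit 0) (XT.nd (nat_lit 78) (nat_lit 684) (nat_lit 0) (XT.lf (nat_lit 0) (nat_lit 5893429581) (nat_lit 304) (nat_lit 19436853756) (nat_lit 380) (nat_lit 2659108338) (nat_lit 146) (nat_lit 5) (nat_lit 150) (nat_lit 5) (nat_lit 151) (nat_lit 5) (nat_lit 453) (nat_lit 422) (nat_lit 325)) (XT.nd (nat_lit 78) (nat_lit 304) (nat_lit 0) (XT.lf (nat_lit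 0) (nat_lit 4920470857) (nat_lit 304) (nat_lit 2057392876) (nat_lit 380) (nat_lit 21868297854) (nat_lit 141) (nat_lit 5) (nat_lit 145) (nat_lit 5) (nat_lit 146) (nat_lit 5) (nat_lit 454) (nat_lit 422) (nat_lit 324)) (XT.lf (nat_lit 0) (nat_lit 3878630307) (nat_lit 304) (nat_lit 13570940291) (nat_lit 380) (nat_lit 12283175215) (nat_lit 137) (nat_lit 5) (nat_lit 141) (nat_lit 5) (nat_lit 142) (nat_lit 5) (nat_lit 455) (nat_lit 422) (nat_lit 323)))) (XT.nd (nat_lit 156) (nat_lit 304) (nat_lit 0) (XT.nd (nat_lit 78) (nat_lit 380) (nat_lit 0) (XT.lf (nat_lit 0) (nat_lit 2883486820) (nat_lit 228) (nat_lit 25887656201) (nat_lit 304) (nat_lit 1882729799) (nat_lit 134) (nat_lit 5) (nat_lit 137) (nat_lit 5) (nat_lit 138) (nat_lit 5) (nat_lit 456) (nat_lit 422) (nat_lit 322)) (XT.lf (nat_lit 0) (nat_lit 1771038264) (nat_lit 304) (nat_lit 7498650615) (nat_lit 380) (nat_lit 22336513539) (nat_lit 129) (nat_lit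 5) (nat_lit 133) (nat_lit 5) (nat_lit 134) (nat_lit 5) (nat_lit 457) (nat_lit 422) (nat_lit 321))) (XT.nd (nat_lit 78) (nat_lit 76) (nat_lit 0) (XT.lf (nat_lit 0) (nat_lit 627245004) (nat_lit 228) (nat_lit 20708101376) (nat_lit 304) (nat_lit 11258407960) (nat_lit 126) (nat_lit 5) (nat_lit 129) (nat_lit 5) (nat_lit 130) (nat_lit 5) (nat_lit 458) (nat_lit 422) (nat_lit 320)) (XT.lf (nat_lit 0) (nat_lit 738433574) (nat_lit 304) (nat_lit 489111960) (nat_lit 76) (nat_lit 32391868562) (nat_lit 125) (nat_lit 5) (nat_lit 129) (nat_lit 5) (nat_lit 126) (nat_lit 5) (nat_lit 459) (nat_lit 422) (nat_lit 319)))))) (XT.nd (nat_lit 468) (nat_lit 1520) (nat_lit 0) (XT.nd (nat_lit 234) (nat_lit 684) (nat_lit 0) (XT.nd (nat_lit 78) (nat_lit 532) (nat_lit 0) (XT.lf (nat_lit 0) (nat_lit 13598306734) (nat_lit 380) (nat_lit 1799464246) (nat_lit 76) (nat_lit 19280362388) (nat_lit 121) (nat_lit 5) (nat_lit 126) (nat_lit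 5) (nat_lit 122) (nat_lit 5) (nat_lit 460) (nat_lit 422) (nat_lit 318)) (XT.nd (nat_lit 78) (nat_lit 304) (nat_lit 0) (XT.lf (nat_lit 0) (nat_lit 27471811731) (nat_lit 304) (nat_lit 3089724530) (nat_lit 76) (nat_lit 5217134656) (nat_lit 118) (nat_lit 5) (nat_lit 122) (nat_lit 5) (nat_lit 119) (nat_lit 5) (nat_lit 461) (nat_lit 422) (nat_lit 317)) (XT.lf (nat_lit 0) (nat_lit 5483643023) (nat_lit 304) (nat_lit 4510176731) (nat_lit 76) (nat_lit 26924589878) (nat_lit 114) (nat_lit 5) (nat_lit 118) (nat_lit 5) (nat_lit 115) (nat_lit 5) (nat_lit 462) (nat_lit 422) (nat_lit 316)))) (XT.nd (nat_lit 78) (nat_lit 456) (nat_lit 0) (XT.lf (nat_lit 0) (nat_lit 20238259270) (nat_lit 304) (nat_lit 6063282699) (nat_lit 76) (nat_lit 11797735589) (nat_lit 111) (nat_lit 5) (nat_lit 115) (nat_lit 5) (nat_lit 112) (nat_lit 5) (nat_lit 463) (nat_lit 422) (nat_lit 315)) (XT.nd (nat_lit 78) (nat_lit 228) (nat_lit 0)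 (XT.lf (nat_lit 0) (nat_lit 31663093074) (nat_lit 228) (nat_lit 4507868254) (nat_lit 304) (nat_lit 3155018124) (nat_lit 108) (nat_lit 5) (nat_lit 111) (nat_lit 5) (nat_lit 112) (nat_lit 5) (nat_lit 464) (nat_lit 422) (nat_lit 314)) (XT.lf (nat_lit 0) (nat_lit 12579912532) (nat_lit 228) (nat_lit 9518613620) (nat_lit 76) (nat_lit 18495946918) (nat_lit 105) (nat_lit 5) (nat_lit 108) (nat_lit 5) (nat_lit 106) (nat_lit 5) (nat_lit 465) (nat_lit 422) (nat_lit 313))))) (XT.nd (nat_lit 234) (nat_lit 836) (nat_lit 0) (XT.nd (nat_lit 78) (nat_lit 456) (nat_lit 0) (XT.lf (nat_lit 0) (nat_lit 29453965275) (nat_lit 304) (nat_lit 11437590426) (nat_lit 76) (nat_lit 1021370828) (nat_lit 102) (nat_lit 5) (nat_lit 106) (nat_lit 5) (nat_lit 103) (nat_lit 5) (nat_lit 466) (nat_lit 422) (nat_lit 312)) (XT.nd (nat_lit 78) (nat_lit 228) (nat_lit 0) (XT.lf (nat_lit 0) (nat_lit 4401405160) (nat_lit 228) (nat_lit 13611751779)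 (nat_lit 76) (nat_lit 25264951687) (nat_lit 99) (nat_lit 5) (nat_lit 102) (nat_lit 5) (nat_lit 100) (nat_lit 5) (nat_lit 467) (nat_lit 422) (nat_lit 311)) (XT.lf (nat_lit 0) (nat_lit 22297181306) (nat_lit 304) (nat_lit 15986206455) (nat_lit 76) (nat_lit 6410960478) (nat_lit 96) (nat_lit 5) (nat_lit 100) (nat_lit 5) (nat_lit 97) (nat_lit 5) (nat_lit 468) (nat_lit 422) (nat_lit 310)))) (XT.nd (nat_lit 156) (nat_lit 380) (nat_lit 0) (XT.nd (nat_lit 78) (nat_lit 304) (nat_lit 0) (XT.lf (nat_lit 0) (nat_lit 27588551359) (nat_lit 152) (nat_lit 14077306757) (nat_lit 228) (nat_lit 4498199266) (nat_lit 94) (nat_lit 5) (nat_lit 96) (nat_lit 5) (nat_lit 97) (nat_lit 5) (nat_lit 469) (nat_lit 422) (nat_lit 309)) (XT.lf (nat_lit 0) (nat_lit 14540320120) (nat_lit 304) (nat_lit 21474307438) (nat_lit 76) (nat_lit 11672795755) (nat_lit 90) (nat_lit 5) (nat_lit 94) (nat_lit 5) (nat_lit 91) (nat_lit 5) (nat_lit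 470) (nat_lit 422) (nat_lit 308))) (XT.nd (nat_lit 78) (nat_lit 228) (nat_lit 0) (XT.lf (nat_lit 0) (nat_lit 24621907230) (nat_lit 152) (nat_lit 10378645113) (nat_lit 228) (nat_lit 14268185397) (nat_lit 88) (nat_lit 5) (nat_lit 90) (nat_lit 5) (nat_lit 91) (nat_lit 5) (nat_lit 471) (nat_lit 422) (nat_lit 307)) (XT.lf (nat_lit 0) (nat_lit 6044017156) (nat_lit 228) (nat_lit 28154387594) (nat_lit 76) (nat_lit 16711180106) (nat_lit 85) (nat_lit 5) (nat_lit 88) (nat_lit 5) (nat_lit 86) (nat_lit 5) (nat_lit 472) (nat_lit 422) (nat_lit 306))))))))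
noncomputable def xc86 : XT := (XT.nd (nat_lit 58812) (nat_lit 0) (nat_lit 8892) (XT.nd (nat_lit 936) (nat_lit 1292) (nat_lit 0) (XT.nd (nat_lit 468) (nat_lit 836) (nat_lit 0) (XT.nd (nat_lit 234) (nat_lit 532) (nat_lit 0) (XT.nd (nat_lit 78) (nat_lit 380) (nat_lit 0) (XT.lf (nat_lit 0) (nat_lit 20550524526) (nat_lit 152) (nat_lit 7078012570) (nat_lit 228) (nat_lit 24983146000) (nat_lit 83) (nat_lit 5) (nat_lit 85) (nat_lit 5) (nat_lit 86) (nat_lit 5) (nat_lit 473) (nat_lit 422) (nat_lit 305)) (XT.nd (nat_lit 78) (nat_lit 228) (nat_lit 0) (XT.lf (nat_lit 0) (nat_lit 18015364729) (nat_lit 152) (nat_lit 32939233168) (nat_lit 228) (nat_lit 3424419574) (nat_lit 81) (nat_lit 5) (nat_lit 83) (nat_lit 5) (nat_lit 84) (nat_lit 5) (nat_lit 474) (nat_lit 422) (nat_lit 304)) (XT.lf (nat_lit 0) (nat_lit 15059192502) (nat_lit 152) (nat_lit 4318606923) (nat_lit 228) (nat_lit 36835165670) (nat_lit 78) (nat_lit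 5) (nat_lit 80) (nat_lit 5) (nat_lit 81) (nat_lit 5) (nat_lit 475) (nat_lit 422) (nat_lit 303)))) (XT.nd (nat_lit 78) (nat_lit 380) (nat_lit 0) (XT.lf (nat_lit 0) (nat_lit 11610735307) (nat_lit 152) (nat_lit 32367401978) (nat_lit 228) (nat_lit 14137591344) (nat_lit 76) (nat_lit 5) (nat_lit 78) (nat_lit 5) (nat_lit 79) (nat_lit 5) (nat_lit 476) (nat_lit 422) (nat_lit 302)) (XT.nd (nat_lit 78) (nat_lit 152) (nat_lit 0) (XT.lf (nat_lit 0) (nat_lit 7767525820) (nat_lit 152) (nat_lit 2275595013) (nat_lit 228) (nat_lit 50051591037) (nat_lit 73) (nat_lit 5) (nat_lit 75) (nat_lit 5) (nat_lit 76) (nat_lit 5) (nat_lit 477) (nat_lit 422) (nat_lit 301)) (XT.lf (nat_lit 0) (nat_lit 3184717725) (nat_lit 152) (nat_lit 32745963098) (nat_lit 228) (nat_lit 26214058705) (nat_lit 71) (nat_lit 5) (nat_lit 73) (nat_lit 5) (nat_lit 74) (nat_lit 5) (nat_lit 478) (nat_lit 422) (nat_lit 300))))) (XT.nd (nat_lit 234) (nat_lit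 456) (nat_lit 0) (XT.nd (nat_lit 78) (nat_lit 380) (nat_lit 0) (XT.lf (nat_lit 0) (nat_lit 62527365593) (nat_lit 152) (nat_lit 1138468012) (nat_lit 228) (nat_lit 614839013) (nat_lit 71) (nat_lit 5) (nat_lit 73) (nat_lit 5) (nat_lit 74) (nat_lit 5) (nat_lit 479) (nat_lit 422) (nat_lit 299)) (XT.nd (nat_lit 78) (nat_lit 152) (nat_lit 0) (XT.lf (nat_lit 0) (nat_lit 26629189531) (nat_lit 228) (nat_lit 7612978197) (nat_lit 76) (nat_lit 32247340228) (nat_lit 68) (nat_lit 5) (nat_lit 71) (nat_lit 5) (nat_lit 69) (nat_lit 5) (nat_lit 480) (nat_lit 422) (nat_lit 298)) (XT.lf (nat_lit 0) (nat_lit 54803680977) (nat_lit 152) (nat_lit 967968104) (nat_lit 228) (nat_lit 13020485426) (nat_lit 66) (nat_lit 5) (nat_lit 68) (nat_lit 5) (nat_lit 69) (nat_lit 5) (nat_lit 481) (nat_lit 422) (nat_lit 297)))) (XT.nd (nat_lit 78) (nat_lit 304) (nat_lit 0) (XT.lf (nat_lit 0) (nat_lit 15752259085) (nat_lit 152) (nat_lit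 21412222429) (nat_lit 76) (nat_lit 34014435906) (nat_lit 64) (nat_lit 5) (nat_lit 66) (nat_lit 5) (nat_lit 65) (nat_lit 5) (nat_lit 482) (nat_lit 422) (nat_lit 296)) (XT.nd (nat_lit 78) (nat_lit 152) (nat_lit 0) (XT.lf (nat_lit 0) (nat_lit 44024028072) (nat_lit 152) (nat_lit 2243845888) (nat_lit 228) (nat_lit 27396092928) (nat_lit 62) (nat_lit 5) (nat_lit 64) (nat_lit 5) (nat_lit 65) (nat_lit 5) (nat_lit 483) (nat_lit 422) (nat_lit 295)) (XT.lf (nat_lit 0) (nat_lit 2910017098) (nat_lit 152) (nat_lit 38980489139) (nat_lit 76) (nat_lit 34354763424) (nat_lit 60) (nat_lit 5) (nat_lit 62) (nat_lit 5) (nat_lit 61) (nat_lit 5) (nat_lit 484) (nat_lit 422) (nat_lit 294)))))) (XT.nd (nat_lit 468) (nat_lit 532) (nat_lit 0) (XT.nd (nat_lit 234) (nat_lit 304) (nat_lit 0) (XT.nd (nat_lit 78) (nat_lit 304) (nat_lit 0) (XT.lf (nat_lit 0) (nat_lit 29446924654) (nat_lit 152) (nat_lit 5329975894) (nat_lit 228) (nat_lit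 44152238072) (nat_lit 58) (nat_lit 5) (nat_lit 60) (nat_lit 5) (nat_lit 61) (nat_lit 5) (nat_lit 485) (nat_lit 422) (nat_lit 293)) (XT.nd (nat_lit 78) (nat_lit 228) (nat_lit 0) (XT.lf (nat_lit 0) (nat_lit 20439297951) (nat_lit 76) (nat_lit 48710430083) (nat_lit 152) (nat_lit 12570095319) (nat_lit 57) (nat_lit 5) (nat_lit 58) (nat_lit 5) (nat_lit 59) (nat_lit 4) (nat_lit 486) (nat_lit 422) (nat_lit 292)) (XT.lf (nat_lit 0) (nat_lit 10185454889) (nat_lit 152) (nat_lit 10663260814) (nat_lit 228) (nat_lit 63775607811) (nat_lit 54) (nat_lit 5) (nat_lit 56) (nat_lit 5) (nat_lit 57) (nat_lit 5) (nat_lit 487) (nat_lit 422) (nat_lit 291)))) (XT.nd (nat_lit 78) (nat_lit 304) (nat_lit 0) (XT.lf (nat_lit 0) (nat_lit 56592899304) (nat_lit 228) (nat_lit 1576903469) (nat_lit 76) (nat_lit 29473080473) (nat_lit 54) (nat_lit 5) (nat_lit 57) (nat_lit 5) (nat_lit 55) (nat_lit 4) (nat_lit 488) (nat_lit 422) (nat_lit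 290)) (XT.nd (nat_lit 78) (nat_lit 152) (nat_lit 0) (XT.lf (nat_lit 0) (nat_lit 4090310025) (nat_lit 152) (nat_lit 14529924437) (nat_lit 76) (nat_lit 72165891185) (nat_lit 52) (nat_lit 5) (nat_lit 54) (nat_lit 5) (nat_lit 53) (nat_lit 5) (nat_lit 489) (nat_lit 422) (nat_lit 289)) (XT.lf (nat_lit 0) (nat_lit 41214791362) (nat_lit 228) (nat_lit 29419212746) (nat_lit 76) (nat_lit 23417223523) (nat_lit 50) (nat_lit 5) (nat_lit 53) (nat_lit 5) (nat_lit 51) (nat_lit 4) (nat_lit 490) (nat_lit 422) (nat_lit 288))))) (XT.nd (nat_lit 312) (nat_lit 152) (nat_lit 0) (XT.nd (nat_lit 78) (nat_lit 304) (nat_lit 0) (XT.lf (nat_lit 0) (nat_lit 51382378041) (nat_lit 76) (nat_lit 29639998132) (nat_lit 152) (nat_lit 16432402394) (nat_lit 49) (nat_lit 5) (nat_lit 50) (nat_lit 5) (nat_lit 51) (nat_lit 4) (nat_lit 491) (nat_lit 422) (nat_lit 287)) (XT.nd (nat_lit 78) (nat_lit 76) (nat_lit 0) (XT.lf (nat_lit 0) (nat_lit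 22152858119) (nat_lit 228) (nat_lit 64835989510) (nat_lit 76) (nat_lit 14009787484) (nat_lit 46) (nat_lit 5) (nat_lit 49) (nat_lit 5) (nat_lit 47) (nat_lit 4) (nat_lit 492) (nat_lit 422) (nat_lit 286)) (XT.lf (nat_lit 0) (nat_lit 18649943049) (nat_lit 76) (nat_lit 44632376619) (nat_lit 152) (nat_lit 41403840556) (nat_lit 45) (nat_lit 5) (nat_lit 46) (nat_lit 5) (nat_lit 47) (nat_lit 4) (nat_lit 493) (nat_lit 422) (nat_lit 285)))) (XT.nd (nat_lit 56940) (nat_lit 0) (nat_lit 18848) (XT.nd (nat_lit 56862) (nat_lit 0) (nat_lit 18848) (XT.lf (nat_lit 0) (nat_lit 41127119028) (nat_lit 152) (nat_lit 23139082529) (nat_lit 76) (nat_lit 48264997679) (nat_lit 43) (nat_lit 5) (nat_lit 45) (nat_lit 5) (nat_lit 44) (nat_lit 4) (nat_lit 495) (nat_lit 422) (nat_lit 283)) (XT.lf (nat_lit 0) (nat_lit 2086982479) (nat_lit 0) (nat_lit 2086982479) (nat_lit 1140) (nat_lit 2210385238) (nat_lit 291) (nat_lit 5) (nat_lit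 291) (nat_lit 3) (nat_lit 306) (nat_lit 3) (nat_lit 423) (nat_lit 423) (nat_lit 354))) (XT.nd (nat_lit 78) (nat_lit 0) (nat_lit 76) (XT.lf (nat_lit 76) (nat_lit 1818372884) (nat_lit 0) (nat_lit 7487451731) (nat_lit 1216) (nat_lit 3759453471) (nat_lit 292) (nat_lit 5) (nat_lit 291) (nat_lit 5) (nat_lit 307) (nat_lit 5) (nat_lit 424) (nat_lit 423) (nat_lit 353)) (XT.lf (nat_lit 0) (nat_lit 10422147780) (nat_lit 1140) (nat_lit 532683403) (nat_lit 1216) (nat_lit 2418547961) (nat_lit 292) (nat_lit 5) (nat_lit 307) (nat_lit 5) (nat_lit 308) (nat_lit 5) (nat_lit 425) (nat_lit 423) (nat_lit 352))))))) (XT.nd (nat_lit 1014) (nat_lit 5472) (nat_lit 0) (XT.nd (nat_lit 468) (nat_lit 3496) (nat_lit 0) (XT.nd (nat_lit 234) (nat_lit 0) (nat_lit 76) (XT.nd (nat_lit 78) (nat_lit 1064) (nat_lit 0) (XT.lf (nat_lit 76) (nat_lit 10829031434) (nat_lit 0) (nat_lit 903800693) (nat_lit 1216) (nat_lit 1959906770) (nat_lit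 293) (nat_lit 5) (nat_lit 292) (nat_lit 5) (nat_lit 308) (nat_lit 5) (nat_lit 426) (nat_lit 423) (nat_lit 351)) (XT.nd (nat_lit 78) (nat_lit 1140) (nat_lit 0) (XT.lf (nat_lit 76) (nat_lit 8796276428) (nat_lit 0) (nat_lit 4456393390) (nat_lit 1216) (nat_lit 771097765) (nat_lit 294) (nat_lit 5) (nat_lit 293) (nat_lit 5) (nat_lit 309) (nat_lit 5) (nat_lit 427) (nat_lit 423) (nat_lit 350)) (XT.lf (nat_lit 0) (nat_lit 594797309) (nat_lit 1216) (nat_lit 7606570407) (nat_lit 1292) (nat_lit 6166042490) (nat_lit 278) (nat_lit 5) (nat_lit 294) (nat_lit 5) (nat_lit 295) (nat_lit 5) (nat_lit 428) (nat_lit 423) (nat_lit 349)))) (XT.nd (nat_lit 78) (nat_lit 0) (nat_lit 0) (XT.lf (nat_lit 0) (nat_lit 2147067150) (nat_lit 1216) (nat_lit 10004648859) (nat_lit 1292) (nat_lit 2572277468) (nat_lit 279) (nat_lit 5) (nat_lit 295) (nat_lit 5) (nat_lit 296) (nat_lit 5) (nat_lit 429) (nat_lit 423) (nat_lit 348)) (XT.nd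 (nat_lit 78) (nat_lit 0) (nat_lit 76) (XT.lf (nat_lit 76) (nat_lit 2667330896) (nat_lit 0) (nat_lit 1262429024) (nat_lit 1292) (nat_lit 11164069690) (nat_lit 280) (nat_lit 5) (nat_lit 279) (nat_lit 5) (nat_lit 296) (nat_lit 5) (nat_lit 430) (nat_lit 423) (nat_lit 347)) (XT.lf (nat_lit 76) (nat_lit 589652733) (nat_lit 0) (nat_lit 5386190450) (nat_lit 1292) (nat_lit 9501094295) (nat_lit 281) (nat_lit 5) (nat_lit 280) (nat_lit 5) (nat_lit 297) (nat_lit 5) (nat_lit 431) (nat_lit 423) (nat_lit 346))))) (XT.nd (nat_lit 234) (nat_lit 2584) (nat_lit 0) (XT.nd (nat_lit 78) (nat_lit 1140) (nat_lit 0) (XT.lf (nat_lit 0) (nat_lit 8292944015) (nat_lit 1216) (nat_lit 1457912277) (nat_lit 1292) (nat_lit 6123290285) (nat_lit 281) (nat_lit 5) (nat_lit 297) (nat_lit 5) (nat_lit 298) (nat_lit 5) (nat_lit 432) (nat_lit 423) (nat_lit 345)) (XT.nd (nat_lit 78) (nat_lit 1216) (nat_lit 0) (XT.lf (nat_lit 0) (nat_lit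 10891810790) (nat_lit 1216) (nat_lit 3491856233) (nat_lit 76) (nat_lit 1902578676) (nat_lit 282) (nat_lit 5) (nat_lit 298) (nat_lit 5) (nat_lit 283) (nat_lit 5) (nat_lit 433) (nat_lit 423) (nat_lit 344)) (XT.lf (nat_lit 0) (nat_lit 11165372736) (nat_lit 1216) (nat_lit 2647127049) (nat_lit 1292) (nat_lit 2900700192) (nat_lit 266) (nat_lit 5) (nat_lit 282) (nat_lit 5) (nat_lit 283) (nat_lit 5) (nat_lit 434) (nat_lit 423) (nat_lit 343)))) (XT.nd (nat_lit 156) (nat_lit 1140) (nat_lit 0) (XT.nd (nat_lit 78) (nat_lit 684) (nat_lit 0) (XT.lf (nat_lit 0) (nat_lit 9535345287) (nat_lit 760) (nat_lit 7537008421) (nat_lit 836) (nat_lit 83360600) (nat_lit 256) (nat_lit 5) (nat_lit 266) (nat_lit 5) (nat_lit 267) (nat_lit 5) (nat_lit 435) (nat_lit 423) (nat_lit 342)) (XT.lf (nat_lit 0) (nat_lit 3000476222) (nat_lit 684) (nat_lit 9718604597) (nat_lit 76) (nat_lit 4894998413) (nat_lit 247) (nat_lit 5) (nat_lit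 256) (nat_lit 5) (nat_lit 248) (nat_lit 5) (nat_lit 436) (nat_lit 423) (nat_lit 341))) (XT.nd (nat_lit 78) (nat_lit 532) (nat_lit 0) (XT.lf (nat_lit 0) (nat_lit 6272801696) (nat_lit 608) (nat_lit 153628005) (nat_lit 684) (nat_lit 11663223982) (nat_lit 239) (nat_lit 5) (nat_lit 247) (nat_lit 5) (nat_lit 248) (nat_lit 5) (nat_lit 437) (nat_lit 423) (nat_lit 340)) (XT.lf (nat_lit 0) (nat_lit 4619372492) (nat_lit 532) (nat_lit 5650141731) (nat_lit 608) (nat_lit 8312122877) (nat_lit 232) (nat_lit 5) (nat_lit 239) (nat_lit 5) (nat_lit 240) (nat_lit 5) (nat_lit 438) (nat_lit 423) (nat_lit 339)))))) (XT.nd (nat_lit 468) (nat_lit 2888) (nat_lit 0) (XT.nd (nat_lit 234) (nat_lit 1444) (nat_lit 0) (XT.nd (nat_lit 78) (nat_lit 608) (nat_lit 0) (XT.lf (nat_lit 0) (nat_lit 2987279113) (nat_lit 532) (nat_lit 11519327840) (nat_lit 608) (nat_lit 4585562112) (nat_lit 225) (nat_lit 5) (nat_lit 232) (nat_lit 5) (nat_lit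 233) (nat_lit 5) (nat_lit 439) (nat_lit 423) (nat_lit 338)) (XT.nd (nat_lit 78) (nat_lit 76) (nat_lit 0) (XT.lf (nat_lit 0) (nat_lit 1379458564) (nat_lit 532) (nat_lit 17784339127) (nat_lit 608) (nat_lit 458187394) (nat_lit 218) (nat_lit 5) (nat_lit 225) (nat_lit 5) (nat_lit 226) (nat_lit 5) (nat_lit 440) (nat_lit 423) (nat_lit 337)) (XT.lf (nat_lit 0) (nat_lit 4061149379) (nat_lit 608) (nat_lit 278884938) (nat_lit 76) (nat_lit 15829307780) (nat_lit 217) (nat_lit 5) (nat_lit 225) (nat_lit 5) (nat_lit 218) (nat_lit 5) (nat_lit 441) (nat_lit 423) (nat_lit 336)))) (XT.nd (nat_lit 78) (nat_lit 912) (nat_lit 0) (XT.lf (nat_lit 0) (nat_lit 9053368941) (nat_lit 608) (nat_lit 1911116951) (nat_lit 76) (nat_lit 9771757403) (nat_lit 210) (nat_lit 5) (nat_lit 218) (nat_lit 5) (nat_lit 211) (nat_lit 5) (nat_lit 442) (nat_lit 423) (nat_lit 335)) (XT.nd (nat_lit 78) (nat_lit 456) (nat_lit 0) (XT.lf (nat_lit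 0) (nat_lit 14524924253) (nat_lit 532) (nat_lit 3518397559) (nat_lit 76) (nat_lit 3281279987) (nat_lit 204) (nat_lit 5) (nat_lit 211) (nat_lit 5) (nat_lit 205) (nat_lit 5) (nat_lit 443) (nat_lit 423) (nat_lit 334)) (XT.lf (nat_lit 0) (nat_lit 16800934449) (nat_lit 456) (nat_lit 3741258291) (nat_lit 532) (nat_lit 1392025226) (nat_lit 198) (nat_lit 5) (nat_lit 204) (nat_lit 5) (nat_lit 205) (nat_lit 5) (nat_lit 444) (nat_lit 423) (nat_lit 333))))) (XT.nd (nat_lit 234) (nat_lit 1520) (nat_lit 0) (XT.nd (nat_lit 78) (nat_lit 836) (nat_lit 0) (XT.lf (nat_lit 0) (nat_lit 4482882998) (nat_lit 532) (nat_lit 6797046935) (nat_lit 76) (nat_lit 11284737267) (nat_lit 191) (nat_lit 5) (nat_lit 198) (nat_lit 5) (nat_lit 192) (nat_lit 5) (nat_lit 445) (nat_lit 423) (nat_lit 332)) (XT.nd (nat_lit 78) (nat_lit 380) (nat_lit 0) (XT.lf (nat_lit 0) (nat_lit 10875974074) (nat_lit 532) (nat_lit 8448680014) (nat_lit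 76) (nat_lit 3893977882) (nat_lit 185) (nat_lit 5) (nat_lit 192) (nat_lit 5) (nat_lit 186) (nat_lit 5) (nat_lit 446) (nat_lit 423) (nat_lit 331)) (XT.lf (nat_lit 0) (nat_lit 13785608878) (nat_lit 380) (nat_lit 4102070974) (nat_lit 456) (nat_lit 6008649508) (nat_lit 180) (nat_lit 5) (nat_lit 185) (nat_lit 5) (nat_lit 186) (nat_lit 5) (nat_lit 447) (nat_lit 423) (nat_lit 330)))) (XT.nd (nat_lit 156) (nat_lit 684) (nat_lit 0) (XT.nd (nat_lit 78) (nat_lit 380) (nat_lit 0) (XT.lf (nat_lit 0) (nat_lit 940336451) (nat_lit 456) (nat_lit 11792862265) (nat_lit 76) (nat_lit 11865206515) (nat_lit 174) (nat_lit 5) (nat_lit 180) (nat_lit 5) (nat_lit 175) (nat_lit 5) (nat_lit 448) (nat_lit 423) (nat_lit 329)) (XT.lf (nat_lit 0) (nat_lit 8390678666) (nat_lit 456) (nat_lit 13507927527) (nat_lit 76) (nat_lit 3426851510) (nat_lit 169) (nat_lit 5) (nat_lit 175) (nat_lit 5) (nat_lit 170) (nat_lit 5) (nat_lit 449)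 (nat_lit 423) (nat_lit 328))) (XT.nd (nat_lit 78) (nat_lit 304) (nat_lit 0) (XT.lf (nat_lit 0) (nat_lit 10828945904) (nat_lit 380) (nat_lit 5723331676) (nat_lit 456) (nat_lit 9526425702) (nat_lit 164) (nat_lit 5) (nat_lit 169) (nat_lit 5) (nat_lit 170) (nat_lit 5) (nat_lit 450) (nat_lit 423) (nat_lit 327)) (XT.lf (nat_lit 0) (nat_lit 9860198970) (nat_lit 304) (nat_lit 15589261074) (nat_lit 380) (nat_lit 1410328534) (nat_lit 160) (nat_lit 5) (nat_lit 164) (nat_lit 5) (nat_lit 165) (nat_lit 5) (nat_lit 451) (nat_lit 423) (nat_lit 326))))))))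
noncomputable def xc87 : XT := (XT.nd (nat_lit 1950) (nat_lit 2508) (nat_lit 0) (XT.nd (nat_lit 936) (nat_lit 2736) (nat_lit 0) (XT.nd (nat_lit 468) (nat_lit 1520) (nat_lit 0) (XT.nd (nat_lit 234) (nat_lit 912) (nat_lit 0) (XT.nd (nat_lit 78) (nat_lit 608) (nat_lit 0) (XT.lf (nat_lit 0) (nat_lit 7274746737) (nat_lit 456) (nat_lit 18791800901) (nat_lit 76) (nat_lit 1602273662) (nat_lit 154) (nat_lit 5) (nat_lit 160) (nat_lit 5) (nat_lit 155) (nat_lit 5) (nat_lit 452) (nat_lit 423) (nat_lit 325)) (XT.nd (nat_lit 78) (nat_lit 304) (nat_lit 0) (XT.lf (nat_lit 0) (nat_lit 7847938900) (nat_lit 304) (nat_lit 8911678751) (nat_lit 380) (nat_lit 11746430050) (nat_lit 150) (nat_lit 5) (nat_lit 154) (nat_lit 5) (nat_lit 155) (nat_lit 5) (nat_lit 453) (nat_lit 423) (nat_lit 324)) (XT.lf (nat_lit 0) (nat_lit 6856119498) (nat_lit 304) (nat_lit 20196742243) (nat_lit 380) (nat_lit 2322251928) (nat_lit 146) (nat_lit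 5) (nat_lit 150) (nat_lit 5) (nat_lit 151) (nat_lit 5) (nat_lit 454) (nat_lit 423) (nat_lit 323)))) (XT.nd (nat_lit 78) (nat_lit 532) (nat_lit 0) (XT.lf (nat_lit 0) (nat_lit 5824331077) (nat_lit 304) (nat_lit 1947458044) (nat_lit 380) (nat_lit 22503268864) (nat_lit 141) (nat_lit 5) (nat_lit 145) (nat_lit 5) (nat_lit 146) (nat_lit 5) (nat_lit 455) (nat_lit 423) (nat_lit 322)) (XT.nd (nat_lit 78) (nat_lit 228) (nat_lit 0) (XT.lf (nat_lit 0) (nat_lit 4722582012) (nat_lit 304) (nat_lit 14031503897) (nat_lit 380) (nat_lit 12452278268) (nat_lit 137) (nat_lit 5) (nat_lit 141) (nat_lit 5) (nat_lit 142) (nat_lit 5) (nat_lit 456) (nat_lit 423) (nat_lit 321)) (XT.lf (nat_lit 0) (nat_lit 3669659069) (nat_lit 228) (nat_lit 26959671589) (nat_lit 304) (nat_lit 1544591817) (nat_lit 134) (nat_lit 5) (nat_lit 137) (nat_lit 5) (nat_lit 138) (nat_lit 5) (nat_lit 457) (nat_lit 423) (nat_lit 320))))) (XT.nd (nat_lit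 234) (nat_lit 532) (nat_lit 0) (XT.nd (nat_lit 78) (nat_lit 608) (nat_lit 0) (XT.lf (nat_lit 0) (nat_lit 2491430716) (nat_lit 304) (nat_lit 7651472664) (nat_lit 380) (nat_lit 23031266337) (nat_lit 129) (nat_lit 5) (nat_lit 133) (nat_lit 5) (nat_lit 134) (nat_lit 5) (nat_lit 458) (nat_lit 423) (nat_lit 319)) (XT.nd (nat_lit 78) (nat_lit 380) (nat_lit 0) (XT.lf (nat_lit 0) (nat_lit 1282251368) (nat_lit 228) (nat_lit 21518109674) (nat_lit 304) (nat_lit 11411085099) (nat_lit 126) (nat_lit 5) (nat_lit 129) (nat_lit 5) (nat_lit 130) (nat_lit 5) (nat_lit 459) (nat_lit 423) (nat_lit 318)) (XT.lf (nat_lit 0) (nat_lit 89800506) (nat_lit 304) (nat_lit 1069501711) (nat_lit 380) (nat_lit 34129519334) (nat_lit 121) (nat_lit 5) (nat_lit 125) (nat_lit 5) (nat_lit 126) (nat_lit 5) (nat_lit 460) (nat_lit 423) (nat_lit 317)))) (XT.nd (nat_lit 78) (nat_lit 532) (nat_lit 0) (XT.lf (nat_lit 0) (nat_lit 14650737311)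 (nat_lit 380) (nat_lit 1295966692) (nat_lit 76) (nat_lit 20454117871) (nat_lit 121) (nat_lit 5) (nat_lit 126) (nat_lit 5) (nat_lit 122) (nat_lit 5) (nat_lit 461) (nat_lit 423) (nat_lit 316)) (XT.nd (nat_lit 78) (nat_lit 304) (nat_lit 0) (XT.lf (nat_lit 0) (nat_lit 29207797697) (nat_lit 304) (nat_lit 2658979190) (nat_lit 76) (nat_lit 5689915042) (nat_lit 118) (nat_lit 5) (nat_lit 122) (nat_lit 5) (nat_lit 119) (nat_lit 5) (nat_lit 462) (nat_lit 423) (nat_lit 315)) (XT.lf (nat_lit 0) (nat_lit 6111937272) (nat_lit 304) (nat_lit 4160144414) (nat_lit 76) (nat_lit 28481587458) (nat_lit 114) (nat_lit 5) (nat_lit 118) (nat_lit 5) (nat_lit 115) (nat_lit 5) (nat_lit 463) (nat_lit 423) (nat_lit 314)))))) (XT.nd (nat_lit 468) (nat_lit 1368) (nat_lit 0) (XT.nd (nat_lit 234) (nat_lit 684) (nat_lit 0) (XT.nd (nat_lit 78) (nat_lit 456) (nat_lit 0) (XT.lf (nat_lit 0) (nat_lit 21594876078) (nat_lit 304) (nat_lit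 5799169291) (nat_lit 76) (nat_lit 12599819134) (nat_lit 111) (nat_lit 5) (nat_lit 115) (nat_lit 5) (nat_lit 112) (nat_lit 5) (nat_lit 464) (nat_lit 423) (nat_lit 313)) (XT.nd (nat_lit 78) (nat_lit 228) (nat_lit 0) (XT.lf (nat_lit 0) (nat_lit 33797264374) (nat_lit 228) (nat_lit 4515831106) (nat_lit 304) (nat_lit 2969141252) (nat_lit 108) (nat_lit 5) (nat_lit 111) (nat_lit 5) (nat_lit 112) (nat_lit 5) (nat_lit 465) (nat_lit 423) (nat_lit 312)) (XT.lf (nat_lit 0) (nat_lit 13537067656) (nat_lit 228) (nat_lit 9445036193) (nat_lit 76) (nat_lit 19632216551) (nat_lit 105) (nat_lit 5) (nat_lit 108) (nat_lit 5) (nat_lit 106) (nat_lit 5) (nat_lit 466) (nat_lit 423) (nat_lit 311)))) (XT.nd (nat_lit 78) (nat_lit 456) (nat_lit 0) (XT.lf (nat_lit 0) (nat_lit 31246404405) (nat_lit 304) (nat_lit 11468230648) (nat_lit 76) (nat_lit 1284315538) (nat_lit 102) (nat_lit 5) (nat_lit 106) (nat_lit 5) (nat_lit 103) (nat_lit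 5) (nat_lit 467) (nat_lit 423) (nat_lit 310)) (XT.nd (nat_lit 78) (nat_lit 228) (nat_lit 0) (XT.lf (nat_lit 0) (nat_lit 4934137203) (nat_lit 228) (nat_lit 13760364227) (nat_lit 76) (nat_lit 26738104999) (nat_lit 99) (nat_lit 5) (nat_lit 102) (nat_lit 5) (nat_lit 100) (nat_lit 5) (nat_lit 468) (nat_lit 423) (nat_lit 309)) (XT.lf (nat_lit 0) (nat_lit 23716837552) (nat_lit 304) (nat_lit 16261738903) (nat_lit 76) (nat_lit 6941318829) (nat_lit 96) (nat_lit 5) (nat_lit 100) (nat_lit 5) (nat_lit 97) (nat_lit 5) (nat_lit 469) (nat_lit 423) (nat_lit 308))))) (XT.nd (nat_lit 234) (nat_lit 760) (nat_lit 0) (XT.nd (nat_lit 78) (nat_lit 456) (nat_lit 0) (XT.lf (nat_lit 0) (nat_lit 29476742815) (nat_lit 152) (nat_lit 14567581786) (nat_lit 228) (nat_lit 4419055250) (nat_lit 94) (nat_lit 5) (nat_lit 96) (nat_lit 5) (nat_lit 97) (nat_lit 5) (nat_lit 470) (nat_lit 423) (nat_lit 307)) (XT.nd (nat_lit 78) (nat_lit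 152) (nat_lit 0) (XT.lf (nat_lit 0) (nat_lit 15558097214) (nat_lit 304) (nat_lit 22041400989) (nat_lit 76) (nat_lit 12463550148) (nat_lit 90) (nat_lit 5) (nat_lit 94) (nat_lit 5) (nat_lit 91) (nat_lit 5) (nat_lit 471) (nat_lit 423) (nat_lit 306)) (XT.lf (nat_lit 0) (nat_lit 26345102199) (nat_lit 152) (nat_lit 10687123445) (nat_lit 228) (nat_lit 14691477427) (nat_lit 88) (nat_lit 5) (nat_lit 90) (nat_lit 5) (nat_lit 91) (nat_lit 5) (nat_lit 472) (nat_lit 423) (nat_lit 305)))) (XT.nd (nat_lit 156) (nat_lit 380) (nat_lit 0) (XT.nd (nat_lit 78) (nat_lit 152) (nat_lit 0) (XT.lf (nat_lit 0) (nat_lit 6623775318) (nat_lit 228) (nat_lit 29072305158) (nat_lit 76) (nat_lit 17750636391) (nat_lit 85) (nat_lit 5) (nat_lit 88) (nat_lit 5) (nat_lit 86) (nat_lit 5) (nat_lit 473) (nat_lit 423) (nat_lit 304)) (XT.lf (nat_lit 0) (nat_lit 22053812498) (nat_lit 152) (nat_lit 7225065056) (nat_lit 228) (nat_lit 25955302753)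 (nat_lit 83) (nat_lit 5) (nat_lit 85) (nat_lit 5) (nat_lit 86) (nat_lit 5) (nat_lit 474) (nat_lit 423) (nat_lit 303))) (XT.nd (nat_lit 78) (nat_lit 228) (nat_lit 0) (XT.lf (nat_lit 0) (nat_lit 19384180875) (nat_lit 152) (nat_lit 34380647940) (nat_lit 228) (nat_lit 3325245893) (nat_lit 81) (nat_lit 5) (nat_lit 83) (nat_lit 5) (nat_lit 84) (nat_lit 5) (nat_lit 475) (nat_lit 423) (nat_lit 302)) (XT.lf (nat_lit 0) (nat_lit 16271926211) (nat_lit 152) (nat_lit 4331676421) (nat_lit 228) (nat_lit 38412286117) (nat_lit 78) (nat_lit 5) (nat_lit 80) (nat_lit 5) (nat_lit 81) (nat_lit 5) (nat_lit 476) (nat_lit 423) (nat_lit 301))))))) (XT.nd (nat_lit 1014) (nat_lit 684) (nat_lit 0) (XT.nd (nat_lit 468) (nat_lit 912) (nat_lit 0) (XT.nd (nat_lit 234) (nat_lit 380) (nat_lit 0) (XT.nd (nat_lit 78) (nat_lit 380) (nat_lit 0) (XT.lf (nat_lit 0) (nat_lit 12643475875) (nat_lit 152) (nat_lit 33784451570) (nat_lit 228)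 (nat_lit 14586044731) (nat_lit 76) (nat_lit 5) (nat_lit 78) (nat_lit 5) (nat_lit 79) (nat_lit 5) (nat_lit 477) (nat_lit 423) (nat_lit 300)) (XT.nd (nat_lit 78) (nat_lit 152) (nat_lit 0) (XT.lf (nat_lit 0) (nat_lit 8600057309) (nat_lit 152) (nat_lit 2190806537) (nat_lit 228) (nat_lit 52301200859) (nat_lit 73) (nat_lit 5) (nat_lit 75) (nat_lit 5) (nat_lit 76) (nat_lit 5) (nat_lit 478) (nat_lit 423) (nat_lit 299)) (XT.lf (nat_lit 0) (nat_lit 3780694278) (nat_lit 152) (nat_lit 34186429025) (nat_lit 228) (nat_lit 27277641520) (nat_lit 71) (nat_lit 5) (nat_lit 73) (nat_lit 5) (nat_lit 74) (nat_lit 5) (nat_lit 479) (nat_lit 423) (nat_lit 298)))) (XT.nd (nat_lit 78) (nat_lit 380) (nat_lit 0) (XT.lf (nat_lit 0) (nat_lit 66069677365) (nat_lit 152) (nat_lit 1007932148) (nat_lit 228) (nat_lit 410228468) (nat_lit 71) (nat_lit 5) (nat_lit 73) (nat_lit 5) (nat_lit 74) (nat_lit 5) (nat_lit 480) (nat_lit 423)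 (nat_lit 297)) (XT.nd (nat_lit 78) (nat_lit 152) (nat_lit 0) (XT.lf (nat_lit 0) (nat_lit 28186123434) (nat_lit 228) (nat_lit 7580185392) (nat_lit 76) (nat_lit 34040897589) (nat_lit 68) (nat_lit 5) (nat_lit 71) (nat_lit 5) (nat_lit 69) (nat_lit 5) (nat_lit 481) (nat_lit 423) (nat_lit 296)) (XT.lf (nat_lit 0) (nat_lit 57945455518) (nat_lit 152) (nat_lit 833373901) (nat_lit 228) (nat_lit 13446341777) (nat_lit 66) (nat_lit 5) (nat_lit 68) (nat_lit 5) (nat_lit 69) (nat_lit 5) (nat_lit 482) (nat_lit 423) (nat_lit 295))))) (XT.nd (nat_lit 234) (nat_lit 456) (nat_lit 0) (XT.nd (nat_lit 78) (nat_lit 304) (nat_lit 0) (XT.lf (nat_lit 0) (nat_lit 16755657100) (nat_lit 152) (nat_lit 22083775741) (nat_lit 76) (nat_lit 35891945709) (nat_lit 64) (nat_lit 5) (nat_lit 66) (nat_lit 5) (nat_lit 65) (nat_lit 5) (nat_lit 483) (nat_lit 423) (nat_lit 294)) (XT.nd (nat_lit 78) (nat_lit 152) (nat_lit 0) (XT.lf (nat_lit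 0) (nat_lit 46612848373) (nat_lit 152) (nat_lit 2177654896) (nat_lit 228) (nat_lit 28550374238) (nat_lit 62) (nat_lit 5) (nat_lit 64) (nat_lit 5) (nat_lit 65) (nat_lit 5) (nat_lit 484) (nat_lit 423) (nat_lit 293)) (XT.lf (nat_lit 0) (nat_lit 3262120328) (nat_lit 152) (nat_lit 40544442159) (nat_lit 76) (nat_lit 36244762732) (nat_lit 60) (nat_lit 5) (nat_lit 62) (nat_lit 5) (nat_lit 61) (nat_lit 5) (nat_lit 485) (nat_lit 423) (nat_lit 292)))) (XT.nd (nat_lit 156) (nat_lit 228) (nat_lit 0) (XT.nd (nat_lit 78) (nat_lit 76) (nat_lit 0) (XT.lf (nat_lit 0) (nat_lit 31293304327) (nat_lit 152) (nat_lit 5422800854) (nat_lit 228) (nat_lit 46153470199) (nat_lit 58) (nat_lit 5) (nat_lit 60) (nat_lit 5) (nat_lit 61) (nat_lit 5) (nat_lit 486) (nat_lit 423) (nat_lit 291)) (XT.lf (nat_lit 0) (nat_lit 21828800697) (nat_lit 76) (nat_lit 50974355371) (nat_lit 152) (nat_lit 12996771267) (nat_lit 57) (nat_lit 5) (nat_lit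 58) (nat_lit 5) (nat_lit 59) (nat_lit 4) (nat_lit 487) (nat_lit 423) (nat_lit 290))) (XT.nd (nat_lit 78) (nat_lit 0) (nat_lit 0) (XT.lf (nat_lit 0) (nat_lit 11055564024) (nat_lit 152) (nat_lit 11027523101) (nat_lit 228) (nat_lit 66766686231) (nat_lit 54) (nat_lit 5) (nat_lit 56) (nat_lit 5) (nat_lit 57) (nat_lit 5) (nat_lit 488) (nat_lit 423) (nat_lit 289)) (XT.lf (nat_lit 0) (nat_lit 59606886379) (nat_lit 228) (nat_lit 1308149456) (nat_lit 76) (nat_lit 31104453440) (nat_lit 54) (nat_lit 5) (nat_lit 57) (nat_lit 5) (nat_lit 55) (nat_lit 4) (nat_lit 489) (nat_lit 423) (nat_lit 288)))))) (XT.nd (nat_lit 57408) (nat_lit 0) (nat_lit 17632) (XT.nd (nat_lit 234) (nat_lit 304) (nat_lit 0) (XT.nd (nat_lit 78) (nat_lit 228) (nat_lit 0) (XT.lf (nat_lit 0) (nat_lit 4475412737) (nat_lit 152) (nat_lit 14915184017) (nat_lit 76) (nat_lit 75929410282) (nat_lit 52) (nat_lit 5) (nat_lit 54) (nat_lit 5) (nat_lit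 53) (nat_lit 5) (nat_lit 490) (nat_lit 423) (nat_lit 287)) (XT.nd (nat_lit 78) (nat_lit 76) (nat_lit 0) (XT.lf (nat_lit 0) (nat_lit 43452207170) (nat_lit 228) (nat_lit 30554958341) (nat_lit 76) (nat_lit 24741316283) (nat_lit 50) (nat_lit 5) (nat_lit 53) (nat_lit 5) (nat_lit 51) (nat_lit 4) (nat_lit 491) (nat_lit 423) (nat_lit 286)) (XT.lf (nat_lit 0) (nat_lit 54277103113) (nat_lit 76) (nat_lit 30967784880) (nat_lit 152) (nat_lit 17077481111) (nat_lit 49) (nat_lit 5) (nat_lit 50) (nat_lit 5) (nat_lit 51) (nat_lit 4) (nat_lit 492) (nat_lit 423) (nat_lit 285)))) (XT.nd (nat_lit 156) (nat_lit 76) (nat_lit 0) (XT.lf (nat_lit 0) (nat_lit 23429885437) (nat_lit 228) (nat_lit 67754578151) (nat_lit 76) (nat_lit 14859015644) (nat_lit 46) (nat_lit 5) (nat_lit 49) (nat_lit 5) (nat_lit 47) (nat_lit 4) (nat_lit 493) (nat_lit 423) (nat_lit 284)) (XT.nd (nat_lit 56940) (nat_lit 0) (nat_lit 18696) (XT.lf (nat_lit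 0) (nat_lit 112649748844) (nat_lit 152) (nat_lit 631029115) (nat_lit 0) (nat_lit 679438929) (nat_lit 45) (nat_lit 5) (nat_lit 47) (nat_lit 4) (nat_lit 45) (nat_lit 4) (nat_lit 495) (nat_lit 423) (nat_lit 282)) (XT.lf (nat_lit 0) (nat_lit 2524647043) (nat_lit 0) (nat_lit 2524647043) (nat_lit 1140) (nat_lit 1634113329) (nat_lit 291) (nat_lit 5) (nat_lit 291) (nat_lit 3) (nat_lit 306) (nat_lit 3) (nat_lit 424) (nat_lit 424) (nat_lit 352))))) (XT.nd (nat_lit 234) (nat_lit 1064) (nat_lit 0) (XT.nd (nat_lit 78) (nat_lit 0) (nat_lit 76) (XT.lf (nat_lit 76) (nat_lit 2602202746) (nat_lit 0) (nat_lit 8439243971) (nat_lit 1216) (nat_lit 2638677984) (nat_lit 292) (nat_lit 5) (nat_lit 291) (nat_lit 5) (nat_lit 307) (nat_lit 5) (nat_lit 425) (nat_lit 424) (nat_lit 351)) (XT.nd (nat_lit 78) (nat_lit 0) (nat_lit 0) (XT.lf (nat_lit 76) (nat_lit 145307437) (nat_lit 0) (nat_lit 12003897240) (nat_lit 1216) (nat_lit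 1856372213) (nat_lit 293) (nat_lit 5) (nat_lit 292) (nat_lit 5) (nat_lit 308) (nat_lit 5) (nat_lit 426) (nat_lit 424) (nat_lit 350)) (XT.lf (nat_lit 76) (nat_lit 12052155889) (nat_lit 0) (nat_lit 1421063573) (nat_lit 1216) (nat_lit 869265222) (nat_lit 293) (nat_lit 5) (nat_lit 292) (nat_lit 5) (nat_lit 308) (nat_lit 5) (nat_lit 427) (nat_lit 424) (nat_lit 349)))) (XT.nd (nat_lit 156) (nat_lit 0) (nat_lit 152) (XT.nd (nat_lit 78) (nat_lit 0) (nat_lit 76) (XT.lf (nat_lit 0) (nat_lit 318526718) (nat_lit 1216) (nat_lit 4758254861) (nat_lit 1292) (nat_lit 9614778688) (nat_lit 277) (nat_lit 5) (nat_lit 293) (nat_lit 5) (nat_lit 294) (nat_lit 5) (nat_lit 428) (nat_lit 424) (nat_lit 348)) (XT.lf (nat_lit 0) (nat_lit 1687196442) (nat_lit 1216) (nat_lit 7249060930) (nat_lit 1292) (nat_lit 6117398064) (nat_lit 278) (nat_lit 5) (nat_lit 294) (nat_lit 5) (nat_lit 295) (nat_lit 5) (nat_lit 429) (nat_lit 424)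 (nat_lit 347))) (XT.nd (nat_lit 78) (nat_lit 0) (nat_lit 0) (XT.lf (nat_lit 0) (nat_lit 3270460712) (nat_lit 1216) (nat_lit 9754485615) (nat_lit 1292) (nat_lit 2404531806) (nat_lit 279) (nat_lit 5) (nat_lit 295) (nat_lit 5) (nat_lit 296) (nat_lit 5) (nat_lit 430) (nat_lit 424) (nat_lit 346)) (XT.lf (nat_lit 76) (nat_lit 3529583186) (nat_lit 0) (nat_lit 1571328563) (nat_lit 1292) (nat_lit 10718146749) (nat_lit 280) (nat_lit 5) (nat_lit 279) (nat_lit 5) (nat_lit 296) (nat_lit 5) (nat_lit 431) (nat_lit 424) (nat_lit 345))))))))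
noncomputable def xc88 : XT := (XT.nd (nat_lit 1950) (nat_lit 5548) (nat_lit 0) (XT.nd (nat_lit 936) (nat_lit 5244) (nat_lit 0) (XT.nd (nat_lit 468) (nat_lit 2812) (nat_lit 0) (XT.nd (nat_lit 234) (nat_lit 2508) (nat_lit 0) (XT.nd (nat_lit 78) (nat_lit 0) (nat_lit 76) (XT.lf (nat_lit 76) (nat_lit 1358040651) (nat_lit 0) (nat_lit 5849698704) (nat_lit 1292) (nat_lit 9014839803) (nat_lit 281) (nat_lit 5) (nat_lit 280) (nat_lit 5) (nat_lit 297) (nat_lit 5) (nat_lit 432) (nat_lit 424) (nat_lit 344)) (XT.nd (nat_lit 78) (nat_lit 0) (nat_lit 76) (XT.lf (nat_lit 0) (nat_lit 9594483840) (nat_lit 1216) (nat_lit 798448622) (nat_lit 1292) (nat_lit 6248112690) (nat_lit 281) (nat_lit 5) (nat_lit 297) (nat_lit 5) (nat_lit 298) (nat_lit 5) (nat_lit 433) (nat_lit 424) (nat_lit 343)) (XT.lf (nat_lit 0) (nat_lit 12286552032) (nat_lit 1216) (nat_lit 2927998389) (nat_lit 76) (nat_lit 1860310685) (nat_lit 282) (nat_lit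 5) (nat_lit 298) (nat_lit 5) (nat_lit 283) (nat_lit 5) (nat_lit 434) (nat_lit 424) (nat_lit 342)))) (XT.nd (nat_lit 78) (nat_lit 1444) (nat_lit 0) (XT.lf (nat_lit 0) (nat_lit 12440924489) (nat_lit 1216) (nat_lit 2878762585) (nat_lit 1292) (nat_lit 2204492836) (nat_lit 266) (nat_lit 5) (nat_lit 282) (nat_lit 5) (nat_lit 283) (nat_lit 5) (nat_lit 435) (nat_lit 424) (nat_lit 341)) (XT.nd (nat_lit 78) (nat_lit 608) (nat_lit 0) (XT.lf (nat_lit 0) (nat_lit 705816068) (nat_lit 836) (nat_lit 7262999647) (nat_lit 76) (nat_lit 10020791058) (nat_lit 255) (nat_lit 5) (nat_lit 266) (nat_lit 5) (nat_lit 256) (nat_lit 5) (nat_lit 436) (nat_lit 424) (nat_lit 340)) (XT.lf (nat_lit 0) (nat_lit 3910899263) (nat_lit 684) (nat_lit 9464716882) (nat_lit 76) (nat_lit 5096193746) (nat_lit 247) (nat_lit 5) (nat_lit 256) (nat_lit 5) (nat_lit 248) (nat_lit 5) (nat_lit 437) (nat_lit 424) (nat_lit 339))))) (XT.nd (nat_lit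 234) (nat_lit 1140) (nat_lit 0) (XT.nd (nat_lit 78) (nat_lit 1064) (nat_lit 0) (XT.lf (nat_lit 0) (nat_lit 7305052993) (nat_lit 608) (nat_lit 173795667) (nat_lit 684) (nat_lit 11493201140) (nat_lit 239) (nat_lit 5) (nat_lit 247) (nat_lit 5) (nat_lit 248) (nat_lit 5) (nat_lit 438) (nat_lit 424) (nat_lit 338)) (XT.nd (nat_lit 78) (nat_lit 532) (nat_lit 0) (XT.lf (nat_lit 0) (nat_lit 5569923529) (nat_lit 532) (nat_lit 5916152470) (nat_lit 608) (nat_lit 8003404047) (nat_lit 232) (nat_lit 5) (nat_lit 239) (nat_lit 5) (nat_lit 240) (nat_lit 5) (nat_lit 439) (nat_lit 424) (nat_lit 337)) (XT.lf (nat_lit 0) (nat_lit 3856074868) (nat_lit 532) (nat_lit 12052534849) (nat_lit 608) (nat_lit 4117728270) (nat_lit 225) (nat_lit 5) (nat_lit 232) (nat_lit 5) (nat_lit 233) (nat_lit 5) (nat_lit 440) (nat_lit 424) (nat_lit 336)))) (XT.nd (nat_lit 78) (nat_lit 532) (nat_lit 0) (XT.lf (nat_lit 0) (nat_lit 186619996)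 (nat_lit 608) (nat_lit 18418533539) (nat_lit 76) (nat_lit 1978190820) (nat_lit 217) (nat_lit 5) (nat_lit 225) (nat_lit 5) (nat_lit 218) (nat_lit 5) (nat_lit 441) (nat_lit 424) (nat_lit 335)) (XT.nd (nat_lit 78) (nat_lit 0) (nat_lit 0) (XT.lf (nat_lit 0) (nat_lit 411869502) (nat_lit 532) (nat_lit 4483276325) (nat_lit 608) (nat_lit 16263612484) (nat_lit 210) (nat_lit 5) (nat_lit 217) (nat_lit 5) (nat_lit 218) (nat_lit 5) (nat_lit 442) (nat_lit 424) (nat_lit 334)) (XT.lf (nat_lit 0) (nat_lit 10110368151) (nat_lit 608) (nat_lit 1312457435) (nat_lit 76) (nat_lit 10331983073) (nat_lit 210) (nat_lit 5) (nat_lit 218) (nat_lit 5) (nat_lit 211) (nat_lit 5) (nat_lit 443) (nat_lit 424) (nat_lit 333)))))) (XT.nd (nat_lit 468) (nat_lit 2508) (nat_lit 0) (XT.nd (nat_lit 234) (nat_lit 1292) (nat_lit 0) (XT.nd (nat_lit 78) (nat_lit 988) (nat_lit 0) (XT.lf (nat_lit 0) (nat_lit 15834092569) (nat_lit 532) (nat_lit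 3003316313) (nat_lit 76) (nat_lit 3535824031) (nat_lit 204) (nat_lit 5) (nat_lit 211) (nat_lit 5) (nat_lit 205) (nat_lit 5) (nat_lit 444) (nat_lit 424) (nat_lit 332)) (XT.nd (nat_lit 78) (nat_lit 532) (nat_lit 0) (XT.lf (nat_lit 0) (nat_lit 18312174886) (nat_lit 456) (nat_lit 3818743324) (nat_lit 532) (nat_lit 883056169) (nat_lit 198) (nat_lit 5) (nat_lit 204) (nat_lit 5) (nat_lit 205) (nat_lit 5) (nat_lit 445) (nat_lit 424) (nat_lit 331)) (XT.lf (nat_lit 0) (nat_lit 5254786202) (nat_lit 532) (nat_lit 6458500345) (nat_lit 76) (nat_lit 11963083220) (nat_lit 191) (nat_lit 5) (nat_lit 198) (nat_lit 5) (nat_lit 192) (nat_lit 5) (nat_lit 446) (nat_lit 424) (nat_lit 330)))) (XT.nd (nat_lit 78) (nat_lit 836) (nat_lit 0) (XT.lf (nat_lit 0) (nat_lit 11949041030) (nat_lit 532) (nat_lit 8197486313) (nat_lit 76) (nat_lit 4217064823) (nat_lit 185) (nat_lit 5) (nat_lit 192) (nat_lit 5) (nat_lit 186) (nat_lit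 5) (nat_lit 447) (nat_lit 424) (nat_lit 329)) (XT.nd (nat_lit 78) (nat_lit 456) (nat_lit 0) (XT.lf (nat_lit 0) (nat_lit 15129207621) (nat_lit 380) (nat_lit 4163210934) (nat_lit 456) (nat_lit 5783327723) (nat_lit 180) (nat_lit 5) (nat_lit 185) (nat_lit 5) (nat_lit 186) (nat_lit 5) (nat_lit 448) (nat_lit 424) (nat_lit 328)) (XT.lf (nat_lit 0) (nat_lit 1485933880) (nat_lit 456) (nat_lit 11723324114) (nat_lit 76) (nat_lit 12604027872) (nat_lit 174) (nat_lit 5) (nat_lit 180) (nat_lit 5) (nat_lit 175) (nat_lit 5) (nat_lit 449) (nat_lit 424) (nat_lit 327))))) (XT.nd (nat_lit 234) (nat_lit 1444) (nat_lit 0) (XT.nd (nat_lit 78) (nat_lit 684) (nat_lit 0) (XT.lf (nat_lit 0) (nat_lit 9292737309) (nat_lit 456) (nat_lit 13530061054) (nat_lit 76) (nat_lit 3754378188) (nat_lit 169) (nat_lit 5) (nat_lit 175) (nat_lit 5) (nat_lit 170) (nat_lit 5) (nat_lit 450) (nat_lit 424) (nat_lit 326)) (XT.nd (nat_lit 78) (nat_lit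 304) (nat_lit 0) (XT.lf (nat_lit 0) (nat_lit 12004930400) (nat_lit 380) (nat_lit 5840607962) (nat_lit 456) (nat_lit 9523056111) (nat_lit 164) (nat_lit 5) (nat_lit 169) (nat_lit 5) (nat_lit 170) (nat_lit 5) (nat_lit 451) (nat_lit 424) (nat_lit 325)) (XT.lf (nat_lit 0) (nat_lit 10981621703) (nat_lit 304) (nat_lit 16191371441) (nat_lit 380) (nat_lit 1016182046) (nat_lit 160) (nat_lit 5) (nat_lit 164) (nat_lit 5) (nat_lit 165) (nat_lit 5) (nat_lit 452) (nat_lit 424) (nat_lit 324)))) (XT.nd (nat_lit 156) (nat_lit 684) (nat_lit 0) (XT.nd (nat_lit 78) (nat_lit 304) (nat_lit 0) (XT.lf (nat_lit 0) (nat_lit 8080062247) (nat_lit 456) (nat_lit 19100580611) (nat_lit 76) (nat_lit 1858306499) (nat_lit 154) (nat_lit 5) (nat_lit 160) (nat_lit 5) (nat_lit 155) (nat_lit 5) (nat_lit 453) (nat_lit 424) (nat_lit 323)) (XT.lf (nat_lit 0) (nat_lit 8853064128) (nat_lit 304) (nat_lit 9170974965) (nat_lit 380) (nat_lit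 11894455240) (nat_lit 150) (nat_lit 5) (nat_lit 154) (nat_lit 5) (nat_lit 155) (nat_lit 5) (nat_lit 454) (nat_lit 424) (nat_lit 322))) (XT.nd (nat_lit 78) (nat_lit 380) (nat_lit 0) (XT.lf (nat_lit 0) (nat_lit 7804837888) (nat_lit 304) (nat_lit 21014330647) (nat_lit 380) (nat_lit 2012231347) (nat_lit 146) (nat_lit 5) (nat_lit 150) (nat_lit 5) (nat_lit 151) (nat_lit 5) (nat_lit 455) (nat_lit 424) (nat_lit 321)) (XT.lf (nat_lit 0) (nat_lit 6712224889) (nat_lit 304) (nat_lit 1851811013) (nat_lit 380) (nat_lit 23212610191) (nat_lit 141) (nat_lit 5) (nat_lit 145) (nat_lit 5) (nat_lit 146) (nat_lit 5) (nat_lit 456) (nat_lit 424) (nat_lit 320))))))) (XT.nd (nat_lit 1014) (nat_lit 2356) (nat_lit 0) (XT.nd (nat_lit 468) (nat_lit 1672) (nat_lit 0) (XT.nd (nat_lit 234) (nat_lit 608) (nat_lit 0) (XT.nd (nat_lit 78) (nat_lit 608) (nat_lit 0) (XT.lf (nat_lit 0) (nat_lit 5548298586) (nat_lit 304) (nat_lit 14535361714)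 (nat_lit 380) (nat_lit 12671213535) (nat_lit 137) (nat_lit 5) (nat_lit 141) (nat_lit 5) (nat_lit 142) (nat_lit 5) (nat_lit 457) (nat_lit 424) (nat_lit 319)) (XT.nd (nat_lit 78) (nat_lit 380) (nat_lit 0) (XT.lf (nat_lit 0) (nat_lit 4435453050) (nat_lit 228) (nat_lit 28105961363) (nat_lit 304) (nat_lit 1229735719) (nat_lit 134) (nat_lit 5) (nat_lit 137) (nat_lit 5) (nat_lit 138) (nat_lit 5) (nat_lit 458) (nat_lit 424) (nat_lit 318)) (XT.lf (nat_lit 0) (nat_lit 3189100246) (nat_lit 304) (nat_lit 7832585543) (nat_lit 380) (nat_lit 23799997111) (nat_lit 129) (nat_lit 5) (nat_lit 133) (nat_lit 5) (nat_lit 134) (nat_lit 5) (nat_lit 459) (nat_lit 424) (nat_lit 317)))) (XT.nd (nat_lit 78) (nat_lit 380) (nat_lit 0) (XT.lf (nat_lit 0) (nat_lit 1912027531) (nat_lit 228) (nat_lit 22389573642) (nat_lit 304) (nat_lit 11609536625) (nat_lit 126) (nat_lit 5) (nat_lit 129) (nat_lit 5) (nat_lit 130) (nat_lit 5) (nat_lit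 460) (nat_lit 424) (nat_lit 316)) (XT.nd (nat_lit 78) (nat_lit 0) (nat_lit 0) (XT.lf (nat_lit 0) (nat_lit 650833902) (nat_lit 304) (nat_lit 919251513) (nat_lit 380) (nat_lit 35472551998) (nat_lit 121) (nat_lit 5) (nat_lit 125) (nat_lit 5) (nat_lit 126) (nat_lit 5) (nat_lit 461) (nat_lit 424) (nat_lit 315)) (XT.lf (nat_lit 0) (nat_lit 15721156480) (nat_lit 380) (nat_lit 822469547) (nat_lit 76) (nat_lit 21667061736) (nat_lit 121) (nat_lit 5) (nat_lit 126) (nat_lit 5) (nat_lit 122) (nat_lit 5) (nat_lit 462) (nat_lit 424) (nat_lit 314))))) (XT.nd (nat_lit 234) (nat_lit 912) (nat_lit 0) (XT.nd (nat_lit 78) (nat_lit 532) (nat_lit 0) (XT.lf (nat_lit 0) (nat_lit 30996890874) (nat_lit 304) (nat_lit 2261105866) (nat_lit 76) (nat_lit 6166631795) (nat_lit 118) (nat_lit 5) (nat_lit 122) (nat_lit 5) (nat_lit 119) (nat_lit 5) (nat_lit 463) (nat_lit 424) (nat_lit 313)) (XT.nd (nat_lit 78) (nat_lit 228) (nat_lit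 0) (XT.lf (nat_lit 0) (nat_lit 6738724247) (nat_lit 304) (nat_lit 3846118842) (nat_lit 76) (nat_lit 30096839697) (nat_lit 114) (nat_lit 5) (nat_lit 118) (nat_lit 5) (nat_lit 115) (nat_lit 5) (nat_lit 464) (nat_lit 424) (nat_lit 312)) (XT.lf (nat_lit 0) (nat_lit 22987276430) (nat_lit 304) (nat_lit 5574590302) (nat_lit 76) (nat_lit 13422278813) (nat_lit 111) (nat_lit 5) (nat_lit 115) (nat_lit 5) (nat_lit 112) (nat_lit 5) (nat_lit 465) (nat_lit 424) (nat_lit 311)))) (XT.nd (nat_lit 156) (nat_lit 456) (nat_lit 0) (XT.nd (nat_lit 78) (nat_lit 228) (nat_lit 0) (XT.lf (nat_lit 0) (nat_lit 35986915933) (nat_lit 228) (nat_lit 4544406733) (nat_lit 304) (nat_lit 2805917790) (nat_lit 108) (nat_lit 5) (nat_lit 111) (nat_lit 5) (nat_lit 112) (nat_lit 5) (nat_lit 466) (nat_lit 424) (nat_lit 310)) (XT.lf (nat_lit 0) (nat_lit 14511571375) (nat_lit 228) (nat_lit 9418867949) (nat_lit 76) (nat_lit 20805638976) (nat_lit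 105) (nat_lit 5) (nat_lit 108) (nat_lit 5) (nat_lit 106) (nat_lit 5) (nat_lit 467) (nat_lit 424) (nat_lit 309))) (XT.nd (nat_lit 78) (nat_lit 228) (nat_lit 0) (XT.lf (nat_lit 0) (nat_lit 33098739016) (nat_lit 304) (nat_lit 11550722180) (nat_lit 76) (nat_lit 1540709246) (nat_lit 102) (nat_lit 5) (nat_lit 106) (nat_lit 5) (nat_lit 103) (nat_lit 5) (nat_lit 468) (nat_lit 424) (nat_lit 308)) (XT.lf (nat_lit 0) (nat_lit 5464437519) (nat_lit 228) (nat_lit 13965865303) (nat_lit 76) (nat_lit 28265400932) (nat_lit 99) (nat_lit 5) (nat_lit 102) (nat_lit 5) (nat_lit 100) (nat_lit 5) (nat_lit 469) (nat_lit 424) (nat_lit 307)))))) (XT.nd (nat_lit 468) (nat_lit 1140) (nat_lit 0) (XT.nd (nat_lit 234) (nat_lit 532) (nat_lit 0) (XT.nd (nat_lit 78) (nat_lit 456) (nat_lit 0) (XT.lf (nat_lit 0) (nat_lit 25179139458) (nat_lit 304) (nat_lit 16599743875) (nat_lit 76) (nat_lit 7478688922) (nat_lit 96) (nat_lit 5) (nat_lit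 100) (nat_lit 5) (nat_lit 97) (nat_lit 5) (nat_lit 470) (nat_lit 424) (nat_lit 306)) (XT.nd (nat_lit 78) (nat_lit 304) (nat_lit 0) (XT.lf (nat_lit 0) (nat_lit 31412043799) (nat_lit 152) (nat_lit 15102228169) (nat_lit 228) (nat_lit 4364222090) (nat_lit 94) (nat_lit 5) (nat_lit 96) (nat_lit 5) (nat_lit 97) (nat_lit 5) (nat_lit 471) (nat_lit 424) (nat_lit 305)) (XT.lf (nat_lit 0) (nat_lit 16599730953) (nat_lit 304) (nat_lit 22683950112) (nat_lit 76) (nat_lit 13274586709) (nat_lit 90) (nat_lit 5) (nat_lit 94) (nat_lit 5) (nat_lit 91) (nat_lit 5) (nat_lit 472) (nat_lit 424) (nat_lit 304)))) (XT.nd (nat_lit 78) (nat_lit 380) (nat_lit 0) (XT.lf (nat_lit 0) (nat_lit 28108706160) (nat_lit 152) (nat_lit 11030591705) (nat_lit 228) (nat_lit 15162906410) (nat_lit 88) (nat_lit 5) (nat_lit 90) (nat_lit 5) (nat_lit 91) (nat_lit 5) (nat_lit 473) (nat_lit 424) (nat_lit 303)) (XT.nd (nat_lit 78) (nat_lit 152) (nat_lit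 0) (XT.lf (nat_lit 0) (nat_lit 7206716741) (nat_lit 228) (nat_lit 30081655729) (nat_lit 76) (nat_lit 18823109054) (nat_lit 85) (nat_lit 5) (nat_lit 88) (nat_lit 5) (nat_lit 86) (nat_lit 5) (nat_lit 474) (nat_lit 424) (nat_lit 302)) (XT.lf (nat_lit 0) (nat_lit 23588033051) (nat_lit 152) (nat_lit 7398700945) (nat_lit 228) (nat_lit 27001820229) (nat_lit 83) (nat_lit 5) (nat_lit 85) (nat_lit 5) (nat_lit 86) (nat_lit 5) (nat_lit 475) (nat_lit 424) (nat_lit 301))))) (XT.nd (nat_lit 234) (nat_lit 608) (nat_lit 0) (XT.nd (nat_lit 78) (nat_lit 380) (nat_lit 0) (XT.lf (nat_lit 0) (nat_lit 20777923170) (nat_lit 152) (nat_lit 35913243252) (nat_lit 228) (nat_lit 3246252260) (nat_lit 81) (nat_lit 5) (nat_lit 83) (nat_lit 5) (nat_lit 84) (nat_lit 5) (nat_lit 476) (nat_lit 424) (nat_lit 300)) (XT.nd (nat_lit 78) (nat_lit 152) (nat_lit 0) (XT.lf (nat_lit 0) (nat_lit 17502551169) (nat_lit 152) (nat_lit 4364259473)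 (nat_lit 228) (nat_lit 40092866104) (nat_lit 78) (nat_lit 5) (nat_lit 80) (nat_lit 5) (nat_lit 81) (nat_lit 5) (nat_lit 477) (nat_lit 424) (nat_lit 299)) (XT.lf (nat_lit 0) (nat_lit 13685811849) (nat_lit 152) (nat_lit 35291070514) (nat_lit 228) (nat_lit 15080946805) (nat_lit 76) (nat_lit 5) (nat_lit 78) (nat_lit 5) (nat_lit 79) (nat_lit 5) (nat_lit 478) (nat_lit 424) (nat_lit 298)))) (XT.nd (nat_lit 156) (nat_lit 228) (nat_lit 0) (XT.nd (nat_lit 78) (nat_lit 152) (nat_lit 0) (XT.lf (nat_lit 0) (nat_lit 9432922031) (nat_lit 152) (nat_lit 2120239630) (nat_lit 228) (nat_lit 54686809899) (nat_lit 73) (nat_lit 5) (nat_lit 75) (nat_lit 5) (nat_lit 76) (nat_lit 5) (nat_lit 479) (nat_lit 424) (nat_lit 297)) (XT.lf (nat_lit 0) (nat_lit 4365865651) (nat_lit 152) (nat_lit 35717217843) (nat_lit 228) (nat_lit 28417378363) (nat_lit 71) (nat_lit 5) (nat_lit 73) (nat_lit 5) (nat_lit 74) (nat_lit 5) (nat_lit 480)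 (nat_lit 424) (nat_lit 296))) (XT.nd (nat_lit 78) (nat_lit 228) (nat_lit 0) (XT.lf (nat_lit 0) (nat_lit 69750434241) (nat_lit 152) (nat_lit 888297676) (nat_lit 228) (nat_lit 217268240) (nat_lit 71) (nat_lit 5) (nat_lit 73) (nat_lit 5) (nat_lit 74) (nat_lit 5) (nat_lit 481) (nat_lit 424) (nat_lit 295)) (XT.lf (nat_lit 0) (nat_lit 29799941558) (nat_lit 228) (nat_lit 7584190838) (nat_lit 76) (nat_lit 35907287456) (nat_lit 68) (nat_lit 5) (nat_lit 71) (nat_lit 5) (nat_lit 69) (nat_lit 5) (nat_lit 482) (nat_lit 424) (nat_lit 294))))))))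
noncomputable def xc89 : XT := (XT.nd (nat_lit 58968) (nat_lit 0) (nat_lit 5776) (XT.nd (nat_lit 57954) (nat_lit 0) (nat_lit 15960) (XT.nd (nat_lit 468) (nat_lit 912) (nat_lit 0) (XT.nd (nat_lit 234) (nat_lit 380) (nat_lit 0) (XT.nd (nat_lit 78) (nat_lit 304) (nat_lit 0) (XT.lf (nat_lit 0) (nat_lit 61206982708) (nat_lit 152) (nat_lit 709062906) (nat_lit 228) (nat_lit 13914424925) (nat_lit 66) (nat_lit 5) (nat_lit 68) (nat_lit 5) (nat_lit 69) (nat_lit 5) (nat_lit 483) (nat_lit 424) (nat_lit 293)) (XT.nd (nat_lit 78) (nat_lit 152) (nat_lit 0) (XT.lf (nat_lit 0) (nat_lit 17789163366) (nat_lit 152) (nat_lit 22826007332) (nat_lit 76) (nat_lit 37846894930) (nat_lit 64) (nat_lit 5) (nat_lit 66) (nat_lit 5) (nat_lit 65) (nat_lit 5) (nat_lit 484) (nat_lit 424) (nat_lit 292)) (XT.lf (nat_lit 0) (nat_lit 49295072558) (nat_lit 152) (nat_lit 2124738742) (nat_lit 228) (nat_lit 29782406931) (nat_lit 62) (nat_lit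 5) (nat_lit 64) (nat_lit 5) (nat_lit 65) (nat_lit 5) (nat_lit 485) (nat_lit 424) (nat_lit 291)))) (XT.nd (nat_lit 78) (nat_lit 228) (nat_lit 0) (XT.lf (nat_lit 0) (nat_lit 3612620789) (nat_lit 152) (nat_lit 42222393123) (nat_lit 76) (nat_lit 38213246797) (nat_lit 60) (nat_lit 5) (nat_lit 62) (nat_lit 5) (nat_lit 61) (nat_lit 5) (nat_lit 486) (nat_lit 424) (nat_lit 290)) (XT.nd (nat_lit 78) (nat_lit 76) (nat_lit 0) (XT.lf (nat_lit 0) (nat_lit 33197228900) (nat_lit 152) (nat_lit 5536413608) (nat_lit 228) (nat_lit 48273951167) (nat_lit 58) (nat_lit 5) (nat_lit 60) (nat_lit 5) (nat_lit 61) (nat_lit 5) (nat_lit 487) (nat_lit 424) (nat_lit 289)) (XT.lf (nat_lit 0) (nat_lit 23253608394) (nat_lit 76) (nat_lit 53367430312) (nat_lit 152) (nat_lit 13463545144) (nat_lit 57) (nat_lit 5) (nat_lit 58) (nat_lit 5) (nat_lit 59) (nat_lit 4) (nat_lit 488) (nat_lit 424) (nat_lit 288))))) (XT.nd (nat_lit 234) (nat_lit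 532) (nat_lit 0) (XT.nd (nat_lit 78) (nat_lit 152) (nat_lit 0) (XT.lf (nat_lit 0) (nat_lit 11935631469) (nat_lit 152) (nat_lit 11425701294) (nat_lit 228) (nat_lit 69925699028) (nat_lit 54) (nat_lit 5) (nat_lit 56) (nat_lit 5) (nat_lit 57) (nat_lit 5) (nat_lit 489) (nat_lit 424) (nat_lit 287)) (XT.nd (nat_lit 78) (nat_lit 152) (nat_lit 0) (XT.lf (nat_lit 0) (nat_lit 62754434425) (nat_lit 228) (nat_lit 1058274219) (nat_lit 76) (nat_lit 32802731844) (nat_lit 54) (nat_lit 5) (nat_lit 57) (nat_lit 5) (nat_lit 55) (nat_lit 4) (nat_lit 490) (nat_lit 424) (nat_lit 286)) (XT.lf (nat_lit 0) (nat_lit 4862981298) (nat_lit 152) (nat_lit 15351431523) (nat_lit 76) (nat_lit 79866674029) (nat_lit 52) (nat_lit 5) (nat_lit 54) (nat_lit 5) (nat_lit 53) (nat_lit 5) (nat_lit 491) (nat_lit 424) (nat_lit 285)))) (XT.nd (nat_lit 78) (nat_lit 380) (nat_lit 0) (XT.lf (nat_lit 0) (nat_lit 45785068086) (nat_lit 228) (nat_lit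 31778656333) (nat_lit 76) (nat_lit 26117367661) (nat_lit 50) (nat_lit 5) (nat_lit 53) (nat_lit 5) (nat_lit 51) (nat_lit 4) (nat_lit 492) (nat_lit 424) (nat_lit 284)) (XT.nd (nat_lit 156) (nat_lit 304) (nat_lit 0) (XT.lf (nat_lit 0) (nat_lit 57286292663) (nat_lit 76) (nat_lit 32376298243) (nat_lit 152) (nat_lit 17771226911) (nat_lit 49) (nat_lit 5) (nat_lit 50) (nat_lit 5) (nat_lit 51) (nat_lit 4) (nat_lit 493) (nat_lit 424) (nat_lit 283)) (XT.lf (nat_lit 0) (nat_lit 21175963906) (nat_lit 76) (nat_lit 48914404568) (nat_lit 152) (nat_lit 45316463466) (nat_lit 45) (nat_lit 5) (nat_lit 46) (nat_lit 5) (nat_lit 47) (nat_lit 4) (nat_lit 495) (nat_lit 424) (nat_lit 281)))))) (XT.nd (nat_lit 468) (nat_lit 1596) (nat_lit 0) (XT.nd (nat_lit 234) (nat_lit 1140) (nat_lit 0) (XT.nd (nat_lit 78) (nat_lit 0) (nat_lit 0) (XT.lf (nat_lit 0) (nat_lit 2953206324) (nat_lit 0) (nat_lit 2953206324) (nat_lit 1140) (nat_lit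 1092879158) (nat_lit 291) (nat_lit 5) (nat_lit 291) (nat_lit 3) (nat_lit 306) (nat_lit 3) (nat_lit 425) (nat_lit 425) (nat_lit 350)) (XT.nd (nat_lit 78) (nat_lit 0) (nat_lit 76) (XT.lf (nat_lit 76) (nat_lit 3360803784) (nat_lit 0) (nat_lit 9384942818) (nat_lit 1216) (nat_lit 1583538723) (nat_lit 292) (nat_lit 5) (nat_lit 291) (nat_lit 5) (nat_lit 307) (nat_lit 5) (nat_lit 426) (nat_lit 425) (nat_lit 349)) (XT.lf (nat_lit 76) (nat_lit 801785079) (nat_lit 0) (nat_lit 13053685288) (nat_lit 1216) (nat_lit 817155694) (nat_lit 293) (nat_lit 5) (nat_lit 292) (nat_lit 5) (nat_lit 308) (nat_lit 5) (nat_lit 427) (nat_lit 425) (nat_lit 348)))) (XT.nd (nat_lit 78) (nat_lit 0) (nat_lit 76) (XT.lf (nat_lit 0) (nat_lit 162172656) (nat_lit 1216) (nat_lit 1756490455) (nat_lit 1292) (nat_lit 13109250801) (nat_lit 276) (nat_lit 5) (nat_lit 292) (nat_lit 5) (nat_lit 293) (nat_lit 5) (nat_lit 428) (nat_lit 425) (nat_lit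 347)) (XT.nd (nat_lit 78) (nat_lit 0) (nat_lit 76) (XT.lf (nat_lit 0) (nat_lit 1343414626) (nat_lit 1216) (nat_lit 4340541322) (nat_lit 1292) (nat_lit 9711679674) (nat_lit 277) (nat_lit 5) (nat_lit 293) (nat_lit 5) (nat_lit 294) (nat_lit 5) (nat_lit 429) (nat_lit 425) (nat_lit 346)) (XT.lf (nat_lit 0) (nat_lit 2735419547) (nat_lit 1216) (nat_lit 6942273162) (nat_lit 1292) (nat_lit 6099506923) (nat_lit 278) (nat_lit 5) (nat_lit 294) (nat_lit 5) (nat_lit 295) (nat_lit 5) (nat_lit 430) (nat_lit 425) (nat_lit 345))))) (XT.nd (nat_lit 234) (nat_lit 1824) (nat_lit 0) (XT.nd (nat_lit 78) (nat_lit 0) (nat_lit 0) (XT.lf (nat_lit 0) (nat_lit 4355562164) (nat_lit 1216) (nat_lit 9561578887) (nat_lit 1292) (nat_lit 2255951563) (nat_lit 279) (nat_lit 5) (nat_lit 295) (nat_lit 5) (nat_lit 296) (nat_lit 5) (nat_lit 431) (nat_lit 425) (nat_lit 344)) (XT.nd (nat_lit 78) (nat_lit 0) (nat_lit 76) (XT.lf (nat_lit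 76) (nat_lit 4367183203) (nat_lit 0) (nat_lit 1872822962) (nat_lit 1292) (nat_lit 10343281819) (nat_lit 280) (nat_lit 5) (nat_lit 279) (nat_lit 5) (nat_lit 296) (nat_lit 5) (nat_lit 432) (nat_lit 425) (nat_lit 343)) (XT.lf (nat_lit 76) (nat_lit 2096151556) (nat_lit 0) (nat_lit 6318327613) (nat_lit 1292) (nat_lit 8593646004) (nat_lit 281) (nat_lit 5) (nat_lit 280) (nat_lit 5) (nat_lit 297) (nat_lit 5) (nat_lit 433) (nat_lit 425) (nat_lit 342)))) (XT.nd (nat_lit 156) (nat_lit 1976) (nat_lit 0) (XT.nd (nat_lit 78) (nat_lit 0) (nat_lit 76) (XT.lf (nat_lit 0) (nat_lit 10878645787) (nat_lit 1216) (nat_lit 174099606) (nat_lit 1292) (nat_lit 6396035686) (nat_lit 281) (nat_lit 5) (nat_lit 297) (nat_lit 5) (nat_lit 298) (nat_lit 5) (nat_lit 434) (nat_lit 425) (nat_lit 341)) (XT.lf (nat_lit 0) (nat_lit 13671991382) (nat_lit 1216) (nat_lit 2404601795) (nat_lit 76) (nat_lit 1828703158) (nat_lit 282) (nat_lit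 5) (nat_lit 298) (nat_lit 5) (nat_lit 283) (nat_lit 5) (nat_lit 435) (nat_lit 425) (nat_lit 340))) (XT.nd (nat_lit 78) (nat_lit 836) (nat_lit 0) (XT.lf (nat_lit 0) (nat_lit 13713567644) (nat_lit 1216) (nat_lit 3112749861) (nat_lit 1292) (nat_lit 1551685853) (nat_lit 266) (nat_lit 5) (nat_lit 282) (nat_lit 5) (nat_lit 283) (nat_lit 5) (nat_lit 436) (nat_lit 425) (nat_lit 339)) (XT.lf (nat_lit 0) (nat_lit 1459144695) (nat_lit 836) (nat_lit 6957173259) (nat_lit 76) (nat_lit 10451074379) (nat_lit 255) (nat_lit 5) (nat_lit 266) (nat_lit 5) (nat_lit 256) (nat_lit 5) (nat_lit 437) (nat_lit 425) (nat_lit 338))))))) (XT.nd (nat_lit 1014) (nat_lit 4028) (nat_lit 0) (XT.nd (nat_lit 468) (nat_lit 2736) (nat_lit 0) (XT.nd (nat_lit 234) (nat_lit 1672) (nat_lit 0) (XT.nd (nat_lit 78) (nat_lit 1140) (nat_lit 0) (XT.lf (nat_lit 0) (nat_lit 4796148744) (nat_lit 684) (nat_lit 9266916041) (nat_lit 76) (nat_lit 5311498138)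 (nat_lit 247) (nat_lit 5) (nat_lit 256) (nat_lit 5) (nat_lit 248) (nat_lit 5) (nat_lit 438) (nat_lit 425) (nat_lit 337)) (XT.nd (nat_lit 78) (nat_lit 532) (nat_lit 0) (XT.lf (nat_lit 0) (nat_lit 8322107196) (nat_lit 608) (nat_lit 193810857) (nat_lit 684) (nat_lit 11384701069) (nat_lit 239) (nat_lit 5) (nat_lit 247) (nat_lit 5) (nat_lit 248) (nat_lit 5) (nat_lit 439) (nat_lit 425) (nat_lit 336)) (XT.lf (nat_lit 0) (nat_lit 6501102165) (nat_lit 532) (nat_lit 6196997421) (nat_lit 608) (nat_lit 7746590147) (nat_lit 232) (nat_lit 5) (nat_lit 239) (nat_lit 5) (nat_lit 240) (nat_lit 5) (nat_lit 440) (nat_lit 425) (nat_lit 335)))) (XT.nd (nat_lit 78) (nat_lit 1140) (nat_lit 0) (XT.lf (nat_lit 0) (nat_lit 4701424461) (nat_lit 532) (nat_lit 12616377571) (nat_lit 608) (nat_lit 3691313597) (nat_lit 225) (nat_lit 5) (nat_lit 232) (nat_lit 5) (nat_lit 233) (nat_lit 5) (nat_lit 441) (nat_lit 425) (nat_lit 334))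 (XT.nd (nat_lit 78) (nat_lit 532) (nat_lit 0) (XT.lf (nat_lit 0) (nat_lit 793074650) (nat_lit 608) (nat_lit 18675972949) (nat_lit 76) (nat_lit 2125433386) (nat_lit 217) (nat_lit 5) (nat_lit 225) (nat_lit 5) (nat_lit 218) (nat_lit 5) (nat_lit 442) (nat_lit 425) (nat_lit 333)) (XT.lf (nat_lit 0) (nat_lit 1076931515) (nat_lit 532) (nat_lit 4637855824) (nat_lit 608) (nat_lit 16484551049) (nat_lit 210) (nat_lit 5) (nat_lit 217) (nat_lit 5) (nat_lit 218) (nat_lit 5) (nat_lit 443) (nat_lit 425) (nat_lit 332))))) (XT.nd (nat_lit 234) (nat_lit 1824) (nat_lit 0) (XT.nd (nat_lit 78) (nat_lit 912) (nat_lit 0) (XT.lf (nat_lit 0) (nat_lit 11164032376) (nat_lit 608) (nat_lit 748406507) (nat_lit 76) (nat_lit 10913559823) (nat_lit 210) (nat_lit 5) (nat_lit 218) (nat_lit 5) (nat_lit 211) (nat_lit 5) (nat_lit 444) (nat_lit 425) (nat_lit 331)) (XT.nd (nat_lit 78) (nat_lit 456) (nat_lit 0) (XT.lf (nat_lit 0) (nat_lit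 17154524729) (nat_lit 532) (nat_lit 2526723740) (nat_lit 76) (nat_lit 3794683301) (nat_lit 204) (nat_lit 5) (nat_lit 211) (nat_lit 5) (nat_lit 205) (nat_lit 5) (nat_lit 445) (nat_lit 425) (nat_lit 330)) (XT.lf (nat_lit 0) (nat_lit 19836576116) (nat_lit 456) (nat_lit 3910290120) (nat_lit 532) (nat_lit 402428643) (nat_lit 198) (nat_lit 5) (nat_lit 204) (nat_lit 5) (nat_lit 205) (nat_lit 5) (nat_lit 446) (nat_lit 425) (nat_lit 329)))) (XT.nd (nat_lit 156) (nat_lit 836) (nat_lit 0) (XT.nd (nat_lit 78) (nat_lit 456) (nat_lit 0) (XT.lf (nat_lit 0) (nat_lit 6014359120) (nat_lit 532) (nat_lit 6166097529) (nat_lit 76) (nat_lit 12664737688) (nat_lit 191) (nat_lit 5) (nat_lit 198) (nat_lit 5) (nat_lit 192) (nat_lit 5) (nat_lit 447) (nat_lit 425) (nat_lit 328)) (XT.lf (nat_lit 0) (nat_lit 13026554989) (nat_lit 532) (nat_lit 7996360445) (nat_lit 76) (nat_lit 4544369808) (nat_lit 185) (nat_lit 5) (nat_lit 192)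 (nat_lit 5) (nat_lit 186) (nat_lit 5) (nat_lit 448) (nat_lit 425) (nat_lit 327))) (XT.nd (nat_lit 78) (nat_lit 456) (nat_lit 0) (XT.lf (nat_lit 0) (nat_lit 16479153988) (nat_lit 380) (nat_lit 4240792262) (nat_lit 456) (nat_lit 5595619497) (nat_lit 180) (nat_lit 5) (nat_lit 185) (nat_lit 5) (nat_lit 186) (nat_lit 5) (nat_lit 449) (nat_lit 425) (nat_lit 326)) (XT.lf (nat_lit 0) (nat_lit 2012457882) (nat_lit 456) (nat_lit 11711593480) (nat_lit 76) (nat_lit 13366257411) (nat_lit 174) (nat_lit 5) (nat_lit 180) (nat_lit 5) (nat_lit 175) (nat_lit 5) (nat_lit 450) (nat_lit 425) (nat_lit 325)))))) (XT.nd (nat_lit 468) (nat_lit 1900) (nat_lit 0) (XT.nd (nat_lit 234) (nat_lit 1064) (nat_lit 0) (XT.nd (nat_lit 78) (nat_lit 684) (nat_lit 0) (XT.lf (nat_lit 0) (nat_lit 10195038311) (nat_lit 456) (nat_lit 13614035446) (nat_lit 76) (nat_lit 4083760683) (nat_lit 169) (nat_lit 5) (nat_lit 175) (nat_lit 5) (nat_lit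 170) (nat_lit 5) (nat_lit 451) (nat_lit 425) (nat_lit 324)) (XT.nd (nat_lit 78) (nat_lit 304) (nat_lit 0) (XT.lf (nat_lit 0) (nat_lit 13180720866) (nat_lit 380) (nat_lit 5979449882) (nat_lit 456) (nat_lit 9564115152) (nat_lit 164) (nat_lit 5) (nat_lit 169) (nat_lit 5) (nat_lit 170) (nat_lit 5) (nat_lit 452) (nat_lit 425) (nat_lit 323)) (XT.lf (nat_lit 0) (nat_lit 12100691708) (nat_lit 304) (nat_lit 16840075898) (nat_lit 380) (nat_lit 645528186) (nat_lit 160) (nat_lit 5) (nat_lit 164) (nat_lit 5) (nat_lit 165) (nat_lit 5) (nat_lit 453) (nat_lit 425) (nat_lit 322)))) (XT.nd (nat_lit 78) (nat_lit 608) (nat_lit 0) (XT.lf (nat_lit 0) (nat_lit 8884589779) (nat_lit 456) (nat_lit 19483446072) (nat_lit 76) (nat_lit 2110785682) (nat_lit 154) (nat_lit 5) (nat_lit 160) (nat_lit 5) (nat_lit 155) (nat_lit 5) (nat_lit 454) (nat_lit 425) (nat_lit 321)) (XT.nd (nat_lit 78) (nat_lit 304) (nat_lit 0) (XT.lf (nat_lit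 0) (nat_lit 9851479950) (nat_lit 304) (nat_lit 9460555256) (nat_lit 380) (nat_lit 12090723296) (nat_lit 150) (nat_lit 5) (nat_lit 154) (nat_lit 5) (nat_lit 155) (nat_lit 5) (nat_lit 455) (nat_lit 425) (nat_lit 320)) (XT.lf (nat_lit 0) (nat_lit 8744660204) (nat_lit 304) (nat_lit 21890671933) (nat_lit 380) (nat_lit 1726327561) (nat_lit 146) (nat_lit 5) (nat_lit 150) (nat_lit 5) (nat_lit 151) (nat_lit 5) (nat_lit 456) (nat_lit 425) (nat_lit 319))))) (XT.nd (nat_lit 234) (nat_lit 988) (nat_lit 0) (XT.nd (nat_lit 78) (nat_lit 532) (nat_lit 0) (XT.lf (nat_lit 0) (nat_lit 7589039996) (nat_lit 304) (nat_lit 1769326795) (nat_lit 380) (nat_lit 23996077784) (nat_lit 141) (nat_lit 5) (nat_lit 145) (nat_lit 5) (nat_lit 146) (nat_lit 5) (nat_lit 457) (nat_lit 425) (nat_lit 318)) (XT.nd (nat_lit 78) (nat_lit 228) (nat_lit 0) (XT.lf (nat_lit 0) (nat_lit 6360486733) (nat_lit 304) (nat_lit 15082794310) (nat_lit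 380) (nat_lit 12938625779) (nat_lit 137) (nat_lit 5) (nat_lit 141) (nat_lit 5) (nat_lit 142) (nat_lit 5) (nat_lit 458) (nat_lit 425) (nat_lit 317)) (XT.lf (nat_lit 0) (nat_lit 5185398970) (nat_lit 228) (nat_lit 29328317203) (nat_lit 304) (nat_lit 935589227) (nat_lit 134) (nat_lit 5) (nat_lit 137) (nat_lit 5) (nat_lit 138) (nat_lit 5) (nat_lit 459) (nat_lit 425) (nat_lit 316)))) (XT.nd (nat_lit 156) (nat_lit 380) (nat_lit 0) (XT.nd (nat_lit 78) (nat_lit 228) (nat_lit 0) (XT.lf (nat_lit 0) (nat_lit 3868372033) (nat_lit 304) (nat_lit 8041483977) (nat_lit 380) (nat_lit 24642756564) (nat_lit 129) (nat_lit 5) (nat_lit 133) (nat_lit 5) (nat_lit 134) (nat_lit 5) (nat_lit 460) (nat_lit 425) (nat_lit 315)) (XT.lf (nat_lit 0) (nat_lit 2520702463) (nat_lit 228) (nat_lit 23323617843) (nat_lit 304) (nat_lit 11852505313) (nat_lit 126) (nat_lit 5) (nat_lit 129) (nat_lit 5) (nat_lit 130) (nat_lit 5) (nat_lit 461)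 (nat_lit 425) (nat_lit 314))) (XT.nd (nat_lit 78) (nat_lit 0) (nat_lit 0) (XT.lf (nat_lit 0) (nat_lit 1188176841) (nat_lit 304) (nat_lit 780429251) (nat_lit 380) (nat_lit 36916525809) (nat_lit 121) (nat_lit 5) (nat_lit 125) (nat_lit 5) (nat_lit 126) (nat_lit 5) (nat_lit 462) (nat_lit 425) (nat_lit 313)) (XT.lf (nat_lit 0) (nat_lit 16813683515) (nat_lit 380) (nat_lit 375343156) (nat_lit 76) (nat_lit 22922966270) (nat_lit 121) (nat_lit 5) (nat_lit 126) (nat_lit 5) (nat_lit 122) (nat_lit 5) (nat_lit 463) (nat_lit 425) (nat_lit 312))))))))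
noncomputable def xc90 : XT := (XT.nd (nat_lit 1950) (nat_lit 912) (nat_lit 0) (XT.nd (nat_lit 936) (nat_lit 2052) (nat_lit 0) (XT.nd (nat_lit 468) (nat_lit 1292) (nat_lit 0) (XT.nd (nat_lit 234) (nat_lit 684) (nat_lit 0) (XT.nd (nat_lit 78) (nat_lit 532) (nat_lit 0) (XT.lf (nat_lit 0) (nat_lit 32844878993) (nat_lit 304) (nat_lit 1892689702) (nat_lit 76) (nat_lit 6649313499) (nat_lit 118) (nat_lit 5) (nat_lit 122) (nat_lit 5) (nat_lit 119) (nat_lit 5) (nat_lit 464) (nat_lit 425) (nat_lit 311)) (XT.nd (nat_lit 78) (nat_lit 228) (nat_lit 0) (XT.lf (nat_lit 0) (nat_lit 7366989359) (nat_lit 304) (nat_lit 3564925653) (nat_lit 76) (nat_lit 31775081107) (nat_lit 114) (nat_lit 5) (nat_lit 118) (nat_lit 5) (nat_lit 115) (nat_lit 5) (nat_lit 465) (nat_lit 425) (nat_lit 310)) (XT.lf (nat_lit 0) (nat_lit 24420228958) (nat_lit 304) (nat_lit 5386619179) (nat_lit 76) (nat_lit 14267967559) (nat_lit 111) (nat_lit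 5) (nat_lit 115) (nat_lit 5) (nat_lit 112) (nat_lit 5) (nat_lit 466) (nat_lit 425) (nat_lit 309)))) (XT.nd (nat_lit 78) (nat_lit 456) (nat_lit 0) (XT.lf (nat_lit 0) (nat_lit 38239584488) (nat_lit 228) (nat_lit 4592746409) (nat_lit 304) (nat_lit 2663510255) (nat_lit 108) (nat_lit 5) (nat_lit 111) (nat_lit 5) (nat_lit 112) (nat_lit 5) (nat_lit 467) (nat_lit 425) (nat_lit 308)) (XT.nd (nat_lit 78) (nat_lit 228) (nat_lit 0) (XT.lf (nat_lit 0) (nat_lit 15507127574) (nat_lit 228) (nat_lit 9437729666) (nat_lit 76) (nat_lit 22019899699) (nat_lit 105) (nat_lit 5) (nat_lit 108) (nat_lit 5) (nat_lit 106) (nat_lit 5) (nat_lit 468) (nat_lit 425) (nat_lit 307)) (XT.lf (nat_lit 0) (nat_lit 35016727568) (nat_lit 304) (nat_lit 11682979378) (nat_lit 76) (nat_lit 1792055758) (nat_lit 102) (nat_lit 5) (nat_lit 106) (nat_lit 5) (nat_lit 103) (nat_lit 5) (nat_lit 469) (nat_lit 425) (nat_lit 306))))) (XT.nd (nat_lit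 234) (nat_lit 684) (nat_lit 0) (XT.nd (nat_lit 78) (nat_lit 380) (nat_lit 0) (XT.lf (nat_lit 0) (nat_lit 5994887019) (nat_lit 228) (nat_lit 14226501303) (nat_lit 76) (nat_lit 29851360940) (nat_lit 99) (nat_lit 5) (nat_lit 102) (nat_lit 5) (nat_lit 100) (nat_lit 5) (nat_lit 470) (nat_lit 425) (nat_lit 305)) (XT.nd (nat_lit 78) (nat_lit 152) (nat_lit 0) (XT.lf (nat_lit 0) (nat_lit 26688853826) (nat_lit 304) (nat_lit 16998817714) (nat_lit 76) (nat_lit 8025234843) (nat_lit 96) (nat_lit 5) (nat_lit 100) (nat_lit 5) (nat_lit 97) (nat_lit 5) (nat_lit 471) (nat_lit 425) (nat_lit 304)) (XT.lf (nat_lit 0) (nat_lit 33401207299) (nat_lit 152) (nat_lit 15681618302) (nat_lit 228) (nat_lit 4332287234) (nat_lit 94) (nat_lit 5) (nat_lit 96) (nat_lit 5) (nat_lit 97) (nat_lit 5) (nat_lit 472) (nat_lit 425) (nat_lit 303)))) (XT.nd (nat_lit 78) (nat_lit 380) (nat_lit 0) (XT.lf (nat_lit 0) (nat_lit 17668927367) (nat_lit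 304) (nat_lit 23401348592) (nat_lit 76) (nat_lit 14108709743) (nat_lit 90) (nat_lit 5) (nat_lit 94) (nat_lit 5) (nat_lit 91) (nat_lit 5) (nat_lit 473) (nat_lit 425) (nat_lit 302)) (XT.nd (nat_lit 78) (nat_lit 228) (nat_lit 0) (XT.lf (nat_lit 0) (nat_lit 29918993033) (nat_lit 152) (nat_lit 11408980326) (nat_lit 228) (nat_lit 15682371559) (nat_lit 88) (nat_lit 5) (nat_lit 90) (nat_lit 5) (nat_lit 91) (nat_lit 5) (nat_lit 474) (nat_lit 425) (nat_lit 301)) (XT.lf (nat_lit 0) (nat_lit 7795399659) (nat_lit 228) (nat_lit 31182777349) (nat_lit 76) (nat_lit 19932011304) (nat_lit 85) (nat_lit 5) (nat_lit 88) (nat_lit 5) (nat_lit 86) (nat_lit 5) (nat_lit 475) (nat_lit 425) (nat_lit 300)))))) (XT.nd (nat_lit 468) (nat_lit 988) (nat_lit 0) (XT.nd (nat_lit 234) (nat_lit 532) (nat_lit 0) (XT.nd (nat_lit 78) (nat_lit 380) (nat_lit 0) (XT.lf (nat_lit 0) (nat_lit 25158845070) (nat_lit 152) (nat_lit 7598461513)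 (nat_lit 228) (nat_lit 28124022205) (nat_lit 83) (nat_lit 5) (nat_lit 85) (nat_lit 5) (nat_lit 86) (nat_lit 5) (nat_lit 476) (nat_lit 425) (nat_lit 299)) (XT.nd (nat_lit 78) (nat_lit 228) (nat_lit 0) (XT.lf (nat_lit 0) (nat_lit 22201883501) (nat_lit 152) (nat_lit 37539801483) (nat_lit 228) (nat_lit 3186110517) (nat_lit 81) (nat_lit 5) (nat_lit 83) (nat_lit 5) (nat_lit 84) (nat_lit 5) (nat_lit 477) (nat_lit 425) (nat_lit 298)) (XT.lf (nat_lit 0) (nat_lit 18755936004) (nat_lit 152) (nat_lit 4415578325) (nat_lit 228) (nat_lit 41879791206) (nat_lit 78) (nat_lit 5) (nat_lit 80) (nat_lit 5) (nat_lit 81) (nat_lit 5) (nat_lit 478) (nat_lit 425) (nat_lit 297)))) (XT.nd (nat_lit 78) (nat_lit 380) (nat_lit 0) (XT.lf (nat_lit 0) (nat_lit 14742131630) (nat_lit 152) (nat_lit 36889997160) (nat_lit 228) (nat_lit 15622386288) (nat_lit 76) (nat_lit 5) (nat_lit 78) (nat_lit 5) (nat_lit 79) (nat_lit 5) (nat_lit 479)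 (nat_lit 425) (nat_lit 296)) (XT.nd (nat_lit 78) (nat_lit 152) (nat_lit 0) (XT.lf (nat_lit 0) (nat_lit 10269975713) (nat_lit 152) (nat_lit 2062889041) (nat_lit 228) (nat_lit 57213031570) (nat_lit 73) (nat_lit 5) (nat_lit 75) (nat_lit 5) (nat_lit 76) (nat_lit 5) (nat_lit 480) (nat_lit 425) (nat_lit 295)) (XT.lf (nat_lit 0) (nat_lit 4943466561) (nat_lit 152) (nat_lit 37341144374) (nat_lit 228) (nat_lit 29634940946) (nat_lit 71) (nat_lit 5) (nat_lit 73) (nat_lit 5) (nat_lit 74) (nat_lit 5) (nat_lit 481) (nat_lit 425) (nat_lit 294))))) (XT.nd (nat_lit 234) (nat_lit 608) (nat_lit 0) (XT.nd (nat_lit 78) (nat_lit 380) (nat_lit 0) (XT.lf (nat_lit 0) (nat_lit 73580153694) (nat_lit 152) (nat_lit 778489358) (nat_lit 228) (nat_lit 34506572) (nat_lit 71) (nat_lit 5) (nat_lit 73) (nat_lit 5) (nat_lit 74) (nat_lit 5) (nat_lit 482) (nat_lit 425) (nat_lit 293)) (XT.nd (nat_lit 78) (nat_lit 152) (nat_lit 0) (XT.lf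 (nat_lit 0) (nat_lit 31475437005) (nat_lit 228) (nat_lit 7623260858) (nat_lit 76) (nat_lit 37851717578) (nat_lit 68) (nat_lit 5) (nat_lit 71) (nat_lit 5) (nat_lit 69) (nat_lit 5) (nat_lit 483) (nat_lit 425) (nat_lit 292)) (XT.lf (nat_lit 0) (nat_lit 64597721334) (nat_lit 152) (nat_lit 593967580) (nat_lit 228) (nat_lit 14424899965) (nat_lit 66) (nat_lit 5) (nat_lit 68) (nat_lit 5) (nat_lit 69) (nat_lit 5) (nat_lit 484) (nat_lit 425) (nat_lit 291)))) (XT.nd (nat_lit 156) (nat_lit 304) (nat_lit 0) (XT.nd (nat_lit 78) (nat_lit 152) (nat_lit 0) (XT.lf (nat_lit 0) (nat_lit 18856148438) (nat_lit 152) (nat_lit 23639001851) (nat_lit 76) (nat_lit 39884683608) (nat_lit 64) (nat_lit 5) (nat_lit 66) (nat_lit 5) (nat_lit 65) (nat_lit 5) (nat_lit 485) (nat_lit 425) (nat_lit 290)) (XT.lf (nat_lit 0) (nat_lit 52078721212) (nat_lit 152) (nat_lit 2084219308) (nat_lit 228) (nat_lit 31094215696) (nat_lit 62) (nat_lit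 5) (nat_lit 64) (nat_lit 5) (nat_lit 65) (nat_lit 5) (nat_lit 486) (nat_lit 425) (nat_lit 289))) (XT.nd (nat_lit 78) (nat_lit 152) (nat_lit 0) (XT.lf (nat_lit 0) (nat_lit 3963224114) (nat_lit 152) (nat_lit 44016713556) (nat_lit 76) (nat_lit 40265628800) (nat_lit 60) (nat_lit 5) (nat_lit 62) (nat_lit 5) (nat_lit 61) (nat_lit 5) (nat_lit 487) (nat_lit 425) (nat_lit 288)) (XT.lf (nat_lit 0) (nat_lit 35164808583) (nat_lit 152) (nat_lit 5670352394) (nat_lit 228) (nat_lit 50517859571) (nat_lit 58) (nat_lit 5) (nat_lit 60) (nat_lit 5) (nat_lit 61) (nat_lit 5) (nat_lit 488) (nat_lit 425) (nat_lit 287))))))) (XT.nd (nat_lit 58110) (nat_lit 0) (nat_lit 12464) (XT.nd (nat_lit 57564) (nat_lit 0) (nat_lit 17480) (XT.nd (nat_lit 234) (nat_lit 608) (nat_lit 0) (XT.nd (nat_lit 78) (nat_lit 228) (nat_lit 0) (XT.lf (nat_lit 0) (nat_lit 24718663111) (nat_lit 76) (nat_lit 55894629196) (nat_lit 152) (nat_lit 13970677333)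 (nat_lit 57) (nat_lit 5) (nat_lit 58) (nat_lit 5) (nat_lit 59) (nat_lit 4) (nat_lit 489) (nat_lit 425) (nat_lit 286)) (XT.nd (nat_lit 78) (nat_lit 0) (nat_lit 0) (XT.lf (nat_lit 0) (nat_lit 12829274034) (nat_lit 152) (nat_lit 11858031291) (nat_lit 228) (nat_lit 73259334079) (nat_lit 54) (nat_lit 5) (nat_lit 56) (nat_lit 5) (nat_lit 57) (nat_lit 5) (nat_lit 490) (nat_lit 425) (nat_lit 285)) (XT.lf (nat_lit 0) (nat_lit 66043814856) (nat_lit 228) (nat_lit 825217219) (nat_lit 76) (nat_lit 34572624202) (nat_lit 54) (nat_lit 5) (nat_lit 57) (nat_lit 5) (nat_lit 55) (nat_lit 4) (nat_lit 491) (nat_lit 425) (nat_lit 284)))) (XT.nd (nat_lit 78) (nat_lit 456) (nat_lit 0) (XT.lf (nat_lit 0) (nat_lit 5254699908) (nat_lit 152) (nat_lit 15838266869) (nat_lit 76) (nat_lit 83987711342) (nat_lit 52) (nat_lit 5) (nat_lit 54) (nat_lit 5) (nat_lit 53) (nat_lit 5) (nat_lit 492) (nat_lit 425) (nat_lit 283)) (XT.nd (nat_lit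 156) (nat_lit 304) (nat_lit 0) (XT.lf (nat_lit 0) (nat_lit 48219673471) (nat_lit 228) (nat_lit 33091806905) (nat_lit 76) (nat_lit 27549300048) (nat_lit 50) (nat_lit 5) (nat_lit 53) (nat_lit 5) (nat_lit 51) (nat_lit 4) (nat_lit 493) (nat_lit 425) (nat_lit 282)) (XT.lf (nat_lit 0) (nat_lit 26132120157) (nat_lit 228) (nat_lit 74125696217) (nat_lit 76) (nat_lit 16646088503) (nat_lit 46) (nat_lit 5) (nat_lit 49) (nat_lit 5) (nat_lit 47) (nat_lit 4) (nat_lit 495) (nat_lit 425) (nat_lit 280))))) (XT.nd (nat_lit 234) (nat_lit 0) (nat_lit 0) (XT.nd (nat_lit 78) (nat_lit 1140) (nat_lit 0) (XT.lf (nat_lit 0) (nat_lit 3375086078) (nat_lit 0) (nat_lit 3375086078) (nat_lit 1140) (nat_lit 582498320) (nat_lit 291) (nat_lit 5) (nat_lit 291) (nat_lit 3) (nat_lit 306) (nat_lit 3) (nat_lit 426) (nat_lit 426) (nat_lit 348)) (XT.nd (nat_lit 78) (nat_lit 1140) (nat_lit 0) (XT.lf (nat_lit 76) (nat_lit 4098903747) (nat_lit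 0) (nat_lit 10329234537) (nat_lit 1216) (nat_lit 586005309) (nat_lit 292) (nat_lit 5) (nat_lit 291) (nat_lit 5) (nat_lit 307) (nat_lit 5) (nat_lit 427) (nat_lit 426) (nat_lit 347)) (XT.lf (nat_lit 0) (nat_lit 165482330) (nat_lit 1216) (nat_lit 13947010447) (nat_lit 1292) (nat_lit 1263575621) (nat_lit 276) (nat_lit 5) (nat_lit 292) (nat_lit 5) (nat_lit 293) (nat_lit 5) (nat_lit 428) (nat_lit 426) (nat_lit 346)))) (XT.nd (nat_lit 156) (nat_lit 0) (nat_lit 152) (XT.nd (nat_lit 78) (nat_lit 0) (nat_lit 76) (XT.lf (nat_lit 0) (nat_lit 1129093553) (nat_lit 1216) (nat_lit 1264196088) (nat_lit 1292) (nat_lit 13357032921) (nat_lit 276) (nat_lit 5) (nat_lit 292) (nat_lit 5) (nat_lit 293) (nat_lit 5) (nat_lit 429) (nat_lit 426) (nat_lit 345)) (XT.lf (nat_lit 0) (nat_lit 2325743245) (nat_lit 1216) (nat_lit 3962896023) (nat_lit 1292) (nat_lit 9849111324) (nat_lit 277) (nat_lit 5) (nat_lit 293) (nat_lit 5)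 (nat_lit 294) (nat_lit 5) (nat_lit 430) (nat_lit 426) (nat_lit 344))) (XT.nd (nat_lit 78) (nat_lit 0) (nat_lit 76) (XT.lf (nat_lit 0) (nat_lit 3746442934) (nat_lit 1216) (nat_lit 6682365674) (nat_lit 1292) (nat_lit 6110821458) (nat_lit 278) (nat_lit 5) (nat_lit 294) (nat_lit 5) (nat_lit 295) (nat_lit 5) (nat_lit 431) (nat_lit 426) (nat_lit 343)) (XT.lf (nat_lit 0) (nat_lit 5409239062) (nat_lit 1216) (nat_lit 9422305443) (nat_lit 1292) (nat_lit 2124933418) (nat_lit 279) (nat_lit 5) (nat_lit 295) (nat_lit 5) (nat_lit 296) (nat_lit 5) (nat_lit 432) (nat_lit 426) (nat_lit 342)))))) (XT.nd (nat_lit 468) (nat_lit 3420) (nat_lit 0) (XT.nd (nat_lit 234) (nat_lit 1824) (nat_lit 0) (XT.nd (nat_lit 78) (nat_lit 0) (nat_lit 76) (XT.lf (nat_lit 76) (nat_lit 5185198470) (nat_lit 0) (nat_lit 2168666351) (nat_lit 1292) (nat_lit 10034348614) (nat_lit 280) (nat_lit 5) (nat_lit 279) (nat_lit 5) (nat_lit 296) (nat_lit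 5) (nat_lit 433) (nat_lit 426) (nat_lit 341)) (XT.nd (nat_lit 78) (nat_lit 0) (nat_lit 76) (XT.lf (nat_lit 76) (nat_lit 2808858337) (nat_lit 0) (nat_lit 6794011771) (nat_lit 1292) (nat_lit 8232456841) (nat_lit 281) (nat_lit 5) (nat_lit 280) (nat_lit 5) (nat_lit 297) (nat_lit 5) (nat_lit 434) (nat_lit 426) (nat_lit 340)) (XT.lf (nat_lit 76) (nat_lit 428062232) (nat_lit 0) (nat_lit 11728279398) (nat_lit 1292) (nat_lit 6142699432) (nat_lit 282) (nat_lit 5) (nat_lit 281) (nat_lit 5) (nat_lit 298) (nat_lit 5) (nat_lit 435) (nat_lit 426) (nat_lit 339)))) (XT.nd (nat_lit 78) (nat_lit 2052) (nat_lit 0) (XT.lf (nat_lit 0) (nat_lit 15055012038) (nat_lit 1216) (nat_lit 1917306703) (nat_lit 76) (nat_lit 1807101526) (nat_lit 282) (nat_lit 5) (nat_lit 298) (nat_lit 5) (nat_lit 283) (nat_lit 5) (nat_lit 436) (nat_lit 426) (nat_lit 338)) (XT.nd (nat_lit 78) (nat_lit 836) (nat_lit 0) (XT.lf (nat_lit 0) (nat_lit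 14989356621) (nat_lit 1216) (nat_lit 3350064584) (nat_lit 1292) (nat_lit 937177969) (nat_lit 266) (nat_lit 5) (nat_lit 282) (nat_lit 5) (nat_lit 283) (nat_lit 5) (nat_lit 437) (nat_lit 426) (nat_lit 337)) (XT.lf (nat_lit 0) (nat_lit 2183383402) (nat_lit 836) (nat_lit 6698250635) (nat_lit 76) (nat_lit 10909450110) (nat_lit 255) (nat_lit 5) (nat_lit 266) (nat_lit 5) (nat_lit 256) (nat_lit 5) (nat_lit 438) (nat_lit 426) (nat_lit 336))))) (XT.nd (nat_lit 234) (nat_lit 1672) (nat_lit 0) (XT.nd (nat_lit 78) (nat_lit 1140) (nat_lit 0) (XT.lf (nat_lit 0) (nat_lit 5661538510) (nat_lit 684) (nat_lit 9121611788) (nat_lit 76) (nat_lit 5541240578) (nat_lit 247) (nat_lit 5) (nat_lit 256) (nat_lit 5) (nat_lit 248) (nat_lit 5) (nat_lit 439) (nat_lit 426) (nat_lit 335)) (XT.nd (nat_lit 78) (nat_lit 532) (nat_lit 0) (XT.lf (nat_lit 0) (nat_lit 9329415779) (nat_lit 608) (nat_lit 213773878) (nat_lit 684) (nat_lit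 11334289747) (nat_lit 239) (nat_lit 5) (nat_lit 247) (nat_lit 5) (nat_lit 248) (nat_lit 5) (nat_lit 440) (nat_lit 426) (nat_lit 334)) (XT.lf (nat_lit 0) (nat_lit 7418159505) (nat_lit 532) (nat_lit 6493275706) (nat_lit 608) (nat_lit 7538015706) (nat_lit 232) (nat_lit 5) (nat_lit 239) (nat_lit 5) (nat_lit 240) (nat_lit 5) (nat_lit 441) (nat_lit 426) (nat_lit 333)))) (XT.nd (nat_lit 156) (nat_lit 532) (nat_lit 0) (XT.nd (nat_lit 78) (nat_lit 608) (nat_lit 0) (XT.lf (nat_lit 0) (nat_lit 5528374005) (nat_lit 532) (nat_lit 13212018200) (nat_lit 608) (nat_lit 3302363552) (nat_lit 225) (nat_lit 5) (nat_lit 232) (nat_lit 5) (nat_lit 233) (nat_lit 5) (nat_lit 442) (nat_lit 426) (nat_lit 332)) (XT.lf (nat_lit 0) (nat_lit 1374337140) (nat_lit 608) (nat_lit 19007969087) (nat_lit 76) (nat_lit 2275544534) (nat_lit 217) (nat_lit 5) (nat_lit 225) (nat_lit 5) (nat_lit 218) (nat_lit 5) (nat_lit 443) (nat_lit 426)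 (nat_lit 331))) (XT.nd (nat_lit 78) (nat_lit 0) (nat_lit 0) (XT.lf (nat_lit 0) (nat_lit 1715330052) (nat_lit 532) (nat_lit 4806633588) (nat_lit 608) (nat_lit 16771597596) (nat_lit 210) (nat_lit 5) (nat_lit 217) (nat_lit 5) (nat_lit 218) (nat_lit 5) (nat_lit 444) (nat_lit 426) (nat_lit 330)) (XT.lf (nat_lit 0) (nat_lit 12219418409) (nat_lit 608) (nat_lit 214694135) (nat_lit 76) (nat_lit 11518174410) (nat_lit 210) (nat_lit 5) (nat_lit 218) (nat_lit 5) (nat_lit 211) (nat_lit 5) (nat_lit 445) (nat_lit 426) (nat_lit 329))))))))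
noncomputable def xc91 : XT := (XT.nd (nat_lit 1950) (nat_lit 4028) (nat_lit 0) (XT.nd (nat_lit 936) (nat_lit 3344) (nat_lit 0) (XT.nd (nat_lit 468) (nat_lit 2128) (nat_lit 0) (XT.nd (nat_lit 234) (nat_lit 1292) (nat_lit 0) (XT.nd (nat_lit 78) (nat_lit 988) (nat_lit 0) (XT.lf (nat_lit 0) (nat_lit 18491822423) (nat_lit 532) (nat_lit 2084571593) (nat_lit 76) (nat_lit 4058855624) (nat_lit 204) (nat_lit 5) (nat_lit 211) (nat_lit 5) (nat_lit 205) (nat_lit 5) (nat_lit 446) (nat_lit 426) (nat_lit 328)) (XT.nd (nat_lit 78) (nat_lit 456) (nat_lit 0) (XT.lf (nat_lit 0) (nat_lit 52398328) (nat_lit 532) (nat_lit 3962727183) (nat_lit 76) (nat_lit 21327670204) (nat_lit 197) (nat_lit 5) (nat_lit 204) (nat_lit 5) (nat_lit 198) (nat_lit 5) (nat_lit 447) (nat_lit 426) (nat_lit 327)) (XT.lf (nat_lit 0) (nat_lit 6765719805) (nat_lit 532) (nat_lit 5916281921) (nat_lit 76) (nat_lit 13391852403) (nat_lit 191) (nat_lit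 5) (nat_lit 198) (nat_lit 5) (nat_lit 192) (nat_lit 5) (nat_lit 448) (nat_lit 426) (nat_lit 326)))) (XT.nd (nat_lit 78) (nat_lit 836) (nat_lit 0) (XT.lf (nat_lit 0) (nat_lit 14113313039) (nat_lit 532) (nat_lit 7841983290) (nat_lit 76) (nat_lit 4877213463) (nat_lit 185) (nat_lit 5) (nat_lit 192) (nat_lit 5) (nat_lit 186) (nat_lit 5) (nat_lit 449) (nat_lit 426) (nat_lit 325)) (XT.nd (nat_lit 78) (nat_lit 456) (nat_lit 0) (XT.lf (nat_lit 0) (nat_lit 17841420971) (nat_lit 380) (nat_lit 4334392674) (nat_lit 456) (nat_lit 5442861140) (nat_lit 180) (nat_lit 5) (nat_lit 185) (nat_lit 5) (nat_lit 186) (nat_lit 5) (nat_lit 450) (nat_lit 426) (nat_lit 324)) (XT.lf (nat_lit 0) (nat_lit 2523264275) (nat_lit 456) (nat_lit 11754863096) (nat_lit 76) (nat_lit 14154323702) (nat_lit 174) (nat_lit 5) (nat_lit 180) (nat_lit 5) (nat_lit 175) (nat_lit 5) (nat_lit 451) (nat_lit 426) (nat_lit 323))))) (XT.nd (nat_lit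 234) (nat_lit 1064) (nat_lit 0) (XT.nd (nat_lit 78) (nat_lit 684) (nat_lit 0) (XT.lf (nat_lit 0) (nat_lit 11101764500) (nat_lit 456) (nat_lit 13757296256) (nat_lit 76) (nat_lit 4416441765) (nat_lit 169) (nat_lit 5) (nat_lit 175) (nat_lit 5) (nat_lit 170) (nat_lit 5) (nat_lit 452) (nat_lit 426) (nat_lit 322)) (XT.nd (nat_lit 78) (nat_lit 304) (nat_lit 0) (XT.lf (nat_lit 0) (nat_lit 14361792234) (nat_lit 380) (nat_lit 6139475911) (nat_lit 456) (nat_lit 9647678038) (nat_lit 164) (nat_lit 5) (nat_lit 169) (nat_lit 5) (nat_lit 170) (nat_lit 5) (nat_lit 453) (nat_lit 426) (nat_lit 321)) (XT.lf (nat_lit 0) (nat_lit 13222723046) (nat_lit 304) (nat_lit 17536171199) (nat_lit 380) (nat_lit 295525265) (nat_lit 160) (nat_lit 5) (nat_lit 164) (nat_lit 5) (nat_lit 165) (nat_lit 5) (nat_lit 454) (nat_lit 426) (nat_lit 320)))) (XT.nd (nat_lit 78) (nat_lit 608) (nat_lit 0) (XT.lf (nat_lit 0) (nat_lit 9692106723)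 (nat_lit 456) (nat_lit 19938649152) (nat_lit 76) (nat_lit 2361054090) (nat_lit 154) (nat_lit 5) (nat_lit 160) (nat_lit 5) (nat_lit 155) (nat_lit 5) (nat_lit 455) (nat_lit 426) (nat_lit 319)) (XT.nd (nat_lit 78) (nat_lit 304) (nat_lit 0) (XT.lf (nat_lit 0) (nat_lit 10848147023) (nat_lit 304) (nat_lit 9780323647) (nat_lit 380) (nat_lit 12333849296) (nat_lit 150) (nat_lit 5) (nat_lit 154) (nat_lit 5) (nat_lit 155) (nat_lit 5) (nat_lit 456) (nat_lit 426) (nat_lit 318)) (XT.lf (nat_lit 0) (nat_lit 9680378858) (nat_lit 304) (nat_lit 22827042042) (nat_lit 380) (nat_lit 1462063120) (nat_lit 146) (nat_lit 5) (nat_lit 150) (nat_lit 5) (nat_lit 151) (nat_lit 5) (nat_lit 457) (nat_lit 426) (nat_lit 317)))))) (XT.nd (nat_lit 468) (nat_lit 1444) (nat_lit 0) (XT.nd (nat_lit 234) (nat_lit 988) (nat_lit 0) (XT.nd (nat_lit 78) (nat_lit 532) (nat_lit 0) (XT.lf (nat_lit 0) (nat_lit 8459379853) (nat_lit 304) (nat_lit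 1698995158) (nat_lit 380) (nat_lit 24853783789) (nat_lit 141) (nat_lit 5) (nat_lit 145) (nat_lit 5) (nat_lit 146) (nat_lit 5) (nat_lit 458) (nat_lit 426) (nat_lit 316)) (XT.nd (nat_lit 78) (nat_lit 228) (nat_lit 0) (XT.lf (nat_lit 0) (nat_lit 7163566144) (nat_lit 304) (nat_lit 15674271450) (nat_lit 380) (nat_lit 13253449646) (nat_lit 137) (nat_lit 5) (nat_lit 141) (nat_lit 5) (nat_lit 142) (nat_lit 5) (nat_lit 459) (nat_lit 426) (nat_lit 315)) (XT.lf (nat_lit 0) (nat_lit 5923737642) (nat_lit 228) (nat_lit 30628799069) (nat_lit 304) (nat_lit 659798822) (nat_lit 134) (nat_lit 5) (nat_lit 137) (nat_lit 5) (nat_lit 138) (nat_lit 5) (nat_lit 460) (nat_lit 426) (nat_lit 314)))) (XT.nd (nat_lit 78) (nat_lit 608) (nat_lit 0) (XT.lf (nat_lit 0) (nat_lit 4533279773) (nat_lit 304) (nat_lit 8277815914) (nat_lit 380) (nat_lit 25559937111) (nat_lit 129) (nat_lit 5) (nat_lit 133) (nat_lit 5) (nat_lit 134) (nat_lit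 5) (nat_lit 461) (nat_lit 426) (nat_lit 313)) (XT.nd (nat_lit 78) (nat_lit 380) (nat_lit 0) (XT.lf (nat_lit 0) (nat_lit 3112110426) (nat_lit 228) (nat_lit 24321604194) (nat_lit 304) (nat_lit 12139000742) (nat_lit 126) (nat_lit 5) (nat_lit 129) (nat_lit 5) (nat_lit 130) (nat_lit 5) (nat_lit 462) (nat_lit 426) (nat_lit 312)) (XT.lf (nat_lit 0) (nat_lit 1705455292) (nat_lit 304) (nat_lit 651845418) (nat_lit 380) (nat_lit 38463346395) (nat_lit 121) (nat_lit 5) (nat_lit 125) (nat_lit 5) (nat_lit 126) (nat_lit 5) (nat_lit 463) (nat_lit 426) (nat_lit 311))))) (XT.nd (nat_lit 234) (nat_lit 912) (nat_lit 0) (XT.nd (nat_lit 78) (nat_lit 304) (nat_lit 0) (XT.lf (nat_lit 0) (nat_lit 49716864) (nat_lit 228) (nat_lit 17883105342) (nat_lit 304) (nat_lit 24176384878) (nat_lit 118) (nat_lit 5) (nat_lit 121) (nat_lit 5) (nat_lit 122) (nat_lit 5) (nat_lit 464) (nat_lit 426) (nat_lit 310)) (XT.nd (nat_lit 78) (nat_lit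 304) (nat_lit 0) (XT.lf (nat_lit 0) (nat_lit 34757547954) (nat_lit 304) (nat_lit 1550615381) (nat_lit 76) (nat_lit 7139919868) (nat_lit 118) (nat_lit 5) (nat_lit 122) (nat_lit 5) (nat_lit 119) (nat_lit 5) (nat_lit 465) (nat_lit 426) (nat_lit 309)) (XT.lf (nat_lit 0) (nat_lit 7999582726) (nat_lit 304) (nat_lit 3313694265) (nat_lit 76) (nat_lit 33521113553) (nat_lit 114) (nat_lit 5) (nat_lit 118) (nat_lit 5) (nat_lit 115) (nat_lit 5) (nat_lit 466) (nat_lit 426) (nat_lit 308)))) (XT.nd (nat_lit 156) (nat_lit 456) (nat_lit 0) (XT.nd (nat_lit 78) (nat_lit 228) (nat_lit 0) (XT.lf (nat_lit 0) (nat_lit 25898463722) (nat_lit 304) (nat_lit 5232638902) (nat_lit 76) (nat_lit 15139710431) (nat_lit 111) (nat_lit 5) (nat_lit 115) (nat_lit 5) (nat_lit 112) (nat_lit 5) (nat_lit 467) (nat_lit 426) (nat_lit 307)) (XT.lf (nat_lit 0) (nat_lit 40562740817) (nat_lit 228) (nat_lit 4660133697) (nat_lit 304) (nat_lit 2540265429)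 (nat_lit 108) (nat_lit 5) (nat_lit 111) (nat_lit 5) (nat_lit 112) (nat_lit 5) (nat_lit 468) (nat_lit 426) (nat_lit 306))) (XT.nd (nat_lit 78) (nat_lit 228) (nat_lit 0) (XT.lf (nat_lit 0) (nat_lit 16527361622) (nat_lit 228) (nat_lit 9499564738) (nat_lit 76) (nat_lit 23278698560) (nat_lit 105) (nat_lit 5) (nat_lit 108) (nat_lit 5) (nat_lit 106) (nat_lit 5) (nat_lit 469) (nat_lit 426) (nat_lit 305)) (XT.lf (nat_lit 0) (nat_lit 37006159504) (nat_lit 304) (nat_lit 11863247248) (nat_lit 76) (nat_lit 2039763805) (nat_lit 102) (nat_lit 5) (nat_lit 106) (nat_lit 5) (nat_lit 103) (nat_lit 5) (nat_lit 470) (nat_lit 426) (nat_lit 304))))))) (XT.nd (nat_lit 1014) (nat_lit 1596) (nat_lit 0) (XT.nd (nat_lit 468) (nat_lit 1140) (nat_lit 0) (XT.nd (nat_lit 234) (nat_lit 684) (nat_lit 0) (XT.nd (nat_lit 78) (nat_lit 380) (nat_lit 0) (XT.lf (nat_lit 0) (nat_lit 6527944408) (nat_lit 228) (nat_lit 14540858327) (nat_lit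 76) (nat_lit 31500563873) (nat_lit 99) (nat_lit 5) (nat_lit 102) (nat_lit 5) (nat_lit 100) (nat_lit 5) (nat_lit 471) (nat_lit 426) (nat_lit 303)) (XT.nd (nat_lit 78) (nat_lit 152) (nat_lit 0) (XT.lf (nat_lit 0) (nat_lit 28250740866) (nat_lit 304) (nat_lit 17457907485) (nat_lit 76) (nat_lit 8583060282) (nat_lit 96) (nat_lit 5) (nat_lit 100) (nat_lit 5) (nat_lit 97) (nat_lit 5) (nat_lit 472) (nat_lit 426) (nat_lit 302)) (XT.lf (nat_lit 0) (nat_lit 35450915110) (nat_lit 152) (nat_lit 16306314840) (nat_lit 228) (nat_lit 4322011835) (nat_lit 94) (nat_lit 5) (nat_lit 96) (nat_lit 5) (nat_lit 97) (nat_lit 5) (nat_lit 473) (nat_lit 426) (nat_lit 301)))) (XT.nd (nat_lit 78) (nat_lit 380) (nat_lit 0) (XT.lf (nat_lit 0) (nat_lit 18769344136) (nat_lit 304) (nat_lit 24193367019) (nat_lit 76) (nat_lit 14968697338) (nat_lit 90) (nat_lit 5) (nat_lit 94) (nat_lit 5) (nat_lit 91) (nat_lit 5) (nat_lit 474) (nat_lit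 426) (nat_lit 300)) (XT.nd (nat_lit 78) (nat_lit 228) (nat_lit 0) (XT.lf (nat_lit 0) (nat_lit 31782154989) (nat_lit 152) (nat_lit 11822385384) (nat_lit 228) (nat_lit 16250000186) (nat_lit 88) (nat_lit 5) (nat_lit 90) (nat_lit 5) (nat_lit 91) (nat_lit 5) (nat_lit 475) (nat_lit 426) (nat_lit 299)) (XT.lf (nat_lit 0) (nat_lit 8392287176) (nat_lit 228) (nat_lit 32376418560) (nat_lit 76) (nat_lit 21080763159) (nat_lit 85) (nat_lit 5) (nat_lit 88) (nat_lit 5) (nat_lit 86) (nat_lit 5) (nat_lit 476) (nat_lit 426) (nat_lit 298))))) (XT.nd (nat_lit 234) (nat_lit 608) (nat_lit 0) (XT.nd (nat_lit 78) (nat_lit 380) (nat_lit 0) (XT.lf (nat_lit 0) (nat_lit 26771808063) (nat_lit 152) (nat_lit 7824031320) (nat_lit 228) (nat_lit 29323521242) (nat_lit 83) (nat_lit 5) (nat_lit 85) (nat_lit 5) (nat_lit 86) (nat_lit 5) (nat_lit 477) (nat_lit 426) (nat_lit 297)) (XT.nd (nat_lit 78) (nat_lit 228) (nat_lit 0) (XT.lf (nat_lit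 0) (nat_lit 23661242233) (nat_lit 152) (nat_lit 39263409306) (nat_lit 228) (nat_lit 3143643384) (nat_lit 81) (nat_lit 5) (nat_lit 83) (nat_lit 5) (nat_lit 84) (nat_lit 5) (nat_lit 478) (nat_lit 426) (nat_lit 296)) (XT.lf (nat_lit 0) (nat_lit 20036823305) (nat_lit 152) (nat_lit 4484979353) (nat_lit 228) (nat_lit 43776303938) (nat_lit 78) (nat_lit 5) (nat_lit 80) (nat_lit 5) (nat_lit 81) (nat_lit 5) (nat_lit 479) (nat_lit 426) (nat_lit 295)))) (XT.nd (nat_lit 156) (nat_lit 228) (nat_lit 0) (XT.nd (nat_lit 78) (nat_lit 228) (nat_lit 0) (XT.lf (nat_lit 0) (nat_lit 15816679652) (nat_lit 152) (nat_lit 38584268556) (nat_lit 228) (nat_lit 16210664008) (nat_lit 76) (nat_lit 5) (nat_lit 78) (nat_lit 5) (nat_lit 79) (nat_lit 5) (nat_lit 480) (nat_lit 426) (nat_lit 294)) (XT.lf (nat_lit 0) (nat_lit 11114909946) (nat_lit 152) (nat_lit 2017858825) (nat_lit 228) (nat_lit 59884913241) (nat_lit 73) (nat_lit 5)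 (nat_lit 75) (nat_lit 5) (nat_lit 76) (nat_lit 5) (nat_lit 481) (nat_lit 426) (nat_lit 293))) (XT.nd (nat_lit 78) (nat_lit 76) (nat_lit 0) (XT.lf (nat_lit 0) (nat_lit 5516542498) (nat_lit 152) (nat_lit 39061322353) (nat_lit 228) (nat_lit 30932283155) (nat_lit 71) (nat_lit 5) (nat_lit 73) (nat_lit 5) (nat_lit 74) (nat_lit 5) (nat_lit 482) (nat_lit 426) (nat_lit 292)) (XT.lf (nat_lit 0) (nat_lit 136671719) (nat_lit 228) (nat_lit 539477001) (nat_lit 76) (nat_lit 77431492981) (nat_lit 70) (nat_lit 5) (nat_lit 73) (nat_lit 5) (nat_lit 71) (nat_lit 5) (nat_lit 483) (nat_lit 426) (nat_lit 291)))))) (XT.nd (nat_lit 468) (nat_lit 684) (nat_lit 0) (XT.nd (nat_lit 234) (nat_lit 456) (nat_lit 0) (XT.nd (nat_lit 78) (nat_lit 304) (nat_lit 0) (XT.lf (nat_lit 0) (nat_lit 33217461345) (nat_lit 228) (nat_lit 7695907327) (nat_lit 76) (nat_lit 39879510485) (nat_lit 68) (nat_lit 5) (nat_lit 71) (nat_lit 5) (nat_lit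 69) (nat_lit 5) (nat_lit 484) (nat_lit 426) (nat_lit 290)) (XT.nd (nat_lit 78) (nat_lit 152) (nat_lit 0) (XT.lf (nat_lit 0) (nat_lit 68127280409) (nat_lit 152) (nat_lit 487114057) (nat_lit 228) (nat_lit 14978121195) (nat_lit 66) (nat_lit 5) (nat_lit 68) (nat_lit 5) (nat_lit 69) (nat_lit 5) (nat_lit 485) (nat_lit 426) (nat_lit 289)) (XT.lf (nat_lit 0) (nat_lit 19959977994) (nat_lit 152) (nat_lit 24523168862) (nat_lit 76) (nat_lit 42010839722) (nat_lit 64) (nat_lit 5) (nat_lit 66) (nat_lit 5) (nat_lit 65) (nat_lit 5) (nat_lit 486) (nat_lit 426) (nat_lit 288)))) (XT.nd (nat_lit 78) (nat_lit 304) (nat_lit 0) (XT.lf (nat_lit 0) (nat_lit 54971904462) (nat_lit 152) (nat_lit 2055317919) (nat_lit 228) (nat_lit 32488099649) (nat_lit 62) (nat_lit 5) (nat_lit 64) (nat_lit 5) (nat_lit 65) (nat_lit 5) (nat_lit 487) (nat_lit 426) (nat_lit 287)) (XT.nd (nat_lit 78) (nat_lit 152) (nat_lit 0) (XT.lf (nat_lit 0)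 (nat_lit 4315555194) (nat_lit 152) (nat_lit 45930202999) (nat_lit 76) (nat_lit 42407454153) (nat_lit 60) (nat_lit 5) (nat_lit 62) (nat_lit 5) (nat_lit 61) (nat_lit 5) (nat_lit 488) (nat_lit 426) (nat_lit 286)) (XT.lf (nat_lit 0) (nat_lit 37202158525) (nat_lit 152) (nat_lit 5824271924) (nat_lit 228) (nat_lit 52889748782) (nat_lit 58) (nat_lit 5) (nat_lit 60) (nat_lit 5) (nat_lit 61) (nat_lit 5) (nat_lit 489) (nat_lit 426) (nat_lit 285))))) (XT.nd (nat_lit 234) (nat_lit 380) (nat_lit 0) (XT.nd (nat_lit 78) (nat_lit 228) (nat_lit 0) (XT.lf (nat_lit 0) (nat_lit 26228858668) (nat_lit 76) (nat_lit 58561312917) (nat_lit 152) (nat_lit 14518603429) (nat_lit 57) (nat_lit 5) (nat_lit 58) (nat_lit 5) (nat_lit 59) (nat_lit 4) (nat_lit 490) (nat_lit 426) (nat_lit 284)) (XT.nd (nat_lit 78) (nat_lit 0) (nat_lit 0) (XT.lf (nat_lit 0) (nat_lit 13739999407) (nat_lit 152) (nat_lit 12324896513) (nat_lit 228) (nat_lit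 76774772529) (nat_lit 54) (nat_lit 5) (nat_lit 56) (nat_lit 5) (nat_lit 57) (nat_lit 5) (nat_lit 491) (nat_lit 426) (nat_lit 283)) (XT.lf (nat_lit 0) (nat_lit 69483564519) (nat_lit 228) (nat_lit 607094215) (nat_lit 76) (nat_lit 36418947716) (nat_lit 54) (nat_lit 5) (nat_lit 57) (nat_lit 5) (nat_lit 55) (nat_lit 4) (nat_lit 492) (nat_lit 426) (nat_lit 282)))) (XT.nd (nat_lit 57330) (nat_lit 0) (nat_lit 17176) (XT.nd (nat_lit 156) (nat_lit 228) (nat_lit 0) (XT.lf (nat_lit 0) (nat_lit 5652191861) (nat_lit 152) (nat_lit 16375544176) (nat_lit 76) (nat_lit 88302927849) (nat_lit 52) (nat_lit 5) (nat_lit 54) (nat_lit 5) (nat_lit 53) (nat_lit 5) (nat_lit 493) (nat_lit 426) (nat_lit 281)) (XT.lf (nat_lit 0) (nat_lit 63682380851) (nat_lit 76) (nat_lit 35446577455) (nat_lit 152) (nat_lit 19308536655) (nat_lit 49) (nat_lit 5) (nat_lit 50) (nat_lit 5) (nat_lit 51) (nat_lit 4) (nat_lit 495) (nat_lit 426) (nat_lit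 279))) (XT.nd (nat_lit 78) (nat_lit 1216) (nat_lit 0) (XT.lf (nat_lit 0) (nat_lit 3792565495) (nat_lit 0) (nat_lit 3792565495) (nat_lit 1140) (nat_lit 99129091) (nat_lit 291) (nat_lit 5) (nat_lit 291) (nat_lit 3) (nat_lit 306) (nat_lit 3) (nat_lit 427) (nat_lit 427) (nat_lit 346)) (XT.lf (nat_lit 0) (nat_lit 354252140) (nat_lit 1216) (nat_lit 10918746308) (nat_lit 1292) (nat_lit 4463080562) (nat_lit 275) (nat_lit 5) (nat_lit 291) (nat_lit 5) (nat_lit 292) (nat_lit 5) (nat_lit 428) (nat_lit 427) (nat_lit 345))))))))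
noncomputable def xc92 : XT := (XT.nd (nat_lit 1950) (nat_lit 6688) (nat_lit 0) (XT.nd (nat_lit 936) (nat_lit 5928) (nat_lit 0) (XT.nd (nat_lit 468) (nat_lit 2204) (nat_lit 0) (XT.nd (nat_lit 234) (nat_lit 0) (nat_lit 152) (XT.nd (nat_lit 78) (nat_lit 0) (nat_lit 0) (XT.lf (nat_lit 0) (nat_lit 1086910984) (nat_lit 1216) (nat_lit 14091866788) (nat_lit 1292) (nat_lit 938487336) (nat_lit 276) (nat_lit 5) (nat_lit 292) (nat_lit 5) (nat_lit 293) (nat_lit 5) (nat_lit 429) (nat_lit 427) (nat_lit 344)) (XT.nd (nat_lit 78) (nat_lit 0) (nat_lit 76) (XT.lf (nat_lit 0) (nat_lit 2055219218) (nat_lit 1216) (nat_lit 801220959) (nat_lit 1292) (nat_lit 13655106409) (nat_lit 276) (nat_lit 5) (nat_lit 292) (nat_lit 5) (nat_lit 293) (nat_lit 5) (nat_lit 430) (nat_lit 427) (nat_lit 343)) (XT.lf (nat_lit 0) (nat_lit 3272105590) (nat_lit 1216) (nat_lit 3621655460) (nat_lit 1292) (nat_lit 10025782460) (nat_lit 277) (nat_lit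 5) (nat_lit 293) (nat_lit 5) (nat_lit 294) (nat_lit 5) (nat_lit 431) (nat_lit 427) (nat_lit 342)))) (XT.nd (nat_lit 78) (nat_lit 0) (nat_lit 76) (XT.lf (nat_lit 0) (nat_lit 4726737788) (nat_lit 1216) (nat_lit 6465897884) (nat_lit 1292) (nat_lit 6150003519) (nat_lit 278) (nat_lit 5) (nat_lit 294) (nat_lit 5) (nat_lit 295) (nat_lit 5) (nat_lit 432) (nat_lit 427) (nat_lit 341)) (XT.nd (nat_lit 78) (nat_lit 0) (nat_lit 0) (XT.lf (nat_lit 0) (nat_lit 6437885859) (nat_lit 1216) (nat_lit 9333463900) (nat_lit 1292) (nat_lit 2010032041) (nat_lit 279) (nat_lit 5) (nat_lit 295) (nat_lit 5) (nat_lit 296) (nat_lit 5) (nat_lit 433) (nat_lit 427) (nat_lit 340)) (XT.lf (nat_lit 76) (nat_lit 5988364159) (nat_lit 0) (nat_lit 2460503062) (nat_lit 1292) (nat_lit 9786771446) (nat_lit 280) (nat_lit 5) (nat_lit 279) (nat_lit 5) (nat_lit 296) (nat_lit 5) (nat_lit 434) (nat_lit 427) (nat_lit 339))))) (XT.nd (nat_lit 234)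 (nat_lit 2508) (nat_lit 0) (XT.nd (nat_lit 78) (nat_lit 0) (nat_lit 76) (XT.lf (nat_lit 76) (nat_lit 3500683752) (nat_lit 0) (nat_lit 7278626443) (nat_lit 1292) (nat_lit 7926735951) (nat_lit 281) (nat_lit 5) (nat_lit 280) (nat_lit 5) (nat_lit 297) (nat_lit 5) (nat_lit 435) (nat_lit 427) (nat_lit 338)) (XT.nd (nat_lit 78) (nat_lit 0) (nat_lit 76) (XT.lf (nat_lit 76) (nat_lit 1006839483) (nat_lit 0) (nat_lit 12424489981) (nat_lit 1292) (nat_lit 5762497811) (nat_lit 282) (nat_lit 5) (nat_lit 281) (nat_lit 5) (nat_lit 298) (nat_lit 5) (nat_lit 436) (nat_lit 427) (nat_lit 337)) (XT.lf (nat_lit 0) (nat_lit 16442158183) (nat_lit 1216) (nat_lit 1462128789) (nat_lit 76) (nat_lit 1794928901) (nat_lit 282) (nat_lit 5) (nat_lit 298) (nat_lit 5) (nat_lit 283) (nat_lit 5) (nat_lit 437) (nat_lit 427) (nat_lit 336)))) (XT.nd (nat_lit 78) (nat_lit 1444) (nat_lit 0) (XT.lf (nat_lit 0) (nat_lit 16274072157) (nat_lit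 1216) (nat_lit 3591651468) (nat_lit 1292) (nat_lit 356288861) (nat_lit 266) (nat_lit 5) (nat_lit 282) (nat_lit 5) (nat_lit 283) (nat_lit 5) (nat_lit 438) (nat_lit 427) (nat_lit 335)) (XT.nd (nat_lit 78) (nat_lit 608) (nat_lit 0) (XT.lf (nat_lit 0) (nat_lit 2883284067) (nat_lit 836) (nat_lit 6482794651) (nat_lit 76) (nat_lit 11396711289) (nat_lit 255) (nat_lit 5) (nat_lit 266) (nat_lit 5) (nat_lit 256) (nat_lit 5) (nat_lit 439) (nat_lit 427) (nat_lit 334)) (XT.lf (nat_lit 0) (nat_lit 6512037048) (nat_lit 684) (nat_lit 9025628836) (nat_lit 76) (nat_lit 5785801504) (nat_lit 247) (nat_lit 5) (nat_lit 256) (nat_lit 5) (nat_lit 248) (nat_lit 5) (nat_lit 440) (nat_lit 427) (nat_lit 333)))))) (XT.nd (nat_lit 468) (nat_lit 2660) (nat_lit 0) (XT.nd (nat_lit 234) (nat_lit 1596) (nat_lit 0) (XT.nd (nat_lit 78) (nat_lit 1064) (nat_lit 0) (XT.lf (nat_lit 0) (nat_lit 10332125319) (nat_lit 608) (nat_lit 233780012)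 (nat_lit 684) (nat_lit 11338966706) (nat_lit 239) (nat_lit 5) (nat_lit 247) (nat_lit 5) (nat_lit 248) (nat_lit 5) (nat_lit 441) (nat_lit 427) (nat_lit 332)) (XT.nd (nat_lit 78) (nat_lit 532) (nat_lit 0) (XT.lf (nat_lit 0) (nat_lit 8326030955) (nat_lit 532) (nat_lit 6805629663) (nat_lit 608) (nat_lit 7374414043) (nat_lit 232) (nat_lit 5) (nat_lit 239) (nat_lit 5) (nat_lit 240) (nat_lit 5) (nat_lit 442) (nat_lit 427) (nat_lit 331)) (XT.lf (nat_lit 0) (nat_lit 6341643791) (nat_lit 532) (nat_lit 13840711400) (nat_lit 608) (nat_lit 2947286061) (nat_lit 225) (nat_lit 5) (nat_lit 232) (nat_lit 5) (nat_lit 233) (nat_lit 5) (nat_lit 443) (nat_lit 427) (nat_lit 330)))) (XT.nd (nat_lit 78) (nat_lit 988) (nat_lit 0) (XT.lf (nat_lit 0) (nat_lit 1934309106) (nat_lit 608) (nat_lit 19412514924) (nat_lit 76) (nat_lit 2429085460) (nat_lit 217) (nat_lit 5) (nat_lit 225) (nat_lit 5) (nat_lit 218) (nat_lit 5) (nat_lit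 444) (nat_lit 427) (nat_lit 329)) (XT.nd (nat_lit 78) (nat_lit 456) (nat_lit 0) (XT.lf (nat_lit 0) (nat_lit 2331302416) (nat_lit 532) (nat_lit 4989718078) (nat_lit 608) (nat_lit 17122938468) (nat_lit 210) (nat_lit 5) (nat_lit 217) (nat_lit 5) (nat_lit 218) (nat_lit 5) (nat_lit 445) (nat_lit 427) (nat_lit 328)) (XT.lf (nat_lit 0) (nat_lit 298428771) (nat_lit 456) (nat_lit 12985790159) (nat_lit 532) (nat_lit 11851980268) (nat_lit 204) (nat_lit 5) (nat_lit 210) (nat_lit 5) (nat_lit 211) (nat_lit 5) (nat_lit 446) (nat_lit 427) (nat_lit 327))))) (XT.nd (nat_lit 234) (nat_lit 1672) (nat_lit 0) (XT.nd (nat_lit 78) (nat_lit 988) (nat_lit 0) (XT.lf (nat_lit 0) (nat_lit 19851398993) (nat_lit 532) (nat_lit 1673164495) (nat_lit 76) (nat_lit 4329316008) (nat_lit 204) (nat_lit 5) (nat_lit 211) (nat_lit 5) (nat_lit 205) (nat_lit 5) (nat_lit 447) (nat_lit 427) (nat_lit 326)) (XT.nd (nat_lit 78) (nat_lit 456)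 (nat_lit 0) (XT.lf (nat_lit 0) (nat_lit 478331559) (nat_lit 532) (nat_lit 3651506889) (nat_lit 76) (nat_lit 22467320849) (nat_lit 197) (nat_lit 5) (nat_lit 204) (nat_lit 5) (nat_lit 198) (nat_lit 5) (nat_lit 448) (nat_lit 427) (nat_lit 325)) (XT.lf (nat_lit 0) (nat_lit 7512752035) (nat_lit 532) (nat_lit 5705864286) (nat_lit 76) (nat_lit 14146594982) (nat_lit 191) (nat_lit 5) (nat_lit 198) (nat_lit 5) (nat_lit 192) (nat_lit 5) (nat_lit 449) (nat_lit 427) (nat_lit 324)))) (XT.nd (nat_lit 156) (nat_lit 836) (nat_lit 0) (XT.nd (nat_lit 78) (nat_lit 380) (nat_lit 0) (XT.lf (nat_lit 0) (nat_lit 15213926810) (nat_lit 532) (nat_lit 7731411092) (nat_lit 76) (nat_lit 5216879274) (nat_lit 185) (nat_lit 5) (nat_lit 192) (nat_lit 5) (nat_lit 186) (nat_lit 5) (nat_lit 450) (nat_lit 427) (nat_lit 323)) (XT.lf (nat_lit 0) (nat_lit 19221754409) (nat_lit 380) (nat_lit 4443684461) (nat_lit 456) (nat_lit 5322678273)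 (nat_lit 180) (nat_lit 5) (nat_lit 185) (nat_lit 5) (nat_lit 186) (nat_lit 5) (nat_lit 451) (nat_lit 427) (nat_lit 322))) (XT.nd (nat_lit 78) (nat_lit 380) (nat_lit 0) (XT.lf (nat_lit 0) (nat_lit 3021476014) (nat_lit 456) (nat_lit 11850715042) (nat_lit 76) (nat_lit 14970659769) (nat_lit 174) (nat_lit 5) (nat_lit 180) (nat_lit 5) (nat_lit 175) (nat_lit 5) (nat_lit 452) (nat_lit 427) (nat_lit 321)) (XT.lf (nat_lit 0) (nat_lit 12016920093) (nat_lit 456) (nat_lit 13957686273) (nat_lit 76) (nat_lit 4753810835) (nat_lit 169) (nat_lit 5) (nat_lit 175) (nat_lit 5) (nat_lit 170) (nat_lit 5) (nat_lit 453) (nat_lit 427) (nat_lit 320))))))) (XT.nd (nat_lit 1014) (nat_lit 2812) (nat_lit 0) (XT.nd (nat_lit 468) (nat_lit 1748) (nat_lit 0) (XT.nd (nat_lit 234) (nat_lit 988) (nat_lit 0) (XT.nd (nat_lit 78) (nat_lit 760) (nat_lit 0) (XT.lf (nat_lit 0) (nat_lit 15553383274) (nat_lit 380) (nat_lit 6320421166) (nat_lit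 456) (nat_lit 9772109223) (nat_lit 164) (nat_lit 5) (nat_lit 169) (nat_lit 5) (nat_lit 170) (nat_lit 5) (nat_lit 454) (nat_lit 427) (nat_lit 319)) (XT.nd (nat_lit 78) (nat_lit 380) (nat_lit 0) (XT.lf (nat_lit 0) (nat_lit 35726074) (nat_lit 380) (nat_lit 18244549615) (nat_lit 76) (nat_lit 14316703656) (nat_lit 159) (nat_lit 5) (nat_lit 164) (nat_lit 5) (nat_lit 160) (nat_lit 5) (nat_lit 455) (nat_lit 427) (nat_lit 318)) (XT.lf (nat_lit 0) (nat_lit 10506224490) (nat_lit 456) (nat_lit 20464861225) (nat_lit 76) (nat_lit 2610380375) (nat_lit 154) (nat_lit 5) (nat_lit 160) (nat_lit 5) (nat_lit 155) (nat_lit 5) (nat_lit 456) (nat_lit 427) (nat_lit 317)))) (XT.nd (nat_lit 78) (nat_lit 684) (nat_lit 0) (XT.lf (nat_lit 0) (nat_lit 11847781653) (nat_lit 304) (nat_lit 10130329062) (nat_lit 380) (nat_lit 12622732089) (nat_lit 150) (nat_lit 5) (nat_lit 154) (nat_lit 5) (nat_lit 155) (nat_lit 5) (nat_lit 457)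 (nat_lit 427) (nat_lit 316)) (XT.nd (nat_lit 78) (nat_lit 380) (nat_lit 0) (XT.lf (nat_lit 0) (nat_lit 10616538974) (nat_lit 304) (nat_lit 23824935197) (nat_lit 380) (nat_lit 1217179139) (nat_lit 146) (nat_lit 5) (nat_lit 150) (nat_lit 5) (nat_lit 151) (nat_lit 5) (nat_lit 458) (nat_lit 427) (nat_lit 315)) (XT.lf (nat_lit 0) (nat_lit 9327598602) (nat_lit 304) (nat_lit 1639910471) (nat_lit 380) (nat_lit 25786180114) (nat_lit 141) (nat_lit 5) (nat_lit 145) (nat_lit 5) (nat_lit 146) (nat_lit 5) (nat_lit 459) (nat_lit 427) (nat_lit 314))))) (XT.nd (nat_lit 234) (nat_lit 836) (nat_lit 0) (XT.nd (nat_lit 78) (nat_lit 608) (nat_lit 0) (XT.lf (nat_lit 0) (nat_lit 7961703701) (nat_lit 304) (nat_lit 16310445271) (nat_lit 380) (nat_lit 13614890907) (nat_lit 137) (nat_lit 5) (nat_lit 141) (nat_lit 5) (nat_lit 142) (nat_lit 5) (nat_lit 460) (nat_lit 427) (nat_lit 313)) (XT.nd (nat_lit 78) (nat_lit 380) (nat_lit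 0) (XT.lf (nat_lit 0) (nat_lit 6654453978) (nat_lit 228) (nat_lit 32009731999) (nat_lit 304) (nat_lit 400208386) (nat_lit 134) (nat_lit 5) (nat_lit 137) (nat_lit 5) (nat_lit 138) (nat_lit 5) (nat_lit 461) (nat_lit 427) (nat_lit 312)) (XT.lf (nat_lit 0) (nat_lit 5187598308) (nat_lit 304) (nat_lit 8541373593) (nat_lit 380) (nat_lit 26552258429) (nat_lit 129) (nat_lit 5) (nat_lit 133) (nat_lit 5) (nat_lit 134) (nat_lit 5) (nat_lit 462) (nat_lit 427) (nat_lit 311)))) (XT.nd (nat_lit 156) (nat_lit 228) (nat_lit 0) (XT.nd (nat_lit 78) (nat_lit 380) (nat_lit 0) (XT.lf (nat_lit 0) (nat_lit 3689822831) (nat_lit 228) (nat_lit 25385126997) (nat_lit 304) (nat_lit 12468281994) (nat_lit 126) (nat_lit 5) (nat_lit 129) (nat_lit 5) (nat_lit 130) (nat_lit 5) (nat_lit 463) (nat_lit 427) (nat_lit 310)) (XT.lf (nat_lit 0) (nat_lit 2206029289) (nat_lit 304) (nat_lit 532414746) (nat_lit 380) (nat_lit 40115306727) (nat_lit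 121) (nat_lit 5) (nat_lit 125) (nat_lit 5) (nat_lit 126) (nat_lit 5) (nat_lit 464) (nat_lit 427) (nat_lit 309))) (XT.nd (nat_lit 78) (nat_lit 0) (nat_lit 0) (XT.lf (nat_lit 0) (nat_lit 461881389) (nat_lit 228) (nat_lit 18623652988) (nat_lit 304) (nat_lit 25121422025) (nat_lit 118) (nat_lit 5) (nat_lit 121) (nat_lit 5) (nat_lit 122) (nat_lit 5) (nat_lit 465) (nat_lit 427) (nat_lit 308)) (XT.lf (nat_lit 0) (nat_lit 36740708809) (nat_lit 304) (nat_lit 1232038390) (nat_lit 76) (nat_lit 7640354132) (nat_lit 118) (nat_lit 5) (nat_lit 122) (nat_lit 5) (nat_lit 119) (nat_lit 5) (nat_lit 466) (nat_lit 427) (nat_lit 307)))))) (XT.nd (nat_lit 468) (nat_lit 1368) (nat_lit 0) (XT.nd (nat_lit 234) (nat_lit 684) (nat_lit 0) (XT.nd (nat_lit 78) (nat_lit 456) (nat_lit 0) (XT.lf (nat_lit 0) (nat_lit 8639238869) (nat_lit 304) (nat_lit 3089830071) (nat_lit 76) (nat_lit 35339825367) (nat_lit 114) (nat_lit 5) (nat_lit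 118) (nat_lit 5) (nat_lit 115) (nat_lit 5) (nat_lit 467) (nat_lit 427) (nat_lit 306)) (XT.nd (nat_lit 78) (nat_lit 228) (nat_lit 0) (XT.lf (nat_lit 0) (nat_lit 27426696038) (nat_lit 304) (nat_lit 5110315077) (nat_lit 76) (nat_lit 16040319076) (nat_lit 111) (nat_lit 5) (nat_lit 115) (nat_lit 5) (nat_lit 112) (nat_lit 5) (nat_lit 468) (nat_lit 427) (nat_lit 305)) (XT.lf (nat_lit 0) (nat_lit 42963827613) (nat_lit 228) (nat_lit 4745974820) (nat_lit 304) (nat_lit 2434697894) (nat_lit 108) (nat_lit 5) (nat_lit 111) (nat_lit 5) (nat_lit 112) (nat_lit 5) (nat_lit 469) (nat_lit 427) (nat_lit 304)))) (XT.nd (nat_lit 78) (nat_lit 456) (nat_lit 0) (XT.lf (nat_lit 0) (nat_lit 17575840967) (nat_lit 228) (nat_lit 9602614257) (nat_lit 76) (nat_lit 24585766256) (nat_lit 105) (nat_lit 5) (nat_lit 108) (nat_lit 5) (nat_lit 106) (nat_lit 5) (nat_lit 470) (nat_lit 427) (nat_lit 303)) (XT.nd (nat_lit 78) (nat_lit 228)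 (nat_lit 0) (XT.lf (nat_lit 0) (nat_lit 39072880683) (nat_lit 304) (nat_lit 12090077548) (nat_lit 76) (nat_lit 2285158127) (nat_lit 102) (nat_lit 5) (nat_lit 106) (nat_lit 5) (nat_lit 103) (nat_lit 5) (nat_lit 471) (nat_lit 427) (nat_lit 302)) (XT.lf (nat_lit 0) (nat_lit 7065963432) (nat_lit 228) (nat_lit 14907839528) (nat_lit 76) (nat_lit 33217664526) (nat_lit 99) (nat_lit 5) (nat_lit 102) (nat_lit 5) (nat_lit 100) (nat_lit 5) (nat_lit 472) (nat_lit 427) (nat_lit 301))))) (XT.nd (nat_lit 234) (nat_lit 684) (nat_lit 0) (XT.nd (nat_lit 78) (nat_lit 456) (nat_lit 0) (XT.lf (nat_lit 0) (nat_lit 29869576639) (nat_lit 304) (nat_lit 17976289376) (nat_lit 76) (nat_lit 9154221184) (nat_lit 96) (nat_lit 5) (nat_lit 100) (nat_lit 5) (nat_lit 97) (nat_lit 5) (nat_lit 473) (nat_lit 427) (nat_lit 300)) (XT.nd (nat_lit 78) (nat_lit 304) (nat_lit 0) (XT.lf (nat_lit 0) (nat_lit 37567812291) (nat_lit 152) (nat_lit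 16977064254) (nat_lit 228) (nat_lit 4332316726) (nat_lit 94) (nat_lit 5) (nat_lit 96) (nat_lit 5) (nat_lit 97) (nat_lit 5) (nat_lit 474) (nat_lit 427) (nat_lit 299)) (XT.lf (nat_lit 0) (nat_lit 19904609892) (nat_lit 304) (nat_lit 25060133780) (nat_lit 76) (nat_lit 15857315523) (nat_lit 90) (nat_lit 5) (nat_lit 94) (nat_lit 5) (nat_lit 91) (nat_lit 5) (nat_lit 475) (nat_lit 427) (nat_lit 298)))) (XT.nd (nat_lit 156) (nat_lit 304) (nat_lit 0) (XT.nd (nat_lit 78) (nat_lit 228) (nat_lit 0) (XT.lf (nat_lit 0) (nat_lit 33704335123) (nat_lit 152) (nat_lit 12271061154) (nat_lit 228) (nat_lit 16866137428) (nat_lit 88) (nat_lit 5) (nat_lit 90) (nat_lit 5) (nat_lit 91) (nat_lit 5) (nat_lit 476) (nat_lit 427) (nat_lit 297)) (XT.lf (nat_lit 0) (nat_lit 8999763244) (nat_lit 228) (nat_lit 33663722338) (nat_lit 76) (nat_lit 22272807022) (nat_lit 85) (nat_lit 5) (nat_lit 88) (nat_lit 5) (nat_lit 86) (nat_lit 5)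 (nat_lit 477) (nat_lit 427) (nat_lit 296))) (XT.nd (nat_lit 78) (nat_lit 152) (nat_lit 0) (XT.lf (nat_lit 0) (nat_lit 28432412743) (nat_lit 152) (nat_lit 8075229921) (nat_lit 228) (nat_lit 30602212430) (nat_lit 83) (nat_lit 5) (nat_lit 85) (nat_lit 5) (nat_lit 86) (nat_lit 5) (nat_lit 478) (nat_lit 427) (nat_lit 295)) (XT.lf (nat_lit 0) (nat_lit 25161097593) (nat_lit 152) (nat_lit 41087457548) (nat_lit 228) (nat_lit 3117811804) (nat_lit 81) (nat_lit 5) (nat_lit 83) (nat_lit 5) (nat_lit 84) (nat_lit 5) (nat_lit 479) (nat_lit 427) (nat_lit 294))))))))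
noncomputable def xc93 : XT := (XT.nd (nat_lit 59280) (nat_lit 0) (nat_lit 5776) (XT.nd (nat_lit 936) (nat_lit 532) (nat_lit 0) (XT.nd (nat_lit 468) (nat_lit 836) (nat_lit 0) (XT.nd (nat_lit 234) (nat_lit 380) (nat_lit 0) (XT.nd (nat_lit 78) (nat_lit 380) (nat_lit 0) (XT.lf (nat_lit 0) (nat_lit 21349857668) (nat_lit 152) (nat_lit 4571924113) (nat_lit 228) (nat_lit 45786001830) (nat_lit 78) (nat_lit 5) (nat_lit 80) (nat_lit 5) (nat_lit 81) (nat_lit 5) (nat_lit 480) (nat_lit 427) (nat_lit 293)) (XT.nd (nat_lit 78) (nat_lit 228) (nat_lit 0) (XT.lf (nat_lit 0) (nat_lit 16913582968) (nat_lit 152) (nat_lit 40377220341) (nat_lit 228) (nat_lit 16846284198) (nat_lit 76) (nat_lit 5) (nat_lit 78) (nat_lit 5) (nat_lit 79) (nat_lit 5) (nat_lit 481) (nat_lit 427) (nat_lit 292)) (XT.lf (nat_lit 0) (nat_lit 11971277164) (nat_lit 152) (nat_lit 1984352975) (nat_lit 228) (nat_lit 62707939032) (nat_lit 73) (nat_lit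 5) (nat_lit 75) (nat_lit 5) (nat_lit 76) (nat_lit 5) (nat_lit 482) (nat_lit 427) (nat_lit 291)))) (XT.nd (nat_lit 78) (nat_lit 228) (nat_lit 0) (XT.lf (nat_lit 0) (nat_lit 6087972898) (nat_lit 152) (nat_lit 40881164671) (nat_lit 228) (nat_lit 32311636689) (nat_lit 71) (nat_lit 5) (nat_lit 73) (nat_lit 5) (nat_lit 74) (nat_lit 5) (nat_lit 483) (nat_lit 427) (nat_lit 290)) (XT.nd (nat_lit 78) (nat_lit 152) (nat_lit 0) (XT.lf (nat_lit 0) (nat_lit 299692702) (nat_lit 228) (nat_lit 281806458) (nat_lit 76) (nat_lit 81426829974) (nat_lit 70) (nat_lit 5) (nat_lit 73) (nat_lit 5) (nat_lit 71) (nat_lit 5) (nat_lit 484) (nat_lit 427) (nat_lit 289)) (XT.lf (nat_lit 0) (nat_lit 35030944379) (nat_lit 228) (nat_lit 7800869067) (nat_lit 76) (nat_lit 41996122770) (nat_lit 68) (nat_lit 5) (nat_lit 71) (nat_lit 5) (nat_lit 69) (nat_lit 5) (nat_lit 485) (nat_lit 427) (nat_lit 288))))) (XT.nd (nat_lit 234) (nat_lit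 380) (nat_lit 0) (XT.nd (nat_lit 78) (nat_lit 304) (nat_lit 0) (XT.lf (nat_lit 0) (nat_lit 71805456681) (nat_lit 152) (nat_lit 387613160) (nat_lit 228) (nat_lit 15574624743) (nat_lit 66) (nat_lit 5) (nat_lit 68) (nat_lit 5) (nat_lit 69) (nat_lit 5) (nat_lit 486) (nat_lit 427) (nat_lit 287)) (XT.nd (nat_lit 78) (nat_lit 152) (nat_lit 0) (XT.lf (nat_lit 0) (nat_lit 21104028717) (nat_lit 152) (nat_lit 25479229272) (nat_lit 76) (nat_lit 44231038791) (nat_lit 64) (nat_lit 5) (nat_lit 66) (nat_lit 5) (nat_lit 65) (nat_lit 5) (nat_lit 487) (nat_lit 427) (nat_lit 286)) (XT.lf (nat_lit 0) (nat_lit 57982855412) (nat_lit 152) (nat_lit 2037346986) (nat_lit 228) (nat_lit 33966629954) (nat_lit 62) (nat_lit 5) (nat_lit 64) (nat_lit 5) (nat_lit 65) (nat_lit 5) (nat_lit 488) (nat_lit 427) (nat_lit 285)))) (XT.nd (nat_lit 78) (nat_lit 228) (nat_lit 0) (XT.lf (nat_lit 0) (nat_lit 4671169573) (nat_lit 152) (nat_lit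 47966081644) (nat_lit 76) (nat_lit 44644419978) (nat_lit 60) (nat_lit 5) (nat_lit 62) (nat_lit 5) (nat_lit 61) (nat_lit 5) (nat_lit 489) (nat_lit 427) (nat_lit 284)) (XT.nd (nat_lit 78) (nat_lit 76) (nat_lit 0) (XT.lf (nat_lit 0) (nat_lit 39315427006) (nat_lit 152) (nat_lit 5997936232) (nat_lit 228) (nat_lit 55394550265) (nat_lit 58) (nat_lit 5) (nat_lit 60) (nat_lit 5) (nat_lit 61) (nat_lit 5) (nat_lit 490) (nat_lit 427) (nat_lit 283)) (XT.lf (nat_lit 0) (nat_lit 27789065684) (nat_lit 76) (nat_lit 61373235489) (nat_lit 152) (nat_lit 15107927912) (nat_lit 57) (nat_lit 5) (nat_lit 58) (nat_lit 5) (nat_lit 59) (nat_lit 4) (nat_lit 491) (nat_lit 427) (nat_lit 282)))))) (XT.nd (nat_lit 57798) (nat_lit 0) (nat_lit 17252) (XT.nd (nat_lit 57564) (nat_lit 0) (nat_lit 17100) (XT.nd (nat_lit 234) (nat_lit 304) (nat_lit 0) (XT.lf (nat_lit 0) (nat_lit 14671227650) (nat_lit 152) (nat_lit 12826822660) (nat_lit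 228) (nat_lit 80479698680) (nat_lit 54) (nat_lit 5) (nat_lit 56) (nat_lit 5) (nat_lit 57) (nat_lit 5) (nat_lit 492) (nat_lit 427) (nat_lit 281)) (XT.nd (nat_lit 57252) (nat_lit 0) (nat_lit 17024) (XT.lf (nat_lit 0) (nat_lit 53420201892) (nat_lit 228) (nat_lit 35994180622) (nat_lit 76) (nat_lit 30596877426) (nat_lit 50) (nat_lit 5) (nat_lit 53) (nat_lit 5) (nat_lit 51) (nat_lit 4) (nat_lit 495) (nat_lit 427) (nat_lit 278)) (XT.lf (nat_lit 0) (nat_lit 353721990) (nat_lit 1292) (nat_lit 3850500890) (nat_lit 1292) (nat_lit 3850500890) (nat_lit 274) (nat_lit 3) (nat_lit 291) (nat_lit 3) (nat_lit 291) (nat_lit 5) (nat_lit 428) (nat_lit 428) (nat_lit 344)))) (XT.nd (nat_lit 78) (nat_lit 0) (nat_lit 76) (XT.lf (nat_lit 0) (nat_lit 1240491628) (nat_lit 1216) (nat_lit 10978206674) (nat_lit 1292) (nat_lit 4277926876) (nat_lit 275) (nat_lit 5) (nat_lit 291) (nat_lit 5) (nat_lit 292) (nat_lit 5) (nat_lit 429)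 (nat_lit 428) (nat_lit 343)) (XT.nd (nat_lit 78) (nat_lit 0) (nat_lit 0) (XT.lf (nat_lit 0) (nat_lit 1969514616) (nat_lit 1216) (nat_lit 14295331619) (nat_lit 1292) (nat_lit 633242029) (nat_lit 276) (nat_lit 5) (nat_lit 292) (nat_lit 5) (nat_lit 293) (nat_lit 5) (nat_lit 430) (nat_lit 428) (nat_lit 342)) (XT.lf (nat_lit 0) (nat_lit 2946797401) (nat_lit 1216) (nat_lit 364016760) (nat_lit 1292) (nat_lit 14002462040) (nat_lit 276) (nat_lit 5) (nat_lit 292) (nat_lit 5) (nat_lit 293) (nat_lit 5) (nat_lit 431) (nat_lit 428) (nat_lit 341))))) (XT.nd (nat_lit 234) (nat_lit 0) (nat_lit 152) (XT.nd (nat_lit 78) (nat_lit 0) (nat_lit 76) (XT.lf (nat_lit 0) (nat_lit 4188613529) (nat_lit 1216) (nat_lit 3313499807) (nat_lit 1292) (nat_lit 10240645796) (nat_lit 277) (nat_lit 5) (nat_lit 293) (nat_lit 5) (nat_lit 294) (nat_lit 5) (nat_lit 432) (nat_lit 428) (nat_lit 340)) (XT.nd (nat_lit 78) (nat_lit 0) (nat_lit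 76) (XT.lf (nat_lit 0) (nat_lit 5682324299) (nat_lit 1216) (nat_lit 6289794979) (nat_lit 1292) (nat_lit 6215908218) (nat_lit 278) (nat_lit 5) (nat_lit 294) (nat_lit 5) (nat_lit 295) (nat_lit 5) (nat_lit 433) (nat_lit 428) (nat_lit 339)) (XT.lf (nat_lit 0) (nat_lit 7447476156) (nat_lit 1216) (nat_lit 9292239757) (nat_lit 1292) (nat_lit 1909945845) (nat_lit 279) (nat_lit 5) (nat_lit 295) (nat_lit 5) (nat_lit 296) (nat_lit 5) (nat_lit 434) (nat_lit 428) (nat_lit 338)))) (XT.nd (nat_lit 156) (nat_lit 0) (nat_lit 152) (XT.nd (nat_lit 78) (nat_lit 0) (nat_lit 76) (XT.lf (nat_lit 76) (nat_lit 6781120930) (nat_lit 0) (nat_lit 2749880499) (nat_lit 1292) (nat_lit 9596477729) (nat_lit 280) (nat_lit 5) (nat_lit 279) (nat_lit 5) (nat_lit 296) (nat_lit 5) (nat_lit 435) (nat_lit 428) (nat_lit 337)) (XT.lf (nat_lit 76) (nat_lit 4175838119) (nat_lit 0) (nat_lit 7773999110) (nat_lit 1292) (nat_lit 7672420838) (nat_lit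 281) (nat_lit 5) (nat_lit 280) (nat_lit 5) (nat_lit 297) (nat_lit 5) (nat_lit 436) (nat_lit 428) (nat_lit 336))) (XT.nd (nat_lit 78) (nat_lit 0) (nat_lit 76) (XT.lf (nat_lit 76) (nat_lit 1562736232) (nat_lit 0) (nat_lit 13145303245) (nat_lit 1292) (nat_lit 5427188151) (nat_lit 282) (nat_lit 5) (nat_lit 281) (nat_lit 5) (nat_lit 298) (nat_lit 5) (nat_lit 437) (nat_lit 428) (nat_lit 335)) (XT.lf (nat_lit 0) (nat_lit 17839681551) (nat_lit 1216) (nat_lit 1035422757) (nat_lit 76) (nat_lit 1791679699) (nat_lit 282) (nat_lit 5) (nat_lit 298) (nat_lit 5) (nat_lit 283) (nat_lit 5) (nat_lit 438) (nat_lit 428) (nat_lit 334))))))) (XT.nd (nat_lit 1014) (nat_lit 4484) (nat_lit 0) (XT.nd (nat_lit 468) (nat_lit 3040) (nat_lit 0) (XT.nd (nat_lit 234) (nat_lit 1672) (nat_lit 0) (XT.nd (nat_lit 78) (nat_lit 1368) (nat_lit 0) (XT.lf (nat_lit 0) (nat_lit 191471973) (nat_lit 1292) (nat_lit 3645024636) (nat_lit 76)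 (nat_lit 17379855746) (nat_lit 265) (nat_lit 5) (nat_lit 282) (nat_lit 5) (nat_lit 266) (nat_lit 5) (nat_lit 439) (nat_lit 428) (nat_lit 333)) (XT.nd (nat_lit 78) (nat_lit 608) (nat_lit 0) (XT.lf (nat_lit 0) (nat_lit 3563259149) (nat_lit 836) (nat_lit 6307733917) (nat_lit 76) (nat_lit 11913747464) (nat_lit 255) (nat_lit 5) (nat_lit 266) (nat_lit 5) (nat_lit 256) (nat_lit 5) (nat_lit 440) (nat_lit 428) (nat_lit 332)) (XT.lf (nat_lit 0) (nat_lit 7352307031) (nat_lit 684) (nat_lit 8976172372) (nat_lit 76) (nat_lit 6045612119) (nat_lit 247) (nat_lit 5) (nat_lit 256) (nat_lit 5) (nat_lit 248) (nat_lit 5) (nat_lit 441) (nat_lit 428) (nat_lit 331)))) (XT.nd (nat_lit 78) (nat_lit 1064) (nat_lit 0) (XT.lf (nat_lit 0) (nat_lit 11335115939) (nat_lit 608) (nat_lit 253920206) (nat_lit 684) (nat_lit 11396130436) (nat_lit 239) (nat_lit 5) (nat_lit 247) (nat_lit 5) (nat_lit 248) (nat_lit 5) (nat_lit 442) (nat_lit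 428) (nat_lit 330)) (XT.nd (nat_lit 78) (nat_lit 532) (nat_lit 0) (XT.lf (nat_lit 0) (nat_lit 9229374203) (nat_lit 532) (nat_lit 7134745769) (nat_lit 608) (nat_lit 7252883093) (nat_lit 232) (nat_lit 5) (nat_lit 239) (nat_lit 5) (nat_lit 240) (nat_lit 5) (nat_lit 443) (nat_lit 428) (nat_lit 329)) (XT.lf (nat_lit 0) (nat_lit 7145665740) (nat_lit 532) (nat_lit 14503805737) (nat_lit 608) (nat_lit 2622817558) (nat_lit 225) (nat_lit 5) (nat_lit 232) (nat_lit 5) (nat_lit 233) (nat_lit 5) (nat_lit 444) (nat_lit 428) (nat_lit 328))))) (XT.nd (nat_lit 234) (nat_lit 1444) (nat_lit 0) (XT.nd (nat_lit 78) (nat_lit 988) (nat_lit 0) (XT.lf (nat_lit 0) (nat_lit 2476607426) (nat_lit 608) (nat_lit 19888036256) (nat_lit 76) (nat_lit 2586606581) (nat_lit 217) (nat_lit 5) (nat_lit 225) (nat_lit 5) (nat_lit 218) (nat_lit 5) (nat_lit 445) (nat_lit 428) (nat_lit 327)) (XT.nd (nat_lit 78) (nat_lit 456) (nat_lit 0) (XT.lf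 (nat_lit 0) (nat_lit 2928779882) (nat_lit 532) (nat_lit 5187279093) (nat_lit 608) (nat_lit 17537145248) (nat_lit 210) (nat_lit 5) (nat_lit 217) (nat_lit 5) (nat_lit 218) (nat_lit 5) (nat_lit 446) (nat_lit 428) (nat_lit 326)) (XT.lf (nat_lit 0) (nat_lit 792573873) (nat_lit 456) (nat_lit 13569497443) (nat_lit 532) (nat_lit 12018449492) (nat_lit 204) (nat_lit 5) (nat_lit 210) (nat_lit 5) (nat_lit 211) (nat_lit 5) (nat_lit 447) (nat_lit 428) (nat_lit 325)))) (XT.nd (nat_lit 156) (nat_lit 912) (nat_lit 0) (XT.nd (nat_lit 78) (nat_lit 532) (nat_lit 0) (XT.lf (nat_lit 0) (nat_lit 21238513567) (nat_lit 532) (nat_lit 1289125960) (nat_lit 76) (nat_lit 4607022264) (nat_lit 204) (nat_lit 5) (nat_lit 211) (nat_lit 5) (nat_lit 205) (nat_lit 5) (nat_lit 448) (nat_lit 428) (nat_lit 324)) (XT.lf (nat_lit 0) (nat_lit 886205792) (nat_lit 532) (nat_lit 3372080735) (nat_lit 76) (nat_lit 23657142342) (nat_lit 197)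 (nat_lit 5) (nat_lit 204) (nat_lit 5) (nat_lit 198) (nat_lit 5) (nat_lit 449) (nat_lit 428) (nat_lit 323))) (XT.nd (nat_lit 78) (nat_lit 456) (nat_lit 0) (XT.lf (nat_lit 0) (nat_lit 8259134525) (nat_lit 532) (nat_lit 5531990397) (nat_lit 76) (nat_lit 14931158254) (nat_lit 191) (nat_lit 5) (nat_lit 198) (nat_lit 5) (nat_lit 192) (nat_lit 5) (nat_lit 450) (nat_lit 428) (nat_lit 322)) (XT.lf (nat_lit 0) (nat_lit 16332852737) (nat_lit 532) (nat_lit 7662043903) (nat_lit 76) (nat_lit 5564621321) (nat_lit 185) (nat_lit 5) (nat_lit 192) (nat_lit 5) (nat_lit 186) (nat_lit 5) (nat_lit 451) (nat_lit 428) (nat_lit 321)))))) (XT.nd (nat_lit 468) (nat_lit 2128) (nat_lit 0) (XT.nd (nat_lit 234) (nat_lit 1140) (nat_lit 0) (XT.nd (nat_lit 78) (nat_lit 836) (nat_lit 0) (XT.lf (nat_lit 0) (nat_lit 20625710510) (nat_lit 380) (nat_lit 4568428460) (nat_lit 456) (nat_lit 5232961008) (nat_lit 180) (nat_lit 5) (nat_lit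 185) (nat_lit 5) (nat_lit 186) (nat_lit 5) (nat_lit 452) (nat_lit 428) (nat_lit 320)) (XT.nd (nat_lit 78) (nat_lit 380) (nat_lit 0) (XT.lf (nat_lit 0) (nat_lit 3510008795) (nat_lit 456) (nat_lit 11997090968) (nat_lit 76) (nat_lit 15817714193) (nat_lit 174) (nat_lit 5) (nat_lit 180) (nat_lit 5) (nat_lit 175) (nat_lit 5) (nat_lit 453) (nat_lit 428) (nat_lit 319)) (XT.lf (nat_lit 0) (nat_lit 12944357815) (nat_lit 456) (nat_lit 14213416577) (nat_lit 76) (nat_lit 5097212925) (nat_lit 169) (nat_lit 5) (nat_lit 175) (nat_lit 5) (nat_lit 170) (nat_lit 5) (nat_lit 454) (nat_lit 428) (nat_lit 318)))) (XT.nd (nat_lit 78) (nat_lit 760) (nat_lit 0) (XT.lf (nat_lit 0) (nat_lit 16760532192) (nat_lit 380) (nat_lit 6522130623) (nat_lit 456) (nat_lit 9936041018) (nat_lit 164) (nat_lit 5) (nat_lit 169) (nat_lit 5) (nat_lit 170) (nat_lit 5) (nat_lit 455) (nat_lit 428) (nat_lit 317)) (XT.nd (nat_lit 78) (nat_lit 380)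 (nat_lit 0) (XT.lf (nat_lit 0) (nat_lit 345877460) (nat_lit 380) (nat_lit 18725258852) (nat_lit 76) (nat_lit 15146394382) (nat_lit 159) (nat_lit 5) (nat_lit 164) (nat_lit 5) (nat_lit 160) (nat_lit 5) (nat_lit 456) (nat_lit 428) (nat_lit 316)) (XT.lf (nat_lit 0) (nat_lit 11330413203) (nat_lit 456) (nat_lit 21061147021) (nat_lit 76) (nat_lit 2859968402) (nat_lit 154) (nat_lit 5) (nat_lit 160) (nat_lit 5) (nat_lit 155) (nat_lit 5) (nat_lit 457) (nat_lit 428) (nat_lit 315))))) (XT.nd (nat_lit 234) (nat_lit 1140) (nat_lit 0) (XT.nd (nat_lit 78) (nat_lit 684) (nat_lit 0) (XT.lf (nat_lit 0) (nat_lit 12854889357) (nat_lit 304) (nat_lit 10510758651) (nat_lit 380) (nat_lit 12956535657) (nat_lit 150) (nat_lit 5) (nat_lit 154) (nat_lit 5) (nat_lit 155) (nat_lit 5) (nat_lit 458) (nat_lit 428) (nat_lit 314)) (XT.nd (nat_lit 78) (nat_lit 380) (nat_lit 0) (XT.lf (nat_lit 0) (nat_lit 11557471296) (nat_lit 304)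 (nat_lit 24886060464) (nat_lit 380) (nat_lit 989614388) (nat_lit 146) (nat_lit 5) (nat_lit 150) (nat_lit 5) (nat_lit 151) (nat_lit 5) (nat_lit 459) (nat_lit 428) (nat_lit 313)) (XT.lf (nat_lit 0) (nat_lit 10197833187) (nat_lit 304) (nat_lit 1591262506) (nat_lit 380) (nat_lit 26794044344) (nat_lit 141) (nat_lit 5) (nat_lit 145) (nat_lit 5) (nat_lit 146) (nat_lit 5) (nat_lit 460) (nat_lit 428) (nat_lit 312)))) (XT.nd (nat_lit 156) (nat_lit 608) (nat_lit 0) (XT.nd (nat_lit 78) (nat_lit 228) (nat_lit 0) (XT.lf (nat_lit 0) (nat_lit 8758844895) (nat_lit 304) (nat_lit 16992144631) (nat_lit 380) (nat_lit 14022409854) (nat_lit 137) (nat_lit 5) (nat_lit 141) (nat_lit 5) (nat_lit 142) (nat_lit 5) (nat_lit 461) (nat_lit 428) (nat_lit 311)) (XT.lf (nat_lit 0) (nat_lit 7381307702) (nat_lit 228) (nat_lit 33473704292) (nat_lit 304) (nat_lit 154839778) (nat_lit 134) (nat_lit 5) (nat_lit 137) (nat_lit 5) (nat_lit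 138) (nat_lit 5) (nat_lit 462) (nat_lit 428) (nat_lit 310))) (XT.nd (nat_lit 78) (nat_lit 228) (nat_lit 0) (XT.lf (nat_lit 0) (nat_lit 5834873504) (nat_lit 304) (nat_lit 8832085705) (nat_lit 380) (nat_lit 27620755216) (nat_lit 129) (nat_lit 5) (nat_lit 133) (nat_lit 5) (nat_lit 134) (nat_lit 5) (nat_lit 463) (nat_lit 428) (nat_lit 309)) (XT.lf (nat_lit 0) (nat_lit 4257177360) (nat_lit 228) (nat_lit 26516009282) (nat_lit 304) (nat_lit 12839842320) (nat_lit 126) (nat_lit 5) (nat_lit 129) (nat_lit 5) (nat_lit 130) (nat_lit 5) (nat_lit 464) (nat_lit 428) (nat_lit 308))))))))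
noncomputable def xc94 : XT := (XT.nd (nat_lit 1950) (nat_lit 380) (nat_lit 0) (XT.nd (nat_lit 936) (nat_lit 2128) (nat_lit 0) (XT.nd (nat_lit 468) (nat_lit 1368) (nat_lit 0) (XT.nd (nat_lit 234) (nat_lit 760) (nat_lit 0) (XT.nd (nat_lit 78) (nat_lit 228) (nat_lit 0) (XT.lf (nat_lit 0) (nat_lit 2693021213) (nat_lit 304) (nat_lit 421146192) (nat_lit 380) (nat_lit 41875079331) (nat_lit 121) (nat_lit 5) (nat_lit 125) (nat_lit 5) (nat_lit 126) (nat_lit 5) (nat_lit 465) (nat_lit 428) (nat_lit 307)) (XT.nd (nat_lit 78) (nat_lit 0) (nat_lit 0) (XT.lf (nat_lit 0) (nat_lit 856566100) (nat_lit 228) (nat_lit 19415508996) (nat_lit 304) (nat_lit 26138234989) (nat_lit 118) (nat_lit 5) (nat_lit 121) (nat_lit 5) (nat_lit 122) (nat_lit 5) (nat_lit 466) (nat_lit 428) (nat_lit 306)) (XT.lf (nat_lit 0) (nat_lit 38800223576) (nat_lit 304) (nat_lit 934358894) (nat_lit 76) (nat_lit 8152474578) (nat_lit 118) (nat_lit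 5) (nat_lit 122) (nat_lit 5) (nat_lit 119) (nat_lit 5) (nat_lit 467) (nat_lit 428) (nat_lit 305)))) (XT.nd (nat_lit 78) (nat_lit 456) (nat_lit 0) (XT.lf (nat_lit 0) (nat_lit 9288594923) (nat_lit 304) (nat_lit 2890989232) (nat_lit 76) (nat_lit 37236209957) (nat_lit 114) (nat_lit 5) (nat_lit 118) (nat_lit 5) (nat_lit 115) (nat_lit 5) (nat_lit 468) (nat_lit 428) (nat_lit 304)) (XT.nd (nat_lit 78) (nat_lit 228) (nat_lit 0) (XT.lf (nat_lit 0) (nat_lit 29009649099) (nat_lit 304) (nat_lit 5017571629) (nat_lit 76) (nat_lit 16972605437) (nat_lit 111) (nat_lit 5) (nat_lit 115) (nat_lit 5) (nat_lit 112) (nat_lit 5) (nat_lit 469) (nat_lit 428) (nat_lit 303)) (XT.lf (nat_lit 0) (nat_lit 45450295416) (nat_lit 228) (nat_lit 4849790058) (nat_lit 304) (nat_lit 2345475142) (nat_lit 108) (nat_lit 5) (nat_lit 111) (nat_lit 5) (nat_lit 112) (nat_lit 5) (nat_lit 470) (nat_lit 428) (nat_lit 302))))) (XT.nd (nat_lit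 234) (nat_lit 684) (nat_lit 0) (XT.nd (nat_lit 78) (nat_lit 456) (nat_lit 0) (XT.lf (nat_lit 0) (nat_lit 18656094480) (nat_lit 228) (nat_lit 9745394659) (nat_lit 76) (nat_lit 25944880208) (nat_lit 105) (nat_lit 5) (nat_lit 108) (nat_lit 5) (nat_lit 106) (nat_lit 5) (nat_lit 471) (nat_lit 428) (nat_lit 301)) (XT.nd (nat_lit 78) (nat_lit 228) (nat_lit 0) (XT.lf (nat_lit 0) (nat_lit 41222817872) (nat_lit 304) (nat_lit 12362307446) (nat_lit 76) (nat_lit 2529489621) (nat_lit 102) (nat_lit 5) (nat_lit 106) (nat_lit 5) (nat_lit 103) (nat_lit 5) (nat_lit 472) (nat_lit 428) (nat_lit 300)) (XT.lf (nat_lit 0) (nat_lit 7611208817) (nat_lit 228) (nat_lit 15326644915) (nat_lit 76) (nat_lit 35007411660) (nat_lit 99) (nat_lit 5) (nat_lit 102) (nat_lit 5) (nat_lit 100) (nat_lit 5) (nat_lit 473) (nat_lit 428) (nat_lit 299)))) (XT.nd (nat_lit 78) (nat_lit 456) (nat_lit 0) (XT.lf (nat_lit 0) (nat_lit 31550174500)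 (nat_lit 304) (nat_lit 18553549665) (nat_lit 76) (nat_lit 9740737583) (nat_lit 96) (nat_lit 5) (nat_lit 100) (nat_lit 5) (nat_lit 97) (nat_lit 5) (nat_lit 474) (nat_lit 428) (nat_lit 298)) (XT.nd (nat_lit 78) (nat_lit 304) (nat_lit 0) (XT.lf (nat_lit 0) (nat_lit 39758539799) (nat_lit 152) (nat_lit 17694791545) (nat_lit 228) (nat_lit 4362269794) (nat_lit 94) (nat_lit 5) (nat_lit 96) (nat_lit 5) (nat_lit 97) (nat_lit 5) (nat_lit 475) (nat_lit 428) (nat_lit 297)) (XT.lf (nat_lit 0) (nat_lit 21078342472) (nat_lit 304) (nat_lit 26002118618) (nat_lit 76) (nat_lit 16777331701) (nat_lit 90) (nat_lit 5) (nat_lit 94) (nat_lit 5) (nat_lit 91) (nat_lit 5) (nat_lit 476) (nat_lit 428) (nat_lit 296)))))) (XT.nd (nat_lit 468) (nat_lit 1064) (nat_lit 0) (XT.nd (nat_lit 234) (nat_lit 532) (nat_lit 0) (XT.nd (nat_lit 78) (nat_lit 380) (nat_lit 0) (XT.lf (nat_lit 0) (nat_lit 35691658351) (nat_lit 152) (nat_lit 12755413759)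 (nat_lit 228) (nat_lit 17531337481) (nat_lit 88) (nat_lit 5) (nat_lit 90) (nat_lit 5) (nat_lit 91) (nat_lit 5) (nat_lit 477) (nat_lit 428) (nat_lit 295)) (XT.nd (nat_lit 78) (nat_lit 152) (nat_lit 0) (XT.lf (nat_lit 0) (nat_lit 9620147514) (nat_lit 228) (nat_lit 35046212629) (nat_lit 76) (nat_lit 23511622615) (nat_lit 85) (nat_lit 5) (nat_lit 88) (nat_lit 5) (nat_lit 86) (nat_lit 5) (nat_lit 478) (nat_lit 428) (nat_lit 294)) (XT.lf (nat_lit 0) (nat_lit 30146109821) (nat_lit 152) (nat_lit 8352004600) (nat_lit 228) (nat_lit 31962268745) (nat_lit 83) (nat_lit 5) (nat_lit 85) (nat_lit 5) (nat_lit 86) (nat_lit 5) (nat_lit 479) (nat_lit 428) (nat_lit 293)))) (XT.nd (nat_lit 78) (nat_lit 380) (nat_lit 0) (XT.lf (nat_lit 0) (nat_lit 26706493288) (nat_lit 152) (nat_lit 43015642468) (nat_lit 228) (nat_lit 3107703528) (nat_lit 81) (nat_lit 5) (nat_lit 83) (nat_lit 5) (nat_lit 84) (nat_lit 5) (nat_lit 480)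 (nat_lit 428) (nat_lit 292)) (XT.nd (nat_lit 78) (nat_lit 152) (nat_lit 0) (XT.lf (nat_lit 0) (nat_lit 22699611955) (nat_lit 152) (nat_lit 4675981356) (nat_lit 228) (nat_lit 47912837246) (nat_lit 78) (nat_lit 5) (nat_lit 80) (nat_lit 5) (nat_lit 81) (nat_lit 5) (nat_lit 481) (nat_lit 428) (nat_lit 291)) (XT.lf (nat_lit 0) (nat_lit 18036876025) (nat_lit 152) (nat_lit 42272488030) (nat_lit 228) (nat_lit 17529947151) (nat_lit 76) (nat_lit 5) (nat_lit 78) (nat_lit 5) (nat_lit 79) (nat_lit 5) (nat_lit 482) (nat_lit 428) (nat_lit 290))))) (XT.nd (nat_lit 234) (nat_lit 608) (nat_lit 0) (XT.nd (nat_lit 78) (nat_lit 228) (nat_lit 0) (XT.lf (nat_lit 0) (nat_lit 12842513784) (nat_lit 152) (nat_lit 1961666959) (nat_lit 228) (nat_lit 65688034513) (nat_lit 73) (nat_lit 5) (nat_lit 75) (nat_lit 5) (nat_lit 76) (nat_lit 5) (nat_lit 483) (nat_lit 428) (nat_lit 289)) (XT.nd (nat_lit 78) (nat_lit 76) (nat_lit 0)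 (XT.lf (nat_lit 0) (nat_lit 6660492426) (nat_lit 152) (nat_lit 42804384991) (nat_lit 228) (nat_lit 33775508206) (nat_lit 71) (nat_lit 5) (nat_lit 73) (nat_lit 5) (nat_lit 74) (nat_lit 5) (nat_lit 484) (nat_lit 428) (nat_lit 288)) (XT.lf (nat_lit 0) (nat_lit 456343911) (nat_lit 228) (nat_lit 37715925) (nat_lit 76) (nat_lit 85610427567) (nat_lit 70) (nat_lit 5) (nat_lit 73) (nat_lit 5) (nat_lit 71) (nat_lit 5) (nat_lit 485) (nat_lit 428) (nat_lit 287)))) (XT.nd (nat_lit 156) (nat_lit 304) (nat_lit 0) (XT.nd (nat_lit 78) (nat_lit 152) (nat_lit 0) (XT.lf (nat_lit 0) (nat_lit 36920913338) (nat_lit 228) (nat_lit 7937095172) (nat_lit 76) (nat_lit 44207164065) (nat_lit 68) (nat_lit 5) (nat_lit 71) (nat_lit 5) (nat_lit 69) (nat_lit 5) (nat_lit 486) (nat_lit 428) (nat_lit 286)) (XT.lf (nat_lit 0) (nat_lit 75642271241) (nat_lit 152) (nat_lit 294652230) (nat_lit 228) (nat_lit 16215122409) (nat_lit 66) (nat_lit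 5) (nat_lit 68) (nat_lit 5) (nat_lit 69) (nat_lit 5) (nat_lit 487) (nat_lit 428) (nat_lit 285))) (XT.nd (nat_lit 78) (nat_lit 152) (nat_lit 0) (XT.lf (nat_lit 0) (nat_lit 22291703461) (nat_lit 152) (nat_lit 26508203857) (nat_lit 76) (nat_lit 46551123231) (nat_lit 64) (nat_lit 5) (nat_lit 66) (nat_lit 5) (nat_lit 65) (nat_lit 5) (nat_lit 488) (nat_lit 428) (nat_lit 284)) (XT.lf (nat_lit 0) (nat_lit 61119962562) (nat_lit 152) (nat_lit 2029702471) (nat_lit 228) (nat_lit 35532648820) (nat_lit 62) (nat_lit 5) (nat_lit 64) (nat_lit 5) (nat_lit 65) (nat_lit 5) (nat_lit 489) (nat_lit 428) (nat_lit 283))))))) (XT.nd (nat_lit 58500) (nat_lit 0) (nat_lit 10184) (XT.nd (nat_lit 57954) (nat_lit 0) (nat_lit 16644) (XT.nd (nat_lit 57720) (nat_lit 0) (nat_lit 16492) (XT.nd (nat_lit 78) (nat_lit 228) (nat_lit 0) (XT.lf (nat_lit 0) (nat_lit 5031563988) (nat_lit 152) (nat_lit 50127985268) (nat_lit 76) (nat_lit 46982394372)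 (nat_lit 60) (nat_lit 5) (nat_lit 62) (nat_lit 5) (nat_lit 61) (nat_lit 5) (nat_lit 490) (nat_lit 428) (nat_lit 282)) (XT.nd (nat_lit 78) (nat_lit 76) (nat_lit 0) (XT.lf (nat_lit 0) (nat_lit 41510822443) (nat_lit 152) (nat_lit 6191212374) (nat_lit 228) (nat_lit 58037578497) (nat_lit 58) (nat_lit 5) (nat_lit 60) (nat_lit 5) (nat_lit 61) (nat_lit 5) (nat_lit 491) (nat_lit 428) (nat_lit 281)) (XT.lf (nat_lit 0) (nat_lit 29404155324) (nat_lit 76) (nat_lit 64336552072) (nat_lit 152) (nat_lit 15739418922) (nat_lit 57) (nat_lit 5) (nat_lit 58) (nat_lit 5) (nat_lit 59) (nat_lit 4) (nat_lit 492) (nat_lit 428) (nat_lit 280)))) (XT.nd (nat_lit 78) (nat_lit 0) (nat_lit 76) (XT.lf (nat_lit 0) (nat_lit 784810768) (nat_lit 1292) (nat_lit 3830075466) (nat_lit 1292) (nat_lit 3830075466) (nat_lit 274) (nat_lit 3) (nat_lit 291) (nat_lit 3) (nat_lit 291) (nat_lit 5) (nat_lit 429) (nat_lit 429) (nat_lit 342)) (XT.nd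 (nat_lit 78) (nat_lit 0) (nat_lit 76) (XT.lf (nat_lit 0) (nat_lit 2090295694) (nat_lit 1216) (nat_lit 11085868074) (nat_lit 1292) (nat_lit 4121476088) (nat_lit 275) (nat_lit 5) (nat_lit 291) (nat_lit 5) (nat_lit 292) (nat_lit 5) (nat_lit 430) (nat_lit 429) (nat_lit 341)) (XT.lf (nat_lit 0) (nat_lit 2819244844) (nat_lit 1216) (nat_lit 14555559871) (nat_lit 1292) (nat_lit 345475854) (nat_lit 276) (nat_lit 5) (nat_lit 292) (nat_lit 5) (nat_lit 293) (nat_lit 5) (nat_lit 431) (nat_lit 429) (nat_lit 340))))) (XT.nd (nat_lit 234) (nat_lit 0) (nat_lit 228) (XT.nd (nat_lit 78) (nat_lit 0) (nat_lit 76) (XT.lf (nat_lit 76) (nat_lit 51684601) (nat_lit 0) (nat_lit 3758429968) (nat_lit 1292) (nat_lit 14347179959) (nat_lit 277) (nat_lit 5) (nat_lit 276) (nat_lit 5) (nat_lit 293) (nat_lit 5) (nat_lit 432) (nat_lit 429) (nat_lit 339)) (XT.nd (nat_lit 78) (nat_lit 0) (nat_lit 76) (XT.lf (nat_lit 0) (nat_lit 5080949112)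 (nat_lit 1216) (nat_lit 3035421123) (nat_lit 1292) (nat_lit 10492881454) (nat_lit 277) (nat_lit 5) (nat_lit 293) (nat_lit 5) (nat_lit 294) (nat_lit 5) (nat_lit 433) (nat_lit 429) (nat_lit 338)) (XT.lf (nat_lit 0) (nat_lit 6618821123) (nat_lit 1216) (nat_lit 6151316202) (nat_lit 1292) (nat_lit 6307569411) (nat_lit 278) (nat_lit 5) (nat_lit 294) (nat_lit 5) (nat_lit 295) (nat_lit 5) (nat_lit 434) (nat_lit 429) (nat_lit 337)))) (XT.nd (nat_lit 156) (nat_lit 0) (nat_lit 76) (XT.nd (nat_lit 78) (nat_lit 0) (nat_lit 0) (XT.lf (nat_lit 0) (nat_lit 8443610511) (nat_lit 1216) (nat_lit 9296173887) (nat_lit 1292) (nat_lit 1823504091) (nat_lit 279) (nat_lit 5) (nat_lit 295) (nat_lit 5) (nat_lit 296) (nat_lit 5) (nat_lit 435) (nat_lit 429) (nat_lit 336)) (XT.lf (nat_lit 76) (nat_lit 7567649595) (nat_lit 0) (nat_lit 3038260950) (nat_lit 1292) (nat_lit 9459855095) (nat_lit 280) (nat_lit 5) (nat_lit 279) (nat_lit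 5) (nat_lit 296) (nat_lit 5) (nat_lit 436) (nat_lit 429) (nat_lit 335))) (XT.nd (nat_lit 78) (nat_lit 0) (nat_lit 76) (XT.lf (nat_lit 76) (nat_lit 4838253771) (nat_lit 0) (nat_lit 8281920241) (nat_lit 1292) (nat_lit 7465881417) (nat_lit 281) (nat_lit 5) (nat_lit 280) (nat_lit 5) (nat_lit 297) (nat_lit 5) (nat_lit 437) (nat_lit 429) (nat_lit 334)) (XT.lf (nat_lit 76) (nat_lit 2099426128) (nat_lit 0) (nat_lit 13892898353) (nat_lit 1292) (nat_lit 5133074043) (nat_lit 282) (nat_lit 5) (nat_lit 281) (nat_lit 5) (nat_lit 298) (nat_lit 5) (nat_lit 438) (nat_lit 429) (nat_lit 333)))))) (XT.nd (nat_lit 468) (nat_lit 3116) (nat_lit 0) (XT.nd (nat_lit 234) (nat_lit 1748) (nat_lit 0) (XT.nd (nat_lit 78) (nat_lit 2052) (nat_lit 0) (XT.lf (nat_lit 0) (nat_lit 19253584413) (nat_lit 1216) (nat_lit 633849251) (nat_lit 76) (nat_lit 1796913891) (nat_lit 282) (nat_lit 5) (nat_lit 298) (nat_lit 5) (nat_lit 283) (nat_lit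 5) (nat_lit 439) (nat_lit 429) (nat_lit 332)) (XT.nd (nat_lit 78) (nat_lit 760) (nat_lit 0) (XT.lf (nat_lit 0) (nat_lit 707417613) (nat_lit 1292) (nat_lit 3376739268) (nat_lit 76) (nat_lit 18177712739) (nat_lit 265) (nat_lit 5) (nat_lit 282) (nat_lit 5) (nat_lit 266) (nat_lit 5) (nat_lit 440) (nat_lit 429) (nat_lit 331)) (XT.lf (nat_lit 0) (nat_lit 4227418369) (nat_lit 836) (nat_lit 6170331073) (nat_lit 76) (nat_lit 12461544234) (nat_lit 255) (nat_lit 5) (nat_lit 266) (nat_lit 5) (nat_lit 256) (nat_lit 5) (nat_lit 441) (nat_lit 429) (nat_lit 330)))) (XT.nd (nat_lit 78) (nat_lit 1140) (nat_lit 0) (XT.lf (nat_lit 0) (nat_lit 8186741548) (nat_lit 684) (nat_lit 8970796949) (nat_lit 76) (nat_lit 6321153987) (nat_lit 247) (nat_lit 5) (nat_lit 256) (nat_lit 5) (nat_lit 248) (nat_lit 5) (nat_lit 442) (nat_lit 429) (nat_lit 329)) (XT.nd (nat_lit 78) (nat_lit 532) (nat_lit 0) (XT.lf (nat_lit 0) (nat_lit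 12343036683) (nat_lit 608) (nat_lit 274281698) (nat_lit 684) (nat_lit 11503547292) (nat_lit 239) (nat_lit 5) (nat_lit 247) (nat_lit 5) (nat_lit 248) (nat_lit 5) (nat_lit 443) (nat_lit 429) (nat_lit 328)) (XT.lf (nat_lit 0) (nat_lit 10132604093) (nat_lit 532) (nat_lit 7481355731) (nat_lit 608) (nat_lit 7170854546) (nat_lit 232) (nat_lit 5) (nat_lit 239) (nat_lit 5) (nat_lit 240) (nat_lit 5) (nat_lit 444) (nat_lit 429) (nat_lit 327))))) (XT.nd (nat_lit 234) (nat_lit 1444) (nat_lit 0) (XT.nd (nat_lit 78) (nat_lit 1140) (nat_lit 0) (XT.lf (nat_lit 0) (nat_lit 7944617744) (nat_lit 532) (nat_lit 15202745472) (nat_lit 608) (nat_lit 2325992172) (nat_lit 225) (nat_lit 5) (nat_lit 232) (nat_lit 5) (nat_lit 233) (nat_lit 5) (nat_lit 445) (nat_lit 429) (nat_lit 326)) (XT.nd (nat_lit 78) (nat_lit 532) (nat_lit 0) (XT.lf (nat_lit 0) (nat_lit 3004594591) (nat_lit 608) (nat_lit 20433363770) (nat_lit 76) (nat_lit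 2748650604) (nat_lit 217) (nat_lit 5) (nat_lit 225) (nat_lit 5) (nat_lit 218) (nat_lit 5) (nat_lit 446) (nat_lit 429) (nat_lit 325)) (XT.lf (nat_lit 0) (nat_lit 3511420551) (nat_lit 532) (nat_lit 5399545643) (nat_lit 608) (nat_lit 18013149773) (nat_lit 210) (nat_lit 5) (nat_lit 217) (nat_lit 5) (nat_lit 218) (nat_lit 5) (nat_lit 447) (nat_lit 429) (nat_lit 324)))) (XT.nd (nat_lit 156) (nat_lit 988) (nat_lit 0) (XT.nd (nat_lit 78) (nat_lit 0) (nat_lit 0) (XT.lf (nat_lit 0) (nat_lit 1266872556) (nat_lit 456) (nat_lit 14188487304) (nat_lit 532) (nat_lit 12232859686) (nat_lit 204) (nat_lit 5) (nat_lit 210) (nat_lit 5) (nat_lit 211) (nat_lit 5) (nat_lit 448) (nat_lit 429) (nat_lit 323)) (XT.lf (nat_lit 0) (nat_lit 22658302850) (nat_lit 532) (nat_lit 929367510) (nat_lit 76) (nat_lit 4892920276) (nat_lit 204) (nat_lit 5) (nat_lit 211) (nat_lit 5) (nat_lit 205) (nat_lit 5) (nat_lit 449) (nat_lit 429)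 (nat_lit 322))) (XT.nd (nat_lit 78) (nat_lit 456) (nat_lit 0) (XT.lf (nat_lit 0) (nat_lit 1278776994) (nat_lit 532) (nat_lit 3121635793) (nat_lit 76) (nat_lit 24900276513) (nat_lit 197) (nat_lit 5) (nat_lit 204) (nat_lit 5) (nat_lit 198) (nat_lit 5) (nat_lit 450) (nat_lit 429) (nat_lit 321)) (XT.lf (nat_lit 0) (nat_lit 9008367794) (nat_lit 532) (nat_lit 5392111818) (nat_lit 76) (nat_lit 15747769249) (nat_lit 191) (nat_lit 5) (nat_lit 198) (nat_lit 5) (nat_lit 192) (nat_lit 5) (nat_lit 451) (nat_lit 429) (nat_lit 320))))))))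
noncomputable def xc95 : XT := (XT.nd (nat_lit 1950) (nat_lit 2736) (nat_lit 0) (XT.nd (nat_lit 936) (nat_lit 2964) (nat_lit 0) (XT.nd (nat_lit 468) (nat_lit 1976) (nat_lit 0) (XT.nd (nat_lit 234) (nat_lit 1140) (nat_lit 0) (XT.nd (nat_lit 78) (nat_lit 836) (nat_lit 0) (XT.lf (nat_lit 0) (nat_lit 17474420169) (nat_lit 532) (nat_lit 7631597124) (nat_lit 76) (nat_lit 5921671511) (nat_lit 185) (nat_lit 5) (nat_lit 192) (nat_lit 5) (nat_lit 186) (nat_lit 5) (nat_lit 452) (nat_lit 429) (nat_lit 319)) (XT.nd (nat_lit 78) (nat_lit 456) (nat_lit 0) (XT.lf (nat_lit 0) (nat_lit 22058690711) (nat_lit 380) (nat_lit 4708468728) (nat_lit 456) (nat_lit 5171841550) (nat_lit 180) (nat_lit 5) (nat_lit 185) (nat_lit 5) (nat_lit 186) (nat_lit 5) (nat_lit 453) (nat_lit 429) (nat_lit 318)) (XT.lf (nat_lit 0) (nat_lit 3991594477) (nat_lit 456) (nat_lit 12192265401) (nat_lit 76) (nat_lit 16697961748) (nat_lit 174) (nat_lit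 5) (nat_lit 180) (nat_lit 5) (nat_lit 175) (nat_lit 5) (nat_lit 454) (nat_lit 429) (nat_lit 317)))) (XT.nd (nat_lit 78) (nat_lit 760) (nat_lit 0) (XT.lf (nat_lit 0) (nat_lit 13887804020) (nat_lit 456) (nat_lit 14523040685) (nat_lit 76) (nat_lit 5447957062) (nat_lit 169) (nat_lit 5) (nat_lit 175) (nat_lit 5) (nat_lit 170) (nat_lit 5) (nat_lit 455) (nat_lit 429) (nat_lit 316)) (XT.nd (nat_lit 78) (nat_lit 380) (nat_lit 0) (XT.lf (nat_lit 0) (nat_lit 17988109599) (nat_lit 380) (nat_lit 6744553162) (nat_lit 456) (nat_lit 10138354482) (nat_lit 164) (nat_lit 5) (nat_lit 169) (nat_lit 5) (nat_lit 170) (nat_lit 5) (nat_lit 456) (nat_lit 429) (nat_lit 315)) (XT.lf (nat_lit 0) (nat_lit 642867552) (nat_lit 380) (nat_lit 19270122027) (nat_lit 76) (nat_lit 16006984436) (nat_lit 159) (nat_lit 5) (nat_lit 164) (nat_lit 5) (nat_lit 160) (nat_lit 5) (nat_lit 457) (nat_lit 429) (nat_lit 314))))) (XT.nd (nat_lit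 234) (nat_lit 988) (nat_lit 0) (XT.nd (nat_lit 78) (nat_lit 608) (nat_lit 0) (XT.lf (nat_lit 0) (nat_lit 12168024556) (nat_lit 456) (nat_lit 21726941547) (nat_lit 76) (nat_lit 3110965922) (nat_lit 154) (nat_lit 5) (nat_lit 160) (nat_lit 5) (nat_lit 155) (nat_lit 5) (nat_lit 458) (nat_lit 429) (nat_lit 313)) (XT.nd (nat_lit 78) (nat_lit 304) (nat_lit 0) (XT.lf (nat_lit 0) (nat_lit 13873795839) (nat_lit 304) (nat_lit 10921932080) (nat_lit 380) (nat_lit 13334672610) (nat_lit 150) (nat_lit 5) (nat_lit 154) (nat_lit 5) (nat_lit 155) (nat_lit 5) (nat_lit 459) (nat_lit 429) (nat_lit 312)) (XT.lf (nat_lit 0) (nat_lit 12507322523) (nat_lit 304) (nat_lit 26012339457) (nat_lit 380) (nat_lit 777486303) (nat_lit 146) (nat_lit 5) (nat_lit 150) (nat_lit 5) (nat_lit 151) (nat_lit 5) (nat_lit 460) (nat_lit 429) (nat_lit 311)))) (XT.nd (nat_lit 78) (nat_lit 608) (nat_lit 0) (XT.lf (nat_lit 0) (nat_lit 11074032924)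 (nat_lit 304) (nat_lit 1552328136) (nat_lit 380) (nat_lit 27878467853) (nat_lit 141) (nat_lit 5) (nat_lit 145) (nat_lit 5) (nat_lit 146) (nat_lit 5) (nat_lit 461) (nat_lit 429) (nat_lit 310)) (XT.nd (nat_lit 78) (nat_lit 304) (nat_lit 0) (XT.lf (nat_lit 0) (nat_lit 9558742704) (nat_lit 304) (nat_lit 17720370543) (nat_lit 380) (nat_lit 14475706676) (nat_lit 137) (nat_lit 5) (nat_lit 141) (nat_lit 5) (nat_lit 142) (nat_lit 5) (nat_lit 462) (nat_lit 429) (nat_lit 309)) (XT.lf (nat_lit 0) (nat_lit 76600336) (nat_lit 304) (nat_lit 34946193156) (nat_lit 76) (nat_lit 8030487694) (nat_lit 133) (nat_lit 5) (nat_lit 137) (nat_lit 5) (nat_lit 134) (nat_lit 5) (nat_lit 463) (nat_lit 429) (nat_lit 308)))))) (XT.nd (nat_lit 468) (nat_lit 1520) (nat_lit 0) (XT.nd (nat_lit 234) (nat_lit 532) (nat_lit 0) (XT.nd (nat_lit 78) (nat_lit 608) (nat_lit 0) (XT.lf (nat_lit 0) (nat_lit 6478449634) (nat_lit 304) (nat_lit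 9150010563) (nat_lit 380) (nat_lit 28766767004) (nat_lit 129) (nat_lit 5) (nat_lit 133) (nat_lit 5) (nat_lit 134) (nat_lit 5) (nat_lit 464) (nat_lit 429) (nat_lit 307)) (XT.nd (nat_lit 78) (nat_lit 380) (nat_lit 0) (XT.lf (nat_lit 0) (nat_lit 4817304606) (nat_lit 228) (nat_lit 27716300391) (nat_lit 304) (nat_lit 13253395639) (nat_lit 126) (nat_lit 5) (nat_lit 129) (nat_lit 5) (nat_lit 130) (nat_lit 5) (nat_lit 465) (nat_lit 429) (nat_lit 306)) (XT.lf (nat_lit 0) (nat_lit 3169341626) (nat_lit 304) (nat_lit 317133850) (nat_lit 380) (nat_lit 43745710637) (nat_lit 121) (nat_lit 5) (nat_lit 125) (nat_lit 5) (nat_lit 126) (nat_lit 5) (nat_lit 466) (nat_lit 429) (nat_lit 305)))) (XT.nd (nat_lit 78) (nat_lit 304) (nat_lit 0) (XT.lf (nat_lit 0) (nat_lit 1236438070) (nat_lit 228) (nat_lit 20259911075) (nat_lit 304) (nat_lit 27228132554) (nat_lit 118) (nat_lit 5) (nat_lit 121) (nat_lit 5) (nat_lit 122) (nat_lit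 5) (nat_lit 467) (nat_lit 429) (nat_lit 304)) (XT.nd (nat_lit 78) (nat_lit 304) (nat_lit 0) (XT.lf (nat_lit 0) (nat_lit 40942030062) (nat_lit 304) (nat_lit 655198004) (nat_lit 76) (nat_lit 8678105327) (nat_lit 118) (nat_lit 5) (nat_lit 122) (nat_lit 5) (nat_lit 119) (nat_lit 5) (nat_lit 468) (nat_lit 429) (nat_lit 303)) (XT.lf (nat_lit 0) (nat_lit 9950207536) (nat_lit 304) (nat_lit 2715055844) (nat_lit 76) (nat_lit 39215384011) (nat_lit 114) (nat_lit 5) (nat_lit 118) (nat_lit 5) (nat_lit 115) (nat_lit 5) (nat_lit 469) (nat_lit 429) (nat_lit 302))))) (XT.nd (nat_lit 234) (nat_lit 836) (nat_lit 0) (XT.nd (nat_lit 78) (nat_lit 456) (nat_lit 0) (XT.lf (nat_lit 0) (nat_lit 30652075553) (nat_lit 304) (nat_lit 4952568848) (nat_lit 76) (nat_lit 17939394808) (nat_lit 111) (nat_lit 5) (nat_lit 115) (nat_lit 5) (nat_lit 112) (nat_lit 5) (nat_lit 470) (nat_lit 429) (nat_lit 301)) (XT.nd (nat_lit 78) (nat_lit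 228) (nat_lit 0) (XT.lf (nat_lit 0) (nat_lit 48029636873) (nat_lit 228) (nat_lit 4971206088) (nat_lit 304) (nat_lit 2271404094) (nat_lit 108) (nat_lit 5) (nat_lit 111) (nat_lit 5) (nat_lit 112) (nat_lit 5) (nat_lit 471) (nat_lit 429) (nat_lit 300)) (XT.lf (nat_lit 0) (nat_lit 19771630691) (nat_lit 228) (nat_lit 9926677716) (nat_lit 76) (nat_lit 27359879901) (nat_lit 105) (nat_lit 5) (nat_lit 108) (nat_lit 5) (nat_lit 106) (nat_lit 5) (nat_lit 472) (nat_lit 429) (nat_lit 299)))) (XT.nd (nat_lit 156) (nat_lit 380) (nat_lit 0) (XT.nd (nat_lit 78) (nat_lit 228) (nat_lit 0) (XT.lf (nat_lit 0) (nat_lit 43462002444) (nat_lit 304) (nat_lit 12679040525) (nat_lit 76) (nat_lit 2773944682) (nat_lit 102) (nat_lit 5) (nat_lit 106) (nat_lit 5) (nat_lit 103) (nat_lit 5) (nat_lit 473) (nat_lit 429) (nat_lit 298)) (XT.lf (nat_lit 0) (nat_lit 8165871039) (nat_lit 228) (nat_lit 15796753497) (nat_lit 76) (nat_lit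 36874665607) (nat_lit 99) (nat_lit 5) (nat_lit 102) (nat_lit 5) (nat_lit 100) (nat_lit 5) (nat_lit 474) (nat_lit 429) (nat_lit 297))) (XT.nd (nat_lit 78) (nat_lit 152) (nat_lit 0) (XT.lf (nat_lit 0) (nat_lit 33297405700) (nat_lit 304) (nat_lit 19189568029) (nat_lit 76) (nat_lit 10344604703) (nat_lit 96) (nat_lit 5) (nat_lit 100) (nat_lit 5) (nat_lit 97) (nat_lit 5) (nat_lit 475) (nat_lit 429) (nat_lit 296)) (XT.lf (nat_lit 0) (nat_lit 42029765559) (nat_lit 152) (nat_lit 18460596046) (nat_lit 228) (nat_lit 4411074651) (nat_lit 94) (nat_lit 5) (nat_lit 96) (nat_lit 5) (nat_lit 97) (nat_lit 5) (nat_lit 476) (nat_lit 429) (nat_lit 295))))))) (XT.nd (nat_lit 1014) (nat_lit 456) (nat_lit 0) (XT.nd (nat_lit 468) (nat_lit 1064) (nat_lit 0) (XT.nd (nat_lit 234) (nat_lit 532) (nat_lit 0) (XT.nd (nat_lit 78) (nat_lit 380) (nat_lit 0) (XT.lf (nat_lit 0) (nat_lit 22294166250) (nat_lit 304) (nat_lit 27020118563)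 (nat_lit 76) (nat_lit 17731527448) (nat_lit 90) (nat_lit 5) (nat_lit 94) (nat_lit 5) (nat_lit 91) (nat_lit 5) (nat_lit 477) (nat_lit 429) (nat_lit 294)) (XT.nd (nat_lit 78) (nat_lit 228) (nat_lit 0) (XT.lf (nat_lit 0) (nat_lit 37750260744) (nat_lit 152) (nat_lit 13275995828) (nat_lit 228) (nat_lit 18246356220) (nat_lit 88) (nat_lit 5) (nat_lit 90) (nat_lit 5) (nat_lit 91) (nat_lit 5) (nat_lit 478) (nat_lit 429) (nat_lit 293)) (XT.lf (nat_lit 0) (nat_lit 10255709182) (nat_lit 228) (nat_lit 36525783281) (nat_lit 76) (nat_lit 24800741381) (nat_lit 85) (nat_lit 5) (nat_lit 88) (nat_lit 5) (nat_lit 86) (nat_lit 5) (nat_lit 479) (nat_lit 429) (nat_lit 292)))) (XT.nd (nat_lit 78) (nat_lit 380) (nat_lit 0) (XT.lf (nat_lit 0) (nat_lit 31918337255) (nat_lit 152) (nat_lit 8654424044) (nat_lit 228) (nat_lit 33406137912) (nat_lit 83) (nat_lit 5) (nat_lit 85) (nat_lit 5) (nat_lit 86) (nat_lit 5) (nat_lit 480)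 (nat_lit 429) (nat_lit 291)) (XT.nd (nat_lit 78) (nat_lit 228) (nat_lit 0) (XT.lf (nat_lit 0) (nat_lit 28302444542) (nat_lit 152) (nat_lit 45051968395) (nat_lit 228) (nat_lit 3112522840) (nat_lit 81) (nat_lit 5) (nat_lit 83) (nat_lit 5) (nat_lit 84) (nat_lit 5) (nat_lit 481) (nat_lit 429) (nat_lit 290)) (XT.lf (nat_lit 0) (nat_lit 24090611966) (nat_lit 152) (nat_lit 4796819913) (nat_lit 228) (nat_lit 50161118859) (nat_lit 78) (nat_lit 5) (nat_lit 80) (nat_lit 5) (nat_lit 81) (nat_lit 5) (nat_lit 482) (nat_lit 429) (nat_lit 289))))) (XT.nd (nat_lit 234) (nat_lit 532) (nat_lit 0) (XT.nd (nat_lit 78) (nat_lit 380) (nat_lit 0) (XT.lf (nat_lit 0) (nat_lit 19190523824) (nat_lit 152) (nat_lit 44274009640) (nat_lit 228) (nat_lit 18262543141) (nat_lit 76) (nat_lit 5) (nat_lit 78) (nat_lit 5) (nat_lit 79) (nat_lit 5) (nat_lit 483) (nat_lit 429) (nat_lit 288)) (XT.nd (nat_lit 78) (nat_lit 152) (nat_lit 0)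 (XT.lf (nat_lit 0) (nat_lit 13731961707) (nat_lit 152) (nat_lit 1949180088) (nat_lit 228) (nat_lit 68831573227) (nat_lit 73) (nat_lit 5) (nat_lit 75) (nat_lit 5) (nat_lit 76) (nat_lit 5) (nat_lit 484) (nat_lit 429) (nat_lit 287)) (XT.lf (nat_lit 0) (nat_lit 7236710593) (nat_lit 152) (nat_lit 44835000691) (nat_lit 228) (nat_lit 35326677887) (nat_lit 71) (nat_lit 5) (nat_lit 73) (nat_lit 5) (nat_lit 74) (nat_lit 5) (nat_lit 485) (nat_lit 429) (nat_lit 286)))) (XT.nd (nat_lit 156) (nat_lit 304) (nat_lit 0) (XT.nd (nat_lit 78) (nat_lit 0) (nat_lit 0) (XT.lf (nat_lit 0) (nat_lit 198448367) (nat_lit 152) (nat_lit 411116104) (nat_lit 228) (nat_lit 89796227772) (nat_lit 68) (nat_lit 5) (nat_lit 70) (nat_lit 5) (nat_lit 71) (nat_lit 5) (nat_lit 486) (nat_lit 429) (nat_lit 285)) (XT.lf (nat_lit 0) (nat_lit 38892511602) (nat_lit 228) (nat_lit 8103730113) (nat_lit 76) (nat_lit 46518415835) (nat_lit 68) (nat_lit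 5) (nat_lit 71) (nat_lit 5) (nat_lit 69) (nat_lit 5) (nat_lit 487) (nat_lit 429) (nat_lit 284))) (XT.nd (nat_lit 78) (nat_lit 152) (nat_lit 0) (XT.lf (nat_lit 0) (nat_lit 79648005415) (nat_lit 152) (nat_lit 207487710) (nat_lit 228) (nat_lit 16900496606) (nat_lit 66) (nat_lit 5) (nat_lit 68) (nat_lit 5) (nat_lit 69) (nat_lit 5) (nat_lit 488) (nat_lit 429) (nat_lit 283)) (XT.lf (nat_lit 0) (nat_lit 23526445830) (nat_lit 152) (nat_lit 27611403730) (nat_lit 76) (nat_lit 48977121571) (nat_lit 64) (nat_lit 5) (nat_lit 66) (nat_lit 5) (nat_lit 65) (nat_lit 5) (nat_lit 489) (nat_lit 429) (nat_lit 282)))))) (XT.nd (nat_lit 58032) (nat_lit 0) (nat_lit 16568) (XT.nd (nat_lit 57798) (nat_lit 0) (nat_lit 16416) (XT.nd (nat_lit 78) (nat_lit 304) (nat_lit 0) (XT.lf (nat_lit 0) (nat_lit 64391801396) (nat_lit 152) (nat_lit 2031857107) (nat_lit 228) (nat_lit 37189269803) (nat_lit 62) (nat_lit 5) (nat_lit 64) (nat_lit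 5) (nat_lit 65) (nat_lit 5) (nat_lit 490) (nat_lit 429) (nat_lit 281)) (XT.nd (nat_lit 78) (nat_lit 152) (nat_lit 0) (XT.lf (nat_lit 0) (nat_lit 5398186121) (nat_lit 152) (nat_lit 52419962347) (nat_lit 76) (nat_lit 49427435537) (nat_lit 60) (nat_lit 5) (nat_lit 62) (nat_lit 5) (nat_lit 61) (nat_lit 5) (nat_lit 491) (nat_lit 429) (nat_lit 280)) (XT.lf (nat_lit 0) (nat_lit 43794639381) (nat_lit 152) (nat_lit 6404064903) (nat_lit 228) (nat_lit 60824537440) (nat_lit 58) (nat_lit 5) (nat_lit 60) (nat_lit 5) (nat_lit 61) (nat_lit 5) (nat_lit 492) (nat_lit 429) (nat_lit 279)))) (XT.nd (nat_lit 78) (nat_lit 0) (nat_lit 76) (XT.lf (nat_lit 0) (nat_lit 1199019722) (nat_lit 1292) (nat_lit 3828426887) (nat_lit 1292) (nat_lit 3828426887) (nat_lit 274) (nat_lit 3) (nat_lit 291) (nat_lit 3) (nat_lit 291) (nat_lit 5) (nat_lit 430) (nat_lit 430) (nat_lit 340)) (XT.nd (nat_lit 78) (nat_lit 0) (nat_lit 76) (XT.lf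 (nat_lit 0) (nat_lit 2909349694) (nat_lit 1216) (nat_lit 11239935687) (nat_lit 1292) (nat_lit 3991634126) (nat_lit 275) (nat_lit 5) (nat_lit 291) (nat_lit 5) (nat_lit 292) (nat_lit 5) (nat_lit 431) (nat_lit 430) (nat_lit 339)) (XT.lf (nat_lit 0) (nat_lit 3641617062) (nat_lit 1216) (nat_lit 14871058200) (nat_lit 1292) (nat_lit 73018784) (nat_lit 276) (nat_lit 5) (nat_lit 292) (nat_lit 5) (nat_lit 293) (nat_lit 5) (nat_lit 432) (nat_lit 430) (nat_lit 338))))) (XT.nd (nat_lit 234) (nat_lit 0) (nat_lit 228) (XT.nd (nat_lit 78) (nat_lit 0) (nat_lit 76) (XT.lf (nat_lit 76) (nat_lit 454730581) (nat_lit 0) (nat_lit 4198701080) (nat_lit 1292) (nat_lit 14391992535) (nat_lit 277) (nat_lit 5) (nat_lit 276) (nat_lit 5) (nat_lit 293) (nat_lit 5) (nat_lit 433) (nat_lit 430) (nat_lit 337)) (XT.nd (nat_lit 78) (nat_lit 0) (nat_lit 76) (XT.lf (nat_lit 0) (nat_lit 5954411448) (nat_lit 1216) (nat_lit 2784694515)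 (nat_lit 1292) (nat_lit 10781882323) (nat_lit 277) (nat_lit 5) (nat_lit 293) (nat_lit 5) (nat_lit 294) (nat_lit 5) (nat_lit 434) (nat_lit 430) (nat_lit 336)) (XT.lf (nat_lit 0) (nat_lit 7541490622) (nat_lit 1216) (nat_lit 6048026207) (nat_lit 1292) (nat_lit 6424186685) (nat_lit 278) (nat_lit 5) (nat_lit 294) (nat_lit 5) (nat_lit 295) (nat_lit 5) (nat_lit 435) (nat_lit 430) (nat_lit 335)))) (XT.nd (nat_lit 156) (nat_lit 0) (nat_lit 76) (XT.nd (nat_lit 78) (nat_lit 0) (nat_lit 0) (XT.lf (nat_lit 0) (nat_lit 9431560241) (nat_lit 1216) (nat_lit 9343134184) (nat_lit 1292) (nat_lit 1749655217) (nat_lit 279) (nat_lit 5) (nat_lit 295) (nat_lit 5) (nat_lit 296) (nat_lit 5) (nat_lit 436) (nat_lit 430) (nat_lit 334)) (XT.lf (nat_lit 76) (nat_lit 8351902932) (nat_lit 0) (nat_lit 3327032433) (nat_lit 1292) (nat_lit 9373712683) (nat_lit 280) (nat_lit 5) (nat_lit 279) (nat_lit 5) (nat_lit 296) (nat_lit 5) (nat_lit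 437) (nat_lit 430) (nat_lit 333))) (XT.nd (nat_lit 78) (nat_lit 0) (nat_lit 76) (XT.lf (nat_lit 76) (nat_lit 5491616569) (nat_lit 0) (nat_lit 8804153373) (nat_lit 1292) (nat_lit 7303882551) (nat_lit 281) (nat_lit 5) (nat_lit 280) (nat_lit 5) (nat_lit 297) (nat_lit 5) (nat_lit 438) (nat_lit 430) (nat_lit 332)) (XT.lf (nat_lit 76) (nat_lit 2620318599) (nat_lit 0) (nat_lit 14669475194) (nat_lit 1292) (nat_lit 4876826597) (nat_lit 282) (nat_lit 5) (nat_lit 281) (nat_lit 5) (nat_lit 298) (nat_lit 5) (nat_lit 439) (nat_lit 430) (nat_lit 331))))))))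
noncomputable def xc96 : XT := (XT.nd (nat_lit 1950) (nat_lit 5092) (nat_lit 0) (XT.nd (nat_lit 936) (nat_lit 4864) (nat_lit 0) (XT.nd (nat_lit 468) (nat_lit 2660) (nat_lit 0) (XT.nd (nat_lit 234) (nat_lit 1748) (nat_lit 0) (XT.nd (nat_lit 78) (nat_lit 2052) (nat_lit 0) (XT.lf (nat_lit 0) (nat_lit 20689659355) (nat_lit 1216) (nat_lit 254344756) (nat_lit 76) (nat_lit 1810251837) (nat_lit 282) (nat_lit 5) (nat_lit 298) (nat_lit 5) (nat_lit 283) (nat_lit 5) (nat_lit 440) (nat_lit 430) (nat_lit 330)) (XT.nd (nat_lit 78) (nat_lit 760) (nat_lit 0) (XT.lf (nat_lit 0) (nat_lit 1202082863) (nat_lit 1292) (nat_lit 3136926255) (nat_lit 76) (nat_lit 19022076113) (nat_lit 265) (nat_lit 5) (nat_lit 282) (nat_lit 5) (nat_lit 266) (nat_lit 5) (nat_lit 441) (nat_lit 430) (nat_lit 329)) (XT.lf (nat_lit 0) (nat_lit 4879602224) (nat_lit 836) (nat_lit 6068154167) (nat_lit 76) (nat_lit 13041183257) (nat_lit 255) (nat_lit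 5) (nat_lit 266) (nat_lit 5) (nat_lit 256) (nat_lit 5) (nat_lit 442) (nat_lit 430) (nat_lit 328)))) (XT.nd (nat_lit 78) (nat_lit 1140) (nat_lit 0) (XT.lf (nat_lit 0) (nat_lit 9019497370) (nat_lit 684) (nat_lit 9007378482) (nat_lit 76) (nat_lit 6612958862) (nat_lit 247) (nat_lit 5) (nat_lit 256) (nat_lit 5) (nat_lit 248) (nat_lit 5) (nat_lit 443) (nat_lit 430) (nat_lit 327)) (XT.nd (nat_lit 78) (nat_lit 532) (nat_lit 0) (XT.lf (nat_lit 0) (nat_lit 13360338130) (nat_lit 608) (nat_lit 294948600) (nat_lit 684) (nat_lit 11659323600) (nat_lit 239) (nat_lit 5) (nat_lit 247) (nat_lit 5) (nat_lit 248) (nat_lit 5) (nat_lit 444) (nat_lit 430) (nat_lit 326)) (XT.lf (nat_lit 0) (nat_lit 11039924710) (nat_lit 532) (nat_lit 7846237734) (nat_lit 608) (nat_lit 7126066025) (nat_lit 232) (nat_lit 5) (nat_lit 239) (nat_lit 5) (nat_lit 240) (nat_lit 5) (nat_lit 445) (nat_lit 430) (nat_lit 325))))) (XT.nd (nat_lit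 234) (nat_lit 988) (nat_lit 0) (XT.nd (nat_lit 78) (nat_lit 1140) (nat_lit 0) (XT.lf (nat_lit 0) (nat_lit 8742455177) (nat_lit 532) (nat_lit 15939072721) (nat_lit 608) (nat_lit 2054113763) (nat_lit 225) (nat_lit 5) (nat_lit 232) (nat_lit 5) (nat_lit 233) (nat_lit 5) (nat_lit 446) (nat_lit 430) (nat_lit 324)) (XT.nd (nat_lit 78) (nat_lit 532) (nat_lit 0) (XT.lf (nat_lit 0) (nat_lit 3521406447) (nat_lit 608) (nat_lit 21047708332) (nat_lit 76) (nat_lit 2915755419) (nat_lit 217) (nat_lit 5) (nat_lit 225) (nat_lit 5) (nat_lit 218) (nat_lit 5) (nat_lit 447) (nat_lit 430) (nat_lit 323)) (XT.lf (nat_lit 0) (nat_lit 4082639355) (nat_lit 532) (nat_lit 5626804191) (nat_lit 608) (nat_lit 18550222012) (nat_lit 210) (nat_lit 5) (nat_lit 217) (nat_lit 5) (nat_lit 218) (nat_lit 5) (nat_lit 448) (nat_lit 430) (nat_lit 322)))) (XT.nd (nat_lit 78) (nat_lit 532) (nat_lit 0) (XT.lf (nat_lit 0) (nat_lit 1724474678)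 (nat_lit 456) (nat_lit 14843957011) (nat_lit 532) (nat_lit 12493924637) (nat_lit 204) (nat_lit 5) (nat_lit 210) (nat_lit 5) (nat_lit 211) (nat_lit 5) (nat_lit 449) (nat_lit 430) (nat_lit 321)) (XT.nd (nat_lit 78) (nat_lit 532) (nat_lit 0) (XT.lf (nat_lit 0) (nat_lit 24115810832) (nat_lit 532) (nat_lit 591060604) (nat_lit 76) (nat_lit 5187948965) (nat_lit 204) (nat_lit 5) (nat_lit 211) (nat_lit 5) (nat_lit 205) (nat_lit 5) (nat_lit 450) (nat_lit 430) (nat_lit 320)) (XT.lf (nat_lit 0) (nat_lit 1658598757) (nat_lit 532) (nat_lit 2897627807) (nat_lit 76) (nat_lit 26199963402) (nat_lit 197) (nat_lit 5) (nat_lit 204) (nat_lit 5) (nat_lit 198) (nat_lit 5) (nat_lit 451) (nat_lit 430) (nat_lit 319)))))) (XT.nd (nat_lit 468) (nat_lit 2356) (nat_lit 0) (XT.nd (nat_lit 234) (nat_lit 1216) (nat_lit 0) (XT.nd (nat_lit 78) (nat_lit 836) (nat_lit 0) (XT.lf (nat_lit 0) (nat_lit 9763798921) (nat_lit 532) (nat_lit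 5283959497) (nat_lit 76) (nat_lit 16598697923) (nat_lit 191) (nat_lit 5) (nat_lit 198) (nat_lit 5) (nat_lit 192) (nat_lit 5) (nat_lit 452) (nat_lit 430) (nat_lit 318)) (XT.nd (nat_lit 78) (nat_lit 380) (nat_lit 0) (XT.lf (nat_lit 0) (nat_lit 18642857544) (nat_lit 532) (nat_lit 7638075869) (nat_lit 76) (nat_lit 6289246356) (nat_lit 185) (nat_lit 5) (nat_lit 192) (nat_lit 5) (nat_lit 186) (nat_lit 5) (nat_lit 453) (nat_lit 430) (nat_lit 317)) (XT.lf (nat_lit 0) (nat_lit 23525974159) (nat_lit 380) (nat_lit 4863727851) (nat_lit 456) (nat_lit 5137673983) (nat_lit 180) (nat_lit 5) (nat_lit 185) (nat_lit 5) (nat_lit 186) (nat_lit 5) (nat_lit 454) (nat_lit 430) (nat_lit 316)))) (XT.nd (nat_lit 78) (nat_lit 760) (nat_lit 0) (XT.lf (nat_lit 0) (nat_lit 4468802539) (nat_lit 456) (nat_lit 12434821878) (nat_lit 76) (nat_lit 17613913664) (nat_lit 174) (nat_lit 5) (nat_lit 180) (nat_lit 5) (nat_lit 175) (nat_lit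 5) (nat_lit 455) (nat_lit 430) (nat_lit 315)) (XT.nd (nat_lit 78) (nat_lit 380) (nat_lit 0) (XT.lf (nat_lit 0) (nat_lit 14850882035) (nat_lit 456) (nat_lit 14885431521) (nat_lit 76) (nat_lit 5807324068) (nat_lit 169) (nat_lit 5) (nat_lit 175) (nat_lit 5) (nat_lit 170) (nat_lit 5) (nat_lit 456) (nat_lit 430) (nat_lit 314)) (XT.lf (nat_lit 0) (nat_lit 19240849135) (nat_lit 380) (nat_lit 6987736383) (nat_lit 456) (nat_lit 10378162377) (nat_lit 164) (nat_lit 5) (nat_lit 169) (nat_lit 5) (nat_lit 170) (nat_lit 5) (nat_lit 457) (nat_lit 430) (nat_lit 313))))) (XT.nd (nat_lit 234) (nat_lit 1292) (nat_lit 0) (XT.nd (nat_lit 78) (nat_lit 684) (nat_lit 0) (XT.lf (nat_lit 0) (nat_lit 928703645) (nat_lit 380) (nat_lit 19878617002) (nat_lit 76) (nat_lit 16901002895) (nat_lit 159) (nat_lit 5) (nat_lit 164) (nat_lit 5) (nat_lit 160) (nat_lit 5) (nat_lit 458) (nat_lit 430) (nat_lit 312)) (XT.nd (nat_lit 78) (nat_lit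 304) (nat_lit 0) (XT.lf (nat_lit 0) (nat_lit 13022313034) (nat_lit 456) (nat_lit 22462029826) (nat_lit 76) (nat_lit 3364472585) (nat_lit 154) (nat_lit 5) (nat_lit 160) (nat_lit 5) (nat_lit 155) (nat_lit 5) (nat_lit 459) (nat_lit 430) (nat_lit 311)) (XT.lf (nat_lit 0) (nat_lit 14908675666) (nat_lit 304) (nat_lit 11364296709) (nat_lit 380) (nat_lit 13756789616) (nat_lit 150) (nat_lit 5) (nat_lit 154) (nat_lit 5) (nat_lit 155) (nat_lit 5) (nat_lit 460) (nat_lit 430) (nat_lit 310)))) (XT.nd (nat_lit 156) (nat_lit 608) (nat_lit 0) (XT.nd (nat_lit 78) (nat_lit 380) (nat_lit 0) (XT.lf (nat_lit 0) (nat_lit 13470083354) (nat_lit 304) (nat_lit 27205905155) (nat_lit 380) (nat_lit 579073720) (nat_lit 146) (nat_lit 5) (nat_lit 150) (nat_lit 5) (nat_lit 151) (nat_lit 5) (nat_lit 461) (nat_lit 430) (nat_lit 309)) (XT.lf (nat_lit 0) (nat_lit 11959986794) (nat_lit 304) (nat_lit 1522463822) (nat_lit 380) (nat_lit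 29040845932) (nat_lit 141) (nat_lit 5) (nat_lit 145) (nat_lit 5) (nat_lit 146) (nat_lit 5) (nat_lit 462) (nat_lit 430) (nat_lit 308))) (XT.nd (nat_lit 78) (nat_lit 304) (nat_lit 0) (XT.lf (nat_lit 0) (nat_lit 10364984206) (nat_lit 304) (nat_lit 18496292637) (nat_lit 380) (nat_lit 14974708634) (nat_lit 137) (nat_lit 5) (nat_lit 141) (nat_lit 5) (nat_lit 142) (nat_lit 5) (nat_lit 463) (nat_lit 430) (nat_lit 307)) (XT.lf (nat_lit 0) (nat_lit 294497970) (nat_lit 304) (nat_lit 36364962875) (nat_lit 76) (nat_lit 8540035368) (nat_lit 133) (nat_lit 5) (nat_lit 137) (nat_lit 5) (nat_lit 134) (nat_lit 5) (nat_lit 464) (nat_lit 430) (nat_lit 306))))))) (XT.nd (nat_lit 936) (nat_lit 2280) (nat_lit 0) (XT.nd (nat_lit 468) (nat_lit 1368) (nat_lit 0) (XT.nd (nat_lit 234) (nat_lit 532) (nat_lit 0) (XT.nd (nat_lit 78) (nat_lit 608) (nat_lit 0) (XT.lf (nat_lit 0) (nat_lit 7121494523) (nat_lit 304) (nat_lit 9495330204)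 (nat_lit 380) (nat_lit 29991929870) (nat_lit 129) (nat_lit 5) (nat_lit 133) (nat_lit 5) (nat_lit 134) (nat_lit 5) (nat_lit 465) (nat_lit 430) (nat_lit 305)) (XT.nd (nat_lit 78) (nat_lit 380) (nat_lit 0) (XT.lf (nat_lit 0) (nat_lit 5373152492) (nat_lit 228) (nat_lit 28988274724) (nat_lit 304) (nat_lit 13708864698) (nat_lit 126) (nat_lit 5) (nat_lit 129) (nat_lit 5) (nat_lit 130) (nat_lit 5) (nat_lit 466) (nat_lit 430) (nat_lit 304)) (XT.lf (nat_lit 0) (nat_lit 3637712881) (nat_lit 304) (nat_lit 219548681) (nat_lit 380) (nat_lit 45730617339) (nat_lit 121) (nat_lit 5) (nat_lit 125) (nat_lit 5) (nat_lit 126) (nat_lit 5) (nat_lit 467) (nat_lit 430) (nat_lit 303)))) (XT.nd (nat_lit 78) (nat_lit 304) (nat_lit 0) (XT.lf (nat_lit 0) (nat_lit 1603968513) (nat_lit 228) (nat_lit 21158282256) (nat_lit 304) (nat_lit 28392700920) (nat_lit 118) (nat_lit 5) (nat_lit 121) (nat_lit 5) (nat_lit 122) (nat_lit 5) (nat_lit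 468) (nat_lit 430) (nat_lit 302)) (XT.nd (nat_lit 78) (nat_lit 304) (nat_lit 0) (XT.lf (nat_lit 0) (nat_lit 43172165858) (nat_lit 304) (nat_lit 392376195) (nat_lit 76) (nat_lit 9219046440) (nat_lit 118) (nat_lit 5) (nat_lit 122) (nat_lit 5) (nat_lit 119) (nat_lit 5) (nat_lit 469) (nat_lit 430) (nat_lit 301)) (XT.lf (nat_lit 0) (nat_lit 10626568585) (nat_lit 304) (nat_lit 2560121244) (nat_lit 76) (nat_lit 41282605417) (nat_lit 114) (nat_lit 5) (nat_lit 118) (nat_lit 5) (nat_lit 115) (nat_lit 5) (nat_lit 470) (nat_lit 430) (nat_lit 300))))) (XT.nd (nat_lit 234) (nat_lit 684) (nat_lit 0) (XT.nd (nat_lit 78) (nat_lit 456) (nat_lit 0) (XT.lf (nat_lit 0) (nat_lit 32358778195) (nat_lit 304) (nat_lit 4913683583) (nat_lit 76) (nat_lit 18943538335) (nat_lit 111) (nat_lit 5) (nat_lit 115) (nat_lit 5) (nat_lit 112) (nat_lit 5) (nat_lit 471) (nat_lit 430) (nat_lit 299)) (XT.nd (nat_lit 78) (nat_lit 228) (nat_lit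 0) (XT.lf (nat_lit 0) (nat_lit 50709419566) (nat_lit 228) (nat_lit 5109949185) (nat_lit 304) (nat_lit 2211418920) (nat_lit 108) (nat_lit 5) (nat_lit 111) (nat_lit 5) (nat_lit 112) (nat_lit 5) (nat_lit 472) (nat_lit 430) (nat_lit 298)) (XT.lf (nat_lit 0) (nat_lit 20925955070) (nat_lit 228) (nat_lit 10145472666) (nat_lit 76) (nat_lit 28834681771) (nat_lit 105) (nat_lit 5) (nat_lit 108) (nat_lit 5) (nat_lit 106) (nat_lit 5) (nat_lit 473) (nat_lit 430) (nat_lit 297)))) (XT.nd (nat_lit 78) (nat_lit 456) (nat_lit 0) (XT.lf (nat_lit 0) (nat_lit 45796593431) (nat_lit 304) (nat_lit 13039629926) (nat_lit 76) (nat_lit 3019653779) (nat_lit 102) (nat_lit 5) (nat_lit 106) (nat_lit 5) (nat_lit 103) (nat_lit 5) (nat_lit 474) (nat_lit 430) (nat_lit 296)) (XT.nd (nat_lit 78) (nat_lit 228) (nat_lit 0) (XT.lf (nat_lit 0) (nat_lit 8732080039) (nat_lit 228) (nat_lit 16317907576) (nat_lit 76) (nat_lit 38824415543) (nat_lit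 99) (nat_lit 5) (nat_lit 102) (nat_lit 5) (nat_lit 100) (nat_lit 5) (nat_lit 475) (nat_lit 430) (nat_lit 295)) (XT.lf (nat_lit 0) (nat_lit 35116219273) (nat_lit 304) (nat_lit 19884503011) (nat_lit 76) (nat_lit 10967803411) (nat_lit 96) (nat_lit 5) (nat_lit 100) (nat_lit 5) (nat_lit 97) (nat_lit 5) (nat_lit 476) (nat_lit 430) (nat_lit 294)))))) (XT.nd (nat_lit 468) (nat_lit 1140) (nat_lit 0) (XT.nd (nat_lit 234) (nat_lit 532) (nat_lit 0) (XT.nd (nat_lit 78) (nat_lit 456) (nat_lit 0) (XT.lf (nat_lit 0) (nat_lit 44388214172) (nat_lit 152) (nat_lit 19275748229) (nat_lit 228) (nat_lit 4478060463) (nat_lit 94) (nat_lit 5) (nat_lit 96) (nat_lit 5) (nat_lit 97) (nat_lit 5) (nat_lit 477) (nat_lit 430) (nat_lit 293)) (XT.nd (nat_lit 78) (nat_lit 152) (nat_lit 0) (XT.lf (nat_lit 0) (nat_lit 23555728670) (nat_lit 304) (nat_lit 28115246045) (nat_lit 76) (nat_lit 18722710770) (nat_lit 90) (nat_lit 5) (nat_lit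 94) (nat_lit 5) (nat_lit 91) (nat_lit 5) (nat_lit 478) (nat_lit 430) (nat_lit 292)) (XT.lf (nat_lit 0) (nat_lit 39886317523) (nat_lit 152) (nat_lit 13833502087) (nat_lit 228) (nat_lit 19012145110) (nat_lit 88) (nat_lit 5) (nat_lit 90) (nat_lit 5) (nat_lit 91) (nat_lit 5) (nat_lit 479) (nat_lit 430) (nat_lit 291)))) (XT.nd (nat_lit 78) (nat_lit 304) (nat_lit 0) (XT.lf (nat_lit 0) (nat_lit 10908679941) (nat_lit 228) (nat_lit 38104689244) (nat_lit 76) (nat_lit 26143760432) (nat_lit 85) (nat_lit 5) (nat_lit 88) (nat_lit 5) (nat_lit 86) (nat_lit 5) (nat_lit 480) (nat_lit 430) (nat_lit 290)) (XT.nd (nat_lit 78) (nat_lit 152) (nat_lit 0) (XT.lf (nat_lit 0) (nat_lit 33754546129) (nat_lit 152) (nat_lit 8982672878) (nat_lit 228) (nat_lit 34936540709) (nat_lit 83) (nat_lit 5) (nat_lit 85) (nat_lit 5) (nat_lit 86) (nat_lit 5) (nat_lit 481) (nat_lit 430) (nat_lit 289)) (XT.lf (nat_lit 0) (nat_lit 29953962768)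 (nat_lit 152) (nat_lit 47200751669) (nat_lit 228) (nat_lit 3131581305) (nat_lit 81) (nat_lit 5) (nat_lit 83) (nat_lit 5) (nat_lit 84) (nat_lit 5) (nat_lit 482) (nat_lit 430) (nat_lit 288))))) (XT.nd (nat_lit 234) (nat_lit 532) (nat_lit 0) (XT.nd (nat_lit 78) (nat_lit 380) (nat_lit 0) (XT.lf (nat_lit 0) (nat_lit 25527359720) (nat_lit 152) (nat_lit 4934202395) (nat_lit 228) (nat_lit 52535514711) (nat_lit 78) (nat_lit 5) (nat_lit 80) (nat_lit 5) (nat_lit 81) (nat_lit 5) (nat_lit 483) (nat_lit 430) (nat_lit 287)) (XT.nd (nat_lit 78) (nat_lit 228) (nat_lit 0) (XT.lf (nat_lit 0) (nat_lit 20378443665) (nat_lit 152) (nat_lit 46386029586) (nat_lit 228) (nat_lit 19045147517) (nat_lit 76) (nat_lit 5) (nat_lit 78) (nat_lit 5) (nat_lit 79) (nat_lit 5) (nat_lit 484) (nat_lit 430) (nat_lit 286)) (XT.lf (nat_lit 0) (nat_lit 14642888349) (nat_lit 152) (nat_lit 1946348645) (nat_lit 228) (nat_lit 72145384984) (nat_lit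 73) (nat_lit 5) (nat_lit 75) (nat_lit 5) (nat_lit 76) (nat_lit 5) (nat_lit 485) (nat_lit 430) (nat_lit 285)))) (XT.nd (nat_lit 156) (nat_lit 152) (nat_lit 0) (XT.nd (nat_lit 78) (nat_lit 228) (nat_lit 0) (XT.lf (nat_lit 0) (nat_lit 7819129837) (nat_lit 152) (nat_lit 46977337075) (nat_lit 228) (nat_lit 36968199328) (nat_lit 71) (nat_lit 5) (nat_lit 73) (nat_lit 5) (nat_lit 74) (nat_lit 5) (nat_lit 486) (nat_lit 430) (nat_lit 284)) (XT.lf (nat_lit 0) (nat_lit 425004110) (nat_lit 152) (nat_lit 333670437) (nat_lit 228) (nat_lit 94163841614) (nat_lit 68) (nat_lit 5) (nat_lit 70) (nat_lit 5) (nat_lit 71) (nat_lit 5) (nat_lit 487) (nat_lit 430) (nat_lit 283))) (XT.nd (nat_lit 78) (nat_lit 152) (nat_lit 0) (XT.lf (nat_lit 0) (nat_lit 40951017090) (nat_lit 228) (nat_lit 8300100458) (nat_lit 76) (nat_lit 48935850066) (nat_lit 68) (nat_lit 5) (nat_lit 71) (nat_lit 5) (nat_lit 69) (nat_lit 5) (nat_lit 488)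 (nat_lit 430) (nat_lit 282)) (XT.lf (nat_lit 0) (nat_lit 83833236173) (nat_lit 152) (nat_lit 125438394) (nat_lit 228) (nat_lit 17631796336) (nat_lit 66) (nat_lit 5) (nat_lit 68) (nat_lit 5) (nat_lit 69) (nat_lit 5) (nat_lit 489) (nat_lit 430) (nat_lit 281))))))))
noncomputable def xc97 : XT := (XT.nd (nat_lit 59592) (nat_lit 0) (nat_lit 2584) (XT.nd (nat_lit 58578) (nat_lit 0) (nat_lit 10412) (XT.nd (nat_lit 58110) (nat_lit 0) (nat_lit 16416) (XT.nd (nat_lit 57876) (nat_lit 0) (nat_lit 16264) (XT.nd (nat_lit 78) (nat_lit 304) (nat_lit 0) (XT.lf (nat_lit 0) (nat_lit 24811754241) (nat_lit 152) (nat_lit 28790422605) (nat_lit 76) (nat_lit 51515267607) (nat_lit 64) (nat_lit 5) (nat_lit 66) (nat_lit 5) (nat_lit 65) (nat_lit 5) (nat_lit 490) (nat_lit 430) (nat_lit 280)) (XT.nd (nat_lit 78) (nat_lit 152) (nat_lit 0) (XT.lf (nat_lit 0) (nat_lit 67807165349) (nat_lit 152) (nat_lit 2043354281) (nat_lit 228)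 (nat_lit 38939879363) (nat_lit 62) (nat_lit 5) (nat_lit 64) (nat_lit 5) (nat_lit 65) (nat_lit 5) (nat_lit 491) (nat_lit 430) (nat_lit 279)) (XT.lf (nat_lit 0) (nat_lit 5772443666) (nat_lit 152) (nat_lit 54846473222) (nat_lit 76) (nat_lit 51985810893) (nat_lit 60) (nat_lit 5) (nat_lit 62) (nat_lit 5) (nat_lit 61) (nat_lit 5) (nat_lit 492) (nat_lit 430) (nat_lit 278)))) (XT.nd (nat_lit 78) (nat_lit 0) (nat_lit 76) (XT.lf (nat_lit 0) (nat_lit 1599078114) (nat_lit 1292) (nat_lit 3844653353) (nat_lit 1292) (nat_lit 3844653353) (nat_lit 274) (nat_lit 3) (nat_lit 291) (nat_lit 3) (nat_lit 291) (nat_lit 5) (nat_lit 431) (nat_lit 431) (nat_lit 338)) (XT.nd (nat_lit 78) (nat_lit 0) (nat_lit 0) (XT.lf (nat_lit 0) (nat_lit 3702925310) (nat_lit 1216) (nat_lit 11438915881) (nat_lit 1292) (nat_lit 3886530330) (nat_lit 275) (nat_lit 5) (nat_lit 291) (nat_lit 5) (nat_lit 292) (nat_lit 5) (nat_lit 432) (nat_lit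 431) (nat_lit 337)) (XT.lf (nat_lit 76) (nat_lit 4253752645) (nat_lit 0) (nat_lit 189828956) (nat_lit 1292) (nat_lit 15052657097) (nat_lit 276) (nat_lit 5) (nat_lit 275) (nat_lit 5) (nat_lit 292) (nat_lit 5) (nat_lit 433) (nat_lit 431) (nat_lit 336))))) (XT.nd (nat_lit 234) (nat_lit 0) (nat_lit 228) (XT.nd (nat_lit 78) (nat_lit 0) (nat_lit 76) (XT.lf (nat_lit 76) (nat_lit 840697723) (nat_lit 0) (nat_lit 4637524673) (nat_lit 1292) (nat_lit 14501572731) (nat_lit 277) (nat_lit 5) (nat_lit 276) (nat_lit 5) (nat_lit 293) (nat_lit 5) (nat_lit 434) (nat_lit 431) (nat_lit 335)) (XT.nd (nat_lit 78) (nat_lit 0) (nat_lit 76) (XT.lf (nat_lit 0) (nat_lit 6813959577) (nat_lit 1216) (nat_lit 2558851995) (nat_lit 1292) (nat_lit 11107241107) (nat_lit 277) (nat_lit 5) (nat_lit 293) (nat_lit 5) (nat_lit 294) (nat_lit 5) (nat_lit 435) (nat_lit 431) (nat_lit 334)) (XT.lf (nat_lit 0) (nat_lit 8455280295) (nat_lit 1216)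 (nat_lit 5977769190) (nat_lit 1292) (nat_lit 6565113756) (nat_lit 278) (nat_lit 5) (nat_lit 294) (nat_lit 5) (nat_lit 295) (nat_lit 5) (nat_lit 436) (nat_lit 431) (nat_lit 333)))) (XT.nd (nat_lit 78) (nat_lit 0) (nat_lit 0) (XT.lf (nat_lit 0) (nat_lit 10416307599) (nat_lit 1216) (nat_lit 9431290080) (nat_lit 1292) (nat_lit 1687456275) (nat_lit 279) (nat_lit 5) (nat_lit 295) (nat_lit 5) (nat_lit 296) (nat_lit 5) (nat_lit 437) (nat_lit 431) (nat_lit 332)) (XT.nd (nat_lit 78) (nat_lit 0) (nat_lit 76) (XT.lf (nat_lit 76) (nat_lit 9137634910) (nat_lit 0) (nat_lit 3617518691) (nat_lit 1292) (nat_lit 9335246239) (nat_lit 280) (nat_lit 5) (nat_lit 279) (nat_lit 5) (nat_lit 296) (nat_lit 5) (nat_lit 438) (nat_lit 431) (nat_lit 331)) (XT.lf (nat_lit 76) (nat_lit 6139394775) (nat_lit 0) (nat_lit 9342444598) (nat_lit 1292) (nat_lit 7183550205) (nat_lit 281) (nat_lit 5) (nat_lit 280) (nat_lit 5) (nat_lit 297)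 (nat_lit 5) (nat_lit 439) (nat_lit 431) (nat_lit 330)))))) (XT.nd (nat_lit 468) (nat_lit 3192) (nat_lit 0) (XT.nd (nat_lit 234) (nat_lit 1976) (nat_lit 0) (XT.nd (nat_lit 78) (nat_lit 1216) (nat_lit 0) (XT.lf (nat_lit 76) (nat_lit 3128587287) (nat_lit 0) (nat_lit 15477263623) (nat_lit 1292) (nat_lit 4655451466) (nat_lit 282) (nat_lit 5) (nat_lit 281) (nat_lit 5) (nat_lit 298) (nat_lit 5) (nat_lit 440) (nat_lit 431) (nat_lit 329)) (XT.nd (nat_lit 78) (nat_lit 76) (nat_lit 0) (XT.lf (nat_lit 0) (nat_lit 108013498) (nat_lit 1216) (nat_lit 22046550991) (nat_lit 1292) (nat_lit 1724394438) (nat_lit 266) (nat_lit 5) (nat_lit 282) (nat_lit 5) (nat_lit 283) (nat_lit 5) (nat_lit 441) (nat_lit 431) (nat_lit 328)) (XT.lf (nat_lit 0) (nat_lit 1678780538) (nat_lit 1292) (nat_lit 2923114992) (nat_lit 76) (nat_lit 19914656324) (nat_lit 265) (nat_lit 5) (nat_lit 282) (nat_lit 5) (nat_lit 266) (nat_lit 5) (nat_lit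 442) (nat_lit 431) (nat_lit 327)))) (XT.nd (nat_lit 78) (nat_lit 1216) (nat_lit 0) (XT.lf (nat_lit 0) (nat_lit 5523412663) (nat_lit 836) (nat_lit 5999050801) (nat_lit 76) (nat_lit 13653842703) (nat_lit 255) (nat_lit 5) (nat_lit 266) (nat_lit 5) (nat_lit 256) (nat_lit 5) (nat_lit 443) (nat_lit 431) (nat_lit 326)) (XT.nd (nat_lit 78) (nat_lit 608) (nat_lit 0) (XT.lf (nat_lit 0) (nat_lit 9854525521) (nat_lit 684) (nat_lit 9084089071) (nat_lit 76) (nat_lit 6921608779) (nat_lit 247) (nat_lit 5) (nat_lit 256) (nat_lit 5) (nat_lit 248) (nat_lit 5) (nat_lit 444) (nat_lit 431) (nat_lit 325)) (XT.lf (nat_lit 0) (nat_lit 14391302530) (nat_lit 608) (nat_lit 316002441) (nat_lit 684) (nat_lit 11861880658) (nat_lit 239) (nat_lit 5) (nat_lit 247) (nat_lit 5) (nat_lit 248) (nat_lit 5) (nat_lit 445) (nat_lit 431) (nat_lit 324))))) (XT.nd (nat_lit 234) (nat_lit 1520) (nat_lit 0) (XT.nd (nat_lit 78) (nat_lit 1140)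 (nat_lit 0) (XT.lf (nat_lit 0) (nat_lit 11955358962) (nat_lit 532) (nat_lit 8230217844) (nat_lit 608) (nat_lit 7116535995) (nat_lit 232) (nat_lit 5) (nat_lit 239) (nat_lit 5) (nat_lit 240) (nat_lit 5) (nat_lit 446) (nat_lit 431) (nat_lit 323)) (XT.nd (nat_lit 78) (nat_lit 608) (nat_lit 0) (XT.lf (nat_lit 0) (nat_lit 9542939882) (nat_lit 532) (nat_lit 16714429963) (nat_lit 608) (nat_lit 1804730547) (nat_lit 225) (nat_lit 5) (nat_lit 232) (nat_lit 5) (nat_lit 233) (nat_lit 5) (nat_lit 447) (nat_lit 431) (nat_lit 322)) (XT.lf (nat_lit 0) (nat_lit 4029977563) (nat_lit 608) (nat_lit 21730639212) (nat_lit 76) (nat_lit 3088456827) (nat_lit 217) (nat_lit 5) (nat_lit 225) (nat_lit 5) (nat_lit 218) (nat_lit 5) (nat_lit 448) (nat_lit 431) (nat_lit 321)))) (XT.nd (nat_lit 156) (nat_lit 532) (nat_lit 0) (XT.nd (nat_lit 78) (nat_lit 456) (nat_lit 0) (XT.lf (nat_lit 0) (nat_lit 4645635520) (nat_lit 532) (nat_lit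 5869397249) (nat_lit 608) (nat_lit 19147950573) (nat_lit 210) (nat_lit 5) (nat_lit 217) (nat_lit 5) (nat_lit 218) (nat_lit 5) (nat_lit 449) (nat_lit 431) (nat_lit 320)) (XT.lf (nat_lit 0) (nat_lit 2168302488) (nat_lit 456) (nat_lit 15537216396) (nat_lit 532) (nat_lit 12800636259) (nat_lit 204) (nat_lit 5) (nat_lit 210) (nat_lit 5) (nat_lit 211) (nat_lit 5) (nat_lit 450) (nat_lit 431) (nat_lit 319))) (XT.nd (nat_lit 78) (nat_lit 532) (nat_lit 0) (XT.lf (nat_lit 0) (nat_lit 25616016647) (nat_lit 532) (nat_lit 271611112) (nat_lit 76) (nat_lit 5493044984) (nat_lit 204) (nat_lit 5) (nat_lit 211) (nat_lit 5) (nat_lit 205) (nat_lit 5) (nat_lit 451) (nat_lit 431) (nat_lit 318)) (XT.lf (nat_lit 0) (nat_lit 2028043809) (nat_lit 532) (nat_lit 2697756566) (nat_lit 76) (nat_lit 27559551653) (nat_lit 197) (nat_lit 5) (nat_lit 204) (nat_lit 5) (nat_lit 198) (nat_lit 5) (nat_lit 452) (nat_lit 431) (nat_lit 317)))))))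 (XT.nd (nat_lit 1014) (nat_lit 2964) (nat_lit 0) (XT.nd (nat_lit 468) (nat_lit 2356) (nat_lit 0) (XT.nd (nat_lit 234) (nat_lit 1216) (nat_lit 0) (XT.nd (nat_lit 78) (nat_lit 836) (nat_lit 0) (XT.lf (nat_lit 0) (nat_lit 10528644411) (nat_lit 532) (nat_lit 5205519909) (nat_lit 76) (nat_lit 17486265663) (nat_lit 191) (nat_lit 5) (nat_lit 198) (nat_lit 5) (nat_lit 192) (nat_lit 5) (nat_lit 453) (nat_lit 431) (nat_lit 316)) (XT.nd (nat_lit 78) (nat_lit 380) (nat_lit 0) (XT.lf (nat_lit 0) (nat_lit 19842316854) (nat_lit 532) (nat_lit 7679751898) (nat_lit 76) (nat_lit 6668553362) (nat_lit 185) (nat_lit 5) (nat_lit 192) (nat_lit 5) (nat_lit 186) (nat_lit 5) (nat_lit 454) (nat_lit 431) (nat_lit 315)) (XT.lf (nat_lit 0) (nat_lit 25032748071) (nat_lit 380) (nat_lit 5034202849) (nat_lit 456) (nat_lit 5129016054) (nat_lit 180) (nat_lit 5) (nat_lit 185) (nat_lit 5) (nat_lit 186) (nat_lit 5) (nat_lit 455) (nat_lit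 431) (nat_lit 314)))) (XT.nd (nat_lit 78) (nat_lit 760) (nat_lit 0) (XT.lf (nat_lit 0) (nat_lit 4944059752) (nat_lit 456) (nat_lit 12723631639) (nat_lit 76) (nat_lit 18568127559) (nat_lit 174) (nat_lit 5) (nat_lit 180) (nat_lit 5) (nat_lit 175) (nat_lit 5) (nat_lit 456) (nat_lit 431) (nat_lit 313)) (XT.nd (nat_lit 78) (nat_lit 380) (nat_lit 0) (XT.lf (nat_lit 0) (nat_lit 15837133905) (nat_lit 456) (nat_lit 15299760968) (nat_lit 76) (nat_lit 6176573856) (nat_lit 169) (nat_lit 5) (nat_lit 175) (nat_lit 5) (nat_lit 170) (nat_lit 5) (nat_lit 457) (nat_lit 431) (nat_lit 312)) (XT.lf (nat_lit 0) (nat_lit 20523375997) (nat_lit 380) (nat_lit 7251822125) (nat_lit 456) (nat_lit 10654794007) (nat_lit 164) (nat_lit 5) (nat_lit 169) (nat_lit 5) (nat_lit 170) (nat_lit 5) (nat_lit 458) (nat_lit 431) (nat_lit 311))))) (XT.nd (nat_lit 234) (nat_lit 1292) (nat_lit 0) (XT.nd (nat_lit 78) (nat_lit 684) (nat_lit 0)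 (XT.lf (nat_lit 0) (nat_lit 1205245599) (nat_lit 380) (nat_lit 20550542294) (nat_lit 76) (nat_lit 17831013799) (nat_lit 159) (nat_lit 5) (nat_lit 164) (nat_lit 5) (nat_lit 160) (nat_lit 5) (nat_lit 459) (nat_lit 431) (nat_lit 310)) (XT.nd (nat_lit 78) (nat_lit 304) (nat_lit 0) (XT.lf (nat_lit 0) (nat_lit 13896455669) (nat_lit 456) (nat_lit 23266529233) (nat_lit 76) (nat_lit 3621547342) (nat_lit 154) (nat_lit 5) (nat_lit 160) (nat_lit 5) (nat_lit 155) (nat_lit 5) (nat_lit 460) (nat_lit 431) (nat_lit 309)) (XT.lf (nat_lit 0) (nat_lit 15963578869) (nat_lit 304) (nat_lit 11838423585) (nat_lit 380) (nat_lit 14222754607) (nat_lit 150) (nat_lit 5) (nat_lit 154) (nat_lit 5) (nat_lit 155) (nat_lit 5) (nat_lit 461) (nat_lit 431) (nat_lit 308)))) (XT.nd (nat_lit 156) (nat_lit 608) (nat_lit 0) (XT.nd (nat_lit 78) (nat_lit 380) (nat_lit 0) (XT.lf (nat_lit 0) (nat_lit 14449614465) (nat_lit 304) (nat_lit 28469101751)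 (nat_lit 380) (nat_lit 392801194) (nat_lit 146) (nat_lit 5) (nat_lit 150) (nat_lit 5) (nat_lit 151) (nat_lit 5) (nat_lit 462) (nat_lit 431) (nat_lit 307)) (XT.lf (nat_lit 0) (nat_lit 12859348695) (nat_lit 304) (nat_lit 1501098831) (nat_lit 380) (nat_lit 30282869803) (nat_lit 141) (nat_lit 5) (nat_lit 145) (nat_lit 5) (nat_lit 146) (nat_lit 5) (nat_lit 463) (nat_lit 431) (nat_lit 306))) (XT.nd (nat_lit 78) (nat_lit 304) (nat_lit 0) (XT.lf (nat_lit 0) (nat_lit 11181015155) (nat_lit 304) (nat_lit 19321246557) (nat_lit 380) (nat_lit 15519558918) (nat_lit 137) (nat_lit 5) (nat_lit 141) (nat_lit 5) (nat_lit 142) (nat_lit 5) (nat_lit 464) (nat_lit 431) (nat_lit 305)) (XT.lf (nat_lit 0) (nat_lit 503388508) (nat_lit 304) (nat_lit 37885215609) (nat_lit 76) (nat_lit 9065017443) (nat_lit 133) (nat_lit 5) (nat_lit 137) (nat_lit 5) (nat_lit 134) (nat_lit 5) (nat_lit 465) (nat_lit 431) (nat_lit 304)))))) (XT.nd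 (nat_lit 468) (nat_lit 1520) (nat_lit 0) (XT.nd (nat_lit 234) (nat_lit 532) (nat_lit 0) (XT.nd (nat_lit 78) (nat_lit 608) (nat_lit 0) (XT.lf (nat_lit 0) (nat_lit 7767022680) (nat_lit 304) (nat_lit 9868345344) (nat_lit 380) (nat_lit 31298169914) (nat_lit 129) (nat_lit 5) (nat_lit 133) (nat_lit 5) (nat_lit 134) (nat_lit 5) (nat_lit 466) (nat_lit 431) (nat_lit 303)) (XT.nd (nat_lit 78) (nat_lit 380) (nat_lit 0) (XT.lf (nat_lit 0) (nat_lit 5927508671) (nat_lit 228) (nat_lit 30334431603) (nat_lit 304) (nat_lit 14206370769) (nat_lit 126) (nat_lit 5) (nat_lit 129) (nat_lit 5) (nat_lit 130) (nat_lit 5) (nat_lit 467) (nat_lit 431) (nat_lit 302)) (XT.lf (nat_lit 0) (nat_lit 4100690746) (nat_lit 304) (nat_lit 127631003) (nat_lit 380) (nat_lit 47833584641) (nat_lit 121) (nat_lit 5) (nat_lit 125) (nat_lit 5) (nat_lit 126) (nat_lit 5) (nat_lit 468) (nat_lit 431) (nat_lit 301)))) (XT.nd (nat_lit 78) (nat_lit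 304) (nat_lit 0) (XT.lf (nat_lit 0) (nat_lit 1961453597) (nat_lit 228) (nat_lit 22112228684) (nat_lit 304) (nat_lit 29633797860) (nat_lit 118) (nat_lit 5) (nat_lit 121) (nat_lit 5) (nat_lit 122) (nat_lit 5) (nat_lit 469) (nat_lit 431) (nat_lit 300)) (XT.nd (nat_lit 78) (nat_lit 304) (nat_lit 0) (XT.lf (nat_lit 0) (nat_lit 45496791649) (nat_lit 304) (nat_lit 143893681) (nat_lit 76) (nat_lit 9777083429) (nat_lit 118) (nat_lit 5) (nat_lit 122) (nat_lit 5) (nat_lit 119) (nat_lit 5) (nat_lit 470) (nat_lit 431) (nat_lit 299)) (XT.lf (nat_lit 0) (nat_lit 11320119846) (nat_lit 304) (nat_lit 2424465272) (nat_lit 76) (nat_lit 43443290977) (nat_lit 114) (nat_lit 5) (nat_lit 118) (nat_lit 5) (nat_lit 115) (nat_lit 5) (nat_lit 471) (nat_lit 431) (nat_lit 298))))) (XT.nd (nat_lit 234) (nat_lit 836) (nat_lit 0) (XT.nd (nat_lit 78) (nat_lit 456) (nat_lit 0) (XT.lf (nat_lit 0) (nat_lit 34134629908) (nat_lit 304)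 (nat_lit 4899491384) (nat_lit 76) (nat_lit 19987925035) (nat_lit 111) (nat_lit 5) (nat_lit 115) (nat_lit 5) (nat_lit 112) (nat_lit 5) (nat_lit 472) (nat_lit 431) (nat_lit 297)) (XT.nd (nat_lit 78) (nat_lit 228) (nat_lit 0) (XT.lf (nat_lit 0) (nat_lit 53497317619) (nat_lit 228) (nat_lit 5265839199) (nat_lit 304) (nat_lit 2164570021) (nat_lit 108) (nat_lit 5) (nat_lit 111) (nat_lit 5) (nat_lit 112) (nat_lit 5) (nat_lit 473) (nat_lit 431) (nat_lit 296)) (XT.lf (nat_lit 0) (nat_lit 22122586470) (nat_lit 228) (nat_lit 10401010303) (nat_lit 76) (nat_lit 30373293751) (nat_lit 105) (nat_lit 5) (nat_lit 108) (nat_lit 5) (nat_lit 106) (nat_lit 5) (nat_lit 474) (nat_lit 431) (nat_lit 295)))) (XT.nd (nat_lit 156) (nat_lit 380) (nat_lit 0) (XT.nd (nat_lit 78) (nat_lit 228) (nat_lit 0) (XT.lf (nat_lit 0) (nat_lit 48232900077) (nat_lit 304) (nat_lit 13443663463) (nat_lit 76) (nat_lit 3267699382) (nat_lit 102)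 (nat_lit 5) (nat_lit 106) (nat_lit 5) (nat_lit 103) (nat_lit 5) (nat_lit 475) (nat_lit 431) (nat_lit 294)) (XT.lf (nat_lit 0) (nat_lit 9311918007) (nat_lit 228) (nat_lit 16890099013) (nat_lit 76) (nat_lit 40861796553) (nat_lit 99) (nat_lit 5) (nat_lit 102) (nat_lit 5) (nat_lit 100) (nat_lit 5) (nat_lit 476) (nat_lit 431) (nat_lit 293))) (XT.nd (nat_lit 78) (nat_lit 152) (nat_lit 0) (XT.lf (nat_lit 0) (nat_lit 37011661337) (nat_lit 304) (nat_lit 20638779482) (nat_lit 76) (nat_lit 11612310109) (nat_lit 96) (nat_lit 5) (nat_lit 100) (nat_lit 5) (nat_lit 97) (nat_lit 5) (nat_lit 477) (nat_lit 431) (nat_lit 292)) (XT.lf (nat_lit 0) (nat_lit 46840695480) (nat_lit 152) (nat_lit 20141687459) (nat_lit 228) (nat_lit 4562672855) (nat_lit 94) (nat_lit 5) (nat_lit 96) (nat_lit 5) (nat_lit 97) (nat_lit 5) (nat_lit 478) (nat_lit 431) (nat_lit 291))))))))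
noncomputable def xc98 : XT := (XT.nd (nat_lit 59670) (nat_lit 0) (nat_lit 4864) (XT.nd (nat_lit 936) (nat_lit 304) (nat_lit 0) (XT.nd (nat_lit 468) (nat_lit 912) (nat_lit 0) (XT.nd (nat_lit 234) (nat_lit 532) (nat_lit 0) (XT.nd (nat_lit 78) (nat_lit 380) (nat_lit 0) (XT.lf (nat_lit 0) (nat_lit 24866716108) (nat_lit 304) (nat_lit 29288919054) (nat_lit 76) (nat_lit 19753727896) (nat_lit 90) (nat_lit 5) (nat_lit 94) (nat_lit 5) (nat_lit 91) (nat_lit 5) (nat_lit 479) (nat_lit 431) (nat_lit 290)) (XT.nd (nat_lit 78) (nat_lit 228) (nat_lit 0) (XT.lf (nat_lit 0) (nat_lit 42106069899) (nat_lit 152) (nat_lit 14428765824) (nat_lit 228) (nat_lit 19829846316) (nat_lit 88) (nat_lit 5) (nat_lit 90) (nat_lit 5) (nat_lit 91) (nat_lit 5) (nat_lit 480) (nat_lit 431) (nat_lit 289)) (XT.lf (nat_lit 0) (nat_lit 11581266137) (nat_lit 228) (nat_lit 39785539851) (nat_lit 76) (nat_lit 27544356147) (nat_lit 85) (nat_lit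 5) (nat_lit 88) (nat_lit 5) (nat_lit 86) (nat_lit 5) (nat_lit 481) (nat_lit 431) (nat_lit 288)))) (XT.nd (nat_lit 78) (nat_lit 380) (nat_lit 0) (XT.lf (nat_lit 0) (nat_lit 35660225372) (nat_lit 152) (nat_lit 9337047005) (nat_lit 228) (nat_lit 36556470602) (nat_lit 83) (nat_lit 5) (nat_lit 85) (nat_lit 5) (nat_lit 86) (nat_lit 5) (nat_lit 482) (nat_lit 431) (nat_lit 287)) (XT.nd (nat_lit 78) (nat_lit 228) (nat_lit 0) (XT.lf (nat_lit 0) (nat_lit 31666079047) (nat_lit 152) (nat_lit 49466625856) (nat_lit 228) (nat_lit 3164289461) (nat_lit 81) (nat_lit 5) (nat_lit 83) (nat_lit 5) (nat_lit 84) (nat_lit 5) (nat_lit 483) (nat_lit 431) (nat_lit 286)) (XT.lf (nat_lit 0) (nat_lit 27014355512) (nat_lit 152) (nat_lit 5087979623) (nat_lit 228) (nat_lit 55041056804) (nat_lit 78) (nat_lit 5) (nat_lit 80) (nat_lit 5) (nat_lit 81) (nat_lit 5) (nat_lit 484) (nat_lit 431) (nat_lit 285))))) (XT.nd (nat_lit 234) (nat_lit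 380) (nat_lit 0) (XT.nd (nat_lit 78) (nat_lit 380) (nat_lit 0) (XT.lf (nat_lit 0) (nat_lit 21604525621) (nat_lit 152) (nat_lit 48613103821) (nat_lit 228) (nat_lit 19879016882) (nat_lit 76) (nat_lit 5) (nat_lit 78) (nat_lit 5) (nat_lit 79) (nat_lit 5) (nat_lit 485) (nat_lit 431) (nat_lit 284)) (XT.nd (nat_lit 78) (nat_lit 152) (nat_lit 0) (XT.lf (nat_lit 0) (nat_lit 15578505380) (nat_lit 152) (nat_lit 1952699685) (nat_lit 228) (nat_lit 75636765885) (nat_lit 73) (nat_lit 5) (nat_lit 75) (nat_lit 5) (nat_lit 76) (nat_lit 5) (nat_lit 486) (nat_lit 431) (nat_lit 283)) (XT.lf (nat_lit 0) (nat_lit 8410162260) (nat_lit 152) (nat_lit 49236032817) (nat_lit 228) (nat_lit 38703400721) (nat_lit 71) (nat_lit 5) (nat_lit 73) (nat_lit 5) (nat_lit 74) (nat_lit 5) (nat_lit 487) (nat_lit 431) (nat_lit 282)))) (XT.nd (nat_lit 78) (nat_lit 152) (nat_lit 0) (XT.lf (nat_lit 0) (nat_lit 642747128) (nat_lit 152) (nat_lit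 261463735) (nat_lit 228) (nat_lit 98761196918) (nat_lit 68) (nat_lit 5) (nat_lit 70) (nat_lit 5) (nat_lit 71) (nat_lit 5) (nat_lit 488) (nat_lit 431) (nat_lit 281)) (XT.nd (nat_lit 78) (nat_lit 152) (nat_lit 0) (XT.lf (nat_lit 0) (nat_lit 43101860378) (nat_lit 228) (nat_lit 8525703067) (nat_lit 76) (nat_lit 51465647956) (nat_lit 68) (nat_lit 5) (nat_lit 71) (nat_lit 5) (nat_lit 69) (nat_lit 5) (nat_lit 489) (nat_lit 431) (nat_lit 280)) (XT.lf (nat_lit 0) (nat_lit 88208871213) (nat_lit 152) (nat_lit 47879291) (nat_lit 228) (nat_lit 18410234134) (nat_lit 66) (nat_lit 5) (nat_lit 68) (nat_lit 5) (nat_lit 69) (nat_lit 5) (nat_lit 490) (nat_lit 431) (nat_lit 279)))))) (XT.nd (nat_lit 58188) (nat_lit 0) (nat_lit 15504) (XT.nd (nat_lit 57954) (nat_lit 0) (nat_lit 16188) (XT.nd (nat_lit 78) (nat_lit 152) (nat_lit 0) (XT.lf (nat_lit 0) (nat_lit 26151195575) (nat_lit 152) (nat_lit 30047130755) (nat_lit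 76) (nat_lit 54172019611) (nat_lit 64) (nat_lit 5) (nat_lit 66) (nat_lit 5) (nat_lit 65) (nat_lit 5) (nat_lit 491) (nat_lit 431) (nat_lit 278)) (XT.nd (nat_lit 57798) (nat_lit 0) (nat_lit 16112) (XT.lf (nat_lit 0) (nat_lit 71375096299) (nat_lit 152) (nat_lit 2063802556) (nat_lit 228) (nat_lit 40788139608) (nat_lit 62) (nat_lit 5) (nat_lit 64) (nat_lit 5) (nat_lit 65) (nat_lit 5) (nat_lit 492) (nat_lit 431) (nat_lit 277)) (XT.lf (nat_lit 0) (nat_lit 1987519464) (nat_lit 1292) (nat_lit 3877979103) (nat_lit 1292) (nat_lit 3877979103) (nat_lit 274) (nat_lit 3) (nat_lit 291) (nat_lit 3) (nat_lit 291) (nat_lit 5) (nat_lit 432) (nat_lit 432) (nat_lit 336)))) (XT.nd (nat_lit 78) (nat_lit 0) (nat_lit 0) (XT.lf (nat_lit 0) (nat_lit 4475924756) (nat_lit 1216) (nat_lit 11681594927) (nat_lit 1292) (nat_lit 3804498114) (nat_lit 275) (nat_lit 5) (nat_lit 291) (nat_lit 5) (nat_lit 292) (nat_lit 5) (nat_lit 433)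 (nat_lit 432) (nat_lit 335)) (XT.nd (nat_lit 78) (nat_lit 0) (nat_lit 76) (XT.lf (nat_lit 76) (nat_lit 4786268660) (nat_lit 0) (nat_lit 442426578) (nat_lit 1292) (nat_lit 15225337162) (nat_lit 276) (nat_lit 5) (nat_lit 275) (nat_lit 5) (nat_lit 292) (nat_lit 5) (nat_lit 434) (nat_lit 432) (nat_lit 334)) (XT.lf (nat_lit 76) (nat_lit 1212193482) (nat_lit 0) (nat_lit 5077009558) (nat_lit 1292) (nat_lit 14673345762) (nat_lit 277) (nat_lit 5) (nat_lit 276) (nat_lit 5) (nat_lit 293) (nat_lit 5) (nat_lit 435) (nat_lit 432) (nat_lit 333))))) (XT.nd (nat_lit 234) (nat_lit 836) (nat_lit 0) (XT.nd (nat_lit 78) (nat_lit 0) (nat_lit 76) (XT.lf (nat_lit 0) (nat_lit 7664251712) (nat_lit 1216) (nat_lit 2355658770) (nat_lit 1292) (nat_lit 11468738915) (nat_lit 277) (nat_lit 5) (nat_lit 293) (nat_lit 5) (nat_lit 294) (nat_lit 5) (nat_lit 436) (nat_lit 432) (nat_lit 332)) (XT.nd (nat_lit 78) (nat_lit 0) (nat_lit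 76) (XT.lf (nat_lit 0) (nat_lit 9364860765) (nat_lit 1216) (nat_lit 5938645562) (nat_lit 1292) (nat_lit 6729848116) (nat_lit 278) (nat_lit 5) (nat_lit 294) (nat_lit 5) (nat_lit 295) (nat_lit 5) (nat_lit 437) (nat_lit 432) (nat_lit 331)) (XT.lf (nat_lit 0) (nat_lit 11402582703) (nat_lit 1216) (nat_lit 9559089674) (nat_lit 1292) (nat_lit 1636063371) (nat_lit 279) (nat_lit 5) (nat_lit 295) (nat_lit 5) (nat_lit 296) (nat_lit 5) (nat_lit 438) (nat_lit 432) (nat_lit 330)))) (XT.nd (nat_lit 156) (nat_lit 988) (nat_lit 0) (XT.nd (nat_lit 78) (nat_lit 0) (nat_lit 76) (XT.lf (nat_lit 76) (nat_lit 9928427613) (nat_lit 0) (nat_lit 3910988399) (nat_lit 1292) (nat_lit 9342006666) (nat_lit 280) (nat_lit 5) (nat_lit 279) (nat_lit 5) (nat_lit 296) (nat_lit 5) (nat_lit 439) (nat_lit 432) (nat_lit 329)) (XT.lf (nat_lit 76) (nat_lit 6784865537) (nat_lit 0) (nat_lit 9898531504) (nat_lit 1292) (nat_lit 7102340891)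 (nat_lit 281) (nat_lit 5) (nat_lit 280) (nat_lit 5) (nat_lit 297) (nat_lit 5) (nat_lit 440) (nat_lit 432) (nat_lit 328))) (XT.nd (nat_lit 78) (nat_lit 1140) (nat_lit 0) (XT.lf (nat_lit 76) (nat_lit 3627196023) (nat_lit 0) (nat_lit 16318532400) (nat_lit 1292) (nat_lit 4466258995) (nat_lit 282) (nat_lit 5) (nat_lit 281) (nat_lit 5) (nat_lit 298) (nat_lit 5) (nat_lit 441) (nat_lit 432) (nat_lit 327)) (XT.lf (nat_lit 0) (nat_lit 458439616) (nat_lit 1216) (nat_lit 23196633526) (nat_lit 1292) (nat_lit 1405962198) (nat_lit 266) (nat_lit 5) (nat_lit 282) (nat_lit 5) (nat_lit 283) (nat_lit 5) (nat_lit 442) (nat_lit 432) (nat_lit 326))))))) (XT.nd (nat_lit 1014) (nat_lit 4484) (nat_lit 0) (XT.nd (nat_lit 468) (nat_lit 3040) (nat_lit 0) (XT.nd (nat_lit 234) (nat_lit 1672) (nat_lit 0) (XT.nd (nat_lit 78) (nat_lit 1368) (nat_lit 0) (XT.lf (nat_lit 0) (nat_lit 2140582178) (nat_lit 1292) (nat_lit 2733073395)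 (nat_lit 76) (nat_lit 20857306515) (nat_lit 265) (nat_lit 5) (nat_lit 282) (nat_lit 5) (nat_lit 266) (nat_lit 5) (nat_lit 443) (nat_lit 432) (nat_lit 325)) (XT.nd (nat_lit 78) (nat_lit 608) (nat_lit 0) (XT.lf (nat_lit 0) (nat_lit 6162241190) (nat_lit 836) (nat_lit 5961124816) (nat_lit 76) (nat_lit 14300798133) (nat_lit 255) (nat_lit 5) (nat_lit 266) (nat_lit 5) (nat_lit 256) (nat_lit 5) (nat_lit 444) (nat_lit 432) (nat_lit 324)) (XT.lf (nat_lit 0) (nat_lit 10695599446) (nat_lit 684) (nat_lit 9199374399) (nat_lit 76) (nat_lit 7247736360) (nat_lit 247) (nat_lit 5) (nat_lit 256) (nat_lit 5) (nat_lit 248) (nat_lit 5) (nat_lit 445) (nat_lit 432) (nat_lit 323)))) (XT.nd (nat_lit 78) (nat_lit 1064) (nat_lit 0) (XT.lf (nat_lit 0) (nat_lit 15440071733) (nat_lit 608) (nat_lit 337522663) (nat_lit 684) (nat_lit 12109932403) (nat_lit 239) (nat_lit 5) (nat_lit 247) (nat_lit 5) (nat_lit 248) (nat_lit 5) (nat_lit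 446) (nat_lit 432) (nat_lit 322)) (XT.nd (nat_lit 78) (nat_lit 532) (nat_lit 0) (XT.lf (nat_lit 0) (nat_lit 12882775904) (nat_lit 532) (nat_lit 8634171570) (nat_lit 608) (nat_lit 7140541178) (nat_lit 232) (nat_lit 5) (nat_lit 239) (nat_lit 5) (nat_lit 240) (nat_lit 5) (nat_lit 447) (nat_lit 432) (nat_lit 321)) (XT.lf (nat_lit 0) (nat_lit 10349666872) (nat_lit 532) (nat_lit 17530562895) (nat_lit 608) (nat_lit 1575612059) (nat_lit 225) (nat_lit 5) (nat_lit 232) (nat_lit 5) (nat_lit 233) (nat_lit 5) (nat_lit 448) (nat_lit 432) (nat_lit 320))))) (XT.nd (nat_lit 234) (nat_lit 1444) (nat_lit 0) (XT.nd (nat_lit 78) (nat_lit 988) (nat_lit 0) (XT.lf (nat_lit 0) (nat_lit 4533064463) (nat_lit 608) (nat_lit 22482065016) (nat_lit 76) (nat_lit 3267291131) (nat_lit 217) (nat_lit 5) (nat_lit 225) (nat_lit 5) (nat_lit 218) (nat_lit 5) (nat_lit 449) (nat_lit 432) (nat_lit 319)) (XT.nd (nat_lit 78) (nat_lit 456)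 (nat_lit 0) (XT.lf (nat_lit 0) (nat_lit 5203417701) (nat_lit 532) (nat_lit 6127722303) (nat_lit 608) (nat_lit 19806225617) (nat_lit 210) (nat_lit 5) (nat_lit 217) (nat_lit 5) (nat_lit 218) (nat_lit 5) (nat_lit 450) (nat_lit 432) (nat_lit 318)) (XT.lf (nat_lit 0) (nat_lit 2601075052) (nat_lit 456) (nat_lit 16269688585) (nat_lit 532) (nat_lit 13152246657) (nat_lit 204) (nat_lit 5) (nat_lit 210) (nat_lit 5) (nat_lit 211) (nat_lit 5) (nat_lit 451) (nat_lit 432) (nat_lit 317)))) (XT.nd (nat_lit 156) (nat_lit 912) (nat_lit 0) (XT.nd (nat_lit 78) (nat_lit 76) (nat_lit 0) (XT.lf (nat_lit 0) (nat_lit 31988111) (nat_lit 456) (nat_lit 27132180189) (nat_lit 532) (nat_lit 5777466562) (nat_lit 198) (nat_lit 5) (nat_lit 204) (nat_lit 5) (nat_lit 205) (nat_lit 5) (nat_lit 452) (nat_lit 432) (nat_lit 316)) (XT.lf (nat_lit 0) (nat_lit 2389323653) (nat_lit 532) (nat_lit 2519943594) (nat_lit 76) (nat_lit 28982508901)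 (nat_lit 197) (nat_lit 5) (nat_lit 204) (nat_lit 5) (nat_lit 198) (nat_lit 5) (nat_lit 453) (nat_lit 432) (nat_lit 315))) (XT.nd (nat_lit 78) (nat_lit 456) (nat_lit 0) (XT.lf (nat_lit 0) (nat_lit 11306011365) (nat_lit 532) (nat_lit 5155013535) (nat_lit 76) (nat_lit 18412853634) (nat_lit 191) (nat_lit 5) (nat_lit 198) (nat_lit 5) (nat_lit 192) (nat_lit 5) (nat_lit 454) (nat_lit 432) (nat_lit 314)) (XT.lf (nat_lit 0) (nat_lit 21076896582) (nat_lit 532) (nat_lit 7755142882) (nat_lit 76) (nat_lit 7060797074) (nat_lit 185) (nat_lit 5) (nat_lit 192) (nat_lit 5) (nat_lit 186) (nat_lit 5) (nat_lit 455) (nat_lit 432) (nat_lit 313)))))) (XT.nd (nat_lit 468) (nat_lit 2128) (nat_lit 0) (XT.nd (nat_lit 234) (nat_lit 1140) (nat_lit 0) (XT.nd (nat_lit 78) (nat_lit 836) (nat_lit 0) (XT.lf (nat_lit 0) (nat_lit 26584136226) (nat_lit 380) (nat_lit 5219961612) (nat_lit 456) (nat_lit 5144612772) (nat_lit 180) (nat_lit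 5) (nat_lit 185) (nat_lit 5) (nat_lit 186) (nat_lit 5) (nat_lit 456) (nat_lit 432) (nat_lit 312)) (XT.nd (nat_lit 78) (nat_lit 380) (nat_lit 0) (XT.lf (nat_lit 0) (nat_lit 5419668260) (nat_lit 456) (nat_lit 13057834689) (nat_lit 76) (nat_lit 19563217122) (nat_lit 174) (nat_lit 5) (nat_lit 180) (nat_lit 5) (nat_lit 175) (nat_lit 5) (nat_lit 457) (nat_lit 432) (nat_lit 311)) (XT.lf (nat_lit 0) (nat_lit 16850040729) (nat_lit 456) (nat_lit 15765481778) (nat_lit 76) (nat_lit 6556952286) (nat_lit 169) (nat_lit 5) (nat_lit 175) (nat_lit 5) (nat_lit 170) (nat_lit 5) (nat_lit 458) (nat_lit 432) (nat_lit 310)))) (XT.nd (nat_lit 78) (nat_lit 760) (nat_lit 0) (XT.lf (nat_lit 0) (nat_lit 21840233599) (nat_lit 380) (nat_lit 7537042640) (nat_lit 456) (nat_lit 10967781790) (nat_lit 164) (nat_lit 5) (nat_lit 169) (nat_lit 5) (nat_lit 170) (nat_lit 5) (nat_lit 459) (nat_lit 432) (nat_lit 309)) (XT.nd (nat_lit 78)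 (nat_lit 380) (nat_lit 0) (XT.lf (nat_lit 0) (nat_lit 1474221504) (nat_lit 380) (nat_lit 21286000876) (nat_lit 76) (nat_lit 18799626403) (nat_lit 159) (nat_lit 5) (nat_lit 164) (nat_lit 5) (nat_lit 160) (nat_lit 5) (nat_lit 460) (nat_lit 432) (nat_lit 308)) (XT.lf (nat_lit 0) (nat_lit 14793570501) (nat_lit 456) (nat_lit 24140874212) (nat_lit 76) (nat_lit 3883215300) (nat_lit 154) (nat_lit 5) (nat_lit 160) (nat_lit 5) (nat_lit 155) (nat_lit 5) (nat_lit 461) (nat_lit 432) (nat_lit 307))))) (XT.nd (nat_lit 234) (nat_lit 1140) (nat_lit 0) (XT.nd (nat_lit 78) (nat_lit 684) (nat_lit 0) (XT.lf (nat_lit 0) (nat_lit 17042455699) (nat_lit 304) (nat_lit 12345004212) (nat_lit 380) (nat_lit 14732645635) (nat_lit 150) (nat_lit 5) (nat_lit 154) (nat_lit 5) (nat_lit 155) (nat_lit 5) (nat_lit 462) (nat_lit 432) (nat_lit 306)) (XT.nd (nat_lit 78) (nat_lit 380) (nat_lit 0) (XT.lf (nat_lit 0) (nat_lit 15449670647)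 (nat_lit 304) (nat_lit 29804485491) (nat_lit 380) (nat_lit 217224736) (nat_lit 146) (nat_lit 5) (nat_lit 150) (nat_lit 5) (nat_lit 151) (nat_lit 5) (nat_lit 463) (nat_lit 432) (nat_lit 305)) (XT.lf (nat_lit 0) (nat_lit 13775660857) (nat_lit 304) (nat_lit 1487729118) (nat_lit 380) (nat_lit 31606520391) (nat_lit 141) (nat_lit 5) (nat_lit 145) (nat_lit 5) (nat_lit 146) (nat_lit 5) (nat_lit 464) (nat_lit 432) (nat_lit 304)))) (XT.nd (nat_lit 156) (nat_lit 532) (nat_lit 0) (XT.nd (nat_lit 78) (nat_lit 304) (nat_lit 0) (XT.lf (nat_lit 0) (nat_lit 12010162727) (nat_lit 304) (nat_lit 20196732276) (nat_lit 380) (nat_lit 16110607024) (nat_lit 137) (nat_lit 5) (nat_lit 141) (nat_lit 5) (nat_lit 142) (nat_lit 5) (nat_lit 465) (nat_lit 432) (nat_lit 303)) (XT.lf (nat_lit 0) (nat_lit 704671892) (nat_lit 304) (nat_lit 39509185769) (nat_lit 76) (nat_lit 9607139343) (nat_lit 133) (nat_lit 5) (nat_lit 137) (nat_lit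 5) (nat_lit 134) (nat_lit 5) (nat_lit 466) (nat_lit 432) (nat_lit 302))) (XT.nd (nat_lit 78) (nat_lit 228) (nat_lit 0) (XT.lf (nat_lit 0) (nat_lit 8417916608) (nat_lit 304) (nat_lit 10269471118) (nat_lit 380) (nat_lit 32687698411) (nat_lit 129) (nat_lit 5) (nat_lit 133) (nat_lit 5) (nat_lit 134) (nat_lit 5) (nat_lit 467) (nat_lit 432) (nat_lit 301)) (XT.lf (nat_lit 0) (nat_lit 6483021115) (nat_lit 228) (nat_lit 31757496169) (nat_lit 304) (nat_lit 14746224760) (nat_lit 126) (nat_lit 5) (nat_lit 129) (nat_lit 5) (nat_lit 130) (nat_lit 5) (nat_lit 468) (nat_lit 432) (nat_lit 300))))))))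
noncomputable def xc99 : XT := (XT.nd (nat_lit 59748) (nat_lit 0) (nat_lit 7980) (XT.nd (nat_lit 936) (nat_lit 1976) (nat_lit 0) (XT.nd (nat_lit 468) (nat_lit 1368) (nat_lit 0) (XT.nd (nat_lit 234) (nat_lit 532) (nat_lit 0) (XT.nd (nat_lit 78) (nat_lit 456) (nat_lit 0) (XT.lf (nat_lit 0) (nat_lit 4560684214) (nat_lit 304) (nat_lit 40683654) (nat_lit 380) (nat_lit 50058766309) (nat_lit 121) (nat_lit 5) (nat_lit 125) (nat_lit 5) (nat_lit 126) (nat_lit 5) (nat_lit 469) (nat_lit 432) (nat_lit 299)) (XT.nd (nat_lit 78) (nat_lit 228) (nat_lit 0) (XT.lf (nat_lit 0) (nat_lit 2311033449) (nat_lit 228) (nat_lit 23123538363) (nat_lit 304) (nat_lit 30953548428) (nat_lit 118) (nat_lit 5) (nat_lit 121) (nat_lit 5) (nat_lit 122) (nat_lit 5) (nat_lit 470) (nat_lit 432) (nat_lit 298)) (XT.lf (nat_lit 0) (nat_lit 93920158) (nat_lit 228) (nat_lit 47829196657) (nat_lit 304) (nat_lit 10260978916) (nat_lit 115) (nat_lit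 5) (nat_lit 118) (nat_lit 5) (nat_lit 119) (nat_lit 5) (nat_lit 471) (nat_lit 432) (nat_lit 297)))) (XT.nd (nat_lit 78) (nat_lit 456) (nat_lit 0) (XT.lf (nat_lit 0) (nat_lit 12033266730) (nat_lit 304) (nat_lit 2306539299) (nat_lit 76) (nat_lit 45703034018) (nat_lit 114) (nat_lit 5) (nat_lit 118) (nat_lit 5) (nat_lit 115) (nat_lit 5) (nat_lit 472) (nat_lit 432) (nat_lit 296)) (XT.nd (nat_lit 78) (nat_lit 228) (nat_lit 0) (XT.lf (nat_lit 0) (nat_lit 35984592971) (nat_lit 304) (nat_lit 4908750417) (nat_lit 76) (nat_lit 21075493427) (nat_lit 111) (nat_lit 5) (nat_lit 115) (nat_lit 5) (nat_lit 112) (nat_lit 5) (nat_lit 473) (nat_lit 432) (nat_lit 295)) (XT.lf (nat_lit 0) (nat_lit 56401142297) (nat_lit 228) (nat_lit 5438784269) (nat_lit 304) (nat_lit 2130014083) (nat_lit 108) (nat_lit 5) (nat_lit 111) (nat_lit 5) (nat_lit 112) (nat_lit 5) (nat_lit 474) (nat_lit 432) (nat_lit 294))))) (XT.nd (nat_lit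 234) (nat_lit 684) (nat_lit 0) (XT.nd (nat_lit 78) (nat_lit 456) (nat_lit 0) (XT.lf (nat_lit 0) (nat_lit 23365072843) (nat_lit 228) (nat_lit 10692728849) (nat_lit 76) (nat_lit 31979829541) (nat_lit 105) (nat_lit 5) (nat_lit 108) (nat_lit 5) (nat_lit 106) (nat_lit 5) (nat_lit 475) (nat_lit 432) (nat_lit 293)) (XT.nd (nat_lit 78) (nat_lit 228) (nat_lit 0) (XT.lf (nat_lit 0) (nat_lit 50777404015) (nat_lit 304) (nat_lit 13890950528) (nat_lit 76) (nat_lit 3519123276) (nat_lit 102) (nat_lit 5) (nat_lit 106) (nat_lit 5) (nat_lit 103) (nat_lit 5) (nat_lit 476) (nat_lit 432) (nat_lit 292)) (XT.lf (nat_lit 0) (nat_lit 9907431337) (nat_lit 228) (nat_lit 17513557305) (nat_lit 76) (nat_lit 42992106546) (nat_lit 99) (nat_lit 5) (nat_lit 102) (nat_lit 5) (nat_lit 100) (nat_lit 5) (nat_lit 477) (nat_lit 432) (nat_lit 291)))) (XT.nd (nat_lit 78) (nat_lit 456) (nat_lit 0) (XT.lf (nat_lit 0) (nat_lit 38988893928)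 (nat_lit 304) (nat_lit 21453077930) (nat_lit 76) (nat_lit 12280106139) (nat_lit 96) (nat_lit 5) (nat_lit 100) (nat_lit 5) (nat_lit 97) (nat_lit 5) (nat_lit 478) (nat_lit 432) (nat_lit 290)) (XT.nd (nat_lit 78) (nat_lit 304) (nat_lit 0) (XT.lf (nat_lit 0) (nat_lit 49394132157) (nat_lit 152) (nat_lit 21060020647) (nat_lit 228) (nat_lit 4664465789) (nat_lit 94) (nat_lit 5) (nat_lit 96) (nat_lit 5) (nat_lit 97) (nat_lit 5) (nat_lit 479) (nat_lit 432) (nat_lit 289)) (XT.lf (nat_lit 0) (nat_lit 26230869151) (nat_lit 304) (nat_lit 30542853176) (nat_lit 76) (nat_lit 20827474688) (nat_lit 90) (nat_lit 5) (nat_lit 94) (nat_lit 5) (nat_lit 91) (nat_lit 5) (nat_lit 480) (nat_lit 432) (nat_lit 288)))))) (XT.nd (nat_lit 468) (nat_lit 912) (nat_lit 0) (XT.nd (nat_lit 234) (nat_lit 532) (nat_lit 0) (XT.nd (nat_lit 78) (nat_lit 380) (nat_lit 0) (XT.lf (nat_lit 0) (nat_lit 44415850946) (nat_lit 152) (nat_lit 15062756163)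 (nat_lit 228) (nat_lit 20700788926) (nat_lit 88) (nat_lit 5) (nat_lit 90) (nat_lit 5) (nat_lit 91) (nat_lit 5) (nat_lit 481) (nat_lit 432) (nat_lit 287)) (XT.nd (nat_lit 78) (nat_lit 152) (nat_lit 0) (XT.lf (nat_lit 0) (nat_lit 12275660237) (nat_lit 228) (nat_lit 41571294072) (nat_lit 76) (nat_lit 29006297485) (nat_lit 85) (nat_lit 5) (nat_lit 88) (nat_lit 5) (nat_lit 86) (nat_lit 5) (nat_lit 482) (nat_lit 432) (nat_lit 286)) (XT.lf (nat_lit 0) (nat_lit 37640925473) (nat_lit 152) (nat_lit 9717949679) (nat_lit 228) (nat_lit 38269194683) (nat_lit 83) (nat_lit 5) (nat_lit 85) (nat_lit 5) (nat_lit 86) (nat_lit 5) (nat_lit 483) (nat_lit 432) (nat_lit 285)))) (XT.nd (nat_lit 78) (nat_lit 380) (nat_lit 0) (XT.lf (nat_lit 0) (nat_lit 33443866573) (nat_lit 152) (nat_lit 51854548172) (nat_lit 228) (nat_lit 3210149368) (nat_lit 81) (nat_lit 5) (nat_lit 83) (nat_lit 5) (nat_lit 84) (nat_lit 5) (nat_lit 484)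 (nat_lit 432) (nat_lit 284)) (XT.nd (nat_lit 78) (nat_lit 152) (nat_lit 0) (XT.lf (nat_lit 0) (nat_lit 28556118916) (nat_lit 152) (nat_lit 5258085732) (nat_lit 228) (nat_lit 57683147157) (nat_lit 78) (nat_lit 5) (nat_lit 80) (nat_lit 5) (nat_lit 81) (nat_lit 5) (nat_lit 485) (nat_lit 432) (nat_lit 283)) (XT.lf (nat_lit 0) (nat_lit 22872651922) (nat_lit 152) (nat_lit 50960106183) (nat_lit 228) (nat_lit 20765586311) (nat_lit 76) (nat_lit 5) (nat_lit 78) (nat_lit 5) (nat_lit 79) (nat_lit 5) (nat_lit 486) (nat_lit 432) (nat_lit 282))))) (XT.nd (nat_lit 234) (nat_lit 304) (nat_lit 0) (XT.nd (nat_lit 78) (nat_lit 380) (nat_lit 0) (XT.lf (nat_lit 0) (nat_lit 16541986307) (nat_lit 152) (nat_lit 1967825470) (nat_lit 228) (nat_lit 79313490031) (nat_lit 73) (nat_lit 5) (nat_lit 75) (nat_lit 5) (nat_lit 76) (nat_lit 5) (nat_lit 487) (nat_lit 432) (nat_lit 281)) (XT.nd (nat_lit 78) (nat_lit 228) (nat_lit 0)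 (XT.lf (nat_lit 0) (nat_lit 9012145141) (nat_lit 152) (nat_lit 51616046601) (nat_lit 228) (nat_lit 40535887243) (nat_lit 71) (nat_lit 5) (nat_lit 73) (nat_lit 5) (nat_lit 74) (nat_lit 5) (nat_lit 488) (nat_lit 432) (nat_lit 280)) (XT.lf (nat_lit 0) (nat_lit 853109257) (nat_lit 152) (nat_lit 193910867) (nat_lit 228) (nat_lit 103598724540) (nat_lit 68) (nat_lit 5) (nat_lit 70) (nat_lit 5) (nat_lit 71) (nat_lit 5) (nat_lit 489) (nat_lit 432) (nat_lit 279)))) (XT.nd (nat_lit 156) (nat_lit 152) (nat_lit 0) (XT.nd (nat_lit 78) (nat_lit 152) (nat_lit 0) (XT.lf (nat_lit 0) (nat_lit 45350642678) (nat_lit 228) (nat_lit 8780194649) (nat_lit 76) (nat_lit 54114218686) (nat_lit 68) (nat_lit 5) (nat_lit 71) (nat_lit 5) (nat_lit 69) (nat_lit 5) (nat_lit 490) (nat_lit 432) (nat_lit 278)) (XT.lf (nat_lit 0) (nat_lit 92760667624) (nat_lit 228) (nat_lit 19211667625) (nat_lit 76) (nat_lit 25261204) (nat_lit 66) (nat_lit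 5) (nat_lit 69) (nat_lit 5) (nat_lit 67) (nat_lit 4) (nat_lit 491) (nat_lit 432) (nat_lit 277))) (XT.nd (nat_lit 57876) (nat_lit 0) (nat_lit 15960) (XT.lf (nat_lit 0) (nat_lit 27548418504) (nat_lit 152) (nat_lit 31383670531) (nat_lit 76) (nat_lit 56954079660) (nat_lit 64) (nat_lit 5) (nat_lit 66) (nat_lit 5) (nat_lit 65) (nat_lit 5) (nat_lit 492) (nat_lit 432) (nat_lit 276)) (XT.lf (nat_lit 0) (nat_lit 2366702642) (nat_lit 1292) (nat_lit 3927744799) (nat_lit 1292) (nat_lit 3927744799) (nat_lit 274) (nat_lit 3) (nat_lit 291) (nat_lit 3) (nat_lit 291) (nat_lit 5) (nat_lit 433) (nat_lit 433) (nat_lit 334))))))) (XT.nd (nat_lit 1014) (nat_lit 5928) (nat_lit 0) (XT.nd (nat_lit 468) (nat_lit 2128) (nat_lit 0) (XT.nd (nat_lit 234) (nat_lit 0) (nat_lit 152) (XT.nd (nat_lit 78) (nat_lit 0) (nat_lit 0) (XT.lf (nat_lit 0) (nat_lit 5232921158) (nat_lit 1216) (nat_lit 11967020027) (nat_lit 1292) (nat_lit 3744057503)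 (nat_lit 275) (nat_lit 5) (nat_lit 291) (nat_lit 5) (nat_lit 292) (nat_lit 5) (nat_lit 434) (nat_lit 433) (nat_lit 333)) (XT.nd (nat_lit 78) (nat_lit 0) (nat_lit 76) (XT.lf (nat_lit 76) (nat_lit 5315675864) (nat_lit 0) (nat_lit 685052374) (nat_lit 1292) (nat_lit 15460569744) (nat_lit 276) (nat_lit 5) (nat_lit 275) (nat_lit 5) (nat_lit 292) (nat_lit 5) (nat_lit 435) (nat_lit 433) (nat_lit 332)) (XT.lf (nat_lit 76) (nat_lit 1571633880) (nat_lit 0) (nat_lit 5519167203) (nat_lit 1292) (nat_lit 14905148555) (nat_lit 277) (nat_lit 5) (nat_lit 276) (nat_lit 5) (nat_lit 293) (nat_lit 5) (nat_lit 436) (nat_lit 433) (nat_lit 331)))) (XT.nd (nat_lit 78) (nat_lit 0) (nat_lit 76) (XT.lf (nat_lit 0) (nat_lit 8509681219) (nat_lit 1216) (nat_lit 2173091755) (nat_lit 1292) (nat_lit 11866335275) (nat_lit 277) (nat_lit 5) (nat_lit 293) (nat_lit 5) (nat_lit 294) (nat_lit 5) (nat_lit 437) (nat_lit 433) (nat_lit 330))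 (XT.nd (nat_lit 78) (nat_lit 0) (nat_lit 76) (XT.lf (nat_lit 0) (nat_lit 10274660678) (nat_lit 1216) (nat_lit 5928990912) (nat_lit 1292) (nat_lit 6918021857) (nat_lit 278) (nat_lit 5) (nat_lit 294) (nat_lit 5) (nat_lit 295) (nat_lit 5) (nat_lit 438) (nat_lit 433) (nat_lit 329)) (XT.lf (nat_lit 0) (nat_lit 12394897530) (nat_lit 1216) (nat_lit 9725239250) (nat_lit 1292) (nat_lit 1594723032) (nat_lit 279) (nat_lit 5) (nat_lit 295) (nat_lit 5) (nat_lit 296) (nat_lit 5) (nat_lit 439) (nat_lit 433) (nat_lit 328))))) (XT.nd (nat_lit 234) (nat_lit 2432) (nat_lit 0) (XT.nd (nat_lit 78) (nat_lit 0) (nat_lit 76) (XT.lf (nat_lit 76) (nat_lit 10727716076) (nat_lit 0) (nat_lit 4208663691) (nat_lit 1292) (nat_lit 9391871729) (nat_lit 280) (nat_lit 5) (nat_lit 279) (nat_lit 5) (nat_lit 296) (nat_lit 5) (nat_lit 440) (nat_lit 433) (nat_lit 327)) (XT.nd (nat_lit 78) (nat_lit 0) (nat_lit 76) (XT.lf (nat_lit 76)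 (nat_lit 7431139221) (nat_lit 0) (nat_lit 10474151663) (nat_lit 1292) (nat_lit 7058014104) (nat_lit 281) (nat_lit 5) (nat_lit 280) (nat_lit 5) (nat_lit 297) (nat_lit 5) (nat_lit 441) (nat_lit 433) (nat_lit 326)) (XT.lf (nat_lit 76) (nat_lit 4118922601) (nat_lit 0) (nat_lit 17195597883) (nat_lit 1292) (nat_lit 4306837211) (nat_lit 282) (nat_lit 5) (nat_lit 281) (nat_lit 5) (nat_lit 298) (nat_lit 5) (nat_lit 442) (nat_lit 433) (nat_lit 325)))) (XT.nd (nat_lit 156) (nat_lit 1368) (nat_lit 0) (XT.nd (nat_lit 78) (nat_lit 76) (nat_lit 0) (XT.lf (nat_lit 0) (nat_lit 794309845) (nat_lit 1216) (nat_lit 24399780381) (nat_lit 1292) (nat_lit 1109229050) (nat_lit 266) (nat_lit 5) (nat_lit 282) (nat_lit 5) (nat_lit 283) (nat_lit 5) (nat_lit 443) (nat_lit 433) (nat_lit 324)) (XT.lf (nat_lit 0) (nat_lit 2590343817) (nat_lit 1292) (nat_lit 2564786160) (nat_lit 76) (nat_lit 21852024335) (nat_lit 265) (nat_lit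 5) (nat_lit 282) (nat_lit 5) (nat_lit 266) (nat_lit 5) (nat_lit 444) (nat_lit 433) (nat_lit 323))) (XT.nd (nat_lit 78) (nat_lit 608) (nat_lit 0) (XT.lf (nat_lit 0) (nat_lit 6799294649) (nat_lit 836) (nat_lit 5952715273) (nat_lit 76) (nat_lit 14983423794) (nat_lit 255) (nat_lit 5) (nat_lit 266) (nat_lit 5) (nat_lit 256) (nat_lit 5) (nat_lit 445) (nat_lit 433) (nat_lit 322)) (XT.lf (nat_lit 0) (nat_lit 11546341004) (nat_lit 684) (nat_lit 9351933482) (nat_lit 76) (nat_lit 7592025347) (nat_lit 247) (nat_lit 5) (nat_lit 256) (nat_lit 5) (nat_lit 248) (nat_lit 5) (nat_lit 446) (nat_lit 433) (nat_lit 321)))))) (XT.nd (nat_lit 468) (nat_lit 2660) (nat_lit 0) (XT.nd (nat_lit 234) (nat_lit 1596) (nat_lit 0) (XT.nd (nat_lit 78) (nat_lit 1064) (nat_lit 0) (XT.lf (nat_lit 0) (nat_lit 16510673122) (nat_lit 608) (nat_lit 359587096) (nat_lit 684) (nat_lit 12402465497) (nat_lit 239) (nat_lit 5) (nat_lit 247) (nat_lit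 5) (nat_lit 248) (nat_lit 5) (nat_lit 447) (nat_lit 433) (nat_lit 320)) (XT.nd (nat_lit 78) (nat_lit 532) (nat_lit 0) (XT.lf (nat_lit 0) (nat_lit 13825916054) (nat_lit 532) (nat_lit 9059025575) (nat_lit 608) (nat_lit 7196596250) (nat_lit 232) (nat_lit 5) (nat_lit 239) (nat_lit 5) (nat_lit 240) (nat_lit 5) (nat_lit 448) (nat_lit 433) (nat_lit 319)) (XT.lf (nat_lit 0) (nat_lit 11166088988) (nat_lit 532) (nat_lit 18389323633) (nat_lit 608) (nat_lit 1364728248) (nat_lit 225) (nat_lit 5) (nat_lit 232) (nat_lit 5) (nat_lit 233) (nat_lit 5) (nat_lit 449) (nat_lit 433) (nat_lit 318)))) (XT.nd (nat_lit 78) (nat_lit 988) (nat_lit 0) (XT.lf (nat_lit 0) (nat_lit 5033266913) (nat_lit 608) (nat_lit 23302217105) (nat_lit 76) (nat_lit 3452797603) (nat_lit 217) (nat_lit 5) (nat_lit 225) (nat_lit 5) (nat_lit 218) (nat_lit 5) (nat_lit 450) (nat_lit 433) (nat_lit 317)) (XT.nd (nat_lit 78) (nat_lit 456) (nat_lit 0)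 (XT.lf (nat_lit 0) (nat_lit 5758827049) (nat_lit 532) (nat_lit 6402231041) (nat_lit 608) (nat_lit 20525223987) (nat_lit 210) (nat_lit 5) (nat_lit 217) (nat_lit 5) (nat_lit 218) (nat_lit 5) (nat_lit 451) (nat_lit 433) (nat_lit 316)) (XT.lf (nat_lit 0) (nat_lit 3025330563) (nat_lit 456) (nat_lit 17042911218) (nat_lit 532) (nat_lit 13548252264) (nat_lit 204) (nat_lit 5) (nat_lit 210) (nat_lit 5) (nat_lit 211) (nat_lit 5) (nat_lit 452) (nat_lit 433) (nat_lit 315))))) (XT.nd (nat_lit 234) (nat_lit 1672) (nat_lit 0) (XT.nd (nat_lit 78) (nat_lit 532) (nat_lit 0) (XT.lf (nat_lit 0) (nat_lit 326427112) (nat_lit 456) (nat_lit 28440980731) (nat_lit 532) (nat_lit 5813911577) (nat_lit 198) (nat_lit 5) (nat_lit 204) (nat_lit 5) (nat_lit 205) (nat_lit 5) (nat_lit 453) (nat_lit 433) (nat_lit 314)) (XT.nd (nat_lit 78) (nat_lit 456) (nat_lit 0) (XT.lf (nat_lit 0) (nat_lit 2744506530) (nat_lit 532) (nat_lit 2362311931)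 (nat_lit 76) (nat_lit 30472432228) (nat_lit 197) (nat_lit 5) (nat_lit 204) (nat_lit 5) (nat_lit 198) (nat_lit 5) (nat_lit 454) (nat_lit 433) (nat_lit 313)) (XT.lf (nat_lit 0) (nat_lit 12098917134) (nat_lit 532) (nat_lit 5130875442) (nat_lit 76) (nat_lit 19380911000) (nat_lit 191) (nat_lit 5) (nat_lit 198) (nat_lit 5) (nat_lit 192) (nat_lit 5) (nat_lit 455) (nat_lit 433) (nat_lit 312)))) (XT.nd (nat_lit 156) (nat_lit 836) (nat_lit 0) (XT.nd (nat_lit 78) (nat_lit 380) (nat_lit 0) (XT.lf (nat_lit 0) (nat_lit 22350663302) (nat_lit 532) (nat_lit 7862993802) (nat_lit 76) (nat_lit 7467184813) (nat_lit 185) (nat_lit 5) (nat_lit 192) (nat_lit 5) (nat_lit 186) (nat_lit 5) (nat_lit 456) (nat_lit 433) (nat_lit 311)) (XT.lf (nat_lit 0) (nat_lit 28185225806) (nat_lit 380) (nat_lit 5421139848) (nat_lit 456) (nat_lit 5183381656) (nat_lit 180) (nat_lit 5) (nat_lit 185) (nat_lit 5) (nat_lit 186) (nat_lit 5) (nat_lit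 457) (nat_lit 433) (nat_lit 310))) (XT.nd (nat_lit 78) (nat_lit 380) (nat_lit 0) (XT.lf (nat_lit 0) (nat_lit 5897822214) (nat_lit 456) (nat_lit 13436822992) (nat_lit 76) (nat_lit 20601861593) (nat_lit 174) (nat_lit 5) (nat_lit 180) (nat_lit 5) (nat_lit 175) (nat_lit 5) (nat_lit 458) (nat_lit 433) (nat_lit 309)) (XT.lf (nat_lit 0) (nat_lit 17893041749) (nat_lit 456) (nat_lit 16282311660) (nat_lit 76) (nat_lit 6949697621) (nat_lit 169) (nat_lit 5) (nat_lit 175) (nat_lit 5) (nat_lit 170) (nat_lit 5) (nat_lit 459) (nat_lit 433) (nat_lit 308))))))))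
noncomputable def xc100 : XT := (XT.nd (nat_lit 1950) (nat_lit 1292) (nat_lit 0) (XT.nd (nat_lit 936) (nat_lit 2660) (nat_lit 0) (XT.nd (nat_lit 468) (nat_lit 1748) (nat_lit 0) (XT.nd (nat_lit 234) (nat_lit 988) (nat_lit 0) (XT.nd (nat_lit 78) (nat_lit 760) (nat_lit 0) (XT.lf (nat_lit 0) (nat_lit 23195908592) (nat_lit 380) (nat_lit 7843717365) (nat_lit 456) (nat_lit 11316849413) (nat_lit 164) (nat_lit 5) (nat_lit 169) (nat_lit 5) (nat_lit 170) (nat_lit 5) (nat_lit 460) (nat_lit 433) (nat_lit 307)) (XT.nd (nat_lit 78) (nat_lit 380) (nat_lit 0) (XT.lf (nat_lit 0) (nat_lit 1737241990) (nat_lit 380) (nat_lit 22085386151) (nat_lit 76) (nat_lit 19809505150) (nat_lit 159) (nat_lit 5) (nat_lit 164) (nat_lit 5) (nat_lit 160) (nat_lit 5) (nat_lit 461) (nat_lit 433) (nat_lit 306)) (XT.lf (nat_lit 0) (nat_lit 15716733878) (nat_lit 456) (nat_lit 25085803199) (nat_lit 76) (nat_lit 4150474107) (nat_lit 154)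 (nat_lit 5) (nat_lit 160) (nat_lit 5) (nat_lit 155) (nat_lit 5) (nat_lit 462) (nat_lit 433) (nat_lit 305)))) (XT.nd (nat_lit 78) (nat_lit 684) (nat_lit 0) (XT.lf (nat_lit 0) (nat_lit 18149179742) (nat_lit 304) (nat_lit 12884848025) (nat_lit 380) (nat_lit 15286741225) (nat_lit 150) (nat_lit 5) (nat_lit 154) (nat_lit 5) (nat_lit 155) (nat_lit 5) (nat_lit 463) (nat_lit 433) (nat_lit 304)) (XT.nd (nat_lit 78) (nat_lit 380) (nat_lit 0) (XT.lf (nat_lit 0) (nat_lit 16473923303) (nat_lit 304) (nat_lit 31214826456) (nat_lit 380) (nat_lit 51018836) (nat_lit 146) (nat_lit 5) (nat_lit 150) (nat_lit 5) (nat_lit 151) (nat_lit 5) (nat_lit 464) (nat_lit 433) (nat_lit 303)) (XT.lf (nat_lit 0) (nat_lit 14712375625) (nat_lit 304) (nat_lit 1481911805) (nat_lit 380) (nat_lit 33014063733) (nat_lit 141) (nat_lit 5) (nat_lit 145) (nat_lit 5) (nat_lit 146) (nat_lit 5) (nat_lit 465) (nat_lit 433) (nat_lit 302))))) (XT.nd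 (nat_lit 234) (nat_lit 836) (nat_lit 0) (XT.nd (nat_lit 78) (nat_lit 608) (nat_lit 0) (XT.lf (nat_lit 0) (nat_lit 12855656637) (nat_lit 304) (nat_lit 21124413236) (nat_lit 380) (nat_lit 16748400560) (nat_lit 137) (nat_lit 5) (nat_lit 141) (nat_lit 5) (nat_lit 142) (nat_lit 5) (nat_lit 466) (nat_lit 433) (nat_lit 301)) (XT.nd (nat_lit 78) (nat_lit 304) (nat_lit 0) (XT.lf (nat_lit 0) (nat_lit 899646039) (nat_lit 304) (nat_lit 41239483497) (nat_lit 76) (nat_lit 10168104951) (nat_lit 133) (nat_lit 5) (nat_lit 137) (nat_lit 5) (nat_lit 134) (nat_lit 5) (nat_lit 467) (nat_lit 433) (nat_lit 300)) (XT.lf (nat_lit 0) (nat_lit 9076946493) (nat_lit 304) (nat_lit 10699233569) (nat_lit 380) (nat_lit 34163008502) (nat_lit 129) (nat_lit 5) (nat_lit 133) (nat_lit 5) (nat_lit 134) (nat_lit 5) (nat_lit 468) (nat_lit 433) (nat_lit 299)))) (XT.nd (nat_lit 78) (nat_lit 608) (nat_lit 0) (XT.lf (nat_lit 0) (nat_lit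 7042217078) (nat_lit 228) (nat_lit 33260421305) (nat_lit 304) (nat_lit 15328919628) (nat_lit 126) (nat_lit 5) (nat_lit 129) (nat_lit 5) (nat_lit 130) (nat_lit 5) (nat_lit 469) (nat_lit 433) (nat_lit 298)) (XT.nd (nat_lit 78) (nat_lit 228) (nat_lit 0) (XT.lf (nat_lit 0) (nat_lit 4978442562) (nat_lit 380) (nat_lit 52369155297) (nat_lit 76) (nat_lit 41115938) (nat_lit 121) (nat_lit 5) (nat_lit 126) (nat_lit 5) (nat_lit 122) (nat_lit 5) (nat_lit 470) (nat_lit 433) (nat_lit 297)) (XT.lf (nat_lit 0) (nat_lit 2654709541) (nat_lit 228) (nat_lit 24194180809) (nat_lit 304) (nat_lit 32354342108) (nat_lit 118) (nat_lit 5) (nat_lit 121) (nat_lit 5) (nat_lit 122) (nat_lit 5) (nat_lit 471) (nat_lit 433) (nat_lit 296)))))) (XT.nd (nat_lit 468) (nat_lit 1444) (nat_lit 0) (XT.nd (nat_lit 234) (nat_lit 684) (nat_lit 0) (XT.nd (nat_lit 78) (nat_lit 304) (nat_lit 0) (XT.lf (nat_lit 0) (nat_lit 323573517) (nat_lit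 228) (nat_lit 50134444573) (nat_lit 304) (nat_lit 10631104735) (nat_lit 115) (nat_lit 5) (nat_lit 118) (nat_lit 5) (nat_lit 119) (nat_lit 5) (nat_lit 472) (nat_lit 433) (nat_lit 295)) (XT.nd (nat_lit 78) (nat_lit 228) (nat_lit 0) (XT.lf (nat_lit 0) (nat_lit 12768391192) (nat_lit 304) (nat_lit 2204950856) (nat_lit 76) (nat_lit 48067621994) (nat_lit 114) (nat_lit 5) (nat_lit 118) (nat_lit 5) (nat_lit 115) (nat_lit 5) (nat_lit 473) (nat_lit 433) (nat_lit 294)) (XT.lf (nat_lit 0) (nat_lit 37913737873) (nat_lit 304) (nat_lit 4940386998) (nat_lit 76) (nat_lit 22209242827) (nat_lit 111) (nat_lit 5) (nat_lit 115) (nat_lit 5) (nat_lit 112) (nat_lit 5) (nat_lit 474) (nat_lit 433) (nat_lit 293)))) (XT.nd (nat_lit 78) (nat_lit 456) (nat_lit 0) (XT.lf (nat_lit 0) (nat_lit 59428871791) (nat_lit 228) (nat_lit 5628776191) (nat_lit 304) (nat_lit 2107005091) (nat_lit 108) (nat_lit 5) (nat_lit 111) (nat_lit 5) (nat_lit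 112) (nat_lit 5) (nat_lit 475) (nat_lit 433) (nat_lit 292)) (XT.nd (nat_lit 78) (nat_lit 228) (nat_lit 0) (XT.lf (nat_lit 0) (nat_lit 24657006348) (nat_lit 228) (nat_lit 11020261465) (nat_lit 76) (nat_lit 33658522699) (nat_lit 105) (nat_lit 5) (nat_lit 108) (nat_lit 5) (nat_lit 106) (nat_lit 5) (nat_lit 476) (nat_lit 433) (nat_lit 291)) (XT.lf (nat_lit 0) (nat_lit 53436781186) (nat_lit 304) (nat_lit 14381510654) (nat_lit 76) (nat_lit 3774933340) (nat_lit 102) (nat_lit 5) (nat_lit 106) (nat_lit 5) (nat_lit 103) (nat_lit 5) (nat_lit 477) (nat_lit 433) (nat_lit 290))))) (XT.nd (nat_lit 234) (nat_lit 836) (nat_lit 0) (XT.nd (nat_lit 78) (nat_lit 380) (nat_lit 0) (XT.lf (nat_lit 0) (nat_lit 10520641843) (nat_lit 228) (nat_lit 18188739334) (nat_lit 76) (nat_lit 45220823135) (nat_lit 99) (nat_lit 5) (nat_lit 102) (nat_lit 5) (nat_lit 100) (nat_lit 5) (nat_lit 478) (nat_lit 433) (nat_lit 289)) (XT.nd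 (nat_lit 78) (nat_lit 152) (nat_lit 0) (XT.lf (nat_lit 0) (nat_lit 41053213477) (nat_lit 304) (nat_lit 22328325454) (nat_lit 76) (nat_lit 12973186752) (nat_lit 96) (nat_lit 5) (nat_lit 100) (nat_lit 5) (nat_lit 97) (nat_lit 5) (nat_lit 479) (nat_lit 433) (nat_lit 288)) (XT.lf (nat_lit 0) (nat_lit 52055586524) (nat_lit 152) (nat_lit 22032521738) (nat_lit 228) (nat_lit 4783094332) (nat_lit 94) (nat_lit 5) (nat_lit 96) (nat_lit 5) (nat_lit 97) (nat_lit 5) (nat_lit 480) (nat_lit 433) (nat_lit 287)))) (XT.nd (nat_lit 156) (nat_lit 380) (nat_lit 0) (XT.nd (nat_lit 78) (nat_lit 152) (nat_lit 0) (XT.lf (nat_lit 0) (nat_lit 27651997405) (nat_lit 304) (nat_lit 31879055398) (nat_lit 76) (nat_lit 21946907739) (nat_lit 90) (nat_lit 5) (nat_lit 94) (nat_lit 5) (nat_lit 91) (nat_lit 5) (nat_lit 481) (nat_lit 433) (nat_lit 286)) (XT.lf (nat_lit 0) (nat_lit 46822110660) (nat_lit 152) (nat_lit 15736576100) (nat_lit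 228) (nat_lit 21626486236) (nat_lit 88) (nat_lit 5) (nat_lit 90) (nat_lit 5) (nat_lit 91) (nat_lit 5) (nat_lit 482) (nat_lit 433) (nat_lit 285))) (XT.nd (nat_lit 78) (nat_lit 152) (nat_lit 0) (XT.lf (nat_lit 0) (nat_lit 12994051678) (nat_lit 228) (nat_lit 43465257622) (nat_lit 76) (nat_lit 30533459100) (nat_lit 85) (nat_lit 5) (nat_lit 88) (nat_lit 5) (nat_lit 86) (nat_lit 5) (nat_lit 483) (nat_lit 433) (nat_lit 284)) (XT.lf (nat_lit 0) (nat_lit 39702281345) (nat_lit 152) (nat_lit 10125888273) (nat_lit 228) (nat_lit 40078255825) (nat_lit 83) (nat_lit 5) (nat_lit 85) (nat_lit 5) (nat_lit 86) (nat_lit 5) (nat_lit 484) (nat_lit 433) (nat_lit 283))))))) (XT.nd (nat_lit 58890) (nat_lit 0) (nat_lit 11476) (XT.nd (nat_lit 468) (nat_lit 152) (nat_lit 0) (XT.nd (nat_lit 234) (nat_lit 608) (nat_lit 0) (XT.nd (nat_lit 78) (nat_lit 380) (nat_lit 0) (XT.lf (nat_lit 0) (nat_lit 35292462236) (nat_lit 152) (nat_lit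 54369807121) (nat_lit 228) (nat_lit 3268747932) (nat_lit 81) (nat_lit 5) (nat_lit 83) (nat_lit 5) (nat_lit 84) (nat_lit 5) (nat_lit 485) (nat_lit 433) (nat_lit 282)) (XT.nd (nat_lit 78) (nat_lit 152) (nat_lit 0) (XT.lf (nat_lit 0) (nat_lit 30157208878) (nat_lit 152) (nat_lit 5444533899) (nat_lit 228) (nat_lit 60467565298) (nat_lit 78) (nat_lit 5) (nat_lit 80) (nat_lit 5) (nat_lit 81) (nat_lit 5) (nat_lit 486) (nat_lit 433) (nat_lit 281)) (XT.lf (nat_lit 0) (nat_lit 24186715376) (nat_lit 152) (nat_lit 53432235911) (nat_lit 228) (nat_lit 21706467517) (nat_lit 76) (nat_lit 5) (nat_lit 78) (nat_lit 5) (nat_lit 79) (nat_lit 5) (nat_lit 487) (nat_lit 433) (nat_lit 280)))) (XT.nd (nat_lit 78) (nat_lit 380) (nat_lit 0) (XT.lf (nat_lit 0) (nat_lit 17536483045) (nat_lit 152) (nat_lit 1991378468) (nat_lit 228) (nat_lit 83183822902) (nat_lit 73) (nat_lit 5) (nat_lit 75) (nat_lit 5) (nat_lit 76) (nat_lit 5)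 (nat_lit 488) (nat_lit 433) (nat_lit 279)) (XT.nd (nat_lit 78) (nat_lit 228) (nat_lit 0) (XT.lf (nat_lit 0) (nat_lit 9627355362) (nat_lit 152) (nat_lit 54122664935) (nat_lit 228) (nat_lit 42469544630) (nat_lit 71) (nat_lit 5) (nat_lit 73) (nat_lit 5) (nat_lit 74) (nat_lit 5) (nat_lit 489) (nat_lit 433) (nat_lit 278)) (XT.lf (nat_lit 0) (nat_lit 1057419842) (nat_lit 152) (nat_lit 130476203) (nat_lit 228) (nat_lit 108687475077) (nat_lit 68) (nat_lit 5) (nat_lit 70) (nat_lit 5) (nat_lit 71) (nat_lit 5) (nat_lit 490) (nat_lit 433) (nat_lit 277))))) (XT.nd (nat_lit 58110) (nat_lit 0) (nat_lit 15884) (XT.nd (nat_lit 78) (nat_lit 152) (nat_lit 0) (XT.lf (nat_lit 0) (nat_lit 47703153752) (nat_lit 228) (nat_lit 9063382547) (nat_lit 76) (nat_lit 56888218357) (nat_lit 68) (nat_lit 5) (nat_lit 71) (nat_lit 5) (nat_lit 69) (nat_lit 5) (nat_lit 491) (nat_lit 433) (nat_lit 276)) (XT.nd (nat_lit 57954) (nat_lit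 0) (nat_lit 15808) (XT.lf (nat_lit 0) (nat_lit 97481751211) (nat_lit 228) (nat_lit 20019082558) (nat_lit 76) (nat_lit 94146440) (nat_lit 66) (nat_lit 5) (nat_lit 69) (nat_lit 5) (nat_lit 67) (nat_lit 4) (nat_lit 492) (nat_lit 433) (nat_lit 275)) (XT.lf (nat_lit 0) (nat_lit 2738831157) (nat_lit 1292) (nat_lit 3993398924) (nat_lit 1292) (nat_lit 3993398924) (nat_lit 274) (nat_lit 3) (nat_lit 291) (nat_lit 3) (nat_lit 291) (nat_lit 5) (nat_lit 434) (nat_lit 434) (nat_lit 332)))) (XT.nd (nat_lit 156) (nat_lit 0) (nat_lit 76) (XT.nd (nat_lit 78) (nat_lit 0) (nat_lit 0) (XT.lf (nat_lit 0) (nat_lit 5978195482) (nat_lit 1216) (nat_lit 12294482459) (nat_lit 1292) (nat_lit 3703899365) (nat_lit 275) (nat_lit 5) (nat_lit 291) (nat_lit 5) (nat_lit 292) (nat_lit 5) (nat_lit 435) (nat_lit 434) (nat_lit 331)) (XT.lf (nat_lit 76) (nat_lit 5844583260) (nat_lit 0) (nat_lit 919309045) (nat_lit 1292) (nat_lit 15756469636)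 (nat_lit 276) (nat_lit 5) (nat_lit 275) (nat_lit 5) (nat_lit 292) (nat_lit 5) (nat_lit 436) (nat_lit 434) (nat_lit 330))) (XT.nd (nat_lit 78) (nat_lit 0) (nat_lit 76) (XT.lf (nat_lit 76) (nat_lit 1921263849) (nat_lit 0) (nat_lit 5965925715) (nat_lit 1292) (nat_lit 15195200091) (nat_lit 277) (nat_lit 5) (nat_lit 276) (nat_lit 5) (nat_lit 293) (nat_lit 5) (nat_lit 437) (nat_lit 434) (nat_lit 329)) (XT.lf (nat_lit 0) (nat_lit 9354409653) (nat_lit 1216) (nat_lit 2009320081) (nat_lit 1292) (nat_lit 12300159443) (nat_lit 277) (nat_lit 5) (nat_lit 293) (nat_lit 5) (nat_lit 294) (nat_lit 5) (nat_lit 438) (nat_lit 434) (nat_lit 328)))))) (XT.nd (nat_lit 468) (nat_lit 3724) (nat_lit 0) (XT.nd (nat_lit 234) (nat_lit 912) (nat_lit 0) (XT.nd (nat_lit 78) (nat_lit 0) (nat_lit 76) (XT.lf (nat_lit 0) (nat_lit 11188898814) (nat_lit 1216) (nat_lit 5947357076) (nat_lit 1292) (nat_lit 7129393549) (nat_lit 278) (nat_lit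 5) (nat_lit 294) (nat_lit 5) (nat_lit 295) (nat_lit 5) (nat_lit 439) (nat_lit 434) (nat_lit 327)) (XT.nd (nat_lit 78) (nat_lit 0) (nat_lit 0) (XT.lf (nat_lit 0) (nat_lit 13397577273) (nat_lit 1216) (nat_lit 9928684970) (nat_lit 1292) (nat_lit 1562764391) (nat_lit 279) (nat_lit 5) (nat_lit 295) (nat_lit 5) (nat_lit 296) (nat_lit 5) (nat_lit 440) (nat_lit 434) (nat_lit 326)) (XT.lf (nat_lit 76) (nat_lit 11538811252) (nat_lit 0) (nat_lit 4511728052) (nat_lit 1292) (nat_lit 9483020627) (nat_lit 280) (nat_lit 5) (nat_lit 279) (nat_lit 5) (nat_lit 296) (nat_lit 5) (nat_lit 441) (nat_lit 434) (nat_lit 325)))) (XT.nd (nat_lit 78) (nat_lit 1064) (nat_lit 0) (XT.lf (nat_lit 76) (nat_lit 8081181811) (nat_lit 0) (nat_lit 11071050706) (nat_lit 1292) (nat_lit 7048607479) (nat_lit 281) (nat_lit 5) (nat_lit 280) (nat_lit 5) (nat_lit 297) (nat_lit 5) (nat_lit 442) (nat_lit 434) (nat_lit 324)) (XT.nd (nat_lit 78)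 (nat_lit 1140) (nat_lit 0) (XT.lf (nat_lit 76) (nat_lit 4606380547) (nat_lit 0) (nat_lit 18110832528) (nat_lit 1292) (nat_lit 4175027386) (nat_lit 282) (nat_lit 5) (nat_lit 281) (nat_lit 5) (nat_lit 298) (nat_lit 5) (nat_lit 443) (nat_lit 434) (nat_lit 323)) (XT.lf (nat_lit 0) (nat_lit 1117878623) (nat_lit 1216) (nat_lit 25659057544) (nat_lit 1292) (nat_lit 831782332) (nat_lit 266) (nat_lit 5) (nat_lit 282) (nat_lit 5) (nat_lit 283) (nat_lit 5) (nat_lit 444) (nat_lit 434) (nat_lit 322))))) (XT.nd (nat_lit 234) (nat_lit 2280) (nat_lit 0) (XT.nd (nat_lit 78) (nat_lit 1368) (nat_lit 0) (XT.lf (nat_lit 0) (nat_lit 3030729515) (nat_lit 1292) (nat_lit 2416435078) (nat_lit 76) (nat_lit 22900954345) (nat_lit 265) (nat_lit 5) (nat_lit 282) (nat_lit 5) (nat_lit 266) (nat_lit 5) (nat_lit 445) (nat_lit 434) (nat_lit 321)) (XT.nd (nat_lit 78) (nat_lit 608) (nat_lit 0) (XT.lf (nat_lit 0) (nat_lit 7437618928)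 (nat_lit 836) (nat_lit 5972377538) (nat_lit 76) (nat_lit 15703194308) (nat_lit 255) (nat_lit 5) (nat_lit 266) (nat_lit 5) (nat_lit 256) (nat_lit 5) (nat_lit 446) (nat_lit 434) (nat_lit 320)) (XT.lf (nat_lit 0) (nat_lit 12410244527) (nat_lit 684) (nat_lit 9540700553) (nat_lit 76) (nat_lit 7955211348) (nat_lit 247) (nat_lit 5) (nat_lit 256) (nat_lit 5) (nat_lit 248) (nat_lit 5) (nat_lit 447) (nat_lit 434) (nat_lit 319)))) (XT.nd (nat_lit 156) (nat_lit 1140) (nat_lit 0) (XT.nd (nat_lit 78) (nat_lit 532) (nat_lit 0) (XT.lf (nat_lit 0) (nat_lit 17607043786) (nat_lit 608) (nat_lit 382272391) (nat_lit 684) (nat_lit 12738721628) (nat_lit 239) (nat_lit 5) (nat_lit 247) (nat_lit 5) (nat_lit 248) (nat_lit 5) (nat_lit 448) (nat_lit 434) (nat_lit 318)) (XT.lf (nat_lit 0) (nat_lit 14788414900) (nat_lit 532) (nat_lit 9505759554) (nat_lit 608) (nat_lit 7283435598) (nat_lit 232) (nat_lit 5) (nat_lit 239) (nat_lit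 5) (nat_lit 240) (nat_lit 5) (nat_lit 449) (nat_lit 434) (nat_lit 317))) (XT.nd (nat_lit 78) (nat_lit 608) (nat_lit 0) (XT.lf (nat_lit 0) (nat_lit 11995539716) (nat_lit 532) (nat_lit 19292674253) (nat_lit 608) (nat_lit 1170230499) (nat_lit 225) (nat_lit 5) (nat_lit 232) (nat_lit 5) (nat_lit 233) (nat_lit 5) (nat_lit 450) (nat_lit 434) (nat_lit 316)) (XT.lf (nat_lit 0) (nat_lit 5533047471) (nat_lit 608) (nat_lit 24191635297) (nat_lit 76) (nat_lit 3645520854) (nat_lit 217) (nat_lit 5) (nat_lit 225) (nat_lit 5) (nat_lit 218) (nat_lit 5) (nat_lit 451) (nat_lit 434) (nat_lit 315))))))))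
noncomputable def xc101 : XT := (XT.nd (nat_lit 1950) (nat_lit 3040) (nat_lit 0) (XT.nd (nat_lit 936) (nat_lit 3496) (nat_lit 0) (XT.nd (nat_lit 468) (nat_lit 2356) (nat_lit 0) (XT.nd (nat_lit 234) (nat_lit 988) (nat_lit 0) (XT.nd (nat_lit 78) (nat_lit 912) (nat_lit 0) (XT.lf (nat_lit 0) (nat_lit 6314558390) (nat_lit 532) (nat_lit 6693428872) (nat_lit 608) (nat_lit 21305396378) (nat_lit 210) (nat_lit 5) (nat_lit 217) (nat_lit 5) (nat_lit 218) (nat_lit 5) (nat_lit 452) (nat_lit 434) (nat_lit 314)) (XT.nd (nat_lit 78) (nat_lit 456) (nat_lit 0) (XT.lf (nat_lit 0) (nat_lit 3443446759) (nat_lit 456) (nat_lit 17858538142) (nat_lit 532) (nat_lit 13988379866) (nat_lit 204) (nat_lit 5) (nat_lit 210) (nat_lit 5) (nat_lit 211) (nat_lit 5) (nat_lit 453) (nat_lit 434) (nat_lit 313)) (XT.lf (nat_lit 0) (nat_lit 608362612) (nat_lit 456) (nat_lit 29819666079) (nat_lit 532) (nat_lit 5875647234) (nat_lit 198) (nat_lit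 5) (nat_lit 204) (nat_lit 5) (nat_lit 205) (nat_lit 5) (nat_lit 454) (nat_lit 434) (nat_lit 312)))) (XT.nd (nat_lit 78) (nat_lit 912) (nat_lit 0) (XT.lf (nat_lit 0) (nat_lit 3095533845) (nat_lit 532) (nat_lit 2223167805) (nat_lit 76) (nat_lit 32033058722) (nat_lit 197) (nat_lit 5) (nat_lit 204) (nat_lit 5) (nat_lit 198) (nat_lit 5) (nat_lit 455) (nat_lit 434) (nat_lit 311)) (XT.nd (nat_lit 78) (nat_lit 456) (nat_lit 0) (XT.lf (nat_lit 0) (nat_lit 12910307617) (nat_lit 532) (nat_lit 5131737790) (nat_lit 76) (nat_lit 20392963065) (nat_lit 191) (nat_lit 5) (nat_lit 198) (nat_lit 5) (nat_lit 192) (nat_lit 5) (nat_lit 456) (nat_lit 434) (nat_lit 310)) (XT.lf (nat_lit 0) (nat_lit 23667672105) (nat_lit 532) (nat_lit 8002260296) (nat_lit 76) (nat_lit 7888932158) (nat_lit 185) (nat_lit 5) (nat_lit 192) (nat_lit 5) (nat_lit 186) (nat_lit 5) (nat_lit 457) (nat_lit 434) (nat_lit 309))))) (XT.nd (nat_lit 234)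 (nat_lit 1140) (nat_lit 0) (XT.nd (nat_lit 78) (nat_lit 836) (nat_lit 0) (XT.lf (nat_lit 0) (nat_lit 29841092781) (nat_lit 380) (nat_lit 5637938478) (nat_lit 456) (nat_lit 5244399487) (nat_lit 180) (nat_lit 5) (nat_lit 185) (nat_lit 5) (nat_lit 186) (nat_lit 5) (nat_lit 458) (nat_lit 434) (nat_lit 308)) (XT.nd (nat_lit 78) (nat_lit 380) (nat_lit 0) (XT.lf (nat_lit 0) (nat_lit 6380623112) (nat_lit 456) (nat_lit 13860225656) (nat_lit 76) (nat_lit 21686815095) (nat_lit 174) (nat_lit 5) (nat_lit 180) (nat_lit 5) (nat_lit 175) (nat_lit 5) (nat_lit 459) (nat_lit 434) (nat_lit 307)) (XT.lf (nat_lit 0) (nat_lit 18969552325) (nat_lit 456) (nat_lit 16850219346) (nat_lit 76) (nat_lit 7356046648) (nat_lit 169) (nat_lit 5) (nat_lit 175) (nat_lit 5) (nat_lit 170) (nat_lit 5) (nat_lit 460) (nat_lit 434) (nat_lit 306)))) (XT.nd (nat_lit 78) (nat_lit 760) (nat_lit 0) (XT.lf (nat_lit 0) (nat_lit 24594854419) (nat_lit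 380) (nat_lit 8172250257) (nat_lit 456) (nat_lit 11701901437) (nat_lit 164) (nat_lit 5) (nat_lit 169) (nat_lit 5) (nat_lit 170) (nat_lit 5) (nat_lit 461) (nat_lit 434) (nat_lit 305)) (XT.nd (nat_lit 78) (nat_lit 380) (nat_lit 0) (XT.lf (nat_lit 0) (nat_lit 1995813305) (nat_lit 380) (nat_lit 22949369954) (nat_lit 76) (nat_lit 20863379435) (nat_lit 159) (nat_lit 5) (nat_lit 164) (nat_lit 5) (nat_lit 160) (nat_lit 5) (nat_lit 462) (nat_lit 434) (nat_lit 304)) (XT.lf (nat_lit 0) (nat_lit 16668996741) (nat_lit 456) (nat_lit 26102347577) (nat_lit 76) (nat_lit 4424299891) (nat_lit 154) (nat_lit 5) (nat_lit 160) (nat_lit 5) (nat_lit 155) (nat_lit 5) (nat_lit 463) (nat_lit 434) (nat_lit 303)))))) (XT.nd (nat_lit 468) (nat_lit 1596) (nat_lit 0) (XT.nd (nat_lit 234) (nat_lit 912) (nat_lit 0) (XT.nd (nat_lit 78) (nat_lit 684) (nat_lit 0) (XT.lf (nat_lit 0) (nat_lit 19287569575) (nat_lit 304) (nat_lit 13458880543)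 (nat_lit 380) (nat_lit 15885512126) (nat_lit 150) (nat_lit 5) (nat_lit 154) (nat_lit 5) (nat_lit 155) (nat_lit 5) (nat_lit 464) (nat_lit 434) (nat_lit 302)) (XT.nd (nat_lit 78) (nat_lit 304) (nat_lit 0) (XT.lf (nat_lit 0) (nat_lit 104946689) (nat_lit 380) (nat_lit 32597104817) (nat_lit 76) (nat_lit 17419975040) (nat_lit 145) (nat_lit 5) (nat_lit 150) (nat_lit 5) (nat_lit 146) (nat_lit 5) (nat_lit 465) (nat_lit 434) (nat_lit 301)) (XT.lf (nat_lit 0) (nat_lit 15672875789) (nat_lit 304) (nat_lit 1483260212) (nat_lit 380) (nat_lit 34508047937) (nat_lit 141) (nat_lit 5) (nat_lit 145) (nat_lit 5) (nat_lit 146) (nat_lit 5) (nat_lit 466) (nat_lit 434) (nat_lit 300)))) (XT.nd (nat_lit 78) (nat_lit 608) (nat_lit 0) (XT.lf (nat_lit 0) (nat_lit 13720648786) (nat_lit 304) (nat_lit 22106116297) (nat_lit 380) (nat_lit 17433678351) (nat_lit 137) (nat_lit 5) (nat_lit 141) (nat_lit 5) (nat_lit 142) (nat_lit 5)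 (nat_lit 467) (nat_lit 434) (nat_lit 299)) (XT.nd (nat_lit 78) (nat_lit 304) (nat_lit 0) (XT.lf (nat_lit 0) (nat_lit 1089517730) (nat_lit 304) (nat_lit 43079088909) (nat_lit 76) (nat_lit 10749624612) (nat_lit 133) (nat_lit 5) (nat_lit 137) (nat_lit 5) (nat_lit 134) (nat_lit 5) (nat_lit 468) (nat_lit 434) (nat_lit 298)) (XT.lf (nat_lit 0) (nat_lit 9746788424) (nat_lit 304) (nat_lit 11158266808) (nat_lit 380) (nat_lit 35726873368) (nat_lit 129) (nat_lit 5) (nat_lit 133) (nat_lit 5) (nat_lit 134) (nat_lit 5) (nat_lit 469) (nat_lit 434) (nat_lit 297))))) (XT.nd (nat_lit 234) (nat_lit 760) (nat_lit 0) (XT.nd (nat_lit 78) (nat_lit 608) (nat_lit 0) (XT.lf (nat_lit 0) (nat_lit 7607520591) (nat_lit 228) (nat_lit 34846390513) (nat_lit 304) (nat_lit 15955124005) (nat_lit 126) (nat_lit 5) (nat_lit 129) (nat_lit 5) (nat_lit 130) (nat_lit 5) (nat_lit 470) (nat_lit 434) (nat_lit 296)) (XT.nd (nat_lit 78) (nat_lit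 228) (nat_lit 0) (XT.lf (nat_lit 0) (nat_lit 5361076191) (nat_lit 380) (nat_lit 54774591261) (nat_lit 76) (nat_lit 118455360) (nat_lit 121) (nat_lit 5) (nat_lit 126) (nat_lit 5) (nat_lit 122) (nat_lit 5) (nat_lit 471) (nat_lit 434) (nat_lit 295)) (XT.lf (nat_lit 0) (nat_lit 2994360591) (nat_lit 228) (nat_lit 25326307563) (nat_lit 304) (nat_lit 33838831330) (nat_lit 118) (nat_lit 5) (nat_lit 121) (nat_lit 5) (nat_lit 122) (nat_lit 5) (nat_lit 472) (nat_lit 434) (nat_lit 294)))) (XT.nd (nat_lit 156) (nat_lit 456) (nat_lit 0) (XT.nd (nat_lit 78) (nat_lit 76) (nat_lit 0) (XT.lf (nat_lit 0) (nat_lit 543795141) (nat_lit 228) (nat_lit 52562970053) (nat_lit 304) (nat_lit 11033024482) (nat_lit 115) (nat_lit 5) (nat_lit 118) (nat_lit 5) (nat_lit 119) (nat_lit 5) (nat_lit 473) (nat_lit 434) (nat_lit 293)) (XT.lf (nat_lit 0) (nat_lit 13527863926) (nat_lit 304) (nat_lit 2118449729) (nat_lit 76) (nat_lit 50543054137)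 (nat_lit 114) (nat_lit 5) (nat_lit 118) (nat_lit 5) (nat_lit 115) (nat_lit 5) (nat_lit 474) (nat_lit 434) (nat_lit 292))) (XT.nd (nat_lit 78) (nat_lit 228) (nat_lit 0) (XT.lf (nat_lit 0) (nat_lit 39927261732) (nat_lit 304) (nat_lit 4993482593) (nat_lit 76) (nat_lit 23392244406) (nat_lit 111) (nat_lit 5) (nat_lit 115) (nat_lit 5) (nat_lit 112) (nat_lit 5) (nat_lit 475) (nat_lit 434) (nat_lit 291)) (XT.lf (nat_lit 0) (nat_lit 62588680350) (nat_lit 228) (nat_lit 5835886392) (nat_lit 304) (nat_lit 2094886234) (nat_lit 108) (nat_lit 5) (nat_lit 111) (nat_lit 5) (nat_lit 112) (nat_lit 5) (nat_lit 476) (nat_lit 434) (nat_lit 290))))))) (XT.nd (nat_lit 1014) (nat_lit 380) (nat_lit 0) (XT.nd (nat_lit 468) (nat_lit 1292) (nat_lit 0) (XT.nd (nat_lit 234) (nat_lit 684) (nat_lit 0) (XT.nd (nat_lit 78) (nat_lit 456) (nat_lit 0) (XT.lf (nat_lit 0) (nat_lit 26002037947) (nat_lit 228) (nat_lit 11383425262) (nat_lit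 76) (nat_lit 35413740608) (nat_lit 105) (nat_lit 5) (nat_lit 108) (nat_lit 5) (nat_lit 106) (nat_lit 5) (nat_lit 477) (nat_lit 434) (nat_lit 289)) (XT.nd (nat_lit 78) (nat_lit 228) (nat_lit 0) (XT.lf (nat_lit 0) (nat_lit 56217923619) (nat_lit 304) (nat_lit 14915563602) (nat_lit 76) (nat_lit 4036109848) (nat_lit 102) (nat_lit 5) (nat_lit 106) (nat_lit 5) (nat_lit 103) (nat_lit 5) (nat_lit 478) (nat_lit 434) (nat_lit 288)) (XT.lf (nat_lit 0) (nat_lit 11153557326) (nat_lit 228) (nat_lit 18916320667) (nat_lit 76) (nat_lit 47553620537) (nat_lit 99) (nat_lit 5) (nat_lit 102) (nat_lit 5) (nat_lit 100) (nat_lit 5) (nat_lit 479) (nat_lit 434) (nat_lit 287)))) (XT.nd (nat_lit 78) (nat_lit 456) (nat_lit 0) (XT.lf (nat_lit 0) (nat_lit 43210069028) (nat_lit 304) (nat_lit 23265688328) (nat_lit 76) (nat_lit 13693569723) (nat_lit 96) (nat_lit 5) (nat_lit 100) (nat_lit 5) (nat_lit 97) (nat_lit 5) (nat_lit 480)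 (nat_lit 434) (nat_lit 286)) (XT.nd (nat_lit 78) (nat_lit 304) (nat_lit 0) (XT.lf (nat_lit 0) (nat_lit 54832286719) (nat_lit 152) (nat_lit 23061132006) (nat_lit 228) (nat_lit 4918308235) (nat_lit 94) (nat_lit 5) (nat_lit 96) (nat_lit 5) (nat_lit 97) (nat_lit 5) (nat_lit 481) (nat_lit 434) (nat_lit 285)) (XT.lf (nat_lit 0) (nat_lit 29133993915) (nat_lit 304) (nat_lit 33299819564) (nat_lit 76) (nat_lit 23115055227) (nat_lit 90) (nat_lit 5) (nat_lit 94) (nat_lit 5) (nat_lit 91) (nat_lit 5) (nat_lit 482) (nat_lit 434) (nat_lit 284))))) (XT.nd (nat_lit 234) (nat_lit 760) (nat_lit 0) (XT.nd (nat_lit 78) (nat_lit 380) (nat_lit 0) (XT.lf (nat_lit 0) (nat_lit 49331440380) (nat_lit 152) (nat_lit 16451461259) (nat_lit 228) (nat_lit 22608634006) (nat_lit 88) (nat_lit 5) (nat_lit 90) (nat_lit 5) (nat_lit 91) (nat_lit 5) (nat_lit 483) (nat_lit 434) (nat_lit 283)) (XT.nd (nat_lit 78) (nat_lit 152) (nat_lit 0)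 (XT.lf (nat_lit 0) (nat_lit 13738637190) (nat_lit 228) (nat_lit 45471081815) (nat_lit 76) (nat_lit 32129834314) (nat_lit 85) (nat_lit 5) (nat_lit 88) (nat_lit 5) (nat_lit 86) (nat_lit 5) (nat_lit 484) (nat_lit 434) (nat_lit 282)) (XT.lf (nat_lit 0) (nat_lit 41850034504) (nat_lit 152) (nat_lit 10561471676) (nat_lit 228) (nat_lit 41987476015) (nat_lit 83) (nat_lit 5) (nat_lit 85) (nat_lit 5) (nat_lit 86) (nat_lit 5) (nat_lit 485) (nat_lit 434) (nat_lit 281)))) (XT.nd (nat_lit 156) (nat_lit 380) (nat_lit 0) (XT.nd (nat_lit 78) (nat_lit 228) (nat_lit 0) (XT.lf (nat_lit 0) (nat_lit 37217087466) (nat_lit 152) (nat_lit 57018031301) (nat_lit 228) (nat_lit 3339750949) (nat_lit 81) (nat_lit 5) (nat_lit 83) (nat_lit 5) (nat_lit 84) (nat_lit 5) (nat_lit 486) (nat_lit 434) (nat_lit 280)) (XT.lf (nat_lit 0) (nat_lit 31822243033) (nat_lit 152) (nat_lit 5647412639) (nat_lit 228) (nat_lit 63400477152) (nat_lit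 78) (nat_lit 5) (nat_lit 80) (nat_lit 5) (nat_lit 81) (nat_lit 5) (nat_lit 487) (nat_lit 434) (nat_lit 279))) (XT.nd (nat_lit 78) (nat_lit 228) (nat_lit 0) (XT.lf (nat_lit 0) (nat_lit 25550636957) (nat_lit 152) (nat_lit 56035026317) (nat_lit 228) (nat_lit 22703447937) (nat_lit 76) (nat_lit 5) (nat_lit 78) (nat_lit 5) (nat_lit 79) (nat_lit 5) (nat_lit 488) (nat_lit 434) (nat_lit 278)) (XT.lf (nat_lit 0) (nat_lit 18565141595) (nat_lit 152) (nat_lit 2023066869) (nat_lit 228) (nat_lit 87256536377) (nat_lit 73) (nat_lit 5) (nat_lit 75) (nat_lit 5) (nat_lit 76) (nat_lit 5) (nat_lit 489) (nat_lit 434) (nat_lit 277)))))) (XT.nd (nat_lit 58500) (nat_lit 0) (nat_lit 15048) (XT.nd (nat_lit 58266) (nat_lit 0) (nat_lit 15732) (XT.nd (nat_lit 78) (nat_lit 228) (nat_lit 0) (XT.lf (nat_lit 0) (nat_lit 10258022871) (nat_lit 152) (nat_lit 56761511109) (nat_lit 228) (nat_lit 44508543881) (nat_lit 71) (nat_lit 5)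 (nat_lit 73) (nat_lit 5) (nat_lit 74) (nat_lit 5) (nat_lit 490) (nat_lit 434) (nat_lit 276)) (XT.nd (nat_lit 58110) (nat_lit 0) (nat_lit 15656) (XT.lf (nat_lit 0) (nat_lit 1256916796) (nat_lit 152) (nat_lit 70668759) (nat_lit 228) (nat_lit 114039140721) (nat_lit 68) (nat_lit 5) (nat_lit 70) (nat_lit 5) (nat_lit 71) (nat_lit 5) (nat_lit 491) (nat_lit 434) (nat_lit 275)) (XT.lf (nat_lit 0) (nat_lit 3105970795) (nat_lit 1292) (nat_lit 4074490081) (nat_lit 1292) (nat_lit 4074490081) (nat_lit 274) (nat_lit 3) (nat_lit 291) (nat_lit 3) (nat_lit 291) (nat_lit 5) (nat_lit 435) (nat_lit 435) (nat_lit 330)))) (XT.nd (nat_lit 78) (nat_lit 0) (nat_lit 0) (XT.lf (nat_lit 0) (nat_lit 6715770350) (nat_lit 1216) (nat_lit 12663502665) (nat_lit 1292) (nat_lit 3682871193) (nat_lit 275) (nat_lit 5) (nat_lit 291) (nat_lit 5) (nat_lit 292) (nat_lit 5) (nat_lit 436) (nat_lit 435) (nat_lit 329)) (XT.nd (nat_lit 78) (nat_lit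 0) (nat_lit 76) (XT.lf (nat_lit 76) (nat_lit 6375473287) (nat_lit 0) (nat_lit 1146684068) (nat_lit 1292) (nat_lit 16111523417) (nat_lit 276) (nat_lit 5) (nat_lit 275) (nat_lit 5) (nat_lit 292) (nat_lit 5) (nat_lit 437) (nat_lit 435) (nat_lit 328)) (XT.lf (nat_lit 76) (nat_lit 2263175818) (nat_lit 0) (nat_lit 6419142773) (nat_lit 1292) (nat_lit 15542074934) (nat_lit 277) (nat_lit 5) (nat_lit 276) (nat_lit 5) (nat_lit 293) (nat_lit 5) (nat_lit 438) (nat_lit 435) (nat_lit 327))))) (XT.nd (nat_lit 234) (nat_lit 836) (nat_lit 0) (XT.nd (nat_lit 78) (nat_lit 0) (nat_lit 76) (XT.lf (nat_lit 0) (nat_lit 10202397141) (nat_lit 1216) (nat_lit 1862687434) (nat_lit 1292) (nat_lit 12770502929) (nat_lit 277) (nat_lit 5) (nat_lit 293) (nat_lit 5) (nat_lit 294) (nat_lit 5) (nat_lit 439) (nat_lit 435) (nat_lit 326)) (XT.nd (nat_lit 78) (nat_lit 0) (nat_lit 76) (XT.lf (nat_lit 0) (nat_lit 12111613689) (nat_lit 1216)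 (nat_lit 5992495106) (nat_lit 1292) (nat_lit 7363841094) (nat_lit 278) (nat_lit 5) (nat_lit 294) (nat_lit 5) (nat_lit 295) (nat_lit 5) (nat_lit 440) (nat_lit 435) (nat_lit 325)) (XT.lf (nat_lit 0) (nat_lit 14414789350) (nat_lit 1216) (nat_lit 10168596550) (nat_lit 1292) (nat_lit 1539592142) (nat_lit 279) (nat_lit 5) (nat_lit 295) (nat_lit 5) (nat_lit 296) (nat_lit 5) (nat_lit 441) (nat_lit 435) (nat_lit 324)))) (XT.nd (nat_lit 156) (nat_lit 988) (nat_lit 0) (XT.nd (nat_lit 78) (nat_lit 0) (nat_lit 76) (XT.lf (nat_lit 76) (nat_lit 12364921312) (nat_lit 0) (nat_lit 4821333662) (nat_lit 1292) (nat_lit 9613911169) (nat_lit 280) (nat_lit 5) (nat_lit 279) (nat_lit 5) (nat_lit 296) (nat_lit 5) (nat_lit 442) (nat_lit 435) (nat_lit 323)) (XT.lf (nat_lit 76) (nat_lit 8737835577) (nat_lit 0) (nat_lit 11690990052) (nat_lit 1292) (nat_lit 7072414425) (nat_lit 281) (nat_lit 5) (nat_lit 280) (nat_lit 5) (nat_lit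 297) (nat_lit 5) (nat_lit 443) (nat_lit 435) (nat_lit 322))) (XT.nd (nat_lit 78) (nat_lit 1140) (nat_lit 0) (XT.lf (nat_lit 76) (nat_lit 5092039089) (nat_lit 0) (nat_lit 19066673248) (nat_lit 1292) (nat_lit 4068901943) (nat_lit 282) (nat_lit 5) (nat_lit 281) (nat_lit 5) (nat_lit 298) (nat_lit 5) (nat_lit 444) (nat_lit 435) (nat_lit 321)) (XT.lf (nat_lit 0) (nat_lit 1431235852) (nat_lit 1216) (nat_lit 26977645927) (nat_lit 1292) (nat_lit 571413925) (nat_lit 266) (nat_lit 5) (nat_lit 282) (nat_lit 5) (nat_lit 283) (nat_lit 5) (nat_lit 445) (nat_lit 435) (nat_lit 320))))))))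
noncomputable def xc102 : XT := (XT.nd (nat_lit 1950) (nat_lit 4408) (nat_lit 0) (XT.nd (nat_lit 936) (nat_lit 4712) (nat_lit 0) (XT.nd (nat_lit 468) (nat_lit 2584) (nat_lit 0) (XT.nd (nat_lit 234) (nat_lit 1672) (nat_lit 0) (XT.nd (nat_lit 78) (nat_lit 1368) (nat_lit 0) (XT.lf (nat_lit 0) (nat_lit 3464232891) (nat_lit 1292) (nat_lit 2286381195) (nat_lit 76) (nat_lit 24006390990) (nat_lit 265) (nat_lit 5) (nat_lit 282) (nat_lit 5) (nat_lit 266) (nat_lit 5) (nat_lit 446) (nat_lit 435) (nat_lit 319)) (XT.nd (nat_lit 78) (nat_lit 608) (nat_lit 0) (XT.lf (nat_lit 0) (nat_lit 8080120779) (nat_lit 836) (nat_lit 6018866257) (nat_lit 76) (nat_lit 16461686744) (nat_lit 255) (nat_lit 5) (nat_lit 266) (nat_lit 5) (nat_lit 256) (nat_lit 5) (nat_lit 447) (nat_lit 435) (nat_lit 318)) (XT.lf (nat_lit 0) (nat_lit 13290699132) (nat_lit 684) (nat_lit 9764828912) (nat_lit 76) (nat_lit 8338082785) (nat_lit 247) (nat_lit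 5) (nat_lit 256) (nat_lit 5) (nat_lit 248) (nat_lit 5) (nat_lit 448) (nat_lit 435) (nat_lit 317)))) (XT.nd (nat_lit 78) (nat_lit 1064) (nat_lit 0) (XT.lf (nat_lit 0) (nat_lit 18733053126) (nat_lit 608) (nat_lit 405654437) (nat_lit 684) (nat_lit 13118181842) (nat_lit 239) (nat_lit 5) (nat_lit 247) (nat_lit 5) (nat_lit 248) (nat_lit 5) (nat_lit 449) (nat_lit 435) (nat_lit 316)) (XT.nd (nat_lit 78) (nat_lit 532) (nat_lit 0) (XT.lf (nat_lit 0) (nat_lit 15773824800) (nat_lit 532) (nat_lit 9975408258) (nat_lit 608) (nat_lit 7399996979) (nat_lit 232) (nat_lit 5) (nat_lit 239) (nat_lit 5) (nat_lit 240) (nat_lit 5) (nat_lit 450) (nat_lit 435) (nat_lit 315)) (XT.lf (nat_lit 0) (nat_lit 12841254370) (nat_lit 532) (nat_lit 20242690677) (nat_lit 608) (nat_lit 990434395) (nat_lit 225) (nat_lit 5) (nat_lit 232) (nat_lit 5) (nat_lit 233) (nat_lit 5) (nat_lit 451) (nat_lit 435) (nat_lit 314))))) (XT.nd (nat_lit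 234) (nat_lit 988) (nat_lit 0) (XT.nd (nat_lit 78) (nat_lit 988) (nat_lit 0) (XT.lf (nat_lit 0) (nat_lit 6034749470) (nat_lit 608) (nat_lit 25151155689) (nat_lit 76) (nat_lit 3846013106) (nat_lit 217) (nat_lit 5) (nat_lit 225) (nat_lit 5) (nat_lit 218) (nat_lit 5) (nat_lit 452) (nat_lit 435) (nat_lit 313)) (XT.nd (nat_lit 78) (nat_lit 456) (nat_lit 0) (XT.lf (nat_lit 0) (nat_lit 6873179724) (nat_lit 532) (nat_lit 7001874719) (nat_lit 608) (nat_lit 22147456393) (nat_lit 210) (nat_lit 5) (nat_lit 217) (nat_lit 5) (nat_lit 218) (nat_lit 5) (nat_lit 453) (nat_lit 435) (nat_lit 312)) (XT.lf (nat_lit 0) (nat_lit 3857659611) (nat_lit 456) (nat_lit 18718341569) (nat_lit 532) (nat_lit 14472574358) (nat_lit 204) (nat_lit 5) (nat_lit 210) (nat_lit 5) (nat_lit 211) (nat_lit 5) (nat_lit 454) (nat_lit 435) (nat_lit 311)))) (XT.nd (nat_lit 78) (nat_lit 532) (nat_lit 0) (XT.lf (nat_lit 0) (nat_lit 879700602)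 (nat_lit 456) (nat_lit 31271317238) (nat_lit 532) (nat_lit 5961756197) (nat_lit 198) (nat_lit 5) (nat_lit 204) (nat_lit 5) (nat_lit 205) (nat_lit 5) (nat_lit 455) (nat_lit 435) (nat_lit 310)) (XT.nd (nat_lit 78) (nat_lit 456) (nat_lit 0) (XT.lf (nat_lit 0) (nat_lit 3444235245) (nat_lit 532) (nat_lit 2100984044) (nat_lit 76) (nat_lit 33668276177) (nat_lit 197) (nat_lit 5) (nat_lit 204) (nat_lit 5) (nat_lit 198) (nat_lit 5) (nat_lit 456) (nat_lit 435) (nat_lit 309)) (XT.lf (nat_lit 0) (nat_lit 13743074360) (nat_lit 532) (nat_lit 5156414090) (nat_lit 76) (nat_lit 21451619396) (nat_lit 191) (nat_lit 5) (nat_lit 198) (nat_lit 5) (nat_lit 192) (nat_lit 5) (nat_lit 457) (nat_lit 435) (nat_lit 308)))))) (XT.nd (nat_lit 468) (nat_lit 2280) (nat_lit 0) (XT.nd (nat_lit 234) (nat_lit 1140) (nat_lit 0) (XT.nd (nat_lit 78) (nat_lit 836) (nat_lit 0) (XT.lf (nat_lit 0) (nat_lit 25031985994) (nat_lit 532) (nat_lit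 8172093768) (nat_lit 76) (nat_lit 8327268203) (nat_lit 185) (nat_lit 5) (nat_lit 192) (nat_lit 5) (nat_lit 186) (nat_lit 5) (nat_lit 458) (nat_lit 435) (nat_lit 307)) (XT.nd (nat_lit 78) (nat_lit 456) (nat_lit 0) (XT.lf (nat_lit 0) (nat_lit 31556826047) (nat_lit 380) (nat_lit 5870621468) (nat_lit 456) (nat_lit 5326890435) (nat_lit 180) (nat_lit 5) (nat_lit 185) (nat_lit 5) (nat_lit 186) (nat_lit 5) (nat_lit 459) (nat_lit 435) (nat_lit 306)) (XT.lf (nat_lit 0) (nat_lit 6870093983) (nat_lit 456) (nat_lit 14327895909) (nat_lit 76) (nat_lit 22820915869) (nat_lit 174) (nat_lit 5) (nat_lit 180) (nat_lit 5) (nat_lit 175) (nat_lit 5) (nat_lit 460) (nat_lit 435) (nat_lit 305)))) (XT.nd (nat_lit 78) (nat_lit 760) (nat_lit 0) (XT.lf (nat_lit 0) (nat_lit 20082980952) (nat_lit 456) (nat_lit 17469412493) (nat_lit 76) (nat_lit 7777240496) (nat_lit 169) (nat_lit 5) (nat_lit 175) (nat_lit 5) (nat_lit 170) (nat_lit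 5) (nat_lit 461) (nat_lit 435) (nat_lit 304)) (XT.nd (nat_lit 78) (nat_lit 380) (nat_lit 0) (XT.lf (nat_lit 0) (nat_lit 26041513600) (nat_lit 380) (nat_lit 8523127643) (nat_lit 456) (nat_lit 12123014245) (nat_lit 164) (nat_lit 5) (nat_lit 169) (nat_lit 5) (nat_lit 170) (nat_lit 5) (nat_lit 462) (nat_lit 435) (nat_lit 303)) (XT.lf (nat_lit 0) (nat_lit 2251349291) (nat_lit 380) (nat_lit 23878892416) (nat_lit 76) (nat_lit 21964053193) (nat_lit 159) (nat_lit 5) (nat_lit 164) (nat_lit 5) (nat_lit 160) (nat_lit 5) (nat_lit 463) (nat_lit 435) (nat_lit 302))))) (XT.nd (nat_lit 234) (nat_lit 1216) (nat_lit 0) (XT.nd (nat_lit 78) (nat_lit 684) (nat_lit 0) (XT.lf (nat_lit 0) (nat_lit 17653400019) (nat_lit 456) (nat_lit 27191822525) (nat_lit 76) (nat_lit 4705652826) (nat_lit 154) (nat_lit 5) (nat_lit 160) (nat_lit 5) (nat_lit 155) (nat_lit 5) (nat_lit 464) (nat_lit 435) (nat_lit 301)) (XT.nd (nat_lit 78)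 (nat_lit 380) (nat_lit 0) (XT.lf (nat_lit 0) (nat_lit 20461409139) (nat_lit 304) (nat_lit 14068142135) (nat_lit 380) (nat_lit 16529614344) (nat_lit 150) (nat_lit 5) (nat_lit 154) (nat_lit 5) (nat_lit 155) (nat_lit 5) (nat_lit 465) (nat_lit 435) (nat_lit 300)) (XT.lf (nat_lit 0) (nat_lit 253024979) (nat_lit 380) (nat_lit 34016966594) (nat_lit 76) (nat_lit 18353831605) (nat_lit 145) (nat_lit 5) (nat_lit 150) (nat_lit 5) (nat_lit 146) (nat_lit 5) (nat_lit 466) (nat_lit 435) (nat_lit 299)))) (XT.nd (nat_lit 156) (nat_lit 608) (nat_lit 0) (XT.nd (nat_lit 78) (nat_lit 304) (nat_lit 0) (XT.lf (nat_lit 0) (nat_lit 16660493623) (nat_lit 304) (nat_lit 1491439384) (nat_lit 380) (nat_lit 36091301597) (nat_lit 141) (nat_lit 5) (nat_lit 145) (nat_lit 5) (nat_lit 146) (nat_lit 5) (nat_lit 467) (nat_lit 435) (nat_lit 298)) (XT.lf (nat_lit 0) (nat_lit 14608231627) (nat_lit 304) (nat_lit 23143832452) (nat_lit 380)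 (nat_lit 18167364776) (nat_lit 137) (nat_lit 5) (nat_lit 141) (nat_lit 5) (nat_lit 142) (nat_lit 5) (nat_lit 468) (nat_lit 435) (nat_lit 297))) (XT.nd (nat_lit 78) (nat_lit 304) (nat_lit 0) (XT.lf (nat_lit 0) (nat_lit 1275412564) (nat_lit 304) (nat_lit 45031348332) (nat_lit 76) (nat_lit 11353422772) (nat_lit 133) (nat_lit 5) (nat_lit 137) (nat_lit 5) (nat_lit 134) (nat_lit 5) (nat_lit 469) (nat_lit 435) (nat_lit 296)) (XT.lf (nat_lit 0) (nat_lit 10430041320) (nat_lit 304) (nat_lit 11647310816) (nat_lit 380) (nat_lit 37382345781) (nat_lit 129) (nat_lit 5) (nat_lit 133) (nat_lit 5) (nat_lit 134) (nat_lit 5) (nat_lit 470) (nat_lit 435) (nat_lit 295))))))) (XT.nd (nat_lit 1014) (nat_lit 1444) (nat_lit 0) (XT.nd (nat_lit 468) (nat_lit 1596) (nat_lit 0) (XT.nd (nat_lit 234) (nat_lit 532) (nat_lit 0) (XT.nd (nat_lit 78) (nat_lit 608) (nat_lit 0) (XT.lf (nat_lit 0) (nat_lit 8181268648) (nat_lit 228) (nat_lit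 36518821733) (nat_lit 304) (nat_lit 16625676935) (nat_lit 126) (nat_lit 5) (nat_lit 129) (nat_lit 5) (nat_lit 130) (nat_lit 5) (nat_lit 471) (nat_lit 435) (nat_lit 294)) (XT.nd (nat_lit 78) (nat_lit 228) (nat_lit 0) (XT.lf (nat_lit 0) (nat_lit 5750410274) (nat_lit 380) (nat_lit 57320103772) (nat_lit 76) (nat_lit 192662595) (nat_lit 121) (nat_lit 5) (nat_lit 126) (nat_lit 5) (nat_lit 122) (nat_lit 5) (nat_lit 472) (nat_lit 435) (nat_lit 293)) (XT.lf (nat_lit 0) (nat_lit 3331757145) (nat_lit 228) (nat_lit 26522253519) (nat_lit 304) (nat_lit 35409931279) (nat_lit 118) (nat_lit 5) (nat_lit 121) (nat_lit 5) (nat_lit 122) (nat_lit 5) (nat_lit 473) (nat_lit 435) (nat_lit 292)))) (XT.nd (nat_lit 78) (nat_lit 304) (nat_lit 0) (XT.lf (nat_lit 0) (nat_lit 756057867) (nat_lit 228) (nat_lit 55120191799) (nat_lit 304) (nat_lit 11467092496) (nat_lit 115) (nat_lit 5) (nat_lit 118) (nat_lit 5) (nat_lit 119) (nat_lit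 5) (nat_lit 474) (nat_lit 435) (nat_lit 291)) (XT.nd (nat_lit 78) (nat_lit 228) (nat_lit 0) (XT.lf (nat_lit 0) (nat_lit 14314055921) (nat_lit 304) (nat_lit 2045915373) (nat_lit 76) (nat_lit 53135559263) (nat_lit 114) (nat_lit 5) (nat_lit 118) (nat_lit 5) (nat_lit 115) (nat_lit 5) (nat_lit 475) (nat_lit 435) (nat_lit 290)) (XT.lf (nat_lit 0) (nat_lit 42030506419) (nat_lit 304) (nat_lit 5067262160) (nat_lit 76) (nat_lit 24627652034) (nat_lit 111) (nat_lit 5) (nat_lit 115) (nat_lit 5) (nat_lit 112) (nat_lit 5) (nat_lit 476) (nat_lit 435) (nat_lit 289))))) (XT.nd (nat_lit 234) (nat_lit 912) (nat_lit 0) (XT.nd (nat_lit 78) (nat_lit 456) (nat_lit 0) (XT.lf (nat_lit 0) (nat_lit 65888966947) (nat_lit 228) (nat_lit 6060262472) (nat_lit 304) (nat_lit 2093082599) (nat_lit 108) (nat_lit 5) (nat_lit 111) (nat_lit 5) (nat_lit 112) (nat_lit 5) (nat_lit 477) (nat_lit 435) (nat_lit 288)) (XT.nd (nat_lit 78) (nat_lit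 228) (nat_lit 0) (XT.lf (nat_lit 0) (nat_lit 27403891574) (nat_lit 228) (nat_lit 11782211694) (nat_lit 76) (nat_lit 37249998408) (nat_lit 105) (nat_lit 5) (nat_lit 108) (nat_lit 5) (nat_lit 106) (nat_lit 5) (nat_lit 478) (nat_lit 435) (nat_lit 287)) (XT.lf (nat_lit 0) (nat_lit 59127961182) (nat_lit 304) (nat_lit 15493520844) (nat_lit 76) (nat_lit 4303611341) (nat_lit 102) (nat_lit 5) (nat_lit 106) (nat_lit 5) (nat_lit 103) (nat_lit 5) (nat_lit 479) (nat_lit 435) (nat_lit 286)))) (XT.nd (nat_lit 156) (nat_lit 456) (nat_lit 0) (XT.nd (nat_lit 78) (nat_lit 228) (nat_lit 0) (XT.lf (nat_lit 0) (nat_lit 11808181578) (nat_lit 228) (nat_lit 19697188280) (nat_lit 76) (nat_lit 49996386595) (nat_lit 99) (nat_lit 5) (nat_lit 102) (nat_lit 5) (nat_lit 100) (nat_lit 5) (nat_lit 480) (nat_lit 435) (nat_lit 285)) (XT.lf (nat_lit 0) (nat_lit 45465080304) (nat_lit 304) (nat_lit 24266566033) (nat_lit 76) (nat_lit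 14443303658) (nat_lit 96) (nat_lit 5) (nat_lit 100) (nat_lit 5) (nat_lit 97) (nat_lit 5) (nat_lit 481) (nat_lit 435) (nat_lit 284))) (XT.nd (nat_lit 78) (nat_lit 304) (nat_lit 0) (XT.lf (nat_lit 0) (nat_lit 57731652411) (nat_lit 152) (nat_lit 24147961105) (nat_lit 228) (nat_lit 5069946265) (nat_lit 94) (nat_lit 5) (nat_lit 96) (nat_lit 5) (nat_lit 97) (nat_lit 5) (nat_lit 482) (nat_lit 435) (nat_lit 283)) (XT.lf (nat_lit 0) (nat_lit 30680849294) (nat_lit 304) (nat_lit 34807723373) (nat_lit 76) (nat_lit 24335027582) (nat_lit 90) (nat_lit 5) (nat_lit 94) (nat_lit 5) (nat_lit 91) (nat_lit 5) (nat_lit 483) (nat_lit 435) (nat_lit 282)))))) (XT.nd (nat_lit 468) (nat_lit 380) (nat_lit 0) (XT.nd (nat_lit 234) (nat_lit 532) (nat_lit 0) (XT.nd (nat_lit 78) (nat_lit 380) (nat_lit 0) (XT.lf (nat_lit 0) (nat_lit 51950596697) (nat_lit 152) (nat_lit 17208779314) (nat_lit 228) (nat_lit 23649109660) (nat_lit 88)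 (nat_lit 5) (nat_lit 90) (nat_lit 5) (nat_lit 91) (nat_lit 5) (nat_lit 484) (nat_lit 435) (nat_lit 281)) (XT.nd (nat_lit 78) (nat_lit 152) (nat_lit 0) (XT.lf (nat_lit 0) (nat_lit 14511630663) (nat_lit 228) (nat_lit 47592764080) (nat_lit 76) (nat_lit 33799548033) (nat_lit 85) (nat_lit 5) (nat_lit 88) (nat_lit 5) (nat_lit 86) (nat_lit 5) (nat_lit 485) (nat_lit 435) (nat_lit 280)) (XT.lf (nat_lit 0) (nat_lit 44090054680) (nat_lit 152) (nat_lit 11025408288) (nat_lit 228) (nat_lit 44000960834) (nat_lit 83) (nat_lit 5) (nat_lit 85) (nat_lit 5) (nat_lit 86) (nat_lit 5) (nat_lit 486) (nat_lit 435) (nat_lit 279)))) (XT.nd (nat_lit 78) (nat_lit 380) (nat_lit 0) (XT.lf (nat_lit 0) (nat_lit 39223068476) (nat_lit 152) (nat_lit 59805199373) (nat_lit 228) (nat_lit 3422897790) (nat_lit 81) (nat_lit 5) (nat_lit 83) (nat_lit 5) (nat_lit 84) (nat_lit 5) (nat_lit 487) (nat_lit 435) (nat_lit 278)) (XT.nd (nat_lit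 78) (nat_lit 152) (nat_lit 0) (XT.lf (nat_lit 0) (nat_lit 33555916374) (nat_lit 152) (nat_lit 5866882631) (nat_lit 228) (nat_lit 66488445309) (nat_lit 78) (nat_lit 5) (nat_lit 80) (nat_lit 5) (nat_lit 81) (nat_lit 5) (nat_lit 488) (nat_lit 435) (nat_lit 277)) (XT.lf (nat_lit 0) (nat_lit 26968382693) (nat_lit 152) (nat_lit 58774354604) (nat_lit 228) (nat_lit 23758490668) (nat_lit 76) (nat_lit 5) (nat_lit 78) (nat_lit 5) (nat_lit 79) (nat_lit 5) (nat_lit 489) (nat_lit 435) (nat_lit 276))))) (XT.nd (nat_lit 58344) (nat_lit 0) (nat_lit 15504) (XT.nd (nat_lit 78) (nat_lit 152) (nat_lit 0) (XT.lf (nat_lit 0) (nat_lit 19631116948) (nat_lit 152) (nat_lit 2062650578) (nat_lit 228) (nat_lit 91540925400) (nat_lit 73) (nat_lit 5) (nat_lit 75) (nat_lit 5) (nat_lit 76) (nat_lit 5) (nat_lit 490) (nat_lit 435) (nat_lit 275)) (XT.nd (nat_lit 58188) (nat_lit 0) (nat_lit 15428) (XT.lf (nat_lit 0) (nat_lit 10906343280)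 (nat_lit 152) (nat_lit 59538555307) (nat_lit 228) (nat_lit 46657347056) (nat_lit 71) (nat_lit 5) (nat_lit 73) (nat_lit 5) (nat_lit 74) (nat_lit 5) (nat_lit 491) (nat_lit 435) (nat_lit 274)) (XT.lf (nat_lit 0) (nat_lit 3470065779) (nat_lit 1292) (nat_lit 4170660128) (nat_lit 1292) (nat_lit 4170660128) (nat_lit 274) (nat_lit 3) (nat_lit 291) (nat_lit 3) (nat_lit 291) (nat_lit 5) (nat_lit 436) (nat_lit 436) (nat_lit 328)))) (XT.nd (nat_lit 156) (nat_lit 0) (nat_lit 76) (XT.nd (nat_lit 78) (nat_lit 0) (nat_lit 0) (XT.lf (nat_lit 0) (nat_lit 7449441040) (nat_lit 1216) (nat_lit 13073817103) (nat_lit 1292) (nat_lit 3679964284) (nat_lit 275) (nat_lit 5) (nat_lit 291) (nat_lit 5) (nat_lit 292) (nat_lit 5) (nat_lit 437) (nat_lit 436) (nat_lit 327)) (XT.lf (nat_lit 76) (nat_lit 6910719390) (nat_lit 0) (nat_lit 1368562100) (nat_lit 1292) (nat_lit 16524564712) (nat_lit 276) (nat_lit 5) (nat_lit 275) (nat_lit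 5) (nat_lit 292) (nat_lit 5) (nat_lit 438) (nat_lit 436) (nat_lit 326))) (XT.nd (nat_lit 78) (nat_lit 0) (nat_lit 76) (XT.lf (nat_lit 76) (nat_lit 2599326696) (nat_lit 0) (nat_lit 6880617619) (nat_lit 1292) (nat_lit 15944679667) (nat_lit 277) (nat_lit 5) (nat_lit 276) (nat_lit 5) (nat_lit 293) (nat_lit 5) (nat_lit 439) (nat_lit 436) (nat_lit 325)) (XT.lf (nat_lit 0) (nat_lit 11057430381) (nat_lit 1216) (nat_lit 1731696046) (nat_lit 1292) (nat_lit 13277813122) (nat_lit 277) (nat_lit 5) (nat_lit 293) (nat_lit 5) (nat_lit 294) (nat_lit 5) (nat_lit 440) (nat_lit 436) (nat_lit 324))))))))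
noncomputable def xc103 : XT := (XT.nd (nat_lit 1950) (nat_lit 6156) (nat_lit 0) (XT.nd (nat_lit 936) (nat_lit 5396) (nat_lit 0) (XT.nd (nat_lit 468) (nat_lit 3116) (nat_lit 0) (XT.nd (nat_lit 234) (nat_lit 912) (nat_lit 0) (XT.nd (nat_lit 78) (nat_lit 0) (nat_lit 76) (XT.lf (nat_lit 0) (nat_lit 13046690912) (nat_lit 1216) (nat_lit 6063339975) (nat_lit 1292) (nat_lit 7621355477) (nat_lit 278) (nat_lit 5) (nat_lit 294) (nat_lit 5) (nat_lit 295) (nat_lit 5) (nat_lit 441) (nat_lit 436) (nat_lit 323)) (XT.nd (nat_lit 78) (nat_lit 0) (nat_lit 0) (XT.lf (nat_lit 0) (nat_lit 15450570280) (nat_lit 1216) (nat_lit 10444352755) (nat_lit 1292) (nat_lit 1524680168) (nat_lit 279) (nat_lit 5) (nat_lit 295) (nat_lit 5) (nat_lit 296) (nat_lit 5) (nat_lit 442) (nat_lit 436) (nat_lit 322)) (XT.lf (nat_lit 76) (nat_lit 13209171458) (nat_lit 0) (nat_lit 5138608243) (nat_lit 1292) (nat_lit 9783259345) (nat_lit 280)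 (nat_lit 5) (nat_lit 279) (nat_lit 5) (nat_lit 296) (nat_lit 5) (nat_lit 443) (nat_lit 436) (nat_lit 321)))) (XT.nd (nat_lit 78) (nat_lit 1064) (nat_lit 0) (XT.lf (nat_lit 76) (nat_lit 9403838173) (nat_lit 0) (nat_lit 12335754350) (nat_lit 1292) (nat_lit 7127964009) (nat_lit 281) (nat_lit 5) (nat_lit 280) (nat_lit 5) (nat_lit 297) (nat_lit 5) (nat_lit 444) (nat_lit 436) (nat_lit 320)) (XT.nd (nat_lit 78) (nat_lit 1140) (nat_lit 0) (XT.lf (nat_lit 76) (nat_lit 5578241511) (nat_lit 0) (nat_lit 20065629671) (nat_lit 1292) (nat_lit 3986744489) (nat_lit 282) (nat_lit 5) (nat_lit 281) (nat_lit 5) (nat_lit 298) (nat_lit 5) (nat_lit 445) (nat_lit 436) (nat_lit 319)) (XT.lf (nat_lit 0) (nat_lit 1736324445) (nat_lit 1216) (nat_lit 28358850677) (nat_lit 1292) (nat_lit 326100246) (nat_lit 266) (nat_lit 5) (nat_lit 282) (nat_lit 5) (nat_lit 283) (nat_lit 5) (nat_lit 446) (nat_lit 436) (nat_lit 318))))) (XT.nd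 (nat_lit 234) (nat_lit 1672) (nat_lit 0) (XT.nd (nat_lit 78) (nat_lit 1368) (nat_lit 0) (XT.lf (nat_lit 0) (nat_lit 3893196826) (nat_lit 1292) (nat_lit 2173148657) (nat_lit 76) (nat_lit 25170782129) (nat_lit 265) (nat_lit 5) (nat_lit 282) (nat_lit 5) (nat_lit 266) (nat_lit 5) (nat_lit 447) (nat_lit 436) (nat_lit 317)) (XT.nd (nat_lit 78) (nat_lit 608) (nat_lit 0) (XT.lf (nat_lit 0) (nat_lit 8729587955) (nat_lit 836) (nat_lit 6091120084) (nat_lit 76) (nat_lit 17260583073) (nat_lit 255) (nat_lit 5) (nat_lit 266) (nat_lit 5) (nat_lit 256) (nat_lit 5) (nat_lit 448) (nat_lit 436) (nat_lit 316)) (XT.lf (nat_lit 0) (nat_lit 14191009489) (nat_lit 684) (nat_lit 10023676553) (nat_lit 76) (nat_lit 8741482045) (nat_lit 247) (nat_lit 5) (nat_lit 256) (nat_lit 5) (nat_lit 248) (nat_lit 5) (nat_lit 449) (nat_lit 436) (nat_lit 315)))) (XT.nd (nat_lit 78) (nat_lit 1064) (nat_lit 0) (XT.lf (nat_lit 0) (nat_lit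 19892524059) (nat_lit 608) (nat_lit 429808748) (nat_lit 684) (nat_lit 13540552732) (nat_lit 239) (nat_lit 5) (nat_lit 247) (nat_lit 5) (nat_lit 248) (nat_lit 5) (nat_lit 450) (nat_lit 436) (nat_lit 314)) (XT.nd (nat_lit 78) (nat_lit 532) (nat_lit 0) (XT.lf (nat_lit 0) (nat_lit 16785635455) (nat_lit 532) (nat_lit 10469063682) (nat_lit 608) (nat_lit 7545406897) (nat_lit 232) (nat_lit 5) (nat_lit 239) (nat_lit 5) (nat_lit 240) (nat_lit 5) (nat_lit 451) (nat_lit 436) (nat_lit 313)) (XT.lf (nat_lit 0) (nat_lit 13706389803) (nat_lit 532) (nat_lit 21241566898) (nat_lit 608) (nat_lit 823804070) (nat_lit 225) (nat_lit 5) (nat_lit 232) (nat_lit 5) (nat_lit 233) (nat_lit 5) (nat_lit 452) (nat_lit 436) (nat_lit 312)))))) (XT.nd (nat_lit 468) (nat_lit 2812) (nat_lit 0) (XT.nd (nat_lit 234) (nat_lit 988) (nat_lit 0) (XT.nd (nat_lit 78) (nat_lit 988) (nat_lit 0) (XT.lf (nat_lit 0) (nat_lit 6540613588) (nat_lit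 608) (nat_lit 26181900436) (nat_lit 76) (nat_lit 4054836399) (nat_lit 217) (nat_lit 5) (nat_lit 225) (nat_lit 5) (nat_lit 218) (nat_lit 5) (nat_lit 453) (nat_lit 436) (nat_lit 311)) (XT.nd (nat_lit 78) (nat_lit 456) (nat_lit 0) (XT.lf (nat_lit 0) (nat_lit 7437150196) (nat_lit 532) (nat_lit 7328181065) (nat_lit 608) (nat_lit 23052371341) (nat_lit 210) (nat_lit 5) (nat_lit 217) (nat_lit 5) (nat_lit 218) (nat_lit 5) (nat_lit 454) (nat_lit 436) (nat_lit 310)) (XT.lf (nat_lit 0) (nat_lit 4270080474) (nat_lit 456) (nat_lit 19624214675) (nat_lit 532) (nat_lit 15000988110) (nat_lit 204) (nat_lit 5) (nat_lit 210) (nat_lit 5) (nat_lit 211) (nat_lit 5) (nat_lit 455) (nat_lit 436) (nat_lit 309)))) (XT.nd (nat_lit 78) (nat_lit 532) (nat_lit 0) (XT.lf (nat_lit 0) (nat_lit 1142207046) (nat_lit 456) (nat_lit 32799207686) (nat_lit 532) (nat_lit 6071478113) (nat_lit 198) (nat_lit 5) (nat_lit 204) (nat_lit 5) (nat_lit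 205) (nat_lit 5) (nat_lit 456) (nat_lit 436) (nat_lit 308)) (XT.nd (nat_lit 78) (nat_lit 456) (nat_lit 0) (XT.lf (nat_lit 0) (nat_lit 3792342433) (nat_lit 532) (nat_lit 1994385037) (nat_lit 76) (nat_lit 35382133993) (nat_lit 197) (nat_lit 5) (nat_lit 204) (nat_lit 5) (nat_lit 198) (nat_lit 5) (nat_lit 457) (nat_lit 436) (nat_lit 307)) (XT.lf (nat_lit 0) (nat_lit 14600070583) (nat_lit 532) (nat_lit 5203885054) (nat_lit 76) (nat_lit 22559581933) (nat_lit 191) (nat_lit 5) (nat_lit 198) (nat_lit 5) (nat_lit 192) (nat_lit 5) (nat_lit 458) (nat_lit 436) (nat_lit 306))))) (XT.nd (nat_lit 234) (nat_lit 1520) (nat_lit 0) (XT.nd (nat_lit 78) (nat_lit 836) (nat_lit 0) (XT.lf (nat_lit 0) (nat_lit 26447694395) (nat_lit 532) (nat_lit 8371828122) (nat_lit 76) (nat_lit 8783440627) (nat_lit 185) (nat_lit 5) (nat_lit 192) (nat_lit 5) (nat_lit 186) (nat_lit 5) (nat_lit 459) (nat_lit 436) (nat_lit 305)) (XT.nd (nat_lit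 78) (nat_lit 456) (nat_lit 0) (XT.lf (nat_lit 0) (nat_lit 33337550457) (nat_lit 380) (nat_lit 6119514052) (nat_lit 456) (nat_lit 5430215432) (nat_lit 180) (nat_lit 5) (nat_lit 185) (nat_lit 5) (nat_lit 186) (nat_lit 5) (nat_lit 460) (nat_lit 436) (nat_lit 304)) (XT.lf (nat_lit 0) (nat_lit 7368192529) (nat_lit 456) (nat_lit 14839899747) (nat_lit 76) (nat_lit 24007095467) (nat_lit 174) (nat_lit 5) (nat_lit 180) (nat_lit 5) (nat_lit 175) (nat_lit 5) (nat_lit 461) (nat_lit 436) (nat_lit 303)))) (XT.nd (nat_lit 156) (nat_lit 760) (nat_lit 0) (XT.nd (nat_lit 78) (nat_lit 380) (nat_lit 0) (XT.lf (nat_lit 0) (nat_lit 21236745428) (nat_lit 456) (nat_lit 18140327271) (nat_lit 76) (nat_lit 8214530199) (nat_lit 169) (nat_lit 5) (nat_lit 175) (nat_lit 5) (nat_lit 170) (nat_lit 5) (nat_lit 462) (nat_lit 436) (nat_lit 302)) (XT.lf (nat_lit 0) (nat_lit 27540338904) (nat_lit 380) (nat_lit 8896916564) (nat_lit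 456) (nat_lit 12580428210) (nat_lit 164) (nat_lit 5) (nat_lit 169) (nat_lit 5) (nat_lit 170) (nat_lit 5) (nat_lit 463) (nat_lit 436) (nat_lit 301))) (XT.nd (nat_lit 78) (nat_lit 380) (nat_lit 0) (XT.lf (nat_lit 0) (nat_lit 2505182353) (nat_lit 380) (nat_lit 24875153557) (nat_lit 76) (nat_lit 23114414389) (nat_lit 159) (nat_lit 5) (nat_lit 164) (nat_lit 5) (nat_lit 160) (nat_lit 5) (nat_lit 464) (nat_lit 436) (nat_lit 300)) (XT.lf (nat_lit 0) (nat_lit 18672989241) (nat_lit 456) (nat_lit 28355819608) (nat_lit 76) (nat_lit 4995482352) (nat_lit 154) (nat_lit 5) (nat_lit 160) (nat_lit 5) (nat_lit 155) (nat_lit 5) (nat_lit 465) (nat_lit 436) (nat_lit 299))))))) (XT.nd (nat_lit 1014) (nat_lit 2660) (nat_lit 0) (XT.nd (nat_lit 468) (nat_lit 1596) (nat_lit 0) (XT.nd (nat_lit 234) (nat_lit 912) (nat_lit 0) (XT.nd (nat_lit 78) (nat_lit 684) (nat_lit 0) (XT.lf (nat_lit 0) (nat_lit 21674466974) (nat_lit 304)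 (nat_lit 14713787397) (nat_lit 380) (nat_lit 17219883372) (nat_lit 150) (nat_lit 5) (nat_lit 154) (nat_lit 5) (nat_lit 155) (nat_lit 5) (nat_lit 466) (nat_lit 436) (nat_lit 298)) (XT.nd (nat_lit 78) (nat_lit 304) (nat_lit 0) (XT.lf (nat_lit 0) (nat_lit 395228115) (nat_lit 380) (nat_lit 35527344661) (nat_lit 76) (nat_lit 19328537074) (nat_lit 145) (nat_lit 5) (nat_lit 150) (nat_lit 5) (nat_lit 146) (nat_lit 5) (nat_lit 467) (nat_lit 436) (nat_lit 297)) (XT.lf (nat_lit 0) (nat_lit 17678528774) (nat_lit 304) (nat_lit 1506162066) (nat_lit 380) (nat_lit 37766933583) (nat_lit 141) (nat_lit 5) (nat_lit 145) (nat_lit 5) (nat_lit 146) (nat_lit 5) (nat_lit 468) (nat_lit 436) (nat_lit 296)))) (XT.nd (nat_lit 78) (nat_lit 608) (nat_lit 0) (XT.lf (nat_lit 0) (nat_lit 15521455365) (nat_lit 304) (nat_lit 24239718261) (nat_lit 380) (nat_lit 18950565220) (nat_lit 137) (nat_lit 5) (nat_lit 141) (nat_lit 5) (nat_lit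 142) (nat_lit 5) (nat_lit 469) (nat_lit 436) (nat_lit 295)) (XT.nd (nat_lit 78) (nat_lit 304) (nat_lit 0) (XT.lf (nat_lit 0) (nat_lit 1458384052) (nat_lit 304) (nat_lit 47099972417) (nat_lit 76) (nat_lit 11981245319) (nat_lit 133) (nat_lit 5) (nat_lit 137) (nat_lit 5) (nat_lit 134) (nat_lit 5) (nat_lit 470) (nat_lit 436) (nat_lit 294)) (XT.lf (nat_lit 0) (nat_lit 11129242684) (nat_lit 304) (nat_lit 12167209841) (nat_lit 380) (nat_lit 39132758983) (nat_lit 129) (nat_lit 5) (nat_lit 133) (nat_lit 5) (nat_lit 134) (nat_lit 5) (nat_lit 471) (nat_lit 436) (nat_lit 293))))) (XT.nd (nat_lit 234) (nat_lit 760) (nat_lit 0) (XT.nd (nat_lit 78) (nat_lit 608) (nat_lit 0) (XT.lf (nat_lit 0) (nat_lit 8765726209) (nat_lit 228) (nat_lit 38281372067) (nat_lit 304) (nat_lit 17341583666) (nat_lit 126) (nat_lit 5) (nat_lit 129) (nat_lit 5) (nat_lit 130) (nat_lit 5) (nat_lit 472) (nat_lit 436) (nat_lit 292)) (XT.nd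 (nat_lit 78) (nat_lit 228) (nat_lit 0) (XT.lf (nat_lit 0) (nat_lit 6147935571) (nat_lit 380) (nat_lit 60010855398) (nat_lit 76) (nat_lit 264231750) (nat_lit 121) (nat_lit 5) (nat_lit 126) (nat_lit 5) (nat_lit 122) (nat_lit 5) (nat_lit 473) (nat_lit 436) (nat_lit 291)) (XT.lf (nat_lit 0) (nat_lit 3668574957) (nat_lit 228) (nat_lit 27784539055) (nat_lit 304) (nat_lit 37070820933) (nat_lit 118) (nat_lit 5) (nat_lit 121) (nat_lit 5) (nat_lit 122) (nat_lit 5) (nat_lit 474) (nat_lit 436) (nat_lit 290)))) (XT.nd (nat_lit 156) (nat_lit 456) (nat_lit 0) (XT.nd (nat_lit 78) (nat_lit 76) (nat_lit 0) (XT.lf (nat_lit 0) (nat_lit 961727399) (nat_lit 228) (nat_lit 57811868730) (nat_lit 304) (nat_lit 11933795683) (nat_lit 115) (nat_lit 5) (nat_lit 118) (nat_lit 5) (nat_lit 119) (nat_lit 5) (nat_lit 475) (nat_lit 436) (nat_lit 289)) (XT.lf (nat_lit 0) (nat_lit 15129349464) (nat_lit 304) (nat_lit 1986345525) (nat_lit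 76) (nat_lit 55851613798) (nat_lit 114) (nat_lit 5) (nat_lit 118) (nat_lit 5) (nat_lit 115) (nat_lit 5) (nat_lit 476) (nat_lit 436) (nat_lit 288))) (XT.nd (nat_lit 78) (nat_lit 228) (nat_lit 0) (XT.lf (nat_lit 0) (nat_lit 44228976503) (nat_lit 304) (nat_lit 5161083715) (nat_lit 76) (nat_lit 25918713010) (nat_lit 111) (nat_lit 5) (nat_lit 115) (nat_lit 5) (nat_lit 112) (nat_lit 5) (nat_lit 477) (nat_lit 436) (nat_lit 287)) (XT.lf (nat_lit 0) (nat_lit 69338383621) (nat_lit 228) (nat_lit 6302125264) (nat_lit 304) (nat_lit 2101094600) (nat_lit 108) (nat_lit 5) (nat_lit 111) (nat_lit 5) (nat_lit 112) (nat_lit 5) (nat_lit 478) (nat_lit 436) (nat_lit 286)))))) (XT.nd (nat_lit 468) (nat_lit 1292) (nat_lit 0) (XT.nd (nat_lit 234) (nat_lit 684) (nat_lit 0) (XT.nd (nat_lit 78) (nat_lit 456) (nat_lit 0) (XT.lf (nat_lit 0) (nat_lit 28866377971) (nat_lit 228) (nat_lit 12216778214) (nat_lit 76) (nat_lit 39171972950)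 (nat_lit 105) (nat_lit 5) (nat_lit 108) (nat_lit 5) (nat_lit 106) (nat_lit 5) (nat_lit 479) (nat_lit 436) (nat_lit 285)) (XT.nd (nat_lit 78) (nat_lit 228) (nat_lit 0) (XT.lf (nat_lit 0) (nat_lit 62174283397) (nat_lit 304) (nat_lit 16115978347) (nat_lit 76) (nat_lit 4578380118) (nat_lit 102) (nat_lit 5) (nat_lit 106) (nat_lit 5) (nat_lit 103) (nat_lit 5) (nat_lit 480) (nat_lit 436) (nat_lit 284)) (XT.lf (nat_lit 0) (nat_lit 12486523888) (nat_lit 228) (nat_lit 20532434615) (nat_lit 76) (nat_lit 52555239965) (nat_lit 99) (nat_lit 5) (nat_lit 102) (nat_lit 5) (nat_lit 100) (nat_lit 5) (nat_lit 481) (nat_lit 436) (nat_lit 283)))) (XT.nd (nat_lit 78) (nat_lit 456) (nat_lit 0) (XT.lf (nat_lit 0) (nat_lit 47824055702) (nat_lit 304) (nat_lit 25332586660) (nat_lit 76) (nat_lit 15224476052) (nat_lit 96) (nat_lit 5) (nat_lit 100) (nat_lit 5) (nat_lit 97) (nat_lit 5) (nat_lit 482) (nat_lit 436) (nat_lit 282))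 (XT.nd (nat_lit 78) (nat_lit 304) (nat_lit 0) (XT.lf (nat_lit 0) (nat_lit 60761320161) (nat_lit 152) (nat_lit 25295288865) (nat_lit 228) (nat_lit 5237931214) (nat_lit 94) (nat_lit 5) (nat_lit 96) (nat_lit 5) (nat_lit 97) (nat_lit 5) (nat_lit 483) (nat_lit 436) (nat_lit 281)) (XT.lf (nat_lit 0) (nat_lit 32296665621) (nat_lit 304) (nat_lit 36405626849) (nat_lit 76) (nat_lit 25610028025) (nat_lit 90) (nat_lit 5) (nat_lit 94) (nat_lit 5) (nat_lit 91) (nat_lit 5) (nat_lit 484) (nat_lit 436) (nat_lit 280))))) (XT.nd (nat_lit 234) (nat_lit 760) (nat_lit 0) (XT.nd (nat_lit 78) (nat_lit 380) (nat_lit 0) (XT.lf (nat_lit 0) (nat_lit 54686524987) (nat_lit 152) (nat_lit 18010030063) (nat_lit 228) (nat_lit 24749972358) (nat_lit 88) (nat_lit 5) (nat_lit 90) (nat_lit 5) (nat_lit 91) (nat_lit 5) (nat_lit 485) (nat_lit 436) (nat_lit 279)) (XT.nd (nat_lit 78) (nat_lit 152) (nat_lit 0) (XT.lf (nat_lit 0) (nat_lit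 15315272617) (nat_lit 228) (nat_lit 49834650061) (nat_lit 76) (nat_lit 35546869656) (nat_lit 85) (nat_lit 5) (nat_lit 88) (nat_lit 5) (nat_lit 86) (nat_lit 5) (nat_lit 486) (nat_lit 436) (nat_lit 278)) (XT.lf (nat_lit 0) (nat_lit 46428360997) (nat_lit 152) (nat_lit 11518504579) (nat_lit 228) (nat_lit 46123105039) (nat_lit 83) (nat_lit 5) (nat_lit 85) (nat_lit 5) (nat_lit 86) (nat_lit 5) (nat_lit 487) (nat_lit 436) (nat_lit 277)))) (XT.nd (nat_lit 156) (nat_lit 380) (nat_lit 0) (XT.nd (nat_lit 78) (nat_lit 228) (nat_lit 0) (XT.lf (nat_lit 0) (nat_lit 41315856038) (nat_lit 152) (nat_lit 62737651184) (nat_lit 228) (nat_lit 3517996686) (nat_lit 81) (nat_lit 5) (nat_lit 83) (nat_lit 5) (nat_lit 84) (nat_lit 5) (nat_lit 488) (nat_lit 436) (nat_lit 276)) (XT.lf (nat_lit 0) (nat_lit 35363019394) (nat_lit 152) (nat_lit 6103174029) (nat_lit 228) (nat_lit 69738440635) (nat_lit 78) (nat_lit 5) (nat_lit 80)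 (nat_lit 5) (nat_lit 81) (nat_lit 5) (nat_lit 489) (nat_lit 436) (nat_lit 275))) (XT.nd (nat_lit 78) (nat_lit 228) (nat_lit 0) (XT.lf (nat_lit 0) (nat_lit 28443979957) (nat_lit 152) (nat_lit 61656452807) (nat_lit 228) (nat_lit 24873735233) (nat_lit 76) (nat_lit 5) (nat_lit 78) (nat_lit 5) (nat_lit 79) (nat_lit 5) (nat_lit 490) (nat_lit 436) (nat_lit 274)) (XT.lf (nat_lit 0) (nat_lit 20737587330) (nat_lit 152) (nat_lit 2109937633) (nat_lit 228) (nat_lit 96046826277) (nat_lit 73) (nat_lit 5) (nat_lit 75) (nat_lit 5) (nat_lit 76) (nat_lit 5) (nat_lit 491) (nat_lit 436) (nat_lit 273))))))))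
noncomputable def xc104 : XT := (XT.nd (nat_lit 1950) (nat_lit 6992) (nat_lit 0) (XT.nd (nat_lit 936) (nat_lit 6460) (nat_lit 0) (XT.nd (nat_lit 468) (nat_lit 684) (nat_lit 0) (XT.nd (nat_lit 234) (nat_lit 0) (nat_lit 152) (XT.nd (nat_lit 78) (nat_lit 0) (nat_lit 76) (XT.lf (nat_lit 0) (nat_lit 3832953598) (nat_lit 1292) (nat_lit 4281638071) (nat_lit 1292) (nat_lit 4281638071) (nat_lit 274) (nat_lit 3) (nat_lit 291) (nat_lit 3) (nat_lit 291) (nat_lit 5) (nat_lit 437) (nat_lit 437) (nat_lit 326)) (XT.nd (nat_lit 78) (nat_lit 0) (nat_lit 0) (XT.lf (nat_lit 0) (nat_lit 8182803950) (nat_lit 1216) (nat_lit 13525366737) (nat_lit 1292) (nat_lit 3694302210) (nat_lit 275) (nat_lit 5) (nat_lit 291) (nat_lit 5) (nat_lit 292) (nat_lit 5) (nat_lit 438) (nat_lit 437) (nat_lit 325)) (XT.lf (nat_lit 76) (nat_lit 7452602243) (nat_lit 0) (nat_lit 1586236307) (nat_lit 1292) (nat_lit 16994752243) (nat_lit 276) (nat_lit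 5) (nat_lit 275) (nat_lit 5) (nat_lit 292) (nat_lit 5) (nat_lit 439) (nat_lit 437) (nat_lit 324)))) (XT.nd (nat_lit 78) (nat_lit 0) (nat_lit 76) (XT.lf (nat_lit 76) (nat_lit 2931553427) (nat_lit 0) (nat_lit 7352102203) (nat_lit 1292) (nat_lit 16402232006) (nat_lit 277) (nat_lit 5) (nat_lit 276) (nat_lit 5) (nat_lit 293) (nat_lit 5) (nat_lit 440) (nat_lit 437) (nat_lit 323)) (XT.nd (nat_lit 78) (nat_lit 0) (nat_lit 76) (XT.lf (nat_lit 0) (nat_lit 11923148506) (nat_lit 1216) (nat_lit 1614992177) (nat_lit 1292) (nat_lit 13822687948) (nat_lit 277) (nat_lit 5) (nat_lit 293) (nat_lit 5) (nat_lit 294) (nat_lit 5) (nat_lit 441) (nat_lit 437) (nat_lit 322)) (XT.lf (nat_lit 0) (nat_lit 13997888531) (nat_lit 1216) (nat_lit 6158996873) (nat_lit 1292) (nat_lit 7902035341) (nat_lit 278) (nat_lit 5) (nat_lit 294) (nat_lit 5) (nat_lit 295) (nat_lit 5) (nat_lit 442) (nat_lit 437) (nat_lit 321))))) (XT.nd (nat_lit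 234) (nat_lit 1064) (nat_lit 0) (XT.nd (nat_lit 78) (nat_lit 0) (nat_lit 0) (XT.lf (nat_lit 0) (nat_lit 16508850688) (nat_lit 1216) (nat_lit 10755528558) (nat_lit 1292) (nat_lit 1517565803) (nat_lit 279) (nat_lit 5) (nat_lit 295) (nat_lit 5) (nat_lit 296) (nat_lit 5) (nat_lit 443) (nat_lit 437) (nat_lit 320)) (XT.nd (nat_lit 78) (nat_lit 0) (nat_lit 76) (XT.lf (nat_lit 76) (nat_lit 14074622393) (nat_lit 0) (nat_lit 5464661466) (nat_lit 1292) (nat_lit 9990021058) (nat_lit 280) (nat_lit 5) (nat_lit 279) (nat_lit 5) (nat_lit 296) (nat_lit 5) (nat_lit 444) (nat_lit 437) (nat_lit 319)) (XT.lf (nat_lit 76) (nat_lit 10081840346) (nat_lit 0) (nat_lit 13007158661) (nat_lit 1292) (nat_lit 7214002902) (nat_lit 281) (nat_lit 5) (nat_lit 280) (nat_lit 5) (nat_lit 297) (nat_lit 5) (nat_lit 445) (nat_lit 437) (nat_lit 318)))) (XT.nd (nat_lit 78) (nat_lit 1216) (nat_lit 0) (XT.lf (nat_lit 76) (nat_lit 6067222038)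 (nat_lit 0) (nat_lit 21110292343) (nat_lit 1292) (nat_lit 3927031781) (nat_lit 282) (nat_lit 5) (nat_lit 281) (nat_lit 5) (nat_lit 298) (nat_lit 5) (nat_lit 446) (nat_lit 437) (nat_lit 317)) (XT.nd (nat_lit 78) (nat_lit 76) (nat_lit 0) (XT.lf (nat_lit 0) (nat_lit 2034956359) (nat_lit 1216) (nat_lit 29806110628) (nat_lit 1292) (nat_lit 93984056) (nat_lit 266) (nat_lit 5) (nat_lit 282) (nat_lit 5) (nat_lit 283) (nat_lit 5) (nat_lit 447) (nat_lit 437) (nat_lit 316)) (XT.lf (nat_lit 0) (nat_lit 4319831534) (nat_lit 1292) (nat_lit 2075410082) (nat_lit 76) (nat_lit 26396733108) (nat_lit 265) (nat_lit 5) (nat_lit 282) (nat_lit 5) (nat_lit 266) (nat_lit 5) (nat_lit 448) (nat_lit 437) (nat_lit 315)))))) (XT.nd (nat_lit 468) (nat_lit 2812) (nat_lit 0) (XT.nd (nat_lit 234) (nat_lit 1672) (nat_lit 0) (XT.nd (nat_lit 78) (nat_lit 1216) (nat_lit 0) (XT.lf (nat_lit 0) (nat_lit 9388707840) (nat_lit 836) (nat_lit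 6188247983) (nat_lit 76) (nat_lit 18101672989) (nat_lit 255) (nat_lit 5) (nat_lit 266) (nat_lit 5) (nat_lit 256) (nat_lit 5) (nat_lit 449) (nat_lit 437) (nat_lit 314)) (XT.nd (nat_lit 78) (nat_lit 608) (nat_lit 0) (XT.lf (nat_lit 0) (nat_lit 15114415202) (nat_lit 684) (nat_lit 10316793438) (nat_lit 76) (nat_lit 9166306823) (nat_lit 247) (nat_lit 5) (nat_lit 256) (nat_lit 5) (nat_lit 248) (nat_lit 5) (nat_lit 450) (nat_lit 437) (nat_lit 313)) (XT.lf (nat_lit 0) (nat_lit 21089253007) (nat_lit 608) (nat_lit 454810831) (nat_lit 684) (nat_lit 14005754335) (nat_lit 239) (nat_lit 5) (nat_lit 247) (nat_lit 5) (nat_lit 248) (nat_lit 5) (nat_lit 451) (nat_lit 437) (nat_lit 312)))) (XT.nd (nat_lit 78) (nat_lit 1140) (nat_lit 0) (XT.lf (nat_lit 0) (nat_lit 17827293114) (nat_lit 532) (nat_lit 10987877422) (nat_lit 608) (nat_lit 7718967554) (nat_lit 232) (nat_lit 5) (nat_lit 239) (nat_lit 5) (nat_lit 240) (nat_lit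 5) (nat_lit 452) (nat_lit 437) (nat_lit 311)) (XT.nd (nat_lit 78) (nat_lit 608) (nat_lit 0) (XT.lf (nat_lit 0) (nat_lit 14594042821) (nat_lit 532) (nat_lit 22291619563) (nat_lit 608) (nat_lit 668937997) (nat_lit 225) (nat_lit 5) (nat_lit 232) (nat_lit 5) (nat_lit 233) (nat_lit 5) (nat_lit 453) (nat_lit 437) (nat_lit 310)) (XT.lf (nat_lit 0) (nat_lit 7052793151) (nat_lit 608) (nat_lit 27285269348) (nat_lit 76) (nat_lit 4272564740) (nat_lit 217) (nat_lit 5) (nat_lit 225) (nat_lit 5) (nat_lit 218) (nat_lit 5) (nat_lit 454) (nat_lit 437) (nat_lit 309))))) (XT.nd (nat_lit 234) (nat_lit 1368) (nat_lit 0) (XT.nd (nat_lit 78) (nat_lit 912) (nat_lit 0) (XT.lf (nat_lit 0) (nat_lit 8008836719) (nat_lit 532) (nat_lit 7673014255) (nat_lit 608) (nat_lit 24021354651) (nat_lit 210) (nat_lit 5) (nat_lit 217) (nat_lit 5) (nat_lit 218) (nat_lit 5) (nat_lit 455) (nat_lit 437) (nat_lit 308)) (XT.nd (nat_lit 78) (nat_lit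 456) (nat_lit 0) (XT.lf (nat_lit 0) (nat_lit 4682711828) (nat_lit 456) (nat_lit 20578174640) (nat_lit 532) (nat_lit 15573971786) (nat_lit 204) (nat_lit 5) (nat_lit 210) (nat_lit 5) (nat_lit 211) (nat_lit 5) (nat_lit 456) (nat_lit 437) (nat_lit 307)) (XT.lf (nat_lit 0) (nat_lit 1397522763) (nat_lit 456) (nat_lit 34406809418) (nat_lit 532) (nat_lit 6204198600) (nat_lit 198) (nat_lit 5) (nat_lit 204) (nat_lit 5) (nat_lit 205) (nat_lit 5) (nat_lit 457) (nat_lit 437) (nat_lit 306)))) (XT.nd (nat_lit 156) (nat_lit 836) (nat_lit 0) (XT.nd (nat_lit 78) (nat_lit 456) (nat_lit 0) (XT.lf (nat_lit 0) (nat_lit 4141501891) (nat_lit 532) (nat_lit 1902133124) (nat_lit 76) (nat_lit 37178854306) (nat_lit 197) (nat_lit 5) (nat_lit 204) (nat_lit 5) (nat_lit 198) (nat_lit 5) (nat_lit 458) (nat_lit 437) (nat_lit 305)) (XT.lf (nat_lit 0) (nat_lit 15484126271) (nat_lit 532) (nat_lit 5273285891) (nat_lit 76) (nat_lit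 23719653153) (nat_lit 191) (nat_lit 5) (nat_lit 198) (nat_lit 5) (nat_lit 192) (nat_lit 5) (nat_lit 459) (nat_lit 437) (nat_lit 304))) (XT.nd (nat_lit 78) (nat_lit 380) (nat_lit 0) (XT.lf (nat_lit 0) (nat_lit 27918930907) (nat_lit 532) (nat_lit 8600967978) (nat_lit 76) (nat_lit 9258720607) (nat_lit 185) (nat_lit 5) (nat_lit 192) (nat_lit 5) (nat_lit 186) (nat_lit 5) (nat_lit 460) (nat_lit 437) (nat_lit 303)) (XT.lf (nat_lit 0) (nat_lit 35188448939) (nat_lit 380) (nat_lit 6385001329) (nat_lit 456) (nat_lit 5553862689) (nat_lit 180) (nat_lit 5) (nat_lit 185) (nat_lit 5) (nat_lit 186) (nat_lit 5) (nat_lit 461) (nat_lit 437) (nat_lit 302))))))) (XT.nd (nat_lit 936) (nat_lit 2888) (nat_lit 0) (XT.nd (nat_lit 468) (nat_lit 1824) (nat_lit 0) (XT.nd (nat_lit 234) (nat_lit 1064) (nat_lit 0) (XT.nd (nat_lit 78) (nat_lit 760) (nat_lit 0) (XT.lf (nat_lit 0) (nat_lit 7876823332) (nat_lit 456) (nat_lit 15396506111)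 (nat_lit 76) (nat_lit 25248387932) (nat_lit 174) (nat_lit 5) (nat_lit 180) (nat_lit 5) (nat_lit 175) (nat_lit 5) (nat_lit 462) (nat_lit 437) (nat_lit 301)) (XT.nd (nat_lit 78) (nat_lit 380) (nat_lit 0) (XT.lf (nat_lit 0) (nat_lit 22434288304) (nat_lit 456) (nat_lit 18863619511) (nat_lit 76) (nat_lit 8669182041) (nat_lit 169) (nat_lit 5) (nat_lit 175) (nat_lit 5) (nat_lit 170) (nat_lit 5) (nat_lit 463) (nat_lit 437) (nat_lit 300)) (XT.lf (nat_lit 0) (nat_lit 29095813558) (nat_lit 380) (nat_lit 9294263561) (nat_lit 456) (nat_lit 13074541006) (nat_lit 164) (nat_lit 5) (nat_lit 169) (nat_lit 5) (nat_lit 170) (nat_lit 5) (nat_lit 464) (nat_lit 437) (nat_lit 299)))) (XT.nd (nat_lit 78) (nat_lit 684) (nat_lit 0) (XT.lf (nat_lit 0) (nat_lit 2758573531) (nat_lit 380) (nat_lit 25939606492) (nat_lit 76) (nat_lit 24317444438) (nat_lit 159) (nat_lit 5) (nat_lit 164) (nat_lit 5) (nat_lit 160) (nat_lit 5) (nat_lit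 465) (nat_lit 437) (nat_lit 298)) (XT.nd (nat_lit 78) (nat_lit 304) (nat_lit 0) (XT.lf (nat_lit 0) (nat_lit 19730828473) (nat_lit 456) (nat_lit 29596201027) (nat_lit 76) (nat_lit 5294732101) (nat_lit 154) (nat_lit 5) (nat_lit 160) (nat_lit 5) (nat_lit 155) (nat_lit 5) (nat_lit 466) (nat_lit 437) (nat_lit 297)) (XT.lf (nat_lit 0) (nat_lit 22930514476) (nat_lit 304) (nat_lit 15397085070) (nat_lit 380) (nat_lit 17957329522) (nat_lit 150) (nat_lit 5) (nat_lit 154) (nat_lit 5) (nat_lit 155) (nat_lit 5) (nat_lit 467) (nat_lit 437) (nat_lit 296))))) (XT.nd (nat_lit 234) (nat_lit 836) (nat_lit 0) (XT.nd (nat_lit 78) (nat_lit 608) (nat_lit 0) (XT.lf (nat_lit 0) (nat_lit 532496901) (nat_lit 380) (nat_lit 37130949751) (nat_lit 76) (nat_lit 20346677206) (nat_lit 145) (nat_lit 5) (nat_lit 150) (nat_lit 5) (nat_lit 146) (nat_lit 5) (nat_lit 468) (nat_lit 437) (nat_lit 295)) (XT.nd (nat_lit 78) (nat_lit 304)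 (nat_lit 0) (XT.lf (nat_lit 0) (nat_lit 18730265164) (nat_lit 304) (nat_lit 1527185101) (nat_lit 380) (nat_lit 39538334144) (nat_lit 141) (nat_lit 5) (nat_lit 145) (nat_lit 5) (nat_lit 146) (nat_lit 5) (nat_lit 469) (nat_lit 437) (nat_lit 294)) (XT.lf (nat_lit 0) (nat_lit 16463344147) (nat_lit 304) (nat_lit 25396097993) (nat_lit 380) (nat_lit 19784562602) (nat_lit 137) (nat_lit 5) (nat_lit 141) (nat_lit 5) (nat_lit 142) (nat_lit 5) (nat_lit 470) (nat_lit 437) (nat_lit 293)))) (XT.nd (nat_lit 78) (nat_lit 532) (nat_lit 0) (XT.lf (nat_lit 0) (nat_lit 1639421948) (nat_lit 304) (nat_lit 49289036044) (nat_lit 76) (nat_lit 12634866687) (nat_lit 133) (nat_lit 5) (nat_lit 137) (nat_lit 5) (nat_lit 134) (nat_lit 5) (nat_lit 471) (nat_lit 437) (nat_lit 292)) (XT.nd (nat_lit 78) (nat_lit 228) (nat_lit 0) (XT.lf (nat_lit 0) (nat_lit 11846883319) (nat_lit 304) (nat_lit 12718911363) (nat_lit 380) (nat_lit 40981728826)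 (nat_lit 129) (nat_lit 5) (nat_lit 133) (nat_lit 5) (nat_lit 134) (nat_lit 5) (nat_lit 472) (nat_lit 437) (nat_lit 291)) (XT.lf (nat_lit 0) (nat_lit 9363100165) (nat_lit 228) (nat_lit 40137943388) (nat_lit 304) (nat_lit 18104012405) (nat_lit 126) (nat_lit 5) (nat_lit 129) (nat_lit 5) (nat_lit 130) (nat_lit 5) (nat_lit 473) (nat_lit 437) (nat_lit 290)))))) (XT.nd (nat_lit 468) (nat_lit 1520) (nat_lit 0) (XT.nd (nat_lit 234) (nat_lit 532) (nat_lit 0) (XT.nd (nat_lit 78) (nat_lit 456) (nat_lit 0) (XT.lf (nat_lit 0) (nat_lit 6555109930) (nat_lit 380) (nat_lit 62852438021) (nat_lit 76) (nat_lit 333621137) (nat_lit 121) (nat_lit 5) (nat_lit 126) (nat_lit 5) (nat_lit 122) (nat_lit 5) (nat_lit 474) (nat_lit 437) (nat_lit 289)) (XT.nd (nat_lit 78) (nat_lit 228) (nat_lit 0) (XT.lf (nat_lit 0) (nat_lit 4006407291) (nat_lit 228) (nat_lit 29115872911) (nat_lit 304) (nat_lit 38824945282) (nat_lit 118) (nat_lit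 5) (nat_lit 121) (nat_lit 5) (nat_lit 122) (nat_lit 5) (nat_lit 475) (nat_lit 437) (nat_lit 288)) (XT.lf (nat_lit 0) (nat_lit 1162073759) (nat_lit 228) (nat_lit 60644110548) (nat_lit 304) (nat_lit 12433749470) (nat_lit 115) (nat_lit 5) (nat_lit 118) (nat_lit 5) (nat_lit 119) (nat_lit 5) (nat_lit 476) (nat_lit 437) (nat_lit 287)))) (XT.nd (nat_lit 78) (nat_lit 456) (nat_lit 0) (XT.lf (nat_lit 0) (nat_lit 15976148680) (nat_lit 304) (nat_lit 1938845915) (nat_lit 76) (nat_lit 58697960085) (nat_lit 114) (nat_lit 5) (nat_lit 118) (nat_lit 5) (nat_lit 115) (nat_lit 5) (nat_lit 477) (nat_lit 437) (nat_lit 286)) (XT.nd (nat_lit 78) (nat_lit 228) (nat_lit 0) (XT.lf (nat_lit 0) (nat_lit 46528357085) (nat_lit 304) (nat_lit 5274429009) (nat_lit 76) (nat_lit 27268778706) (nat_lit 111) (nat_lit 5) (nat_lit 115) (nat_lit 5) (nat_lit 112) (nat_lit 5) (nat_lit 478) (nat_lit 437) (nat_lit 285)) (XT.lf (nat_lit 0)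 (nat_lit 72945863642) (nat_lit 228) (nat_lit 6561766375) (nat_lit 304) (nat_lit 2118492070) (nat_lit 108) (nat_lit 5) (nat_lit 111) (nat_lit 5) (nat_lit 112) (nat_lit 5) (nat_lit 479) (nat_lit 437) (nat_lit 284))))) (XT.nd (nat_lit 234) (nat_lit 836) (nat_lit 0) (XT.nd (nat_lit 78) (nat_lit 456) (nat_lit 0) (XT.lf (nat_lit 0) (nat_lit 30393408269) (nat_lit 228) (nat_lit 12687441103) (nat_lit 76) (nat_lit 41184516832) (nat_lit 105) (nat_lit 5) (nat_lit 108) (nat_lit 5) (nat_lit 106) (nat_lit 5) (nat_lit 480) (nat_lit 437) (nat_lit 283)) (XT.nd (nat_lit 78) (nat_lit 228) (nat_lit 0) (XT.lf (nat_lit 0) (nat_lit 65364561427) (nat_lit 304) (nat_lit 16783710563) (nat_lit 76) (nat_lit 4861347386) (nat_lit 102) (nat_lit 5) (nat_lit 106) (nat_lit 5) (nat_lit 103) (nat_lit 5) (nat_lit 481) (nat_lit 437) (nat_lit 282)) (XT.lf (nat_lit 0) (nat_lit 13190608114) (nat_lit 228) (nat_lit 21423352872) (nat_lit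 76) (nat_lit 55236547579) (nat_lit 99) (nat_lit 5) (nat_lit 102) (nat_lit 5) (nat_lit 100) (nat_lit 5) (nat_lit 482) (nat_lit 437) (nat_lit 281)))) (XT.nd (nat_lit 156) (nat_lit 456) (nat_lit 0) (XT.nd (nat_lit 78) (nat_lit 152) (nat_lit 0) (XT.lf (nat_lit 0) (nat_lit 50293010309) (nat_lit 304) (nat_lit 26465603589) (nat_lit 76) (nat_lit 16039221134) (nat_lit 96) (nat_lit 5) (nat_lit 100) (nat_lit 5) (nat_lit 97) (nat_lit 5) (nat_lit 483) (nat_lit 437) (nat_lit 280)) (XT.lf (nat_lit 0) (nat_lit 63929168600) (nat_lit 152) (nat_lit 26505567780) (nat_lit 228) (nat_lit 5422265539) (nat_lit 94) (nat_lit 5) (nat_lit 96) (nat_lit 5) (nat_lit 97) (nat_lit 5) (nat_lit 484) (nat_lit 437) (nat_lit 279))) (XT.nd (nat_lit 78) (nat_lit 152) (nat_lit 0) (XT.lf (nat_lit 0) (nat_lit 33985670206) (nat_lit 304) (nat_lit 38096672188) (nat_lit 76) (nat_lit 26943363044) (nat_lit 90) (nat_lit 5) (nat_lit 94) (nat_lit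 5) (nat_lit 91) (nat_lit 5) (nat_lit 485) (nat_lit 437) (nat_lit 278)) (XT.lf (nat_lit 0) (nat_lit 57546382715) (nat_lit 152) (nat_lit 18856846109) (nat_lit 228) (nat_lit 25913463914) (nat_lit 88) (nat_lit 5) (nat_lit 90) (nat_lit 5) (nat_lit 91) (nat_lit 5) (nat_lit 486) (nat_lit 437) (nat_lit 277))))))))
noncomputable def xc105 : XT := (XT.nd (nat_lit 60216) (nat_lit 0) (nat_lit 1748) (XT.nd (nat_lit 59202) (nat_lit 0) (nat_lit 9728) (XT.nd (nat_lit 58734) (nat_lit 0) (nat_lit 15124) (XT.nd (nat_lit 234) (nat_lit 380) (nat_lit 0) (XT.nd (nat_lit 78) (nat_lit 304) (nat_lit 0) (XT.lf (nat_lit 0) (nat_lit 16151839350) (nat_lit 228) (nat_lit 52201437238) (nat_lit 76) (nat_lit 37376226038) (nat_lit 85) (nat_lit 5) (nat_lit 88) (nat_lit 5) (nat_lit 86) (nat_lit 5) (nat_lit 487) (nat_lit 437) (nat_lit 276)) (XT.nd (nat_lit 78) (nat_lit 152) (nat_lit 0) (XT.lf (nat_lit 0) (nat_lit 48871142841) (nat_lit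 152) (nat_lit 12041664163) (nat_lit 228) (nat_lit 48358599214) (nat_lit 83) (nat_lit 5) (nat_lit 85) (nat_lit 5) (nat_lit 86) (nat_lit 5) (nat_lit 488) (nat_lit 437) (nat_lit 275)) (XT.lf (nat_lit 0) (nat_lit 43501044883) (nat_lit 152) (nat_lit 65822100040) (nat_lit 228) (nat_lit 3624920563) (nat_lit 81) (nat_lit 5) (nat_lit 83) (nat_lit 5) (nat_lit 84) (nat_lit 5) (nat_lit 489) (nat_lit 437) (nat_lit 274)))) (XT.nd (nat_lit 78) (nat_lit 152) (nat_lit 0) (XT.lf (nat_lit 0) (nat_lit 37248455808) (nat_lit 152) (nat_lit 6356584219) (nat_lit 228) (nat_lit 73157855238) (nat_lit 78) (nat_lit 5) (nat_lit 80) (nat_lit 5) (nat_lit 81) (nat_lit 5) (nat_lit 490) (nat_lit 437) (nat_lit 273)) (XT.nd (nat_lit 58344) (nat_lit 0) (nat_lit 15048) (XT.lf (nat_lit 0) (nat_lit 29981533268) (nat_lit 152) (nat_lit 64687919867) (nat_lit 228) (nat_lit 26051499121) (nat_lit 76) (nat_lit 5) (nat_lit 78) (nat_lit 5) (nat_lit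 79) (nat_lit 5) (nat_lit 491) (nat_lit 437) (nat_lit 272)) (XT.lf (nat_lit 0) (nat_lit 4196378629) (nat_lit 1292) (nat_lit 4407234656) (nat_lit 1292) (nat_lit 4407234656) (nat_lit 274) (nat_lit 3) (nat_lit 291) (nat_lit 3) (nat_lit 291) (nat_lit 5) (nat_lit 438) (nat_lit 438) (nat_lit 324))))) (XT.nd (nat_lit 234) (nat_lit 0) (nat_lit 152) (XT.nd (nat_lit 78) (nat_lit 0) (nat_lit 0) (XT.lf (nat_lit 0) (nat_lit 8919282795) (nat_lit 1216) (nat_lit 14018287028) (nat_lit 1292) (nat_lit 3725130438) (nat_lit 275) (nat_lit 5) (nat_lit 291) (nat_lit 5) (nat_lit 292) (nat_lit 5) (nat_lit 439) (nat_lit 438) (nat_lit 323)) (XT.nd (nat_lit 78) (nat_lit 0) (nat_lit 76) (XT.lf (nat_lit 76) (nat_lit 8003324766) (nat_lit 0) (nat_lit 1800918737) (nat_lit 1292) (nat_lit 17521550442) (nat_lit 276) (nat_lit 5) (nat_lit 275) (nat_lit 5) (nat_lit 292) (nat_lit 5) (nat_lit 440) (nat_lit 438) (nat_lit 322)) (XT.lf (nat_lit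 76) (nat_lit 3261587241) (nat_lit 0) (nat_lit 7835311579) (nat_lit 1292) (nat_lit 16914242342) (nat_lit 277) (nat_lit 5) (nat_lit 276) (nat_lit 5) (nat_lit 293) (nat_lit 5) (nat_lit 441) (nat_lit 438) (nat_lit 321)))) (XT.nd (nat_lit 78) (nat_lit 0) (nat_lit 76) (XT.lf (nat_lit 0) (nat_lit 12803067026) (nat_lit 1216) (nat_lit 1511352969) (nat_lit 1292) (nat_lit 14405871478) (nat_lit 277) (nat_lit 5) (nat_lit 293) (nat_lit 5) (nat_lit 294) (nat_lit 5) (nat_lit 442) (nat_lit 438) (nat_lit 320)) (XT.nd (nat_lit 78) (nat_lit 0) (nat_lit 76) (XT.lf (nat_lit 0) (nat_lit 14968860576) (nat_lit 1216) (nat_lit 6278728939) (nat_lit 1292) (nat_lit 8206082314) (nat_lit 278) (nat_lit 5) (nat_lit 294) (nat_lit 5) (nat_lit 295) (nat_lit 5) (nat_lit 443) (nat_lit 438) (nat_lit 319)) (XT.lf (nat_lit 0) (nat_lit 17593478614) (nat_lit 1216) (nat_lit 11101883821) (nat_lit 1292) (nat_lit 1517844661) (nat_lit 279) (nat_lit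 5) (nat_lit 295) (nat_lit 5) (nat_lit 296) (nat_lit 5) (nat_lit 444) (nat_lit 438) (nat_lit 318)))))) (XT.nd (nat_lit 468) (nat_lit 3876) (nat_lit 0) (XT.nd (nat_lit 234) (nat_lit 1824) (nat_lit 0) (XT.nd (nat_lit 78) (nat_lit 0) (nat_lit 76) (XT.lf (nat_lit 76) (nat_lit 14964287629) (nat_lit 0) (nat_lit 5800590965) (nat_lit 1292) (nat_lit 10233375849) (nat_lit 280) (nat_lit 5) (nat_lit 279) (nat_lit 5) (nat_lit 296) (nat_lit 5) (nat_lit 445) (nat_lit 438) (nat_lit 317)) (XT.nd (nat_lit 78) (nat_lit 0) (nat_lit 76) (XT.lf (nat_lit 76) (nat_lit 10774422399) (nat_lit 0) (nat_lit 13707055455) (nat_lit 1292) (nat_lit 7329479185) (nat_lit 281) (nat_lit 5) (nat_lit 280) (nat_lit 5) (nat_lit 297) (nat_lit 5) (nat_lit 446) (nat_lit 438) (nat_lit 316)) (XT.lf (nat_lit 76) (nat_lit 6561121418) (nat_lit 0) (nat_lit 22203340918) (nat_lit 1292) (nat_lit 3888417444) (nat_lit 282) (nat_lit 5) (nat_lit 281) (nat_lit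 5) (nat_lit 298) (nat_lit 5) (nat_lit 447) (nat_lit 438) (nat_lit 315)))) (XT.nd (nat_lit 78) (nat_lit 760) (nat_lit 0) (XT.lf (nat_lit 0) (nat_lit 124170851) (nat_lit 1292) (nat_lit 31197583189) (nat_lit 76) (nat_lit 2203402521) (nat_lit 265) (nat_lit 5) (nat_lit 282) (nat_lit 5) (nat_lit 266) (nat_lit 5) (nat_lit 448) (nat_lit 438) (nat_lit 314)) (XT.nd (nat_lit 78) (nat_lit 760) (nat_lit 0) (XT.lf (nat_lit 0) (nat_lit 4746231153) (nat_lit 1292) (nat_lit 1991973324) (nat_lit 76) (nat_lit 27687011372) (nat_lit 265) (nat_lit 5) (nat_lit 282) (nat_lit 5) (nat_lit 266) (nat_lit 5) (nat_lit 449) (nat_lit 438) (nat_lit 313)) (XT.lf (nat_lit 0) (nat_lit 10060084718) (nat_lit 836) (nat_lit 6309516976) (nat_lit 76) (nat_lit 18986857104) (nat_lit 255) (nat_lit 5) (nat_lit 266) (nat_lit 5) (nat_lit 256) (nat_lit 5) (nat_lit 450) (nat_lit 438) (nat_lit 312))))) (XT.nd (nat_lit 234) (nat_lit 2128) (nat_lit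 0) (XT.nd (nat_lit 78) (nat_lit 1140) (nat_lit 0) (XT.lf (nat_lit 0) (nat_lit 16064108968) (nat_lit 684) (nat_lit 10643910260) (nat_lit 76) (nat_lit 9613511666) (nat_lit 247) (nat_lit 5) (nat_lit 256) (nat_lit 5) (nat_lit 248) (nat_lit 5) (nat_lit 451) (nat_lit 438) (nat_lit 311)) (XT.nd (nat_lit 78) (nat_lit 532) (nat_lit 0) (XT.lf (nat_lit 0) (nat_lit 22327028806) (nat_lit 608) (nat_lit 480736538) (nat_lit 684) (nat_lit 14513909596) (nat_lit 239) (nat_lit 5) (nat_lit 247) (nat_lit 5) (nat_lit 248) (nat_lit 5) (nat_lit 452) (nat_lit 438) (nat_lit 310)) (XT.lf (nat_lit 0) (nat_lit 18902218664) (nat_lit 532) (nat_lit 11533063180) (nat_lit 608) (nat_lit 7920145239) (nat_lit 232) (nat_lit 5) (nat_lit 239) (nat_lit 5) (nat_lit 240) (nat_lit 5) (nat_lit 453) (nat_lit 438) (nat_lit 309)))) (XT.nd (nat_lit 156) (nat_lit 988) (nat_lit 0) (XT.nd (nat_lit 78) (nat_lit 608) (nat_lit 0) (XT.lf (nat_lit 0)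 (nat_lit 15507267436) (nat_lit 532) (nat_lit 23395292894) (nat_lit 608) (nat_lit 524556074) (nat_lit 225) (nat_lit 5) (nat_lit 232) (nat_lit 5) (nat_lit 233) (nat_lit 5) (nat_lit 454) (nat_lit 438) (nat_lit 308)) (XT.lf (nat_lit 0) (nat_lit 7573368304) (nat_lit 608) (nat_lit 28462933169) (nat_lit 76) (nat_lit 4499786192) (nat_lit 217) (nat_lit 5) (nat_lit 225) (nat_lit 5) (nat_lit 218) (nat_lit 5) (nat_lit 455) (nat_lit 438) (nat_lit 307))) (XT.nd (nat_lit 78) (nat_lit 456) (nat_lit 0) (XT.lf (nat_lit 0) (nat_lit 8590529360) (nat_lit 532) (nat_lit 8037095023) (nat_lit 608) (nat_lit 25055859791) (nat_lit 210) (nat_lit 5) (nat_lit 217) (nat_lit 5) (nat_lit 218) (nat_lit 5) (nat_lit 456) (nat_lit 438) (nat_lit 306)) (XT.lf (nat_lit 0) (nat_lit 5097461778) (nat_lit 456) (nat_lit 21582366122) (nat_lit 532) (nat_lit 16192066539) (nat_lit 204) (nat_lit 5) (nat_lit 210) (nat_lit 5) (nat_lit 211) (nat_lit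 5) (nat_lit 457) (nat_lit 438) (nat_lit 305))))))) (XT.nd (nat_lit 1014) (nat_lit 3192) (nat_lit 0) (XT.nd (nat_lit 468) (nat_lit 2508) (nat_lit 0) (XT.nd (nat_lit 234) (nat_lit 1292) (nat_lit 0) (XT.nd (nat_lit 78) (nat_lit 532) (nat_lit 0) (XT.lf (nat_lit 0) (nat_lit 1647177009) (nat_lit 456) (nat_lit 36097799637) (nat_lit 532) (nat_lit 6359439443) (nat_lit 198) (nat_lit 5) (nat_lit 204) (nat_lit 5) (nat_lit 205) (nat_lit 5) (nat_lit 458) (nat_lit 438) (nat_lit 304)) (XT.nd (nat_lit 78) (nat_lit 456) (nat_lit 0) (XT.lf (nat_lit 0) (nat_lit 4493286588) (nat_lit 532) (nat_lit 1823116274) (nat_lit 76) (nat_lit 39062843381) (nat_lit 197) (nat_lit 5) (nat_lit 204) (nat_lit 5) (nat_lit 198) (nat_lit 5) (nat_lit 459) (nat_lit 438) (nat_lit 303)) (XT.lf (nat_lit 0) (nat_lit 16398062433) (nat_lit 532) (nat_lit 5363894934) (nat_lit 76) (nat_lit 24934744314) (nat_lit 191) (nat_lit 5) (nat_lit 198) (nat_lit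 5) (nat_lit 192) (nat_lit 5) (nat_lit 460) (nat_lit 438) (nat_lit 302)))) (XT.nd (nat_lit 78) (nat_lit 836) (nat_lit 0) (XT.lf (nat_lit 0) (nat_lit 29449890416) (nat_lit 532) (nat_lit 8859178237) (nat_lit 76) (nat_lit 9754407612) (nat_lit 185) (nat_lit 5) (nat_lit 192) (nat_lit 5) (nat_lit 186) (nat_lit 5) (nat_lit 461) (nat_lit 438) (nat_lit 301)) (XT.nd (nat_lit 78) (nat_lit 456) (nat_lit 0) (XT.lf (nat_lit 0) (nat_lit 37114783820) (nat_lit 380) (nat_lit 6667527200) (nat_lit 456) (nat_lit 5697439257) (nat_lit 180) (nat_lit 5) (nat_lit 185) (nat_lit 5) (nat_lit 186) (nat_lit 5) (nat_lit 462) (nat_lit 438) (nat_lit 300)) (XT.lf (nat_lit 0) (nat_lit 8397849239) (nat_lit 456) (nat_lit 15998178470) (nat_lit 76) (nat_lit 26547939021) (nat_lit 174) (nat_lit 5) (nat_lit 180) (nat_lit 5) (nat_lit 175) (nat_lit 5) (nat_lit 463) (nat_lit 438) (nat_lit 299))))) (XT.nd (nat_lit 234) (nat_lit 1368) (nat_lit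 0) (XT.nd (nat_lit 78) (nat_lit 760) (nat_lit 0) (XT.lf (nat_lit 0) (nat_lit 23679091702) (nat_lit 456) (nat_lit 19640157290) (nat_lit 76) (nat_lit 9142482714) (nat_lit 169) (nat_lit 5) (nat_lit 175) (nat_lit 5) (nat_lit 170) (nat_lit 5) (nat_lit 464) (nat_lit 438) (nat_lit 298)) (XT.nd (nat_lit 78) (nat_lit 380) (nat_lit 0) (XT.lf (nat_lit 0) (nat_lit 30712470638) (nat_lit 380) (nat_lit 9715893898) (nat_lit 456) (nat_lit 13605901966) (nat_lit 164) (nat_lit 5) (nat_lit 169) (nat_lit 5) (nat_lit 170) (nat_lit 5) (nat_lit 465) (nat_lit 438) (nat_lit 297)) (XT.lf (nat_lit 0) (nat_lit 3012721764) (nat_lit 380) (nat_lit 27073952129) (nat_lit 76) (nat_lit 25576227617) (nat_lit 159) (nat_lit 5) (nat_lit 164) (nat_lit 5) (nat_lit 160) (nat_lit 5) (nat_lit 466) (nat_lit 438) (nat_lit 296)))) (XT.nd (nat_lit 156) (nat_lit 684) (nat_lit 0) (XT.nd (nat_lit 78) (nat_lit 304) (nat_lit 0) (XT.lf (nat_lit 0)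 (nat_lit 20830013679) (nat_lit 456) (nat_lit 30915095375) (nat_lit 76) (nat_lit 5604344563) (nat_lit 154) (nat_lit 5) (nat_lit 160) (nat_lit 5) (nat_lit 155) (nat_lit 5) (nat_lit 467) (nat_lit 438) (nat_lit 295)) (XT.lf (nat_lit 0) (nat_lit 24233343286) (nat_lit 304) (nat_lit 16119418511) (nat_lit 380) (nat_lit 18743134304) (nat_lit 150) (nat_lit 5) (nat_lit 154) (nat_lit 5) (nat_lit 155) (nat_lit 5) (nat_lit 468) (nat_lit 438) (nat_lit 294))) (XT.nd (nat_lit 78) (nat_lit 304) (nat_lit 0) (XT.lf (nat_lit 0) (nat_lit 665704404) (nat_lit 380) (nat_lit 38830796883) (nat_lit 76) (nat_lit 21410916534) (nat_lit 145) (nat_lit 5) (nat_lit 150) (nat_lit 5) (nat_lit 146) (nat_lit 5) (nat_lit 469) (nat_lit 438) (nat_lit 293)) (XT.lf (nat_lit 0) (nat_lit 19818986994) (nat_lit 304) (nat_lit 1554306200) (nat_lit 380) (nat_lit 41409177275) (nat_lit 141) (nat_lit 5) (nat_lit 145) (nat_lit 5) (nat_lit 146) (nat_lit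 5) (nat_lit 470) (nat_lit 438) (nat_lit 292)))))) (XT.nd (nat_lit 468) (nat_lit 1444) (nat_lit 0) (XT.nd (nat_lit 234) (nat_lit 836) (nat_lit 0) (XT.nd (nat_lit 78) (nat_lit 608) (nat_lit 0) (XT.lf (nat_lit 0) (nat_lit 17436911368) (nat_lit 304) (nat_lit 26615466448) (nat_lit 380) (nat_lit 20670814878) (nat_lit 137) (nat_lit 5) (nat_lit 141) (nat_lit 5) (nat_lit 142) (nat_lit 5) (nat_lit 471) (nat_lit 438) (nat_lit 291)) (XT.nd (nat_lit 78) (nat_lit 304) (nat_lit 0) (XT.lf (nat_lit 0) (nat_lit 1819459887) (nat_lit 304) (nat_lit 51602979914) (nat_lit 76) (nat_lit 13316096734) (nat_lit 133) (nat_lit 5) (nat_lit 137) (nat_lit 5) (nat_lit 134) (nat_lit 5) (nat_lit 472) (nat_lit 438) (nat_lit 290)) (XT.lf (nat_lit 0) (nat_lit 12585421137) (nat_lit 304) (nat_lit 13303465574) (nat_lit 380) (nat_lit 42933157122) (nat_lit 129) (nat_lit 5) (nat_lit 133) (nat_lit 5) (nat_lit 134) (nat_lit 5) (nat_lit 473)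 (nat_lit 438) (nat_lit 289)))) (XT.nd (nat_lit 78) (nat_lit 608) (nat_lit 0) (XT.lf (nat_lit 0) (nat_lit 9975552357) (nat_lit 228) (nat_lit 42092688828) (nat_lit 304) (nat_lit 18914291986) (nat_lit 126) (nat_lit 5) (nat_lit 129) (nat_lit 5) (nat_lit 130) (nat_lit 5) (nat_lit 474) (nat_lit 438) (nat_lit 288)) (XT.nd (nat_lit 78) (nat_lit 228) (nat_lit 0) (XT.lf (nat_lit 0) (nat_lit 6973366634) (nat_lit 380) (nat_lit 65850878383) (nat_lit 76) (nat_lit 401257115) (nat_lit 121) (nat_lit 5) (nat_lit 126) (nat_lit 5) (nat_lit 122) (nat_lit 5) (nat_lit 475) (nat_lit 438) (nat_lit 287)) (XT.lf (nat_lit 0) (nat_lit 4346776260) (nat_lit 228) (nat_lit 30519155811) (nat_lit 304) (nat_lit 40676018670) (nat_lit 118) (nat_lit 5) (nat_lit 121) (nat_lit 5) (nat_lit 122) (nat_lit 5) (nat_lit 476) (nat_lit 438) (nat_lit 286))))) (XT.nd (nat_lit 234) (nat_lit 912) (nat_lit 0) (XT.nd (nat_lit 78) (nat_lit 304) (nat_lit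 0) (XT.lf (nat_lit 0) (nat_lit 1358281746) (nat_lit 228) (nat_lit 63623389438) (nat_lit 304) (nat_lit 12967694541) (nat_lit 115) (nat_lit 5) (nat_lit 118) (nat_lit 5) (nat_lit 119) (nat_lit 5) (nat_lit 477) (nat_lit 438) (nat_lit 285)) (XT.nd (nat_lit 78) (nat_lit 228) (nat_lit 0) (XT.lf (nat_lit 0) (nat_lit 16856889668) (nat_lit 304) (nat_lit 1902620967) (nat_lit 76) (nat_lit 61681625071) (nat_lit 114) (nat_lit 5) (nat_lit 118) (nat_lit 5) (nat_lit 115) (nat_lit 5) (nat_lit 478) (nat_lit 438) (nat_lit 284)) (XT.lf (nat_lit 0) (nat_lit 48934531636) (nat_lit 304) (nat_lit 5406895229) (nat_lit 76) (nat_lit 28681315187) (nat_lit 111) (nat_lit 5) (nat_lit 115) (nat_lit 5) (nat_lit 112) (nat_lit 5) (nat_lit 479) (nat_lit 438) (nat_lit 283)))) (XT.nd (nat_lit 156) (nat_lit 456) (nat_lit 0) (XT.nd (nat_lit 78) (nat_lit 228) (nat_lit 0) (XT.lf (nat_lit 0) (nat_lit 76720649650) (nat_lit 228) (nat_lit 6839546165)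 (nat_lit 304) (nat_lit 2144908955) (nat_lit 108) (nat_lit 5) (nat_lit 111) (nat_lit 5) (nat_lit 112) (nat_lit 5) (nat_lit 480) (nat_lit 438) (nat_lit 282)) (XT.lf (nat_lit 0) (nat_lit 31989007389) (nat_lit 228) (nat_lit 13194669374) (nat_lit 76) (nat_lit 43292672592) (nat_lit 105) (nat_lit 5) (nat_lit 108) (nat_lit 5) (nat_lit 106) (nat_lit 5) (nat_lit 481) (nat_lit 438) (nat_lit 281))) (XT.nd (nat_lit 78) (nat_lit 228) (nat_lit 0) (XT.lf (nat_lit 0) (nat_lit 68706770325) (nat_lit 304) (nat_lit 17497665523) (nat_lit 76) (nat_lit 5153438123) (nat_lit 102) (nat_lit 5) (nat_lit 106) (nat_lit 5) (nat_lit 103) (nat_lit 5) (nat_lit 482) (nat_lit 438) (nat_lit 280)) (XT.lf (nat_lit 0) (nat_lit 13922481406) (nat_lit 228) (nat_lit 22371433465) (nat_lit 76) (nat_lit 58046942410) (nat_lit 99) (nat_lit 5) (nat_lit 102) (nat_lit 5) (nat_lit 100) (nat_lit 5) (nat_lit 483) (nat_lit 438) (nat_lit 279))))))))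
noncomputable def xc106 : XT := (XT.nd (nat_lit 60294) (nat_lit 0) (nat_lit 2280) (XT.nd (nat_lit 59280) (nat_lit 0) (nat_lit 11172) (XT.nd (nat_lit 468) (nat_lit 380) (nat_lit 0) (XT.nd (nat_lit 234) (nat_lit 532) (nat_lit 0) (XT.nd (nat_lit 78) (nat_lit 456) (nat_lit 0) (XT.lf (nat_lit 0) (nat_lit 52878184018) (nat_lit 304) (nat_lit 27667693380) (nat_lit 76) (nat_lit 16889727569) (nat_lit 96) (nat_lit 5) (nat_lit 100) (nat_lit 5) (nat_lit 97) (nat_lit 5) (nat_lit 484) (nat_lit 438) (nat_lit 278)) (XT.nd (nat_lit 78) (nat_lit 304) (nat_lit 0) (XT.lf (nat_lit 0) (nat_lit 67243343520) (nat_lit 152) (nat_lit 27781426188) (nat_lit 228) (nat_lit 5623027582) (nat_lit 94) (nat_lit 5) (nat_lit 96) (nat_lit 5) (nat_lit 97) (nat_lit 5) (nat_lit 485) (nat_lit 438) (nat_lit 277)) (XT.lf (nat_lit 0) (nat_lit 35752229275) (nat_lit 304) (nat_lit 39884284933) (nat_lit 76) (nat_lit 28338452846) (nat_lit 90) (nat_lit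 5) (nat_lit 94) (nat_lit 5) (nat_lit 91) (nat_lit 5) (nat_lit 486) (nat_lit 438) (nat_lit 276)))) (XT.nd (nat_lit 78) (nat_lit 380) (nat_lit 0) (XT.lf (nat_lit 0) (nat_lit 60537562603) (nat_lit 152) (nat_lit 19750994123) (nat_lit 228) (nat_lit 27142010523) (nat_lit 88) (nat_lit 5) (nat_lit 90) (nat_lit 5) (nat_lit 91) (nat_lit 5) (nat_lit 487) (nat_lit 438) (nat_lit 275)) (XT.nd (nat_lit 78) (nat_lit 152) (nat_lit 0) (XT.lf (nat_lit 0) (nat_lit 17023651818) (nat_lit 228) (nat_lit 54698180005) (nat_lit 76) (nat_lit 39292214572) (nat_lit 85) (nat_lit 5) (nat_lit 88) (nat_lit 5) (nat_lit 86) (nat_lit 5) (nat_lit 488) (nat_lit 438) (nat_lit 274)) (XT.lf (nat_lit 0) (nat_lit 51424780522) (nat_lit 152) (nat_lit 12595887375) (nat_lit 228) (nat_lit 50712437494) (nat_lit 83) (nat_lit 5) (nat_lit 85) (nat_lit 5) (nat_lit 86) (nat_lit 5) (nat_lit 489) (nat_lit 438) (nat_lit 273))))) (XT.nd (nat_lit 58578)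 (nat_lit 0) (nat_lit 14972) (XT.nd (nat_lit 78) (nat_lit 228) (nat_lit 0) (XT.lf (nat_lit 0) (nat_lit 45784392859) (nat_lit 152) (nat_lit 69065646128) (nat_lit 228) (nat_lit 3743603365) (nat_lit 81) (nat_lit 5) (nat_lit 83) (nat_lit 5) (nat_lit 84) (nat_lit 5) (nat_lit 490) (nat_lit 438) (nat_lit 272)) (XT.nd (nat_lit 58422) (nat_lit 0) (nat_lit 14896) (XT.lf (nat_lit 0) (nat_lit 39217259952) (nat_lit 152) (nat_lit 6627476005) (nat_lit 228) (nat_lit 76754516773) (nat_lit 78) (nat_lit 5) (nat_lit 80) (nat_lit 5) (nat_lit 81) (nat_lit 5) (nat_lit 491) (nat_lit 438) (nat_lit 271)) (XT.lf (nat_lit 0) (nat_lit 4562004683) (nat_lit 1292) (nat_lit 4547337597) (nat_lit 1292) (nat_lit 4547337597) (nat_lit 274) (nat_lit 3) (nat_lit 291) (nat_lit 3) (nat_lit 291) (nat_lit 5) (nat_lit 439) (nat_lit 439) (nat_lit 322)))) (XT.nd (nat_lit 78) (nat_lit 0) (nat_lit 0) (XT.lf (nat_lit 0) (nat_lit 9662152737) (nat_lit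 1216) (nat_lit 14552899297) (nat_lit 1292) (nat_lit 3771807020) (nat_lit 275) (nat_lit 5) (nat_lit 291) (nat_lit 5) (nat_lit 292) (nat_lit 5) (nat_lit 440) (nat_lit 439) (nat_lit 321)) (XT.nd (nat_lit 78) (nat_lit 0) (nat_lit 76) (XT.lf (nat_lit 76) (nat_lit 8565026071) (nat_lit 0) (nat_lit 2013749813) (nat_lit 1292) (nat_lit 18104712395) (nat_lit 276) (nat_lit 5) (nat_lit 275) (nat_lit 5) (nat_lit 292) (nat_lit 5) (nat_lit 441) (nat_lit 439) (nat_lit 320)) (XT.lf (nat_lit 76) (nat_lit 3591066731) (nat_lit 0) (nat_lit 8331933635) (nat_lit 1292) (nat_lit 17480497529) (nat_lit 277) (nat_lit 5) (nat_lit 276) (nat_lit 5) (nat_lit 293) (nat_lit 5) (nat_lit 442) (nat_lit 439) (nat_lit 319)))))) (XT.nd (nat_lit 468) (nat_lit 3952) (nat_lit 0) (XT.nd (nat_lit 234) (nat_lit 0) (nat_lit 152) (XT.nd (nat_lit 78) (nat_lit 0) (nat_lit 76) (XT.lf (nat_lit 0) (nat_lit 13700600054) (nat_lit 1216) (nat_lit 1419674524)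 (nat_lit 1292) (nat_lit 15028250434) (nat_lit 277) (nat_lit 5) (nat_lit 293) (nat_lit 5) (nat_lit 294) (nat_lit 5) (nat_lit 443) (nat_lit 439) (nat_lit 318)) (XT.nd (nat_lit 78) (nat_lit 0) (nat_lit 76) (XT.lf (nat_lit 0) (nat_lit 15963178995) (nat_lit 1216) (nat_lit 6421946312) (nat_lit 1292) (nat_lit 8533797047) (nat_lit 278) (nat_lit 5) (nat_lit 294) (nat_lit 5) (nat_lit 295) (nat_lit 5) (nat_lit 444) (nat_lit 439) (nat_lit 317)) (XT.lf (nat_lit 0) (nat_lit 18708241335) (nat_lit 1216) (nat_lit 11483353373) (nat_lit 1292) (nat_lit 1525165981) (nat_lit 279) (nat_lit 5) (nat_lit 295) (nat_lit 5) (nat_lit 296) (nat_lit 5) (nat_lit 445) (nat_lit 439) (nat_lit 316)))) (XT.nd (nat_lit 78) (nat_lit 0) (nat_lit 76) (XT.lf (nat_lit 76) (nat_lit 15881149735) (nat_lit 0) (nat_lit 6147488020) (nat_lit 1292) (nat_lit 10512712431) (nat_lit 280) (nat_lit 5) (nat_lit 279) (nat_lit 5) (nat_lit 296) (nat_lit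 5) (nat_lit 446) (nat_lit 439) (nat_lit 315)) (XT.nd (nat_lit 78) (nat_lit 0) (nat_lit 76) (XT.lf (nat_lit 76) (nat_lit 11484109538) (nat_lit 0) (nat_lit 14437341435) (nat_lit 1292) (nat_lit 7473527872) (nat_lit 281) (nat_lit 5) (nat_lit 280) (nat_lit 5) (nat_lit 297) (nat_lit 5) (nat_lit 447) (nat_lit 439) (nat_lit 314)) (XT.lf (nat_lit 76) (nat_lit 7062001324) (nat_lit 0) (nat_lit 23347552371) (nat_lit 1292) (nat_lit 3869717296) (nat_lit 282) (nat_lit 5) (nat_lit 281) (nat_lit 5) (nat_lit 298) (nat_lit 5) (nat_lit 448) (nat_lit 439) (nat_lit 313))))) (XT.nd (nat_lit 234) (nat_lit 2280) (nat_lit 0) (XT.nd (nat_lit 78) (nat_lit 760) (nat_lit 0) (XT.lf (nat_lit 0) (nat_lit 330768005) (nat_lit 1292) (nat_lit 32579169717) (nat_lit 76) (nat_lit 2285421797) (nat_lit 265) (nat_lit 5) (nat_lit 282) (nat_lit 5) (nat_lit 266) (nat_lit 5) (nat_lit 449) (nat_lit 439) (nat_lit 312)) (XT.nd (nat_lit 78) (nat_lit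 760) (nat_lit 0) (XT.lf (nat_lit 0) (nat_lit 5174389008) (nat_lit 1292) (nat_lit 1921769484) (nat_lit 76) (nat_lit 29044551607) (nat_lit 265) (nat_lit 5) (nat_lit 282) (nat_lit 5) (nat_lit 266) (nat_lit 5) (nat_lit 450) (nat_lit 439) (nat_lit 311)) (XT.lf (nat_lit 0) (nat_lit 10746255834) (nat_lit 836) (nat_lit 6454341210) (nat_lit 76) (nat_lit 19918150495) (nat_lit 255) (nat_lit 5) (nat_lit 266) (nat_lit 5) (nat_lit 256) (nat_lit 5) (nat_lit 451) (nat_lit 439) (nat_lit 310)))) (XT.nd (nat_lit 156) (nat_lit 1064) (nat_lit 0) (XT.nd (nat_lit 78) (nat_lit 608) (nat_lit 0) (XT.lf (nat_lit 0) (nat_lit 17043253650) (nat_lit 684) (nat_lit 11004928584) (nat_lit 76) (nat_lit 10084109700) (nat_lit 247) (nat_lit 5) (nat_lit 256) (nat_lit 5) (nat_lit 248) (nat_lit 5) (nat_lit 452) (nat_lit 439) (nat_lit 309)) (XT.lf (nat_lit 0) (nat_lit 23609650675) (nat_lit 608) (nat_lit 507662405) (nat_lit 684) (nat_lit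 15065335274) (nat_lit 239) (nat_lit 5) (nat_lit 247) (nat_lit 5) (nat_lit 248) (nat_lit 5) (nat_lit 453) (nat_lit 439) (nat_lit 308))) (XT.nd (nat_lit 78) (nat_lit 532) (nat_lit 0) (XT.lf (nat_lit 0) (nat_lit 20013824740) (nat_lit 532) (nat_lit 12105899456) (nat_lit 608) (nat_lit 8148560037) (nat_lit 232) (nat_lit 5) (nat_lit 239) (nat_lit 5) (nat_lit 240) (nat_lit 5) (nat_lit 454) (nat_lit 439) (nat_lit 307)) (XT.lf (nat_lit 0) (nat_lit 16449091102) (nat_lit 532) (nat_lit 24555163982) (nat_lit 608) (nat_lit 389487894) (nat_lit 225) (nat_lit 5) (nat_lit 232) (nat_lit 5) (nat_lit 233) (nat_lit 5) (nat_lit 455) (nat_lit 439) (nat_lit 306))))))) (XT.nd (nat_lit 1014) (nat_lit 3496) (nat_lit 0) (XT.nd (nat_lit 468) (nat_lit 2812) (nat_lit 0) (XT.nd (nat_lit 234) (nat_lit 988) (nat_lit 0) (XT.nd (nat_lit 78) (nat_lit 988) (nat_lit 0) (XT.lf (nat_lit 0) (nat_lit 8104359164) (nat_lit 608) (nat_lit 29716828447)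 (nat_lit 76) (nat_lit 4737104949) (nat_lit 217) (nat_lit 5) (nat_lit 225) (nat_lit 5) (nat_lit 218) (nat_lit 5) (nat_lit 456) (nat_lit 439) (nat_lit 305)) (XT.nd (nat_lit 78) (nat_lit 456) (nat_lit 0) (XT.lf (nat_lit 0) (nat_lit 9184455652) (nat_lit 532) (nat_lit 8421199258) (nat_lit 608) (nat_lit 26157575600) (nat_lit 210) (nat_lit 5) (nat_lit 217) (nat_lit 5) (nat_lit 218) (nat_lit 5) (nat_lit 457) (nat_lit 439) (nat_lit 304)) (XT.lf (nat_lit 0) (nat_lit 5516157415) (nat_lit 456) (nat_lit 22639065153) (nat_lit 532) (nat_lit 16855997453) (nat_lit 204) (nat_lit 5) (nat_lit 210) (nat_lit 5) (nat_lit 211) (nat_lit 5) (nat_lit 458) (nat_lit 439) (nat_lit 303)))) (XT.nd (nat_lit 78) (nat_lit 532) (nat_lit 0) (XT.lf (nat_lit 0) (nat_lit 1892599904) (nat_lit 456) (nat_lit 37876068076) (nat_lit 532) (nat_lit 6536849884) (nat_lit 198) (nat_lit 5) (nat_lit 204) (nat_lit 5) (nat_lit 205) (nat_lit 5) (nat_lit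 459) (nat_lit 439) (nat_lit 302)) (XT.nd (nat_lit 78) (nat_lit 456) (nat_lit 0) (XT.lf (nat_lit 0) (nat_lit 4849206792) (nat_lit 532) (nat_lit 1756336935) (nat_lit 76) (nat_lit 41038703338) (nat_lit 197) (nat_lit 5) (nat_lit 204) (nat_lit 5) (nat_lit 198) (nat_lit 5) (nat_lit 460) (nat_lit 439) (nat_lit 301)) (XT.lf (nat_lit 0) (nat_lit 17344704647) (nat_lit 532) (nat_lit 5475123465) (nat_lit 76) (nat_lit 26207883799) (nat_lit 191) (nat_lit 5) (nat_lit 198) (nat_lit 5) (nat_lit 192) (nat_lit 5) (nat_lit 461) (nat_lit 439) (nat_lit 300))))) (XT.nd (nat_lit 234) (nat_lit 1520) (nat_lit 0) (XT.nd (nat_lit 78) (nat_lit 836) (nat_lit 0) (XT.lf (nat_lit 0) (nat_lit 31044845675) (nat_lit 532) (nat_lit 9146274889) (nat_lit 76) (nat_lit 10271834091) (nat_lit 185) (nat_lit 5) (nat_lit 192) (nat_lit 5) (nat_lit 186) (nat_lit 5) (nat_lit 462) (nat_lit 439) (nat_lit 299)) (XT.nd (nat_lit 78) (nat_lit 456)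 (nat_lit 0) (XT.lf (nat_lit 0) (nat_lit 39121917510) (nat_lit 380) (nat_lit 6967593632) (nat_lit 456) (nat_lit 5860663541) (nat_lit 180) (nat_lit 5) (nat_lit 185) (nat_lit 5) (nat_lit 186) (nat_lit 5) (nat_lit 463) (nat_lit 439) (nat_lit 298)) (XT.lf (nat_lit 0) (nat_lit 8933102010) (nat_lit 456) (nat_lit 16645567714) (nat_lit 76) (nat_lit 27909015512) (nat_lit 174) (nat_lit 5) (nat_lit 180) (nat_lit 5) (nat_lit 175) (nat_lit 5) (nat_lit 464) (nat_lit 439) (nat_lit 297)))) (XT.nd (nat_lit 156) (nat_lit 760) (nat_lit 0) (XT.nd (nat_lit 78) (nat_lit 380) (nat_lit 0) (XT.lf (nat_lit 0) (nat_lit 24974691624) (nat_lit 456) (nat_lit 20471014864) (nat_lit 76) (nat_lit 9635744329) (nat_lit 169) (nat_lit 5) (nat_lit 175) (nat_lit 5) (nat_lit 170) (nat_lit 5) (nat_lit 465) (nat_lit 439) (nat_lit 296)) (XT.lf (nat_lit 0) (nat_lit 32394911768) (nat_lit 380) (nat_lit 10162611187) (nat_lit 456) (nat_lit 14175207413)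 (nat_lit 164) (nat_lit 5) (nat_lit 169) (nat_lit 5) (nat_lit 170) (nat_lit 5) (nat_lit 466) (nat_lit 439) (nat_lit 295))) (XT.nd (nat_lit 78) (nat_lit 380) (nat_lit 0) (XT.lf (nat_lit 0) (nat_lit 3268772415) (nat_lit 380) (nat_lit 28280135279) (nat_lit 76) (nat_lit 26893960501) (nat_lit 159) (nat_lit 5) (nat_lit 164) (nat_lit 5) (nat_lit 160) (nat_lit 5) (nat_lit 467) (nat_lit 439) (nat_lit 294)) (XT.lf (nat_lit 0) (nat_lit 21973685594) (nat_lit 456) (nat_lit 32314894858) (nat_lit 76) (nat_lit 5925265516) (nat_lit 154) (nat_lit 5) (nat_lit 160) (nat_lit 5) (nat_lit 155) (nat_lit 5) (nat_lit 468) (nat_lit 439) (nat_lit 293)))))) (XT.nd (nat_lit 468) (nat_lit 1596) (nat_lit 0) (XT.nd (nat_lit 234) (nat_lit 912) (nat_lit 0) (XT.nd (nat_lit 78) (nat_lit 684) (nat_lit 0) (XT.lf (nat_lit 0) (nat_lit 25586781957) (nat_lit 304) (nat_lit 16882286658) (nat_lit 380) (nat_lit 19578647759) (nat_lit 150) (nat_lit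 5) (nat_lit 154) (nat_lit 5) (nat_lit 155) (nat_lit 5) (nat_lit 469) (nat_lit 439) (nat_lit 292)) (XT.nd (nat_lit 78) (nat_lit 304) (nat_lit 0) (XT.lf (nat_lit 0) (nat_lit 795663237) (nat_lit 380) (nat_lit 40630204884) (nat_lit 76) (nat_lit 22524007003) (nat_lit 145) (nat_lit 5) (nat_lit 150) (nat_lit 5) (nat_lit 146) (nat_lit 5) (nat_lit 470) (nat_lit 439) (nat_lit 291)) (XT.lf (nat_lit 0) (nat_lit 20947994006) (nat_lit 304) (nat_lit 1587361050) (nat_lit 380) (nat_lit 43383424279) (nat_lit 141) (nat_lit 5) (nat_lit 145) (nat_lit 5) (nat_lit 146) (nat_lit 5) (nat_lit 471) (nat_lit 439) (nat_lit 290)))) (XT.nd (nat_lit 78) (nat_lit 608) (nat_lit 0) (XT.lf (nat_lit 0) (nat_lit 18445174181) (nat_lit 304) (nat_lit 27900492428) (nat_lit 380) (nat_lit 21610953486) (nat_lit 137) (nat_lit 5) (nat_lit 141) (nat_lit 5) (nat_lit 142) (nat_lit 5) (nat_lit 472) (nat_lit 439) (nat_lit 289)) (XT.nd (nat_lit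 78) (nat_lit 304) (nat_lit 0) (XT.lf (nat_lit 0) (nat_lit 1999382398) (nat_lit 304) (nat_lit 54046613780) (nat_lit 76) (nat_lit 14026787479) (nat_lit 133) (nat_lit 5) (nat_lit 137) (nat_lit 5) (nat_lit 134) (nat_lit 5) (nat_lit 473) (nat_lit 439) (nat_lit 288)) (XT.lf (nat_lit 0) (nat_lit 13347294146) (nat_lit 304) (nat_lit 13922025378) (nat_lit 380) (nat_lit 44991236161) (nat_lit 129) (nat_lit 5) (nat_lit 133) (nat_lit 5) (nat_lit 134) (nat_lit 5) (nat_lit 474) (nat_lit 439) (nat_lit 287))))) (XT.nd (nat_lit 234) (nat_lit 760) (nat_lit 0) (XT.nd (nat_lit 78) (nat_lit 608) (nat_lit 0) (XT.lf (nat_lit 0) (nat_lit 10605211774) (nat_lit 228) (nat_lit 44150020113) (nat_lit 304) (nat_lit 19773910406) (nat_lit 126) (nat_lit 5) (nat_lit 129) (nat_lit 5) (nat_lit 130) (nat_lit 5) (nat_lit 475) (nat_lit 439) (nat_lit 286)) (XT.nd (nat_lit 78) (nat_lit 228) (nat_lit 0) (XT.lf (nat_lit 0) (nat_lit 7404122228)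 (nat_lit 380) (nat_lit 69012645395) (nat_lit 76) (nat_lit 467537586) (nat_lit 121) (nat_lit 5) (nat_lit 126) (nat_lit 5) (nat_lit 122) (nat_lit 5) (nat_lit 476) (nat_lit 439) (nat_lit 285)) (XT.lf (nat_lit 0) (nat_lit 4691143286) (nat_lit 228) (nat_lit 31997484807) (nat_lit 304) (nat_lit 42628029240) (nat_lit 118) (nat_lit 5) (nat_lit 121) (nat_lit 5) (nat_lit 122) (nat_lit 5) (nat_lit 477) (nat_lit 439) (nat_lit 284)))) (XT.nd (nat_lit 156) (nat_lit 456) (nat_lit 0) (XT.nd (nat_lit 78) (nat_lit 76) (nat_lit 0) (XT.lf (nat_lit 0) (nat_lit 1551460503) (nat_lit 228) (nat_lit 66756552889) (nat_lit 304) (nat_lit 13536494324) (nat_lit 115) (nat_lit 5) (nat_lit 118) (nat_lit 5) (nat_lit 119) (nat_lit 5) (nat_lit 478) (nat_lit 439) (nat_lit 283)) (XT.lf (nat_lit 0) (nat_lit 17774050300) (nat_lit 304) (nat_lit 1876965399) (nat_lit 76) (nat_lit 64809939415) (nat_lit 114) (nat_lit 5) (nat_lit 118) (nat_lit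 5) (nat_lit 115) (nat_lit 5) (nat_lit 479) (nat_lit 439) (nat_lit 282))) (XT.nd (nat_lit 78) (nat_lit 228) (nat_lit 0) (XT.lf (nat_lit 0) (nat_lit 51453599892) (nat_lit 304) (nat_lit 5558187628) (nat_lit 76) (nat_lit 30159913869) (nat_lit 111) (nat_lit 5) (nat_lit 115) (nat_lit 5) (nat_lit 112) (nat_lit 5) (nat_lit 480) (nat_lit 439) (nat_lit 281)) (XT.lf (nat_lit 0) (nat_lit 80672321884) (nat_lit 228) (nat_lit 7135892155) (nat_lit 304) (nat_lit 2180038558) (nat_lit 108) (nat_lit 5) (nat_lit 111) (nat_lit 5) (nat_lit 112) (nat_lit 5) (nat_lit 481) (nat_lit 439) (nat_lit 280))))))))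
noncomputable def xc107 : XT := (XT.nd (nat_lit 60372) (nat_lit 0) (nat_lit 2508) (XT.nd (nat_lit 59358) (nat_lit 0) (nat_lit 12008) (XT.nd (nat_lit 468) (nat_lit 684) (nat_lit 0) (XT.nd (nat_lit 234) (nat_lit 684) (nat_lit 0) (XT.nd (nat_lit 78) (nat_lit 456) (nat_lit 0) (XT.lf (nat_lit 0) (nat_lit 33657327334) (nat_lit 228) (nat_lit 13739079683) (nat_lit 76) (nat_lit 45501687100) (nat_lit 105) (nat_lit 5) (nat_lit 108) (nat_lit 5) (nat_lit 106) (nat_lit 5) (nat_lit 482) (nat_lit 439) (nat_lit 279)) (XT.nd (nat_lit 78) (nat_lit 228) (nat_lit 0) (XT.lf (nat_lit 0) (nat_lit 72209211631) (nat_lit 304) (nat_lit 18258960982) (nat_lit 76) (nat_lit 5455575669) (nat_lit 102) (nat_lit 5) (nat_lit 106) (nat_lit 5) (nat_lit 103) (nat_lit 5) (nat_lit 483) (nat_lit 439) (nat_lit 278)) (XT.lf (nat_lit 0) (nat_lit 14684222607) (nat_lit 228) (nat_lit 23378361554) (nat_lit 76) (nat_lit 60993341641) (nat_lit 99)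 (nat_lit 5) (nat_lit 102) (nat_lit 5) (nat_lit 100) (nat_lit 5) (nat_lit 484) (nat_lit 439) (nat_lit 277)))) (XT.nd (nat_lit 78) (nat_lit 456) (nat_lit 0) (XT.lf (nat_lit 0) (nat_lit 55586059835) (nat_lit 304) (nat_lit 28941154795) (nat_lit 76) (nat_lit 17778246036) (nat_lit 96) (nat_lit 5) (nat_lit 100) (nat_lit 5) (nat_lit 97) (nat_lit 5) (nat_lit 485) (nat_lit 439) (nat_lit 276)) (XT.nd (nat_lit 78) (nat_lit 304) (nat_lit 0) (XT.lf (nat_lit 0) (nat_lit 70712283023) (nat_lit 152) (nat_lit 29125672118) (nat_lit 228) (nat_lit 5840368318) (nat_lit 94) (nat_lit 5) (nat_lit 96) (nat_lit 5) (nat_lit 97) (nat_lit 5) (nat_lit 486) (nat_lit 439) (nat_lit 275)) (XT.lf (nat_lit 0) (nat_lit 37600861653) (nat_lit 304) (nat_lit 41772176401) (nat_lit 76) (nat_lit 29798841836) (nat_lit 90) (nat_lit 5) (nat_lit 94) (nat_lit 5) (nat_lit 91) (nat_lit 5) (nat_lit 487) (nat_lit 439) (nat_lit 274))))) (XT.nd (nat_lit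 234) (nat_lit 152) (nat_lit 0) (XT.nd (nat_lit 78) (nat_lit 380) (nat_lit 0) (XT.lf (nat_lit 0) (nat_lit 63667715791) (nat_lit 152) (nat_lit 20694376671) (nat_lit 228) (nat_lit 28438225256) (nat_lit 88) (nat_lit 5) (nat_lit 90) (nat_lit 5) (nat_lit 91) (nat_lit 5) (nat_lit 488) (nat_lit 439) (nat_lit 273)) (XT.nd (nat_lit 78) (nat_lit 152) (nat_lit 0) (XT.lf (nat_lit 0) (nat_lit 17933084297) (nat_lit 228) (nat_lit 57330296176) (nat_lit 76) (nat_lit 41299616441) (nat_lit 85) (nat_lit 5) (nat_lit 88) (nat_lit 5) (nat_lit 86) (nat_lit 5) (nat_lit 489) (nat_lit 439) (nat_lit 272)) (XT.lf (nat_lit 0) (nat_lit 54095865842) (nat_lit 152) (nat_lit 13182271317) (nat_lit 228) (nat_lit 53189926326) (nat_lit 83) (nat_lit 5) (nat_lit 85) (nat_lit 5) (nat_lit 86) (nat_lit 5) (nat_lit 490) (nat_lit 439) (nat_lit 271)))) (XT.nd (nat_lit 58500) (nat_lit 0) (nat_lit 14668) (XT.lf (nat_lit 0) (nat_lit 48171839922)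 (nat_lit 152) (nat_lit 72475791098) (nat_lit 228) (nat_lit 3874036842) (nat_lit 81) (nat_lit 5) (nat_lit 83) (nat_lit 5) (nat_lit 84) (nat_lit 5) (nat_lit 491) (nat_lit 439) (nat_lit 270)) (XT.nd (nat_lit 78) (nat_lit 0) (nat_lit 76) (XT.lf (nat_lit 0) (nat_lit 4931426569) (nat_lit 1292) (nat_lit 4701907387) (nat_lit 1292) (nat_lit 4701907387) (nat_lit 274) (nat_lit 3) (nat_lit 291) (nat_lit 3) (nat_lit 291) (nat_lit 5) (nat_lit 440) (nat_lit 440) (nat_lit 320)) (XT.lf (nat_lit 0) (nat_lit 10414562689) (nat_lit 1216) (nat_lit 15129703370) (nat_lit 1292) (nat_lit 3833794252) (nat_lit 275) (nat_lit 5) (nat_lit 291) (nat_lit 5) (nat_lit 292) (nat_lit 5) (nat_lit 441) (nat_lit 440) (nat_lit 319)))))) (XT.nd (nat_lit 468) (nat_lit 2736) (nat_lit 0) (XT.nd (nat_lit 234) (nat_lit 0) (nat_lit 228) (XT.nd (nat_lit 78) (nat_lit 0) (nat_lit 76) (XT.lf (nat_lit 76) (nat_lit 9139794442) (nat_lit 0) (nat_lit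 2225807043) (nat_lit 1292) (nat_lit 18744264960) (nat_lit 276) (nat_lit 5) (nat_lit 275) (nat_lit 5) (nat_lit 292) (nat_lit 5) (nat_lit 442) (nat_lit 440) (nat_lit 318)) (XT.nd (nat_lit 78) (nat_lit 0) (nat_lit 76) (XT.lf (nat_lit 76) (nat_lit 3921549890) (nat_lit 0) (nat_lit 8843638232) (nat_lit 1292) (nat_lit 18101046732) (nat_lit 277) (nat_lit 5) (nat_lit 276) (nat_lit 5) (nat_lit 293) (nat_lit 5) (nat_lit 443) (nat_lit 440) (nat_lit 317)) (XT.lf (nat_lit 0) (nat_lit 14619081011) (nat_lit 1216) (nat_lit 1338961114) (nat_lit 1292) (nat_lit 15690851511) (nat_lit 277) (nat_lit 5) (nat_lit 293) (nat_lit 5) (nat_lit 294) (nat_lit 5) (nat_lit 444) (nat_lit 440) (nat_lit 316)))) (XT.nd (nat_lit 78) (nat_lit 0) (nat_lit 76) (XT.lf (nat_lit 0) (nat_lit 16984354172) (nat_lit 1216) (nat_lit 6588196396) (nat_lit 1292) (nat_lit 8885575895) (nat_lit 278) (nat_lit 5) (nat_lit 294) (nat_lit 5) (nat_lit 295)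 (nat_lit 5) (nat_lit 445) (nat_lit 440) (nat_lit 315)) (XT.nd (nat_lit 78) (nat_lit 0) (nat_lit 0) (XT.lf (nat_lit 0) (nat_lit 19856885864) (nat_lit 1216) (nat_lit 11900038375) (nat_lit 1292) (nat_lit 1539228441) (nat_lit 279) (nat_lit 5) (nat_lit 295) (nat_lit 5) (nat_lit 296) (nat_lit 5) (nat_lit 446) (nat_lit 440) (nat_lit 314)) (XT.lf (nat_lit 76) (nat_lit 16828175679) (nat_lit 0) (nat_lit 6506442926) (nat_lit 1292) (nat_lit 10827615889) (nat_lit 280) (nat_lit 5) (nat_lit 279) (nat_lit 5) (nat_lit 296) (nat_lit 5) (nat_lit 447) (nat_lit 440) (nat_lit 313))))) (XT.nd (nat_lit 234) (nat_lit 1976) (nat_lit 0) (XT.nd (nat_lit 78) (nat_lit 1140) (nat_lit 0) (XT.lf (nat_lit 76) (nat_lit 12213386234) (nat_lit 0) (nat_lit 15199964250) (nat_lit 1292) (nat_lit 7645457987) (nat_lit 281) (nat_lit 5) (nat_lit 280) (nat_lit 5) (nat_lit 297) (nat_lit 5) (nat_lit 448) (nat_lit 440) (nat_lit 312)) (XT.nd (nat_lit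 78) (nat_lit 1216) (nat_lit 0) (XT.lf (nat_lit 76) (nat_lit 7571857703) (nat_lit 0) (nat_lit 24545809269) (nat_lit 1292) (nat_lit 3869896112) (nat_lit 282) (nat_lit 5) (nat_lit 281) (nat_lit 5) (nat_lit 298) (nat_lit 5) (nat_lit 449) (nat_lit 440) (nat_lit 311)) (XT.lf (nat_lit 0) (nat_lit 529064783) (nat_lit 1292) (nat_lit 34046411531) (nat_lit 76) (nat_lit 2374159237) (nat_lit 265) (nat_lit 5) (nat_lit 282) (nat_lit 5) (nat_lit 266) (nat_lit 5) (nat_lit 450) (nat_lit 440) (nat_lit 310)))) (XT.nd (nat_lit 156) (nat_lit 1216) (nat_lit 0) (XT.nd (nat_lit 78) (nat_lit 760) (nat_lit 0) (XT.lf (nat_lit 0) (nat_lit 5606211675) (nat_lit 1292) (nat_lit 1863842080) (nat_lit 76) (nat_lit 30472461426) (nat_lit 265) (nat_lit 5) (nat_lit 282) (nat_lit 5) (nat_lit 266) (nat_lit 5) (nat_lit 451) (nat_lit 440) (nat_lit 309)) (XT.lf (nat_lit 0) (nat_lit 11449706385) (nat_lit 836) (nat_lit 6622272225) (nat_lit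 76) (nat_lit 20897686623) (nat_lit 255) (nat_lit 5) (nat_lit 266) (nat_lit 5) (nat_lit 256) (nat_lit 5) (nat_lit 452) (nat_lit 440) (nat_lit 308))) (XT.nd (nat_lit 78) (nat_lit 608) (nat_lit 0) (XT.lf (nat_lit 0) (nat_lit 18054998404) (nat_lit 684) (nat_lit 11399912257) (nat_lit 76) (nat_lit 10579174550) (nat_lit 247) (nat_lit 5) (nat_lit 256) (nat_lit 5) (nat_lit 248) (nat_lit 5) (nat_lit 453) (nat_lit 440) (nat_lit 307)) (XT.lf (nat_lit 0) (nat_lit 24940945389) (nat_lit 608) (nat_lit 535665969) (nat_lit 684) (nat_lit 15660534190) (nat_lit 239) (nat_lit 5) (nat_lit 247) (nat_lit 5) (nat_lit 248) (nat_lit 5) (nat_lit 454) (nat_lit 440) (nat_lit 306))))))) (XT.nd (nat_lit 1014) (nat_lit 3800) (nat_lit 0) (XT.nd (nat_lit 468) (nat_lit 2584) (nat_lit 0) (XT.nd (nat_lit 234) (nat_lit 1444) (nat_lit 0) (XT.nd (nat_lit 78) (nat_lit 1140) (nat_lit 0) (XT.lf (nat_lit 0) (nat_lit 21165531980) (nat_lit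 532) (nat_lit 12707732403) (nat_lit 608) (nat_lit 8403976733) (nat_lit 232) (nat_lit 5) (nat_lit 239) (nat_lit 5) (nat_lit 240) (nat_lit 5) (nat_lit 455) (nat_lit 440) (nat_lit 305)) (XT.nd (nat_lit 78) (nat_lit 608) (nat_lit 0) (XT.lf (nat_lit 0) (nat_lit 17422530051) (nat_lit 532) (nat_lit 25773948433) (nat_lit 608) (nat_lit 262662077) (nat_lit 225) (nat_lit 5) (nat_lit 232) (nat_lit 5) (nat_lit 233) (nat_lit 5) (nat_lit 456) (nat_lit 440) (nat_lit 304)) (XT.lf (nat_lit 0) (nat_lit 8647738070) (nat_lit 608) (nat_lit 31049153878) (nat_lit 76) (nat_lit 4985143368) (nat_lit 217) (nat_lit 5) (nat_lit 225) (nat_lit 5) (nat_lit 218) (nat_lit 5) (nat_lit 457) (nat_lit 440) (nat_lit 303)))) (XT.nd (nat_lit 78) (nat_lit 912) (nat_lit 0) (XT.lf (nat_lit 0) (nat_lit 9792793920) (nat_lit 532) (nat_lit 8826158979) (nat_lit 608) (nat_lit 27328422923) (nat_lit 210) (nat_lit 5) (nat_lit 217) (nat_lit 5) (nat_lit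 218) (nat_lit 5) (nat_lit 458) (nat_lit 440) (nat_lit 302)) (XT.nd (nat_lit 78) (nat_lit 456) (nat_lit 0) (XT.lf (nat_lit 0) (nat_lit 5940557166) (nat_lit 456) (nat_lit 23750683467) (nat_lit 532) (nat_lit 17566668152) (nat_lit 204) (nat_lit 5) (nat_lit 210) (nat_lit 5) (nat_lit 211) (nat_lit 5) (nat_lit 459) (nat_lit 440) (nat_lit 301)) (XT.lf (nat_lit 0) (nat_lit 2135133794) (nat_lit 456) (nat_lit 39745724955) (nat_lit 532) (nat_lit 6736198927) (nat_lit 198) (nat_lit 5) (nat_lit 204) (nat_lit 5) (nat_lit 205) (nat_lit 5) (nat_lit 460) (nat_lit 440) (nat_lit 300))))) (XT.nd (nat_lit 234) (nat_lit 1596) (nat_lit 0) (XT.nd (nat_lit 78) (nat_lit 912) (nat_lit 0) (XT.lf (nat_lit 0) (nat_lit 5210720079) (nat_lit 532) (nat_lit 1700901942) (nat_lit 76) (nat_lit 43111244208) (nat_lit 197) (nat_lit 5) (nat_lit 204) (nat_lit 5) (nat_lit 198) (nat_lit 5) (nat_lit 461) (nat_lit 440) (nat_lit 299)) (XT.nd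 (nat_lit 78) (nat_lit 456) (nat_lit 0) (XT.lf (nat_lit 0) (nat_lit 18326895972) (nat_lit 532) (nat_lit 5606506654) (nat_lit 76) (nat_lit 27542225626) (nat_lit 191) (nat_lit 5) (nat_lit 198) (nat_lit 5) (nat_lit 192) (nat_lit 5) (nat_lit 462) (nat_lit 440) (nat_lit 298)) (XT.lf (nat_lit 0) (nat_lit 32708163458) (nat_lit 532) (nat_lit 9462216970) (nat_lit 76) (nat_lit 10812370103) (nat_lit 185) (nat_lit 5) (nat_lit 192) (nat_lit 5) (nat_lit 186) (nat_lit 5) (nat_lit 463) (nat_lit 440) (nat_lit 297)))) (XT.nd (nat_lit 156) (nat_lit 760) (nat_lit 0) (XT.nd (nat_lit 78) (nat_lit 456) (nat_lit 0) (XT.lf (nat_lit 0) (nat_lit 41215332659) (nat_lit 380) (nat_lit 7285760227) (nat_lit 456) (nat_lit 6043358687) (nat_lit 180) (nat_lit 5) (nat_lit 185) (nat_lit 5) (nat_lit 186) (nat_lit 5) (nat_lit 464) (nat_lit 440) (nat_lit 296)) (XT.lf (nat_lit 0) (nat_lit 9484392311) (nat_lit 456) (nat_lit 17339506255)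 (nat_lit 76) (nat_lit 29335014623) (nat_lit 174) (nat_lit 5) (nat_lit 180) (nat_lit 5) (nat_lit 175) (nat_lit 5) (nat_lit 465) (nat_lit 440) (nat_lit 295))) (XT.nd (nat_lit 78) (nat_lit 380) (nat_lit 0) (XT.lf (nat_lit 0) (nat_lit 26324691816) (nat_lit 456) (nat_lit 21357467837) (nat_lit 76) (nat_lit 10150309304) (nat_lit 169) (nat_lit 5) (nat_lit 175) (nat_lit 5) (nat_lit 170) (nat_lit 5) (nat_lit 466) (nat_lit 440) (nat_lit 294)) (XT.lf (nat_lit 0) (nat_lit 34147825247) (nat_lit 380) (nat_lit 10635297387) (nat_lit 456) (nat_lit 14783296899) (nat_lit 164) (nat_lit 5) (nat_lit 169) (nat_lit 5) (nat_lit 170) (nat_lit 5) (nat_lit 467) (nat_lit 440) (nat_lit 293)))))) (XT.nd (nat_lit 468) (nat_lit 1748) (nat_lit 0) (XT.nd (nat_lit 234) (nat_lit 988) (nat_lit 0) (XT.nd (nat_lit 78) (nat_lit 684) (nat_lit 0) (XT.lf (nat_lit 0) (nat_lit 3527825152) (nat_lit 380) (nat_lit 29560342083) (nat_lit 76) (nat_lit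 28273961477) (nat_lit 159) (nat_lit 5) (nat_lit 164) (nat_lit 5) (nat_lit 160) (nat_lit 5) (nat_lit 468) (nat_lit 440) (nat_lit 292)) (XT.nd (nat_lit 78) (nat_lit 304) (nat_lit 0) (XT.lf (nat_lit 0) (nat_lit 23165042192) (nat_lit 456) (nat_lit 33798253854) (nat_lit 76) (nat_lit 6258448271) (nat_lit 154) (nat_lit 5) (nat_lit 160) (nat_lit 5) (nat_lit 155) (nat_lit 5) (nat_lit 469) (nat_lit 440) (nat_lit 291)) (XT.lf (nat_lit 0) (nat_lit 26994711991) (nat_lit 304) (nat_lit 17687305501) (nat_lit 380) (nat_lit 20465386714) (nat_lit 150) (nat_lit 5) (nat_lit 154) (nat_lit 5) (nat_lit 155) (nat_lit 5) (nat_lit 470) (nat_lit 440) (nat_lit 290)))) (XT.nd (nat_lit 78) (nat_lit 608) (nat_lit 0) (XT.lf (nat_lit 0) (nat_lit 923132216) (nat_lit 380) (nat_lit 42532797358) (nat_lit 76) (nat_lit 23688796598) (nat_lit 145) (nat_lit 5) (nat_lit 150) (nat_lit 5) (nat_lit 146) (nat_lit 5) (nat_lit 471) (nat_lit 440)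 (nat_lit 289)) (XT.nd (nat_lit 78) (nat_lit 304) (nat_lit 0) (XT.lf (nat_lit 0) (nat_lit 22120616075) (nat_lit 304) (nat_lit 1626220749) (nat_lit 380) (nat_lit 45465328499) (nat_lit 141) (nat_lit 5) (nat_lit 145) (nat_lit 5) (nat_lit 146) (nat_lit 5) (nat_lit 472) (nat_lit 440) (nat_lit 288)) (XT.lf (nat_lit 0) (nat_lit 19491167353) (nat_lit 304) (nat_lit 29254022861) (nat_lit 380) (nat_lit 22606782670) (nat_lit 137) (nat_lit 5) (nat_lit 141) (nat_lit 5) (nat_lit 142) (nat_lit 5) (nat_lit 473) (nat_lit 440) (nat_lit 287))))) (XT.nd (nat_lit 234) (nat_lit 912) (nat_lit 0) (XT.nd (nat_lit 78) (nat_lit 532) (nat_lit 0) (XT.lf (nat_lit 0) (nat_lit 2180031351) (nat_lit 304) (nat_lit 56625121221) (nat_lit 76) (nat_lit 14768839694) (nat_lit 133) (nat_lit 5) (nat_lit 137) (nat_lit 5) (nat_lit 134) (nat_lit 5) (nat_lit 474) (nat_lit 440) (nat_lit 286)) (XT.nd (nat_lit 78) (nat_lit 228) (nat_lit 0) (XT.lf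 (nat_lit 0) (nat_lit 14134932732) (nat_lit 304) (nat_lit 14575846850) (nat_lit 380) (nat_lit 47160454370) (nat_lit 129) (nat_lit 5) (nat_lit 133) (nat_lit 5) (nat_lit 134) (nat_lit 5) (nat_lit 475) (nat_lit 440) (nat_lit 285)) (XT.lf (nat_lit 0) (nat_lit 11254186013) (nat_lit 228) (nat_lit 46314615761) (nat_lit 304) (nat_lit 20684514153) (nat_lit 126) (nat_lit 5) (nat_lit 129) (nat_lit 5) (nat_lit 130) (nat_lit 5) (nat_lit 476) (nat_lit 440) (nat_lit 284)))) (XT.nd (nat_lit 156) (nat_lit 304) (nat_lit 0) (XT.nd (nat_lit 78) (nat_lit 228) (nat_lit 0) (XT.lf (nat_lit 0) (nat_lit 7848783907) (nat_lit 380) (nat_lit 72344659156) (nat_lit 76) (nat_lit 532835205) (nat_lit 121) (nat_lit 5) (nat_lit 126) (nat_lit 5) (nat_lit 122) (nat_lit 5) (nat_lit 477) (nat_lit 440) (nat_lit 283)) (XT.lf (nat_lit 0) (nat_lit 5040918784) (nat_lit 228) (nat_lit 33554158327) (nat_lit 304) (nat_lit 44685244432) (nat_lit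 118) (nat_lit 5) (nat_lit 121) (nat_lit 5) (nat_lit 122) (nat_lit 5) (nat_lit 478) (nat_lit 440) (nat_lit 282))) (XT.nd (nat_lit 78) (nat_lit 76) (nat_lit 0) (XT.lf (nat_lit 0) (nat_lit 1742652277) (nat_lit 228) (nat_lit 70050837658) (nat_lit 304) (nat_lit 14141133149) (nat_lit 115) (nat_lit 5) (nat_lit 118) (nat_lit 5) (nat_lit 119) (nat_lit 5) (nat_lit 479) (nat_lit 440) (nat_lit 281)) (XT.lf (nat_lit 0) (nat_lit 18730159752) (nat_lit 304) (nat_lit 1861256648) (nat_lit 76) (nat_lit 68090557102) (nat_lit 114) (nat_lit 5) (nat_lit 118) (nat_lit 5) (nat_lit 115) (nat_lit 5) (nat_lit 480) (nat_lit 440) (nat_lit 280))))))))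
noncomputable def xc108 : XT := (XT.nd (nat_lit 60528) (nat_lit 0) (nat_lit 2204) (XT.nd (nat_lit 59514) (nat_lit 0) (nat_lit 11704) (XT.nd (nat_lit 468) (nat_lit 836) (nat_lit 0) (XT.nd (nat_lit 234) (nat_lit 684) (nat_lit 0) (XT.nd (nat_lit 78) (nat_lit 456) (nat_lit 0) (XT.lf (nat_lit 0) (nat_lit 54091895918) (nat_lit 304) (nat_lit 5728113006) (nat_lit 76) (nat_lit 31708302235) (nat_lit 111) (nat_lit 5) (nat_lit 115) (nat_lit 5) (nat_lit 112) (nat_lit 5) (nat_lit 481) (nat_lit 440) (nat_lit 279)) (XT.nd (nat_lit 78) (nat_lit 228) (nat_lit 0) (XT.lf (nat_lit 0) (nat_lit 84810826641) (nat_lit 228) (nat_lit 7451297812) (nat_lit 304) (nat_lit 2223629289) (nat_lit 108) (nat_lit 5) (nat_lit 111) (nat_lit 5) (nat_lit 112) (nat_lit 5) (nat_lit 482) (nat_lit 440) (nat_lit 278)) (XT.lf (nat_lit 0) (nat_lit 35402660436) (nat_lit 228) (nat_lit 14321432161) (nat_lit 76) (nat_lit 47817026220) (nat_lit 105)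 (nat_lit 5) (nat_lit 108) (nat_lit 5) (nat_lit 106) (nat_lit 5) (nat_lit 483) (nat_lit 440) (nat_lit 277)))) (XT.nd (nat_lit 78) (nat_lit 456) (nat_lit 0) (XT.lf (nat_lit 0) (nat_lit 75880536421) (nat_lit 304) (nat_lit 19068881533) (nat_lit 76) (nat_lit 5768686098) (nat_lit 102) (nat_lit 5) (nat_lit 106) (nat_lit 5) (nat_lit 103) (nat_lit 5) (nat_lit 484) (nat_lit 440) (nat_lit 276)) (XT.nd (nat_lit 78) (nat_lit 228) (nat_lit 0) (XT.lf (nat_lit 0) (nat_lit 15477950408) (nat_lit 228) (nat_lit 24446015611) (nat_lit 76) (nat_lit 64082965286) (nat_lit 99) (nat_lit 5) (nat_lit 102) (nat_lit 5) (nat_lit 100) (nat_lit 5) (nat_lit 485) (nat_lit 440) (nat_lit 275)) (XT.lf (nat_lit 0) (nat_lit 58423382433) (nat_lit 304) (nat_lit 30288508902) (nat_lit 76) (nat_lit 18707096741) (nat_lit 96) (nat_lit 5) (nat_lit 100) (nat_lit 5) (nat_lit 97) (nat_lit 5) (nat_lit 486) (nat_lit 440) (nat_lit 274))))) (XT.nd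 (nat_lit 234) (nat_lit 228) (nat_lit 0) (XT.nd (nat_lit 78) (nat_lit 456) (nat_lit 0) (XT.lf (nat_lit 0) (nat_lit 74344742822) (nat_lit 152) (nat_lit 30541297784) (nat_lit 228) (nat_lit 6074508600) (nat_lit 94) (nat_lit 5) (nat_lit 96) (nat_lit 5) (nat_lit 97) (nat_lit 5) (nat_lit 487) (nat_lit 440) (nat_lit 273)) (XT.nd (nat_lit 78) (nat_lit 152) (nat_lit 0) (XT.lf (nat_lit 0) (nat_lit 39536252505) (nat_lit 304) (nat_lit 43764347325) (nat_lit 76) (nat_lit 31328209188) (nat_lit 90) (nat_lit 5) (nat_lit 94) (nat_lit 5) (nat_lit 91) (nat_lit 5) (nat_lit 488) (nat_lit 440) (nat_lit 272)) (XT.lf (nat_lit 0) (nat_lit 66944775103) (nat_lit 152) (nat_lit 21689034590) (nat_lit 228) (nat_lit 29804911309) (nat_lit 88) (nat_lit 5) (nat_lit 90) (nat_lit 5) (nat_lit 91) (nat_lit 5) (nat_lit 489) (nat_lit 440) (nat_lit 271)))) (XT.nd (nat_lit 58656) (nat_lit 0) (nat_lit 14364) (XT.lf (nat_lit 0) (nat_lit 18882572877)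 (nat_lit 228) (nat_lit 60103574858) (nat_lit 76) (nat_lit 43403410089) (nat_lit 85) (nat_lit 5) (nat_lit 88) (nat_lit 5) (nat_lit 86) (nat_lit 5) (nat_lit 490) (nat_lit 440) (nat_lit 270)) (XT.nd (nat_lit 78) (nat_lit 0) (nat_lit 76) (XT.lf (nat_lit 0) (nat_lit 5306180802) (nat_lit 1292) (nat_lit 4870973649) (nat_lit 1292) (nat_lit 4870973649) (nat_lit 274) (nat_lit 3) (nat_lit 291) (nat_lit 3) (nat_lit 291) (nat_lit 5) (nat_lit 441) (nat_lit 441) (nat_lit 318)) (XT.lf (nat_lit 0) (nat_lit 11179555962) (nat_lit 1216) (nat_lit 15749371404) (nat_lit 1292) (nat_lit 3910651203) (nat_lit 275) (nat_lit 5) (nat_lit 291) (nat_lit 5) (nat_lit 292) (nat_lit 5) (nat_lit 442) (nat_lit 441) (nat_lit 317)))))) (XT.nd (nat_lit 468) (nat_lit 2736) (nat_lit 0) (XT.nd (nat_lit 234) (nat_lit 0) (nat_lit 228) (XT.nd (nat_lit 78) (nat_lit 0) (nat_lit 76) (XT.lf (nat_lit 76) (nat_lit 9729679463) (nat_lit 0) (nat_lit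 2438113032) (nat_lit 1292) (nat_lit 19440495845) (nat_lit 276) (nat_lit 5) (nat_lit 275) (nat_lit 5) (nat_lit 292) (nat_lit 5) (nat_lit 443) (nat_lit 441) (nat_lit 316)) (XT.nd (nat_lit 78) (nat_lit 0) (nat_lit 76) (XT.lf (nat_lit 76) (nat_lit 4254525182) (nat_lit 0) (nat_lit 9372085827) (nat_lit 1292) (nat_lit 18776189161) (nat_lit 277) (nat_lit 5) (nat_lit 276) (nat_lit 5) (nat_lit 293) (nat_lit 5) (nat_lit 444) (nat_lit 441) (nat_lit 315)) (XT.lf (nat_lit 0) (nat_lit 15561781959) (nat_lit 1216) (nat_lit 1268315396) (nat_lit 1292) (nat_lit 16394839487) (nat_lit 277) (nat_lit 5) (nat_lit 293) (nat_lit 5) (nat_lit 294) (nat_lit 5) (nat_lit 445) (nat_lit 441) (nat_lit 314)))) (XT.nd (nat_lit 78) (nat_lit 0) (nat_lit 76) (XT.lf (nat_lit 0) (nat_lit 18035854172) (nat_lit 1216) (nat_lit 6777155212) (nat_lit 1292) (nat_lit 9261908201) (nat_lit 278) (nat_lit 5) (nat_lit 294) (nat_lit 5) (nat_lit 295)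 (nat_lit 5) (nat_lit 446) (nat_lit 441) (nat_lit 313)) (XT.nd (nat_lit 78) (nat_lit 0) (nat_lit 0) (XT.lf (nat_lit 0) (nat_lit 21043138287) (nat_lit 1216) (nat_lit 12352198873) (nat_lit 1292) (nat_lit 1559776403) (nat_lit 279) (nat_lit 5) (nat_lit 295) (nat_lit 5) (nat_lit 296) (nat_lit 5) (nat_lit 447) (nat_lit 441) (nat_lit 312)) (XT.lf (nat_lit 76) (nat_lit 17808331362) (nat_lit 0) (nat_lit 6878550111) (nat_lit 1292) (nat_lit 11177856399) (nat_lit 280) (nat_lit 5) (nat_lit 279) (nat_lit 5) (nat_lit 296) (nat_lit 5) (nat_lit 448) (nat_lit 441) (nat_lit 311))))) (XT.nd (nat_lit 234) (nat_lit 1976) (nat_lit 0) (XT.nd (nat_lit 78) (nat_lit 1140) (nat_lit 0) (XT.lf (nat_lit 76) (nat_lit 12964709712) (nat_lit 0) (nat_lit 15996929123) (nat_lit 1292) (nat_lit 7844741065) (nat_lit 281) (nat_lit 5) (nat_lit 280) (nat_lit 5) (nat_lit 297) (nat_lit 5) (nat_lit 449) (nat_lit 441) (nat_lit 310)) (XT.nd (nat_lit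 78) (nat_lit 1216) (nat_lit 0) (XT.lf (nat_lit 76) (nat_lit 8092633185) (nat_lit 0) (nat_lit 25801108150) (nat_lit 1292) (nat_lit 3888055726) (nat_lit 282) (nat_lit 5) (nat_lit 281) (nat_lit 5) (nat_lit 298) (nat_lit 5) (nat_lit 450) (nat_lit 441) (nat_lit 309)) (XT.lf (nat_lit 0) (nat_lit 720378229) (nat_lit 1292) (nat_lit 35602050318) (nat_lit 76) (nat_lit 2469707425) (nat_lit 265) (nat_lit 5) (nat_lit 282) (nat_lit 5) (nat_lit 266) (nat_lit 5) (nat_lit 451) (nat_lit 441) (nat_lit 308)))) (XT.nd (nat_lit 156) (nat_lit 1216) (nat_lit 0) (XT.nd (nat_lit 78) (nat_lit 760) (nat_lit 0) (XT.lf (nat_lit 0) (nat_lit 6043531980) (nat_lit 1292) (nat_lit 1817337242) (nat_lit 76) (nat_lit 31974027570) (nat_lit 265) (nat_lit 5) (nat_lit 282) (nat_lit 5) (nat_lit 266) (nat_lit 5) (nat_lit 452) (nat_lit 441) (nat_lit 307)) (XT.lf (nat_lit 0) (nat_lit 12172883550) (nat_lit 836) (nat_lit 6812990330) (nat_lit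 76) (nat_lit 21927721615) (nat_lit 255) (nat_lit 5) (nat_lit 266) (nat_lit 5) (nat_lit 256) (nat_lit 5) (nat_lit 453) (nat_lit 441) (nat_lit 306))) (XT.nd (nat_lit 78) (nat_lit 608) (nat_lit 0) (XT.lf (nat_lit 0) (nat_lit 19102493967) (nat_lit 684) (nat_lit 11829079973) (nat_lit 76) (nat_lit 11099842453) (nat_lit 247) (nat_lit 5) (nat_lit 256) (nat_lit 5) (nat_lit 248) (nat_lit 5) (nat_lit 454) (nat_lit 441) (nat_lit 305)) (XT.lf (nat_lit 0) (nat_lit 26324783752) (nat_lit 608) (nat_lit 564826087) (nat_lit 684) (nat_lit 16300188702) (nat_lit 239) (nat_lit 5) (nat_lit 247) (nat_lit 5) (nat_lit 248) (nat_lit 5) (nat_lit 455) (nat_lit 441) (nat_lit 304))))))) (XT.nd (nat_lit 1014) (nat_lit 3800) (nat_lit 0) (XT.nd (nat_lit 468) (nat_lit 2584) (nat_lit 0) (XT.nd (nat_lit 234) (nat_lit 1444) (nat_lit 0) (XT.nd (nat_lit 78) (nat_lit 1140) (nat_lit 0) (XT.lf (nat_lit 0) (nat_lit 22360784544) (nat_lit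 532) (nat_lit 13339978865) (nat_lit 608) (nat_lit 8686296835) (nat_lit 232) (nat_lit 5) (nat_lit 239) (nat_lit 5) (nat_lit 240) (nat_lit 5) (nat_lit 456) (nat_lit 441) (nat_lit 303)) (XT.nd (nat_lit 78) (nat_lit 608) (nat_lit 0) (XT.lf (nat_lit 0) (nat_lit 18430603850) (nat_lit 532) (nat_lit 27054506401) (nat_lit 608) (nat_lit 143096575) (nat_lit 225) (nat_lit 5) (nat_lit 232) (nat_lit 5) (nat_lit 233) (nat_lit 5) (nat_lit 457) (nat_lit 441) (nat_lit 302)) (XT.lf (nat_lit 0) (nat_lit 9205441026) (nat_lit 608) (nat_lit 32462368043) (nat_lit 76) (nat_lit 5244544004) (nat_lit 217) (nat_lit 5) (nat_lit 225) (nat_lit 5) (nat_lit 218) (nat_lit 5) (nat_lit 458) (nat_lit 441) (nat_lit 301)))) (XT.nd (nat_lit 78) (nat_lit 912) (nat_lit 0) (XT.lf (nat_lit 0) (nat_lit 10417685758) (nat_lit 532) (nat_lit 9252863534) (nat_lit 608) (nat_lit 28570552498) (nat_lit 210) (nat_lit 5) (nat_lit 217) (nat_lit 5) (nat_lit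 218) (nat_lit 5) (nat_lit 459) (nat_lit 441) (nat_lit 300)) (XT.nd (nat_lit 78) (nat_lit 456) (nat_lit 0) (XT.lf (nat_lit 0) (nat_lit 6372362239) (nat_lit 456) (nat_lit 24919773248) (nat_lit 532) (nat_lit 18325156504) (nat_lit 204) (nat_lit 5) (nat_lit 210) (nat_lit 5) (nat_lit 211) (nat_lit 5) (nat_lit 460) (nat_lit 441) (nat_lit 299)) (XT.lf (nat_lit 0) (nat_lit 2376043676) (nat_lit 456) (nat_lit 41711109593) (nat_lit 532) (nat_lit 6957368554) (nat_lit 198) (nat_lit 5) (nat_lit 204) (nat_lit 5) (nat_lit 205) (nat_lit 5) (nat_lit 461) (nat_lit 441) (nat_lit 298))))) (XT.nd (nat_lit 234) (nat_lit 1596) (nat_lit 0) (XT.nd (nat_lit 78) (nat_lit 912) (nat_lit 0) (XT.lf (nat_lit 0) (nat_lit 5579240617) (nat_lit 532) (nat_lit 1656013398) (nat_lit 76) (nat_lit 45285496398) (nat_lit 197) (nat_lit 5) (nat_lit 204) (nat_lit 5) (nat_lit 198) (nat_lit 5) (nat_lit 462) (nat_lit 441) (nat_lit 297)) (XT.nd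 (nat_lit 78) (nat_lit 456) (nat_lit 0) (XT.lf (nat_lit 0) (nat_lit 19347509336) (nat_lit 532) (nat_lit 5757695493) (nat_lit 76) (nat_lit 28941058120) (nat_lit 191) (nat_lit 5) (nat_lit 198) (nat_lit 5) (nat_lit 192) (nat_lit 5) (nat_lit 463) (nat_lit 441) (nat_lit 296)) (XT.lf (nat_lit 0) (nat_lit 34444320383) (nat_lit 532) (nat_lit 9807099553) (nat_lit 76) (nat_lit 11377427889) (nat_lit 185) (nat_lit 5) (nat_lit 192) (nat_lit 5) (nat_lit 186) (nat_lit 5) (nat_lit 464) (nat_lit 441) (nat_lit 295)))) (XT.nd (nat_lit 156) (nat_lit 760) (nat_lit 0) (XT.nd (nat_lit 78) (nat_lit 456) (nat_lit 0) (XT.lf (nat_lit 0) (nat_lit 43400651921) (nat_lit 380) (nat_lit 7622644078) (nat_lit 456) (nat_lit 6245446774) (nat_lit 180) (nat_lit 5) (nat_lit 185) (nat_lit 5) (nat_lit 186) (nat_lit 5) (nat_lit 465) (nat_lit 441) (nat_lit 294)) (XT.lf (nat_lit 0) (nat_lit 10053519138) (nat_lit 456) (nat_lit 18081003250)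 (nat_lit 76) (nat_lit 30829473595) (nat_lit 174) (nat_lit 5) (nat_lit 180) (nat_lit 5) (nat_lit 175) (nat_lit 5) (nat_lit 466) (nat_lit 441) (nat_lit 293))) (XT.nd (nat_lit 78) (nat_lit 380) (nat_lit 0) (XT.lf (nat_lit 0) (nat_lit 27732777301) (nat_lit 456) (nat_lit 22300989510) (nat_lit 76) (nat_lit 10687555163) (nat_lit 169) (nat_lit 5) (nat_lit 175) (nat_lit 5) (nat_lit 170) (nat_lit 5) (nat_lit 467) (nat_lit 441) (nat_lit 292)) (XT.lf (nat_lit 0) (nat_lit 35976003711) (nat_lit 380) (nat_lit 11134913178) (nat_lit 456) (nat_lit 15431150283) (nat_lit 164) (nat_lit 5) (nat_lit 169) (nat_lit 5) (nat_lit 170) (nat_lit 5) (nat_lit 468) (nat_lit 441) (nat_lit 291)))))) (XT.nd (nat_lit 468) (nat_lit 1748) (nat_lit 0) (XT.nd (nat_lit 234) (nat_lit 988) (nat_lit 0) (XT.nd (nat_lit 78) (nat_lit 684) (nat_lit 0) (XT.lf (nat_lit 0) (nat_lit 3790941232) (nat_lit 380) (nat_lit 30916998679) (nat_lit 76) (nat_lit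 29719680367) (nat_lit 159) (nat_lit 5) (nat_lit 164) (nat_lit 5) (nat_lit 160) (nat_lit 5) (nat_lit 469) (nat_lit 441) (nat_lit 290)) (XT.nd (nat_lit 78) (nat_lit 304) (nat_lit 0) (XT.lf (nat_lit 0) (nat_lit 24407350826) (nat_lit 456) (nat_lit 35368088772) (nat_lit 76) (nat_lit 6604857739) (nat_lit 154) (nat_lit 5) (nat_lit 160) (nat_lit 5) (nat_lit 155) (nat_lit 5) (nat_lit 470) (nat_lit 441) (nat_lit 289)) (XT.lf (nat_lit 0) (nat_lit 28461083360) (nat_lit 304) (nat_lit 18536210013) (nat_lit 380) (nat_lit 21405033888) (nat_lit 150) (nat_lit 5) (nat_lit 154) (nat_lit 5) (nat_lit 155) (nat_lit 5) (nat_lit 471) (nat_lit 441) (nat_lit 288)))) (XT.nd (nat_lit 78) (nat_lit 608) (nat_lit 0) (XT.lf (nat_lit 0) (nat_lit 1048822447) (nat_lit 380) (nat_lit 44542505007) (nat_lit 76) (nat_lit 24908238010) (nat_lit 145) (nat_lit 5) (nat_lit 150) (nat_lit 5) (nat_lit 146) (nat_lit 5) (nat_lit 472) (nat_lit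 441) (nat_lit 287)) (XT.nd (nat_lit 78) (nat_lit 304) (nat_lit 0) (XT.lf (nat_lit 0) (nat_lit 23340227258) (nat_lit 304) (nat_lit 1670789516) (nat_lit 380) (nat_lit 47659441189) (nat_lit 141) (nat_lit 5) (nat_lit 145) (nat_lit 5) (nat_lit 146) (nat_lit 5) (nat_lit 473) (nat_lit 441) (nat_lit 286)) (XT.lf (nat_lit 0) (nat_lit 20577956526) (nat_lit 304) (nat_lit 30679087553) (nat_lit 380) (nat_lit 23660279636) (nat_lit 137) (nat_lit 5) (nat_lit 141) (nat_lit 5) (nat_lit 142) (nat_lit 5) (nat_lit 474) (nat_lit 441) (nat_lit 285))))) (XT.nd (nat_lit 234) (nat_lit 912) (nat_lit 0) (XT.nd (nat_lit 78) (nat_lit 532) (nat_lit 0) (XT.lf (nat_lit 0) (nat_lit 2362211906) (nat_lit 304) (nat_lit 59344065946) (nat_lit 76) (nat_lit 15544209426) (nat_lit 133) (nat_lit 5) (nat_lit 137) (nat_lit 5) (nat_lit 134) (nat_lit 5) (nat_lit 475) (nat_lit 441) (nat_lit 284)) (XT.nd (nat_lit 78) (nat_lit 228) (nat_lit 0)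 (XT.lf (nat_lit 0) (nat_lit 14950771322) (nat_lit 304) (nat_lit 15266290171) (nat_lit 380) (nat_lit 49445603077) (nat_lit 129) (nat_lit 5) (nat_lit 133) (nat_lit 5) (nat_lit 134) (nat_lit 5) (nat_lit 476) (nat_lit 441) (nat_lit 283)) (XT.lf (nat_lit 0) (nat_lit 11924572094) (nat_lit 228) (nat_lit 48591430126) (nat_lit 304) (nat_lit 21647908320) (nat_lit 126) (nat_lit 5) (nat_lit 129) (nat_lit 5) (nat_lit 130) (nat_lit 5) (nat_lit 477) (nat_lit 441) (nat_lit 282)))) (XT.nd (nat_lit 156) (nat_lit 304) (nat_lit 0) (XT.nd (nat_lit 78) (nat_lit 228) (nat_lit 0) (XT.lf (nat_lit 0) (nat_lit 8308756497) (nat_lit 380) (nat_lit 75854301629) (nat_lit 76) (nat_lit 597500311) (nat_lit 121) (nat_lit 5) (nat_lit 126) (nat_lit 5) (nat_lit 122) (nat_lit 5) (nat_lit 478) (nat_lit 441) (nat_lit 281)) (XT.lf (nat_lit 0) (nat_lit 5397471148) (nat_lit 228) (nat_lit 35192681916) (nat_lit 304) (nat_lit 46852217519) (nat_lit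 118) (nat_lit 5) (nat_lit 121) (nat_lit 5) (nat_lit 122) (nat_lit 5) (nat_lit 479) (nat_lit 441) (nat_lit 280))) (XT.nd (nat_lit 78) (nat_lit 76) (nat_lit 0) (XT.lf (nat_lit 0) (nat_lit 1932840445) (nat_lit 228) (nat_lit 73513884869) (nat_lit 304) (nat_lit 14782715075) (nat_lit 115) (nat_lit 5) (nat_lit 118) (nat_lit 5) (nat_lit 119) (nat_lit 5) (nat_lit 480) (nat_lit 441) (nat_lit 279)) (XT.lf (nat_lit 0) (nat_lit 19727807819) (nat_lit 304) (nat_lit 1854948033) (nat_lit 76) (nat_lit 71531475630) (nat_lit 114) (nat_lit 5) (nat_lit 118) (nat_lit 5) (nat_lit 115) (nat_lit 5) (nat_lit 481) (nat_lit 441) (nat_lit 278))))))))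
noncomputable def xc109 : XT := (XT.nd (nat_lit 60606) (nat_lit 0) (nat_lit 1748) (XT.nd (nat_lit 59592) (nat_lit 0) (nat_lit 10944) (XT.nd (nat_lit 468) (nat_lit 608) (nat_lit 0) (XT.nd (nat_lit 234) (nat_lit 684) (nat_lit 0) (XT.nd (nat_lit 78) (nat_lit 456) (nat_lit 0) (XT.lf (nat_lit 0) (nat_lit 56856006388) (nat_lit 304) (nat_lit 5916573983) (nat_lit 76) (nat_lit 33330354692) (nat_lit 111) (nat_lit 5) (nat_lit 115) (nat_lit 5) (nat_lit 112) (nat_lit 5) (nat_lit 482) (nat_lit 441) (nat_lit 277)) (XT.nd (nat_lit 78) (nat_lit 228) (nat_lit 0) (XT.lf (nat_lit 0) (nat_lit 89146505083) (nat_lit 228) (nat_lit 7786321704) (nat_lit 304) (nat_lit 2275480870) (nat_lit 108) (nat_lit 5) (nat_lit 111) (nat_lit 5) (nat_lit 112) (nat_lit 5) (nat_lit 483) (nat_lit 441) (nat_lit 276)) (XT.lf (nat_lit 0) (nat_lit 37229452628) (nat_lit 228) (nat_lit 14942627119) (nat_lit 76) (nat_lit 50244389789) (nat_lit 105)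 (nat_lit 5) (nat_lit 108) (nat_lit 5) (nat_lit 106) (nat_lit 5) (nat_lit 484) (nat_lit 441) (nat_lit 275)))) (XT.nd (nat_lit 78) (nat_lit 456) (nat_lit 0) (XT.lf (nat_lit 0) (nat_lit 79729768873) (nat_lit 304) (nat_lit 19928876632) (nat_lit 76) (nat_lit 6093702394) (nat_lit 102) (nat_lit 5) (nat_lit 106) (nat_lit 5) (nat_lit 103) (nat_lit 5) (nat_lit 485) (nat_lit 441) (nat_lit 274)) (XT.nd (nat_lit 78) (nat_lit 228) (nat_lit 0) (XT.lf (nat_lit 0) (nat_lit 16305831304) (nat_lit 228) (nat_lit 25576466939) (nat_lit 76) (nat_lit 67323355330) (nat_lit 99) (nat_lit 5) (nat_lit 102) (nat_lit 5) (nat_lit 100) (nat_lit 5) (nat_lit 486) (nat_lit 441) (nat_lit 273)) (XT.lf (nat_lit 0) (nat_lit 61397177048) (nat_lit 304) (nat_lit 31712500213) (nat_lit 76) (nat_lit 19678676887) (nat_lit 96) (nat_lit 5) (nat_lit 100) (nat_lit 5) (nat_lit 97) (nat_lit 5) (nat_lit 487) (nat_lit 441) (nat_lit 272))))) (XT.nd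 (nat_lit 58890) (nat_lit 0) (nat_lit 14136) (XT.nd (nat_lit 78) (nat_lit 456) (nat_lit 0) (XT.lf (nat_lit 0) (nat_lit 78149821821) (nat_lit 152) (nat_lit 32031484722) (nat_lit 228) (nat_lit 6325736856) (nat_lit 94) (nat_lit 5) (nat_lit 96) (nat_lit 5) (nat_lit 97) (nat_lit 5) (nat_lit 488) (nat_lit 441) (nat_lit 271)) (XT.nd (nat_lit 78) (nat_lit 152) (nat_lit 0) (XT.lf (nat_lit 0) (nat_lit 41563267188) (nat_lit 304) (nat_lit 45865092678) (nat_lit 76) (nat_lit 32930379519) (nat_lit 90) (nat_lit 5) (nat_lit 94) (nat_lit 5) (nat_lit 91) (nat_lit 5) (nat_lit 489) (nat_lit 441) (nat_lit 270)) (XT.lf (nat_lit 0) (nat_lit 70376978504) (nat_lit 152) (nat_lit 22737149889) (nat_lit 228) (nat_lit 31245065982) (nat_lit 88) (nat_lit 5) (nat_lit 90) (nat_lit 5) (nat_lit 91) (nat_lit 5) (nat_lit 490) (nat_lit 441) (nat_lit 269)))) (XT.nd (nat_lit 78) (nat_lit 0) (nat_lit 76) (XT.lf (nat_lit 0) (nat_lit 5687755515)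 (nat_lit 1292) (nat_lit 5054631985) (nat_lit 1292) (nat_lit 5054631985) (nat_lit 274) (nat_lit 3) (nat_lit 291) (nat_lit 3) (nat_lit 291) (nat_lit 5) (nat_lit 442) (nat_lit 442) (nat_lit 316)) (XT.nd (nat_lit 78) (nat_lit 0) (nat_lit 0) (XT.lf (nat_lit 0) (nat_lit 11960089442) (nat_lit 1216) (nat_lit 16412742800) (nat_lit 1292) (nat_lit 4002027064) (nat_lit 275) (nat_lit 5) (nat_lit 291) (nat_lit 5) (nat_lit 292) (nat_lit 5) (nat_lit 443) (nat_lit 442) (nat_lit 315)) (XT.lf (nat_lit 76) (nat_lit 10336703390) (nat_lit 0) (nat_lit 2651642844) (nat_lit 1292) (nat_lit 20193942530) (nat_lit 276) (nat_lit 5) (nat_lit 275) (nat_lit 5) (nat_lit 292) (nat_lit 5) (nat_lit 444) (nat_lit 442) (nat_lit 314)))))) (XT.nd (nat_lit 468) (nat_lit 3344) (nat_lit 0) (XT.nd (nat_lit 234) (nat_lit 0) (nat_lit 228) (XT.nd (nat_lit 78) (nat_lit 0) (nat_lit 76) (XT.lf (nat_lit 76) (nat_lit 4591421780) (nat_lit 0) (nat_lit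 9918935635) (nat_lit 1292) (nat_lit 19506463556) (nat_lit 277) (nat_lit 5) (nat_lit 276) (nat_lit 5) (nat_lit 293) (nat_lit 5) (nat_lit 445) (nat_lit 442) (nat_lit 313)) (XT.nd (nat_lit 78) (nat_lit 0) (nat_lit 76) (XT.lf (nat_lit 0) (nat_lit 16531931735) (nat_lit 1216) (nat_lit 1206929556) (nat_lit 1292) (nat_lit 17141516066) (nat_lit 277) (nat_lit 5) (nat_lit 293) (nat_lit 5) (nat_lit 294) (nat_lit 5) (nat_lit 446) (nat_lit 442) (nat_lit 312)) (XT.lf (nat_lit 0) (nat_lit 19121122883) (nat_lit 1216) (nat_lit 6988619771) (nat_lit 1292) (nat_lit 9663374142) (nat_lit 278) (nat_lit 5) (nat_lit 294) (nat_lit 5) (nat_lit 295) (nat_lit 5) (nat_lit 447) (nat_lit 442) (nat_lit 311)))) (XT.nd (nat_lit 78) (nat_lit 0) (nat_lit 0) (XT.lf (nat_lit 0) (nat_lit 22270722076) (nat_lit 1216) (nat_lit 12840247438) (nat_lit 1292) (nat_lit 1586596552) (nat_lit 279) (nat_lit 5) (nat_lit 295) (nat_lit 5) (nat_lit 296)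 (nat_lit 5) (nat_lit 448) (nat_lit 442) (nat_lit 310)) (XT.nd (nat_lit 78) (nat_lit 0) (nat_lit 76) (XT.lf (nat_lit 76) (nat_lit 18824595459) (nat_lit 0) (nat_lit 7264913026) (nat_lit 1292) (nat_lit 11563379347) (nat_lit 280) (nat_lit 5) (nat_lit 279) (nat_lit 5) (nat_lit 296) (nat_lit 5) (nat_lit 449) (nat_lit 442) (nat_lit 309)) (XT.lf (nat_lit 76) (nat_lit 13740522673) (nat_lit 0) (nat_lit 16830305430) (nat_lit 1292) (nat_lit 8071000956) (nat_lit 281) (nat_lit 5) (nat_lit 280) (nat_lit 5) (nat_lit 297) (nat_lit 5) (nat_lit 450) (nat_lit 442) (nat_lit 308))))) (XT.nd (nat_lit 234) (nat_lit 2508) (nat_lit 0) (XT.nd (nat_lit 78) (nat_lit 1216) (nat_lit 0) (XT.lf (nat_lit 76) (nat_lit 8626228650) (nat_lit 0) (nat_lit 27116568018) (nat_lit 1292) (nat_lit 3923424325) (nat_lit 282) (nat_lit 5) (nat_lit 281) (nat_lit 5) (nat_lit 298) (nat_lit 5) (nat_lit 451) (nat_lit 442) (nat_lit 307)) (XT.nd (nat_lit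 78) (nat_lit 0) (nat_lit 0) (XT.lf (nat_lit 0) (nat_lit 905930208) (nat_lit 1292) (nat_lit 37249108127) (nat_lit 76) (nat_lit 2572186199) (nat_lit 265) (nat_lit 5) (nat_lit 282) (nat_lit 5) (nat_lit 266) (nat_lit 5) (nat_lit 452) (nat_lit 442) (nat_lit 306)) (XT.lf (nat_lit 0) (nat_lit 6488121024) (nat_lit 1292) (nat_lit 1781494859) (nat_lit 76) (nat_lit 33552722665) (nat_lit 265) (nat_lit 5) (nat_lit 282) (nat_lit 5) (nat_lit 266) (nat_lit 5) (nat_lit 453) (nat_lit 442) (nat_lit 305)))) (XT.nd (nat_lit 156) (nat_lit 1140) (nat_lit 0) (XT.nd (nat_lit 78) (nat_lit 608) (nat_lit 0) (XT.lf (nat_lit 0) (nat_lit 12918209673) (nat_lit 836) (nat_lit 7026296983) (nat_lit 76) (nat_lit 23010638908) (nat_lit 255) (nat_lit 5) (nat_lit 266) (nat_lit 5) (nat_lit 256) (nat_lit 5) (nat_lit 454) (nat_lit 442) (nat_lit 304)) (XT.lf (nat_lit 0) (nat_lit 20188907231) (nat_lit 684) (nat_lit 12292798918) (nat_lit 76)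 (nat_lit 11647314553) (nat_lit 247) (nat_lit 5) (nat_lit 256) (nat_lit 5) (nat_lit 248) (nat_lit 5) (nat_lit 455) (nat_lit 442) (nat_lit 303))) (XT.nd (nat_lit 78) (nat_lit 532) (nat_lit 0) (XT.lf (nat_lit 0) (nat_lit 27765096493) (nat_lit 608) (nat_lit 595223237) (nat_lit 684) (nat_lit 16985155328) (nat_lit 239) (nat_lit 5) (nat_lit 247) (nat_lit 5) (nat_lit 248) (nat_lit 5) (nat_lit 456) (nat_lit 442) (nat_lit 302)) (XT.lf (nat_lit 0) (nat_lit 23603065010) (nat_lit 532) (nat_lit 14004129591) (nat_lit 608) (nat_lit 8995551599) (nat_lit 232) (nat_lit 5) (nat_lit 239) (nat_lit 5) (nat_lit 240) (nat_lit 5) (nat_lit 457) (nat_lit 442) (nat_lit 301))))))) (XT.nd (nat_lit 1014) (nat_lit 3648) (nat_lit 0) (XT.nd (nat_lit 468) (nat_lit 2888) (nat_lit 0) (XT.nd (nat_lit 234) (nat_lit 988) (nat_lit 0) (XT.nd (nat_lit 78) (nat_lit 1140) (nat_lit 0) (XT.lf (nat_lit 0) (nat_lit 19476349277) (nat_lit 532)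 (nat_lit 28399848997) (nat_lit 608) (nat_lit 29889857) (nat_lit 225) (nat_lit 5) (nat_lit 232) (nat_lit 5) (nat_lit 233) (nat_lit 5) (nat_lit 458) (nat_lit 442) (nat_lit 300)) (XT.nd (nat_lit 78) (nat_lit 532) (nat_lit 0) (XT.lf (nat_lit 0) (nat_lit 9779378431) (nat_lit 608) (nat_lit 33959188459) (nat_lit 76) (nat_lit 5515971627) (nat_lit 217) (nat_lit 5) (nat_lit 225) (nat_lit 5) (nat_lit 218) (nat_lit 5) (nat_lit 459) (nat_lit 442) (nat_lit 299)) (XT.lf (nat_lit 0) (nat_lit 11061247725) (nat_lit 532) (nat_lit 9702261002) (nat_lit 608) (nat_lit 29886344005) (nat_lit 210) (nat_lit 5) (nat_lit 217) (nat_lit 5) (nat_lit 218) (nat_lit 5) (nat_lit 460) (nat_lit 442) (nat_lit 298)))) (XT.nd (nat_lit 78) (nat_lit 532) (nat_lit 0) (XT.lf (nat_lit 0) (nat_lit 6813227259) (nat_lit 456) (nat_lit 26149032302) (nat_lit 532) (nat_lit 19132711331) (nat_lit 204) (nat_lit 5) (nat_lit 210) (nat_lit 5) (nat_lit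 211) (nat_lit 5) (nat_lit 461) (nat_lit 442) (nat_lit 297)) (XT.nd (nat_lit 78) (nat_lit 76) (nat_lit 0) (XT.lf (nat_lit 0) (nat_lit 2616526760) (nat_lit 456) (nat_lit 43776799667) (nat_lit 532) (nat_lit 7200347804) (nat_lit 198) (nat_lit 5) (nat_lit 204) (nat_lit 5) (nat_lit 205) (nat_lit 5) (nat_lit 462) (nat_lit 442) (nat_lit 296)) (XT.lf (nat_lit 0) (nat_lit 5956147802) (nat_lit 532) (nat_lit 1620960426) (nat_lit 76) (nat_lit 47566723581) (nat_lit 197) (nat_lit 5) (nat_lit 204) (nat_lit 5) (nat_lit 198) (nat_lit 5) (nat_lit 463) (nat_lit 442) (nat_lit 295))))) (XT.nd (nat_lit 234) (nat_lit 1596) (nat_lit 0) (XT.nd (nat_lit 78) (nat_lit 836) (nat_lit 0) (XT.lf (nat_lit 0) (nat_lit 20409459465) (nat_lit 532) (nat_lit 5928449662) (nat_lit 76) (nat_lit 30407812807) (nat_lit 191) (nat_lit 5) (nat_lit 198) (nat_lit 5) (nat_lit 192) (nat_lit 5) (nat_lit 464) (nat_lit 442) (nat_lit 294)) (XT.nd (nat_lit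 78) (nat_lit 380) (nat_lit 0) (XT.lf (nat_lit 0) (nat_lit 36257918490) (nat_lit 532) (nat_lit 10181147713) (nat_lit 76) (nat_lit 11968466432) (nat_lit 185) (nat_lit 5) (nat_lit 192) (nat_lit 5) (nat_lit 186) (nat_lit 5) (nat_lit 465) (nat_lit 442) (nat_lit 293)) (XT.lf (nat_lit 0) (nat_lit 45683657422) (nat_lit 380) (nat_lit 7978919901) (nat_lit 456) (nat_lit 6466943741) (nat_lit 180) (nat_lit 5) (nat_lit 185) (nat_lit 5) (nat_lit 186) (nat_lit 5) (nat_lit 466) (nat_lit 442) (nat_lit 292)))) (XT.nd (nat_lit 156) (nat_lit 760) (nat_lit 0) (XT.nd (nat_lit 78) (nat_lit 380) (nat_lit 0) (XT.lf (nat_lit 0) (nat_lit 10642278734) (nat_lit 456) (nat_lit 18871240879) (nat_lit 76) (nat_lit 32396079466) (nat_lit 174) (nat_lit 5) (nat_lit 180) (nat_lit 5) (nat_lit 175) (nat_lit 5) (nat_lit 467) (nat_lit 442) (nat_lit 291)) (XT.lf (nat_lit 0) (nat_lit 29202727635) (nat_lit 456) (nat_lit 23303248311) (nat_lit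 76) (nat_lit 11248899265) (nat_lit 169) (nat_lit 5) (nat_lit 175) (nat_lit 5) (nat_lit 170) (nat_lit 5) (nat_lit 468) (nat_lit 442) (nat_lit 290))) (XT.nd (nat_lit 78) (nat_lit 380) (nat_lit 0) (XT.lf (nat_lit 0) (nat_lit 37884361449) (nat_lit 380) (nat_lit 11662498675) (nat_lit 456) (nat_lit 16119885611) (nat_lit 164) (nat_lit 5) (nat_lit 169) (nat_lit 5) (nat_lit 170) (nat_lit 5) (nat_lit 469) (nat_lit 442) (nat_lit 289)) (XT.lf (nat_lit 0) (nat_lit 4059150264) (nat_lit 380) (nat_lit 32352771055) (nat_lit 76) (nat_lit 31234708210) (nat_lit 159) (nat_lit 5) (nat_lit 164) (nat_lit 5) (nat_lit 160) (nat_lit 5) (nat_lit 470) (nat_lit 442) (nat_lit 288)))))) (XT.nd (nat_lit 468) (nat_lit 1672) (nat_lit 0) (XT.nd (nat_lit 234) (nat_lit 912) (nat_lit 0) (XT.nd (nat_lit 78) (nat_lit 684) (nat_lit 0) (XT.lf (nat_lit 0) (nat_lit 25703960113) (nat_lit 456) (nat_lit 37027579129) (nat_lit 76) (nat_lit 6965474373)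 (nat_lit 154) (nat_lit 5) (nat_lit 160) (nat_lit 5) (nat_lit 155) (nat_lit 5) (nat_lit 471) (nat_lit 442) (nat_lit 287)) (XT.nd (nat_lit 78) (nat_lit 380) (nat_lit 0) (XT.lf (nat_lit 0) (nat_lit 29989929610) (nat_lit 304) (nat_lit 19430856557) (nat_lit 380) (nat_lit 22399437816) (nat_lit 150) (nat_lit 5) (nat_lit 154) (nat_lit 5) (nat_lit 155) (nat_lit 5) (nat_lit 472) (nat_lit 442) (nat_lit 286)) (XT.lf (nat_lit 0) (nat_lit 1173402908) (nat_lit 380) (nat_lit 46663569288) (nat_lit 76) (nat_lit 26185397377) (nat_lit 145) (nat_lit 5) (nat_lit 150) (nat_lit 5) (nat_lit 146) (nat_lit 5) (nat_lit 473) (nat_lit 442) (nat_lit 285)))) (XT.nd (nat_lit 78) (nat_lit 608) (nat_lit 0) (XT.lf (nat_lit 0) (nat_lit 24610259374) (nat_lit 304) (nat_lit 1721002669) (nat_lit 380) (nat_lit 49970618477) (nat_lit 141) (nat_lit 5) (nat_lit 145) (nat_lit 5) (nat_lit 146) (nat_lit 5) (nat_lit 474) (nat_lit 442) (nat_lit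 284)) (XT.nd (nat_lit 78) (nat_lit 304) (nat_lit 0) (XT.lf (nat_lit 0) (nat_lit 21708651002) (nat_lit 304) (nat_lit 32178904559) (nat_lit 380) (nat_lit 24773595506) (nat_lit 137) (nat_lit 5) (nat_lit 141) (nat_lit 5) (nat_lit 142) (nat_lit 5) (nat_lit 475) (nat_lit 442) (nat_lit 283)) (XT.lf (nat_lit 0) (nat_lit 2546698001) (nat_lit 304) (nat_lit 62209399551) (nat_lit 76) (nat_lit 16354914453) (nat_lit 133) (nat_lit 5) (nat_lit 137) (nat_lit 5) (nat_lit 134) (nat_lit 5) (nat_lit 476) (nat_lit 442) (nat_lit 282))))) (XT.nd (nat_lit 234) (nat_lit 760) (nat_lit 0) (XT.nd (nat_lit 78) (nat_lit 608) (nat_lit 0) (XT.lf (nat_lit 0) (nat_lit 15797259507) (nat_lit 304) (nat_lit 15994820987) (nat_lit 380) (nat_lit 51851784354) (nat_lit 129) (nat_lit 5) (nat_lit 133) (nat_lit 5) (nat_lit 134) (nat_lit 5) (nat_lit 477) (nat_lit 442) (nat_lit 281)) (XT.nd (nat_lit 78) (nat_lit 380) (nat_lit 0) (XT.lf (nat_lit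 0) (nat_lit 12618466713) (nat_lit 228) (nat_lit 50985703288) (nat_lit 304) (nat_lit 22666057441) (nat_lit 126) (nat_lit 5) (nat_lit 129) (nat_lit 5) (nat_lit 130) (nat_lit 5) (nat_lit 478) (nat_lit 442) (nat_lit 280)) (XT.lf (nat_lit 0) (nat_lit 8785449101) (nat_lit 380) (nat_lit 79549428969) (nat_lit 76) (nat_lit 661863623) (nat_lit 121) (nat_lit 5) (nat_lit 126) (nat_lit 5) (nat_lit 122) (nat_lit 5) (nat_lit 479) (nat_lit 442) (nat_lit 279)))) (XT.nd (nat_lit 156) (nat_lit 304) (nat_lit 0) (XT.nd (nat_lit 78) (nat_lit 228) (nat_lit 0) (XT.lf (nat_lit 0) (nat_lit 5762135113) (nat_lit 228) (nat_lit 36916774672) (nat_lit 304) (nat_lit 49133795166) (nat_lit 118) (nat_lit 5) (nat_lit 121) (nat_lit 5) (nat_lit 122) (nat_lit 5) (nat_lit 480) (nat_lit 442) (nat_lit 278)) (XT.lf (nat_lit 0) (nat_lit 2122956893) (nat_lit 228) (nat_lit 77153756280) (nat_lit 304) (nat_lit 15462463318) (nat_lit 115) (nat_lit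 5) (nat_lit 118) (nat_lit 5) (nat_lit 119) (nat_lit 5) (nat_lit 481) (nat_lit 442) (nat_lit 277))) (XT.nd (nat_lit 78) (nat_lit 228) (nat_lit 0) (XT.lf (nat_lit 0) (nat_lit 20769654064) (nat_lit 304) (nat_lit 1857562602) (nat_lit 76) (nat_lit 75141056825) (nat_lit 114) (nat_lit 5) (nat_lit 118) (nat_lit 5) (nat_lit 115) (nat_lit 5) (nat_lit 482) (nat_lit 442) (nat_lit 276)) (XT.lf (nat_lit 0) (nat_lit 59752789179) (nat_lit 304) (nat_lit 6123563975) (nat_lit 76) (nat_lit 35030103579) (nat_lit 111) (nat_lit 5) (nat_lit 115) (nat_lit 5) (nat_lit 112) (nat_lit 5) (nat_lit 483) (nat_lit 442) (nat_lit 275))))))))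
noncomputable def xc110 : XT := (XT.nd (nat_lit 60684) (nat_lit 0) (nat_lit 1140) (XT.nd (nat_lit 59670) (nat_lit 0) (nat_lit 9652) (XT.nd (nat_lit 468) (nat_lit 304) (nat_lit 0) (XT.nd (nat_lit 234) (nat_lit 608) (nat_lit 0) (XT.nd (nat_lit 78) (nat_lit 456) (nat_lit 0) (XT.lf (nat_lit 0) (nat_lit 93690122500) (nat_lit 228) (nat_lit 8141586997) (nat_lit 304) (nat_lit 2335440960) (nat_lit 108) (nat_lit 5) (nat_lit 111) (nat_lit 5) (nat_lit 112) (nat_lit 5) (nat_lit 484) (nat_lit 442) (nat_lit 274)) (XT.nd (nat_lit 78) (nat_lit 228) (nat_lit 0) (XT.lf (nat_lit 0) (nat_lit 39142316797) (nat_lit 228) (nat_lit 15603702558) (nat_lit 76) (nat_lit 52789726973) (nat_lit 105) (nat_lit 5) (nat_lit 108) (nat_lit 5) (nat_lit 106) (nat_lit 5) (nat_lit 485) (nat_lit 442) (nat_lit 273)) (XT.lf (nat_lit 0) (nat_lit 83766330452) (nat_lit 304) (nat_lit 20840559485) (nat_lit 76) (nat_lit 6431568459) (nat_lit 102)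 (nat_lit 5) (nat_lit 106) (nat_lit 5) (nat_lit 103) (nat_lit 5) (nat_lit 486) (nat_lit 442) (nat_lit 272)))) (XT.nd (nat_lit 78) (nat_lit 380) (nat_lit 0) (XT.lf (nat_lit 0) (nat_lit 17170087382) (nat_lit 228) (nat_lit 26771980124) (nat_lit 76) (nat_lit 70722395460) (nat_lit 99) (nat_lit 5) (nat_lit 102) (nat_lit 5) (nat_lit 100) (nat_lit 5) (nat_lit 487) (nat_lit 442) (nat_lit 271)) (XT.nd (nat_lit 78) (nat_lit 152) (nat_lit 0) (XT.lf (nat_lit 0) (nat_lit 64514768774) (nat_lit 304) (nat_lit 33216098799) (nat_lit 76) (nat_lit 20695468154) (nat_lit 96) (nat_lit 5) (nat_lit 100) (nat_lit 5) (nat_lit 97) (nat_lit 5) (nat_lit 488) (nat_lit 442) (nat_lit 270)) (XT.lf (nat_lit 0) (nat_lit 82136988066) (nat_lit 152) (nat_lit 33599609570) (nat_lit 228) (nat_lit 6594407214) (nat_lit 94) (nat_lit 5) (nat_lit 96) (nat_lit 5) (nat_lit 97) (nat_lit 5) (nat_lit 489) (nat_lit 442) (nat_lit 269))))) (XT.nd (nat_lit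 58968) (nat_lit 0) (nat_lit 14060) (XT.nd (nat_lit 58812) (nat_lit 0) (nat_lit 13984) (XT.lf (nat_lit 0) (nat_lit 43686965293) (nat_lit 304) (nat_lit 48079007617) (nat_lit 76) (nat_lit 34609333754) (nat_lit 90) (nat_lit 5) (nat_lit 94) (nat_lit 5) (nat_lit 91) (nat_lit 5) (nat_lit 490) (nat_lit 442) (nat_lit 268)) (XT.nd (nat_lit 78) (nat_lit 0) (nat_lit 76) (XT.lf (nat_lit 0) (nat_lit 6077599684) (nat_lit 1292) (nat_lit 5253041275) (nat_lit 1292) (nat_lit 5253041275) (nat_lit 274) (nat_lit 3) (nat_lit 291) (nat_lit 3) (nat_lit 291) (nat_lit 5) (nat_lit 443) (nat_lit 443) (nat_lit 314)) (XT.lf (nat_lit 0) (nat_lit 12759051448) (nat_lit 1216) (nat_lit 17120820144) (nat_lit 1292) (nat_lit 4107655220) (nat_lit 275) (nat_lit 5) (nat_lit 291) (nat_lit 5) (nat_lit 292) (nat_lit 5) (nat_lit 444) (nat_lit 443) (nat_lit 313)))) (XT.nd (nat_lit 78) (nat_lit 0) (nat_lit 76) (XT.lf (nat_lit 76) (nat_lit 10962871851)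 (nat_lit 0) (nat_lit 2867330801) (nat_lit 1292) (nat_lit 21005382871) (nat_lit 276) (nat_lit 5) (nat_lit 275) (nat_lit 5) (nat_lit 292) (nat_lit 5) (nat_lit 445) (nat_lit 443) (nat_lit 312)) (XT.nd (nat_lit 78) (nat_lit 0) (nat_lit 76) (XT.lf (nat_lit 76) (nat_lit 4933619026) (nat_lit 0) (nat_lit 10485853408) (nat_lit 1292) (nat_lit 20292639283) (nat_lit 277) (nat_lit 5) (nat_lit 276) (nat_lit 5) (nat_lit 293) (nat_lit 5) (nat_lit 446) (nat_lit 443) (nat_lit 311)) (XT.lf (nat_lit 0) (nat_lit 17532733018) (nat_lit 1216) (nat_lit 1154077295) (nat_lit 1292) (nat_lit 17932319401) (nat_lit 277) (nat_lit 5) (nat_lit 293) (nat_lit 5) (nat_lit 294) (nat_lit 5) (nat_lit 447) (nat_lit 443) (nat_lit 310)))))) (XT.nd (nat_lit 468) (nat_lit 3648) (nat_lit 0) (XT.nd (nat_lit 234) (nat_lit 988) (nat_lit 0) (XT.nd (nat_lit 78) (nat_lit 0) (nat_lit 76) (XT.lf (nat_lit 0) (nat_lit 20243597169) (nat_lit 1216) (nat_lit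 7222501371) (nat_lit 1292) (nat_lit 10090643104) (nat_lit 278) (nat_lit 5) (nat_lit 294) (nat_lit 5) (nat_lit 295) (nat_lit 5) (nat_lit 448) (nat_lit 443) (nat_lit 309)) (XT.nd (nat_lit 78) (nat_lit 0) (nat_lit 0) (XT.lf (nat_lit 0) (nat_lit 23543375526) (nat_lit 1216) (nat_lit 13364743819) (nat_lit 1292) (nat_lit 1619514887) (nat_lit 279) (nat_lit 5) (nat_lit 295) (nat_lit 5) (nat_lit 296) (nat_lit 5) (nat_lit 449) (nat_lit 443) (nat_lit 308)) (XT.lf (nat_lit 76) (nat_lit 19879972650) (nat_lit 0) (nat_lit 7666648845) (nat_lit 1292) (nat_lit 11984296729) (nat_lit 280) (nat_lit 5) (nat_lit 279) (nat_lit 5) (nat_lit 296) (nat_lit 5) (nat_lit 450) (nat_lit 443) (nat_lit 307)))) (XT.nd (nat_lit 78) (nat_lit 1140) (nat_lit 0) (XT.lf (nat_lit 76) (nat_lit 14543265338) (nat_lit 0) (nat_lit 17702233265) (nat_lit 1292) (nat_lit 8324004825) (nat_lit 281) (nat_lit 5) (nat_lit 280) (nat_lit 5) (nat_lit 297)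 (nat_lit 5) (nat_lit 451) (nat_lit 443) (nat_lit 306)) (XT.nd (nat_lit 78) (nat_lit 1216) (nat_lit 0) (XT.lf (nat_lit 76) (nat_lit 9174514057) (nat_lit 0) (nat_lit 28495439013) (nat_lit 1292) (nat_lit 3975346846) (nat_lit 282) (nat_lit 5) (nat_lit 281) (nat_lit 5) (nat_lit 298) (nat_lit 5) (nat_lit 452) (nat_lit 443) (nat_lit 305)) (XT.lf (nat_lit 0) (nat_lit 1086857619) (nat_lit 1292) (nat_lit 38990888063) (nat_lit 76) (nat_lit 2681741906) (nat_lit 265) (nat_lit 5) (nat_lit 282) (nat_lit 5) (nat_lit 266) (nat_lit 5) (nat_lit 453) (nat_lit 443) (nat_lit 304))))) (XT.nd (nat_lit 234) (nat_lit 2280) (nat_lit 0) (XT.nd (nat_lit 78) (nat_lit 1368) (nat_lit 0) (XT.lf (nat_lit 0) (nat_lit 6941699361) (nat_lit 1292) (nat_lit 1755640583) (nat_lit 76) (nat_lit 35212212510) (nat_lit 265) (nat_lit 5) (nat_lit 282) (nat_lit 5) (nat_lit 266) (nat_lit 5) (nat_lit 454) (nat_lit 443) (nat_lit 303)) (XT.nd (nat_lit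 78) (nat_lit 608) (nat_lit 0) (XT.lf (nat_lit 0) (nat_lit 13688094711) (nat_lit 836) (nat_lit 7262108102) (nat_lit 76) (nat_lit 24148954265) (nat_lit 255) (nat_lit 5) (nat_lit 266) (nat_lit 5) (nat_lit 256) (nat_lit 5) (nat_lit 455) (nat_lit 443) (nat_lit 302)) (XT.lf (nat_lit 0) (nat_lit 21317435191) (nat_lit 684) (nat_lit 12791579405) (nat_lit 76) (nat_lit 12222859399) (nat_lit 247) (nat_lit 5) (nat_lit 256) (nat_lit 5) (nat_lit 248) (nat_lit 5) (nat_lit 456) (nat_lit 443) (nat_lit 301)))) (XT.nd (nat_lit 156) (nat_lit 1140) (nat_lit 0) (XT.nd (nat_lit 78) (nat_lit 532) (nat_lit 0) (XT.lf (nat_lit 0) (nat_lit 29265889689) (nat_lit 608) (nat_lit 626939814) (nat_lit 684) (nat_lit 17716460433) (nat_lit 239) (nat_lit 5) (nat_lit 247) (nat_lit 5) (nat_lit 248) (nat_lit 5) (nat_lit 457) (nat_lit 443) (nat_lit 300)) (XT.lf (nat_lit 0) (nat_lit 24895908727) (nat_lit 532) (nat_lit 14701752654) (nat_lit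 608) (nat_lit 9331896002) (nat_lit 232) (nat_lit 5) (nat_lit 239) (nat_lit 5) (nat_lit 240) (nat_lit 5) (nat_lit 458) (nat_lit 443) (nat_lit 299))) (XT.nd (nat_lit 78) (nat_lit 532) (nat_lit 0) (XT.lf (nat_lit 0) (nat_lit 76269213) (nat_lit 608) (nat_lit 29736105715) (nat_lit 76) (nat_lit 20485794237) (nat_lit 224) (nat_lit 5) (nat_lit 232) (nat_lit 5) (nat_lit 225) (nat_lit 5) (nat_lit 459) (nat_lit 443) (nat_lit 298)) (XT.lf (nat_lit 0) (nat_lit 10371445180) (nat_lit 608) (nat_lit 35542591886) (nat_lit 76) (nat_lit 5800115264) (nat_lit 217) (nat_lit 5) (nat_lit 225) (nat_lit 5) (nat_lit 218) (nat_lit 5) (nat_lit 460) (nat_lit 443) (nat_lit 297))))))) (XT.nd (nat_lit 1014) (nat_lit 3420) (nat_lit 0) (XT.nd (nat_lit 468) (nat_lit 2660) (nat_lit 0) (XT.nd (nat_lit 234) (nat_lit 988) (nat_lit 0) (XT.nd (nat_lit 78) (nat_lit 912) (nat_lit 0) (XT.lf (nat_lit 0) (nat_lit 11725582383) (nat_lit 532)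 (nat_lit 10175359804) (nat_lit 608) (nat_lit 31278406222) (nat_lit 210) (nat_lit 5) (nat_lit 217) (nat_lit 5) (nat_lit 218) (nat_lit 5) (nat_lit 461) (nat_lit 443) (nat_lit 296)) (XT.nd (nat_lit 78) (nat_lit 456) (nat_lit 0) (XT.lf (nat_lit 0) (nat_lit 7264770170) (nat_lit 456) (nat_lit 27441309669) (nat_lit 532) (nat_lit 19990750074) (nat_lit 204) (nat_lit 5) (nat_lit 210) (nat_lit 5) (nat_lit 211) (nat_lit 5) (nat_lit 462) (nat_lit 443) (nat_lit 295)) (XT.lf (nat_lit 0) (nat_lit 2857721261) (nat_lit 456) (nat_lit 45947621142) (nat_lit 532) (nat_lit 7465227617) (nat_lit 198) (nat_lit 5) (nat_lit 204) (nat_lit 5) (nat_lit 205) (nat_lit 5) (nat_lit 463) (nat_lit 443) (nat_lit 294)))) (XT.nd (nat_lit 78) (nat_lit 912) (nat_lit 0) (XT.lf (nat_lit 0) (nat_lit 6342794335) (nat_lit 532) (nat_lit 1595111719) (nat_lit 76) (nat_lit 49960436053) (nat_lit 197) (nat_lit 5) (nat_lit 204) (nat_lit 5) (nat_lit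 198) (nat_lit 5) (nat_lit 464) (nat_lit 443) (nat_lit 293)) (XT.nd (nat_lit 78) (nat_lit 456) (nat_lit 0) (XT.lf (nat_lit 0) (nat_lit 21515714444) (nat_lit 532) (nat_lit 6118631232) (nat_lit 76) (nat_lit 31946073543) (nat_lit 191) (nat_lit 5) (nat_lit 198) (nat_lit 5) (nat_lit 192) (nat_lit 5) (nat_lit 465) (nat_lit 443) (nat_lit 292)) (XT.lf (nat_lit 0) (nat_lit 38153700662) (nat_lit 532) (nat_lit 10584711387) (nat_lit 76) (nat_lit 12586996010) (nat_lit 185) (nat_lit 5) (nat_lit 192) (nat_lit 5) (nat_lit 186) (nat_lit 5) (nat_lit 466) (nat_lit 443) (nat_lit 291))))) (XT.nd (nat_lit 234) (nat_lit 1444) (nat_lit 0) (XT.nd (nat_lit 78) (nat_lit 836) (nat_lit 0) (XT.lf (nat_lit 0) (nat_lit 48070310050) (nat_lit 380) (nat_lit 8355320426) (nat_lit 456) (nat_lit 6707954991) (nat_lit 180) (nat_lit 5) (nat_lit 185) (nat_lit 5) (nat_lit 186) (nat_lit 5) (nat_lit 467) (nat_lit 443) (nat_lit 290)) (XT.nd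 (nat_lit 78) (nat_lit 380) (nat_lit 0) (XT.lf (nat_lit 0) (nat_lit 11252473068) (nat_lit 456) (nat_lit 19711571601) (nat_lit 76) (nat_lit 34038679078) (nat_lit 174) (nat_lit 5) (nat_lit 180) (nat_lit 5) (nat_lit 175) (nat_lit 5) (nat_lit 468) (nat_lit 443) (nat_lit 289)) (XT.lf (nat_lit 0) (nat_lit 30738429976) (nat_lit 456) (nat_lit 24366106260) (nat_lit 76) (nat_lit 11835803496) (nat_lit 169) (nat_lit 5) (nat_lit 175) (nat_lit 5) (nat_lit 170) (nat_lit 5) (nat_lit 469) (nat_lit 443) (nat_lit 288)))) (XT.nd (nat_lit 156) (nat_lit 684) (nat_lit 0) (XT.nd (nat_lit 78) (nat_lit 380) (nat_lit 0) (XT.lf (nat_lit 0) (nat_lit 39877951451) (nat_lit 380) (nat_lit 12219174482) (nat_lit 456) (nat_lit 16850757727) (nat_lit 164) (nat_lit 5) (nat_lit 169) (nat_lit 5) (nat_lit 170) (nat_lit 5) (nat_lit 470) (nat_lit 443) (nat_lit 287)) (XT.lf (nat_lit 0) (nat_lit 4333456503) (nat_lit 380) (nat_lit 33870566017)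 (nat_lit 76) (nat_lit 32822787226) (nat_lit 159) (nat_lit 5) (nat_lit 164) (nat_lit 5) (nat_lit 160) (nat_lit 5) (nat_lit 471) (nat_lit 443) (nat_lit 286))) (XT.nd (nat_lit 78) (nat_lit 304) (nat_lit 0) (XT.lf (nat_lit 0) (nat_lit 27058311629) (nat_lit 456) (nat_lit 38780169803) (nat_lit 76) (nat_lit 7341297975) (nat_lit 154) (nat_lit 5) (nat_lit 160) (nat_lit 5) (nat_lit 155) (nat_lit 5) (nat_lit 472) (nat_lit 443) (nat_lit 285)) (XT.lf (nat_lit 0) (nat_lit 31585382626) (nat_lit 304) (nat_lit 20373225728) (nat_lit 380) (nat_lit 23450613548) (nat_lit 150) (nat_lit 5) (nat_lit 154) (nat_lit 5) (nat_lit 155) (nat_lit 5) (nat_lit 473) (nat_lit 443) (nat_lit 284)))))) (XT.nd (nat_lit 468) (nat_lit 1596) (nat_lit 0) (XT.nd (nat_lit 234) (nat_lit 836) (nat_lit 0) (XT.nd (nat_lit 78) (nat_lit 608) (nat_lit 0) (XT.lf (nat_lit 0) (nat_lit 1297505560) (nat_lit 380) (nat_lit 48900547327) (nat_lit 76) (nat_lit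 27523463135) (nat_lit 145) (nat_lit 5) (nat_lit 150) (nat_lit 5) (nat_lit 146) (nat_lit 5) (nat_lit 474) (nat_lit 443) (nat_lit 283)) (XT.nd (nat_lit 78) (nat_lit 304) (nat_lit 0) (XT.lf (nat_lit 0) (nat_lit 25934215203) (nat_lit 304) (nat_lit 1776824846) (nat_lit 380) (nat_lit 52404029427) (nat_lit 141) (nat_lit 5) (nat_lit 145) (nat_lit 5) (nat_lit 146) (nat_lit 5) (nat_lit 475) (nat_lit 443) (nat_lit 282)) (XT.lf (nat_lit 0) (nat_lit 22886416113) (nat_lit 304) (nat_lit 33756886185) (nat_lit 380) (nat_lit 25949057040) (nat_lit 137) (nat_lit 5) (nat_lit 141) (nat_lit 5) (nat_lit 142) (nat_lit 5) (nat_lit 476) (nat_lit 443) (nat_lit 281)))) (XT.nd (nat_lit 78) (nat_lit 532) (nat_lit 0) (XT.lf (nat_lit 0) (nat_lit 2734237435) (nat_lit 304) (nat_lit 65227470715) (nat_lit 76) (nat_lit 17203040725) (nat_lit 133) (nat_lit 5) (nat_lit 137) (nat_lit 5) (nat_lit 134) (nat_lit 5) (nat_lit 477) (nat_lit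 443) (nat_lit 280)) (XT.nd (nat_lit 78) (nat_lit 228) (nat_lit 0) (XT.lf (nat_lit 0) (nat_lit 16676872702) (nat_lit 304) (nat_lit 16763012201) (nat_lit 380) (nat_lit 54384419941) (nat_lit 129) (nat_lit 5) (nat_lit 133) (nat_lit 5) (nat_lit 134) (nat_lit 5) (nat_lit 478) (nat_lit 443) (nat_lit 279)) (XT.lf (nat_lit 0) (nat_lit 13337976002) (nat_lit 228) (nat_lit 53502971815) (nat_lit 304) (nat_lit 23741087029) (nat_lit 126) (nat_lit 5) (nat_lit 129) (nat_lit 5) (nat_lit 130) (nat_lit 5) (nat_lit 479) (nat_lit 443) (nat_lit 278))))) (XT.nd (nat_lit 234) (nat_lit 760) (nat_lit 0) (XT.nd (nat_lit 78) (nat_lit 456) (nat_lit 0) (XT.lf (nat_lit 0) (nat_lit 9280281446) (nat_lit 380) (nat_lit 83438385460) (nat_lit 76) (nat_lit 726238705) (nat_lit 121) (nat_lit 5) (nat_lit 126) (nat_lit 5) (nat_lit 122) (nat_lit 5) (nat_lit 480) (nat_lit 443) (nat_lit 277)) (XT.nd (nat_lit 78) (nat_lit 228) (nat_lit 0)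 (XT.lf (nat_lit 0) (nat_lit 6136219564) (nat_lit 228) (nat_lit 38730376363) (nat_lit 304) (nat_lit 51535125987) (nat_lit 118) (nat_lit 5) (nat_lit 121) (nat_lit 5) (nat_lit 122) (nat_lit 5) (nat_lit 481) (nat_lit 443) (nat_lit 276)) (XT.lf (nat_lit 0) (nat_lit 2313888798) (nat_lit 228) (nat_lit 80978951730) (nat_lit 304) (nat_lit 16181720260) (nat_lit 115) (nat_lit 5) (nat_lit 118) (nat_lit 5) (nat_lit 119) (nat_lit 5) (nat_lit 482) (nat_lit 443) (nat_lit 275)))) (XT.nd (nat_lit 156) (nat_lit 456) (nat_lit 0) (XT.nd (nat_lit 78) (nat_lit 228) (nat_lit 0) (XT.lf (nat_lit 0) (nat_lit 21858436862) (nat_lit 304) (nat_lit 1868687597) (nat_lit 76) (nat_lit 78928048362) (nat_lit 114) (nat_lit 5) (nat_lit 118) (nat_lit 5) (nat_lit 115) (nat_lit 5) (nat_lit 483) (nat_lit 443) (nat_lit 274)) (XT.lf (nat_lit 0) (nat_lit 62789392331) (nat_lit 304) (nat_lit 6349162848) (nat_lit 76) (nat_lit 36811750392) (nat_lit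 111) (nat_lit 5) (nat_lit 115) (nat_lit 5) (nat_lit 112) (nat_lit 5) (nat_lit 484) (nat_lit 443) (nat_lit 273))) (XT.nd (nat_lit 78) (nat_lit 228) (nat_lit 0) (XT.lf (nat_lit 0) (nat_lit 98452898160) (nat_lit 228) (nat_lit 8517781275) (nat_lit 304) (nat_lit 2403402165) (nat_lit 108) (nat_lit 5) (nat_lit 111) (nat_lit 5) (nat_lit 112) (nat_lit 5) (nat_lit 485) (nat_lit 443) (nat_lit 272)) (XT.lf (nat_lit 0) (nat_lit 41146046277) (nat_lit 228) (nat_lit 16305832431) (nat_lit 76) (nat_lit 55459252047) (nat_lit 105) (nat_lit 5) (nat_lit 108) (nat_lit 5) (nat_lit 106) (nat_lit 5) (nat_lit 486) (nat_lit 443) (nat_lit 271))))))))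
noncomputable def xc111 : XT := (XT.nd (nat_lit 60762) (nat_lit 0) (nat_lit 152) (XT.nd (nat_lit 59748) (nat_lit 0) (nat_lit 7904) (XT.nd (nat_lit 59280) (nat_lit 0) (nat_lit 13756) (XT.nd (nat_lit 234) (nat_lit 152) (nat_lit 0) (XT.nd (nat_lit 78) (nat_lit 456) (nat_lit 0) (XT.lf (nat_lit 0) (nat_lit 88000064784) (nat_lit 304) (nat_lit 21805706754) (nat_lit 76) (nat_lit 6783242977) (nat_lit 102) (nat_lit 5) (nat_lit 106) (nat_lit 5) (nat_lit 103) (nat_lit 5) (nat_lit 487) (nat_lit 443) (nat_lit 270)) (XT.nd (nat_lit 78) (nat_lit 228) (nat_lit 0) (XT.lf (nat_lit 0) (nat_lit 18073004008) (nat_lit 228) (nat_lit 28035014359) (nat_lit 76) (nat_lit 74288331435) (nat_lit 99) (nat_lit 5) (nat_lit 102) (nat_lit 5) (nat_lit 100) (nat_lit 5) (nat_lit 488) (nat_lit 443) (nat_lit 269)) (XT.lf (nat_lit 0) (nat_lit 67783802337) (nat_lit 304) (nat_lit 34802503353) (nat_lit 76) (nat_lit 21760044212) (nat_lit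 96) (nat_lit 5) (nat_lit 100) (nat_lit 5) (nat_lit 97) (nat_lit 5) (nat_lit 489) (nat_lit 443) (nat_lit 268)))) (XT.nd (nat_lit 58890) (nat_lit 0) (nat_lit 13680) (XT.lf (nat_lit 0) (nat_lit 86316105183) (nat_lit 152) (nat_lit 35249250468) (nat_lit 228) (nat_lit 6880938020) (nat_lit 94) (nat_lit 5) (nat_lit 96) (nat_lit 5) (nat_lit 97) (nat_lit 5) (nat_lit 490) (nat_lit 443) (nat_lit 267)) (XT.nd (nat_lit 78) (nat_lit 0) (nat_lit 76) (XT.lf (nat_lit 0) (nat_lit 6477131725) (nat_lit 1292) (nat_lit 5466421403) (nat_lit 1292) (nat_lit 5466421403) (nat_lit 274) (nat_lit 3) (nat_lit 291) (nat_lit 3) (nat_lit 291) (nat_lit 5) (nat_lit 444) (nat_lit 444) (nat_lit 312)) (XT.lf (nat_lit 0) (nat_lit 13579278427) (nat_lit 1216) (nat_lit 17874766099) (nat_lit 1292) (nat_lit 4227348006) (nat_lit 275) (nat_lit 5) (nat_lit 291) (nat_lit 5) (nat_lit 292) (nat_lit 5) (nat_lit 445) (nat_lit 444) (nat_lit 311)))))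 (XT.nd (nat_lit 234) (nat_lit 0) (nat_lit 228) (XT.nd (nat_lit 78) (nat_lit 0) (nat_lit 76) (XT.lf (nat_lit 76) (nat_lit 11610183962) (nat_lit 0) (nat_lit 3086076765) (nat_lit 1292) (nat_lit 21875827265) (nat_lit 276) (nat_lit 5) (nat_lit 275) (nat_lit 5) (nat_lit 292) (nat_lit 5) (nat_lit 446) (nat_lit 444) (nat_lit 310)) (XT.nd (nat_lit 78) (nat_lit 0) (nat_lit 76) (XT.lf (nat_lit 76) (nat_lit 5282455221) (nat_lit 0) (nat_lit 11074518859) (nat_lit 1292) (nat_lit 21135708935) (nat_lit 277) (nat_lit 5) (nat_lit 276) (nat_lit 5) (nat_lit 293) (nat_lit 5) (nat_lit 447) (nat_lit 444) (nat_lit 309)) (XT.lf (nat_lit 0) (nat_lit 18567378464) (nat_lit 1216) (nat_lit 1109106567) (nat_lit 1292) (nat_lit 18768824290) (nat_lit 277) (nat_lit 5) (nat_lit 293) (nat_lit 5) (nat_lit 294) (nat_lit 5) (nat_lit 448) (nat_lit 444) (nat_lit 308)))) (XT.nd (nat_lit 78) (nat_lit 0) (nat_lit 76) (XT.lf (nat_lit 0) (nat_lit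 21406723189) (nat_lit 1216) (nat_lit 7478819738) (nat_lit 1292) (nat_lit 10544472543) (nat_lit 278) (nat_lit 5) (nat_lit 294) (nat_lit 5) (nat_lit 295) (nat_lit 5) (nat_lit 449) (nat_lit 444) (nat_lit 307)) (XT.nd (nat_lit 78) (nat_lit 0) (nat_lit 0) (XT.lf (nat_lit 0) (nat_lit 24864868427) (nat_lit 1216) (nat_lit 13926390543) (nat_lit 1292) (nat_lit 1658394039) (nat_lit 279) (nat_lit 5) (nat_lit 295) (nat_lit 5) (nat_lit 296) (nat_lit 5) (nat_lit 450) (nat_lit 444) (nat_lit 306)) (XT.lf (nat_lit 76) (nat_lit 20977506355) (nat_lit 0) (nat_lit 8084893003) (nat_lit 1292) (nat_lit 12440879742) (nat_lit 280) (nat_lit 5) (nat_lit 279) (nat_lit 5) (nat_lit 296) (nat_lit 5) (nat_lit 451) (nat_lit 444) (nat_lit 305)))))) (XT.nd (nat_lit 468) (nat_lit 3724) (nat_lit 0) (XT.nd (nat_lit 234) (nat_lit 1368) (nat_lit 0) (XT.nd (nat_lit 78) (nat_lit 1140) (nat_lit 0) (XT.lf (nat_lit 76) (nat_lit 15375386910)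 (nat_lit 0) (nat_lit 18614930019) (nat_lit 1292) (nat_lit 8603655244) (nat_lit 281) (nat_lit 5) (nat_lit 280) (nat_lit 5) (nat_lit 297) (nat_lit 5) (nat_lit 452) (nat_lit 444) (nat_lit 304)) (XT.nd (nat_lit 78) (nat_lit 1216) (nat_lit 0) (XT.lf (nat_lit 76) (nat_lit 9739338602) (nat_lit 0) (nat_lit 29941111276) (nat_lit 1292) (nat_lit 4043276369) (nat_lit 282) (nat_lit 5) (nat_lit 281) (nat_lit 5) (nat_lit 298) (nat_lit 5) (nat_lit 453) (nat_lit 444) (nat_lit 303)) (XT.lf (nat_lit 0) (nat_lit 1264221724) (nat_lit 1292) (nat_lit 40830976257) (nat_lit 76) (nat_lit 2798546822) (nat_lit 265) (nat_lit 5) (nat_lit 282) (nat_lit 5) (nat_lit 266) (nat_lit 5) (nat_lit 454) (nat_lit 444) (nat_lit 302)))) (XT.nd (nat_lit 78) (nat_lit 1368) (nat_lit 0) (XT.lf (nat_lit 0) (nat_lit 7405947400) (nat_lit 1292) (nat_lit 1739178603) (nat_lit 76) (nat_lit 36956363916) (nat_lit 265) (nat_lit 5) (nat_lit 282) (nat_lit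 5) (nat_lit 266) (nat_lit 5) (nat_lit 455) (nat_lit 444) (nat_lit 301)) (XT.nd (nat_lit 78) (nat_lit 608) (nat_lit 0) (XT.lf (nat_lit 0) (nat_lit 14484948022) (nat_lit 836) (nat_lit 7520448219) (nat_lit 76) (nat_lit 25345321173) (nat_lit 255) (nat_lit 5) (nat_lit 266) (nat_lit 5) (nat_lit 256) (nat_lit 5) (nat_lit 456) (nat_lit 444) (nat_lit 300)) (XT.lf (nat_lit 0) (nat_lit 22491318378) (nat_lit 684) (nat_lit 13326070430) (nat_lit 76) (nat_lit 12827815628) (nat_lit 247) (nat_lit 5) (nat_lit 256) (nat_lit 5) (nat_lit 248) (nat_lit 5) (nat_lit 457) (nat_lit 444) (nat_lit 299))))) (XT.nd (nat_lit 234) (nat_lit 1976) (nat_lit 0) (XT.nd (nat_lit 78) (nat_lit 1140) (nat_lit 0) (XT.lf (nat_lit 0) (nat_lit 30831259794) (nat_lit 608) (nat_lit 660060424) (nat_lit 684) (nat_lit 18495296913) (nat_lit 239) (nat_lit 5) (nat_lit 247) (nat_lit 5) (nat_lit 248) (nat_lit 5) (nat_lit 458) (nat_lit 444) (nat_lit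 298)) (XT.nd (nat_lit 78) (nat_lit 608) (nat_lit 0) (XT.lf (nat_lit 0) (nat_lit 26242917738) (nat_lit 532) (nat_lit 15434497052) (nat_lit 608) (nat_lit 9695603567) (nat_lit 232) (nat_lit 5) (nat_lit 239) (nat_lit 5) (nat_lit 240) (nat_lit 5) (nat_lit 459) (nat_lit 444) (nat_lit 297)) (XT.lf (nat_lit 0) (nat_lit 177172145) (nat_lit 608) (nat_lit 31118767331) (nat_lit 76) (nat_lit 21514206245) (nat_lit 224) (nat_lit 5) (nat_lit 232) (nat_lit 5) (nat_lit 225) (nat_lit 5) (nat_lit 460) (nat_lit 444) (nat_lit 296)))) (XT.nd (nat_lit 156) (nat_lit 912) (nat_lit 0) (XT.nd (nat_lit 78) (nat_lit 532) (nat_lit 0) (XT.lf (nat_lit 0) (nat_lit 10983530206) (nat_lit 608) (nat_lit 37215815815) (nat_lit 76) (nat_lit 6097690238) (nat_lit 217) (nat_lit 5) (nat_lit 225) (nat_lit 5) (nat_lit 218) (nat_lit 5) (nat_lit 461) (nat_lit 444) (nat_lit 295)) (XT.lf (nat_lit 0) (nat_lit 12412788733) (nat_lit 532) (nat_lit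 10673230517) (nat_lit 608) (nat_lit 32749578250) (nat_lit 210) (nat_lit 5) (nat_lit 217) (nat_lit 5) (nat_lit 218) (nat_lit 5) (nat_lit 462) (nat_lit 444) (nat_lit 294))) (XT.nd (nat_lit 78) (nat_lit 456) (nat_lit 0) (XT.lf (nat_lit 0) (nat_lit 7728581512) (nat_lit 456) (nat_lit 28799611663) (nat_lit 532) (nat_lit 20900857353) (nat_lit 204) (nat_lit 5) (nat_lit 210) (nat_lit 5) (nat_lit 211) (nat_lit 5) (nat_lit 463) (nat_lit 444) (nat_lit 293)) (XT.lf (nat_lit 0) (nat_lit 3100714502) (nat_lit 456) (nat_lit 48228658881) (nat_lit 532) (nat_lit 7752196412) (nat_lit 198) (nat_lit 5) (nat_lit 204) (nat_lit 5) (nat_lit 205) (nat_lit 5) (nat_lit 464) (nat_lit 444) (nat_lit 292))))))) (XT.nd (nat_lit 1014) (nat_lit 3116) (nat_lit 0) (XT.nd (nat_lit 468) (nat_lit 2432) (nat_lit 0) (XT.nd (nat_lit 234) (nat_lit 1216) (nat_lit 0) (XT.nd (nat_lit 78) (nat_lit 912) (nat_lit 0) (XT.lf (nat_lit 0) (nat_lit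 6740513773) (nat_lit 532) (nat_lit 1577908821) (nat_lit 76) (nat_lit 52472404606) (nat_lit 197) (nat_lit 5) (nat_lit 204) (nat_lit 5) (nat_lit 198) (nat_lit 5) (nat_lit 465) (nat_lit 444) (nat_lit 291)) (XT.nd (nat_lit 78) (nat_lit 456) (nat_lit 0) (XT.lf (nat_lit 0) (nat_lit 22669306975) (nat_lit 532) (nat_lit 6328199153) (nat_lit 76) (nat_lit 33559585923) (nat_lit 191) (nat_lit 5) (nat_lit 198) (nat_lit 5) (nat_lit 192) (nat_lit 5) (nat_lit 466) (nat_lit 444) (nat_lit 290)) (XT.lf (nat_lit 0) (nat_lit 40136565965) (nat_lit 532) (nat_lit 11018261050) (nat_lit 76) (nat_lit 13234582779) (nat_lit 185) (nat_lit 5) (nat_lit 192) (nat_lit 5) (nat_lit 186) (nat_lit 5) (nat_lit 467) (nat_lit 444) (nat_lit 289)))) (XT.nd (nat_lit 78) (nat_lit 836) (nat_lit 0) (XT.lf (nat_lit 0) (nat_lit 50566768641) (nat_lit 380) (nat_lit 8752637041) (nat_lit 456) (nat_lit 6968671618) (nat_lit 180) (nat_lit 5) (nat_lit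 185) (nat_lit 5) (nat_lit 186) (nat_lit 5) (nat_lit 468) (nat_lit 444) (nat_lit 288)) (XT.nd (nat_lit 78) (nat_lit 380) (nat_lit 0) (XT.lf (nat_lit 0) (nat_lit 11885917944) (nat_lit 456) (nat_lit 20603516328) (nat_lit 76) (nat_lit 35761289348) (nat_lit 174) (nat_lit 5) (nat_lit 180) (nat_lit 5) (nat_lit 175) (nat_lit 5) (nat_lit 469) (nat_lit 444) (nat_lit 287)) (XT.lf (nat_lit 0) (nat_lit 32343892026) (nat_lit 456) (nat_lit 25491618406) (nat_lit 76) (nat_lit 12449778948) (nat_lit 169) (nat_lit 5) (nat_lit 175) (nat_lit 5) (nat_lit 170) (nat_lit 5) (nat_lit 470) (nat_lit 444) (nat_lit 286))))) (XT.nd (nat_lit 234) (nat_lit 1292) (nat_lit 0) (XT.nd (nat_lit 78) (nat_lit 760) (nat_lit 0) (XT.lf (nat_lit 0) (nat_lit 41961982293) (nat_lit 380) (nat_lit 12806143068) (nat_lit 456) (nat_lit 17625157595) (nat_lit 164) (nat_lit 5) (nat_lit 169) (nat_lit 5) (nat_lit 170) (nat_lit 5) (nat_lit 471) (nat_lit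 444) (nat_lit 285)) (XT.nd (nat_lit 78) (nat_lit 380) (nat_lit 0) (XT.lf (nat_lit 0) (nat_lit 4614844726) (nat_lit 380) (nat_lit 35473533239) (nat_lit 76) (nat_lit 34487821014) (nat_lit 159) (nat_lit 5) (nat_lit 164) (nat_lit 5) (nat_lit 160) (nat_lit 5) (nat_lit 472) (nat_lit 444) (nat_lit 284)) (XT.lf (nat_lit 0) (nat_lit 28473951484) (nat_lit 456) (nat_lit 40629574408) (nat_lit 76) (nat_lit 7733351430) (nat_lit 154) (nat_lit 5) (nat_lit 160) (nat_lit 5) (nat_lit 155) (nat_lit 5) (nat_lit 473) (nat_lit 444) (nat_lit 283)))) (XT.nd (nat_lit 156) (nat_lit 608) (nat_lit 0) (XT.nd (nat_lit 78) (nat_lit 380) (nat_lit 0) (XT.lf (nat_lit 0) (nat_lit 33251687165) (nat_lit 304) (nat_lit 21365425648) (nat_lit 380) (nat_lit 24560744081) (nat_lit 150) (nat_lit 5) (nat_lit 154) (nat_lit 5) (nat_lit 155) (nat_lit 5) (nat_lit 474) (nat_lit 444) (nat_lit 282)) (XT.lf (nat_lit 0) (nat_lit 1421730050) (nat_lit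 380) (nat_lit 51258318072) (nat_lit 76) (nat_lit 28925755011) (nat_lit 145) (nat_lit 5) (nat_lit 150) (nat_lit 5) (nat_lit 146) (nat_lit 5) (nat_lit 475) (nat_lit 444) (nat_lit 281))) (XT.nd (nat_lit 78) (nat_lit 304) (nat_lit 0) (XT.lf (nat_lit 0) (nat_lit 27315681391) (nat_lit 304) (nat_lit 1838248440) (nat_lit 380) (nat_lit 54965165162) (nat_lit 141) (nat_lit 5) (nat_lit 145) (nat_lit 5) (nat_lit 146) (nat_lit 5) (nat_lit 476) (nat_lit 444) (nat_lit 280)) (XT.lf (nat_lit 0) (nat_lit 24114485274) (nat_lit 304) (nat_lit 35416645594) (nat_lit 380) (nat_lit 27189169083) (nat_lit 137) (nat_lit 5) (nat_lit 141) (nat_lit 5) (nat_lit 142) (nat_lit 5) (nat_lit 477) (nat_lit 444) (nat_lit 279)))))) (XT.nd (nat_lit 468) (nat_lit 1444) (nat_lit 0) (XT.nd (nat_lit 234) (nat_lit 836) (nat_lit 0) (XT.nd (nat_lit 78) (nat_lit 532) (nat_lit 0) (XT.lf (nat_lit 0) (nat_lit 2925556593) (nat_lit 304) (nat_lit 68405035803)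 (nat_lit 76) (nat_lit 18090748814) (nat_lit 133) (nat_lit 5) (nat_lit 137) (nat_lit 5) (nat_lit 134) (nat_lit 5) (nat_lit 478) (nat_lit 444) (nat_lit 278)) (XT.nd (nat_lit 78) (nat_lit 228) (nat_lit 0) (XT.lf (nat_lit 0) (nat_lit 17592122433) (nat_lit 304) (nat_lit 17572546181) (nat_lit 380) (nat_lit 57049261229) (nat_lit 129) (nat_lit 5) (nat_lit 133) (nat_lit 5) (nat_lit 134) (nat_lit 5) (nat_lit 479) (nat_lit 444) (nat_lit 277)) (XT.lf (nat_lit 0) (nat_lit 14085224874) (nat_lit 228) (nat_lit 56149080371) (nat_lit 304) (nat_lit 24875285795) (nat_lit 126) (nat_lit 5) (nat_lit 129) (nat_lit 5) (nat_lit 130) (nat_lit 5) (nat_lit 480) (nat_lit 444) (nat_lit 276)))) (XT.nd (nat_lit 78) (nat_lit 456) (nat_lit 0) (XT.lf (nat_lit 0) (nat_lit 9794689977) (nat_lit 380) (nat_lit 87530019057) (nat_lit 76) (nat_lit 790924247) (nat_lit 121) (nat_lit 5) (nat_lit 126) (nat_lit 5) (nat_lit 122) (nat_lit 5) (nat_lit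 481) (nat_lit 444) (nat_lit 275)) (XT.nd (nat_lit 78) (nat_lit 228) (nat_lit 0) (XT.lf (nat_lit 0) (nat_lit 6521014845) (nat_lit 228) (nat_lit 40637655233) (nat_lit 304) (nat_lit 54061670099) (nat_lit 118) (nat_lit 5) (nat_lit 121) (nat_lit 5) (nat_lit 122) (nat_lit 5) (nat_lit 482) (nat_lit 444) (nat_lit 274)) (XT.lf (nat_lit 0) (nat_lit 2506484879) (nat_lit 228) (nat_lit 84998427784) (nat_lit 304) (nat_lit 16941948021) (nat_lit 115) (nat_lit 5) (nat_lit 118) (nat_lit 5) (nat_lit 119) (nat_lit 5) (nat_lit 483) (nat_lit 444) (nat_lit 273))))) (XT.nd (nat_lit 234) (nat_lit 912) (nat_lit 0) (XT.nd (nat_lit 78) (nat_lit 456) (nat_lit 0) (XT.lf (nat_lit 0) (nat_lit 22996982374) (nat_lit 304) (nat_lit 1887969472) (nat_lit 76) (nat_lit 82901606061) (nat_lit 114) (nat_lit 5) (nat_lit 118) (nat_lit 5) (nat_lit 115) (nat_lit 5) (nat_lit 484) (nat_lit 444) (nat_lit 272)) (XT.nd (nat_lit 78) (nat_lit 228)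 (nat_lit 0) (XT.lf (nat_lit 0) (nat_lit 65973273460) (nat_lit 304) (nat_lit 6593533167) (nat_lit 76) (nat_lit 38679677263) (nat_lit 111) (nat_lit 5) (nat_lit 115) (nat_lit 5) (nat_lit 112) (nat_lit 5) (nat_lit 485) (nat_lit 444) (nat_lit 271)) (XT.lf (nat_lit 0) (nat_lit 103446535844) (nat_lit 228) (nat_lit 8915656667) (nat_lit 304) (nat_lit 2479299401) (nat_lit 108) (nat_lit 5) (nat_lit 111) (nat_lit 5) (nat_lit 112) (nat_lit 5) (nat_lit 486) (nat_lit 444) (nat_lit 270)))) (XT.nd (nat_lit 156) (nat_lit 456) (nat_lit 0) (XT.nd (nat_lit 78) (nat_lit 228) (nat_lit 0) (XT.lf (nat_lit 0) (nat_lit 43245628536) (nat_lit 228) (nat_lit 17050325636) (nat_lit 76) (nat_lit 58259460659) (nat_lit 105) (nat_lit 5) (nat_lit 108) (nat_lit 5) (nat_lit 106) (nat_lit 5) (nat_lit 487) (nat_lit 444) (nat_lit 269)) (XT.lf (nat_lit 0) (nat_lit 92441263315) (nat_lit 304) (nat_lit 22826259025) (nat_lit 76) (nat_lit 7149703171)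 (nat_lit 102) (nat_lit 5) (nat_lit 106) (nat_lit 5) (nat_lit 103) (nat_lit 5) (nat_lit 488) (nat_lit 444) (nat_lit 268))) (XT.nd (nat_lit 78) (nat_lit 228) (nat_lit 0) (XT.lf (nat_lit 0) (nat_lit 19016937434) (nat_lit 228) (nat_lit 29368225601) (nat_lit 76) (nat_lit 78029792182) (nat_lit 99) (nat_lit 5) (nat_lit 102) (nat_lit 5) (nat_lit 100) (nat_lit 5) (nat_lit 489) (nat_lit 444) (nat_lit 267)) (XT.lf (nat_lit 0) (nat_lit 71212262407) (nat_lit 304) (nat_lit 36475145178) (nat_lit 76) (nat_lit 22875078306) (nat_lit 96) (nat_lit 5) (nat_lit 100) (nat_lit 5) (nat_lit 97) (nat_lit 5) (nat_lit 490) (nat_lit 444) (nat_lit 266))))))))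
noncomputable def xc112 : XT := (XT.nd (nat_lit 1950) (nat_lit 5928) (nat_lit 0) (XT.nd (nat_lit 936) (nat_lit 6460) (nat_lit 0) (XT.nd (nat_lit 468) (nat_lit 684) (nat_lit 0) (XT.nd (nat_lit 234) (nat_lit 0) (nat_lit 152) (XT.nd (nat_lit 78) (nat_lit 0) (nat_lit 76) (XT.lf (nat_lit 0) (nat_lit 6887747546) (nat_lit 1292) (nat_lit 5695051375) (nat_lit 1292) (nat_lit 5695051375) (nat_lit 274) (nat_lit 3) (nat_lit 291) (nat_lit 3) (nat_lit 291) (nat_lit 5) (nat_lit 445) (nat_lit 445) (nat_lit 310)) (XT.nd (nat_lit 78) (nat_lit 0) (nat_lit 0) (XT.lf (nat_lit 0) (nat_lit 14423570609) (nat_lit 1216) (nat_lit 18675901182) (nat_lit 1292) (nat_lit 4360992073) (nat_lit 275) (nat_lit 5) (nat_lit 291) (nat_lit 5) (nat_lit 292) (nat_lit 5) (nat_lit 446) (nat_lit 445) (nat_lit 309)) (XT.lf (nat_lit 76) (nat_lit 12280641930) (nat_lit 0) (nat_lit 3308751962) (nat_lit 1292) (nat_lit 22806512279) (nat_lit 276)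 (nat_lit 5) (nat_lit 275) (nat_lit 5) (nat_lit 292) (nat_lit 5) (nat_lit 447) (nat_lit 445) (nat_lit 308)))) (XT.nd (nat_lit 78) (nat_lit 0) (nat_lit 76) (XT.lf (nat_lit 76) (nat_lit 5639235800) (nat_lit 0) (nat_lit 11686632812) (nat_lit 1292) (nat_lit 22036882306) (nat_lit 277) (nat_lit 5) (nat_lit 276) (nat_lit 5) (nat_lit 293) (nat_lit 5) (nat_lit 448) (nat_lit 445) (nat_lit 307)) (XT.nd (nat_lit 78) (nat_lit 0) (nat_lit 76) (XT.lf (nat_lit 0) (nat_lit 19639066022) (nat_lit 1216) (nat_lit 1071433012) (nat_lit 1292) (nat_lit 19652742981) (nat_lit 277) (nat_lit 5) (nat_lit 293) (nat_lit 5) (nat_lit 294) (nat_lit 5) (nat_lit 449) (nat_lit 445) (nat_lit 306)) (XT.lf (nat_lit 0) (nat_lit 22613971966) (nat_lit 1216) (nat_lit 7757697957) (nat_lit 1292) (nat_lit 11025707312) (nat_lit 278) (nat_lit 5) (nat_lit 294) (nat_lit 5) (nat_lit 295) (nat_lit 5) (nat_lit 450) (nat_lit 445) (nat_lit 305))))) (XT.nd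 (nat_lit 234) (nat_lit 1064) (nat_lit 0) (XT.nd (nat_lit 78) (nat_lit 0) (nat_lit 0) (XT.lf (nat_lit 0) (nat_lit 26239018083) (nat_lit 1216) (nat_lit 14526029374) (nat_lit 1292) (nat_lit 1703130891) (nat_lit 279) (nat_lit 5) (nat_lit 295) (nat_lit 5) (nat_lit 296) (nat_lit 5) (nat_lit 451) (nat_lit 445) (nat_lit 304)) (XT.nd (nat_lit 78) (nat_lit 0) (nat_lit 76) (XT.lf (nat_lit 76) (nat_lit 22120291036) (nat_lit 0) (nat_lit 8520803609) (nat_lit 1292) (nat_lit 12933552461) (nat_lit 280) (nat_lit 5) (nat_lit 279) (nat_lit 5) (nat_lit 296) (nat_lit 5) (nat_lit 452) (nat_lit 445) (nat_lit 303)) (XT.lf (nat_lit 76) (nat_lit 16239356532) (nat_lit 0) (nat_lit 19570697011) (nat_lit 1292) (nat_lit 8909983292) (nat_lit 281) (nat_lit 5) (nat_lit 280) (nat_lit 5) (nat_lit 297) (nat_lit 5) (nat_lit 453) (nat_lit 445) (nat_lit 302)))) (XT.nd (nat_lit 78) (nat_lit 1216) (nat_lit 0) (XT.lf (nat_lit 76) (nat_lit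 10322540310) (nat_lit 0) (nat_lit 31457124040) (nat_lit 1292) (nat_lit 4126766428) (nat_lit 282) (nat_lit 5) (nat_lit 281) (nat_lit 5) (nat_lit 298) (nat_lit 5) (nat_lit 454) (nat_lit 445) (nat_lit 301)) (XT.nd (nat_lit 78) (nat_lit 0) (nat_lit 0) (XT.lf (nat_lit 0) (nat_lit 1439016688) (nat_lit 1292) (nat_lit 42773245061) (nat_lit 76) (nat_lit 2922798716) (nat_lit 265) (nat_lit 5) (nat_lit 282) (nat_lit 5) (nat_lit 266) (nat_lit 5) (nat_lit 455) (nat_lit 445) (nat_lit 300)) (XT.lf (nat_lit 0) (nat_lit 7882515129) (nat_lit 1292) (nat_lit 1731585144) (nat_lit 76) (nat_lit 38789253116) (nat_lit 265) (nat_lit 5) (nat_lit 282) (nat_lit 5) (nat_lit 266) (nat_lit 5) (nat_lit 456) (nat_lit 445) (nat_lit 299)))))) (XT.nd (nat_lit 468) (nat_lit 2812) (nat_lit 0) (XT.nd (nat_lit 234) (nat_lit 1672) (nat_lit 0) (XT.nd (nat_lit 78) (nat_lit 1216) (nat_lit 0) (XT.lf (nat_lit 0) (nat_lit 15311189596) (nat_lit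 836) (nat_lit 7801445425) (nat_lit 76) (nat_lit 26602536614) (nat_lit 255) (nat_lit 5) (nat_lit 266) (nat_lit 5) (nat_lit 256) (nat_lit 5) (nat_lit 457) (nat_lit 445) (nat_lit 298)) (XT.nd (nat_lit 78) (nat_lit 608) (nat_lit 0) (XT.lf (nat_lit 0) (nat_lit 23713853846) (nat_lit 684) (nat_lit 13897056088) (nat_lit 76) (nat_lit 13463594853) (nat_lit 247) (nat_lit 5) (nat_lit 256) (nat_lit 5) (nat_lit 248) (nat_lit 5) (nat_lit 458) (nat_lit 445) (nat_lit 297)) (XT.lf (nat_lit 0) (nat_lit 32465408380) (nat_lit 608) (nat_lit 694672171) (nat_lit 684) (nat_lit 19323021813) (nat_lit 239) (nat_lit 5) (nat_lit 247) (nat_lit 5) (nat_lit 248) (nat_lit 5) (nat_lit 459) (nat_lit 445) (nat_lit 296)))) (XT.nd (nat_lit 78) (nat_lit 1140) (nat_lit 0) (XT.lf (nat_lit 0) (nat_lit 27647774350) (nat_lit 532) (nat_lit 16204096522) (nat_lit 608) (nat_lit 10087061991) (nat_lit 232) (nat_lit 5) (nat_lit 239) (nat_lit 5)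 (nat_lit 240) (nat_lit 5) (nat_lit 460) (nat_lit 445) (nat_lit 295)) (XT.nd (nat_lit 78) (nat_lit 532) (nat_lit 0) (XT.lf (nat_lit 0) (nat_lit 274093765) (nat_lit 608) (nat_lit 32580244318) (nat_lit 76) (nat_lit 22593655601) (nat_lit 224) (nat_lit 5) (nat_lit 232) (nat_lit 5) (nat_lit 225) (nat_lit 5) (nat_lit 461) (nat_lit 445) (nat_lit 294)) (XT.lf (nat_lit 0) (nat_lit 11617525554) (nat_lit 608) (nat_lit 38982361104) (nat_lit 76) (nat_lit 6409440248) (nat_lit 217) (nat_lit 5) (nat_lit 225) (nat_lit 5) (nat_lit 218) (nat_lit 5) (nat_lit 462) (nat_lit 445) (nat_lit 293))))) (XT.nd (nat_lit 234) (nat_lit 1368) (nat_lit 0) (XT.nd (nat_lit 78) (nat_lit 912) (nat_lit 0) (XT.lf (nat_lit 0) (nat_lit 13124972142) (nat_lit 532) (nat_lit 11197007891) (nat_lit 608) (nat_lit 34302931735) (nat_lit 210) (nat_lit 5) (nat_lit 217) (nat_lit 5) (nat_lit 218) (nat_lit 5) (nat_lit 463) (nat_lit 445) (nat_lit 292))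 (XT.nd (nat_lit 78) (nat_lit 456) (nat_lit 0) (XT.lf (nat_lit 0) (nat_lit 8206233112) (nat_lit 456) (nat_lit 30227108355) (nat_lit 532) (nat_lit 21864784370) (nat_lit 204) (nat_lit 5) (nat_lit 210) (nat_lit 5) (nat_lit 211) (nat_lit 5) (nat_lit 464) (nat_lit 445) (nat_lit 291)) (XT.lf (nat_lit 0) (nat_lit 3346550388) (nat_lit 456) (nat_lit 50625267953) (nat_lit 532) (nat_lit 8061536313) (nat_lit 198) (nat_lit 5) (nat_lit 204) (nat_lit 5) (nat_lit 205) (nat_lit 5) (nat_lit 465) (nat_lit 445) (nat_lit 290)))) (XT.nd (nat_lit 156) (nat_lit 836) (nat_lit 0) (XT.nd (nat_lit 78) (nat_lit 456) (nat_lit 0) (XT.lf (nat_lit 0) (nat_lit 7150627644) (nat_lit 532) (nat_lit 1568860060) (nat_lit 76) (nat_lit 55108674950) (nat_lit 197) (nat_lit 5) (nat_lit 204) (nat_lit 5) (nat_lit 198) (nat_lit 5) (nat_lit 466) (nat_lit 445) (nat_lit 289)) (XT.lf (nat_lit 0) (nat_lit 23873345393) (nat_lit 532) (nat_lit 6557204449)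 (nat_lit 76) (nat_lit 35252266991) (nat_lit 191) (nat_lit 5) (nat_lit 198) (nat_lit 5) (nat_lit 192) (nat_lit 5) (nat_lit 467) (nat_lit 445) (nat_lit 288))) (XT.nd (nat_lit 78) (nat_lit 380) (nat_lit 0) (XT.lf (nat_lit 0) (nat_lit 42211584985) (nat_lit 532) (nat_lit 11482384164) (nat_lit 76) (nat_lit 13912853385) (nat_lit 185) (nat_lit 5) (nat_lit 192) (nat_lit 5) (nat_lit 186) (nat_lit 5) (nat_lit 468) (nat_lit 445) (nat_lit 287)) (XT.lf (nat_lit 0) (nat_lit 53179409195) (nat_lit 380) (nat_lit 9171720679) (nat_lit 456) (nat_lit 7249367219) (nat_lit 180) (nat_lit 5) (nat_lit 185) (nat_lit 5) (nat_lit 186) (nat_lit 5) (nat_lit 469) (nat_lit 445) (nat_lit 286))))))) (XT.nd (nat_lit 936) (nat_lit 1824) (nat_lit 0) (XT.nd (nat_lit 468) (nat_lit 1824) (nat_lit 0) (XT.nd (nat_lit 234) (nat_lit 1064) (nat_lit 0) (XT.nd (nat_lit 78) (nat_lit 760) (nat_lit 0) (XT.lf (nat_lit 0) (nat_lit 12544450778) (nat_lit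 456) (nat_lit 21548763481) (nat_lit 76) (nat_lit 37568107843) (nat_lit 174) (nat_lit 5) (nat_lit 180) (nat_lit 5) (nat_lit 175) (nat_lit 5) (nat_lit 470) (nat_lit 445) (nat_lit 285)) (XT.nd (nat_lit 78) (nat_lit 380) (nat_lit 0) (XT.lf (nat_lit 0) (nat_lit 34023254928) (nat_lit 456) (nat_lit 26682033188) (nat_lit 76) (nat_lit 13092390597) (nat_lit 169) (nat_lit 5) (nat_lit 175) (nat_lit 5) (nat_lit 170) (nat_lit 5) (nat_lit 471) (nat_lit 445) (nat_lit 284)) (XT.lf (nat_lit 0) (nat_lit 44141834940) (nat_lit 380) (nat_lit 13424690460) (nat_lit 456) (nat_lit 18444612284) (nat_lit 164) (nat_lit 5) (nat_lit 169) (nat_lit 5) (nat_lit 170) (nat_lit 5) (nat_lit 472) (nat_lit 445) (nat_lit 283)))) (XT.nd (nat_lit 78) (nat_lit 684) (nat_lit 0) (XT.lf (nat_lit 0) (nat_lit 4904285736) (nat_lit 380) (nat_lit 37165068332) (nat_lit 76) (nat_lit 36233885014) (nat_lit 159) (nat_lit 5) (nat_lit 164) (nat_lit 5)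 (nat_lit 160) (nat_lit 5) (nat_lit 473) (nat_lit 445) (nat_lit 282)) (XT.nd (nat_lit 78) (nat_lit 304) (nat_lit 0) (XT.lf (nat_lit 0) (nat_lit 29954541822) (nat_lit 456) (nat_lit 42579779764) (nat_lit 76) (nat_lit 8142684358) (nat_lit 154) (nat_lit 5) (nat_lit 160) (nat_lit 5) (nat_lit 155) (nat_lit 5) (nat_lit 474) (nat_lit 445) (nat_lit 281)) (XT.lf (nat_lit 0) (nat_lit 34993215203) (nat_lit 304) (nat_lit 22409695690) (nat_lit 380) (nat_lit 25732182514) (nat_lit 150) (nat_lit 5) (nat_lit 154) (nat_lit 5) (nat_lit 155) (nat_lit 5) (nat_lit 475) (nat_lit 445) (nat_lit 280))))) (XT.nd (nat_lit 234) (nat_lit 836) (nat_lit 0) (XT.nd (nat_lit 78) (nat_lit 608) (nat_lit 0) (XT.lf (nat_lit 0) (nat_lit 1546648037) (nat_lit 380) (nat_lit 53742089647) (nat_lit 76) (nat_lit 30395733210) (nat_lit 145) (nat_lit 5) (nat_lit 150) (nat_lit 5) (nat_lit 146) (nat_lit 5) (nat_lit 476) (nat_lit 445) (nat_lit 279))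 (XT.nd (nat_lit 78) (nat_lit 304) (nat_lit 0) (XT.lf (nat_lit 0) (nat_lit 28758341132) (nat_lit 304) (nat_lit 1905292247) (nat_lit 380) (nat_lit 57659849056) (nat_lit 141) (nat_lit 5) (nat_lit 145) (nat_lit 5) (nat_lit 146) (nat_lit 5) (nat_lit 477) (nat_lit 445) (nat_lit 278)) (XT.lf (nat_lit 0) (nat_lit 25396171764) (nat_lit 304) (nat_lit 37162004042) (nat_lit 380) (nat_lit 28496617733) (nat_lit 137) (nat_lit 5) (nat_lit 141) (nat_lit 5) (nat_lit 142) (nat_lit 5) (nat_lit 478) (nat_lit 445) (nat_lit 277)))) (XT.nd (nat_lit 78) (nat_lit 532) (nat_lit 0) (XT.lf (nat_lit 0) (nat_lit 3121364842) (nat_lit 304) (nat_lit 71749270860) (nat_lit 76) (nat_lit 19020280408) (nat_lit 133) (nat_lit 5) (nat_lit 137) (nat_lit 5) (nat_lit 134) (nat_lit 5) (nat_lit 479) (nat_lit 445) (nat_lit 276)) (XT.nd (nat_lit 78) (nat_lit 228) (nat_lit 0) (XT.lf (nat_lit 0) (nat_lit 18545566283) (nat_lit 304) (nat_lit 18425217363)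 (nat_lit 380) (nat_lit 59852400290) (nat_lit 129) (nat_lit 5) (nat_lit 133) (nat_lit 5) (nat_lit 134) (nat_lit 5) (nat_lit 480) (nat_lit 445) (nat_lit 275)) (XT.lf (nat_lit 0) (nat_lit 14862366001) (nat_lit 228) (nat_lit 58930194222) (nat_lit 304) (nat_lit 26071108510) (nat_lit 126) (nat_lit 5) (nat_lit 129) (nat_lit 5) (nat_lit 130) (nat_lit 5) (nat_lit 481) (nat_lit 445) (nat_lit 274)))))) (XT.nd (nat_lit 468) (nat_lit 456) (nat_lit 0) (XT.nd (nat_lit 234) (nat_lit 532) (nat_lit 0) (XT.nd (nat_lit 78) (nat_lit 456) (nat_lit 0) (XT.lf (nat_lit 0) (nat_lit 10330133736) (nat_lit 380) (nat_lit 91833698534) (nat_lit 76) (nat_lit 856206157) (nat_lit 121) (nat_lit 5) (nat_lit 126) (nat_lit 5) (nat_lit 122) (nat_lit 5) (nat_lit 482) (nat_lit 445) (nat_lit 273)) (XT.nd (nat_lit 78) (nat_lit 228) (nat_lit 0) (XT.lf (nat_lit 0) (nat_lit 6917799649) (nat_lit 228) (nat_lit 42643016500) (nat_lit 304) (nat_lit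 56719209669) (nat_lit 118) (nat_lit 5) (nat_lit 121) (nat_lit 5) (nat_lit 122) (nat_lit 5) (nat_lit 483) (nat_lit 445) (nat_lit 272)) (XT.lf (nat_lit 0) (nat_lit 2701561179) (nat_lit 228) (nat_lit 89221617625) (nat_lit 304) (nat_lit 17744729546) (nat_lit 115) (nat_lit 5) (nat_lit 118) (nat_lit 5) (nat_lit 119) (nat_lit 5) (nat_lit 484) (nat_lit 445) (nat_lit 271)))) (XT.nd (nat_lit 78) (nat_lit 456) (nat_lit 0) (XT.lf (nat_lit 0) (nat_lit 24188213505) (nat_lit 304) (nat_lit 1915109439) (nat_lit 76) (nat_lit 87071317003) (nat_lit 114) (nat_lit 5) (nat_lit 118) (nat_lit 5) (nat_lit 115) (nat_lit 5) (nat_lit 485) (nat_lit 445) (nat_lit 270)) (XT.nd (nat_lit 78) (nat_lit 228) (nat_lit 0) (XT.lf (nat_lit 0) (nat_lit 69312219684) (nat_lit 304) (nat_lit 6856917015) (nat_lit 76) (nat_lit 40638458723) (nat_lit 111) (nat_lit 5) (nat_lit 115) (nat_lit 5) (nat_lit 112) (nat_lit 5) (nat_lit 486) (nat_lit 445)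 (nat_lit 269)) (XT.lf (nat_lit 0) (nat_lit 108683255177) (nat_lit 228) (nat_lit 9336030275) (nat_lit 304) (nat_lit 2563107570) (nat_lit 108) (nat_lit 5) (nat_lit 111) (nat_lit 5) (nat_lit 112) (nat_lit 5) (nat_lit 487) (nat_lit 445) (nat_lit 268))))) (XT.nd (nat_lit 59280) (nat_lit 0) (nat_lit 13148) (XT.nd (nat_lit 78) (nat_lit 228) (nat_lit 0) (XT.lf (nat_lit 0) (nat_lit 45446259119) (nat_lit 228) (nat_lit 17838625667) (nat_lit 76) (nat_lit 61197146625) (nat_lit 105) (nat_lit 5) (nat_lit 108) (nat_lit 5) (nat_lit 106) (nat_lit 5) (nat_lit 488) (nat_lit 445) (nat_lit 267)) (XT.nd (nat_lit 59124) (nat_lit 0) (nat_lit 13072) (XT.lf (nat_lit 0) (nat_lit 97100691825) (nat_lit 304) (nat_lit 23904322030) (nat_lit 76) (nat_lit 7531948462) (nat_lit 102) (nat_lit 5) (nat_lit 106) (nat_lit 5) (nat_lit 103) (nat_lit 5) (nat_lit 489) (nat_lit 445) (nat_lit 266)) (XT.lf (nat_lit 0) (nat_lit 7310828108) (nat_lit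 1292) (nat_lit 5939267799) (nat_lit 1292) (nat_lit 5939267799) (nat_lit 274) (nat_lit 3) (nat_lit 291) (nat_lit 3) (nat_lit 291) (nat_lit 5) (nat_lit 446) (nat_lit 446) (nat_lit 308)))) (XT.nd (nat_lit 156) (nat_lit 0) (nat_lit 76) (XT.nd (nat_lit 78) (nat_lit 0) (nat_lit 0) (XT.lf (nat_lit 0) (nat_lit 15294706746) (nat_lit 1216) (nat_lit 19525702388) (nat_lit 1292) (nat_lit 4508544323) (nat_lit 275) (nat_lit 5) (nat_lit 291) (nat_lit 5) (nat_lit 292) (nat_lit 5) (nat_lit 447) (nat_lit 446) (nat_lit 307)) (XT.lf (nat_lit 76) (nat_lit 12976260212) (nat_lit 0) (nat_lit 3536204399) (nat_lit 1292) (nat_lit 23798895627) (nat_lit 276) (nat_lit 5) (nat_lit 275) (nat_lit 5) (nat_lit 292) (nat_lit 5) (nat_lit 448) (nat_lit 446) (nat_lit 306))) (XT.nd (nat_lit 78) (nat_lit 0) (nat_lit 76) (XT.lf (nat_lit 76) (nat_lit 6005240963) (nat_lit 0) (nat_lit 12323924099) (nat_lit 1292) (nat_lit 22997581682) (nat_lit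 277) (nat_lit 5) (nat_lit 276) (nat_lit 5) (nat_lit 293) (nat_lit 5) (nat_lit 449) (nat_lit 446) (nat_lit 305)) (XT.lf (nat_lit 0) (nat_lit 20751013549) (nat_lit 1216) (nat_lit 1040534021) (nat_lit 1292) (nat_lit 20585926594) (nat_lit 277) (nat_lit 5) (nat_lit 293) (nat_lit 5) (nat_lit 294) (nat_lit 5) (nat_lit 450) (nat_lit 446) (nat_lit 304))))))))
noncomputable def xc113 : XT := (XT.nd (nat_lit 1950) (nat_lit 3724) (nat_lit 0) (XT.nd (nat_lit 936) (nat_lit 5320) (nat_lit 0) (XT.nd (nat_lit 468) (nat_lit 3116) (nat_lit 0) (XT.nd (nat_lit 234) (nat_lit 988) (nat_lit 0) (XT.nd (nat_lit 78) (nat_lit 0) (nat_lit 76) (XT.lf (nat_lit 0) (nat_lit 23868854344) (nat_lit 1216) (nat_lit 8059358122) (nat_lit 1292) (nat_lit 11535279427) (nat_lit 278) (nat_lit 5) (nat_lit 294) (nat_lit 5) (nat_lit 295) (nat_lit 5) (nat_lit 451) (nat_lit 446) (nat_lit 303)) (XT.nd (nat_lit 78) (nat_lit 0) (nat_lit 0) (XT.lf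 (nat_lit 0) (nat_lit 27669704801) (nat_lit 1216) (nat_lit 15164638602) (nat_lit 1292) (nat_lit 1753654465) (nat_lit 279) (nat_lit 5) (nat_lit 295) (nat_lit 5) (nat_lit 296) (nat_lit 5) (nat_lit 452) (nat_lit 446) (nat_lit 302)) (XT.lf (nat_lit 76) (nat_lit 23311484149) (nat_lit 0) (nat_lit 8975565745) (nat_lit 1292) (nat_lit 13462886530) (nat_lit 280) (nat_lit 5) (nat_lit 279) (nat_lit 5) (nat_lit 296) (nat_lit 5) (nat_lit 453) (nat_lit 446) (nat_lit 301)))) (XT.nd (nat_lit 78) (nat_lit 1140) (nat_lit 0) (XT.lf (nat_lit 76) (nat_lit 17137673816) (nat_lit 0) (nat_lit 20571926185) (nat_lit 1292) (nat_lit 9243142580) (nat_lit 281) (nat_lit 5) (nat_lit 280) (nat_lit 5) (nat_lit 297) (nat_lit 5) (nat_lit 454) (nat_lit 446) (nat_lit 300)) (XT.nd (nat_lit 78) (nat_lit 1216) (nat_lit 0) (XT.lf (nat_lit 76) (nat_lit 10925955106) (nat_lit 0) (nat_lit 33047174980) (nat_lit 1292) (nat_lit 4225464152) (nat_lit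 282) (nat_lit 5) (nat_lit 281) (nat_lit 5) (nat_lit 298) (nat_lit 5) (nat_lit 455) (nat_lit 446) (nat_lit 299)) (XT.lf (nat_lit 0) (nat_lit 1612177388) (nat_lit 1292) (nat_lit 44821857420) (nat_lit 76) (nat_lit 3054720560) (nat_lit 265) (nat_lit 5) (nat_lit 282) (nat_lit 5) (nat_lit 266) (nat_lit 5) (nat_lit 456) (nat_lit 446) (nat_lit 298))))) (XT.nd (nat_lit 234) (nat_lit 1748) (nat_lit 0) (XT.nd (nat_lit 78) (nat_lit 1368) (nat_lit 0) (XT.lf (nat_lit 0) (nat_lit 8373031234) (nat_lit 1292) (nat_lit 1732402597) (nat_lit 76) (nat_lit 40715174732) (nat_lit 265) (nat_lit 5) (nat_lit 282) (nat_lit 5) (nat_lit 266) (nat_lit 5) (nat_lit 457) (nat_lit 446) (nat_lit 297)) (XT.nd (nat_lit 78) (nat_lit 608) (nat_lit 0) (XT.lf (nat_lit 0) (nat_lit 16169260796) (nat_lit 836) (nat_lit 8105327034) (nat_lit 76) (nat_lit 27923547239) (nat_lit 255) (nat_lit 5) (nat_lit 266) (nat_lit 5) (nat_lit 256) (nat_lit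 5) (nat_lit 458) (nat_lit 446) (nat_lit 296)) (XT.lf (nat_lit 0) (nat_lit 24988407807) (nat_lit 684) (nat_lit 14505452780) (nat_lit 76) (nat_lit 14131684748) (nat_lit 247) (nat_lit 5) (nat_lit 256) (nat_lit 5) (nat_lit 248) (nat_lit 5) (nat_lit 459) (nat_lit 446) (nat_lit 295)))) (XT.nd (nat_lit 78) (nat_lit 1140) (nat_lit 0) (XT.lf (nat_lit 0) (nat_lit 34172656664) (nat_lit 608) (nat_lit 730864941) (nat_lit 684) (nat_lit 20201154811) (nat_lit 239) (nat_lit 5) (nat_lit 247) (nat_lit 5) (nat_lit 248) (nat_lit 5) (nat_lit 460) (nat_lit 446) (nat_lit 294)) (XT.nd (nat_lit 78) (nat_lit 608) (nat_lit 0) (XT.lf (nat_lit 0) (nat_lit 29114254429) (nat_lit 532) (nat_lit 17012373563) (nat_lit 608) (nat_lit 10506769507) (nat_lit 232) (nat_lit 5) (nat_lit 239) (nat_lit 5) (nat_lit 240) (nat_lit 5) (nat_lit 461) (nat_lit 446) (nat_lit 293)) (XT.lf (nat_lit 0) (nat_lit 367674201) (nat_lit 608) (nat_lit 34123577279)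 (nat_lit 76) (nat_lit 23726729805) (nat_lit 224) (nat_lit 5) (nat_lit 232) (nat_lit 5) (nat_lit 225) (nat_lit 5) (nat_lit 462) (nat_lit 446) (nat_lit 292)))))) (XT.nd (nat_lit 468) (nat_lit 2812) (nat_lit 0) (XT.nd (nat_lit 234) (nat_lit 988) (nat_lit 0) (XT.nd (nat_lit 78) (nat_lit 988) (nat_lit 0) (XT.lf (nat_lit 0) (nat_lit 12275335017) (nat_lit 608) (nat_lit 40845995711) (nat_lit 76) (nat_lit 6736139469) (nat_lit 217) (nat_lit 5) (nat_lit 225) (nat_lit 5) (nat_lit 218) (nat_lit 5) (nat_lit 463) (nat_lit 446) (nat_lit 291)) (XT.nd (nat_lit 78) (nat_lit 456) (nat_lit 0) (XT.lf (nat_lit 0) (nat_lit 13864253832) (nat_lit 532) (nat_lit 11747893068) (nat_lit 608) (nat_lit 35941774079) (nat_lit 210) (nat_lit 5) (nat_lit 217) (nat_lit 5) (nat_lit 218) (nat_lit 5) (nat_lit 464) (nat_lit 446) (nat_lit 290)) (XT.lf (nat_lit 0) (nat_lit 8699286287) (nat_lit 456) (nat_lit 31727140515) (nat_lit 532) (nat_lit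 22884449120) (nat_lit 204) (nat_lit 5) (nat_lit 210) (nat_lit 5) (nat_lit 211) (nat_lit 5) (nat_lit 465) (nat_lit 446) (nat_lit 289)))) (XT.nd (nat_lit 78) (nat_lit 532) (nat_lit 0) (XT.lf (nat_lit 0) (nat_lit 3596236330) (nat_lit 456) (nat_lit 53143085663) (nat_lit 532) (nat_lit 8393620004) (nat_lit 198) (nat_lit 5) (nat_lit 204) (nat_lit 5) (nat_lit 205) (nat_lit 5) (nat_lit 466) (nat_lit 446) (nat_lit 288)) (XT.nd (nat_lit 78) (nat_lit 456) (nat_lit 0) (XT.lf (nat_lit 0) (nat_lit 7574452162) (nat_lit 532) (nat_lit 1567535078) (nat_lit 76) (nat_lit 57875582724) (nat_lit 197) (nat_lit 5) (nat_lit 204) (nat_lit 5) (nat_lit 198) (nat_lit 5) (nat_lit 467) (nat_lit 446) (nat_lit 287)) (XT.lf (nat_lit 0) (nat_lit 25131024516) (nat_lit 532) (nat_lit 6805786067) (nat_lit 76) (nat_lit 37028215281) (nat_lit 191) (nat_lit 5) (nat_lit 198) (nat_lit 5) (nat_lit 192) (nat_lit 5) (nat_lit 468) (nat_lit 446)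 (nat_lit 286))))) (XT.nd (nat_lit 234) (nat_lit 1520) (nat_lit 0) (XT.nd (nat_lit 78) (nat_lit 836) (nat_lit 0) (XT.lf (nat_lit 0) (nat_lit 44384015228) (nat_lit 532) (nat_lit 11977782340) (nat_lit 76) (nat_lit 14623499653) (nat_lit 185) (nat_lit 5) (nat_lit 192) (nat_lit 5) (nat_lit 186) (nat_lit 5) (nat_lit 469) (nat_lit 446) (nat_lit 285)) (XT.nd (nat_lit 78) (nat_lit 456) (nat_lit 0) (XT.lf (nat_lit 0) (nat_lit 55914844164) (nat_lit 380) (nat_lit 9613482935) (nat_lit 456) (nat_lit 7550395235) (nat_lit 180) (nat_lit 5) (nat_lit 185) (nat_lit 5) (nat_lit 186) (nat_lit 5) (nat_lit 470) (nat_lit 446) (nat_lit 284)) (XT.lf (nat_lit 0) (nat_lit 13229938112) (nat_lit 456) (nat_lit 22549168852) (nat_lit 76) (nat_lit 39463523692) (nat_lit 174) (nat_lit 5) (nat_lit 180) (nat_lit 5) (nat_lit 175) (nat_lit 5) (nat_lit 471) (nat_lit 446) (nat_lit 283)))) (XT.nd (nat_lit 156) (nat_lit 760) (nat_lit 0) (XT.nd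 (nat_lit 78) (nat_lit 380) (nat_lit 0) (XT.lf (nat_lit 0) (nat_lit 35780806156) (nat_lit 456) (nat_lit 27939793680) (nat_lit 76) (nat_lit 13765262009) (nat_lit 169) (nat_lit 5) (nat_lit 175) (nat_lit 5) (nat_lit 170) (nat_lit 5) (nat_lit 472) (nat_lit 446) (nat_lit 282)) (XT.lf (nat_lit 0) (nat_lit 46423079551) (nat_lit 380) (nat_lit 14076188237) (nat_lit 456) (nat_lit 19310785583) (nat_lit 164) (nat_lit 5) (nat_lit 169) (nat_lit 5) (nat_lit 170) (nat_lit 5) (nat_lit 473) (nat_lit 446) (nat_lit 281))) (XT.nd (nat_lit 78) (nat_lit 380) (nat_lit 0) (XT.lf (nat_lit 0) (nat_lit 5202741540) (nat_lit 380) (nat_lit 38948816924) (nat_lit 76) (nat_lit 38065237269) (nat_lit 159) (nat_lit 5) (nat_lit 164) (nat_lit 5) (nat_lit 160) (nat_lit 5) (nat_lit 474) (nat_lit 446) (nat_lit 280)) (XT.lf (nat_lit 0) (nat_lit 31503872328) (nat_lit 456) (nat_lit 44635051415) (nat_lit 76) (nat_lit 8570376723) (nat_lit 154)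 (nat_lit 5) (nat_lit 160) (nat_lit 5) (nat_lit 155) (nat_lit 5) (nat_lit 475) (nat_lit 446) (nat_lit 279))))))) (XT.nd (nat_lit 1014) (nat_lit 228) (nat_lit 0) (XT.nd (nat_lit 468) (nat_lit 1596) (nat_lit 0) (XT.nd (nat_lit 234) (nat_lit 912) (nat_lit 0) (XT.nd (nat_lit 78) (nat_lit 684) (nat_lit 0) (XT.lf (nat_lit 0) (nat_lit 36814480208) (nat_lit 304) (nat_lit 23508410643) (nat_lit 380) (nat_lit 26967454887) (nat_lit 150) (nat_lit 5) (nat_lit 154) (nat_lit 5) (nat_lit 155) (nat_lit 5) (nat_lit 476) (nat_lit 446) (nat_lit 278)) (XT.nd (nat_lit 78) (nat_lit 304) (nat_lit 0) (XT.lf (nat_lit 0) (nat_lit 1672807183) (nat_lit 380) (nat_lit 56357407891) (nat_lit 76) (nat_lit 31937007806) (nat_lit 145) (nat_lit 5) (nat_lit 150) (nat_lit 5) (nat_lit 146) (nat_lit 5) (nat_lit 477) (nat_lit 446) (nat_lit 277)) (XT.lf (nat_lit 0) (nat_lit 30265986690) (nat_lit 304) (nat_lit 1978000293) (nat_lit 380) (nat_lit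 60494247982) (nat_lit 141) (nat_lit 5) (nat_lit 145) (nat_lit 5) (nat_lit 146) (nat_lit 5) (nat_lit 478) (nat_lit 446) (nat_lit 276)))) (XT.nd (nat_lit 78) (nat_lit 608) (nat_lit 0) (XT.lf (nat_lit 0) (nat_lit 26734880331) (nat_lit 304) (nat_lit 38996998728) (nat_lit 380) (nat_lit 29874274195) (nat_lit 137) (nat_lit 5) (nat_lit 141) (nat_lit 5) (nat_lit 142) (nat_lit 5) (nat_lit 479) (nat_lit 446) (nat_lit 275)) (XT.nd (nat_lit 78) (nat_lit 304) (nat_lit 0) (XT.lf (nat_lit 0) (nat_lit 3322358635) (nat_lit 304) (nat_lit 75267784986) (nat_lit 76) (nat_lit 19993964862) (nat_lit 133) (nat_lit 5) (nat_lit 137) (nat_lit 5) (nat_lit 134) (nat_lit 5) (nat_lit 480) (nat_lit 446) (nat_lit 274)) (XT.lf (nat_lit 0) (nat_lit 19539817594) (nat_lit 304) (nat_lit 19322935258) (nat_lit 380) (nat_lit 62800281983) (nat_lit 129) (nat_lit 5) (nat_lit 133) (nat_lit 5) (nat_lit 134) (nat_lit 5) (nat_lit 481) (nat_lit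 446) (nat_lit 273))))) (XT.nd (nat_lit 234) (nat_lit 760) (nat_lit 0) (XT.nd (nat_lit 78) (nat_lit 608) (nat_lit 0) (XT.lf (nat_lit 0) (nat_lit 15671588503) (nat_lit 228) (nat_lit 61852812625) (nat_lit 304) (nat_lit 27331179514) (nat_lit 126) (nat_lit 5) (nat_lit 129) (nat_lit 5) (nat_lit 130) (nat_lit 5) (nat_lit 482) (nat_lit 446) (nat_lit 272)) (XT.nd (nat_lit 78) (nat_lit 228) (nat_lit 0) (XT.lf (nat_lit 0) (nat_lit 10888100068) (nat_lit 380) (nat_lit 96359332237) (nat_lit 76) (nat_lit 922359501) (nat_lit 121) (nat_lit 5) (nat_lit 126) (nat_lit 5) (nat_lit 122) (nat_lit 5) (nat_lit 483) (nat_lit 446) (nat_lit 271)) (XT.lf (nat_lit 0) (nat_lit 7327847511) (nat_lit 228) (nat_lit 44751111547) (nat_lit 304) (nat_lit 59513860461) (nat_lit 118) (nat_lit 5) (nat_lit 121) (nat_lit 5) (nat_lit 122) (nat_lit 5) (nat_lit 484) (nat_lit 446) (nat_lit 270)))) (XT.nd (nat_lit 156) (nat_lit 456) (nat_lit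 0) (XT.nd (nat_lit 78) (nat_lit 76) (nat_lit 0) (XT.lf (nat_lit 0) (nat_lit 2899906408) (nat_lit 228) (nat_lit 93658452203) (nat_lit 304) (nat_lit 18591770219) (nat_lit 115) (nat_lit 5) (nat_lit 118) (nat_lit 5) (nat_lit 119) (nat_lit 5) (nat_lit 485) (nat_lit 446) (nat_lit 269)) (XT.lf (nat_lit 0) (nat_lit 25435158885) (nat_lit 304) (nat_lit 1949859462) (nat_lit 76) (nat_lit 91447223570) (nat_lit 114) (nat_lit 5) (nat_lit 118) (nat_lit 5) (nat_lit 115) (nat_lit 5) (nat_lit 486) (nat_lit 446) (nat_lit 268))) (XT.nd (nat_lit 78) (nat_lit 228) (nat_lit 0) (XT.lf (nat_lit 0) (nat_lit 72814368130) (nat_lit 304) (nat_lit 7139633332) (nat_lit 76) (nat_lit 42692873811) (nat_lit 111) (nat_lit 5) (nat_lit 115) (nat_lit 5) (nat_lit 112) (nat_lit 5) (nat_lit 487) (nat_lit 446) (nat_lit 267)) (XT.lf (nat_lit 0) (nat_lit 114175823868) (nat_lit 228) (nat_lit 9779784873) (nat_lit 304) (nat_lit 2654839547) (nat_lit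 108) (nat_lit 5) (nat_lit 111) (nat_lit 5) (nat_lit 112) (nat_lit 5) (nat_lit 488) (nat_lit 446) (nat_lit 266)))))) (XT.nd (nat_lit 59592) (nat_lit 0) (nat_lit 12160) (XT.nd (nat_lit 59358) (nat_lit 0) (nat_lit 12920) (XT.nd (nat_lit 59202) (nat_lit 0) (nat_lit 12844) (XT.lf (nat_lit 0) (nat_lit 47753355891) (nat_lit 228) (nat_lit 18672310918) (nat_lit 76) (nat_lit 64279419316) (nat_lit 105) (nat_lit 5) (nat_lit 108) (nat_lit 5) (nat_lit 106) (nat_lit 5) (nat_lit 489) (nat_lit 446) (nat_lit 265)) (XT.nd (nat_lit 78) (nat_lit 0) (nat_lit 76) (XT.lf (nat_lit 0) (nat_lit 7747746551) (nat_lit 1292) (nat_lit 6199463712) (nat_lit 1292) (nat_lit 6199463712) (nat_lit 274) (nat_lit 3) (nat_lit 291) (nat_lit 3) (nat_lit 291) (nat_lit 5) (nat_lit 447) (nat_lit 447) (nat_lit 306)) (XT.lf (nat_lit 0) (nat_lit 16195458052) (nat_lit 1216) (nat_lit 20425802608) (nat_lit 1292) (nat_lit 4670028361) (nat_lit 275)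 (nat_lit 5) (nat_lit 291) (nat_lit 5) (nat_lit 292) (nat_lit 5) (nat_lit 448) (nat_lit 447) (nat_lit 305)))) (XT.nd (nat_lit 78) (nat_lit 0) (nat_lit 76) (XT.lf (nat_lit 76) (nat_lit 13699074298) (nat_lit 0) (nat_lit 3769263905) (nat_lit 1292) (nat_lit 24854652411) (nat_lit 276) (nat_lit 5) (nat_lit 275) (nat_lit 5) (nat_lit 292) (nat_lit 5) (nat_lit 449) (nat_lit 447) (nat_lit 304)) (XT.nd (nat_lit 78) (nat_lit 0) (nat_lit 76) (XT.lf (nat_lit 76) (nat_lit 6381732827) (nat_lit 0) (nat_lit 12988156264) (nat_lit 1292) (nat_lit 24019438327) (nat_lit 277) (nat_lit 5) (nat_lit 276) (nat_lit 5) (nat_lit 293) (nat_lit 5) (nat_lit 450) (nat_lit 447) (nat_lit 303)) (XT.lf (nat_lit 0) (nat_lit 21906472823) (nat_lit 1216) (nat_lit 1015943360) (nat_lit 1292) (nat_lit 21570367109) (nat_lit 277) (nat_lit 5) (nat_lit 293) (nat_lit 5) (nat_lit 294) (nat_lit 5) (nat_lit 451) (nat_lit 447) (nat_lit 302))))) (XT.nd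 (nat_lit 234) (nat_lit 988) (nat_lit 0) (XT.nd (nat_lit 78) (nat_lit 0) (nat_lit 76) (XT.lf (nat_lit 0) (nat_lit 25174935411) (nat_lit 1216) (nat_lit 8384117653) (nat_lit 1292) (nat_lit 12074208251) (nat_lit 278) (nat_lit 5) (nat_lit 294) (nat_lit 5) (nat_lit 295) (nat_lit 5) (nat_lit 452) (nat_lit 447) (nat_lit 301)) (XT.nd (nat_lit 78) (nat_lit 0) (nat_lit 0) (XT.lf (nat_lit 0) (nat_lit 29160886925) (nat_lit 1216) (nat_lit 15843331084) (nat_lit 1292) (nat_lit 1809924063) (nat_lit 279) (nat_lit 5) (nat_lit 295) (nat_lit 5) (nat_lit 296) (nat_lit 5) (nat_lit 453) (nat_lit 447) (nat_lit 300)) (XT.lf (nat_lit 76) (nat_lit 24554317822) (nat_lit 0) (nat_lit 9450395692) (nat_lit 1292) (nat_lit 14029596794) (nat_lit 280) (nat_lit 5) (nat_lit 279) (nat_lit 5) (nat_lit 296) (nat_lit 5) (nat_lit 454) (nat_lit 447) (nat_lit 299)))) (XT.nd (nat_lit 156) (nat_lit 1140) (nat_lit 0) (XT.nd (nat_lit 78) (nat_lit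 0) (nat_lit 76) (XT.lf (nat_lit 76) (nat_lit 18072879010) (nat_lit 0) (nat_lit 21621106914) (nat_lit 1292) (nat_lit 9603404129) (nat_lit 281) (nat_lit 5) (nat_lit 280) (nat_lit 5) (nat_lit 297) (nat_lit 5) (nat_lit 455) (nat_lit 447) (nat_lit 298)) (XT.lf (nat_lit 76) (nat_lit 11551425452) (nat_lit 0) (nat_lit 34715129864) (nat_lit 1292) (nat_lit 4339104164) (nat_lit 282) (nat_lit 5) (nat_lit 281) (nat_lit 5) (nat_lit 298) (nat_lit 5) (nat_lit 456) (nat_lit 447) (nat_lit 297))) (XT.nd (nat_lit 78) (nat_lit 0) (nat_lit 0) (XT.lf (nat_lit 0) (nat_lit 1784586589) (nat_lit 1292) (nat_lit 46981272382) (nat_lit 76) (nat_lit 3194560360) (nat_lit 265) (nat_lit 5) (nat_lit 282) (nat_lit 5) (nat_lit 266) (nat_lit 5) (nat_lit 457) (nat_lit 447) (nat_lit 296)) (XT.lf (nat_lit 0) (nat_lit 8879111683) (nat_lit 1292) (nat_lit 1741234242) (nat_lit 76) (nat_lit 42738651346) (nat_lit 265) (nat_lit 5) (nat_lit 282)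 (nat_lit 5) (nat_lit 266) (nat_lit 5) (nat_lit 458) (nat_lit 447) (nat_lit 295))))))))
noncomputable def xc114 : XT := (XT.nd (nat_lit 1950) (nat_lit 1368) (nat_lit 0) (XT.nd (nat_lit 936) (nat_lit 4484) (nat_lit 0) (XT.nd (nat_lit 468) (nat_lit 2432) (nat_lit 0) (XT.nd (nat_lit 234) (nat_lit 1672) (nat_lit 0) (XT.nd (nat_lit 78) (nat_lit 1216) (nat_lit 0) (XT.lf (nat_lit 0) (nat_lit 17061634694) (nat_lit 836) (nat_lit 8432415915) (nat_lit 76) (nat_lit 29311455933) (nat_lit 255) (nat_lit 5) (nat_lit 266) (nat_lit 5) (nat_lit 256) (nat_lit 5) (nat_lit 459) (nat_lit 447) (nat_lit 294)) (XT.nd (nat_lit 78) (nat_lit 608) (nat_lit 0) (XT.lf (nat_lit 0) (nat_lit 26318427988) (nat_lit 684) (nat_lit 15152307177) (nat_lit 76) (nat_lit 14833652344) (nat_lit 247) (nat_lit 5) (nat_lit 256) (nat_lit 5) (nat_lit 248) (nat_lit 5) (nat_lit 460) (nat_lit 447) (nat_lit 293)) (XT.lf (nat_lit 0) (nat_lit 35957459896)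 (nat_lit 608) (nat_lit 768731690) (nat_lit 684) (nat_lit 21131377547) (nat_lit 239) (nat_lit 5) (nat_lit 247) (nat_lit 5) (nat_lit 248) (nat_lit 5) (nat_lit 461) (nat_lit 447) (nat_lit 292)))) (XT.nd (nat_lit 78) (nat_lit 1140) (nat_lit 0) (XT.lf (nat_lit 0) (nat_lit 30646240494) (nat_lit 532) (nat_lit 17861243683) (nat_lit 608) (nat_lit 10955331944) (nat_lit 232) (nat_lit 5) (nat_lit 239) (nat_lit 5) (nat_lit 240) (nat_lit 5) (nat_lit 462) (nat_lit 447) (nat_lit 291)) (XT.nd (nat_lit 78) (nat_lit 532) (nat_lit 0) (XT.lf (nat_lit 0) (nat_lit 458507570) (nat_lit 608) (nat_lit 35752042533) (nat_lit 76) (nat_lit 24916142416) (nat_lit 224) (nat_lit 5) (nat_lit 232) (nat_lit 5) (nat_lit 225) (nat_lit 5) (nat_lit 463) (nat_lit 447) (nat_lit 290)) (XT.lf (nat_lit 0) (nat_lit 12958882435) (nat_lit 608) (nat_lit 42810759489) (nat_lit 76) (nat_lit 7078594704) (nat_lit 217) (nat_lit 5) (nat_lit 225) (nat_lit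 5) (nat_lit 218) (nat_lit 5) (nat_lit 464) (nat_lit 447) (nat_lit 289))))) (XT.nd (nat_lit 234) (nat_lit 988) (nat_lit 0) (XT.nd (nat_lit 78) (nat_lit 912) (nat_lit 0) (XT.lf (nat_lit 0) (nat_lit 14632779977) (nat_lit 532) (nat_lit 12327156005) (nat_lit 608) (nat_lit 37669652586) (nat_lit 210) (nat_lit 5) (nat_lit 217) (nat_lit 5) (nat_lit 218) (nat_lit 5) (nat_lit 465) (nat_lit 447) (nat_lit 288)) (XT.nd (nat_lit 78) (nat_lit 456) (nat_lit 0) (XT.lf (nat_lit 0) (nat_lit 9209299598) (nat_lit 456) (nat_lit 33303227013) (nat_lit 532) (nat_lit 23961937365) (nat_lit 204) (nat_lit 5) (nat_lit 210) (nat_lit 5) (nat_lit 211) (nat_lit 5) (nat_lit 466) (nat_lit 447) (nat_lit 287)) (XT.lf (nat_lit 0) (nat_lit 3850749664) (nat_lit 456) (nat_lit 55788044310) (nat_lit 532) (nat_lit 8748908148) (nat_lit 198) (nat_lit 5) (nat_lit 204) (nat_lit 5) (nat_lit 205) (nat_lit 5) (nat_lit 467) (nat_lit 447) (nat_lit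 286)))) (XT.nd (nat_lit 78) (nat_lit 912) (nat_lit 0) (XT.lf (nat_lit 0) (nat_lit 8013304599) (nat_lit 532) (nat_lit 1573559919) (nat_lit 76) (nat_lit 60779769141) (nat_lit 197) (nat_lit 5) (nat_lit 204) (nat_lit 5) (nat_lit 198) (nat_lit 5) (nat_lit 468) (nat_lit 447) (nat_lit 285)) (XT.nd (nat_lit 78) (nat_lit 456) (nat_lit 0) (XT.lf (nat_lit 0) (nat_lit 26445636381) (nat_lit 532) (nat_lit 7074167338) (nat_lit 76) (nat_lit 38891721229) (nat_lit 191) (nat_lit 5) (nat_lit 198) (nat_lit 5) (nat_lit 192) (nat_lit 5) (nat_lit 469) (nat_lit 447) (nat_lit 284)) (XT.lf (nat_lit 0) (nat_lit 46659316665) (nat_lit 532) (nat_lit 12505269161) (nat_lit 76) (nat_lit 15368283342) (nat_lit 185) (nat_lit 5) (nat_lit 192) (nat_lit 5) (nat_lit 186) (nat_lit 5) (nat_lit 470) (nat_lit 447) (nat_lit 283)))))) (XT.nd (nat_lit 468) (nat_lit 2128) (nat_lit 0) (XT.nd (nat_lit 234) (nat_lit 1140) (nat_lit 0) (XT.nd (nat_lit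 78) (nat_lit 836) (nat_lit 0) (XT.lf (nat_lit 0) (nat_lit 58779941937) (nat_lit 380) (nat_lit 10078897420) (nat_lit 456) (nat_lit 7872186793) (nat_lit 180) (nat_lit 5) (nat_lit 185) (nat_lit 5) (nat_lit 186) (nat_lit 5) (nat_lit 471) (nat_lit 447) (nat_lit 282)) (XT.nd (nat_lit 78) (nat_lit 380) (nat_lit 0) (XT.lf (nat_lit 0) (nat_lit 13944282904) (nat_lit 456) (nat_lit 23606756273) (nat_lit 76) (nat_lit 41452128862) (nat_lit 174) (nat_lit 5) (nat_lit 180) (nat_lit 5) (nat_lit 175) (nat_lit 5) (nat_lit 472) (nat_lit 447) (nat_lit 281)) (XT.lf (nat_lit 0) (nat_lit 37620992479) (nat_lit 456) (nat_lit 29267539674) (nat_lit 76) (nat_lit 14470080105) (nat_lit 169) (nat_lit 5) (nat_lit 175) (nat_lit 5) (nat_lit 170) (nat_lit 5) (nat_lit 473) (nat_lit 447) (nat_lit 280)))) (XT.nd (nat_lit 78) (nat_lit 760) (nat_lit 0) (XT.lf (nat_lit 0) (nat_lit 48811492362) (nat_lit 380) (nat_lit 14762095839) (nat_lit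 456) (nat_lit 20225479224) (nat_lit 164) (nat_lit 5) (nat_lit 169) (nat_lit 5) (nat_lit 170) (nat_lit 5) (nat_lit 474) (nat_lit 447) (nat_lit 279)) (XT.nd (nat_lit 78) (nat_lit 380) (nat_lit 0) (XT.lf (nat_lit 0) (nat_lit 5511170243) (nat_lit 380) (nat_lit 40828679699) (nat_lit 76) (nat_lit 39986329521) (nat_lit 159) (nat_lit 5) (nat_lit 164) (nat_lit 5) (nat_lit 160) (nat_lit 5) (nat_lit 475) (nat_lit 447) (nat_lit 278)) (XT.lf (nat_lit 0) (nat_lit 33125871762) (nat_lit 456) (nat_lit 46799940188) (nat_lit 76) (nat_lit 9017542405) (nat_lit 154) (nat_lit 5) (nat_lit 160) (nat_lit 5) (nat_lit 155) (nat_lit 5) (nat_lit 476) (nat_lit 447) (nat_lit 277))))) (XT.nd (nat_lit 234) (nat_lit 1140) (nat_lit 0) (XT.nd (nat_lit 78) (nat_lit 684) (nat_lit 0) (XT.lf (nat_lit 0) (nat_lit 38720151379) (nat_lit 304) (nat_lit 24664085296) (nat_lit 380) (nat_lit 28269263682) (nat_lit 150) (nat_lit 5) (nat_lit 154)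 (nat_lit 5) (nat_lit 155) (nat_lit 5) (nat_lit 477) (nat_lit 447) (nat_lit 276)) (XT.nd (nat_lit 78) (nat_lit 304) (nat_lit 0) (XT.lf (nat_lit 0) (nat_lit 1800734838) (nat_lit 380) (nat_lit 59110166051) (nat_lit 76) (nat_lit 33553348387) (nat_lit 145) (nat_lit 5) (nat_lit 150) (nat_lit 5) (nat_lit 146) (nat_lit 5) (nat_lit 478) (nat_lit 447) (nat_lit 275)) (XT.lf (nat_lit 0) (nat_lit 31842531830) (nat_lit 304) (nat_lit 2056440836) (nat_lit 380) (nat_lit 63474884619) (nat_lit 141) (nat_lit 5) (nat_lit 145) (nat_lit 5) (nat_lit 146) (nat_lit 5) (nat_lit 479) (nat_lit 447) (nat_lit 274)))) (XT.nd (nat_lit 156) (nat_lit 532) (nat_lit 0) (XT.nd (nat_lit 78) (nat_lit 304) (nat_lit 0) (XT.lf (nat_lit 0) (nat_lit 28134118660) (nat_lit 304) (nat_lit 40925891279) (nat_lit 380) (nat_lit 31325199310) (nat_lit 137) (nat_lit 5) (nat_lit 141) (nat_lit 5) (nat_lit 142) (nat_lit 5) (nat_lit 480) (nat_lit 447)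 (nat_lit 273)) (XT.lf (nat_lit 0) (nat_lit 3529225365) (nat_lit 304) (nat_lit 78968635081) (nat_lit 76) (nat_lit 21014225857) (nat_lit 133) (nat_lit 5) (nat_lit 137) (nat_lit 5) (nat_lit 134) (nat_lit 5) (nat_lit 481) (nat_lit 447) (nat_lit 272))) (XT.nd (nat_lit 78) (nat_lit 228) (nat_lit 0) (XT.lf (nat_lit 0) (nat_lit 20577554955) (nat_lit 304) (nat_lit 20267727851) (nat_lit 380) (nat_lit 65899717105) (nat_lit 129) (nat_lit 5) (nat_lit 133) (nat_lit 5) (nat_lit 134) (nat_lit 5) (nat_lit 482) (nat_lit 447) (nat_lit 271)) (XT.lf (nat_lit 0) (nat_lit 16515126389) (nat_lit 228) (nat_lit 64923783135) (nat_lit 304) (nat_lit 28658296837) (nat_lit 126) (nat_lit 5) (nat_lit 129) (nat_lit 5) (nat_lit 130) (nat_lit 5) (nat_lit 483) (nat_lit 447) (nat_lit 270))))))) (XT.nd (nat_lit 60216) (nat_lit 0) (nat_lit 7296) (XT.nd (nat_lit 59670) (nat_lit 0) (nat_lit 12616) (XT.nd (nat_lit 234) (nat_lit 532) (nat_lit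 0) (XT.nd (nat_lit 78) (nat_lit 456) (nat_lit 0) (XT.lf (nat_lit 0) (nat_lit 11470110193) (nat_lit 380) (nat_lit 101117388441) (nat_lit 76) (nat_lit 989650298) (nat_lit 121) (nat_lit 5) (nat_lit 126) (nat_lit 5) (nat_lit 122) (nat_lit 5) (nat_lit 484) (nat_lit 447) (nat_lit 269)) (XT.nd (nat_lit 78) (nat_lit 228) (nat_lit 0) (XT.lf (nat_lit 0) (nat_lit 7752432975) (nat_lit 228) (nat_lit 46966847825) (nat_lit 304) (nat_lit 62452084376) (nat_lit 118) (nat_lit 5) (nat_lit 121) (nat_lit 5) (nat_lit 122) (nat_lit 5) (nat_lit 485) (nat_lit 447) (nat_lit 268)) (XT.lf (nat_lit 0) (nat_lit 3102286917) (nat_lit 228) (nat_lit 98319382702) (nat_lit 304) (nat_lit 19484899949) (nat_lit 115) (nat_lit 5) (nat_lit 118) (nat_lit 5) (nat_lit 119) (nat_lit 5) (nat_lit 486) (nat_lit 447) (nat_lit 267)))) (XT.nd (nat_lit 78) (nat_lit 456) (nat_lit 0) (XT.lf (nat_lit 0) (nat_lit 26740961913) (nat_lit 304) (nat_lit 1992018695)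 (nat_lit 76) (nat_lit 96039848437) (nat_lit 114) (nat_lit 5) (nat_lit 118) (nat_lit 5) (nat_lit 115) (nat_lit 5) (nat_lit 487) (nat_lit 447) (nat_lit 266)) (XT.nd (nat_lit 78) (nat_lit 228) (nat_lit 0) (XT.lf (nat_lit 0) (nat_lit 76488227091) (nat_lit 304) (nat_lit 7442075740) (nat_lit 76) (nat_lit 44847918546) (nat_lit 111) (nat_lit 5) (nat_lit 115) (nat_lit 5) (nat_lit 112) (nat_lit 5) (nat_lit 488) (nat_lit 447) (nat_lit 265)) (XT.lf (nat_lit 0) (nat_lit 119937590964) (nat_lit 228) (nat_lit 10247869884) (nat_lit 304) (nat_lit 2754544425) (nat_lit 108) (nat_lit 5) (nat_lit 111) (nat_lit 5) (nat_lit 112) (nat_lit 5) (nat_lit 489) (nat_lit 447) (nat_lit 264))))) (XT.nd (nat_lit 234) (nat_lit 0) (nat_lit 152) (XT.nd (nat_lit 78) (nat_lit 0) (nat_lit 76) (XT.lf (nat_lit 0) (nat_lit 8199874955) (nat_lit 1292) (nat_lit 6476087712) (nat_lit 1292) (nat_lit 6476087712) (nat_lit 274) (nat_lit 3) (nat_lit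 291) (nat_lit 3) (nat_lit 291) (nat_lit 5) (nat_lit 448) (nat_lit 448) (nat_lit 304)) (XT.nd (nat_lit 78) (nat_lit 0) (nat_lit 0) (XT.lf (nat_lit 0) (nat_lit 17128601448) (nat_lit 1216) (nat_lit 21377990788) (nat_lit 1292) (nat_lit 4845531431) (nat_lit 275) (nat_lit 5) (nat_lit 291) (nat_lit 5) (nat_lit 292) (nat_lit 5) (nat_lit 449) (nat_lit 448) (nat_lit 303)) (XT.lf (nat_lit 76) (nat_lit 14451149169) (nat_lit 0) (nat_lit 4008746862) (nat_lit 1292) (nat_lit 25975672563) (nat_lit 276) (nat_lit 5) (nat_lit 275) (nat_lit 5) (nat_lit 292) (nat_lit 5) (nat_lit 450) (nat_lit 448) (nat_lit 302)))) (XT.nd (nat_lit 156) (nat_lit 0) (nat_lit 152) (XT.nd (nat_lit 78) (nat_lit 0) (nat_lit 76) (XT.lf (nat_lit 76) (nat_lit 6769962159) (nat_lit 0) (nat_lit 13681134109) (nat_lit 1292) (nat_lit 25104290117) (nat_lit 277) (nat_lit 5) (nat_lit 276) (nat_lit 5) (nat_lit 293) (nat_lit 5) (nat_lit 451) (nat_lit 448)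 (nat_lit 301)) (XT.lf (nat_lit 0) (nat_lit 23108743036) (nat_lit 1216) (nat_lit 997246322) (nat_lit 1292) (nat_lit 22608199918) (nat_lit 277) (nat_lit 5) (nat_lit 293) (nat_lit 5) (nat_lit 294) (nat_lit 5) (nat_lit 452) (nat_lit 448) (nat_lit 300))) (XT.nd (nat_lit 78) (nat_lit 0) (nat_lit 76) (XT.lf (nat_lit 0) (nat_lit 26535848484) (nat_lit 1216) (nat_lit 8732386235) (nat_lit 1292) (nat_lit 12643601070) (nat_lit 278) (nat_lit 5) (nat_lit 294) (nat_lit 5) (nat_lit 295) (nat_lit 5) (nat_lit 453) (nat_lit 448) (nat_lit 299)) (XT.lf (nat_lit 0) (nat_lit 30716615519) (nat_lit 1216) (nat_lit 16563353014) (nat_lit 1292) (nat_lit 1871927635) (nat_lit 279) (nat_lit 5) (nat_lit 295) (nat_lit 5) (nat_lit 296) (nat_lit 5) (nat_lit 454) (nat_lit 448) (nat_lit 298)))))) (XT.nd (nat_lit 468) (nat_lit 3876) (nat_lit 0) (XT.nd (nat_lit 234) (nat_lit 1824) (nat_lit 0) (XT.nd (nat_lit 78) (nat_lit 0) (nat_lit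 76) (XT.lf (nat_lit 76) (nat_lit 25852110326) (nat_lit 0) (nat_lit 9946545100) (nat_lit 1292) (nat_lit 14634537802) (nat_lit 280) (nat_lit 5) (nat_lit 279) (nat_lit 5) (nat_lit 296) (nat_lit 5) (nat_lit 455) (nat_lit 448) (nat_lit 297)) (XT.nd (nat_lit 78) (nat_lit 0) (nat_lit 76) (XT.lf (nat_lit 76) (nat_lit 19047562872) (nat_lit 0) (nat_lit 22720832935) (nat_lit 1292) (nat_lit 9991152041) (nat_lit 281) (nat_lit 5) (nat_lit 280) (nat_lit 5) (nat_lit 297) (nat_lit 5) (nat_lit 456) (nat_lit 448) (nat_lit 296)) (XT.lf (nat_lit 76) (nat_lit 12200808597) (nat_lit 0) (nat_lit 36465032511) (nat_lit 1292) (nat_lit 4467503186) (nat_lit 282) (nat_lit 5) (nat_lit 281) (nat_lit 5) (nat_lit 298) (nat_lit 5) (nat_lit 457) (nat_lit 448) (nat_lit 295)))) (XT.nd (nat_lit 78) (nat_lit 760) (nat_lit 0) (XT.lf (nat_lit 0) (nat_lit 1957081526) (nat_lit 1292) (nat_lit 49256251730) (nat_lit 76) (nat_lit 3342591118)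 (nat_lit 265) (nat_lit 5) (nat_lit 282) (nat_lit 5) (nat_lit 266) (nat_lit 5) (nat_lit 458) (nat_lit 448) (nat_lit 294)) (XT.nd (nat_lit 78) (nat_lit 760) (nat_lit 0) (XT.lf (nat_lit 0) (nat_lit 9402367846) (nat_lit 1292) (nat_lit 1757739506) (nat_lit 76) (nat_lit 44864443666) (nat_lit 265) (nat_lit 5) (nat_lit 282) (nat_lit 5) (nat_lit 266) (nat_lit 5) (nat_lit 459) (nat_lit 448) (nat_lit 293)) (XT.lf (nat_lit 0) (nat_lit 17990826051) (nat_lit 836) (nat_lit 8783127439) (nat_lit 76) (nat_lit 30769528805) (nat_lit 255) (nat_lit 5) (nat_lit 266) (nat_lit 5) (nat_lit 256) (nat_lit 5) (nat_lit 460) (nat_lit 448) (nat_lit 292))))) (XT.nd (nat_lit 234) (nat_lit 2128) (nat_lit 0) (XT.nd (nat_lit 78) (nat_lit 1140) (nat_lit 0) (XT.lf (nat_lit 0) (nat_lit 27707455773) (nat_lit 684) (nat_lit 15838794878) (nat_lit 76) (nat_lit 15571147532) (nat_lit 247) (nat_lit 5) (nat_lit 256) (nat_lit 5) (nat_lit 248)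 (nat_lit 5) (nat_lit 461) (nat_lit 448) (nat_lit 291)) (XT.nd (nat_lit 78) (nat_lit 532) (nat_lit 0) (XT.lf (nat_lit 0) (nat_lit 37824421689) (nat_lit 608) (nat_lit 808368730) (nat_lit 684) (nat_lit 22115533723) (nat_lit 239) (nat_lit 5) (nat_lit 247) (nat_lit 5) (nat_lit 248) (nat_lit 5) (nat_lit 462) (nat_lit 448) (nat_lit 290)) (XT.lf (nat_lit 0) (nat_lit 32247734689) (nat_lit 532) (nat_lit 18752719873) (nat_lit 608) (nat_lit 11433460410) (nat_lit 232) (nat_lit 5) (nat_lit 239) (nat_lit 5) (nat_lit 240) (nat_lit 5) (nat_lit 463) (nat_lit 448) (nat_lit 289)))) (XT.nd (nat_lit 156) (nat_lit 988) (nat_lit 0) (XT.nd (nat_lit 78) (nat_lit 532) (nat_lit 0) (XT.lf (nat_lit 0) (nat_lit 547146924) (nat_lit 608) (nat_lit 37469156124) (nat_lit 76) (nat_lit 26164739669) (nat_lit 224) (nat_lit 5) (nat_lit 232) (nat_lit 5) (nat_lit 225) (nat_lit 5) (nat_lit 464) (nat_lit 448) (nat_lit 288)) (XT.lf (nat_lit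 0) (nat_lit 13670119679) (nat_lit 608) (nat_lit 44880970019) (nat_lit 76) (nat_lit 7437647579) (nat_lit 217) (nat_lit 5) (nat_lit 225) (nat_lit 5) (nat_lit 218) (nat_lit 5) (nat_lit 465) (nat_lit 448) (nat_lit 287))) (XT.nd (nat_lit 78) (nat_lit 456) (nat_lit 0) (XT.lf (nat_lit 0) (nat_lit 15432730498) (nat_lit 532) (nat_lit 12936138100) (nat_lit 608) (nat_lit 39490359526) (nat_lit 210) (nat_lit 5) (nat_lit 217) (nat_lit 5) (nat_lit 218) (nat_lit 5) (nat_lit 466) (nat_lit 448) (nat_lit 286)) (XT.lf (nat_lit 0) (nat_lit 9737836230) (nat_lit 456) (nat_lit 34959072692) (nat_lit 532) (nat_lit 25099504337) (nat_lit 204) (nat_lit 5) (nat_lit 210) (nat_lit 5) (nat_lit 211) (nat_lit 5) (nat_lit 467) (nat_lit 448) (nat_lit 285))))))))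
noncomputable def xc115 : XT := (XT.nd (nat_lit 61230) (nat_lit 0) (nat_lit 3648) (XT.nd (nat_lit 936) (nat_lit 2584) (nat_lit 0) (XT.nd (nat_lit 468) (nat_lit 2204) (nat_lit 0) (XT.nd (nat_lit 234) (nat_lit 1292) (nat_lit 0) (XT.nd (nat_lit 78) (nat_lit 532) (nat_lit 0) (XT.lf (nat_lit 0) (nat_lit 4111043626) (nat_lit 456) (nat_lit 58566384724) (nat_lit 532) (nat_lit 9127947336) (nat_lit 198) (nat_lit 5) (nat_lit 204) (nat_lit 5) (nat_lit 205) (nat_lit 5) (nat_lit 468) (nat_lit 448) (nat_lit 284)) (XT.nd (nat_lit 78) (nat_lit 456) (nat_lit 0) (XT.lf (nat_lit 0) (nat_lit 8468509356) (nat_lit 532) (nat_lit 1586612597) (nat_lit 76) (nat_lit 63828197308) (nat_lit 197) (nat_lit 5) (nat_lit 204) (nat_lit 5) (nat_lit 198) (nat_lit 5) (nat_lit 469) (nat_lit 448) (nat_lit 283)) (XT.lf (nat_lit 0) (nat_lit 27820580910) (nat_lit 532) (nat_lit 7362653001) (nat_lit 76) (nat_lit 40847277979) (nat_lit 191)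 (nat_lit 5) (nat_lit 198) (nat_lit 5) (nat_lit 192) (nat_lit 5) (nat_lit 470) (nat_lit 448) (nat_lit 282)))) (XT.nd (nat_lit 78) (nat_lit 836) (nat_lit 0) (XT.lf (nat_lit 0) (nat_lit 49043167464) (nat_lit 532) (nat_lit 13065768631) (nat_lit 76) (nat_lit 16149041007) (nat_lit 185) (nat_lit 5) (nat_lit 192) (nat_lit 5) (nat_lit 186) (nat_lit 5) (nat_lit 471) (nat_lit 448) (nat_lit 281)) (XT.nd (nat_lit 78) (nat_lit 456) (nat_lit 0) (XT.lf (nat_lit 0) (nat_lit 61781846575) (nat_lit 380) (nat_lit 10569001328) (nat_lit 456) (nat_lit 8215249010) (nat_lit 180) (nat_lit 5) (nat_lit 185) (nat_lit 5) (nat_lit 186) (nat_lit 5) (nat_lit 472) (nat_lit 448) (nat_lit 280)) (XT.lf (nat_lit 0) (nat_lit 14689431640) (nat_lit 456) (nat_lit 24723719009) (nat_lit 76) (nat_lit 43538729849) (nat_lit 174) (nat_lit 5) (nat_lit 180) (nat_lit 5) (nat_lit 175) (nat_lit 5) (nat_lit 473) (nat_lit 448) (nat_lit 279))))) (XT.nd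 (nat_lit 234) (nat_lit 1064) (nat_lit 0) (XT.nd (nat_lit 78) (nat_lit 760) (nat_lit 0) (XT.lf (nat_lit 0) (nat_lit 39548433046) (nat_lit 456) (nat_lit 30668110589) (nat_lit 76) (nat_lit 15208599979) (nat_lit 169) (nat_lit 5) (nat_lit 175) (nat_lit 5) (nat_lit 170) (nat_lit 5) (nat_lit 474) (nat_lit 448) (nat_lit 278)) (XT.nd (nat_lit 78) (nat_lit 380) (nat_lit 0) (XT.lf (nat_lit 0) (nat_lit 51313072725) (nat_lit 380) (nat_lit 15483963162) (nat_lit 456) (nat_lit 21190634692) (nat_lit 164) (nat_lit 5) (nat_lit 169) (nat_lit 5) (nat_lit 170) (nat_lit 5) (nat_lit 475) (nat_lit 448) (nat_lit 277)) (XT.lf (nat_lit 0) (nat_lit 5830530684) (nat_lit 380) (nat_lit 42808818380) (nat_lit 76) (nat_lit 42001818685) (nat_lit 159) (nat_lit 5) (nat_lit 164) (nat_lit 5) (nat_lit 160) (nat_lit 5) (nat_lit 476) (nat_lit 448) (nat_lit 276)))) (XT.nd (nat_lit 78) (nat_lit 684) (nat_lit 0) (XT.lf (nat_lit 0) (nat_lit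 34824619607) (nat_lit 456) (nat_lit 49079289761) (nat_lit 76) (nat_lit 9485332763) (nat_lit 154) (nat_lit 5) (nat_lit 160) (nat_lit 5) (nat_lit 155) (nat_lit 5) (nat_lit 477) (nat_lit 448) (nat_lit 275)) (XT.nd (nat_lit 78) (nat_lit 380) (nat_lit 0) (XT.lf (nat_lit 0) (nat_lit 40715067938) (nat_lit 304) (nat_lit 25879379466) (nat_lit 380) (nat_lit 29640491992) (nat_lit 150) (nat_lit 5) (nat_lit 154) (nat_lit 5) (nat_lit 155) (nat_lit 5) (nat_lit 478) (nat_lit 448) (nat_lit 274)) (XT.lf (nat_lit 0) (nat_lit 1930941463) (nat_lit 380) (nat_lit 62006615637) (nat_lit 76) (nat_lit 35248693984) (nat_lit 145) (nat_lit 5) (nat_lit 150) (nat_lit 5) (nat_lit 146) (nat_lit 5) (nat_lit 479) (nat_lit 448) (nat_lit 273)))))) (XT.nd (nat_lit 468) (nat_lit 760) (nat_lit 0) (XT.nd (nat_lit 234) (nat_lit 912) (nat_lit 0) (XT.nd (nat_lit 78) (nat_lit 608) (nat_lit 0) (XT.lf (nat_lit 0) (nat_lit 33492024231) (nat_lit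 304) (nat_lit 2140705535) (nat_lit 380) (nat_lit 66608650835) (nat_lit 141) (nat_lit 5) (nat_lit 145) (nat_lit 5) (nat_lit 146) (nat_lit 5) (nat_lit 480) (nat_lit 448) (nat_lit 272)) (XT.nd (nat_lit 78) (nat_lit 304) (nat_lit 0) (XT.lf (nat_lit 0) (nat_lit 29597508776) (nat_lit 304) (nat_lit 42953176878) (nat_lit 380) (nat_lit 32852648759) (nat_lit 137) (nat_lit 5) (nat_lit 141) (nat_lit 5) (nat_lit 142) (nat_lit 5) (nat_lit 481) (nat_lit 448) (nat_lit 271)) (XT.lf (nat_lit 0) (nat_lit 3742646994) (nat_lit 304) (nat_lit 82860341979) (nat_lit 76) (nat_lit 22083588171) (nat_lit 133) (nat_lit 5) (nat_lit 137) (nat_lit 5) (nat_lit 134) (nat_lit 5) (nat_lit 482) (nat_lit 448) (nat_lit 270)))) (XT.nd (nat_lit 78) (nat_lit 608) (nat_lit 0) (XT.lf (nat_lit 0) (nat_lit 21661531553) (nat_lit 304) (nat_lit 21261745382) (nat_lit 380) (nat_lit 69157896632) (nat_lit 129) (nat_lit 5) (nat_lit 133) (nat_lit 5)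 (nat_lit 134) (nat_lit 5) (nat_lit 483) (nat_lit 448) (nat_lit 269)) (XT.nd (nat_lit 78) (nat_lit 380) (nat_lit 0) (XT.lf (nat_lit 0) (nat_lit 17395266799) (nat_lit 228) (nat_lit 68150316853) (nat_lit 304) (nat_lit 30055436938) (nat_lit 126) (nat_lit 5) (nat_lit 129) (nat_lit 5) (nat_lit 130) (nat_lit 5) (nat_lit 484) (nat_lit 448) (nat_lit 268)) (XT.lf (nat_lit 0) (nat_lit 12077724655) (nat_lit 380) (nat_lit 106118917357) (nat_lit 76) (nat_lit 1058337187) (nat_lit 121) (nat_lit 5) (nat_lit 126) (nat_lit 5) (nat_lit 122) (nat_lit 5) (nat_lit 485) (nat_lit 448) (nat_lit 267))))) (XT.nd (nat_lit 234) (nat_lit 228) (nat_lit 0) (XT.nd (nat_lit 78) (nat_lit 304) (nat_lit 0) (XT.lf (nat_lit 0) (nat_lit 8192837470) (nat_lit 228) (nat_lit 49295399469) (nat_lit 304) (nat_lit 65540703009) (nat_lit 118) (nat_lit 5) (nat_lit 121) (nat_lit 5) (nat_lit 122) (nat_lit 5) (nat_lit 486) (nat_lit 448) (nat_lit 266))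 (XT.nd (nat_lit 78) (nat_lit 76) (nat_lit 0) (XT.lf (nat_lit 0) (nat_lit 3309451321) (nat_lit 228) (nat_lit 103215404344) (nat_lit 304) (nat_lit 20426075758) (nat_lit 115) (nat_lit 5) (nat_lit 118) (nat_lit 5) (nat_lit 119) (nat_lit 5) (nat_lit 487) (nat_lit 448) (nat_lit 265)) (XT.lf (nat_lit 0) (nat_lit 28108889904) (nat_lit 304) (nat_lit 2041430296) (nat_lit 76) (nat_lit 100860220621) (nat_lit 114) (nat_lit 5) (nat_lit 118) (nat_lit 5) (nat_lit 115) (nat_lit 5) (nat_lit 488) (nat_lit 448) (nat_lit 264)))) (XT.nd (nat_lit 59436) (nat_lit 0) (nat_lit 12464) (XT.nd (nat_lit 59358) (nat_lit 0) (nat_lit 12388) (XT.lf (nat_lit 0) (nat_lit 80342697906) (nat_lit 304) (nat_lit 7764710811) (nat_lit 76) (nat_lit 47108818822) (nat_lit 111) (nat_lit 5) (nat_lit 115) (nat_lit 5) (nat_lit 112) (nat_lit 5) (nat_lit 489) (nat_lit 448) (nat_lit 263)) (XT.lf (nat_lit 0) (nat_lit 8668590769) (nat_lit 1292) (nat_lit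 6769643403) (nat_lit 1292) (nat_lit 6769643403) (nat_lit 274) (nat_lit 3) (nat_lit 291) (nat_lit 3) (nat_lit 291) (nat_lit 5) (nat_lit 449) (nat_lit 449) (nat_lit 302))) (XT.nd (nat_lit 78) (nat_lit 0) (nat_lit 0) (XT.lf (nat_lit 0) (nat_lit 18096932195) (nat_lit 1216) (nat_lit 22384212821) (nat_lit 1292) (nat_lit 5035201792) (nat_lit 275) (nat_lit 5) (nat_lit 291) (nat_lit 5) (nat_lit 292) (nat_lit 5) (nat_lit 450) (nat_lit 449) (nat_lit 301)) (XT.lf (nat_lit 76) (nat_lit 15234587495) (nat_lit 0) (nat_lit 4255460632) (nat_lit 1292) (nat_lit 27164059394) (nat_lit 276) (nat_lit 5) (nat_lit 275) (nat_lit 5) (nat_lit 292) (nat_lit 5) (nat_lit 451) (nat_lit 449) (nat_lit 300))))))) (XT.nd (nat_lit 1014) (nat_lit 5548) (nat_lit 0) (XT.nd (nat_lit 468) (nat_lit 3344) (nat_lit 0) (XT.nd (nat_lit 234) (nat_lit 0) (nat_lit 228) (XT.nd (nat_lit 78) (nat_lit 0) (nat_lit 76) (XT.lf (nat_lit 76) (nat_lit 7171174726)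 (nat_lit 0) (nat_lit 14404710118) (nat_lit 1292) (nat_lit 26254180245) (nat_lit 277) (nat_lit 5) (nat_lit 276) (nat_lit 5) (nat_lit 293) (nat_lit 5) (nat_lit 452) (nat_lit 449) (nat_lit 299)) (XT.nd (nat_lit 78) (nat_lit 0) (nat_lit 76) (XT.lf (nat_lit 0) (nat_lit 24361183881) (nat_lit 1216) (nat_lit 984075345) (nat_lit 1292) (nat_lit 23701706924) (nat_lit 277) (nat_lit 5) (nat_lit 293) (nat_lit 5) (nat_lit 294) (nat_lit 5) (nat_lit 453) (nat_lit 449) (nat_lit 298)) (XT.lf (nat_lit 0) (nat_lit 27955308757) (nat_lit 1216) (nat_lit 9104663323) (nat_lit 1292) (nat_lit 13244654053) (nat_lit 278) (nat_lit 5) (nat_lit 294) (nat_lit 5) (nat_lit 295) (nat_lit 5) (nat_lit 454) (nat_lit 449) (nat_lit 297)))) (XT.nd (nat_lit 78) (nat_lit 0) (nat_lit 0) (XT.lf (nat_lit 0) (nat_lit 32341048788) (nat_lit 1216) (nat_lit 17326083364) (nat_lit 1292) (nat_lit 1939680361) (nat_lit 279) (nat_lit 5) (nat_lit 295)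 (nat_lit 5) (nat_lit 296) (nat_lit 5) (nat_lit 455) (nat_lit 449) (nat_lit 296)) (XT.nd (nat_lit 78) (nat_lit 0) (nat_lit 76) (XT.lf (nat_lit 76) (nat_lit 27208277396) (nat_lit 0) (nat_lit 10465305121) (nat_lit 1292) (nat_lit 15278701125) (nat_lit 280) (nat_lit 5) (nat_lit 279) (nat_lit 5) (nat_lit 296) (nat_lit 5) (nat_lit 456) (nat_lit 449) (nat_lit 295)) (XT.lf (nat_lit 76) (nat_lit 20064376310) (nat_lit 0) (nat_lit 23873809435) (nat_lit 1292) (nat_lit 10406879898) (nat_lit 281) (nat_lit 5) (nat_lit 280) (nat_lit 5) (nat_lit 297) (nat_lit 5) (nat_lit 457) (nat_lit 449) (nat_lit 294))))) (XT.nd (nat_lit 234) (nat_lit 2508) (nat_lit 0) (XT.nd (nat_lit 78) (nat_lit 1216) (nat_lit 0) (XT.lf (nat_lit 76) (nat_lit 12875984513) (nat_lit 0) (nat_lit 38301115116) (nat_lit 1292) (nat_lit 4610555274) (nat_lit 282) (nat_lit 5) (nat_lit 281) (nat_lit 5) (nat_lit 298) (nat_lit 5) (nat_lit 458) (nat_lit 449)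 (nat_lit 293)) (XT.nd (nat_lit 78) (nat_lit 0) (nat_lit 0) (XT.lf (nat_lit 0) (nat_lit 2130459963) (nat_lit 1292) (nat_lit 51651867699) (nat_lit 76) (nat_lit 3499110915) (nat_lit 265) (nat_lit 5) (nat_lit 282) (nat_lit 5) (nat_lit 266) (nat_lit 5) (nat_lit 459) (nat_lit 449) (nat_lit 292)) (XT.lf (nat_lit 0) (nat_lit 9944414200) (nat_lit 1292) (nat_lit 1781629703) (nat_lit 76) (nat_lit 47097561317) (nat_lit 265) (nat_lit 5) (nat_lit 282) (nat_lit 5) (nat_lit 266) (nat_lit 5) (nat_lit 460) (nat_lit 449) (nat_lit 291)))) (XT.nd (nat_lit 156) (nat_lit 1140) (nat_lit 0) (XT.nd (nat_lit 78) (nat_lit 608) (nat_lit 0) (XT.lf (nat_lit 0) (nat_lit 18959401024) (nat_lit 836) (nat_lit 9157967012) (nat_lit 76) (nat_lit 32301202591) (nat_lit 255) (nat_lit 5) (nat_lit 266) (nat_lit 5) (nat_lit 256) (nat_lit 5) (nat_lit 461) (nat_lit 449) (nat_lit 290)) (XT.lf (nat_lit 0) (nat_lit 29159138208) (nat_lit 684)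 (nat_lit 16566219740) (nat_lit 76) (nat_lit 16345906786) (nat_lit 247) (nat_lit 5) (nat_lit 256) (nat_lit 5) (nat_lit 248) (nat_lit 5) (nat_lit 462) (nat_lit 449) (nat_lit 289))) (XT.nd (nat_lit 78) (nat_lit 532) (nat_lit 0) (XT.lf (nat_lit 0) (nat_lit 39778308349) (nat_lit 608) (nat_lit 849876015) (nat_lit 684) (nat_lit 23155629953) (nat_lit 239) (nat_lit 5) (nat_lit 247) (nat_lit 5) (nat_lit 248) (nat_lit 5) (nat_lit 463) (nat_lit 449) (nat_lit 288)) (XT.lf (nat_lit 0) (nat_lit 33922871692) (nat_lit 532) (nat_lit 19688917324) (nat_lit 608) (nat_lit 11941969594) (nat_lit 232) (nat_lit 5) (nat_lit 239) (nat_lit 5) (nat_lit 240) (nat_lit 5) (nat_lit 464) (nat_lit 449) (nat_lit 287)))))) (XT.nd (nat_lit 468) (nat_lit 2888) (nat_lit 0) (XT.nd (nat_lit 234) (nat_lit 988) (nat_lit 0) (XT.nd (nat_lit 78) (nat_lit 1064) (nat_lit 0) (XT.lf (nat_lit 0) (nat_lit 634108784) (nat_lit 608) (nat_lit 39278678750)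 (nat_lit 76) (nat_lit 27475507384) (nat_lit 224) (nat_lit 5) (nat_lit 232) (nat_lit 5) (nat_lit 225) (nat_lit 5) (nat_lit 465) (nat_lit 449) (nat_lit 286)) (XT.nd (nat_lit 78) (nat_lit 532) (nat_lit 0) (XT.lf (nat_lit 0) (nat_lit 14411034390) (nat_lit 608) (nat_lit 47061229455) (nat_lit 76) (nat_lit 7814176797) (nat_lit 217) (nat_lit 5) (nat_lit 225) (nat_lit 5) (nat_lit 218) (nat_lit 5) (nat_lit 466) (nat_lit 449) (nat_lit 285)) (XT.lf (nat_lit 0) (nat_lit 16266327587) (nat_lit 532) (nat_lit 13576255022) (nat_lit 608) (nat_lit 41407938102) (nat_lit 210) (nat_lit 5) (nat_lit 217) (nat_lit 5) (nat_lit 218) (nat_lit 5) (nat_lit 467) (nat_lit 449) (nat_lit 284)))) (XT.nd (nat_lit 78) (nat_lit 532) (nat_lit 0) (XT.lf (nat_lit 0) (nat_lit 10286471037) (nat_lit 456) (nat_lit 36698576738) (nat_lit 532) (nat_lit 26299577153) (nat_lit 204) (nat_lit 5) (nat_lit 210) (nat_lit 5) (nat_lit 211) (nat_lit 5)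 (nat_lit 468) (nat_lit 449) (nat_lit 283)) (XT.nd (nat_lit 78) (nat_lit 76) (nat_lit 0) (XT.lf (nat_lit 0) (nat_lit 4378052930) (nat_lit 456) (nat_lit 61484670581) (nat_lit 532) (nat_lit 9531368540) (nat_lit 198) (nat_lit 5) (nat_lit 204) (nat_lit 5) (nat_lit 205) (nat_lit 5) (nat_lit 469) (nat_lit 449) (nat_lit 282)) (XT.lf (nat_lit 0) (nat_lit 8941403783) (nat_lit 532) (nat_lit 1606419129) (nat_lit 76) (nat_lit 67028169268) (nat_lit 197) (nat_lit 5) (nat_lit 204) (nat_lit 5) (nat_lit 198) (nat_lit 5) (nat_lit 470) (nat_lit 449) (nat_lit 281))))) (XT.nd (nat_lit 234) (nat_lit 1596) (nat_lit 0) (XT.nd (nat_lit 78) (nat_lit 836) (nat_lit 0) (XT.lf (nat_lit 0) (nat_lit 29259376587) (nat_lit 532) (nat_lit 7671626735) (nat_lit 76) (nat_lit 42899592616) (nat_lit 191) (nat_lit 5) (nat_lit 198) (nat_lit 5) (nat_lit 192) (nat_lit 5) (nat_lit 471) (nat_lit 449) (nat_lit 280)) (XT.nd (nat_lit 78) (nat_lit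 380) (nat_lit 0) (XT.lf (nat_lit 0) (nat_lit 51541480001) (nat_lit 532) (nat_lit 13660314216) (nat_lit 76) (nat_lit 16967688973) (nat_lit 185) (nat_lit 5) (nat_lit 192) (nat_lit 5) (nat_lit 186) (nat_lit 5) (nat_lit 472) (nat_lit 449) (nat_lit 279)) (XT.lf (nat_lit 0) (nat_lit 64927997898) (nat_lit 380) (nat_lit 11084897233) (nat_lit 456) (nat_lit 8580163729) (nat_lit 180) (nat_lit 5) (nat_lit 185) (nat_lit 5) (nat_lit 186) (nat_lit 5) (nat_lit 473) (nat_lit 449) (nat_lit 278)))) (XT.nd (nat_lit 156) (nat_lit 760) (nat_lit 0) (XT.nd (nat_lit 78) (nat_lit 380) (nat_lit 0) (XT.lf (nat_lit 0) (nat_lit 15467381309) (nat_lit 456) (nat_lit 25902421897) (nat_lit 76) (nat_lit 45728359806) (nat_lit 174) (nat_lit 5) (nat_lit 180) (nat_lit 5) (nat_lit 175) (nat_lit 5) (nat_lit 474) (nat_lit 449) (nat_lit 277)) (XT.lf (nat_lit 0) (nat_lit 41567932652) (nat_lit 456) (nat_lit 32144549164) (nat_lit 76) (nat_lit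 15982649814) (nat_lit 169) (nat_lit 5) (nat_lit 175) (nat_lit 5) (nat_lit 170) (nat_lit 5) (nat_lit 475) (nat_lit 449) (nat_lit 276))) (XT.nd (nat_lit 78) (nat_lit 380) (nat_lit 0) (XT.lf (nat_lit 0) (nat_lit 53934060370) (nat_lit 380) (nat_lit 16243433457) (nat_lit 456) (nat_lit 22208335595) (nat_lit 164) (nat_lit 5) (nat_lit 169) (nat_lit 5) (nat_lit 170) (nat_lit 5) (nat_lit 476) (nat_lit 449) (nat_lit 275)) (XT.lf (nat_lit 0) (nat_lit 6161786858) (nat_lit 380) (nat_lit 44893662652) (nat_lit 76) (nat_lit 44116578725) (nat_lit 159) (nat_lit 5) (nat_lit 164) (nat_lit 5) (nat_lit 160) (nat_lit 5) (nat_lit 477) (nat_lit 449) (nat_lit 274))))))))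
noncomputable def xc116 : XT := (XT.nd (nat_lit 61308) (nat_lit 0) (nat_lit 304) (XT.nd (nat_lit 60294) (nat_lit 0) (nat_lit 10716) (XT.nd (nat_lit 468) (nat_lit 1444) (nat_lit 0) (XT.nd (nat_lit 234) (nat_lit 912) (nat_lit 0) (XT.nd (nat_lit 78) (nat_lit 684) (nat_lit 0) (XT.lf (nat_lit 0) (nat_lit 36604357850) (nat_lit 456) (nat_lit 51478245237) (nat_lit 76) (nat_lit 9974940208) (nat_lit 154) (nat_lit 5) (nat_lit 160) (nat_lit 5) (nat_lit 155) (nat_lit 5) (nat_lit 478) (nat_lit 449) (nat_lit 273)) (XT.nd (nat_lit 78) (nat_lit 380) (nat_lit 0) (XT.lf (nat_lit 0) (nat_lit 42804253525) (nat_lit 304) (nat_lit 27157103455) (nat_lit 380) (nat_lit 31084208316) (nat_lit 150) (nat_lit 5) (nat_lit 154) (nat_lit 5) (nat_lit 155) (nat_lit 5) (nat_lit 479) (nat_lit 449) (nat_lit 272)) (XT.lf (nat_lit 0) (nat_lit 2063923804) (nat_lit 380) (nat_lit 65053378422) (nat_lit 76) (nat_lit 37027163311) (nat_lit 145)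 (nat_lit 5) (nat_lit 150) (nat_lit 5) (nat_lit 146) (nat_lit 5) (nat_lit 480) (nat_lit 449) (nat_lit 271)))) (XT.nd (nat_lit 78) (nat_lit 608) (nat_lit 0) (XT.lf (nat_lit 0) (nat_lit 35218657923) (nat_lit 304) (nat_lit 2230908754) (nat_lit 380) (nat_lit 69902822138) (nat_lit 141) (nat_lit 5) (nat_lit 145) (nat_lit 5) (nat_lit 146) (nat_lit 5) (nat_lit 481) (nat_lit 449) (nat_lit 270)) (XT.nd (nat_lit 78) (nat_lit 304) (nat_lit 0) (XT.lf (nat_lit 0) (nat_lit 31128798440) (nat_lit 304) (nat_lit 45083594029) (nat_lit 380) (nat_lit 34460078914) (nat_lit 137) (nat_lit 5) (nat_lit 141) (nat_lit 5) (nat_lit 142) (nat_lit 5) (nat_lit 482) (nat_lit 449) (nat_lit 269)) (XT.lf (nat_lit 0) (nat_lit 3963303481) (nat_lit 304) (nat_lit 86951907961) (nat_lit 76) (nat_lit 23204684606) (nat_lit 133) (nat_lit 5) (nat_lit 137) (nat_lit 5) (nat_lit 134) (nat_lit 5) (nat_lit 483) (nat_lit 449) (nat_lit 268))))) (XT.nd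 (nat_lit 234) (nat_lit 532) (nat_lit 0) (XT.nd (nat_lit 78) (nat_lit 608) (nat_lit 0) (XT.lf (nat_lit 0) (nat_lit 22794584412) (nat_lit 304) (nat_lit 22307264523) (nat_lit 380) (nat_lit 72582407039) (nat_lit 129) (nat_lit 5) (nat_lit 133) (nat_lit 5) (nat_lit 134) (nat_lit 5) (nat_lit 484) (nat_lit 449) (nat_lit 267)) (XT.nd (nat_lit 78) (nat_lit 380) (nat_lit 0) (XT.lf (nat_lit 0) (nat_lit 18314358113) (nat_lit 228) (nat_lit 71540004634) (nat_lit 304) (nat_lit 31525760040) (nat_lit 126) (nat_lit 5) (nat_lit 129) (nat_lit 5) (nat_lit 130) (nat_lit 5) (nat_lit 485) (nat_lit 449) (nat_lit 266)) (XT.lf (nat_lit 0) (nat_lit 12712548714) (nat_lit 380) (nat_lit 111375574784) (nat_lit 76) (nat_lit 1128672980) (nat_lit 121) (nat_lit 5) (nat_lit 126) (nat_lit 5) (nat_lit 122) (nat_lit 5) (nat_lit 486) (nat_lit 449) (nat_lit 265)))) (XT.nd (nat_lit 78) (nat_lit 304) (nat_lit 0) (XT.lf (nat_lit 0) (nat_lit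 8650354941) (nat_lit 228) (nat_lit 51742218650) (nat_lit 304) (nat_lit 68786912232) (nat_lit 118) (nat_lit 5) (nat_lit 121) (nat_lit 5) (nat_lit 122) (nat_lit 5) (nat_lit 487) (nat_lit 449) (nat_lit 264)) (XT.nd (nat_lit 78) (nat_lit 76) (nat_lit 0) (XT.lf (nat_lit 0) (nat_lit 3522134824) (nat_lit 228) (nat_lit 108358081597) (nat_lit 304) (nat_lit 21417384818) (nat_lit 115) (nat_lit 5) (nat_lit 118) (nat_lit 5) (nat_lit 119) (nat_lit 5) (nat_lit 488) (nat_lit 449) (nat_lit 263)) (XT.lf (nat_lit 0) (nat_lit 29542343374) (nat_lit 304) (nat_lit 2097978606) (nat_lit 76) (nat_lit 105919902639) (nat_lit 114) (nat_lit 5) (nat_lit 118) (nat_lit 5) (nat_lit 115) (nat_lit 5) (nat_lit 489) (nat_lit 449) (nat_lit 262)))))) (XT.nd (nat_lit 468) (nat_lit 1444) (nat_lit 0) (XT.nd (nat_lit 234) (nat_lit 0) (nat_lit 152) (XT.nd (nat_lit 78) (nat_lit 0) (nat_lit 76) (XT.lf (nat_lit 0) (nat_lit 9155282952) (nat_lit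 1292) (nat_lit 7080689116) (nat_lit 1292) (nat_lit 7080689116) (nat_lit 274) (nat_lit 3) (nat_lit 291) (nat_lit 3) (nat_lit 291) (nat_lit 5) (nat_lit 450) (nat_lit 450) (nat_lit 300)) (XT.nd (nat_lit 78) (nat_lit 0) (nat_lit 0) (XT.lf (nat_lit 0) (nat_lit 19103276015) (nat_lit 1216) (nat_lit 23446573117) (nat_lit 1292) (nat_lit 5239246497) (nat_lit 275) (nat_lit 5) (nat_lit 291) (nat_lit 5) (nat_lit 292) (nat_lit 5) (nat_lit 451) (nat_lit 450) (nat_lit 299)) (XT.lf (nat_lit 76) (nat_lit 16051537612) (nat_lit 0) (nat_lit 4510207747) (nat_lit 1292) (nat_lit 28422129215) (nat_lit 276) (nat_lit 5) (nat_lit 275) (nat_lit 5) (nat_lit 292) (nat_lit 5) (nat_lit 452) (nat_lit 450) (nat_lit 298)))) (XT.nd (nat_lit 78) (nat_lit 0) (nat_lit 76) (XT.lf (nat_lit 76) (nat_lit 7586617325) (nat_lit 0) (nat_lit 15160790797) (nat_lit 1292) (nat_lit 27471356942) (nat_lit 277) (nat_lit 5) (nat_lit 276) (nat_lit 5)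 (nat_lit 293) (nat_lit 5) (nat_lit 453) (nat_lit 450) (nat_lit 297)) (XT.nd (nat_lit 78) (nat_lit 0) (nat_lit 76) (XT.lf (nat_lit 0) (nat_lit 25667228284) (nat_lit 1216) (nat_lit 976106057) (nat_lit 1292) (nat_lit 24853320171) (nat_lit 277) (nat_lit 5) (nat_lit 293) (nat_lit 5) (nat_lit 294) (nat_lit 5) (nat_lit 454) (nat_lit 450) (nat_lit 296)) (XT.lf (nat_lit 0) (nat_lit 29437126666) (nat_lit 1216) (nat_lit 9501536196) (nat_lit 1292) (nat_lit 13878653586) (nat_lit 278) (nat_lit 5) (nat_lit 294) (nat_lit 5) (nat_lit 295) (nat_lit 5) (nat_lit 455) (nat_lit 450) (nat_lit 295))))) (XT.nd (nat_lit 234) (nat_lit 1824) (nat_lit 0) (XT.nd (nat_lit 78) (nat_lit 0) (nat_lit 0) (XT.lf (nat_lit 0) (nat_lit 34038466300) (nat_lit 1216) (nat_lit 18133033972) (nat_lit 1292) (nat_lit 2013223421) (nat_lit 279) (nat_lit 5) (nat_lit 295) (nat_lit 5) (nat_lit 296) (nat_lit 5) (nat_lit 456) (nat_lit 450) (nat_lit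 294)) (XT.nd (nat_lit 78) (nat_lit 0) (nat_lit 76) (XT.lf (nat_lit 76) (nat_lit 28626343469) (nat_lit 0) (nat_lit 11008010527) (nat_lit 1292) (nat_lit 15963213445) (nat_lit 280) (nat_lit 5) (nat_lit 279) (nat_lit 5) (nat_lit 296) (nat_lit 5) (nat_lit 457) (nat_lit 450) (nat_lit 293)) (XT.lf (nat_lit 76) (nat_lit 21126039837) (nat_lit 0) (nat_lit 25082860318) (nat_lit 1292) (nat_lit 10851187842) (nat_lit 281) (nat_lit 5) (nat_lit 280) (nat_lit 5) (nat_lit 297) (nat_lit 5) (nat_lit 458) (nat_lit 450) (nat_lit 292)))) (XT.nd (nat_lit 156) (nat_lit 760) (nat_lit 0) (XT.nd (nat_lit 78) (nat_lit 1216) (nat_lit 0) (XT.lf (nat_lit 76) (nat_lit 13578863544) (nat_lit 0) (nat_lit 40227808947) (nat_lit 1292) (nat_lit 4768227645) (nat_lit 282) (nat_lit 5) (nat_lit 281) (nat_lit 5) (nat_lit 298) (nat_lit 5) (nat_lit 459) (nat_lit 450) (nat_lit 291)) (XT.lf (nat_lit 0) (nat_lit 2305485782) (nat_lit 1292) (nat_lit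 54173511771) (nat_lit 76) (nat_lit 3664443097) (nat_lit 265) (nat_lit 5) (nat_lit 282) (nat_lit 5) (nat_lit 266) (nat_lit 5) (nat_lit 460) (nat_lit 450) (nat_lit 290))) (XT.nd (nat_lit 78) (nat_lit 760) (nat_lit 0) (XT.lf (nat_lit 0) (nat_lit 10506875692) (nat_lit 1292) (nat_lit 1812664223) (nat_lit 76) (nat_lit 49443274274) (nat_lit 265) (nat_lit 5) (nat_lit 282) (nat_lit 5) (nat_lit 266) (nat_lit 5) (nat_lit 461) (nat_lit 450) (nat_lit 289)) (XT.lf (nat_lit 0) (nat_lit 19969986650) (nat_lit 836) (nat_lit 9557528130) (nat_lit 76) (nat_lit 33910092514) (nat_lit 255) (nat_lit 5) (nat_lit 266) (nat_lit 5) (nat_lit 256) (nat_lit 5) (nat_lit 462) (nat_lit 450) (nat_lit 288))))))) (XT.nd (nat_lit 1014) (nat_lit 4256) (nat_lit 0) (XT.nd (nat_lit 468) (nat_lit 2736) (nat_lit 0) (XT.nd (nat_lit 234) (nat_lit 1672) (nat_lit 0) (XT.nd (nat_lit 78) (nat_lit 1140) (nat_lit 0) (XT.lf (nat_lit 0) (nat_lit 30677239923)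 (nat_lit 684) (nat_lit 17336013827) (nat_lit 76) (nat_lit 17159757116) (nat_lit 247) (nat_lit 5) (nat_lit 256) (nat_lit 5) (nat_lit 248) (nat_lit 5) (nat_lit 463) (nat_lit 450) (nat_lit 287)) (XT.nd (nat_lit 78) (nat_lit 532) (nat_lit 0) (XT.lf (nat_lit 0) (nat_lit 41824063291) (nat_lit 608) (nat_lit 893357433) (nat_lit 684) (nat_lit 24253837342) (nat_lit 239) (nat_lit 5) (nat_lit 247) (nat_lit 5) (nat_lit 248) (nat_lit 5) (nat_lit 464) (nat_lit 450) (nat_lit 286)) (XT.lf (nat_lit 0) (nat_lit 35675931619) (nat_lit 532) (nat_lit 20672058389) (nat_lit 608) (nat_lit 12481776611) (nat_lit 232) (nat_lit 5) (nat_lit 239) (nat_lit 5) (nat_lit 240) (nat_lit 5) (nat_lit 465) (nat_lit 450) (nat_lit 285)))) (XT.nd (nat_lit 78) (nat_lit 1064) (nat_lit 0) (XT.lf (nat_lit 0) (nat_lit 719877274) (nat_lit 608) (nat_lit 41184621595) (nat_lit 76) (nat_lit 28851578202) (nat_lit 224) (nat_lit 5) (nat_lit 232) (nat_lit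 5) (nat_lit 225) (nat_lit 5) (nat_lit 466) (nat_lit 450) (nat_lit 284)) (XT.nd (nat_lit 78) (nat_lit 532) (nat_lit 0) (XT.lf (nat_lit 0) (nat_lit 15183657518) (nat_lit 608) (nat_lit 49356432366) (nat_lit 76) (nat_lit 8209100457) (nat_lit 217) (nat_lit 5) (nat_lit 225) (nat_lit 5) (nat_lit 218) (nat_lit 5) (nat_lit 467) (nat_lit 450) (nat_lit 283)) (XT.lf (nat_lit 0) (nat_lit 17135844025) (nat_lit 532) (nat_lit 14248999761) (nat_lit 608) (nat_lit 43426689292) (nat_lit 210) (nat_lit 5) (nat_lit 217) (nat_lit 5) (nat_lit 218) (nat_lit 5) (nat_lit 468) (nat_lit 450) (nat_lit 282))))) (XT.nd (nat_lit 234) (nat_lit 1748) (nat_lit 0) (XT.nd (nat_lit 78) (nat_lit 532) (nat_lit 0) (XT.lf (nat_lit 0) (nat_lit 10856797305) (nat_lit 456) (nat_lit 38525841548) (nat_lit 532) (nat_lit 27564757915) (nat_lit 204) (nat_lit 5) (nat_lit 210) (nat_lit 5) (nat_lit 211) (nat_lit 5) (nat_lit 469) (nat_lit 450) (nat_lit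 281)) (XT.nd (nat_lit 78) (nat_lit 76) (nat_lit 0) (XT.lf (nat_lit 0) (nat_lit 4652698999) (nat_lit 456) (nat_lit 64549803539) (nat_lit 532) (nat_lit 9959886026) (nat_lit 198) (nat_lit 5) (nat_lit 204) (nat_lit 5) (nat_lit 205) (nat_lit 5) (nat_lit 470) (nat_lit 450) (nat_lit 280)) (XT.lf (nat_lit 0) (nat_lit 9433343776) (nat_lit 532) (nat_lit 1632749974) (nat_lit 76) (nat_lit 70387343804) (nat_lit 197) (nat_lit 5) (nat_lit 204) (nat_lit 5) (nat_lit 198) (nat_lit 5) (nat_lit 471) (nat_lit 450) (nat_lit 279)))) (XT.nd (nat_lit 156) (nat_lit 836) (nat_lit 0) (XT.nd (nat_lit 78) (nat_lit 456) (nat_lit 0) (XT.lf (nat_lit 0) (nat_lit 30765671159) (nat_lit 532) (nat_lit 8001549192) (nat_lit 76) (nat_lit 45053597860) (nat_lit 191) (nat_lit 5) (nat_lit 198) (nat_lit 5) (nat_lit 192) (nat_lit 5) (nat_lit 472) (nat_lit 450) (nat_lit 278)) (XT.lf (nat_lit 0) (nat_lit 54160417189) (nat_lit 532) (nat_lit 14290048434)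 (nat_lit 76) (nat_lit 17826228448) (nat_lit 185) (nat_lit 5) (nat_lit 192) (nat_lit 5) (nat_lit 186) (nat_lit 5) (nat_lit 473) (nat_lit 450) (nat_lit 277))) (XT.nd (nat_lit 78) (nat_lit 456) (nat_lit 0) (XT.lf (nat_lit 0) (nat_lit 68226151983) (nat_lit 380) (nat_lit 11627755100) (nat_lit 456) (nat_lit 8967586672) (nat_lit 180) (nat_lit 5) (nat_lit 185) (nat_lit 5) (nat_lit 186) (nat_lit 5) (nat_lit 474) (nat_lit 450) (nat_lit 276)) (XT.lf (nat_lit 0) (nat_lit 16280186282) (nat_lit 456) (nat_lit 27145404159) (nat_lit 76) (nat_lit 48026291143) (nat_lit 174) (nat_lit 5) (nat_lit 180) (nat_lit 5) (nat_lit 175) (nat_lit 5) (nat_lit 475) (nat_lit 450) (nat_lit 275)))))) (XT.nd (nat_lit 468) (nat_lit 2052) (nat_lit 0) (XT.nd (nat_lit 234) (nat_lit 1064) (nat_lit 0) (XT.nd (nat_lit 78) (nat_lit 760) (nat_lit 0) (XT.lf (nat_lit 0) (nat_lit 43684495228) (nat_lit 456) (nat_lit 33700105914) (nat_lit 76) (nat_lit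 16794135898) (nat_lit 169) (nat_lit 5) (nat_lit 175) (nat_lit 5) (nat_lit 170) (nat_lit 5) (nat_lit 476) (nat_lit 450) (nat_lit 274)) (XT.nd (nat_lit 78) (nat_lit 380) (nat_lit 0) (XT.lf (nat_lit 0) (nat_lit 56680952966) (nat_lit 380) (nat_lit 17042246523) (nat_lit 456) (nat_lit 23280810577) (nat_lit 164) (nat_lit 5) (nat_lit 169) (nat_lit 5) (nat_lit 170) (nat_lit 5) (nat_lit 477) (nat_lit 450) (nat_lit 273)) (XT.lf (nat_lit 0) (nat_lit 6505912156) (nat_lit 380) (nat_lit 47087917987) (nat_lit 76) (nat_lit 46335712972) (nat_lit 159) (nat_lit 5) (nat_lit 164) (nat_lit 5) (nat_lit 160) (nat_lit 5) (nat_lit 478) (nat_lit 450) (nat_lit 272)))) (XT.nd (nat_lit 78) (nat_lit 684) (nat_lit 0) (XT.lf (nat_lit 0) (nat_lit 38469502965) (nat_lit 456) (nat_lit 54002262703) (nat_lit 76) (nat_lit 10487601781) (nat_lit 154) (nat_lit 5) (nat_lit 160) (nat_lit 5) (nat_lit 155) (nat_lit 5) (nat_lit 479) (nat_lit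 450) (nat_lit 271)) (XT.nd (nat_lit 78) (nat_lit 380) (nat_lit 0) (XT.lf (nat_lit 0) (nat_lit 44992930772) (nat_lit 304) (nat_lit 28500223949) (nat_lit 380) (nat_lit 32603671997) (nat_lit 150) (nat_lit 5) (nat_lit 154) (nat_lit 5) (nat_lit 155) (nat_lit 5) (nat_lit 480) (nat_lit 450) (nat_lit 270)) (XT.lf (nat_lit 0) (nat_lit 2200167856) (nat_lit 380) (nat_lit 68257459591) (nat_lit 76) (nat_lit 38893065357) (nat_lit 145) (nat_lit 5) (nat_lit 150) (nat_lit 5) (nat_lit 146) (nat_lit 5) (nat_lit 481) (nat_lit 450) (nat_lit 269))))) (XT.nd (nat_lit 234) (nat_lit 1140) (nat_lit 0) (XT.nd (nat_lit 78) (nat_lit 608) (nat_lit 0) (XT.lf (nat_lit 0) (nat_lit 37026785814) (nat_lit 304) (nat_lit 2327187019) (nat_lit 380) (nat_lit 73365073233) (nat_lit 141) (nat_lit 5) (nat_lit 145) (nat_lit 5) (nat_lit 146) (nat_lit 5) (nat_lit 482) (nat_lit 450) (nat_lit 268)) (XT.nd (nat_lit 78) (nat_lit 304) (nat_lit 0)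 (XT.lf (nat_lit 0) (nat_lit 32731872579) (nat_lit 304) (nat_lit 47322135008) (nat_lit 380) (nat_lit 36151153352) (nat_lit 137) (nat_lit 5) (nat_lit 141) (nat_lit 5) (nat_lit 142) (nat_lit 5) (nat_lit 483) (nat_lit 450) (nat_lit 267)) (XT.lf (nat_lit 0) (nat_lit 4191876036) (nat_lit 304) (nat_lit 91252835679) (nat_lit 76) (nat_lit 24380263078) (nat_lit 133) (nat_lit 5) (nat_lit 137) (nat_lit 5) (nat_lit 134) (nat_lit 5) (nat_lit 484) (nat_lit 450) (nat_lit 266)))) (XT.nd (nat_lit 156) (nat_lit 608) (nat_lit 0) (XT.nd (nat_lit 78) (nat_lit 228) (nat_lit 0) (XT.lf (nat_lit 0) (nat_lit 23979643592) (nat_lit 304) (nat_lit 23406692938) (nat_lit 380) (nat_lit 76181246734) (nat_lit 129) (nat_lit 5) (nat_lit 133) (nat_lit 5) (nat_lit 134) (nat_lit 5) (nat_lit 485) (nat_lit 450) (nat_lit 265)) (XT.lf (nat_lit 0) (nat_lit 19274817945) (nat_lit 228) (nat_lit 75100834288) (nat_lit 304) (nat_lit 33072616074)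 (nat_lit 126) (nat_lit 5) (nat_lit 129) (nat_lit 5) (nat_lit 130) (nat_lit 5) (nat_lit 486) (nat_lit 450) (nat_lit 264))) (XT.nd (nat_lit 78) (nat_lit 228) (nat_lit 0) (XT.lf (nat_lit 0) (nat_lit 13376237670) (nat_lit 380) (nat_lit 116899647455) (nat_lit 76) (nat_lit 1200906114) (nat_lit 121) (nat_lit 5) (nat_lit 126) (nat_lit 5) (nat_lit 122) (nat_lit 5) (nat_lit 487) (nat_lit 450) (nat_lit 263)) (XT.lf (nat_lit 0) (nat_lit 9126297266) (nat_lit 228) (nat_lit 54313047686) (nat_lit 304) (nat_lit 72198297819) (nat_lit 118) (nat_lit 5) (nat_lit 121) (nat_lit 5) (nat_lit 122) (nat_lit 5) (nat_lit 488) (nat_lit 450) (nat_lit 262))))))))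
noncomputable def xc117 : XT := (XT.nd (nat_lit 1950) (nat_lit 4484) (nat_lit 0) (XT.nd (nat_lit 936) (nat_lit 6460) (nat_lit 0) (XT.nd (nat_lit 468) (nat_lit 684) (nat_lit 0) (XT.nd (nat_lit 234) (nat_lit 0) (nat_lit 152) (XT.nd (nat_lit 78) (nat_lit 0) (nat_lit 76) (XT.lf (nat_lit 0) (nat_lit 9661357888) (nat_lit 1292) (nat_lit 7409837895) (nat_lit 1292) (nat_lit 7409837895) (nat_lit 274) (nat_lit 3) (nat_lit 291) (nat_lit 3) (nat_lit 291) (nat_lit 5) (nat_lit 451) (nat_lit 451) (nat_lit 298)) (XT.nd (nat_lit 78) (nat_lit 0) (nat_lit 0) (XT.lf (nat_lit 0) (nat_lit 20150500778) (nat_lit 1216) (nat_lit 24567336834) (nat_lit 1292) (nat_lit 5457929562) (nat_lit 275) (nat_lit 5) (nat_lit 291) (nat_lit 5) (nat_lit 292) (nat_lit 5) (nat_lit 452) (nat_lit 451) (nat_lit 297)) (XT.lf (nat_lit 76) (nat_lit 16904201333) (nat_lit 0) (nat_lit 4773789866) (nat_lit 1292) (nat_lit 29752411957) (nat_lit 276)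 (nat_lit 5) (nat_lit 275) (nat_lit 5) (nat_lit 292) (nat_lit 5) (nat_lit 453) (nat_lit 451) (nat_lit 296)))) (XT.nd (nat_lit 78) (nat_lit 0) (nat_lit 76) (XT.lf (nat_lit 76) (nat_lit 8017543531) (nat_lit 0) (nat_lit 15951342965) (nat_lit 1292) (nat_lit 28758274163) (nat_lit 277) (nat_lit 5) (nat_lit 276) (nat_lit 5) (nat_lit 293) (nat_lit 5) (nat_lit 454) (nat_lit 451) (nat_lit 295)) (XT.nd (nat_lit 78) (nat_lit 0) (nat_lit 76) (XT.lf (nat_lit 0) (nat_lit 27030394877) (nat_lit 1216) (nat_lit 973053713) (nat_lit 1292) (nat_lit 26065625998) (nat_lit 277) (nat_lit 5) (nat_lit 293) (nat_lit 5) (nat_lit 294) (nat_lit 5) (nat_lit 455) (nat_lit 451) (nat_lit 294)) (XT.lf (nat_lit 0) (nat_lit 30985221068) (nat_lit 1216) (nat_lit 9923678500) (nat_lit 1292) (nat_lit 14546977949) (nat_lit 278) (nat_lit 5) (nat_lit 294) (nat_lit 5) (nat_lit 295) (nat_lit 5) (nat_lit 456) (nat_lit 451) (nat_lit 293))))) (XT.nd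 (nat_lit 234) (nat_lit 1064) (nat_lit 0) (XT.nd (nat_lit 78) (nat_lit 0) (nat_lit 0) (XT.lf (nat_lit 0) (nat_lit 35813283105) (nat_lit 1216) (nat_lit 18985850242) (nat_lit 1292) (nat_lit 2092622953) (nat_lit 279) (nat_lit 5) (nat_lit 295) (nat_lit 5) (nat_lit 296) (nat_lit 5) (nat_lit 457) (nat_lit 451) (nat_lit 292)) (XT.nd (nat_lit 78) (nat_lit 0) (nat_lit 76) (XT.lf (nat_lit 76) (nat_lit 30109952889) (nat_lit 0) (nat_lit 11576043842) (nat_lit 1292) (nat_lit 16689335354) (nat_lit 280) (nat_lit 5) (nat_lit 279) (nat_lit 5) (nat_lit 296) (nat_lit 5) (nat_lit 458) (nat_lit 451) (nat_lit 291)) (XT.lf (nat_lit 76) (nat_lit 22235352906) (nat_lit 0) (nat_lit 26350935680) (nat_lit 1292) (nat_lit 11324780295) (nat_lit 281) (nat_lit 5) (nat_lit 280) (nat_lit 5) (nat_lit 297) (nat_lit 5) (nat_lit 459) (nat_lit 451) (nat_lit 290)))) (XT.nd (nat_lit 78) (nat_lit 1216) (nat_lit 0) (XT.lf (nat_lit 76) (nat_lit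 14311393847) (nat_lit 0) (nat_lit 42249755473) (nat_lit 1292) (nat_lit 4940557037) (nat_lit 282) (nat_lit 5) (nat_lit 281) (nat_lit 5) (nat_lit 298) (nat_lit 5) (nat_lit 460) (nat_lit 451) (nat_lit 289)) (XT.nd (nat_lit 78) (nat_lit 0) (nat_lit 0) (XT.lf (nat_lit 0) (nat_lit 2482894149) (nat_lit 1292) (nat_lit 56826904536) (nat_lit 76) (nat_lit 3838936577) (nat_lit 265) (nat_lit 5) (nat_lit 282) (nat_lit 5) (nat_lit 266) (nat_lit 5) (nat_lit 461) (nat_lit 451) (nat_lit 288)) (XT.lf (nat_lit 0) (nat_lit 11091394789) (nat_lit 1292) (nat_lit 1850647126) (nat_lit 76) (nat_lit 51907124964) (nat_lit 265) (nat_lit 5) (nat_lit 282) (nat_lit 5) (nat_lit 266) (nat_lit 5) (nat_lit 462) (nat_lit 451) (nat_lit 287)))))) (XT.nd (nat_lit 468) (nat_lit 2812) (nat_lit 0) (XT.nd (nat_lit 234) (nat_lit 1672) (nat_lit 0) (XT.nd (nat_lit 78) (nat_lit 1216) (nat_lit 0) (XT.lf (nat_lit 0) (nat_lit 21025280154) (nat_lit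 836) (nat_lit 9982490947) (nat_lit 76) (nat_lit 35600000580) (nat_lit 255) (nat_lit 5) (nat_lit 266) (nat_lit 5) (nat_lit 256) (nat_lit 5) (nat_lit 463) (nat_lit 451) (nat_lit 286)) (XT.nd (nat_lit 78) (nat_lit 608) (nat_lit 0) (XT.lf (nat_lit 0) (nat_lit 32265655030) (nat_lit 684) (nat_lit 18149737965) (nat_lit 76) (nat_lit 18014620247) (nat_lit 247) (nat_lit 5) (nat_lit 256) (nat_lit 5) (nat_lit 248) (nat_lit 5) (nat_lit 464) (nat_lit 451) (nat_lit 285)) (XT.lf (nat_lit 0) (nat_lit 43966821580) (nat_lit 608) (nat_lit 938921104) (nat_lit 684) (nat_lit 25412493736) (nat_lit 239) (nat_lit 5) (nat_lit 247) (nat_lit 5) (nat_lit 248) (nat_lit 5) (nat_lit 465) (nat_lit 451) (nat_lit 284)))) (XT.nd (nat_lit 78) (nat_lit 1140) (nat_lit 0) (XT.lf (nat_lit 0) (nat_lit 37511353001) (nat_lit 532) (nat_lit 21704477816) (nat_lit 608) (nat_lit 13053900396) (nat_lit 232) (nat_lit 5) (nat_lit 239) (nat_lit 5)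 (nat_lit 240) (nat_lit 5) (nat_lit 466) (nat_lit 451) (nat_lit 283)) (XT.nd (nat_lit 78) (nat_lit 532) (nat_lit 0) (XT.lf (nat_lit 0) (nat_lit 804907918) (nat_lit 608) (nat_lit 43191253045) (nat_lit 76) (nat_lit 30296239152) (nat_lit 224) (nat_lit 5) (nat_lit 232) (nat_lit 5) (nat_lit 225) (nat_lit 5) (nat_lit 467) (nat_lit 451) (nat_lit 282)) (XT.lf (nat_lit 0) (nat_lit 15990070696) (nat_lit 608) (nat_lit 51771774562) (nat_lit 76) (nat_lit 8623378446) (nat_lit 217) (nat_lit 5) (nat_lit 225) (nat_lit 5) (nat_lit 218) (nat_lit 5) (nat_lit 468) (nat_lit 451) (nat_lit 281))))) (XT.nd (nat_lit 234) (nat_lit 1368) (nat_lit 0) (XT.nd (nat_lit 78) (nat_lit 912) (nat_lit 0) (XT.lf (nat_lit 0) (nat_lit 18043611336) (nat_lit 532) (nat_lit 14955945883) (nat_lit 608) (nat_lit 45551179571) (nat_lit 210) (nat_lit 5) (nat_lit 217) (nat_lit 5) (nat_lit 218) (nat_lit 5) (nat_lit 469) (nat_lit 451) (nat_lit 280))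 (XT.nd (nat_lit 78) (nat_lit 456) (nat_lit 0) (XT.lf (nat_lit 0) (nat_lit 11450433285) (nat_lit 456) (nat_lit 40445182128) (nat_lit 532) (nat_lit 28897827470) (nat_lit 204) (nat_lit 5) (nat_lit 210) (nat_lit 5) (nat_lit 211) (nat_lit 5) (nat_lit 470) (nat_lit 451) (nat_lit 279)) (XT.lf (nat_lit 0) (nat_lit 4935894876) (nat_lit 456) (nat_lit 67769039229) (nat_lit 532) (nat_lit 10414296707) (nat_lit 198) (nat_lit 5) (nat_lit 204) (nat_lit 5) (nat_lit 205) (nat_lit 5) (nat_lit 471) (nat_lit 451) (nat_lit 278)))) (XT.nd (nat_lit 156) (nat_lit 836) (nat_lit 0) (XT.nd (nat_lit 78) (nat_lit 456) (nat_lit 0) (XT.lf (nat_lit 0) (nat_lit 9945709200) (nat_lit 532) (nat_lit 1665416849) (nat_lit 76) (nat_lit 73913755052) (nat_lit 197) (nat_lit 5) (nat_lit 204) (nat_lit 5) (nat_lit 198) (nat_lit 5) (nat_lit 472) (nat_lit 451) (nat_lit 277)) (XT.lf (nat_lit 0) (nat_lit 32343252442) (nat_lit 532) (nat_lit 8352956465)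 (nat_lit 76) (nat_lit 47314464249) (nat_lit 191) (nat_lit 5) (nat_lit 198) (nat_lit 5) (nat_lit 192) (nat_lit 5) (nat_lit 473) (nat_lit 451) (nat_lit 276))) (XT.nd (nat_lit 78) (nat_lit 380) (nat_lit 0) (XT.lf (nat_lit 0) (nat_lit 56906409193) (nat_lit 532) (nat_lit 14956222970) (nat_lit 76) (nat_lit 18726750778) (nat_lit 185) (nat_lit 5) (nat_lit 192) (nat_lit 5) (nat_lit 186) (nat_lit 5) (nat_lit 474) (nat_lit 451) (nat_lit 275)) (XT.lf (nat_lit 0) (nat_lit 71684402158) (nat_lit 380) (nat_lit 12198814516) (nat_lit 456) (nat_lit 9378246964) (nat_lit 180) (nat_lit 5) (nat_lit 185) (nat_lit 5) (nat_lit 186) (nat_lit 5) (nat_lit 475) (nat_lit 451) (nat_lit 274))))))) (XT.nd (nat_lit 60606) (nat_lit 0) (nat_lit 10184) (XT.nd (nat_lit 468) (nat_lit 2204) (nat_lit 0) (XT.nd (nat_lit 234) (nat_lit 1064) (nat_lit 0) (XT.nd (nat_lit 78) (nat_lit 760) (nat_lit 0) (XT.lf (nat_lit 0) (nat_lit 17129965126)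 (nat_lit 456) (nat_lit 28455382909) (nat_lit 76) (nat_lit 50438048644) (nat_lit 174) (nat_lit 5) (nat_lit 180) (nat_lit 5) (nat_lit 175) (nat_lit 5) (nat_lit 476) (nat_lit 451) (nat_lit 273)) (XT.nd (nat_lit 78) (nat_lit 380) (nat_lit 0) (XT.lf (nat_lit 0) (nat_lit 45903337626) (nat_lit 456) (nat_lit 35338244355) (nat_lit 76) (nat_lit 17645047765) (nat_lit 169) (nat_lit 5) (nat_lit 175) (nat_lit 5) (nat_lit 170) (nat_lit 5) (nat_lit 477) (nat_lit 451) (nat_lit 272)) (XT.lf (nat_lit 0) (nat_lit 59560524040) (nat_lit 380) (nat_lit 17882242200) (nat_lit 456) (nat_lit 24410436777) (nat_lit 164) (nat_lit 5) (nat_lit 169) (nat_lit 5) (nat_lit 170) (nat_lit 5) (nat_lit 478) (nat_lit 451) (nat_lit 271)))) (XT.nd (nat_lit 78) (nat_lit 684) (nat_lit 0) (XT.lf (nat_lit 0) (nat_lit 6863893438) (nat_lit 380) (nat_lit 49396574387) (nat_lit 76) (nat_lit 48664566929) (nat_lit 159) (nat_lit 5) (nat_lit 164) (nat_lit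 5) (nat_lit 160) (nat_lit 5) (nat_lit 479) (nat_lit 451) (nat_lit 270)) (XT.nd (nat_lit 78) (nat_lit 304) (nat_lit 0) (XT.lf (nat_lit 0) (nat_lit 40424658133) (nat_lit 456) (nat_lit 56657119788) (nat_lit 76) (nat_lit 11024602789) (nat_lit 154) (nat_lit 5) (nat_lit 160) (nat_lit 5) (nat_lit 155) (nat_lit 5) (nat_lit 480) (nat_lit 451) (nat_lit 269)) (XT.lf (nat_lit 0) (nat_lit 47286536106) (nat_lit 304) (nat_lit 29911870358) (nat_lit 380) (nat_lit 34202339283) (nat_lit 150) (nat_lit 5) (nat_lit 154) (nat_lit 5) (nat_lit 155) (nat_lit 5) (nat_lit 481) (nat_lit 451) (nat_lit 268))))) (XT.nd (nat_lit 234) (nat_lit 1216) (nat_lit 0) (XT.nd (nat_lit 78) (nat_lit 608) (nat_lit 0) (XT.lf (nat_lit 0) (nat_lit 2340151634) (nat_lit 380) (nat_lit 71626262048) (nat_lit 76) (nat_lit 40850910353) (nat_lit 145) (nat_lit 5) (nat_lit 150) (nat_lit 5) (nat_lit 146) (nat_lit 5) (nat_lit 482) (nat_lit 451) (nat_lit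 267)) (XT.nd (nat_lit 78) (nat_lit 304) (nat_lit 0) (XT.lf (nat_lit 0) (nat_lit 38920932355) (nat_lit 304) (nat_lit 2429698595) (nat_lit 380) (nat_lit 77003494684) (nat_lit 141) (nat_lit 5) (nat_lit 145) (nat_lit 5) (nat_lit 146) (nat_lit 5) (nat_lit 483) (nat_lit 451) (nat_lit 266)) (XT.lf (nat_lit 0) (nat_lit 34410764819) (nat_lit 304) (nat_lit 49674056975) (nat_lit 380) (nat_lit 37929750015) (nat_lit 137) (nat_lit 5) (nat_lit 141) (nat_lit 5) (nat_lit 142) (nat_lit 5) (nat_lit 484) (nat_lit 451) (nat_lit 265)))) (XT.nd (nat_lit 156) (nat_lit 608) (nat_lit 0) (XT.nd (nat_lit 78) (nat_lit 304) (nat_lit 0) (XT.lf (nat_lit 0) (nat_lit 4429050229) (nat_lit 304) (nat_lit 95773148502) (nat_lit 76) (nat_lit 25613193912) (nat_lit 133) (nat_lit 5) (nat_lit 137) (nat_lit 5) (nat_lit 134) (nat_lit 5) (nat_lit 485) (nat_lit 451) (nat_lit 264)) (XT.lf (nat_lit 0) (nat_lit 25219741382) (nat_lit 304) (nat_lit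 24562574242) (nat_lit 380) (nat_lit 79962843622) (nat_lit 129) (nat_lit 5) (nat_lit 133) (nat_lit 5) (nat_lit 134) (nat_lit 5) (nat_lit 486) (nat_lit 451) (nat_lit 263))) (XT.nd (nat_lit 78) (nat_lit 380) (nat_lit 0) (XT.lf (nat_lit 0) (nat_lit 20279141088) (nat_lit 228) (nat_lit 78841208812) (nat_lit 304) (nat_lit 34699551215) (nat_lit 126) (nat_lit 5) (nat_lit 129) (nat_lit 5) (nat_lit 130) (nat_lit 5) (nat_lit 487) (nat_lit 451) (nat_lit 262)) (XT.lf (nat_lit 0) (nat_lit 14070502180) (nat_lit 380) (nat_lit 122704080106) (nat_lit 76) (nat_lit 1275282020) (nat_lit 121) (nat_lit 5) (nat_lit 126) (nat_lit 5) (nat_lit 122) (nat_lit 5) (nat_lit 488) (nat_lit 451) (nat_lit 261)))))) (XT.nd (nat_lit 468) (nat_lit 1444) (nat_lit 0) (XT.nd (nat_lit 234) (nat_lit 0) (nat_lit 152) (XT.nd (nat_lit 78) (nat_lit 0) (nat_lit 76) (XT.lf (nat_lit 0) (nat_lit 10188245092) (nat_lit 1292) (nat_lit 7757757749) (nat_lit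 1292) (nat_lit 7757757749) (nat_lit 274) (nat_lit 3) (nat_lit 291) (nat_lit 3) (nat_lit 291) (nat_lit 5) (nat_lit 452) (nat_lit 452) (nat_lit 296)) (XT.nd (nat_lit 78) (nat_lit 0) (nat_lit 0) (XT.lf (nat_lit 0) (nat_lit 21241527823) (nat_lit 1216) (nat_lit 25748932755) (nat_lit 1292) (nat_lit 5691570475) (nat_lit 275) (nat_lit 5) (nat_lit 291) (nat_lit 5) (nat_lit 292) (nat_lit 5) (nat_lit 453) (nat_lit 452) (nat_lit 295)) (XT.lf (nat_lit 76) (nat_lit 17794841641) (nat_lit 0) (nat_lit 5047011542) (nat_lit 1292) (nat_lit 31157652765) (nat_lit 276) (nat_lit 5) (nat_lit 275) (nat_lit 5) (nat_lit 292) (nat_lit 5) (nat_lit 454) (nat_lit 452) (nat_lit 294)))) (XT.nd (nat_lit 78) (nat_lit 0) (nat_lit 76) (XT.lf (nat_lit 76) (nat_lit 8465219202) (nat_lit 0) (nat_lit 16778400026) (nat_lit 1292) (nat_lit 30117593199) (nat_lit 277) (nat_lit 5) (nat_lit 276) (nat_lit 5) (nat_lit 293) (nat_lit 5) (nat_lit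 455) (nat_lit 452) (nat_lit 293)) (XT.nd (nat_lit 78) (nat_lit 0) (nat_lit 76) (XT.lf (nat_lit 0) (nat_lit 28454300271) (nat_lit 1216) (nat_lit 974669985) (nat_lit 1292) (nat_lit 27341369719) (nat_lit 277) (nat_lit 5) (nat_lit 293) (nat_lit 5) (nat_lit 294) (nat_lit 5) (nat_lit 456) (nat_lit 452) (nat_lit 292)) (XT.lf (nat_lit 0) (nat_lit 32603632296) (nat_lit 1216) (nat_lit 10371849267) (nat_lit 1292) (nat_lit 15251099347) (nat_lit 278) (nat_lit 5) (nat_lit 294) (nat_lit 5) (nat_lit 295) (nat_lit 5) (nat_lit 457) (nat_lit 452) (nat_lit 291))))) (XT.nd (nat_lit 234) (nat_lit 1824) (nat_lit 0) (XT.nd (nat_lit 78) (nat_lit 0) (nat_lit 0) (XT.lf (nat_lit 0) (nat_lit 37670063804) (nat_lit 1216) (nat_lit 19886312432) (nat_lit 1292) (nat_lit 2177969166) (nat_lit 279) (nat_lit 5) (nat_lit 295) (nat_lit 5) (nat_lit 296) (nat_lit 5) (nat_lit 458) (nat_lit 452) (nat_lit 290)) (XT.nd (nat_lit 78) (nat_lit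 0) (nat_lit 76) (XT.lf (nat_lit 76) (nat_lit 31662881144) (nat_lit 0) (nat_lit 12170839494) (nat_lit 1292) (nat_lit 17458460840) (nat_lit 280) (nat_lit 5) (nat_lit 279) (nat_lit 5) (nat_lit 296) (nat_lit 5) (nat_lit 459) (nat_lit 452) (nat_lit 289)) (XT.lf (nat_lit 76) (nat_lit 23395203160) (nat_lit 0) (nat_lit 27681119512) (nat_lit 1292) (nat_lit 11828464263) (nat_lit 281) (nat_lit 5) (nat_lit 280) (nat_lit 5) (nat_lit 297) (nat_lit 5) (nat_lit 460) (nat_lit 452) (nat_lit 288)))) (XT.nd (nat_lit 156) (nat_lit 760) (nat_lit 0) (XT.nd (nat_lit 78) (nat_lit 1216) (nat_lit 0) (XT.lf (nat_lit 76) (nat_lit 15075568642) (nat_lit 0) (nat_lit 44371817920) (nat_lit 1292) (nat_lit 5127646577) (nat_lit 282) (nat_lit 5) (nat_lit 281) (nat_lit 5) (nat_lit 298) (nat_lit 5) (nat_lit 461) (nat_lit 452) (nat_lit 287)) (XT.lf (nat_lit 0) (nat_lit 2663396297) (nat_lit 1292) (nat_lit 59618106612) (nat_lit 76) (nat_lit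 4022966240) (nat_lit 265) (nat_lit 5) (nat_lit 282) (nat_lit 5) (nat_lit 266) (nat_lit 5) (nat_lit 462) (nat_lit 452) (nat_lit 286))) (XT.nd (nat_lit 78) (nat_lit 760) (nat_lit 0) (XT.lf (nat_lit 0) (nat_lit 11699638281) (nat_lit 1292) (nat_lit 1895424101) (nat_lit 76) (nat_lit 54494941054) (nat_lit 265) (nat_lit 5) (nat_lit 282) (nat_lit 5) (nat_lit 266) (nat_lit 5) (nat_lit 463) (nat_lit 452) (nat_lit 285)) (XT.lf (nat_lit 0) (nat_lit 22128058150) (nat_lit 836) (nat_lit 10433621309) (nat_lit 76) (nat_lit 37374924364) (nat_lit 255) (nat_lit 5) (nat_lit 266) (nat_lit 5) (nat_lit 256) (nat_lit 5) (nat_lit 464) (nat_lit 452) (nat_lit 284))))))))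
noncomputable def xc118 : XT := (XT.nd (nat_lit 61620) (nat_lit 0) (nat_lit 3268) (XT.nd (nat_lit 936) (nat_lit 4104) (nat_lit 0) (XT.nd (nat_lit 468) (nat_lit 2280) (nat_lit 0) (XT.nd (nat_lit 234) (nat_lit 1672) (nat_lit 0) (XT.nd (nat_lit 78) (nat_lit 1140) (nat_lit 0) (XT.lf (nat_lit 0) (nat_lit 33928419061) (nat_lit 684) (nat_lit 19009082865) (nat_lit 76) (nat_lit 18912517042) (nat_lit 247) (nat_lit 5) (nat_lit 256) (nat_lit 5) (nat_lit 248) (nat_lit 5) (nat_lit 465) (nat_lit 452) (nat_lit 283)) (XT.nd (nat_lit 78) (nat_lit 532) (nat_lit 0) (XT.lf (nat_lit 0) (nat_lit 46211924677) (nat_lit 608) (nat_lit 986679674) (nat_lit 684) (nat_lit 26634106655) (nat_lit 239) (nat_lit 5) (nat_lit 247) (nat_lit 5) (nat_lit 248) (nat_lit 5) (nat_lit 466) (nat_lit 452) (nat_lit 282)) (XT.lf (nat_lit 0) (nat_lit 39433745867) (nat_lit 532) (nat_lit 22788628244) (nat_lit 608) (nat_lit 13659461588) (nat_lit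 232) (nat_lit 5) (nat_lit 239) (nat_lit 5) (nat_lit 240) (nat_lit 5) (nat_lit 467) (nat_lit 452) (nat_lit 281)))) (XT.nd (nat_lit 78) (nat_lit 1064) (nat_lit 0) (XT.lf (nat_lit 0) (nat_lit 889631119) (nat_lit 608) (nat_lit 45303106282) (nat_lit 76) (nat_lit 31812939581) (nat_lit 224) (nat_lit 5) (nat_lit 232) (nat_lit 5) (nat_lit 225) (nat_lit 5) (nat_lit 468) (nat_lit 452) (nat_lit 280)) (XT.nd (nat_lit 78) (nat_lit 532) (nat_lit 0) (XT.lf (nat_lit 0) (nat_lit 16832413507) (nat_lit 608) (nat_lit 54312762908) (nat_lit 76) (nat_lit 9058014911) (nat_lit 217) (nat_lit 5) (nat_lit 225) (nat_lit 5) (nat_lit 218) (nat_lit 5) (nat_lit 469) (nat_lit 452) (nat_lit 279)) (XT.lf (nat_lit 0) (nat_lit 18992027830) (nat_lit 532) (nat_lit 15698751009) (nat_lit 608) (nat_lit 47786249492) (nat_lit 210) (nat_lit 5) (nat_lit 217) (nat_lit 5) (nat_lit 218) (nat_lit 5) (nat_lit 470) (nat_lit 452) (nat_lit 278)))))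 (XT.nd (nat_lit 234) (nat_lit 1292) (nat_lit 0) (XT.nd (nat_lit 78) (nat_lit 532) (nat_lit 0) (XT.lf (nat_lit 0) (nat_lit 12069028523) (nat_lit 456) (nat_lit 42461136021) (nat_lit 532) (nat_lit 30301749827) (nat_lit 204) (nat_lit 5) (nat_lit 210) (nat_lit 5) (nat_lit 211) (nat_lit 5) (nat_lit 471) (nat_lit 452) (nat_lit 277)) (XT.nd (nat_lit 78) (nat_lit 76) (nat_lit 0) (XT.lf (nat_lit 0) (nat_lit 5228549872) (nat_lit 456) (nat_lit 71150004128) (nat_lit 532) (nat_lit 10895479915) (nat_lit 198) (nat_lit 5) (nat_lit 204) (nat_lit 5) (nat_lit 205) (nat_lit 5) (nat_lit 472) (nat_lit 452) (nat_lit 276)) (XT.lf (nat_lit 0) (nat_lit 10479909159) (nat_lit 532) (nat_lit 1704269894) (nat_lit 76) (nat_lit 77615831971) (nat_lit 197) (nat_lit 5) (nat_lit 204) (nat_lit 5) (nat_lit 198) (nat_lit 5) (nat_lit 473) (nat_lit 452) (nat_lit 275)))) (XT.nd (nat_lit 78) (nat_lit 836) (nat_lit 0) (XT.lf (nat_lit 0) (nat_lit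 33996059260) (nat_lit 532) (nat_lit 8726458995) (nat_lit 76) (nat_lit 49687612856) (nat_lit 191) (nat_lit 5) (nat_lit 198) (nat_lit 5) (nat_lit 192) (nat_lit 5) (nat_lit 474) (nat_lit 452) (nat_lit 274)) (XT.nd (nat_lit 78) (nat_lit 380) (nat_lit 0) (XT.lf (nat_lit 0) (nat_lit 59786170601) (nat_lit 532) (nat_lit 15660199303) (nat_lit 76) (nat_lit 19671442882) (nat_lit 185) (nat_lit 5) (nat_lit 192) (nat_lit 5) (nat_lit 186) (nat_lit 5) (nat_lit 475) (nat_lit 452) (nat_lit 273)) (XT.lf (nat_lit 0) (nat_lit 75311200566) (nat_lit 380) (nat_lit 12799387133) (nat_lit 456) (nat_lit 9812947030) (nat_lit 180) (nat_lit 5) (nat_lit 185) (nat_lit 5) (nat_lit 186) (nat_lit 5) (nat_lit 476) (nat_lit 452) (nat_lit 272)))))) (XT.nd (nat_lit 468) (nat_lit 1824) (nat_lit 0) (XT.nd (nat_lit 234) (nat_lit 1064) (nat_lit 0) (XT.nd (nat_lit 78) (nat_lit 760) (nat_lit 0) (XT.lf (nat_lit 0) (nat_lit 18018907400) (nat_lit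 456) (nat_lit 29835257307) (nat_lit 76) (nat_lit 52969423135) (nat_lit 174) (nat_lit 5) (nat_lit 180) (nat_lit 5) (nat_lit 175) (nat_lit 5) (nat_lit 477) (nat_lit 452) (nat_lit 271)) (XT.nd (nat_lit 78) (nat_lit 380) (nat_lit 0) (XT.lf (nat_lit 0) (nat_lit 48229903723) (nat_lit 456) (nat_lit 37062646954) (nat_lit 76) (nat_lit 18537463485) (nat_lit 169) (nat_lit 5) (nat_lit 175) (nat_lit 5) (nat_lit 170) (nat_lit 5) (nat_lit 478) (nat_lit 452) (nat_lit 270)) (XT.lf (nat_lit 0) (nat_lit 62579841331) (nat_lit 380) (nat_lit 18765364151) (nat_lit 456) (nat_lit 25599743804) (nat_lit 164) (nat_lit 5) (nat_lit 169) (nat_lit 5) (nat_lit 170) (nat_lit 5) (nat_lit 479) (nat_lit 452) (nat_lit 269)))) (XT.nd (nat_lit 78) (nat_lit 684) (nat_lit 0) (XT.lf (nat_lit 0) (nat_lit 7236734979) (nat_lit 380) (nat_lit 51824916033) (nat_lit 76) (nat_lit 51108741588) (nat_lit 159) (nat_lit 5) (nat_lit 164) (nat_lit 5)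 (nat_lit 160) (nat_lit 5) (nat_lit 480) (nat_lit 452) (nat_lit 268)) (XT.nd (nat_lit 78) (nat_lit 304) (nat_lit 0) (XT.lf (nat_lit 0) (nat_lit 42474625752) (nat_lit 456) (nat_lit 59448927205) (nat_lit 76) (nat_lit 11587280474) (nat_lit 154) (nat_lit 5) (nat_lit 160) (nat_lit 5) (nat_lit 155) (nat_lit 5) (nat_lit 481) (nat_lit 452) (nat_lit 267)) (XT.lf (nat_lit 0) (nat_lit 49690734834) (nat_lit 304) (nat_lit 31395341619) (nat_lit 380) (nat_lit 35883870022) (nat_lit 150) (nat_lit 5) (nat_lit 154) (nat_lit 5) (nat_lit 155) (nat_lit 5) (nat_lit 482) (nat_lit 452) (nat_lit 266))))) (XT.nd (nat_lit 234) (nat_lit 836) (nat_lit 0) (XT.nd (nat_lit 78) (nat_lit 608) (nat_lit 0) (XT.lf (nat_lit 0) (nat_lit 2484347774) (nat_lit 380) (nat_lit 75167601886) (nat_lit 76) (nat_lit 42905421157) (nat_lit 145) (nat_lit 5) (nat_lit 150) (nat_lit 5) (nat_lit 146) (nat_lit 5) (nat_lit 483) (nat_lit 452) (nat_lit 265))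 (XT.nd (nat_lit 78) (nat_lit 304) (nat_lit 0) (XT.lf (nat_lit 0) (nat_lit 40905806411) (nat_lit 304) (nat_lit 2538623184) (nat_lit 380) (nat_lit 80826610724) (nat_lit 141) (nat_lit 5) (nat_lit 145) (nat_lit 5) (nat_lit 146) (nat_lit 5) (nat_lit 484) (nat_lit 452) (nat_lit 264)) (XT.lf (nat_lit 0) (nat_lit 36169669146) (nat_lit 304) (nat_lit 52144893808) (nat_lit 380) (nat_lit 39799969030) (nat_lit 137) (nat_lit 5) (nat_lit 141) (nat_lit 5) (nat_lit 142) (nat_lit 5) (nat_lit 485) (nat_lit 452) (nat_lit 263)))) (XT.nd (nat_lit 156) (nat_lit 228) (nat_lit 0) (XT.nd (nat_lit 78) (nat_lit 304) (nat_lit 0) (XT.lf (nat_lit 0) (nat_lit 4675518968) (nat_lit 304) (nat_lit 100523412311) (nat_lit 76) (nat_lit 26906477353) (nat_lit 133) (nat_lit 5) (nat_lit 137) (nat_lit 5) (nat_lit 134) (nat_lit 5) (nat_lit 486) (nat_lit 452) (nat_lit 262)) (XT.lf (nat_lit 0) (nat_lit 26518021522) (nat_lit 304) (nat_lit 25777593346)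 (nat_lit 380) (nat_lit 83936073832) (nat_lit 129) (nat_lit 5) (nat_lit 133) (nat_lit 5) (nat_lit 134) (nat_lit 5) (nat_lit 487) (nat_lit 452) (nat_lit 261))) (XT.nd (nat_lit 59748) (nat_lit 0) (nat_lit 11248) (XT.lf (nat_lit 0) (nat_lit 21329907436) (nat_lit 228) (nat_lit 82769965678) (nat_lit 304) (nat_lit 36410315023) (nat_lit 126) (nat_lit 5) (nat_lit 129) (nat_lit 5) (nat_lit 130) (nat_lit 5) (nat_lit 488) (nat_lit 452) (nat_lit 260)) (XT.lf (nat_lit 0) (nat_lit 10737402751) (nat_lit 1292) (nat_lit 8125172129) (nat_lit 1292) (nat_lit 8125172129) (nat_lit 274) (nat_lit 3) (nat_lit 291) (nat_lit 3) (nat_lit 291) (nat_lit 5) (nat_lit 453) (nat_lit 453) (nat_lit 294))))))) (XT.nd (nat_lit 1014) (nat_lit 5928) (nat_lit 0) (XT.nd (nat_lit 468) (nat_lit 2128) (nat_lit 0) (XT.nd (nat_lit 234) (nat_lit 0) (nat_lit 152) (XT.nd (nat_lit 78) (nat_lit 0) (nat_lit 0) (XT.lf (nat_lit 0) (nat_lit 22379342995)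 (nat_lit 1216) (nat_lit 26993956790) (nat_lit 1292) (nat_lit 5940543045) (nat_lit 275) (nat_lit 5) (nat_lit 291) (nat_lit 5) (nat_lit 292) (nat_lit 5) (nat_lit 454) (nat_lit 453) (nat_lit 293)) (XT.nd (nat_lit 78) (nat_lit 0) (nat_lit 76) (XT.lf (nat_lit 76) (nat_lit 18725790290) (nat_lit 0) (nat_lit 5330683826) (nat_lit 1292) (nat_lit 32640814506) (nat_lit 276) (nat_lit 5) (nat_lit 275) (nat_lit 5) (nat_lit 292) (nat_lit 5) (nat_lit 455) (nat_lit 453) (nat_lit 292)) (XT.lf (nat_lit 76) (nat_lit 8930927776) (nat_lit 0) (nat_lit 17644068248) (nat_lit 1292) (nat_lit 31552185174) (nat_lit 277) (nat_lit 5) (nat_lit 276) (nat_lit 5) (nat_lit 293) (nat_lit 5) (nat_lit 456) (nat_lit 453) (nat_lit 291)))) (XT.nd (nat_lit 78) (nat_lit 0) (nat_lit 76) (XT.lf (nat_lit 0) (nat_lit 29942671202) (nat_lit 1216) (nat_lit 980740070) (nat_lit 1292) (nat_lit 28683460809) (nat_lit 277) (nat_lit 5) (nat_lit 293) (nat_lit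 5) (nat_lit 294) (nat_lit 5) (nat_lit 457) (nat_lit 453) (nat_lit 290)) (XT.nd (nat_lit 78) (nat_lit 0) (nat_lit 76) (XT.lf (nat_lit 0) (nat_lit 34296535159) (nat_lit 1216) (nat_lit 10846892381) (nat_lit 1292) (nat_lit 15992586289) (nat_lit 278) (nat_lit 5) (nat_lit 294) (nat_lit 5) (nat_lit 295) (nat_lit 5) (nat_lit 458) (nat_lit 453) (nat_lit 289)) (XT.lf (nat_lit 0) (nat_lit 39613536649) (nat_lit 1216) (nat_lit 20836337513) (nat_lit 1292) (nat_lit 2269375621) (nat_lit 279) (nat_lit 5) (nat_lit 295) (nat_lit 5) (nat_lit 296) (nat_lit 5) (nat_lit 459) (nat_lit 453) (nat_lit 288))))) (XT.nd (nat_lit 234) (nat_lit 2432) (nat_lit 0) (XT.nd (nat_lit 78) (nat_lit 0) (nat_lit 76) (XT.lf (nat_lit 76) (nat_lit 33289046162) (nat_lit 0) (nat_lit 12793888008) (nat_lit 1292) (nat_lit 18272117414) (nat_lit 280) (nat_lit 5) (nat_lit 279) (nat_lit 5) (nat_lit 296) (nat_lit 5) (nat_lit 460) (nat_lit 453) (nat_lit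 287)) (XT.nd (nat_lit 78) (nat_lit 0) (nat_lit 76) (XT.lf (nat_lit 76) (nat_lit 24608575661) (nat_lit 0) (nat_lit 29076637663) (nat_lit 1292) (nat_lit 12363148205) (nat_lit 281) (nat_lit 5) (nat_lit 280) (nat_lit 5) (nat_lit 297) (nat_lit 5) (nat_lit 461) (nat_lit 453) (nat_lit 286)) (XT.lf (nat_lit 76) (nat_lit 15873433334) (nat_lit 0) (nat_lit 46599093328) (nat_lit 1292) (nat_lit 5329663089) (nat_lit 282) (nat_lit 5) (nat_lit 281) (nat_lit 5) (nat_lit 298) (nat_lit 5) (nat_lit 462) (nat_lit 453) (nat_lit 285)))) (XT.nd (nat_lit 156) (nat_lit 1368) (nat_lit 0) (XT.nd (nat_lit 78) (nat_lit 0) (nat_lit 0) (XT.lf (nat_lit 0) (nat_lit 2847683972) (nat_lit 1292) (nat_lit 62553530627) (nat_lit 76) (nat_lit 4216933449) (nat_lit 265) (nat_lit 5) (nat_lit 282) (nat_lit 5) (nat_lit 266) (nat_lit 5) (nat_lit 463) (nat_lit 453) (nat_lit 284)) (XT.lf (nat_lit 0) (nat_lit 12333303871) (nat_lit 1292) (nat_lit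 1946879767) (nat_lit 76) (nat_lit 57212848962) (nat_lit 265) (nat_lit 5) (nat_lit 282) (nat_lit 5) (nat_lit 266) (nat_lit 5) (nat_lit 464) (nat_lit 453) (nat_lit 283))) (XT.nd (nat_lit 78) (nat_lit 608) (nat_lit 0) (XT.lf (nat_lit 0) (nat_lit 23281185763) (nat_lit 836) (nat_lit 10911770233) (nat_lit 76) (nat_lit 39239066279) (nat_lit 255) (nat_lit 5) (nat_lit 266) (nat_lit 5) (nat_lit 256) (nat_lit 5) (nat_lit 465) (nat_lit 453) (nat_lit 282)) (XT.lf (nat_lit 0) (nat_lit 35669720993) (nat_lit 684) (nat_lit 19915870797) (nat_lit 76) (nat_lit 19855572176) (nat_lit 247) (nat_lit 5) (nat_lit 256) (nat_lit 5) (nat_lit 248) (nat_lit 5) (nat_lit 466) (nat_lit 453) (nat_lit 281)))))) (XT.nd (nat_lit 468) (nat_lit 2660) (nat_lit 0) (XT.nd (nat_lit 234) (nat_lit 1520) (nat_lit 0) (XT.nd (nat_lit 78) (nat_lit 1140) (nat_lit 0) (XT.lf (nat_lit 0) (nat_lit 48564935439) (nat_lit 608) (nat_lit 1036750634) (nat_lit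 684) (nat_lit 27921356870) (nat_lit 239) (nat_lit 5) (nat_lit 247) (nat_lit 5) (nat_lit 248) (nat_lit 5) (nat_lit 467) (nat_lit 453) (nat_lit 280)) (XT.nd (nat_lit 78) (nat_lit 608) (nat_lit 0) (XT.lf (nat_lit 0) (nat_lit 41447905012) (nat_lit 532) (nat_lit 23927085994) (nat_lit 608) (nat_lit 14299682896) (nat_lit 232) (nat_lit 5) (nat_lit 239) (nat_lit 5) (nat_lit 240) (nat_lit 5) (nat_lit 468) (nat_lit 453) (nat_lit 279)) (XT.lf (nat_lit 0) (nat_lit 974455356) (nat_lit 608) (nat_lit 47524987750) (nat_lit 76) (nat_lit 33405299459) (nat_lit 224) (nat_lit 5) (nat_lit 232) (nat_lit 5) (nat_lit 225) (nat_lit 5) (nat_lit 469) (nat_lit 453) (nat_lit 278)))) (XT.nd (nat_lit 78) (nat_lit 988) (nat_lit 0) (XT.lf (nat_lit 0) (nat_lit 17712890669) (nat_lit 608) (nat_lit 56985226103) (nat_lit 76) (nat_lit 9514060820) (nat_lit 217) (nat_lit 5) (nat_lit 225) (nat_lit 5) (nat_lit 218) (nat_lit 5) (nat_lit 470)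 (nat_lit 453) (nat_lit 277)) (XT.nd (nat_lit 78) (nat_lit 456) (nat_lit 0) (XT.lf (nat_lit 0) (nat_lit 19983566570) (nat_lit 532) (nat_lit 16479160516) (nat_lit 608) (nat_lit 50137023139) (nat_lit 210) (nat_lit 5) (nat_lit 217) (nat_lit 5) (nat_lit 218) (nat_lit 5) (nat_lit 471) (nat_lit 453) (nat_lit 276)) (XT.lf (nat_lit 0) (nat_lit 12714270039) (nat_lit 456) (nat_lit 44578473808) (nat_lit 532) (nat_lit 31779677212) (nat_lit 204) (nat_lit 5) (nat_lit 210) (nat_lit 5) (nat_lit 211) (nat_lit 5) (nat_lit 472) (nat_lit 453) (nat_lit 275))))) (XT.nd (nat_lit 234) (nat_lit 1672) (nat_lit 0) (XT.nd (nat_lit 78) (nat_lit 532) (nat_lit 0) (XT.lf (nat_lit 0) (nat_lit 5531573965) (nat_lit 456) (nat_lit 74700713349) (nat_lit 532) (nat_lit 11404397558) (nat_lit 198) (nat_lit 5) (nat_lit 204) (nat_lit 5) (nat_lit 205) (nat_lit 5) (nat_lit 473) (nat_lit 453) (nat_lit 274)) (XT.nd (nat_lit 78) (nat_lit 456)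 (nat_lit 0) (XT.lf (nat_lit 0) (nat_lit 11037387155) (nat_lit 532) (nat_lit 1749195136) (nat_lit 76) (nat_lit 81502418733) (nat_lit 197) (nat_lit 5) (nat_lit 204) (nat_lit 5) (nat_lit 198) (nat_lit 5) (nat_lit 474) (nat_lit 453) (nat_lit 273)) (XT.lf (nat_lit 0) (nat_lit 35728192559) (nat_lit 532) (nat_lit 9122740862) (nat_lit 76) (nat_lit 52178728550) (nat_lit 191) (nat_lit 5) (nat_lit 198) (nat_lit 5) (nat_lit 192) (nat_lit 5) (nat_lit 475) (nat_lit 453) (nat_lit 272)))) (XT.nd (nat_lit 156) (nat_lit 836) (nat_lit 0) (XT.nd (nat_lit 78) (nat_lit 380) (nat_lit 0) (XT.lf (nat_lit 0) (nat_lit 62806718086) (nat_lit 532) (nat_lit 16403449797) (nat_lit 76) (nat_lit 20662592863) (nat_lit 185) (nat_lit 5) (nat_lit 192) (nat_lit 5) (nat_lit 186) (nat_lit 5) (nat_lit 476) (nat_lit 453) (nat_lit 271)) (XT.lf (nat_lit 0) (nat_lit 79115380367) (nat_lit 380) (nat_lit 13430859339) (nat_lit 456) (nat_lit 10272562832)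 (nat_lit 180) (nat_lit 5) (nat_lit 185) (nat_lit 5) (nat_lit 186) (nat_lit 5) (nat_lit 477) (nat_lit 453) (nat_lit 270))) (XT.nd (nat_lit 78) (nat_lit 380) (nat_lit 0) (XT.lf (nat_lit 0) (nat_lit 18949280451) (nat_lit 456) (nat_lit 31288113373) (nat_lit 76) (nat_lit 55626485728) (nat_lit 174) (nat_lit 5) (nat_lit 180) (nat_lit 5) (nat_lit 175) (nat_lit 5) (nat_lit 478) (nat_lit 453) (nat_lit 269)) (XT.lf (nat_lit 0) (nat_lit 50669878925) (nat_lit 456) (nat_lit 38877221824) (nat_lit 76) (nat_lit 19473555100) (nat_lit 169) (nat_lit 5) (nat_lit 175) (nat_lit 5) (nat_lit 170) (nat_lit 5) (nat_lit 479) (nat_lit 453) (nat_lit 268))))))))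
noncomputable def xc119 : XT := (XT.nd (nat_lit 61698) (nat_lit 0) (nat_lit 608) (XT.nd (nat_lit 60684) (nat_lit 0) (nat_lit 7828) (XT.nd (nat_lit 468) (nat_lit 912) (nat_lit 0) (XT.nd (nat_lit 234) (nat_lit 988) (nat_lit 0) (XT.nd (nat_lit 78) (nat_lit 760) (nat_lit 0) (XT.lf (nat_lit 0) (nat_lit 65746285633) (nat_lit 380) (nat_lit 19693663961) (nat_lit 456) (nat_lit 26851418241) (nat_lit 164) (nat_lit 5) (nat_lit 169) (nat_lit 5) (nat_lit 170) (nat_lit 5) (nat_lit 480) (nat_lit 453) (nat_lit 267)) (XT.nd (nat_lit 78) (nat_lit 380) (nat_lit 0) (XT.lf (nat_lit 0) (nat_lit 7625462312) (nat_lit 380) (nat_lit 54378531835) (nat_lit 76) (nat_lit 53674107295) (nat_lit 159) (nat_lit 5) (nat_lit 164) (nat_lit 5) (nat_lit 160) (nat_lit 5) (nat_lit 481) (nat_lit 453) (nat_lit 266)) (XT.lf (nat_lit 0) (nat_lit 44624420270) (nat_lit 456) (nat_lit 62384141301) (nat_lit 76) (nat_lit 12177027759) (nat_lit 154)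 (nat_lit 5) (nat_lit 160) (nat_lit 5) (nat_lit 155) (nat_lit 5) (nat_lit 482) (nat_lit 453) (nat_lit 265)))) (XT.nd (nat_lit 78) (nat_lit 684) (nat_lit 0) (XT.lf (nat_lit 0) (nat_lit 52211436585) (nat_lit 304) (nat_lit 32954113455) (nat_lit 380) (nat_lit 37652134975) (nat_lit 150) (nat_lit 5) (nat_lit 154) (nat_lit 5) (nat_lit 155) (nat_lit 5) (nat_lit 483) (nat_lit 453) (nat_lit 264)) (XT.nd (nat_lit 78) (nat_lit 304) (nat_lit 0) (XT.lf (nat_lit 0) (nat_lit 2633225986) (nat_lit 380) (nat_lit 78889725052) (nat_lit 76) (nat_lit 45061545083) (nat_lit 145) (nat_lit 5) (nat_lit 150) (nat_lit 5) (nat_lit 146) (nat_lit 5) (nat_lit 484) (nat_lit 453) (nat_lit 263)) (XT.lf (nat_lit 0) (nat_lit 42986314363) (nat_lit 304) (nat_lit 2654161745) (nat_lit 380) (nat_lit 84843398227) (nat_lit 141) (nat_lit 5) (nat_lit 145) (nat_lit 5) (nat_lit 146) (nat_lit 5) (nat_lit 485) (nat_lit 453) (nat_lit 262))))) (XT.nd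 (nat_lit 59982) (nat_lit 0) (nat_lit 11020) (XT.nd (nat_lit 78) (nat_lit 608) (nat_lit 0) (XT.lf (nat_lit 0) (nat_lit 38012951774) (nat_lit 304) (nat_lit 54740468642) (nat_lit 380) (nat_lit 41766141192) (nat_lit 137) (nat_lit 5) (nat_lit 141) (nat_lit 5) (nat_lit 142) (nat_lit 5) (nat_lit 486) (nat_lit 453) (nat_lit 261)) (XT.nd (nat_lit 78) (nat_lit 304) (nat_lit 0) (XT.lf (nat_lit 0) (nat_lit 4931985372) (nat_lit 304) (nat_lit 105514758785) (nat_lit 76) (nat_lit 28263251330) (nat_lit 133) (nat_lit 5) (nat_lit 137) (nat_lit 5) (nat_lit 134) (nat_lit 5) (nat_lit 487) (nat_lit 453) (nat_lit 260)) (XT.lf (nat_lit 0) (nat_lit 27877748512) (nat_lit 304) (nat_lit 27054582213) (nat_lit 380) (nat_lit 88110281631) (nat_lit 129) (nat_lit 5) (nat_lit 133) (nat_lit 5) (nat_lit 134) (nat_lit 5) (nat_lit 488) (nat_lit 453) (nat_lit 259)))) (XT.nd (nat_lit 78) (nat_lit 0) (nat_lit 76) (XT.lf (nat_lit 0) (nat_lit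 11310323143) (nat_lit 1292) (nat_lit 8512860661) (nat_lit 1292) (nat_lit 8512860661) (nat_lit 274) (nat_lit 3) (nat_lit 291) (nat_lit 3) (nat_lit 291) (nat_lit 5) (nat_lit 454) (nat_lit 454) (nat_lit 292)) (XT.nd (nat_lit 78) (nat_lit 0) (nat_lit 0) (XT.lf (nat_lit 0) (nat_lit 23567007452) (nat_lit 1216) (nat_lit 28305176078) (nat_lit 1292) (nat_lit 6205274547) (nat_lit 275) (nat_lit 5) (nat_lit 291) (nat_lit 5) (nat_lit 292) (nat_lit 5) (nat_lit 455) (nat_lit 454) (nat_lit 291)) (XT.lf (nat_lit 76) (nat_lit 19699455377) (nat_lit 0) (nat_lit 5625627729) (nat_lit 1292) (nat_lit 34205081174) (nat_lit 276) (nat_lit 5) (nat_lit 275) (nat_lit 5) (nat_lit 292) (nat_lit 5) (nat_lit 456) (nat_lit 454) (nat_lit 290)))))) (XT.nd (nat_lit 468) (nat_lit 3344) (nat_lit 0) (XT.nd (nat_lit 234) (nat_lit 0) (nat_lit 228) (XT.nd (nat_lit 78) (nat_lit 0) (nat_lit 76) (XT.lf (nat_lit 76) (nat_lit 9415975402) (nat_lit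 0) (nat_lit 18550533084) (nat_lit 1292) (nat_lit 33065134401) (nat_lit 277) (nat_lit 5) (nat_lit 276) (nat_lit 5) (nat_lit 293) (nat_lit 5) (nat_lit 457) (nat_lit 454) (nat_lit 289)) (XT.nd (nat_lit 78) (nat_lit 0) (nat_lit 76) (XT.lf (nat_lit 0) (nat_lit 31499356615) (nat_lit 1216) (nat_lit 991080099) (nat_lit 1292) (nat_lit 30094978615) (nat_lit 277) (nat_lit 5) (nat_lit 293) (nat_lit 5) (nat_lit 294) (nat_lit 5) (nat_lit 458) (nat_lit 454) (nat_lit 288)) (XT.lf (nat_lit 0) (nat_lit 36068251937) (nat_lit 1216) (nat_lit 11349736457) (nat_lit 1292) (nat_lit 16773106283) (nat_lit 278) (nat_lit 5) (nat_lit 294) (nat_lit 5) (nat_lit 295) (nat_lit 5) (nat_lit 459) (nat_lit 454) (nat_lit 287)))) (XT.nd (nat_lit 78) (nat_lit 0) (nat_lit 0) (XT.lf (nat_lit 0) (nat_lit 41648607726) (nat_lit 1216) (nat_lit 21837981563) (nat_lit 1292) (nat_lit 2366978639) (nat_lit 279) (nat_lit 5) (nat_lit 295) (nat_lit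 5) (nat_lit 296) (nat_lit 5) (nat_lit 460) (nat_lit 454) (nat_lit 286)) (XT.nd (nat_lit 78) (nat_lit 0) (nat_lit 76) (XT.lf (nat_lit 76) (nat_lit 34992519751) (nat_lit 0) (nat_lit 13446740267) (nat_lit 1292) (nat_lit 19131966851) (nat_lit 280) (nat_lit 5) (nat_lit 279) (nat_lit 5) (nat_lit 296) (nat_lit 5) (nat_lit 461) (nat_lit 454) (nat_lit 285)) (XT.lf (nat_lit 76) (nat_lit 25878562126) (nat_lit 0) (nat_lit 30540866077) (nat_lit 1292) (nat_lit 12929841423) (nat_lit 281) (nat_lit 5) (nat_lit 280) (nat_lit 5) (nat_lit 297) (nat_lit 5) (nat_lit 462) (nat_lit 454) (nat_lit 284))))) (XT.nd (nat_lit 234) (nat_lit 2508) (nat_lit 0) (XT.nd (nat_lit 78) (nat_lit 1216) (nat_lit 0) (XT.lf (nat_lit 76) (nat_lit 16707092539) (nat_lit 0) (nat_lit 48936925102) (nat_lit 1292) (nat_lit 5546834846) (nat_lit 282) (nat_lit 5) (nat_lit 281) (nat_lit 5) (nat_lit 298) (nat_lit 5) (nat_lit 463) (nat_lit 454) (nat_lit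 283)) (XT.nd (nat_lit 78) (nat_lit 0) (nat_lit 0) (XT.lf (nat_lit 0) (nat_lit 3036433576) (nat_lit 1292) (nat_lit 65639954265) (nat_lit 76) (nat_lit 4421266650) (nat_lit 265) (nat_lit 5) (nat_lit 282) (nat_lit 5) (nat_lit 266) (nat_lit 5) (nat_lit 464) (nat_lit 454) (nat_lit 282)) (XT.lf (nat_lit 0) (nat_lit 12994126594) (nat_lit 1292) (nat_lit 2004935285) (nat_lit 76) (nat_lit 60067288103) (nat_lit 265) (nat_lit 5) (nat_lit 282) (nat_lit 5) (nat_lit 266) (nat_lit 5) (nat_lit 465) (nat_lit 454) (nat_lit 281)))) (XT.nd (nat_lit 156) (nat_lit 1140) (nat_lit 0) (XT.nd (nat_lit 78) (nat_lit 608) (nat_lit 0) (XT.lf (nat_lit 0) (nat_lit 24487625737) (nat_lit 836) (nat_lit 11417873809) (nat_lit 76) (nat_lit 41196843354) (nat_lit 255) (nat_lit 5) (nat_lit 266) (nat_lit 5) (nat_lit 256) (nat_lit 5) (nat_lit 466) (nat_lit 454) (nat_lit 280)) (XT.lf (nat_lit 0) (nat_lit 37493915414) (nat_lit 684) (nat_lit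 20872057796) (nat_lit 76) (nat_lit 20846019067) (nat_lit 247) (nat_lit 5) (nat_lit 256) (nat_lit 5) (nat_lit 248) (nat_lit 5) (nat_lit 467) (nat_lit 454) (nat_lit 279))) (XT.nd (nat_lit 78) (nat_lit 532) (nat_lit 0) (XT.lf (nat_lit 0) (nat_lit 51031653439) (nat_lit 608) (nat_lit 1089256624) (nat_lit 684) (nat_lit 29277102612) (nat_lit 239) (nat_lit 5) (nat_lit 247) (nat_lit 5) (nat_lit 248) (nat_lit 5) (nat_lit 468) (nat_lit 454) (nat_lit 278)) (XT.lf (nat_lit 0) (nat_lit 43558823484) (nat_lit 532) (nat_lit 25122557153) (nat_lit 608) (nat_lit 14975889924) (nat_lit 232) (nat_lit 5) (nat_lit 239) (nat_lit 5) (nat_lit 240) (nat_lit 5) (nat_lit 469) (nat_lit 454) (nat_lit 277))))))) (XT.nd (nat_lit 1014) (nat_lit 1672) (nat_lit 0) (XT.nd (nat_lit 468) (nat_lit 2888) (nat_lit 0) (XT.nd (nat_lit 234) (nat_lit 988) (nat_lit 0) (XT.nd (nat_lit 78) (nat_lit 1064) (nat_lit 0) (XT.lf (nat_lit 0) (nat_lit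 1059770125) (nat_lit 608) (nat_lit 49861986483) (nat_lit 76) (nat_lit 35077118082) (nat_lit 224) (nat_lit 5) (nat_lit 232) (nat_lit 5) (nat_lit 225) (nat_lit 5) (nat_lit 470) (nat_lit 454) (nat_lit 276)) (XT.nd (nat_lit 78) (nat_lit 532) (nat_lit 0) (XT.lf (nat_lit 0) (nat_lit 18633779181) (nat_lit 608) (nat_lit 59795326456) (nat_lit 76) (nat_lit 9992616617) (nat_lit 217) (nat_lit 5) (nat_lit 225) (nat_lit 5) (nat_lit 218) (nat_lit 5) (nat_lit 471) (nat_lit 454) (nat_lit 275)) (XT.lf (nat_lit 0) (nat_lit 21020783311) (nat_lit 532) (nat_lit 17299011473) (nat_lit 608) (nat_lit 52608918443) (nat_lit 210) (nat_lit 5) (nat_lit 217) (nat_lit 5) (nat_lit 218) (nat_lit 5) (nat_lit 472) (nat_lit 454) (nat_lit 274)))) (XT.nd (nat_lit 78) (nat_lit 532) (nat_lit 0) (XT.lf (nat_lit 0) (nat_lit 13387888384) (nat_lit 456) (nat_lit 46802210183) (nat_lit 532) (nat_lit 33334955761) (nat_lit 204) (nat_lit 5) (nat_lit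 210) (nat_lit 5) (nat_lit 211) (nat_lit 5) (nat_lit 473) (nat_lit 454) (nat_lit 273)) (XT.nd (nat_lit 78) (nat_lit 76) (nat_lit 0) (XT.lf (nat_lit 0) (nat_lit 5845882006) (nat_lit 456) (nat_lit 78429589391) (nat_lit 532) (nat_lit 11942094668) (nat_lit 198) (nat_lit 5) (nat_lit 204) (nat_lit 5) (nat_lit 205) (nat_lit 5) (nat_lit 474) (nat_lit 454) (nat_lit 272)) (XT.lf (nat_lit 0) (nat_lit 11619626162) (nat_lit 532) (nat_lit 1800112260) (nat_lit 76) (nat_lit 85582796053) (nat_lit 197) (nat_lit 5) (nat_lit 204) (nat_lit 5) (nat_lit 198) (nat_lit 5) (nat_lit 475) (nat_lit 454) (nat_lit 271))))) (XT.nd (nat_lit 234) (nat_lit 1596) (nat_lit 0) (XT.nd (nat_lit 78) (nat_lit 836) (nat_lit 0) (XT.lf (nat_lit 0) (nat_lit 37543926754) (nat_lit 532) (nat_lit 9542559462) (nat_lit 76) (nat_lit 54793773867) (nat_lit 191) (nat_lit 5) (nat_lit 198) (nat_lit 5) (nat_lit 192) (nat_lit 5) (nat_lit 476) (nat_lit 454)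 (nat_lit 270)) (XT.nd (nat_lit 78) (nat_lit 380) (nat_lit 0) (XT.lf (nat_lit 0) (nat_lit 65975388644) (nat_lit 532) (nat_lit 17187559275) (nat_lit 76) (nat_lit 21702595828) (nat_lit 185) (nat_lit 5) (nat_lit 192) (nat_lit 5) (nat_lit 186) (nat_lit 5) (nat_lit 477) (nat_lit 454) (nat_lit 269)) (XT.lf (nat_lit 0) (nat_lit 83106178659) (nat_lit 380) (nat_lit 14094695140) (nat_lit 456) (nat_lit 10758044444) (nat_lit 180) (nat_lit 5) (nat_lit 185) (nat_lit 5) (nat_lit 186) (nat_lit 5) (nat_lit 478) (nat_lit 454) (nat_lit 268)))) (XT.nd (nat_lit 156) (nat_lit 760) (nat_lit 0) (XT.nd (nat_lit 78) (nat_lit 380) (nat_lit 0) (XT.lf (nat_lit 0) (nat_lit 19923436247) (nat_lit 456) (nat_lit 32817229427) (nat_lit 76) (nat_lit 58415602701) (nat_lit 174) (nat_lit 5) (nat_lit 180) (nat_lit 5) (nat_lit 175) (nat_lit 5) (nat_lit 479) (nat_lit 454) (nat_lit 267)) (XT.lf (nat_lit 0) (nat_lit 53229205084) (nat_lit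 456) (nat_lit 40786110147) (nat_lit 76) (nat_lit 20455594253) (nat_lit 169) (nat_lit 5) (nat_lit 175) (nat_lit 5) (nat_lit 170) (nat_lit 5) (nat_lit 480) (nat_lit 454) (nat_lit 266))) (XT.nd (nat_lit 78) (nat_lit 380) (nat_lit 0) (XT.lf (nat_lit 0) (nat_lit 69067570196) (nat_lit 380) (nat_lit 20669305529) (nat_lit 456) (nat_lit 28168308651) (nat_lit 164) (nat_lit 5) (nat_lit 169) (nat_lit 5) (nat_lit 170) (nat_lit 5) (nat_lit 481) (nat_lit 454) (nat_lit 265)) (XT.lf (nat_lit 0) (nat_lit 8031125980) (nat_lit 380) (nat_lit 57063326908) (nat_lit 76) (nat_lit 56366818218) (nat_lit 159) (nat_lit 5) (nat_lit 164) (nat_lit 5) (nat_lit 160) (nat_lit 5) (nat_lit 482) (nat_lit 454) (nat_lit 264)))))) (XT.nd (nat_lit 60372) (nat_lit 0) (nat_lit 10488) (XT.nd (nat_lit 234) (nat_lit 608) (nat_lit 0) (XT.nd (nat_lit 78) (nat_lit 684) (nat_lit 0) (XT.lf (nat_lit 0) (nat_lit 46879281403) (nat_lit 456) (nat_lit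 65469577604) (nat_lit 76) (nat_lit 12795297071) (nat_lit 154) (nat_lit 5) (nat_lit 160) (nat_lit 5) (nat_lit 155) (nat_lit 5) (nat_lit 483) (nat_lit 454) (nat_lit 263)) (XT.nd (nat_lit 78) (nat_lit 380) (nat_lit 0) (XT.lf (nat_lit 0) (nat_lit 54854811144) (nat_lit 304) (nat_lit 34591846117) (nat_lit 380) (nat_lit 39511223765) (nat_lit 150) (nat_lit 5) (nat_lit 154) (nat_lit 5) (nat_lit 155) (nat_lit 5) (nat_lit 484) (nat_lit 454) (nat_lit 262)) (XT.lf (nat_lit 0) (nat_lit 2787255379) (nat_lit 380) (nat_lit 82801325202) (nat_lit 76) (nat_lit 47324466208) (nat_lit 145) (nat_lit 5) (nat_lit 150) (nat_lit 5) (nat_lit 146) (nat_lit 5) (nat_lit 485) (nat_lit 454) (nat_lit 261)))) (XT.nd (nat_lit 78) (nat_lit 304) (nat_lit 0) (XT.lf (nat_lit 0) (nat_lit 45167573510) (nat_lit 304) (nat_lit 2776536409) (nat_lit 380) (nat_lit 89063306884) (nat_lit 141) (nat_lit 5) (nat_lit 145) (nat_lit 5) (nat_lit 146)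 (nat_lit 5) (nat_lit 486) (nat_lit 454) (nat_lit 260)) (XT.nd (nat_lit 59982) (nat_lit 0) (nat_lit 10412) (XT.lf (nat_lit 0) (nat_lit 39945163237) (nat_lit 304) (nat_lit 57466907171) (nat_lit 380) (nat_lit 43832837103) (nat_lit 137) (nat_lit 5) (nat_lit 141) (nat_lit 5) (nat_lit 142) (nat_lit 5) (nat_lit 487) (nat_lit 454) (nat_lit 259)) (XT.lf (nat_lit 0) (nat_lit 11908537944) (nat_lit 1292) (nat_lit 8921660089) (nat_lit 1292) (nat_lit 8921660089) (nat_lit 274) (nat_lit 3) (nat_lit 291) (nat_lit 3) (nat_lit 291) (nat_lit 5) (nat_lit 455) (nat_lit 455) (nat_lit 290))))) (XT.nd (nat_lit 234) (nat_lit 0) (nat_lit 152) (XT.nd (nat_lit 78) (nat_lit 0) (nat_lit 0) (XT.lf (nat_lit 0) (nat_lit 24807668307) (nat_lit 1216) (nat_lit 29685533701) (nat_lit 1292) (nat_lit 6486245167) (nat_lit 275) (nat_lit 5) (nat_lit 291) (nat_lit 5) (nat_lit 292) (nat_lit 5) (nat_lit 456) (nat_lit 455) (nat_lit 289)) (XT.nd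 (nat_lit 78) (nat_lit 0) (nat_lit 76) (XT.lf (nat_lit 76) (nat_lit 20718328891) (nat_lit 0) (nat_lit 5932677562) (nat_lit 1292) (nat_lit 35853862166) (nat_lit 276) (nat_lit 5) (nat_lit 275) (nat_lit 5) (nat_lit 292) (nat_lit 5) (nat_lit 457) (nat_lit 455) (nat_lit 288)) (XT.lf (nat_lit 76) (nat_lit 9921695930) (nat_lit 0) (nat_lit 19500065565) (nat_lit 1292) (nat_lit 34659742567) (nat_lit 277) (nat_lit 5) (nat_lit 276) (nat_lit 5) (nat_lit 293) (nat_lit 5) (nat_lit 458) (nat_lit 455) (nat_lit 287)))) (XT.nd (nat_lit 156) (nat_lit 0) (nat_lit 152) (XT.nd (nat_lit 78) (nat_lit 0) (nat_lit 76) (XT.lf (nat_lit 0) (nat_lit 33128339732) (nat_lit 1216) (nat_lit 1005534808) (nat_lit 1292) (nat_lit 31579178580) (nat_lit 277) (nat_lit 5) (nat_lit 293) (nat_lit 5) (nat_lit 294) (nat_lit 5) (nat_lit 459) (nat_lit 455) (nat_lit 286)) (XT.lf (nat_lit 0) (nat_lit 37923265460) (nat_lit 1216) (nat_lit 11881395122)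 (nat_lit 1292) (nat_lit 17594428880) (nat_lit 278) (nat_lit 5) (nat_lit 294) (nat_lit 5) (nat_lit 295) (nat_lit 5) (nat_lit 460) (nat_lit 455) (nat_lit 285))) (XT.nd (nat_lit 78) (nat_lit 0) (nat_lit 0) (XT.lf (nat_lit 0) (nat_lit 43780375295) (nat_lit 1216) (nat_lit 22893442703) (nat_lit 1292) (nat_lit 2470936857) (nat_lit 279) (nat_lit 5) (nat_lit 295) (nat_lit 5) (nat_lit 296) (nat_lit 5) (nat_lit 461) (nat_lit 455) (nat_lit 284)) (XT.lf (nat_lit 76) (nat_lit 36777539189) (nat_lit 0) (nat_lit 14131011846) (nat_lit 1292) (nat_lit 20039806523) (nat_lit 280) (nat_lit 5) (nat_lit 279) (nat_lit 5) (nat_lit 296) (nat_lit 5) (nat_lit 462) (nat_lit 455) (nat_lit 283))))))))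
noncomputable def xc120 : XT := (XT.nd (nat_lit 61932) (nat_lit 0) (nat_lit 2508) (XT.nd (nat_lit 936) (nat_lit 4788) (nat_lit 0) (XT.nd (nat_lit 468) (nat_lit 3268) (nat_lit 0) (XT.nd (nat_lit 234) (nat_lit 1368) (nat_lit 0) (XT.nd (nat_lit 78) (nat_lit 1140) (nat_lit 0) (XT.lf (nat_lit 76) (nat_lit 27208370215) (nat_lit 0) (nat_lit 32077339340) (nat_lit 1292) (nat_lit 13529653955) (nat_lit 281) (nat_lit 5) (nat_lit 280) (nat_lit 5) (nat_lit 297) (nat_lit 5) (nat_lit 463) (nat_lit 455) (nat_lit 282)) (XT.nd (nat_lit 78) (nat_lit 1216) (nat_lit 0) (XT.lf (nat_lit 76) (nat_lit 17578717042) (nat_lit 0) (nat_lit 51390916126) (nat_lit 1292) (nat_lit 5779449696) (nat_lit 282) (nat_lit 5) (nat_lit 281) (nat_lit 5) (nat_lit 298) (nat_lit 5) (nat_lit 464) (nat_lit 455) (nat_lit 281)) (XT.lf (nat_lit 0) (nat_lit 3230310045) (nat_lit 1292) (nat_lit 68884534387) (nat_lit 76) (nat_lit 4636422072) (nat_lit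 265) (nat_lit 5) (nat_lit 282) (nat_lit 5) (nat_lit 266) (nat_lit 5) (nat_lit 465) (nat_lit 455) (nat_lit 280)))) (XT.nd (nat_lit 78) (nat_lit 1368) (nat_lit 0) (XT.lf (nat_lit 0) (nat_lit 13683885105) (nat_lit 1292) (nat_lit 2069546248) (nat_lit 76) (nat_lit 63065025927) (nat_lit 265) (nat_lit 5) (nat_lit 282) (nat_lit 5) (nat_lit 266) (nat_lit 5) (nat_lit 466) (nat_lit 455) (nat_lit 279)) (XT.nd (nat_lit 78) (nat_lit 608) (nat_lit 0) (XT.lf (nat_lit 0) (nat_lit 25750447554) (nat_lit 836) (nat_lit 11952953499) (nat_lit 76) (nat_lit 43252897550) (nat_lit 255) (nat_lit 5) (nat_lit 266) (nat_lit 5) (nat_lit 256) (nat_lit 5) (nat_lit 467) (nat_lit 455) (nat_lit 278)) (XT.lf (nat_lit 0) (nat_lit 39405534877) (nat_lit 684) (nat_lit 21879736385) (nat_lit 76) (nat_lit 21886205084) (nat_lit 247) (nat_lit 5) (nat_lit 256) (nat_lit 5) (nat_lit 248) (nat_lit 5) (nat_lit 468) (nat_lit 455) (nat_lit 277)))))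 (XT.nd (nat_lit 234) (nat_lit 1520) (nat_lit 0) (XT.nd (nat_lit 78) (nat_lit 1140) (nat_lit 0) (XT.lf (nat_lit 0) (nat_lit 53618130648) (nat_lit 608) (nat_lit 1144325767) (nat_lit 684) (nat_lit 30704384407) (nat_lit 239) (nat_lit 5) (nat_lit 247) (nat_lit 5) (nat_lit 248) (nat_lit 5) (nat_lit 469) (nat_lit 455) (nat_lit 276)) (XT.nd (nat_lit 78) (nat_lit 608) (nat_lit 0) (XT.lf (nat_lit 0) (nat_lit 45771706356) (nat_lit 532) (nat_lit 26377883976) (nat_lit 608) (nat_lit 15689512433) (nat_lit 232) (nat_lit 5) (nat_lit 239) (nat_lit 5) (nat_lit 240) (nat_lit 5) (nat_lit 470) (nat_lit 455) (nat_lit 275)) (XT.lf (nat_lit 0) (nat_lit 1145948654) (nat_lit 608) (nat_lit 52319484307) (nat_lit 76) (nat_lit 36832383193) (nat_lit 224) (nat_lit 5) (nat_lit 232) (nat_lit 5) (nat_lit 225) (nat_lit 5) (nat_lit 471) (nat_lit 455) (nat_lit 274)))) (XT.nd (nat_lit 78) (nat_lit 988) (nat_lit 0) (XT.lf (nat_lit 0)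 (nat_lit 19597435468) (nat_lit 608) (nat_lit 62749572640) (nat_lit 76) (nat_lit 10494834982) (nat_lit 217) (nat_lit 5) (nat_lit 225) (nat_lit 5) (nat_lit 218) (nat_lit 5) (nat_lit 472) (nat_lit 455) (nat_lit 273)) (XT.nd (nat_lit 78) (nat_lit 456) (nat_lit 0) (XT.lf (nat_lit 0) (nat_lit 22106324437) (nat_lit 532) (nat_lit 18160236813) (nat_lit 608) (nat_lit 55207658376) (nat_lit 210) (nat_lit 5) (nat_lit 217) (nat_lit 5) (nat_lit 218) (nat_lit 5) (nat_lit 473) (nat_lit 455) (nat_lit 272)) (XT.lf (nat_lit 0) (nat_lit 14091663614) (nat_lit 456) (nat_lit 49137615645) (nat_lit 532) (nat_lit 34971131838) (nat_lit 204) (nat_lit 5) (nat_lit 210) (nat_lit 5) (nat_lit 211) (nat_lit 5) (nat_lit 474) (nat_lit 455) (nat_lit 271)))))) (XT.nd (nat_lit 468) (nat_lit 2508) (nat_lit 0) (XT.nd (nat_lit 234) (nat_lit 1292) (nat_lit 0) (XT.nd (nat_lit 78) (nat_lit 532) (nat_lit 0) (XT.lf (nat_lit 0) (nat_lit 6172397732)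 (nat_lit 456) (nat_lit 82345481899) (nat_lit 532) (nat_lit 12509700292) (nat_lit 198) (nat_lit 5) (nat_lit 204) (nat_lit 5) (nat_lit 205) (nat_lit 5) (nat_lit 475) (nat_lit 455) (nat_lit 270)) (XT.nd (nat_lit 78) (nat_lit 456) (nat_lit 0) (XT.lf (nat_lit 0) (nat_lit 12228153638) (nat_lit 532) (nat_lit 1856972628) (nat_lit 76) (nat_lit 89866703551) (nat_lit 197) (nat_lit 5) (nat_lit 204) (nat_lit 5) (nat_lit 198) (nat_lit 5) (nat_lit 476) (nat_lit 455) (nat_lit 269)) (XT.lf (nat_lit 0) (nat_lit 39447721340) (nat_lit 532) (nat_lit 9986745538) (nat_lit 76) (nat_lit 57539003503) (nat_lit 191) (nat_lit 5) (nat_lit 198) (nat_lit 5) (nat_lit 192) (nat_lit 5) (nat_lit 477) (nat_lit 455) (nat_lit 268)))) (XT.nd (nat_lit 78) (nat_lit 836) (nat_lit 0) (XT.lf (nat_lit 0) (nat_lit 69299858441) (nat_lit 532) (nat_lit 18014227024) (nat_lit 76) (nat_lit 22793959924) (nat_lit 185) (nat_lit 5) (nat_lit 192) (nat_lit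 5) (nat_lit 186) (nat_lit 5) (nat_lit 478) (nat_lit 455) (nat_lit 267)) (XT.nd (nat_lit 78) (nat_lit 456) (nat_lit 0) (XT.lf (nat_lit 0) (nat_lit 87293260175) (nat_lit 380) (nat_lit 14792439270) (nat_lit 456) (nat_lit 11270416934) (nat_lit 180) (nat_lit 5) (nat_lit 185) (nat_lit 5) (nat_lit 186) (nat_lit 5) (nat_lit 479) (nat_lit 455) (nat_lit 266)) (XT.lf (nat_lit 0) (nat_lit 20943818285) (nat_lit 456) (nat_lit 34426082178) (nat_lit 76) (nat_lit 61343451032) (nat_lit 174) (nat_lit 5) (nat_lit 180) (nat_lit 5) (nat_lit 175) (nat_lit 5) (nat_lit 480) (nat_lit 455) (nat_lit 265))))) (XT.nd (nat_lit 234) (nat_lit 1368) (nat_lit 0) (XT.nd (nat_lit 78) (nat_lit 760) (nat_lit 0) (XT.lf (nat_lit 0) (nat_lit 55914095917) (nat_lit 456) (nat_lit 42793694322) (nat_lit 76) (nat_lit 21485958000) (nat_lit 169) (nat_lit 5) (nat_lit 175) (nat_lit 5) (nat_lit 170) (nat_lit 5) (nat_lit 481) (nat_lit 455) (nat_lit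 264)) (XT.nd (nat_lit 78) (nat_lit 380) (nat_lit 0) (XT.lf (nat_lit 0) (nat_lit 72551760752) (nat_lit 380) (nat_lit 21694569780) (nat_lit 456) (nat_lit 29553431111) (nat_lit 164) (nat_lit 5) (nat_lit 169) (nat_lit 5) (nat_lit 170) (nat_lit 5) (nat_lit 482) (nat_lit 455) (nat_lit 263)) (XT.lf (nat_lit 0) (nat_lit 8454805230) (nat_lit 380) (nat_lit 59885534961) (nat_lit 76) (nat_lit 59193327436) (nat_lit 159) (nat_lit 5) (nat_lit 164) (nat_lit 5) (nat_lit 160) (nat_lit 5) (nat_lit 483) (nat_lit 455) (nat_lit 262)))) (XT.nd (nat_lit 156) (nat_lit 684) (nat_lit 0) (XT.nd (nat_lit 78) (nat_lit 304) (nat_lit 0) (XT.lf (nat_lit 0) (nat_lit 49244687757) (nat_lit 456) (nat_lit 68712425408) (nat_lit 76) (nat_lit 13443604259) (nat_lit 154) (nat_lit 5) (nat_lit 160) (nat_lit 5) (nat_lit 155) (nat_lit 5) (nat_lit 484) (nat_lit 455) (nat_lit 261)) (XT.lf (nat_lit 0) (nat_lit 57627304744) (nat_lit 304) (nat_lit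 36312392608) (nat_lit 380) (nat_lit 41465453472) (nat_lit 150) (nat_lit 5) (nat_lit 154) (nat_lit 5) (nat_lit 155) (nat_lit 5) (nat_lit 485) (nat_lit 455) (nat_lit 260))) (XT.nd (nat_lit 78) (nat_lit 304) (nat_lit 0) (XT.lf (nat_lit 0) (nat_lit 2946906669) (nat_lit 380) (nat_lit 86911562797) (nat_lit 76) (nat_lit 49699618199) (nat_lit 145) (nat_lit 5) (nat_lit 150) (nat_lit 5) (nat_lit 146) (nat_lit 5) (nat_lit 486) (nat_lit 455) (nat_lit 259)) (XT.lf (nat_lit 0) (nat_lit 47454925818) (nat_lit 304) (nat_lit 2905990510) (nat_lit 380) (nat_lit 93496280613) (nat_lit 141) (nat_lit 5) (nat_lit 145) (nat_lit 5) (nat_lit 146) (nat_lit 5) (nat_lit 487) (nat_lit 455) (nat_lit 258))))))) (XT.nd (nat_lit 1014) (nat_lit 6156) (nat_lit 0) (XT.nd (nat_lit 468) (nat_lit 1444) (nat_lit 0) (XT.nd (nat_lit 234) (nat_lit 0) (nat_lit 152) (XT.nd (nat_lit 78) (nat_lit 0) (nat_lit 76) (XT.lf (nat_lit 0) (nat_lit 12533623474)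 (nat_lit 1292) (nat_lit 9352465447) (nat_lit 1292) (nat_lit 9352465447) (nat_lit 274) (nat_lit 3) (nat_lit 291) (nat_lit 3) (nat_lit 291) (nat_lit 5) (nat_lit 456) (nat_lit 456) (nat_lit 288)) (XT.nd (nat_lit 78) (nat_lit 0) (nat_lit 0) (XT.lf (nat_lit 0) (nat_lit 26104569167) (nat_lit 1216) (nat_lit 31138153987) (nat_lit 1292) (nat_lit 6783987714) (nat_lit 275) (nat_lit 5) (nat_lit 291) (nat_lit 5) (nat_lit 292) (nat_lit 5) (nat_lit 457) (nat_lit 456) (nat_lit 287)) (XT.lf (nat_lit 76) (nat_lit 21784994311) (nat_lit 0) (nat_lit 6252684181) (nat_lit 1292) (nat_lit 37590797390) (nat_lit 276) (nat_lit 5) (nat_lit 275) (nat_lit 5) (nat_lit 292) (nat_lit 5) (nat_lit 458) (nat_lit 456) (nat_lit 286)))) (XT.nd (nat_lit 78) (nat_lit 0) (nat_lit 76) (XT.lf (nat_lit 76) (nat_lit 10449455789) (nat_lit 0) (nat_lit 20495028777) (nat_lit 1292) (nat_lit 36339533727) (nat_lit 277) (nat_lit 5) (nat_lit 276) (nat_lit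 5) (nat_lit 293) (nat_lit 5) (nat_lit 459) (nat_lit 456) (nat_lit 285)) (XT.nd (nat_lit 78) (nat_lit 0) (nat_lit 76) (XT.lf (nat_lit 0) (nat_lit 34833750176) (nat_lit 1216) (nat_lit 1023975452) (nat_lit 1292) (nat_lit 33139498991) (nat_lit 277) (nat_lit 5) (nat_lit 293) (nat_lit 5) (nat_lit 294) (nat_lit 5) (nat_lit 460) (nat_lit 456) (nat_lit 284)) (XT.lf (nat_lit 0) (nat_lit 39866232294) (nat_lit 1216) (nat_lit 12442967683) (nat_lit 1292) (nat_lit 18458429039) (nat_lit 278) (nat_lit 5) (nat_lit 294) (nat_lit 5) (nat_lit 295) (nat_lit 5) (nat_lit 461) (nat_lit 456) (nat_lit 283))))) (XT.nd (nat_lit 234) (nat_lit 1824) (nat_lit 0) (XT.nd (nat_lit 78) (nat_lit 0) (nat_lit 0) (XT.lf (nat_lit 0) (nat_lit 46014144340) (nat_lit 1216) (nat_lit 24005064555) (nat_lit 1292) (nat_lit 2581430897) (nat_lit 279) (nat_lit 5) (nat_lit 295) (nat_lit 5) (nat_lit 296) (nat_lit 5) (nat_lit 462) (nat_lit 456) (nat_lit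 282)) (XT.nd (nat_lit 78) (nat_lit 0) (nat_lit 76) (XT.lf (nat_lit 76) (nat_lit 38648519053) (nat_lit 0) (nat_lit 14848387441) (nat_lit 1292) (nat_lit 20997571298) (nat_lit 280) (nat_lit 5) (nat_lit 279) (nat_lit 5) (nat_lit 296) (nat_lit 5) (nat_lit 463) (nat_lit 456) (nat_lit 281)) (XT.lf (nat_lit 76) (nat_lit 28601332928) (nat_lit 0) (nat_lit 33689759559) (nat_lit 1292) (nat_lit 14163796935) (nat_lit 281) (nat_lit 5) (nat_lit 280) (nat_lit 5) (nat_lit 297) (nat_lit 5) (nat_lit 464) (nat_lit 456) (nat_lit 280)))) (XT.nd (nat_lit 156) (nat_lit 760) (nat_lit 0) (XT.nd (nat_lit 78) (nat_lit 1216) (nat_lit 0) (XT.lf (nat_lit 76) (nat_lit 18490550740) (nat_lit 0) (nat_lit 53966942449) (nat_lit 1292) (nat_lit 6027853572) (nat_lit 282) (nat_lit 5) (nat_lit 281) (nat_lit 5) (nat_lit 298) (nat_lit 5) (nat_lit 465) (nat_lit 456) (nat_lit 279)) (XT.lf (nat_lit 0) (nat_lit 3429970481) (nat_lit 1292) (nat_lit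 72294822248) (nat_lit 76) (nat_lit 4862884526) (nat_lit 265) (nat_lit 5) (nat_lit 282) (nat_lit 5) (nat_lit 266) (nat_lit 5) (nat_lit 466) (nat_lit 456) (nat_lit 278))) (XT.nd (nat_lit 78) (nat_lit 760) (nat_lit 0) (XT.lf (nat_lit 0) (nat_lit 14404407869) (nat_lit 1292) (nat_lit 2140700839) (nat_lit 76) (nat_lit 66213173747) (nat_lit 265) (nat_lit 5) (nat_lit 282) (nat_lit 5) (nat_lit 266) (nat_lit 5) (nat_lit 467) (nat_lit 456) (nat_lit 277)) (XT.lf (nat_lit 0) (nat_lit 27072836627) (nat_lit 836) (nat_lit 12518116820) (nat_lit 76) (nat_lit 45412106625) (nat_lit 255) (nat_lit 5) (nat_lit 266) (nat_lit 5) (nat_lit 256) (nat_lit 5) (nat_lit 468) (nat_lit 456) (nat_lit 276)))))) (XT.nd (nat_lit 468) (nat_lit 2736) (nat_lit 0) (XT.nd (nat_lit 234) (nat_lit 1672) (nat_lit 0) (XT.nd (nat_lit 78) (nat_lit 1140) (nat_lit 0) (XT.lf (nat_lit 0) (nat_lit 41409302498) (nat_lit 684) (nat_lit 22941138805) (nat_lit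 76) (nat_lit 22978597028) (nat_lit 247) (nat_lit 5) (nat_lit 256) (nat_lit 5) (nat_lit 248) (nat_lit 5) (nat_lit 469) (nat_lit 456) (nat_lit 275)) (XT.nd (nat_lit 78) (nat_lit 532) (nat_lit 0) (XT.lf (nat_lit 0) (nat_lit 56330687555) (nat_lit 608) (nat_lit 1202091997) (nat_lit 684) (nat_lit 32206430534) (nat_lit 239) (nat_lit 5) (nat_lit 247) (nat_lit 5) (nat_lit 248) (nat_lit 5) (nat_lit 470) (nat_lit 456) (nat_lit 274)) (XT.lf (nat_lit 0) (nat_lit 48091984823) (nat_lit 532) (nat_lit 27696051613) (nat_lit 608) (nat_lit 16442086024) (nat_lit 232) (nat_lit 5) (nat_lit 239) (nat_lit 5) (nat_lit 240) (nat_lit 5) (nat_lit 471) (nat_lit 456) (nat_lit 273)))) (XT.nd (nat_lit 78) (nat_lit 1064) (nat_lit 0) (XT.lf (nat_lit 0) (nat_lit 1233350416) (nat_lit 608) (nat_lit 54903166912) (nat_lit 76) (nat_lit 38675280544) (nat_lit 224) (nat_lit 5) (nat_lit 232) (nat_lit 5) (nat_lit 225) (nat_lit 5) (nat_lit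 472) (nat_lit 456) (nat_lit 272)) (XT.nd (nat_lit 78) (nat_lit 532) (nat_lit 0) (XT.lf (nat_lit 0) (nat_lit 20606302550) (nat_lit 608) (nat_lit 65854833459) (nat_lit 76) (nat_lit 11021923700) (nat_lit 217) (nat_lit 5) (nat_lit 225) (nat_lit 5) (nat_lit 218) (nat_lit 5) (nat_lit 473) (nat_lit 456) (nat_lit 271)) (XT.lf (nat_lit 0) (nat_lit 23242934954) (nat_lit 532) (nat_lit 19064869758) (nat_lit 608) (nat_lit 57939283029) (nat_lit 210) (nat_lit 5) (nat_lit 217) (nat_lit 5) (nat_lit 218) (nat_lit 5) (nat_lit 474) (nat_lit 456) (nat_lit 270))))) (XT.nd (nat_lit 234) (nat_lit 1748) (nat_lit 0) (XT.nd (nat_lit 78) (nat_lit 532) (nat_lit 0) (XT.lf (nat_lit 0) (nat_lit 14827431202) (nat_lit 456) (nat_lit 51590228811) (nat_lit 532) (nat_lit 36691958987) (nat_lit 204) (nat_lit 5) (nat_lit 210) (nat_lit 5) (nat_lit 211) (nat_lit 5) (nat_lit 475) (nat_lit 456) (nat_lit 269)) (XT.nd (nat_lit 78) (nat_lit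 76) (nat_lit 0) (XT.lf (nat_lit 0) (nat_lit 6512057642) (nat_lit 456) (nat_lit 86457688456) (nat_lit 532) (nat_lit 13108428744) (nat_lit 198) (nat_lit 5) (nat_lit 204) (nat_lit 5) (nat_lit 205) (nat_lit 5) (nat_lit 476) (nat_lit 456) (nat_lit 268)) (XT.lf (nat_lit 0) (nat_lit 12864546506) (nat_lit 532) (nat_lit 1919757545) (nat_lit 76) (nat_lit 94364363168) (nat_lit 197) (nat_lit 5) (nat_lit 204) (nat_lit 5) (nat_lit 198) (nat_lit 5) (nat_lit 477) (nat_lit 456) (nat_lit 267)))) (XT.nd (nat_lit 156) (nat_lit 836) (nat_lit 0) (XT.nd (nat_lit 78) (nat_lit 456) (nat_lit 0) (XT.lf (nat_lit 0) (nat_lit 41444232801) (nat_lit 532) (nat_lit 10456203542) (nat_lit 76) (nat_lit 60420979477) (nat_lit 191) (nat_lit 5) (nat_lit 198) (nat_lit 5) (nat_lit 192) (nat_lit 5) (nat_lit 478) (nat_lit 456) (nat_lit 266)) (XT.lf (nat_lit 0) (nat_lit 72788162353) (nat_lit 532) (nat_lit 18885269247) (nat_lit 76) (nat_lit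 23939312619) (nat_lit 185) (nat_lit 5) (nat_lit 192) (nat_lit 5) (nat_lit 186) (nat_lit 5) (nat_lit 479) (nat_lit 456) (nat_lit 265))) (XT.nd (nat_lit 78) (nat_lit 456) (nat_lit 0) (XT.lf (nat_lit 0) (nat_lit 91686741853) (nat_lit 380) (nat_lit 15525720529) (nat_lit 456) (nat_lit 11810781561) (nat_lit 180) (nat_lit 5) (nat_lit 185) (nat_lit 5) (nat_lit 186) (nat_lit 5) (nat_lit 480) (nat_lit 456) (nat_lit 264)) (XT.lf (nat_lit 0) (nat_lit 22012968588) (nat_lit 456) (nat_lit 36118353434) (nat_lit 76) (nat_lit 64417034645) (nat_lit 174) (nat_lit 5) (nat_lit 180) (nat_lit 5) (nat_lit 175) (nat_lit 5) (nat_lit 481) (nat_lit 456) (nat_lit 263))))))))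
noncomputable def xc121 : XT := (XT.nd (nat_lit 62010) (nat_lit 0) (nat_lit 380) (XT.nd (nat_lit 60996) (nat_lit 0) (nat_lit 4940) (XT.nd (nat_lit 60528) (nat_lit 0) (nat_lit 9804) (XT.nd (nat_lit 234) (nat_lit 1064) (nat_lit 0) (XT.nd (nat_lit 78) (nat_lit 760) (nat_lit 0) (XT.lf (nat_lit 0) (nat_lit 58731052938) (nat_lit 456) (nat_lit 44904606855) (nat_lit 76) (nat_lit 22567134842) (nat_lit 169) (nat_lit 5) (nat_lit 175) (nat_lit 5) (nat_lit 170) (nat_lit 5) (nat_lit 482) (nat_lit 456) (nat_lit 262)) (XT.nd (nat_lit 78) (nat_lit 380) (nat_lit 0) (XT.lf (nat_lit 0) (nat_lit 76207296225) (nat_lit 380) (nat_lit 22771859697) (nat_lit 456) (nat_lit 31009975253) (nat_lit 164) (nat_lit 5) (nat_lit 169) (nat_lit 5) (nat_lit 170) (nat_lit 5) (nat_lit 483) (nat_lit 456) (nat_lit 261)) (XT.lf (nat_lit 0) (nat_lit 8897611659) (nat_lit 380) (nat_lit 62851731624) (nat_lit 76) (nat_lit 62160402702) (nat_lit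 159) (nat_lit 5) (nat_lit 164) (nat_lit 5) (nat_lit 160) (nat_lit 5) (nat_lit 484) (nat_lit 456) (nat_lit 260)))) (XT.nd (nat_lit 78) (nat_lit 684) (nat_lit 0) (XT.lf (nat_lit 0) (nat_lit 51726370930) (nat_lit 456) (nat_lit 72120263389) (nat_lit 76) (nat_lit 14123532622) (nat_lit 154) (nat_lit 5) (nat_lit 160) (nat_lit 5) (nat_lit 155) (nat_lit 5) (nat_lit 485) (nat_lit 456) (nat_lit 259)) (XT.nd (nat_lit 78) (nat_lit 380) (nat_lit 0) (XT.lf (nat_lit 0) (nat_lit 60535656868) (nat_lit 304) (nat_lit 38119807418) (nat_lit 380) (nat_lit 43519377863) (nat_lit 150) (nat_lit 5) (nat_lit 154) (nat_lit 5) (nat_lit 155) (nat_lit 5) (nat_lit 486) (nat_lit 456) (nat_lit 258)) (XT.lf (nat_lit 0) (nat_lit 3112654288) (nat_lit 380) (nat_lit 91230085458) (nat_lit 76) (nat_lit 52192697686) (nat_lit 145) (nat_lit 5) (nat_lit 150) (nat_lit 5) (nat_lit 146) (nat_lit 5) (nat_lit 487) (nat_lit 456) (nat_lit 257)))))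 (XT.nd (nat_lit 234) (nat_lit 0) (nat_lit 152) (XT.nd (nat_lit 78) (nat_lit 0) (nat_lit 76) (XT.lf (nat_lit 0) (nat_lit 13187205903) (nat_lit 1292) (nat_lit 9806231444) (nat_lit 1292) (nat_lit 9806231444) (nat_lit 274) (nat_lit 3) (nat_lit 291) (nat_lit 3) (nat_lit 291) (nat_lit 5) (nat_lit 457) (nat_lit 457) (nat_lit 286)) (XT.nd (nat_lit 78) (nat_lit 0) (nat_lit 0) (XT.lf (nat_lit 0) (nat_lit 27461060613) (nat_lit 1216) (nat_lit 32666348399) (nat_lit 1292) (nat_lit 7099087589) (nat_lit 275) (nat_lit 5) (nat_lit 291) (nat_lit 5) (nat_lit 292) (nat_lit 5) (nat_lit 458) (nat_lit 457) (nat_lit 285)) (XT.lf (nat_lit 76) (nat_lit 22902134253) (nat_lit 0) (nat_lit 6586518154) (nat_lit 1292) (nat_lit 39419763215) (nat_lit 276) (nat_lit 5) (nat_lit 275) (nat_lit 5) (nat_lit 292) (nat_lit 5) (nat_lit 459) (nat_lit 457) (nat_lit 284)))) (XT.nd (nat_lit 78) (nat_lit 0) (nat_lit 76) (XT.lf (nat_lit 76) (nat_lit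 11000658795) (nat_lit 0) (nat_lit 21537884464) (nat_lit 1292) (nat_lit 38108260103) (nat_lit 277) (nat_lit 5) (nat_lit 276) (nat_lit 5) (nat_lit 293) (nat_lit 5) (nat_lit 460) (nat_lit 457) (nat_lit 283)) (XT.nd (nat_lit 78) (nat_lit 0) (nat_lit 76) (XT.lf (nat_lit 0) (nat_lit 36619876194) (nat_lit 1216) (nat_lit 1046297946) (nat_lit 1292) (nat_lit 34779568256) (nat_lit 277) (nat_lit 5) (nat_lit 293) (nat_lit 5) (nat_lit 294) (nat_lit 5) (nat_lit 461) (nat_lit 457) (nat_lit 282)) (XT.lf (nat_lit 0) (nat_lit 41901996118) (nat_lit 1216) (nat_lit 13035640154) (nat_lit 1292) (nat_lit 19367090821) (nat_lit 278) (nat_lit 5) (nat_lit 294) (nat_lit 5) (nat_lit 295) (nat_lit 5) (nat_lit 462) (nat_lit 457) (nat_lit 281)))))) (XT.nd (nat_lit 468) (nat_lit 4180) (nat_lit 0) (XT.nd (nat_lit 234) (nat_lit 1064) (nat_lit 0) (XT.nd (nat_lit 78) (nat_lit 0) (nat_lit 0) (XT.lf (nat_lit 0) (nat_lit 48355441380)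 (nat_lit 1216) (nat_lit 25175340202) (nat_lit 1292) (nat_lit 2698663165) (nat_lit 279) (nat_lit 5) (nat_lit 295) (nat_lit 5) (nat_lit 296) (nat_lit 5) (nat_lit 463) (nat_lit 457) (nat_lit 280)) (XT.nd (nat_lit 78) (nat_lit 0) (nat_lit 76) (XT.lf (nat_lit 76) (nat_lit 40610063285) (nat_lit 0) (nat_lit 15600625410) (nat_lit 1292) (nat_lit 22007335984) (nat_lit 280) (nat_lit 5) (nat_lit 279) (nat_lit 5) (nat_lit 296) (nat_lit 5) (nat_lit 464) (nat_lit 457) (nat_lit 279)) (XT.lf (nat_lit 76) (nat_lit 30060918125) (nat_lit 0) (nat_lit 35382005588) (nat_lit 1292) (nat_lit 14833583409) (nat_lit 281) (nat_lit 5) (nat_lit 280) (nat_lit 5) (nat_lit 297) (nat_lit 5) (nat_lit 465) (nat_lit 457) (nat_lit 278)))) (XT.nd (nat_lit 78) (nat_lit 1216) (nat_lit 0) (XT.lf (nat_lit 76) (nat_lit 19444917594) (nat_lit 0) (nat_lit 56671167591) (nat_lit 1292) (nat_lit 6292449326) (nat_lit 282) (nat_lit 5) (nat_lit 281)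 (nat_lit 5) (nat_lit 298) (nat_lit 5) (nat_lit 466) (nat_lit 457) (nat_lit 277)) (XT.nd (nat_lit 78) (nat_lit 0) (nat_lit 0) (XT.lf (nat_lit 0) (nat_lit 3636067584) (nat_lit 1292) (nat_lit 75878779816) (nat_lit 76) (nat_lit 5101168299) (nat_lit 265) (nat_lit 5) (nat_lit 282) (nat_lit 5) (nat_lit 266) (nat_lit 5) (nat_lit 467) (nat_lit 457) (nat_lit 276)) (XT.lf (nat_lit 0) (nat_lit 15157579290) (nat_lit 1292) (nat_lit 2218418219) (nat_lit 76) (nat_lit 69519203432) (nat_lit 265) (nat_lit 5) (nat_lit 282) (nat_lit 5) (nat_lit 266) (nat_lit 5) (nat_lit 468) (nat_lit 457) (nat_lit 275))))) (XT.nd (nat_lit 234) (nat_lit 2204) (nat_lit 0) (XT.nd (nat_lit 78) (nat_lit 1216) (nat_lit 0) (XT.lf (nat_lit 0) (nat_lit 28458103578) (nat_lit 836) (nat_lit 13114558395) (nat_lit 76) (nat_lit 47679595582) (nat_lit 255) (nat_lit 5) (nat_lit 266) (nat_lit 5) (nat_lit 256) (nat_lit 5) (nat_lit 469) (nat_lit 457)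 (nat_lit 274)) (XT.nd (nat_lit 78) (nat_lit 608) (nat_lit 0) (XT.lf (nat_lit 0) (nat_lit 43510144837) (nat_lit 684) (nat_lit 24058640734) (nat_lit 76) (nat_lit 24125786916) (nat_lit 247) (nat_lit 5) (nat_lit 256) (nat_lit 5) (nat_lit 248) (nat_lit 5) (nat_lit 470) (nat_lit 457) (nat_lit 273)) (XT.lf (nat_lit 0) (nat_lit 59175929755) (nat_lit 608) (nat_lit 1262695411) (nat_lit 684) (nat_lit 33786663088) (nat_lit 239) (nat_lit 5) (nat_lit 247) (nat_lit 5) (nat_lit 248) (nat_lit 5) (nat_lit 471) (nat_lit 457) (nat_lit 272)))) (XT.nd (nat_lit 156) (nat_lit 1064) (nat_lit 0) (XT.nd (nat_lit 78) (nat_lit 608) (nat_lit 0) (XT.lf (nat_lit 0) (nat_lit 50525330685) (nat_lit 532) (nat_lit 29080195180) (nat_lit 608) (nat_lit 17235254244) (nat_lit 232) (nat_lit 5) (nat_lit 239) (nat_lit 5) (nat_lit 240) (nat_lit 5) (nat_lit 472) (nat_lit 457) (nat_lit 271)) (XT.lf (nat_lit 0) (nat_lit 1322323452) (nat_lit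 608) (nat_lit 57619035815) (nat_lit 76) (nat_lit 40610203929) (nat_lit 224) (nat_lit 5) (nat_lit 232) (nat_lit 5) (nat_lit 225) (nat_lit 5) (nat_lit 473) (nat_lit 457) (nat_lit 270))) (XT.nd (nat_lit 78) (nat_lit 532) (nat_lit 0) (XT.lf (nat_lit 0) (nat_lit 21662917277) (nat_lit 608) (nat_lit 69118352627) (nat_lit 76) (nat_lit 11575148656) (nat_lit 217) (nat_lit 5) (nat_lit 225) (nat_lit 5) (nat_lit 218) (nat_lit 5) (nat_lit 474) (nat_lit 457) (nat_lit 269)) (XT.lf (nat_lit 0) (nat_lit 24433466550) (nat_lit 532) (nat_lit 20015048488) (nat_lit 608) (nat_lit 60810162585) (nat_lit 210) (nat_lit 5) (nat_lit 217) (nat_lit 5) (nat_lit 218) (nat_lit 5) (nat_lit 475) (nat_lit 457) (nat_lit 268))))))) (XT.nd (nat_lit 61152) (nat_lit 0) (nat_lit 7372) (XT.nd (nat_lit 468) (nat_lit 2280) (nat_lit 0) (XT.nd (nat_lit 234) (nat_lit 1292) (nat_lit 0) (XT.nd (nat_lit 78) (nat_lit 532) (nat_lit 0) (XT.lf (nat_lit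 0) (nat_lit 15597087940) (nat_lit 456) (nat_lit 54165869398) (nat_lit 532) (nat_lit 38501405514) (nat_lit 204) (nat_lit 5) (nat_lit 210) (nat_lit 5) (nat_lit 211) (nat_lit 5) (nat_lit 476) (nat_lit 457) (nat_lit 267)) (XT.nd (nat_lit 78) (nat_lit 76) (nat_lit 0) (XT.lf (nat_lit 0) (nat_lit 6865814740) (nat_lit 456) (nat_lit 90775976472) (nat_lit 532) (nat_lit 13739581191) (nat_lit 198) (nat_lit 5) (nat_lit 204) (nat_lit 5) (nat_lit 205) (nat_lit 5) (nat_lit 477) (nat_lit 457) (nat_lit 266)) (XT.lf (nat_lit 0) (nat_lit 13530436131) (nat_lit 532) (nat_lit 1988476747) (nat_lit 76) (nat_lit 99086503721) (nat_lit 197) (nat_lit 5) (nat_lit 204) (nat_lit 5) (nat_lit 198) (nat_lit 5) (nat_lit 478) (nat_lit 457) (nat_lit 265)))) (XT.nd (nat_lit 78) (nat_lit 836) (nat_lit 0) (XT.lf (nat_lit 0) (nat_lit 43538326885) (nat_lit 532) (nat_lit 10951912338) (nat_lit 76) (nat_lit 63446586999) (nat_lit 191) (nat_lit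 5) (nat_lit 198) (nat_lit 5) (nat_lit 192) (nat_lit 5) (nat_lit 479) (nat_lit 457) (nat_lit 264)) (XT.nd (nat_lit 78) (nat_lit 380) (nat_lit 0) (XT.lf (nat_lit 0) (nat_lit 76448714225) (nat_lit 532) (nat_lit 19802621934) (nat_lit 76) (nat_lit 25141407228) (nat_lit 185) (nat_lit 5) (nat_lit 192) (nat_lit 5) (nat_lit 186) (nat_lit 5) (nat_lit 480) (nat_lit 457) (nat_lit 263)) (XT.lf (nat_lit 0) (nat_lit 96297218328) (nat_lit 380) (nat_lit 16296255349) (nat_lit 456) (nat_lit 12380317265) (nat_lit 180) (nat_lit 5) (nat_lit 185) (nat_lit 5) (nat_lit 186) (nat_lit 5) (nat_lit 481) (nat_lit 457) (nat_lit 262))))) (XT.nd (nat_lit 234) (nat_lit 1064) (nat_lit 0) (XT.nd (nat_lit 78) (nat_lit 760) (nat_lit 0) (XT.lf (nat_lit 0) (nat_lit 23133534830) (nat_lit 456) (nat_lit 37897937453) (nat_lit 76) (nat_lit 67643701400) (nat_lit 174) (nat_lit 5) (nat_lit 180) (nat_lit 5) (nat_lit 175) (nat_lit 5) (nat_lit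 482) (nat_lit 457) (nat_lit 261)) (XT.nd (nat_lit 78) (nat_lit 380) (nat_lit 0) (XT.lf (nat_lit 0) (nat_lit 61686881980) (nat_lit 456) (nat_lit 47123739979) (nat_lit 76) (nat_lit 23701730988) (nat_lit 169) (nat_lit 5) (nat_lit 175) (nat_lit 5) (nat_lit 170) (nat_lit 5) (nat_lit 483) (nat_lit 457) (nat_lit 260)) (XT.lf (nat_lit 0) (nat_lit 80043010183) (nat_lit 380) (nat_lit 23903705678) (nat_lit 456) (nat_lit 32541310830) (nat_lit 164) (nat_lit 5) (nat_lit 169) (nat_lit 5) (nat_lit 170) (nat_lit 5) (nat_lit 484) (nat_lit 457) (nat_lit 259)))) (XT.nd (nat_lit 156) (nat_lit 304) (nat_lit 0) (XT.nd (nat_lit 78) (nat_lit 380) (nat_lit 0) (XT.lf (nat_lit 0) (nat_lit 9360692848) (nat_lit 380) (nat_lit 65968848741) (nat_lit 76) (nat_lit 65275142923) (nat_lit 159) (nat_lit 5) (nat_lit 164) (nat_lit 5) (nat_lit 160) (nat_lit 5) (nat_lit 485) (nat_lit 457) (nat_lit 258)) (XT.lf (nat_lit 0) (nat_lit 54330330097)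 (nat_lit 456) (nat_lit 75701076296) (nat_lit 76) (nat_lit 14836737053) (nat_lit 154) (nat_lit 5) (nat_lit 160) (nat_lit 5) (nat_lit 155) (nat_lit 5) (nat_lit 486) (nat_lit 457) (nat_lit 257))) (XT.nd (nat_lit 60216) (nat_lit 0) (nat_lit 9424) (XT.lf (nat_lit 0) (nat_lit 63586917613) (nat_lit 304) (nat_lit 40018355775) (nat_lit 380) (nat_lit 45677797294) (nat_lit 150) (nat_lit 5) (nat_lit 154) (nat_lit 5) (nat_lit 155) (nat_lit 5) (nat_lit 487) (nat_lit 457) (nat_lit 256)) (XT.lf (nat_lit 0) (nat_lit 13870966429) (nat_lit 1292) (nat_lit 10283974059) (nat_lit 1292) (nat_lit 10283974059) (nat_lit 274) (nat_lit 3) (nat_lit 291) (nat_lit 3) (nat_lit 291) (nat_lit 5) (nat_lit 458) (nat_lit 458) (nat_lit 284)))))) (XT.nd (nat_lit 468) (nat_lit 2128) (nat_lit 0) (XT.nd (nat_lit 234) (nat_lit 0) (nat_lit 152) (XT.nd (nat_lit 78) (nat_lit 0) (nat_lit 0) (XT.lf (nat_lit 0) (nat_lit 28880610686) (nat_lit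 1216) (nat_lit 34273622020) (nat_lit 1292) (nat_lit 7432183001) (nat_lit 275) (nat_lit 5) (nat_lit 291) (nat_lit 5) (nat_lit 292) (nat_lit 5) (nat_lit 459) (nat_lit 458) (nat_lit 283)) (XT.nd (nat_lit 78) (nat_lit 0) (nat_lit 76) (XT.lf (nat_lit 76) (nat_lit 24072538224) (nat_lit 0) (nat_lit 6935072873) (nat_lit 1292) (nat_lit 41344879226) (nat_lit 276) (nat_lit 5) (nat_lit 275) (nat_lit 5) (nat_lit 292) (nat_lit 5) (nat_lit 460) (nat_lit 458) (nat_lit 282)) (XT.lf (nat_lit 76) (nat_lit 11576750887) (nat_lit 0) (nat_lit 22631199774) (nat_lit 1292) (nat_lit 39969908654) (nat_lit 277) (nat_lit 5) (nat_lit 276) (nat_lit 5) (nat_lit 293) (nat_lit 5) (nat_lit 461) (nat_lit 458) (nat_lit 281)))) (XT.nd (nat_lit 78) (nat_lit 0) (nat_lit 76) (XT.lf (nat_lit 0) (nat_lit 38491177042) (nat_lit 1216) (nat_lit 1072421208) (nat_lit 1292) (nat_lit 36503212714) (nat_lit 277) (nat_lit 5) (nat_lit 293) (nat_lit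 5) (nat_lit 294) (nat_lit 5) (nat_lit 462) (nat_lit 458) (nat_lit 280)) (XT.nd (nat_lit 78) (nat_lit 0) (nat_lit 76) (XT.lf (nat_lit 0) (nat_lit 44035601329) (nat_lit 1216) (nat_lit 13660686639) (nat_lit 1292) (nat_lit 20322511422) (nat_lit 278) (nat_lit 5) (nat_lit 294) (nat_lit 5) (nat_lit 295) (nat_lit 5) (nat_lit 463) (nat_lit 458) (nat_lit 279)) (XT.lf (nat_lit 0) (nat_lit 50810029614) (nat_lit 1216) (nat_lit 26406916662) (nat_lit 1292) (nat_lit 2822857751) (nat_lit 279) (nat_lit 5) (nat_lit 295) (nat_lit 5) (nat_lit 296) (nat_lit 5) (nat_lit 464) (nat_lit 458) (nat_lit 278))))) (XT.nd (nat_lit 234) (nat_lit 2432) (nat_lit 0) (XT.nd (nat_lit 78) (nat_lit 0) (nat_lit 76) (XT.lf (nat_lit 76) (nat_lit 42666977588) (nat_lit 0) (nat_lit 16389562437) (nat_lit 1292) (nat_lit 23071318312) (nat_lit 280) (nat_lit 5) (nat_lit 279) (nat_lit 5) (nat_lit 296) (nat_lit 5) (nat_lit 465) (nat_lit 458) (nat_lit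 277)) (XT.nd (nat_lit 78) (nat_lit 0) (nat_lit 76) (XT.lf (nat_lit 76) (nat_lit 31590738227) (nat_lit 0) (nat_lit 37158142649) (nat_lit 1292) (nat_lit 15540429589) (nat_lit 281) (nat_lit 5) (nat_lit 280) (nat_lit 5) (nat_lit 297) (nat_lit 5) (nat_lit 466) (nat_lit 458) (nat_lit 276)) (XT.lf (nat_lit 76) (nat_lit 20444228613) (nat_lit 0) (nat_lit 59510057507) (nat_lit 1292) (nat_lit 6573695897) (nat_lit 282) (nat_lit 5) (nat_lit 281) (nat_lit 5) (nat_lit 298) (nat_lit 5) (nat_lit 467) (nat_lit 458) (nat_lit 275)))) (XT.nd (nat_lit 156) (nat_lit 1368) (nat_lit 0) (XT.nd (nat_lit 78) (nat_lit 0) (nat_lit 0) (XT.lf (nat_lit 0) (nat_lit 3849252895) (nat_lit 1292) (nat_lit 79644797224) (nat_lit 76) (nat_lit 5351818140) (nat_lit 265) (nat_lit 5) (nat_lit 282) (nat_lit 5) (nat_lit 266) (nat_lit 5) (nat_lit 468) (nat_lit 458) (nat_lit 274)) (XT.lf (nat_lit 0) (nat_lit 15945345809) (nat_lit 1292) (nat_lit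 2302747146) (nat_lit 76) (nat_lit 72990964962) (nat_lit 265) (nat_lit 5) (nat_lit 282) (nat_lit 5) (nat_lit 266) (nat_lit 5) (nat_lit 469) (nat_lit 458) (nat_lit 273))) (XT.nd (nat_lit 78) (nat_lit 608) (nat_lit 0) (XT.lf (nat_lit 0) (nat_lit 29909693673) (nat_lit 836) (nat_lit 13743561356) (nat_lit 76) (nat_lit 50060748718) (nat_lit 255) (nat_lit 5) (nat_lit 266) (nat_lit 5) (nat_lit 256) (nat_lit 5) (nat_lit 470) (nat_lit 458) (nat_lit 272)) (XT.lf (nat_lit 0) (nat_lit 45713205106) (nat_lit 684) (nat_lit 25234765505) (nat_lit 76) (nat_lit 25330498063) (nat_lit 247) (nat_lit 5) (nat_lit 256) (nat_lit 5) (nat_lit 248) (nat_lit 5) (nat_lit 471) (nat_lit 458) (nat_lit 271))))))))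
noncomputable def xc122 : XT := (XT.nd (nat_lit 62244) (nat_lit 0) (nat_lit 380) (XT.nd (nat_lit 936) (nat_lit 1140) (nat_lit 0) (XT.nd (nat_lit 468) (nat_lit 2280) (nat_lit 0) (XT.nd (nat_lit 234) (nat_lit 1520) (nat_lit 0) (XT.nd (nat_lit 78) (nat_lit 1140) (nat_lit 0) (XT.lf (nat_lit 0) (nat_lit 62160765084) (nat_lit 608) (nat_lit 1326282621) (nat_lit 684) (nat_lit 35448704656) (nat_lit 239) (nat_lit 5) (nat_lit 247) (nat_lit 5) (nat_lit 248) (nat_lit 5) (nat_lit 472) (nat_lit 458) (nat_lit 270)) (XT.nd (nat_lit 78) (nat_lit 608) (nat_lit 0) (XT.lf (nat_lit 0) (nat_lit 53077671252) (nat_lit 532) (nat_lit 30533607195) (nat_lit 608) (nat_lit 18070771077) (nat_lit 232) (nat_lit 5) (nat_lit 239) (nat_lit 5) (nat_lit 240) (nat_lit 5) (nat_lit 473) (nat_lit 458) (nat_lit 269)) (XT.lf (nat_lit 0) (nat_lit 1413206531) (nat_lit 608) (nat_lit 60473421218) (nat_lit 76) (nat_lit 42641765697) (nat_lit 224)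 (nat_lit 5) (nat_lit 232) (nat_lit 5) (nat_lit 225) (nat_lit 5) (nat_lit 474) (nat_lit 458) (nat_lit 268)))) (XT.nd (nat_lit 78) (nat_lit 988) (nat_lit 0) (XT.lf (nat_lit 0) (nat_lit 22769917653) (nat_lit 608) (nat_lit 72547764584) (nat_lit 76) (nat_lit 12155836946) (nat_lit 217) (nat_lit 5) (nat_lit 225) (nat_lit 5) (nat_lit 218) (nat_lit 5) (nat_lit 475) (nat_lit 458) (nat_lit 267)) (XT.nd (nat_lit 78) (nat_lit 456) (nat_lit 0) (XT.lf (nat_lit 0) (nat_lit 25680885772) (nat_lit 532) (nat_lit 21013021086) (nat_lit 608) (nat_lit 63827011217) (nat_lit 210) (nat_lit 5) (nat_lit 217) (nat_lit 5) (nat_lit 218) (nat_lit 5) (nat_lit 476) (nat_lit 458) (nat_lit 266)) (XT.lf (nat_lit 0) (nat_lit 16402597827) (nat_lit 456) (nat_lit 56870651889) (nat_lit 532) (nat_lit 40403662709) (nat_lit 204) (nat_lit 5) (nat_lit 210) (nat_lit 5) (nat_lit 211) (nat_lit 5) (nat_lit 477) (nat_lit 458) (nat_lit 265))))) (XT.nd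 (nat_lit 234) (nat_lit 1292) (nat_lit 0) (XT.nd (nat_lit 78) (nat_lit 532) (nat_lit 0) (XT.lf (nat_lit 0) (nat_lit 7234642181) (nat_lit 456) (nat_lit 95310606219) (nat_lit 532) (nat_lit 14404547561) (nat_lit 198) (nat_lit 5) (nat_lit 204) (nat_lit 5) (nat_lit 205) (nat_lit 5) (nat_lit 478) (nat_lit 458) (nat_lit 264)) (XT.nd (nat_lit 78) (nat_lit 456) (nat_lit 0) (XT.lf (nat_lit 0) (nat_lit 14227513312) (nat_lit 532) (nat_lit 2063167092) (nat_lit 76) (nat_lit 104044386635) (nat_lit 197) (nat_lit 5) (nat_lit 204) (nat_lit 5) (nat_lit 198) (nat_lit 5) (nat_lit 479) (nat_lit 458) (nat_lit 263)) (XT.lf (nat_lit 0) (nat_lit 45735091251) (nat_lit 532) (nat_lit 11474926204) (nat_lit 76) (nat_lit 66623051086) (nat_lit 191) (nat_lit 5) (nat_lit 198) (nat_lit 5) (nat_lit 192) (nat_lit 5) (nat_lit 480) (nat_lit 458) (nat_lit 262)))) (XT.nd (nat_lit 78) (nat_lit 836) (nat_lit 0) (XT.lf (nat_lit 0) (nat_lit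 80290327945) (nat_lit 532) (nat_lit 20768344165) (nat_lit 76) (nat_lit 26403129724) (nat_lit 185) (nat_lit 5) (nat_lit 192) (nat_lit 5) (nat_lit 186) (nat_lit 5) (nat_lit 481) (nat_lit 458) (nat_lit 261)) (XT.nd (nat_lit 78) (nat_lit 456) (nat_lit 0) (XT.lf (nat_lit 0) (nat_lit 101135788435) (nat_lit 380) (nat_lit 17105851603) (nat_lit 456) (nat_lit 12980282449) (nat_lit 180) (nat_lit 5) (nat_lit 185) (nat_lit 5) (nat_lit 186) (nat_lit 5) (nat_lit 482) (nat_lit 458) (nat_lit 260)) (XT.lf (nat_lit 0) (nat_lit 24308277615) (nat_lit 456) (nat_lit 39768948925) (nat_lit 76) (nat_lit 71031160867) (nat_lit 174) (nat_lit 5) (nat_lit 180) (nat_lit 5) (nat_lit 175) (nat_lit 5) (nat_lit 483) (nat_lit 458) (nat_lit 259)))))) (XT.nd (nat_lit 60762) (nat_lit 0) (nat_lit 8892) (XT.nd (nat_lit 60528) (nat_lit 0) (nat_lit 8740) (XT.nd (nat_lit 78) (nat_lit 760) (nat_lit 0) (XT.lf (nat_lit 0) (nat_lit 64788710338)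 (nat_lit 456) (nat_lit 49456256031) (nat_lit 76) (nat_lit 24892476861) (nat_lit 169) (nat_lit 5) (nat_lit 175) (nat_lit 5) (nat_lit 170) (nat_lit 5) (nat_lit 484) (nat_lit 458) (nat_lit 258)) (XT.nd (nat_lit 78) (nat_lit 380) (nat_lit 0) (XT.lf (nat_lit 0) (nat_lit 84068153116) (nat_lit 380) (nat_lit 25092771231) (nat_lit 456) (nat_lit 34150994797) (nat_lit 164) (nat_lit 5) (nat_lit 169) (nat_lit 5) (nat_lit 170) (nat_lit 5) (nat_lit 485) (nat_lit 458) (nat_lit 257)) (XT.lf (nat_lit 0) (nat_lit 9845235977) (nat_lit 380) (nat_lit 69244189622) (nat_lit 76) (nat_lit 68544995386) (nat_lit 159) (nat_lit 5) (nat_lit 164) (nat_lit 5) (nat_lit 160) (nat_lit 5) (nat_lit 486) (nat_lit 458) (nat_lit 256)))) (XT.nd (nat_lit 78) (nat_lit 0) (nat_lit 76) (XT.lf (nat_lit 0) (nat_lit 14586646480) (nat_lit 1292) (nat_lit 10786772347) (nat_lit 1292) (nat_lit 10786772347) (nat_lit 274) (nat_lit 3) (nat_lit 291)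 (nat_lit 3) (nat_lit 291) (nat_lit 5) (nat_lit 459) (nat_lit 459) (nat_lit 282)) (XT.nd (nat_lit 78) (nat_lit 0) (nat_lit 0) (XT.lf (nat_lit 0) (nat_lit 30366815407) (nat_lit 1216) (nat_lit 35963680629) (nat_lit 1292) (nat_lit 7783965423) (nat_lit 275) (nat_lit 5) (nat_lit 291) (nat_lit 5) (nat_lit 292) (nat_lit 5) (nat_lit 460) (nat_lit 459) (nat_lit 281)) (XT.lf (nat_lit 76) (nat_lit 25299110494) (nat_lit 0) (nat_lit 7299267616) (nat_lit 1292) (nat_lit 43370515795) (nat_lit 276) (nat_lit 5) (nat_lit 275) (nat_lit 5) (nat_lit 292) (nat_lit 5) (nat_lit 461) (nat_lit 459) (nat_lit 280))))) (XT.nd (nat_lit 234) (nat_lit 0) (nat_lit 228) (XT.nd (nat_lit 78) (nat_lit 0) (nat_lit 76) (XT.lf (nat_lit 76) (nat_lit 12179224852) (nat_lit 0) (nat_lit 23777654173) (nat_lit 1292) (nat_lit 41928708436) (nat_lit 277) (nat_lit 5) (nat_lit 276) (nat_lit 5) (nat_lit 293) (nat_lit 5) (nat_lit 462) (nat_lit 459)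 (nat_lit 279)) (XT.nd (nat_lit 78) (nat_lit 0) (nat_lit 76) (XT.lf (nat_lit 0) (nat_lit 40452295566) (nat_lit 1216) (nat_lit 1102285684) (nat_lit 1292) (nat_lit 38314465001) (nat_lit 277) (nat_lit 5) (nat_lit 293) (nat_lit 5) (nat_lit 294) (nat_lit 5) (nat_lit 463) (nat_lit 459) (nat_lit 278)) (XT.lf (nat_lit 0) (nat_lit 46272306933) (nat_lit 1216) (nat_lit 14319471063) (nat_lit 1292) (nat_lit 21326905528) (nat_lit 278) (nat_lit 5) (nat_lit 294) (nat_lit 5) (nat_lit 295) (nat_lit 5) (nat_lit 464) (nat_lit 459) (nat_lit 277)))) (XT.nd (nat_lit 156) (nat_lit 0) (nat_lit 76) (XT.nd (nat_lit 78) (nat_lit 0) (nat_lit 0) (XT.lf (nat_lit 0) (nat_lit 53383924443) (nat_lit 1216) (nat_lit 27702599864) (nat_lit 1292) (nat_lit 2954260436) (nat_lit 279) (nat_lit 5) (nat_lit 295) (nat_lit 5) (nat_lit 296) (nat_lit 5) (nat_lit 465) (nat_lit 459) (nat_lit 276)) (XT.lf (nat_lit 76) (nat_lit 44824282148) (nat_lit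 0) (nat_lit 17217118342) (nat_lit 1292) (nat_lit 24191882441) (nat_lit 280) (nat_lit 5) (nat_lit 279) (nat_lit 5) (nat_lit 296) (nat_lit 5) (nat_lit 466) (nat_lit 459) (nat_lit 275))) (XT.nd (nat_lit 78) (nat_lit 0) (nat_lit 76) (XT.lf (nat_lit 76) (nat_lit 33194560123) (nat_lit 0) (nat_lit 39022432350) (nat_lit 1292) (nat_lit 16285856519) (nat_lit 281) (nat_lit 5) (nat_lit 280) (nat_lit 5) (nat_lit 297) (nat_lit 5) (nat_lit 467) (nat_lit 459) (nat_lit 274)) (XT.lf (nat_lit 76) (nat_lit 21490988923) (nat_lit 0) (nat_lit 62490396243) (nat_lit 1292) (nat_lit 6872107771) (nat_lit 282) (nat_lit 5) (nat_lit 281) (nat_lit 5) (nat_lit 298) (nat_lit 5) (nat_lit 468) (nat_lit 459) (nat_lit 273))))))) (XT.nd (nat_lit 1014) (nat_lit 2052) (nat_lit 0) (XT.nd (nat_lit 468) (nat_lit 3116) (nat_lit 0) (XT.nd (nat_lit 234) (nat_lit 1748) (nat_lit 0) (XT.nd (nat_lit 78) (nat_lit 760) (nat_lit 0) (XT.lf (nat_lit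 0) (nat_lit 4070179877) (nat_lit 1292) (nat_lit 83601711387) (nat_lit 76) (nat_lit 5615410341) (nat_lit 265) (nat_lit 5) (nat_lit 282) (nat_lit 5) (nat_lit 266) (nat_lit 5) (nat_lit 469) (nat_lit 459) (nat_lit 272)) (XT.nd (nat_lit 78) (nat_lit 760) (nat_lit 0) (XT.lf (nat_lit 0) (nat_lit 16769721992) (nat_lit 1292) (nat_lit 2393764791) (nat_lit 76) (nat_lit 76636704918) (nat_lit 265) (nat_lit 5) (nat_lit 282) (nat_lit 5) (nat_lit 266) (nat_lit 5) (nat_lit 470) (nat_lit 459) (nat_lit 271)) (XT.lf (nat_lit 0) (nat_lit 31431196421) (nat_lit 836) (nat_lit 14406499099) (nat_lit 76) (nat_lit 52561222306) (nat_lit 255) (nat_lit 5) (nat_lit 266) (nat_lit 5) (nat_lit 256) (nat_lit 5) (nat_lit 471) (nat_lit 459) (nat_lit 270)))) (XT.nd (nat_lit 78) (nat_lit 1140) (nat_lit 0) (XT.lf (nat_lit 0) (nat_lit 48023856770) (nat_lit 684) (nat_lit 26472188800) (nat_lit 76) (nat_lit 26595591494) (nat_lit 247) (nat_lit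 5) (nat_lit 256) (nat_lit 5) (nat_lit 248) (nat_lit 5) (nat_lit 472) (nat_lit 459) (nat_lit 269)) (XT.nd (nat_lit 78) (nat_lit 532) (nat_lit 0) (XT.lf (nat_lit 0) (nat_lit 65292421335) (nat_lit 608) (nat_lit 1393007128) (nat_lit 684) (nat_lit 37196385616) (nat_lit 239) (nat_lit 5) (nat_lit 247) (nat_lit 5) (nat_lit 248) (nat_lit 5) (nat_lit 473) (nat_lit 459) (nat_lit 268)) (XT.lf (nat_lit 0) (nat_lit 55755204731) (nat_lit 532) (nat_lit 32059745383) (nat_lit 608) (nat_lit 18950503845) (nat_lit 232) (nat_lit 5) (nat_lit 239) (nat_lit 5) (nat_lit 240) (nat_lit 5) (nat_lit 474) (nat_lit 459) (nat_lit 267))))) (XT.nd (nat_lit 234) (nat_lit 1444) (nat_lit 0) (XT.nd (nat_lit 78) (nat_lit 1064) (nat_lit 0) (XT.lf (nat_lit 0) (nat_lit 1506331171) (nat_lit 608) (nat_lit 63472995782) (nat_lit 76) (nat_lit 44774807788) (nat_lit 224) (nat_lit 5) (nat_lit 232) (nat_lit 5) (nat_lit 225) (nat_lit 5) (nat_lit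 475) (nat_lit 459) (nat_lit 266)) (XT.nd (nat_lit 78) (nat_lit 532) (nat_lit 0) (XT.lf (nat_lit 0) (nat_lit 23930050281) (nat_lit 608) (nat_lit 76151111385) (nat_lit 76) (nat_lit 12765380138) (nat_lit 217) (nat_lit 5) (nat_lit 225) (nat_lit 5) (nat_lit 218) (nat_lit 5) (nat_lit 476) (nat_lit 459) (nat_lit 265)) (XT.lf (nat_lit 0) (nat_lit 26988282346) (nat_lit 532) (nat_lit 22061150756) (nat_lit 608) (nat_lit 66996901917) (nat_lit 210) (nat_lit 5) (nat_lit 217) (nat_lit 5) (nat_lit 218) (nat_lit 5) (nat_lit 477) (nat_lit 459) (nat_lit 264)))) (XT.nd (nat_lit 156) (nat_lit 532) (nat_lit 0) (XT.nd (nat_lit 78) (nat_lit 456) (nat_lit 0) (XT.lf (nat_lit 0) (nat_lit 17245998004) (nat_lit 456) (nat_lit 59710999922) (nat_lit 532) (nat_lit 42403153707) (nat_lit 204) (nat_lit 5) (nat_lit 210) (nat_lit 5) (nat_lit 211) (nat_lit 5) (nat_lit 478) (nat_lit 459) (nat_lit 263)) (XT.lf (nat_lit 0) (nat_lit 7619536834)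 (nat_lit 456) (nat_lit 100072355055) (nat_lit 532) (nat_lit 15104808781) (nat_lit 198) (nat_lit 5) (nat_lit 204) (nat_lit 5) (nat_lit 205) (nat_lit 5) (nat_lit 479) (nat_lit 459) (nat_lit 262))) (XT.nd (nat_lit 78) (nat_lit 456) (nat_lit 0) (XT.lf (nat_lit 0) (nat_lit 14957533307) (nat_lit 532) (nat_lit 2143891440) (nat_lit 76) (nat_lit 109249832930) (nat_lit 197) (nat_lit 5) (nat_lit 204) (nat_lit 5) (nat_lit 198) (nat_lit 5) (nat_lit 480) (nat_lit 459) (nat_lit 261)) (XT.lf (nat_lit 0) (nat_lit 48039848555) (nat_lit 532) (nat_lit 12026376141) (nat_lit 76) (nat_lit 69957953969) (nat_lit 191) (nat_lit 5) (nat_lit 198) (nat_lit 5) (nat_lit 192) (nat_lit 5) (nat_lit 481) (nat_lit 459) (nat_lit 260)))))) (XT.nd (nat_lit 60840) (nat_lit 0) (nat_lit 8436) (XT.nd (nat_lit 234) (nat_lit 760) (nat_lit 0) (XT.nd (nat_lit 78) (nat_lit 836) (nat_lit 0) (XT.lf (nat_lit 0) (nat_lit 84322239361) (nat_lit 532)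 (nat_lit 21784621812) (nat_lit 76) (nat_lit 27727505833) (nat_lit 185) (nat_lit 5) (nat_lit 192) (nat_lit 5) (nat_lit 186) (nat_lit 5) (nat_lit 482) (nat_lit 459) (nat_lit 259)) (XT.nd (nat_lit 78) (nat_lit 456) (nat_lit 0) (XT.lf (nat_lit 0) (nat_lit 106214082792) (nat_lit 380) (nat_lit 17956412652) (nat_lit 456) (nat_lit 13612017044) (nat_lit 180) (nat_lit 5) (nat_lit 185) (nat_lit 5) (nat_lit 186) (nat_lit 5) (nat_lit 483) (nat_lit 459) (nat_lit 258)) (XT.lf (nat_lit 0) (nat_lit 25540077929) (nat_lit 456) (nat_lit 41735731610) (nat_lit 76) (nat_lit 74587502943) (nat_lit 174) (nat_lit 5) (nat_lit 180) (nat_lit 5) (nat_lit 175) (nat_lit 5) (nat_lit 484) (nat_lit 459) (nat_lit 257)))) (XT.nd (nat_lit 78) (nat_lit 380) (nat_lit 0) (XT.lf (nat_lit 0) (nat_lit 68044004593) (nat_lit 456) (nat_lit 51907598587) (nat_lit 76) (nat_lit 26142233877) (nat_lit 169) (nat_lit 5) (nat_lit 175) (nat_lit 5) (nat_lit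 170) (nat_lit 5) (nat_lit 485) (nat_lit 459) (nat_lit 256)) (XT.nd (nat_lit 60450) (nat_lit 0) (nat_lit 8360) (XT.lf (nat_lit 0) (nat_lit 88292415577) (nat_lit 380) (nat_lit 26341859015) (nat_lit 456) (nat_lit 35842778936) (nat_lit 164) (nat_lit 5) (nat_lit 169) (nat_lit 5) (nat_lit 170) (nat_lit 5) (nat_lit 486) (nat_lit 459) (nat_lit 255)) (XT.lf (nat_lit 0) (nat_lit 15336052934) (nat_lit 1292) (nat_lit 11315770452) (nat_lit 1292) (nat_lit 11315770452) (nat_lit 274) (nat_lit 3) (nat_lit 291) (nat_lit 3) (nat_lit 291) (nat_lit 5) (nat_lit 460) (nat_lit 460) (nat_lit 280))))) (XT.nd (nat_lit 234) (nat_lit 0) (nat_lit 152) (XT.nd (nat_lit 78) (nat_lit 0) (nat_lit 0) (XT.lf (nat_lit 0) (nat_lit 31923409409) (nat_lit 1216) (nat_lit 37740438363) (nat_lit 1292) (nat_lit 8155180268) (nat_lit 275) (nat_lit 5) (nat_lit 291) (nat_lit 5) (nat_lit 292) (nat_lit 5) (nat_lit 461) (nat_lit 460) (nat_lit 279))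 (XT.nd (nat_lit 78) (nat_lit 0) (nat_lit 76) (XT.lf (nat_lit 76) (nat_lit 26584878135) (nat_lit 0) (nat_lit 7680050587) (nat_lit 1292) (nat_lit 45501302454) (nat_lit 276) (nat_lit 5) (nat_lit 275) (nat_lit 5) (nat_lit 292) (nat_lit 5) (nat_lit 462) (nat_lit 460) (nat_lit 278)) (XT.lf (nat_lit 76) (nat_lit 12809625024) (nat_lit 0) (nat_lit 24980046550) (nat_lit 1292) (nat_lit 43989138733) (nat_lit 277) (nat_lit 5) (nat_lit 276) (nat_lit 5) (nat_lit 293) (nat_lit 5) (nat_lit 463) (nat_lit 460) (nat_lit 277)))) (XT.nd (nat_lit 156) (nat_lit 0) (nat_lit 152) (XT.nd (nat_lit 78) (nat_lit 0) (nat_lit 76) (XT.lf (nat_lit 0) (nat_lit 42508071045) (nat_lit 1216) (nat_lit 1135852044) (nat_lit 1292) (nat_lit 40217572969) (nat_lit 277) (nat_lit 5) (nat_lit 293) (nat_lit 5) (nat_lit 294) (nat_lit 5) (nat_lit 464) (nat_lit 460) (nat_lit 276)) (XT.lf (nat_lit 0) (nat_lit 48617600771) (nat_lit 1216) (nat_lit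 15013449236) (nat_lit 1292) (nat_lit 22382610020) (nat_lit 278) (nat_lit 5) (nat_lit 294) (nat_lit 5) (nat_lit 295) (nat_lit 5) (nat_lit 465) (nat_lit 460) (nat_lit 275))) (XT.nd (nat_lit 78) (nat_lit 0) (nat_lit 0) (XT.lf (nat_lit 0) (nat_lit 56083409415) (nat_lit 1216) (nat_lit 29065360125) (nat_lit 1292) (nat_lit 3093138808) (nat_lit 279) (nat_lit 5) (nat_lit 295) (nat_lit 5) (nat_lit 296) (nat_lit 5) (nat_lit 466) (nat_lit 460) (nat_lit 274)) (XT.lf (nat_lit 76) (nat_lit 47087224765) (nat_lit 0) (nat_lit 18085301048) (nat_lit 1292) (nat_lit 25371542969) (nat_lit 280) (nat_lit 5) (nat_lit 279) (nat_lit 5) (nat_lit 296) (nat_lit 5) (nat_lit 467) (nat_lit 460) (nat_lit 273))))))))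
noncomputable def xc123 : XT := (XT.nd (nat_lit 62400) (nat_lit 0) (nat_lit 836) (XT.nd (nat_lit 936) (nat_lit 2660) (nat_lit 0) (XT.nd (nat_lit 468) (nat_lit 3268) (nat_lit 0) (XT.nd (nat_lit 234) (nat_lit 1368) (nat_lit 0) (XT.nd (nat_lit 78) (nat_lit 1140) (nat_lit 0) (XT.lf (nat_lit 76) (nat_lit 34876315327) (nat_lit 0) (nat_lit 40979343144) (nat_lit 1292) (nat_lit 17071492157) (nat_lit 281) (nat_lit 5) (nat_lit 280) (nat_lit 5) (nat_lit 297) (nat_lit 5) (nat_lit 468) (nat_lit 460) (nat_lit 272)) (XT.nd (nat_lit 78) (nat_lit 1216) (nat_lit 0) (XT.lf (nat_lit 76) (nat_lit 22587804927) (nat_lit 0) (nat_lit 65619302324) (nat_lit 1292) (nat_lit 7188254728) (nat_lit 282) (nat_lit 5) (nat_lit 281) (nat_lit 5) (nat_lit 298) (nat_lit 5) (nat_lit 469) (nat_lit 460) (nat_lit 271)) (XT.lf (nat_lit 0) (nat_lit 4299506864) (nat_lit 1292) (nat_lit 87758825801) (nat_lit 76) (nat_lit 5892553913) (nat_lit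 265) (nat_lit 5) (nat_lit 282) (nat_lit 5) (nat_lit 266) (nat_lit 5) (nat_lit 470) (nat_lit 460) (nat_lit 270)))) (XT.nd (nat_lit 78) (nat_lit 1368) (nat_lit 0) (XT.lf (nat_lit 0) (nat_lit 17632796656) (nat_lit 1292) (nat_lit 2491575740) (nat_lit 76) (nat_lit 80465085931) (nat_lit 265) (nat_lit 5) (nat_lit 282) (nat_lit 5) (nat_lit 266) (nat_lit 5) (nat_lit 471) (nat_lit 460) (nat_lit 269)) (XT.nd (nat_lit 78) (nat_lit 608) (nat_lit 0) (XT.lf (nat_lit 0) (nat_lit 33026355394) (nat_lit 836) (nat_lit 15104837364) (nat_lit 76) (nat_lit 55186957935) (nat_lit 255) (nat_lit 5) (nat_lit 266) (nat_lit 5) (nat_lit 256) (nat_lit 5) (nat_lit 472) (nat_lit 460) (nat_lit 268)) (XT.lf (nat_lit 0) (nat_lit 50447717553) (nat_lit 684) (nat_lit 27773743836) (nat_lit 76) (nat_lit 27924072681) (nat_lit 247) (nat_lit 5) (nat_lit 256) (nat_lit 5) (nat_lit 248) (nat_lit 5) (nat_lit 473) (nat_lit 460) (nat_lit 267)))))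 (XT.nd (nat_lit 234) (nat_lit 1520) (nat_lit 0) (XT.nd (nat_lit 78) (nat_lit 1140) (nat_lit 0) (XT.lf (nat_lit 0) (nat_lit 68578464621) (nat_lit 608) (nat_lit 1463029707) (nat_lit 684) (nat_lit 39033752042) (nat_lit 239) (nat_lit 5) (nat_lit 247) (nat_lit 5) (nat_lit 248) (nat_lit 5) (nat_lit 474) (nat_lit 460) (nat_lit 266)) (XT.nd (nat_lit 78) (nat_lit 608) (nat_lit 0) (XT.lf (nat_lit 0) (nat_lit 58564416138) (nat_lit 532) (nat_lit 33662240887) (nat_lit 608) (nat_lit 19876436488) (nat_lit 232) (nat_lit 5) (nat_lit 239) (nat_lit 5) (nat_lit 240) (nat_lit 5) (nat_lit 475) (nat_lit 460) (nat_lit 265)) (XT.lf (nat_lit 0) (nat_lit 1602023525) (nat_lit 608) (nat_lit 66624789339) (nat_lit 76) (nat_lit 47014413308) (nat_lit 224) (nat_lit 5) (nat_lit 232) (nat_lit 5) (nat_lit 225) (nat_lit 5) (nat_lit 476) (nat_lit 460) (nat_lit 264)))) (XT.nd (nat_lit 78) (nat_lit 988) (nat_lit 0) (XT.lf (nat_lit 0)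 (nat_lit 25146177961) (nat_lit 608) (nat_lit 79936860671) (nat_lit 76) (nat_lit 13405237667) (nat_lit 217) (nat_lit 5) (nat_lit 225) (nat_lit 5) (nat_lit 218) (nat_lit 5) (nat_lit 477) (nat_lit 460) (nat_lit 263)) (XT.nd (nat_lit 78) (nat_lit 456) (nat_lit 0) (XT.lf (nat_lit 0) (nat_lit 28358877674) (nat_lit 532) (nat_lit 23161921324) (nat_lit 608) (nat_lit 70327282286) (nat_lit 210) (nat_lit 5) (nat_lit 217) (nat_lit 5) (nat_lit 218) (nat_lit 5) (nat_lit 478) (nat_lit 460) (nat_lit 262)) (XT.lf (nat_lit 0) (nat_lit 18129404739) (nat_lit 456) (nat_lit 62693661427) (nat_lit 532) (nat_lit 44504543013) (nat_lit 204) (nat_lit 5) (nat_lit 210) (nat_lit 5) (nat_lit 211) (nat_lit 5) (nat_lit 479) (nat_lit 460) (nat_lit 261)))))) (XT.nd (nat_lit 468) (nat_lit 380) (nat_lit 0) (XT.nd (nat_lit 234) (nat_lit 1292) (nat_lit 0) (XT.nd (nat_lit 78) (nat_lit 532) (nat_lit 0) (XT.lf (nat_lit 0) (nat_lit 8021522785)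 (nat_lit 456) (nat_lit 105072542898) (nat_lit 532) (nat_lit 15841939325) (nat_lit 198) (nat_lit 5) (nat_lit 204) (nat_lit 5) (nat_lit 205) (nat_lit 5) (nat_lit 480) (nat_lit 460) (nat_lit 260)) (XT.nd (nat_lit 78) (nat_lit 456) (nat_lit 0) (XT.lf (nat_lit 0) (nat_lit 15722320930) (nat_lit 532) (nat_lit 2230737707) (nat_lit 76) (nat_lit 114715251528) (nat_lit 197) (nat_lit 5) (nat_lit 204) (nat_lit 5) (nat_lit 198) (nat_lit 5) (nat_lit 481) (nat_lit 460) (nat_lit 259)) (XT.lf (nat_lit 0) (nat_lit 50458169999) (nat_lit 532) (nat_lit 12607471480) (nat_lit 76) (nat_lit 73459253326) (nat_lit 191) (nat_lit 5) (nat_lit 198) (nat_lit 5) (nat_lit 192) (nat_lit 5) (nat_lit 482) (nat_lit 460) (nat_lit 258)))) (XT.nd (nat_lit 78) (nat_lit 836) (nat_lit 0) (XT.lf (nat_lit 0) (nat_lit 88554129124) (nat_lit 532) (nat_lit 22853771669) (nat_lit 76) (nat_lit 29117708447) (nat_lit 185) (nat_lit 5) (nat_lit 192)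 (nat_lit 5) (nat_lit 186) (nat_lit 5) (nat_lit 483) (nat_lit 460) (nat_lit 257)) (XT.nd (nat_lit 78) (nat_lit 456) (nat_lit 0) (XT.lf (nat_lit 0) (nat_lit 111544292542) (nat_lit 380) (nat_lit 18849941646) (nat_lit 456) (nat_lit 14276944856) (nat_lit 180) (nat_lit 5) (nat_lit 185) (nat_lit 5) (nat_lit 186) (nat_lit 5) (nat_lit 484) (nat_lit 460) (nat_lit 256)) (XT.lf (nat_lit 0) (nat_lit 26831944804) (nat_lit 456) (nat_lit 43802867613) (nat_lit 76) (nat_lit 78321217350) (nat_lit 174) (nat_lit 5) (nat_lit 180) (nat_lit 5) (nat_lit 175) (nat_lit 5) (nat_lit 485) (nat_lit 460) (nat_lit 255))))) (XT.nd (nat_lit 60684) (nat_lit 0) (nat_lit 8056) (XT.nd (nat_lit 60528) (nat_lit 0) (nat_lit 7980) (XT.lf (nat_lit 0) (nat_lit 71460589166) (nat_lit 456) (nat_lit 54483504370) (nat_lit 76) (nat_lit 27454001510) (nat_lit 169) (nat_lit 5) (nat_lit 175) (nat_lit 5) (nat_lit 170) (nat_lit 5) (nat_lit 486) (nat_lit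 460) (nat_lit 254)) (XT.nd (nat_lit 78) (nat_lit 0) (nat_lit 76) (XT.lf (nat_lit 0) (nat_lit 16121063409) (nat_lit 1292) (nat_lit 11872179825) (nat_lit 1292) (nat_lit 11872179825) (nat_lit 274) (nat_lit 3) (nat_lit 291) (nat_lit 3) (nat_lit 291) (nat_lit 5) (nat_lit 461) (nat_lit 461) (nat_lit 278)) (XT.lf (nat_lit 0) (nat_lit 33554276688) (nat_lit 1216) (nat_lit 39608025998) (nat_lit 1292) (nat_lit 8546627783) (nat_lit 275) (nat_lit 5) (nat_lit 291) (nat_lit 5) (nat_lit 292) (nat_lit 5) (nat_lit 462) (nat_lit 461) (nat_lit 277)))) (XT.nd (nat_lit 156) (nat_lit 0) (nat_lit 152) (XT.nd (nat_lit 78) (nat_lit 0) (nat_lit 76) (XT.lf (nat_lit 76) (nat_lit 27932999246) (nat_lit 0) (nat_lit 8078401952) (nat_lit 1292) (nat_lit 47742137073) (nat_lit 276) (nat_lit 5) (nat_lit 275) (nat_lit 5) (nat_lit 292) (nat_lit 5) (nat_lit 463) (nat_lit 461) (nat_lit 276)) (XT.lf (nat_lit 76) (nat_lit 13469552016) (nat_lit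 0) (nat_lit 26241302545) (nat_lit 1292) (nat_lit 46155937960) (nat_lit 277) (nat_lit 5) (nat_lit 276) (nat_lit 5) (nat_lit 293) (nat_lit 5) (nat_lit 464) (nat_lit 461) (nat_lit 275))) (XT.nd (nat_lit 78) (nat_lit 0) (nat_lit 76) (XT.lf (nat_lit 0) (nat_lit 44663552329) (nat_lit 1216) (nat_lit 1173100045) (nat_lit 1292) (nat_lit 42217009185) (nat_lit 277) (nat_lit 5) (nat_lit 293) (nat_lit 5) (nat_lit 294) (nat_lit 5) (nat_lit 465) (nat_lit 461) (nat_lit 274)) (XT.lf (nat_lit 0) (nat_lit 51077214136) (nat_lit 1216) (nat_lit 15744171239) (nat_lit 1292) (nat_lit 23492089015) (nat_lit 278) (nat_lit 5) (nat_lit 294) (nat_lit 5) (nat_lit 295) (nat_lit 5) (nat_lit 466) (nat_lit 461) (nat_lit 273))))))) (XT.nd (nat_lit 1014) (nat_lit 2280) (nat_lit 0) (XT.nd (nat_lit 468) (nat_lit 4180) (nat_lit 0) (XT.nd (nat_lit 234) (nat_lit 1064) (nat_lit 0) (XT.nd (nat_lit 78) (nat_lit 0) (nat_lit 0) (XT.lf (nat_lit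 0) (nat_lit 58915052676) (nat_lit 1216) (nat_lit 30498338124) (nat_lit 1292) (nat_lit 3239782460) (nat_lit 279) (nat_lit 5) (nat_lit 295) (nat_lit 5) (nat_lit 296) (nat_lit 5) (nat_lit 467) (nat_lit 461) (nat_lit 272)) (XT.nd (nat_lit 78) (nat_lit 0) (nat_lit 76) (XT.lf (nat_lit 76) (nat_lit 49461294401) (nat_lit 0) (nat_lit 18996211713) (nat_lit 1292) (nat_lit 26612969465) (nat_lit 280) (nat_lit 5) (nat_lit 279) (nat_lit 5) (nat_lit 296) (nat_lit 5) (nat_lit 468) (nat_lit 461) (nat_lit 271)) (XT.lf (nat_lit 76) (nat_lit 36640110410) (nat_lit 0) (nat_lit 43033561256) (nat_lit 1292) (nat_lit 17899073851) (nat_lit 281) (nat_lit 5) (nat_lit 280) (nat_lit 5) (nat_lit 297) (nat_lit 5) (nat_lit 469) (nat_lit 461) (nat_lit 270)))) (XT.nd (nat_lit 78) (nat_lit 1216) (nat_lit 0) (XT.lf (nat_lit 76) (nat_lit 23737391597) (nat_lit 0) (nat_lit 68904245915) (nat_lit 1292) (nat_lit 7522761858) (nat_lit 282)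 (nat_lit 5) (nat_lit 281) (nat_lit 5) (nat_lit 298) (nat_lit 5) (nat_lit 470) (nat_lit 461) (nat_lit 269)) (XT.nd (nat_lit 78) (nat_lit 0) (nat_lit 0) (XT.lf (nat_lit 0) (nat_lit 4537899888) (nat_lit 1292) (nat_lit 92125931576) (nat_lit 76) (nat_lit 6183891863) (nat_lit 265) (nat_lit 5) (nat_lit 282) (nat_lit 5) (nat_lit 266) (nat_lit 5) (nat_lit 471) (nat_lit 461) (nat_lit 268)) (XT.lf (nat_lit 0) (nat_lit 18536739042) (nat_lit 1292) (nat_lit 2596311180) (nat_lit 76) (nat_lit 84485207136) (nat_lit 265) (nat_lit 5) (nat_lit 282) (nat_lit 5) (nat_lit 266) (nat_lit 5) (nat_lit 472) (nat_lit 461) (nat_lit 267))))) (XT.nd (nat_lit 234) (nat_lit 2204) (nat_lit 0) (XT.nd (nat_lit 78) (nat_lit 1216) (nat_lit 0) (XT.lf (nat_lit 0) (nat_lit 34699078290) (nat_lit 836) (nat_lit 15840136657) (nat_lit 76) (nat_lit 57944196547) (nat_lit 255) (nat_lit 5) (nat_lit 266) (nat_lit 5) (nat_lit 256) (nat_lit 5) (nat_lit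 473) (nat_lit 461) (nat_lit 266)) (XT.nd (nat_lit 78) (nat_lit 608) (nat_lit 0) (XT.lf (nat_lit 0) (nat_lit 52990663924) (nat_lit 684) (nat_lit 29142427033) (nat_lit 76) (nat_lit 29319098639) (nat_lit 247) (nat_lit 5) (nat_lit 256) (nat_lit 5) (nat_lit 248) (nat_lit 5) (nat_lit 474) (nat_lit 461) (nat_lit 265)) (XT.lf (nat_lit 0) (nat_lit 72026818436) (nat_lit 608) (nat_lit 1536518809) (nat_lit 684) (nat_lit 40965074242) (nat_lit 239) (nat_lit 5) (nat_lit 247) (nat_lit 5) (nat_lit 248) (nat_lit 5) (nat_lit 475) (nat_lit 461) (nat_lit 264)))) (XT.nd (nat_lit 156) (nat_lit 1064) (nat_lit 0) (XT.nd (nat_lit 78) (nat_lit 608) (nat_lit 0) (XT.lf (nat_lit 0) (nat_lit 61512093790) (nat_lit 532) (nat_lit 35344906885) (nat_lit 608) (nat_lit 20850673233) (nat_lit 232) (nat_lit 5) (nat_lit 239) (nat_lit 5) (nat_lit 240) (nat_lit 5) (nat_lit 476) (nat_lit 461) (nat_lit 263)) (XT.lf (nat_lit 0) (nat_lit 1700606148)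 (nat_lit 608) (nat_lit 69936204558) (nat_lit 76) (nat_lit 49365918672) (nat_lit 224) (nat_lit 5) (nat_lit 232) (nat_lit 5) (nat_lit 225) (nat_lit 5) (nat_lit 477) (nat_lit 461) (nat_lit 262))) (XT.nd (nat_lit 78) (nat_lit 532) (nat_lit 0) (XT.lf (nat_lit 0) (nat_lit 26421287463) (nat_lit 608) (nat_lit 83913924762) (nat_lit 76) (nat_lit 14076940386) (nat_lit 217) (nat_lit 5) (nat_lit 225) (nat_lit 5) (nat_lit 218) (nat_lit 5) (nat_lit 478) (nat_lit 461) (nat_lit 261)) (XT.lf (nat_lit 0) (nat_lit 29796033541) (nat_lit 532) (nat_lit 24317943041) (nat_lit 608) (nat_lit 73825991319) (nat_lit 210) (nat_lit 5) (nat_lit 217) (nat_lit 5) (nat_lit 218) (nat_lit 5) (nat_lit 479) (nat_lit 461) (nat_lit 260)))))) (XT.nd (nat_lit 61074) (nat_lit 0) (nat_lit 7144) (XT.nd (nat_lit 234) (nat_lit 1292) (nat_lit 0) (XT.nd (nat_lit 78) (nat_lit 532) (nat_lit 0) (XT.lf (nat_lit 0) (nat_lit 19055019498) (nat_lit 456)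 (nat_lit 65825724552) (nat_lit 532) (nat_lit 46712746691) (nat_lit 204) (nat_lit 5) (nat_lit 210) (nat_lit 5) (nat_lit 211) (nat_lit 5) (nat_lit 480) (nat_lit 461) (nat_lit 259)) (XT.nd (nat_lit 78) (nat_lit 76) (nat_lit 0) (XT.lf (nat_lit 0) (nat_lit 8441654806) (nat_lit 456) (nat_lit 110323059014) (nat_lit 532) (nat_lit 16617610084) (nat_lit 198) (nat_lit 5) (nat_lit 204) (nat_lit 5) (nat_lit 205) (nat_lit 5) (nat_lit 481) (nat_lit 461) (nat_lit 258)) (XT.lf (nat_lit 0) (nat_lit 16523775713) (nat_lit 532) (nat_lit 2323818080) (nat_lit 76) (nat_lit 120453668935) (nat_lit 197) (nat_lit 5) (nat_lit 204) (nat_lit 5) (nat_lit 198) (nat_lit 5) (nat_lit 482) (nat_lit 461) (nat_lit 257)))) (XT.nd (nat_lit 78) (nat_lit 836) (nat_lit 0) (XT.lf (nat_lit 0) (nat_lit 52995889399) (nat_lit 532) (nat_lit 13219501773) (nat_lit 76) (nat_lit 77135301397) (nat_lit 191) (nat_lit 5) (nat_lit 198) (nat_lit 5) (nat_lit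 192) (nat_lit 5) (nat_lit 483) (nat_lit 461) (nat_lit 256)) (XT.nd (nat_lit 78) (nat_lit 380) (nat_lit 0) (XT.lf (nat_lit 0) (nat_lit 92996146505) (nat_lit 532) (nat_lit 23978245981) (nat_lit 76) (nat_lit 30577065364) (nat_lit 185) (nat_lit 5) (nat_lit 192) (nat_lit 5) (nat_lit 186) (nat_lit 5) (nat_lit 484) (nat_lit 461) (nat_lit 255)) (XT.lf (nat_lit 0) (nat_lit 117139199332) (nat_lit 380) (nat_lit 19788546086) (nat_lit 456) (nat_lit 14976576188) (nat_lit 180) (nat_lit 5) (nat_lit 185) (nat_lit 5) (nat_lit 186) (nat_lit 5) (nat_lit 485) (nat_lit 461) (nat_lit 254))))) (XT.nd (nat_lit 234) (nat_lit 0) (nat_lit 152) (XT.nd (nat_lit 78) (nat_lit 0) (nat_lit 76) (XT.lf (nat_lit 0) (nat_lit 16943631616) (nat_lit 1292) (nat_lit 12457281651) (nat_lit 1292) (nat_lit 12457281651) (nat_lit 274) (nat_lit 3) (nat_lit 291) (nat_lit 3) (nat_lit 291) (nat_lit 5) (nat_lit 462) (nat_lit 462) (nat_lit 276)) (XT.nd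 (nat_lit 78) (nat_lit 0) (nat_lit 0) (XT.lf (nat_lit 0) (nat_lit 35263461550) (nat_lit 1216) (nat_lit 41570799830) (nat_lit 1292) (nat_lit 8959164163) (nat_lit 275) (nat_lit 5) (nat_lit 291) (nat_lit 5) (nat_lit 292) (nat_lit 5) (nat_lit 463) (nat_lit 462) (nat_lit 275)) (XT.lf (nat_lit 76) (nat_lit 29346771388) (nat_lit 0) (nat_lit 8495336866) (nat_lit 1292) (nat_lit 50098195850) (nat_lit 276) (nat_lit 5) (nat_lit 275) (nat_lit 5) (nat_lit 292) (nat_lit 5) (nat_lit 464) (nat_lit 462) (nat_lit 274)))) (XT.nd (nat_lit 156) (nat_lit 0) (nat_lit 152) (XT.nd (nat_lit 78) (nat_lit 0) (nat_lit 76) (XT.lf (nat_lit 76) (nat_lit 14160667477) (nat_lit 0) (nat_lit 27564482110) (nat_lit 1292) (nat_lit 48434113352) (nat_lit 277) (nat_lit 5) (nat_lit 276) (nat_lit 5) (nat_lit 293) (nat_lit 5) (nat_lit 465) (nat_lit 462) (nat_lit 273)) (XT.lf (nat_lit 0) (nat_lit 46924011336) (nat_lit 1216) (nat_lit 1214027518)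 (nat_lit 1292) (nat_lit 44317481020) (nat_lit 277) (nat_lit 5) (nat_lit 293) (nat_lit 5) (nat_lit 294) (nat_lit 5) (nat_lit 466) (nat_lit 462) (nat_lit 272))) (XT.nd (nat_lit 78) (nat_lit 0) (nat_lit 76) (XT.lf (nat_lit 0) (nat_lit 53657136817) (nat_lit 1216) (nat_lit 16513284147) (nat_lit 1292) (nat_lit 24657939266) (nat_lit 278) (nat_lit 5) (nat_lit 294) (nat_lit 5) (nat_lit 295) (nat_lit 5) (nat_lit 467) (nat_lit 462) (nat_lit 271)) (XT.lf (nat_lit 0) (nat_lit 61885723940) (nat_lit 1216) (nat_lit 32004851396) (nat_lit 1292) (nat_lit 3394503294) (nat_lit 279) (nat_lit 5) (nat_lit 295) (nat_lit 5) (nat_lit 296) (nat_lit 5) (nat_lit 468) (nat_lit 462) (nat_lit 270))))))))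
noncomputable def xc124 : XT := (XT.nd (nat_lit 62634) (nat_lit 0) (nat_lit 456) (XT.nd (nat_lit 936) (nat_lit 1900) (nat_lit 0) (XT.nd (nat_lit 468) (nat_lit 3420) (nat_lit 0) (XT.nd (nat_lit 234) (nat_lit 1824) (nat_lit 0) (XT.nd (nat_lit 78) (nat_lit 0) (nat_lit 76) (XT.lf (nat_lit 76) (nat_lit 51952235219) (nat_lit 0) (nat_lit 19952050065) (nat_lit 1292) (nat_lit 27918991496) (nat_lit 280) (nat_lit 5) (nat_lit 279) (nat_lit 5) (nat_lit 296) (nat_lit 5) (nat_lit 469) (nat_lit 462) (nat_lit 269)) (XT.nd (nat_lit 78) (nat_lit 0) (nat_lit 76) (XT.lf (nat_lit 76) (nat_lit 38490237760) (nat_lit 0) (nat_lit 45190002090) (nat_lit 1292) (nat_lit 18770451204) (nat_lit 281) (nat_lit 5) (nat_lit 280) (nat_lit 5) (nat_lit 297) (nat_lit 5) (nat_lit 470) (nat_lit 462) (nat_lit 268)) (XT.lf (nat_lit 76) (nat_lit 24942579929) (nat_lit 0) (nat_lit 72353066804) (nat_lit 1292) (nat_lit 7876309831) (nat_lit 282)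 (nat_lit 5) (nat_lit 281) (nat_lit 5) (nat_lit 298) (nat_lit 5) (nat_lit 471) (nat_lit 462) (nat_lit 267)))) (XT.nd (nat_lit 78) (nat_lit 760) (nat_lit 0) (XT.lf (nat_lit 0) (nat_lit 4786035409) (nat_lit 1292) (nat_lit 96713329729) (nat_lit 76) (nat_lit 6490102559) (nat_lit 265) (nat_lit 5) (nat_lit 282) (nat_lit 5) (nat_lit 266) (nat_lit 5) (nat_lit 472) (nat_lit 462) (nat_lit 266)) (XT.nd (nat_lit 78) (nat_lit 760) (nat_lit 0) (XT.lf (nat_lit 0) (nat_lit 19483805067) (nat_lit 1292) (nat_lit 2708128237) (nat_lit 76) (nat_lit 88706625687) (nat_lit 265) (nat_lit 5) (nat_lit 282) (nat_lit 5) (nat_lit 266) (nat_lit 5) (nat_lit 473) (nat_lit 462) (nat_lit 265)) (XT.lf (nat_lit 0) (nat_lit 36453447284) (nat_lit 836) (nat_lit 16614054986) (nat_lit 76) (nat_lit 60839493191) (nat_lit 255) (nat_lit 5) (nat_lit 266) (nat_lit 5) (nat_lit 256) (nat_lit 5) (nat_lit 474) (nat_lit 462) (nat_lit 264))))) (XT.nd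 (nat_lit 234) (nat_lit 1672) (nat_lit 0) (XT.nd (nat_lit 78) (nat_lit 1140) (nat_lit 0) (XT.lf (nat_lit 0) (nat_lit 55658846094) (nat_lit 684) (nat_lit 30581404172) (nat_lit 76) (nat_lit 30783985385) (nat_lit 247) (nat_lit 5) (nat_lit 256) (nat_lit 5) (nat_lit 248) (nat_lit 5) (nat_lit 475) (nat_lit 462) (nat_lit 263)) (XT.nd (nat_lit 78) (nat_lit 532) (nat_lit 0) (XT.lf (nat_lit 0) (nat_lit 75645783470) (nat_lit 608) (nat_lit 1613650978) (nat_lit 684) (nat_lit 42994855935) (nat_lit 239) (nat_lit 5) (nat_lit 247) (nat_lit 5) (nat_lit 248) (nat_lit 5) (nat_lit 476) (nat_lit 462) (nat_lit 262)) (XT.lf (nat_lit 0) (nat_lit 64605346411) (nat_lit 532) (nat_lit 37111747652) (nat_lit 608) (nat_lit 21875442651) (nat_lit 232) (nat_lit 5) (nat_lit 239) (nat_lit 5) (nat_lit 240) (nat_lit 5) (nat_lit 477) (nat_lit 462) (nat_lit 261)))) (XT.nd (nat_lit 78) (nat_lit 1064) (nat_lit 0) (XT.lf (nat_lit 0) (nat_lit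 1802399673) (nat_lit 608) (nat_lit 73415033609) (nat_lit 76) (nat_lit 51834926351) (nat_lit 224) (nat_lit 5) (nat_lit 232) (nat_lit 5) (nat_lit 225) (nat_lit 5) (nat_lit 478) (nat_lit 462) (nat_lit 260)) (XT.nd (nat_lit 78) (nat_lit 532) (nat_lit 0) (XT.lf (nat_lit 0) (nat_lit 27758497509) (nat_lit 608) (nat_lit 88091680917) (nat_lit 76) (nat_lit 14782094285) (nat_lit 217) (nat_lit 5) (nat_lit 225) (nat_lit 5) (nat_lit 218) (nat_lit 5) (nat_lit 479) (nat_lit 462) (nat_lit 259)) (XT.lf (nat_lit 0) (nat_lit 31303261052) (nat_lit 532) (nat_lit 25531958698) (nat_lit 608) (nat_lit 77501277206) (nat_lit 210) (nat_lit 5) (nat_lit 217) (nat_lit 5) (nat_lit 218) (nat_lit 5) (nat_lit 480) (nat_lit 462) (nat_lit 258)))))) (XT.nd (nat_lit 61152) (nat_lit 0) (nat_lit 6840) (XT.nd (nat_lit 234) (nat_lit 912) (nat_lit 0) (XT.nd (nat_lit 78) (nat_lit 532) (nat_lit 0) (XT.lf (nat_lit 0) (nat_lit 20025135118) (nat_lit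 456) (nat_lit 69114634411) (nat_lit 532) (nat_lit 49032943234) (nat_lit 204) (nat_lit 5) (nat_lit 210) (nat_lit 5) (nat_lit 211) (nat_lit 5) (nat_lit 481) (nat_lit 462) (nat_lit 257)) (XT.nd (nat_lit 78) (nat_lit 76) (nat_lit 0) (XT.lf (nat_lit 0) (nat_lit 8881021793) (nat_lit 456) (nat_lit 115836390169) (nat_lit 532) (nat_lit 17433591533) (nat_lit 198) (nat_lit 5) (nat_lit 204) (nat_lit 5) (nat_lit 205) (nat_lit 5) (nat_lit 482) (nat_lit 462) (nat_lit 256)) (XT.lf (nat_lit 0) (nat_lit 17363877185) (nat_lit 532) (nat_lit 2423268382) (nat_lit 76) (nat_lit 126478760392) (nat_lit 197) (nat_lit 5) (nat_lit 204) (nat_lit 5) (nat_lit 198) (nat_lit 5) (nat_lit 483) (nat_lit 462) (nat_lit 255)))) (XT.nd (nat_lit 78) (nat_lit 456) (nat_lit 0) (XT.lf (nat_lit 0) (nat_lit 55659117791) (nat_lit 532) (nat_lit 13863838965) (nat_lit 76) (nat_lit 80994865019) (nat_lit 191) (nat_lit 5) (nat_lit 198) (nat_lit 5)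 (nat_lit 192) (nat_lit 5) (nat_lit 484) (nat_lit 462) (nat_lit 254)) (XT.nd (nat_lit 60762) (nat_lit 0) (nat_lit 6764) (XT.lf (nat_lit 0) (nat_lit 97658934262) (nat_lit 532) (nat_lit 25160637398) (nat_lit 76) (nat_lit 32109067380) (nat_lit 185) (nat_lit 5) (nat_lit 192) (nat_lit 5) (nat_lit 186) (nat_lit 5) (nat_lit 485) (nat_lit 462) (nat_lit 253)) (XT.lf (nat_lit 0) (nat_lit 17805792823) (nat_lit 1292) (nat_lit 13072429484) (nat_lit 1292) (nat_lit 13072429484) (nat_lit 274) (nat_lit 3) (nat_lit 291) (nat_lit 3) (nat_lit 291) (nat_lit 5) (nat_lit 463) (nat_lit 463) (nat_lit 274))))) (XT.nd (nat_lit 234) (nat_lit 0) (nat_lit 152) (XT.nd (nat_lit 78) (nat_lit 0) (nat_lit 0) (XT.lf (nat_lit 0) (nat_lit 37055179777) (nat_lit 1216) (nat_lit 43633351188) (nat_lit 1292) (nat_lit 9393702861) (nat_lit 275) (nat_lit 5) (nat_lit 291) (nat_lit 5) (nat_lit 292) (nat_lit 5) (nat_lit 464) (nat_lit 463) (nat_lit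 273)) (XT.nd (nat_lit 78) (nat_lit 0) (nat_lit 76) (XT.lf (nat_lit 76) (nat_lit 30829640279) (nat_lit 0) (nat_lit 8931908531) (nat_lit 1292) (nat_lit 52574944122) (nat_lit 276) (nat_lit 5) (nat_lit 275) (nat_lit 5) (nat_lit 292) (nat_lit 5) (nat_lit 465) (nat_lit 463) (nat_lit 272)) (XT.lf (nat_lit 76) (nat_lit 14884698910) (nat_lit 0) (nat_lit 28952787339) (nat_lit 1292) (nat_lit 50828951442) (nat_lit 277) (nat_lit 5) (nat_lit 276) (nat_lit 5) (nat_lit 293) (nat_lit 5) (nat_lit 466) (nat_lit 463) (nat_lit 271)))) (XT.nd (nat_lit 156) (nat_lit 0) (nat_lit 152) (XT.nd (nat_lit 78) (nat_lit 0) (nat_lit 76) (XT.lf (nat_lit 0) (nat_lit 49294956928) (nat_lit 1216) (nat_lit 1258649501) (nat_lit 1292) (nat_lit 46523941353) (nat_lit 277) (nat_lit 5) (nat_lit 293) (nat_lit 5) (nat_lit 294) (nat_lit 5) (nat_lit 467) (nat_lit 463) (nat_lit 270)) (XT.lf (nat_lit 0) (nat_lit 56363632636) (nat_lit 1216) (nat_lit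 17322535062) (nat_lit 1292) (nat_lit 25882895912) (nat_lit 278) (nat_lit 5) (nat_lit 294) (nat_lit 5) (nat_lit 295) (nat_lit 5) (nat_lit 468) (nat_lit 463) (nat_lit 269))) (XT.nd (nat_lit 78) (nat_lit 0) (nat_lit 0) (XT.lf (nat_lit 0) (nat_lit 65002612069) (nat_lit 1216) (nat_lit 33588401327) (nat_lit 1292) (nat_lit 3557635906) (nat_lit 279) (nat_lit 5) (nat_lit 295) (nat_lit 5) (nat_lit 296) (nat_lit 5) (nat_lit 469) (nat_lit 463) (nat_lit 268)) (XT.lf (nat_lit 76) (nat_lit 54566061128) (nat_lit 0) (nat_lit 20955119930) (nat_lit 1292) (nat_lit 29292604163) (nat_lit 280) (nat_lit 5) (nat_lit 279) (nat_lit 5) (nat_lit 296) (nat_lit 5) (nat_lit 470) (nat_lit 463) (nat_lit 267))))))) (XT.nd (nat_lit 1014) (nat_lit 532) (nat_lit 0) (XT.nd (nat_lit 468) (nat_lit 3724) (nat_lit 0) (XT.nd (nat_lit 234) (nat_lit 1368) (nat_lit 0) (XT.nd (nat_lit 78) (nat_lit 1140) (nat_lit 0) (XT.lf (nat_lit 76) (nat_lit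 40431186682) (nat_lit 0) (nat_lit 47453822167) (nat_lit 1292) (nat_lit 19687589330) (nat_lit 281) (nat_lit 5) (nat_lit 280) (nat_lit 5) (nat_lit 297) (nat_lit 5) (nat_lit 471) (nat_lit 463) (nat_lit 266)) (XT.nd (nat_lit 78) (nat_lit 1216) (nat_lit 0) (XT.lf (nat_lit 76) (nat_lit 26206324573) (nat_lit 0) (nat_lit 75973993246) (nat_lit 1292) (nat_lit 8249635418) (nat_lit 282) (nat_lit 5) (nat_lit 281) (nat_lit 5) (nat_lit 298) (nat_lit 5) (nat_lit 472) (nat_lit 463) (nat_lit 265)) (XT.lf (nat_lit 0) (nat_lit 5044602963) (nat_lit 1292) (nat_lit 101531854786) (nat_lit 76) (nat_lit 6811901205) (nat_lit 265) (nat_lit 5) (nat_lit 282) (nat_lit 5) (nat_lit 266) (nat_lit 5) (nat_lit 473) (nat_lit 463) (nat_lit 264)))) (XT.nd (nat_lit 78) (nat_lit 1368) (nat_lit 0) (XT.lf (nat_lit 0) (nat_lit 20476343685) (nat_lit 1292) (nat_lit 2827209478) (nat_lit 76) (nat_lit 93139379369) (nat_lit 265) (nat_lit 5) (nat_lit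 282) (nat_lit 5) (nat_lit 266) (nat_lit 5) (nat_lit 474) (nat_lit 463) (nat_lit 263)) (XT.nd (nat_lit 78) (nat_lit 608) (nat_lit 0) (XT.lf (nat_lit 0) (nat_lit 38293729699) (nat_lit 836) (nat_lit 17428350929) (nat_lit 76) (nat_lit 63879732538) (nat_lit 255) (nat_lit 5) (nat_lit 266) (nat_lit 5) (nat_lit 256) (nat_lit 5) (nat_lit 475) (nat_lit 463) (nat_lit 262)) (XT.lf (nat_lit 0) (nat_lit 58458703568) (nat_lit 684) (nat_lit 32094017044) (nat_lit 76) (nat_lit 32322215777) (nat_lit 247) (nat_lit 5) (nat_lit 256) (nat_lit 5) (nat_lit 248) (nat_lit 5) (nat_lit 476) (nat_lit 463) (nat_lit 261))))) (XT.nd (nat_lit 234) (nat_lit 1976) (nat_lit 0) (XT.nd (nat_lit 78) (nat_lit 1140) (nat_lit 0) (XT.lf (nat_lit 0) (nat_lit 79444058234) (nat_lit 608) (nat_lit 1694611285) (nat_lit 684) (nat_lit 45127844065) (nat_lit 239) (nat_lit 5) (nat_lit 247) (nat_lit 5) (nat_lit 248) (nat_lit 5) (nat_lit 477) (nat_lit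 463) (nat_lit 260)) (XT.nd (nat_lit 78) (nat_lit 608) (nat_lit 0) (XT.lf (nat_lit 0) (nat_lit 67851620926) (nat_lit 532) (nat_lit 38966968072) (nat_lit 608) (nat_lit 22953102090) (nat_lit 232) (nat_lit 5) (nat_lit 239) (nat_lit 5) (nat_lit 240) (nat_lit 5) (nat_lit 478) (nat_lit 463) (nat_lit 259)) (XT.lf (nat_lit 0) (nat_lit 1907724389) (nat_lit 608) (nat_lit 77069475832) (nat_lit 76) (nat_lit 54427318242) (nat_lit 224) (nat_lit 5) (nat_lit 232) (nat_lit 5) (nat_lit 225) (nat_lit 5) (nat_lit 479) (nat_lit 463) (nat_lit 258)))) (XT.nd (nat_lit 156) (nat_lit 912) (nat_lit 0) (XT.nd (nat_lit 78) (nat_lit 532) (nat_lit 0) (XT.lf (nat_lit 0) (nat_lit 29161066986) (nat_lit 608) (nat_lit 92479992778) (nat_lit 76) (nat_lit 15522384379) (nat_lit 217) (nat_lit 5) (nat_lit 225) (nat_lit 5) (nat_lit 218) (nat_lit 5) (nat_lit 480) (nat_lit 463) (nat_lit 257)) (XT.lf (nat_lit 0) (nat_lit 32884229851) (nat_lit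 532) (nat_lit 26806850060) (nat_lit 608) (nat_lit 81361816188) (nat_lit 210) (nat_lit 5) (nat_lit 217) (nat_lit 5) (nat_lit 218) (nat_lit 5) (nat_lit 481) (nat_lit 463) (nat_lit 256))) (XT.nd (nat_lit 78) (nat_lit 456) (nat_lit 0) (XT.lf (nat_lit 0) (nat_lit 21042142119) (nat_lit 456) (nat_lit 72568210696) (nat_lit 532) (nat_lit 51470585143) (nat_lit 204) (nat_lit 5) (nat_lit 210) (nat_lit 5) (nat_lit 211) (nat_lit 5) (nat_lit 482) (nat_lit 463) (nat_lit 255)) (XT.lf (nat_lit 0) (nat_lit 9340750204) (nat_lit 456) (nat_lit 121625650226) (nat_lit 532) (nat_lit 18291757228) (nat_lit 198) (nat_lit 5) (nat_lit 204) (nat_lit 5) (nat_lit 205) (nat_lit 5) (nat_lit 483) (nat_lit 463) (nat_lit 254)))))) (XT.nd (nat_lit 61230) (nat_lit 0) (nat_lit 5624) (XT.nd (nat_lit 60996) (nat_lit 0) (nat_lit 6384) (XT.nd (nat_lit 78) (nat_lit 456) (nat_lit 0) (XT.lf (nat_lit 0) (nat_lit 18244690261) (nat_lit 532) (nat_lit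 2529247583) (nat_lit 76) (nat_lit 132804882548) (nat_lit 197) (nat_lit 5) (nat_lit 204) (nat_lit 5) (nat_lit 198) (nat_lit 5) (nat_lit 484) (nat_lit 463) (nat_lit 253)) (XT.nd (nat_lit 60840) (nat_lit 0) (nat_lit 6308) (XT.lf (nat_lit 0) (nat_lit 58454258644) (nat_lit 532) (nat_lit 14541939850) (nat_lit 76) (nat_lit 85047146640) (nat_lit 191) (nat_lit 5) (nat_lit 198) (nat_lit 5) (nat_lit 192) (nat_lit 5) (nat_lit 485) (nat_lit 463) (nat_lit 252)) (XT.lf (nat_lit 0) (nat_lit 18709669425) (nat_lit 1292) (nat_lit 13719052093) (nat_lit 1292) (nat_lit 13719052093) (nat_lit 274) (nat_lit 3) (nat_lit 291) (nat_lit 3) (nat_lit 291) (nat_lit 5) (nat_lit 464) (nat_lit 464) (nat_lit 272)))) (XT.nd (nat_lit 78) (nat_lit 0) (nat_lit 0) (XT.lf (nat_lit 0) (nat_lit 38933830059) (nat_lit 1216) (nat_lit 45800516586) (nat_lit 1292) (nat_lit 9851216114) (nat_lit 275) (nat_lit 5) (nat_lit 291) (nat_lit 5) (nat_lit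 292) (nat_lit 5) (nat_lit 465) (nat_lit 464) (nat_lit 271)) (XT.nd (nat_lit 78) (nat_lit 0) (nat_lit 76) (XT.lf (nat_lit 76) (nat_lit 32385208753) (nat_lit 0) (nat_lit 9389211279) (nat_lit 1292) (nat_lit 55178147999) (nat_lit 276) (nat_lit 5) (nat_lit 275) (nat_lit 5) (nat_lit 292) (nat_lit 5) (nat_lit 466) (nat_lit 464) (nat_lit 270)) (XT.lf (nat_lit 76) (nat_lit 15643444567) (nat_lit 0) (nat_lit 30409570581) (nat_lit 1292) (nat_lit 53346029328) (nat_lit 277) (nat_lit 5) (nat_lit 276) (nat_lit 5) (nat_lit 293) (nat_lit 5) (nat_lit 467) (nat_lit 464) (nat_lit 269))))) (XT.nd (nat_lit 234) (nat_lit 912) (nat_lit 0) (XT.nd (nat_lit 78) (nat_lit 0) (nat_lit 76) (XT.lf (nat_lit 0) (nat_lit 51782149241) (nat_lit 1216) (nat_lit 1306997494) (nat_lit 1292) (nat_lit 48841599901) (nat_lit 277) (nat_lit 5) (nat_lit 293) (nat_lit 5) (nat_lit 294) (nat_lit 5) (nat_lit 468) (nat_lit 464) (nat_lit 268)) (XT.nd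 (nat_lit 78) (nat_lit 0) (nat_lit 76) (XT.lf (nat_lit 0) (nat_lit 59203255519) (nat_lit 1216) (nat_lit 18173774476) (nat_lit 1292) (nat_lit 27169838606) (nat_lit 278) (nat_lit 5) (nat_lit 294) (nat_lit 5) (nat_lit 295) (nat_lit 5) (nat_lit 469) (nat_lit 464) (nat_lit 267)) (XT.lf (nat_lit 0) (nat_lit 68273243291) (nat_lit 1216) (nat_lit 35252680677) (nat_lit 1292) (nat_lit 3729538062) (nat_lit 279) (nat_lit 5) (nat_lit 295) (nat_lit 5) (nat_lit 296) (nat_lit 5) (nat_lit 470) (nat_lit 464) (nat_lit 266)))) (XT.nd (nat_lit 156) (nat_lit 1064) (nat_lit 0) (XT.nd (nat_lit 78) (nat_lit 0) (nat_lit 76) (XT.lf (nat_lit 76) (nat_lit 57309070895) (nat_lit 0) (nat_lit 22007834985) (nat_lit 1292) (nat_lit 30736974136) (nat_lit 280) (nat_lit 5) (nat_lit 279) (nat_lit 5) (nat_lit 296) (nat_lit 5) (nat_lit 471) (nat_lit 464) (nat_lit 265)) (XT.lf (nat_lit 76) (nat_lit 42467654890) (nat_lit 0) (nat_lit 49830431619)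 (nat_lit 1292) (nat_lit 20652572483) (nat_lit 281) (nat_lit 5) (nat_lit 280) (nat_lit 5) (nat_lit 297) (nat_lit 5) (nat_lit 472) (nat_lit 464) (nat_lit 264))) (XT.nd (nat_lit 78) (nat_lit 1216) (nat_lit 0) (XT.lf (nat_lit 76) (nat_lit 27531711684) (nat_lit 0) (nat_lit 79775661707) (nat_lit 1292) (nat_lit 8643532242) (nat_lit 282) (nat_lit 5) (nat_lit 281) (nat_lit 5) (nat_lit 298) (nat_lit 5) (nat_lit 473) (nat_lit 464) (nat_lit 263)) (XT.lf (nat_lit 0) (nat_lit 5314307745) (nat_lit 1292) (nat_lit 106592899743) (nat_lit 76) (nat_lit 7150041407) (nat_lit 265) (nat_lit 5) (nat_lit 282) (nat_lit 5) (nat_lit 266) (nat_lit 5) (nat_lit 474) (nat_lit 464) (nat_lit 262))))))))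
noncomputable def xc125 : XT := (XT.nd (nat_lit 62868) (nat_lit 0) (nat_lit 456) (XT.nd (nat_lit 61854) (nat_lit 0) (nat_lit 3116) (XT.nd (nat_lit 468) (nat_lit 1976) (nat_lit 0) (XT.nd (nat_lit 234) (nat_lit 1748) (nat_lit 0) (XT.nd (nat_lit 78) (nat_lit 1368) (nat_lit 0) (XT.lf (nat_lit 0) (nat_lit 21516803378) (nat_lit 1292) (nat_lit 2953762541) (nat_lit 76) (nat_lit 97794010376) (nat_lit 265) (nat_lit 5) (nat_lit 282) (nat_lit 5) (nat_lit 266) (nat_lit 5) (nat_lit 475) (nat_lit 464) (nat_lit 261)) (XT.nd (nat_lit 78) (nat_lit 608) (nat_lit 0) (XT.lf (nat_lit 0) (nat_lit 40224389018) (nat_lit 836) (nat_lit 18284887019) (nat_lit 76) (nat_lit 67072145184) (nat_lit 255) (nat_lit 5) (nat_lit 266) (nat_lit 5) (nat_lit 256) (nat_lit 5) (nat_lit 476) (nat_lit 464) (nat_lit 260)) (XT.lf (nat_lit 0) (nat_lit 61396981303) (nat_lit 684) (nat_lit 33683790608) (nat_lit 76) (nat_lit 33937447766) (nat_lit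 247) (nat_lit 5) (nat_lit 256) (nat_lit 5) (nat_lit 248) (nat_lit 5) (nat_lit 477) (nat_lit 464) (nat_lit 259)))) (XT.nd (nat_lit 78) (nat_lit 1140) (nat_lit 0) (XT.lf (nat_lit 0) (nat_lit 83430760546) (nat_lit 608) (nat_lit 1779593785) (nat_lit 684) (nat_lit 47369039292) (nat_lit 239) (nat_lit 5) (nat_lit 247) (nat_lit 5) (nat_lit 248) (nat_lit 5) (nat_lit 478) (nat_lit 464) (nat_lit 258)) (XT.nd (nat_lit 78) (nat_lit 608) (nat_lit 0) (XT.lf (nat_lit 0) (nat_lit 71258720969) (nat_lit 532) (nat_lit 40914983629) (nat_lit 608) (nat_lit 24086142507) (nat_lit 232) (nat_lit 5) (nat_lit 239) (nat_lit 5) (nat_lit 240) (nat_lit 5) (nat_lit 479) (nat_lit 464) (nat_lit 257)) (XT.lf (nat_lit 0) (nat_lit 2016901748) (nat_lit 608) (nat_lit 80908156465) (nat_lit 76) (nat_lit 57149269709) (nat_lit 224) (nat_lit 5) (nat_lit 232) (nat_lit 5) (nat_lit 225) (nat_lit 5) (nat_lit 480) (nat_lit 464) (nat_lit 256)))))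 (XT.nd (nat_lit 234) (nat_lit 456) (nat_lit 0) (XT.nd (nat_lit 78) (nat_lit 988) (nat_lit 0) (XT.lf (nat_lit 0) (nat_lit 30632403420) (nat_lit 608) (nat_lit 97089233066) (nat_lit 76) (nat_lit 16299578771) (nat_lit 217) (nat_lit 5) (nat_lit 225) (nat_lit 5) (nat_lit 218) (nat_lit 5) (nat_lit 481) (nat_lit 464) (nat_lit 255)) (XT.nd (nat_lit 78) (nat_lit 456) (nat_lit 0) (XT.lf (nat_lit 0) (nat_lit 34542777621) (nat_lit 532) (nat_lit 28145644652) (nat_lit 608) (nat_lit 85416732504) (nat_lit 210) (nat_lit 5) (nat_lit 217) (nat_lit 5) (nat_lit 218) (nat_lit 5) (nat_lit 482) (nat_lit 464) (nat_lit 254)) (XT.lf (nat_lit 0) (nat_lit 22108535162) (nat_lit 456) (nat_lit 76194666186) (nat_lit 532) (nat_lit 54031411223) (nat_lit 204) (nat_lit 5) (nat_lit 210) (nat_lit 5) (nat_lit 211) (nat_lit 5) (nat_lit 483) (nat_lit 464) (nat_lit 253)))) (XT.nd (nat_lit 60996) (nat_lit 0) (nat_lit 5776) (XT.lf (nat_lit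 0) (nat_lit 9822007506) (nat_lit 456) (nat_lit 127704611240) (nat_lit 532) (nat_lit 19194087600) (nat_lit 198) (nat_lit 5) (nat_lit 204) (nat_lit 5) (nat_lit 205) (nat_lit 5) (nat_lit 484) (nat_lit 464) (nat_lit 252)) (XT.nd (nat_lit 78) (nat_lit 0) (nat_lit 76) (XT.lf (nat_lit 0) (nat_lit 19657476671) (nat_lit 1292) (nat_lit 14398656520) (nat_lit 1292) (nat_lit 14398656520) (nat_lit 274) (nat_lit 3) (nat_lit 291) (nat_lit 3) (nat_lit 291) (nat_lit 5) (nat_lit 465) (nat_lit 465) (nat_lit 270)) (XT.lf (nat_lit 0) (nat_lit 40904005727) (nat_lit 1216) (nat_lit 48077388528) (nat_lit 1292) (nat_lit 10332736655) (nat_lit 275) (nat_lit 5) (nat_lit 291) (nat_lit 5) (nat_lit 292) (nat_lit 5) (nat_lit 466) (nat_lit 465) (nat_lit 269)))))) (XT.nd (nat_lit 468) (nat_lit 2736) (nat_lit 0) (XT.nd (nat_lit 234) (nat_lit 0) (nat_lit 228) (XT.nd (nat_lit 78) (nat_lit 0) (nat_lit 76) (XT.lf (nat_lit 76) (nat_lit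 34017246025) (nat_lit 0) (nat_lit 9868383700) (nat_lit 1292) (nat_lit 57913886847) (nat_lit 276) (nat_lit 5) (nat_lit 275) (nat_lit 5) (nat_lit 292) (nat_lit 5) (nat_lit 467) (nat_lit 465) (nat_lit 268)) (XT.nd (nat_lit 78) (nat_lit 0) (nat_lit 76) (XT.lf (nat_lit 76) (nat_lit 16438778439) (nat_lit 0) (nat_lit 31938342875) (nat_lit 1292) (nat_lit 55991226771) (nat_lit 277) (nat_lit 5) (nat_lit 276) (nat_lit 5) (nat_lit 293) (nat_lit 5) (nat_lit 468) (nat_lit 465) (nat_lit 267)) (XT.lf (nat_lit 0) (nat_lit 54391614497) (nat_lit 1216) (nat_lit 1359118813) (nat_lit 1292) (nat_lit 51275935207) (nat_lit 277) (nat_lit 5) (nat_lit 293) (nat_lit 5) (nat_lit 294) (nat_lit 5) (nat_lit 469) (nat_lit 465) (nat_lit 266)))) (XT.nd (nat_lit 78) (nat_lit 0) (nat_lit 76) (XT.lf (nat_lit 0) (nat_lit 62182866141) (nat_lit 1216) (nat_lit 19068959944) (nat_lit 1292) (nat_lit 28521798018) (nat_lit 278) (nat_lit 5)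 (nat_lit 294) (nat_lit 5) (nat_lit 295) (nat_lit 5) (nat_lit 470) (nat_lit 465) (nat_lit 265)) (XT.nd (nat_lit 78) (nat_lit 0) (nat_lit 0) (XT.lf (nat_lit 0) (nat_lit 71705500121) (nat_lit 1216) (nat_lit 37001581636) (nat_lit 1292) (nat_lit 3910591257) (nat_lit 279) (nat_lit 5) (nat_lit 295) (nat_lit 5) (nat_lit 296) (nat_lit 5) (nat_lit 471) (nat_lit 465) (nat_lit 264)) (XT.lf (nat_lit 76) (nat_lit 60187863859) (nat_lit 0) (nat_lit 23112724747) (nat_lit 1292) (nat_lit 32255446213) (nat_lit 280) (nat_lit 5) (nat_lit 279) (nat_lit 5) (nat_lit 296) (nat_lit 5) (nat_lit 472) (nat_lit 465) (nat_lit 263))))) (XT.nd (nat_lit 234) (nat_lit 1976) (nat_lit 0) (XT.nd (nat_lit 78) (nat_lit 1140) (nat_lit 0) (XT.lf (nat_lit 76) (nat_lit 44604560423) (nat_lit 0) (nat_lit 52325507253) (nat_lit 1292) (nat_lit 21667608080) (nat_lit 281) (nat_lit 5) (nat_lit 280) (nat_lit 5) (nat_lit 297) (nat_lit 5) (nat_lit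 473) (nat_lit 465) (nat_lit 262)) (XT.nd (nat_lit 78) (nat_lit 1216) (nat_lit 0) (XT.lf (nat_lit 76) (nat_lit 28921967003) (nat_lit 0) (nat_lit 83767137581) (nat_lit 1292) (nat_lit 9058851759) (nat_lit 282) (nat_lit 5) (nat_lit 281) (nat_lit 5) (nat_lit 298) (nat_lit 5) (nat_lit 474) (nat_lit 465) (nat_lit 261)) (XT.lf (nat_lit 0) (nat_lit 5595873140) (nat_lit 1292) (nat_lit 111908442434) (nat_lit 76) (nat_lit 7505316848) (nat_lit 265) (nat_lit 5) (nat_lit 282) (nat_lit 5) (nat_lit 266) (nat_lit 5) (nat_lit 475) (nat_lit 465) (nat_lit 260)))) (XT.nd (nat_lit 156) (nat_lit 1216) (nat_lit 0) (XT.nd (nat_lit 78) (nat_lit 760) (nat_lit 0) (XT.lf (nat_lit 0) (nat_lit 22607738793) (nat_lit 1292) (nat_lit 3088019909) (nat_lit 76) (nat_lit 102681590296) (nat_lit 265) (nat_lit 5) (nat_lit 282) (nat_lit 5) (nat_lit 266) (nat_lit 5) (nat_lit 476) (nat_lit 465) (nat_lit 259)) (XT.lf (nat_lit 0) (nat_lit 42250096301)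 (nat_lit 836) (nat_lit 19185633449) (nat_lit 76) (nat_lit 70424324796) (nat_lit 255) (nat_lit 5) (nat_lit 266) (nat_lit 5) (nat_lit 256) (nat_lit 5) (nat_lit 477) (nat_lit 465) (nat_lit 258))) (XT.nd (nat_lit 78) (nat_lit 608) (nat_lit 0) (XT.lf (nat_lit 0) (nat_lit 64480746520) (nat_lit 684) (nat_lit 35354440647) (nat_lit 76) (nat_lit 35633523057) (nat_lit 247) (nat_lit 5) (nat_lit 256) (nat_lit 5) (nat_lit 248) (nat_lit 5) (nat_lit 478) (nat_lit 465) (nat_lit 257)) (XT.lf (nat_lit 0) (nat_lit 87615449958) (nat_lit 608) (nat_lit 1868801986) (nat_lit 684) (nat_lit 49723707151) (nat_lit 239) (nat_lit 5) (nat_lit 247) (nat_lit 5) (nat_lit 248) (nat_lit 5) (nat_lit 479) (nat_lit 465) (nat_lit 256))))))) (XT.nd (nat_lit 62010) (nat_lit 0) (nat_lit 456) (XT.nd (nat_lit 61464) (nat_lit 0) (nat_lit 5396) (XT.nd (nat_lit 234) (nat_lit 988) (nat_lit 0) (XT.nd (nat_lit 78) (nat_lit 1140) (nat_lit 0) (XT.lf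 (nat_lit 0) (nat_lit 74834826176) (nat_lit 532) (nat_lit 42960430909) (nat_lit 608) (nat_lit 25277193680) (nat_lit 232) (nat_lit 5) (nat_lit 239) (nat_lit 5) (nat_lit 240) (nat_lit 5) (nat_lit 480) (nat_lit 465) (nat_lit 255)) (XT.nd (nat_lit 78) (nat_lit 532) (nat_lit 0) (XT.lf (nat_lit 0) (nat_lit 2130255806) (nat_lit 608) (nat_lit 84940146457) (nat_lit 76) (nat_lit 60007264309) (nat_lit 224) (nat_lit 5) (nat_lit 232) (nat_lit 5) (nat_lit 225) (nat_lit 5) (nat_lit 481) (nat_lit 465) (nat_lit 254)) (XT.lf (nat_lit 0) (nat_lit 32176071741) (nat_lit 608) (nat_lit 101930307553) (nat_lit 76) (nat_lit 17115532924) (nat_lit 217) (nat_lit 5) (nat_lit 225) (nat_lit 5) (nat_lit 218) (nat_lit 5) (nat_lit 482) (nat_lit 465) (nat_lit 253)))) (XT.nd (nat_lit 78) (nat_lit 456) (nat_lit 0) (XT.lf (nat_lit 0) (nat_lit 36282919928) (nat_lit 532) (nat_lit 29551522884) (nat_lit 608) (nat_lit 89675619475) (nat_lit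 210) (nat_lit 5) (nat_lit 217) (nat_lit 5) (nat_lit 218) (nat_lit 5) (nat_lit 483) (nat_lit 465) (nat_lit 252)) (XT.nd (nat_lit 61074) (nat_lit 0) (nat_lit 5320) (XT.lf (nat_lit 0) (nat_lit 23226919686) (nat_lit 456) (nat_lit 80002626212) (nat_lit 532) (nat_lit 56721459628) (nat_lit 204) (nat_lit 5) (nat_lit 210) (nat_lit 5) (nat_lit 211) (nat_lit 5) (nat_lit 484) (nat_lit 465) (nat_lit 251)) (XT.lf (nat_lit 0) (nat_lit 20651528532) (nat_lit 1292) (nat_lit 15112831362) (nat_lit 1292) (nat_lit 15112831362) (nat_lit 274) (nat_lit 3) (nat_lit 291) (nat_lit 3) (nat_lit 291) (nat_lit 5) (nat_lit 466) (nat_lit 466) (nat_lit 268))))) (XT.nd (nat_lit 234) (nat_lit 0) (nat_lit 152) (XT.nd (nat_lit 78) (nat_lit 0) (nat_lit 0) (XT.lf (nat_lit 0) (nat_lit 42970506844) (nat_lit 1216) (nat_lit 50469326990) (nat_lit 1292) (nat_lit 10839359643) (nat_lit 275) (nat_lit 5) (nat_lit 291) (nat_lit 5) (nat_lit 292)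 (nat_lit 5) (nat_lit 467) (nat_lit 466) (nat_lit 267)) (XT.nd (nat_lit 78) (nat_lit 0) (nat_lit 76) (XT.lf (nat_lit 76) (nat_lit 35729697292) (nat_lit 0) (nat_lit 10370611825) (nat_lit 1292) (nat_lit 60788566629) (nat_lit 276) (nat_lit 5) (nat_lit 275) (nat_lit 5) (nat_lit 292) (nat_lit 5) (nat_lit 468) (nat_lit 466) (nat_lit 266)) (XT.lf (nat_lit 76) (nat_lit 17272655359) (nat_lit 0) (nat_lit 33542782708) (nat_lit 1292) (nat_lit 58770739109) (nat_lit 277) (nat_lit 5) (nat_lit 276) (nat_lit 5) (nat_lit 293) (nat_lit 5) (nat_lit 469) (nat_lit 466) (nat_lit 265)))) (XT.nd (nat_lit 156) (nat_lit 0) (nat_lit 152) (XT.nd (nat_lit 78) (nat_lit 0) (nat_lit 76) (XT.lf (nat_lit 0) (nat_lit 57129660340) (nat_lit 1216) (nat_lit 1415076064) (nat_lit 1292) (nat_lit 53832707306) (nat_lit 277) (nat_lit 5) (nat_lit 293) (nat_lit 5) (nat_lit 294) (nat_lit 5) (nat_lit 470) (nat_lit 466) (nat_lit 264)) (XT.lf (nat_lit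 0) (nat_lit 65309649218) (nat_lit 1216) (nat_lit 20010160090) (nat_lit 1292) (nat_lit 29941962731) (nat_lit 278) (nat_lit 5) (nat_lit 294) (nat_lit 5) (nat_lit 295) (nat_lit 5) (nat_lit 471) (nat_lit 466) (nat_lit 263))) (XT.nd (nat_lit 78) (nat_lit 0) (nat_lit 0) (XT.lf (nat_lit 0) (nat_lit 75307641037) (nat_lit 1216) (nat_lit 38839204413) (nat_lit 1292) (nat_lit 4101201355) (nat_lit 279) (nat_lit 5) (nat_lit 295) (nat_lit 5) (nat_lit 296) (nat_lit 5) (nat_lit 472) (nat_lit 466) (nat_lit 262)) (XT.lf (nat_lit 76) (nat_lit 63209356299) (nat_lit 0) (nat_lit 24272440814) (nat_lit 1292) (nat_lit 33851550378) (nat_lit 280) (nat_lit 5) (nat_lit 279) (nat_lit 5) (nat_lit 296) (nat_lit 5) (nat_lit 473) (nat_lit 466) (nat_lit 261)))))) (XT.nd (nat_lit 468) (nat_lit 2812) (nat_lit 0) (XT.nd (nat_lit 234) (nat_lit 1368) (nat_lit 0) (XT.nd (nat_lit 78) (nat_lit 1140) (nat_lit 0) (XT.lf (nat_lit 76) (nat_lit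 46847054012) (nat_lit 0) (nat_lit 54945006246) (nat_lit 1292) (nat_lit 22735031090) (nat_lit 281) (nat_lit 5) (nat_lit 280) (nat_lit 5) (nat_lit 297) (nat_lit 5) (nat_lit 474) (nat_lit 466) (nat_lit 260)) (XT.nd (nat_lit 78) (nat_lit 1216) (nat_lit 0) (XT.lf (nat_lit 76) (nat_lit 30380464206) (nat_lit 0) (nat_lit 87957936898) (nat_lit 1292) (nat_lit 9496504464) (nat_lit 282) (nat_lit 5) (nat_lit 281) (nat_lit 5) (nat_lit 298) (nat_lit 5) (nat_lit 475) (nat_lit 466) (nat_lit 259)) (XT.lf (nat_lit 0) (nat_lit 5890043222) (nat_lit 1292) (nat_lit 117491073357) (nat_lit 76) (nat_lit 7878563071) (nat_lit 265) (nat_lit 5) (nat_lit 282) (nat_lit 5) (nat_lit 266) (nat_lit 5) (nat_lit 476) (nat_lit 466) (nat_lit 258)))) (XT.nd (nat_lit 78) (nat_lit 1368) (nat_lit 0) (XT.lf (nat_lit 0) (nat_lit 23751817565) (nat_lit 1292) (nat_lit 3230238811) (nat_lit 76) (nat_lit 107813746364) (nat_lit 265) (nat_lit 5)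 (nat_lit 282) (nat_lit 5) (nat_lit 266) (nat_lit 5) (nat_lit 477) (nat_lit 466) (nat_lit 257)) (XT.nd (nat_lit 78) (nat_lit 608) (nat_lit 0) (XT.lf (nat_lit 0) (nat_lit 44375742007) (nat_lit 836) (nat_lit 20132672111) (nat_lit 76) (nat_lit 73944246118) (nat_lit 255) (nat_lit 5) (nat_lit 266) (nat_lit 5) (nat_lit 256) (nat_lit 5) (nat_lit 478) (nat_lit 466) (nat_lit 256)) (XT.lf (nat_lit 0) (nat_lit 67717406206) (nat_lit 684) (nat_lit 37109881962) (nat_lit 76) (nat_lit 37414476219) (nat_lit 247) (nat_lit 5) (nat_lit 256) (nat_lit 5) (nat_lit 248) (nat_lit 5) (nat_lit 479) (nat_lit 466) (nat_lit 255))))) (XT.nd (nat_lit 234) (nat_lit 1064) (nat_lit 0) (XT.nd (nat_lit 78) (nat_lit 1140) (nat_lit 0) (XT.lf (nat_lit 0) (nat_lit 92008151149) (nat_lit 608) (nat_lit 1962449353) (nat_lit 684) (nat_lit 52197389919) (nat_lit 239) (nat_lit 5) (nat_lit 247) (nat_lit 5) (nat_lit 248) (nat_lit 5) (nat_lit 480)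 (nat_lit 466) (nat_lit 254)) (XT.nd (nat_lit 78) (nat_lit 608) (nat_lit 0) (XT.lf (nat_lit 0) (nat_lit 78588512299) (nat_lit 532) (nat_lit 45108178621) (nat_lit 608) (nat_lit 26529029825) (nat_lit 232) (nat_lit 5) (nat_lit 239) (nat_lit 5) (nat_lit 240) (nat_lit 5) (nat_lit 481) (nat_lit 466) (nat_lit 253)) (XT.lf (nat_lit 0) (nat_lit 2248114602) (nat_lit 608) (nat_lit 89174983412) (nat_lit 76) (nat_lit 63008109262) (nat_lit 224) (nat_lit 5) (nat_lit 232) (nat_lit 5) (nat_lit 225) (nat_lit 5) (nat_lit 482) (nat_lit 466) (nat_lit 252)))) (XT.nd (nat_lit 61230) (nat_lit 0) (nat_lit 4864) (XT.nd (nat_lit 78) (nat_lit 532) (nat_lit 0) (XT.lf (nat_lit 0) (nat_lit 33795803354) (nat_lit 608) (nat_lit 107014680376) (nat_lit 76) (nat_lit 17972194119) (nat_lit 217) (nat_lit 5) (nat_lit 225) (nat_lit 5) (nat_lit 218) (nat_lit 5) (nat_lit 483) (nat_lit 466) (nat_lit 251)) (XT.lf (nat_lit 0) (nat_lit 38108860415)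 (nat_lit 532) (nat_lit 31027825558) (nat_lit 608) (nat_lit 94148561761) (nat_lit 210) (nat_lit 5) (nat_lit 217) (nat_lit 5) (nat_lit 218) (nat_lit 5) (nat_lit 484) (nat_lit 466) (nat_lit 250))) (XT.nd (nat_lit 78) (nat_lit 0) (nat_lit 76) (XT.lf (nat_lit 0) (nat_lit 21694243759) (nat_lit 1292) (nat_lit 15863250268) (nat_lit 1292) (nat_lit 15863250268) (nat_lit 274) (nat_lit 3) (nat_lit 291) (nat_lit 3) (nat_lit 291) (nat_lit 5) (nat_lit 467) (nat_lit 467) (nat_lit 266)) (XT.lf (nat_lit 0) (nat_lit 45138352668) (nat_lit 1216) (nat_lit 52981971604) (nat_lit 1292) (nat_lit 11372244773) (nat_lit 275) (nat_lit 5) (nat_lit 291) (nat_lit 5) (nat_lit 292) (nat_lit 5) (nat_lit 468) (nat_lit 467) (nat_lit 265))))))))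
noncomputable def xc126 : XT := (XT.nd (nat_lit 63180) (nat_lit 0) (nat_lit 608) (XT.nd (nat_lit 936) (nat_lit 1748) (nat_lit 0) (XT.nd (nat_lit 468) (nat_lit 2128) (nat_lit 0) (XT.nd (nat_lit 234) (nat_lit 0) (nat_lit 228) (XT.nd (nat_lit 78) (nat_lit 0) (nat_lit 76) (XT.lf (nat_lit 76) (nat_lit 37526693690) (nat_lit 0) (nat_lit 10897132384) (nat_lit 1292) (nat_lit 63808934135) (nat_lit 276) (nat_lit 5) (nat_lit 275) (nat_lit 5) (nat_lit 292) (nat_lit 5) (nat_lit 469) (nat_lit 467) (nat_lit 264)) (XT.nd (nat_lit 78) (nat_lit 0) (nat_lit 76) (XT.lf (nat_lit 76) (nat_lit 18147116243) (nat_lit 0) (nat_lit 35226745144) (nat_lit 1292) (nat_lit 61691091029) (nat_lit 277) (nat_lit 5) (nat_lit 276) (nat_lit 5) (nat_lit 293) (nat_lit 5) (nat_lit 470) (nat_lit 467) (nat_lit 263)) (XT.lf (nat_lit 0) (nat_lit 60002891764) (nat_lit 1216) (nat_lit 1474946701) (nat_lit 1292) (nat_lit 56517971097) (nat_lit 277)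 (nat_lit 5) (nat_lit 293) (nat_lit 5) (nat_lit 294) (nat_lit 5) (nat_lit 471) (nat_lit 467) (nat_lit 262)))) (XT.nd (nat_lit 78) (nat_lit 0) (nat_lit 76) (XT.lf (nat_lit 0) (nat_lit 68591131470) (nat_lit 1216) (nat_lit 20999558933) (nat_lit 1292) (nat_lit 31433686549) (nat_lit 278) (nat_lit 5) (nat_lit 294) (nat_lit 5) (nat_lit 295) (nat_lit 5) (nat_lit 472) (nat_lit 467) (nat_lit 261)) (XT.nd (nat_lit 78) (nat_lit 0) (nat_lit 0) (XT.lf (nat_lit 0) (nat_lit 79088320966) (nat_lit 1216) (nat_lit 40769866399) (nat_lit 1292) (nat_lit 4301799324) (nat_lit 279) (nat_lit 5) (nat_lit 295) (nat_lit 5) (nat_lit 296) (nat_lit 5) (nat_lit 473) (nat_lit 467) (nat_lit 260)) (XT.lf (nat_lit 76) (nat_lit 66380798487) (nat_lit 0) (nat_lit 25489763381) (nat_lit 1292) (nat_lit 35529009398) (nat_lit 280) (nat_lit 5) (nat_lit 279) (nat_lit 5) (nat_lit 296) (nat_lit 5) (nat_lit 474) (nat_lit 467) (nat_lit 259)))))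 (XT.nd (nat_lit 234) (nat_lit 1368) (nat_lit 0) (XT.nd (nat_lit 78) (nat_lit 1140) (nat_lit 0) (XT.lf (nat_lit 76) (nat_lit 49200531943) (nat_lit 0) (nat_lit 57695180486) (nat_lit 1292) (nat_lit 23857308817) (nat_lit 281) (nat_lit 5) (nat_lit 280) (nat_lit 5) (nat_lit 297) (nat_lit 5) (nat_lit 475) (nat_lit 467) (nat_lit 258)) (XT.nd (nat_lit 78) (nat_lit 1216) (nat_lit 0) (XT.lf (nat_lit 76) (nat_lit 31910733541) (nat_lit 0) (nat_lit 92358049107) (nat_lit 1292) (nat_lit 9957461314) (nat_lit 282) (nat_lit 5) (nat_lit 281) (nat_lit 5) (nat_lit 298) (nat_lit 5) (nat_lit 476) (nat_lit 467) (nat_lit 257)) (XT.lf (nat_lit 0) (nat_lit 6197585223) (nat_lit 1292) (nat_lit 123354025030) (nat_lit 76) (nat_lit 8270659371) (nat_lit 265) (nat_lit 5) (nat_lit 282) (nat_lit 5) (nat_lit 266) (nat_lit 5) (nat_lit 477) (nat_lit 467) (nat_lit 256)))) (XT.nd (nat_lit 78) (nat_lit 1368) (nat_lit 0) (XT.lf (nat_lit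 0) (nat_lit 24951827339) (nat_lit 1292) (nat_lit 3380701233) (nat_lit 76) (nat_lit 113202689060) (nat_lit 265) (nat_lit 5) (nat_lit 282) (nat_lit 5) (nat_lit 266) (nat_lit 5) (nat_lit 478) (nat_lit 467) (nat_lit 255)) (XT.nd (nat_lit 78) (nat_lit 608) (nat_lit 0) (XT.lf (nat_lit 0) (nat_lit 46606448282) (nat_lit 836) (nat_lit 21128200944) (nat_lit 76) (nat_lit 77640283896) (nat_lit 255) (nat_lit 5) (nat_lit 266) (nat_lit 5) (nat_lit 256) (nat_lit 5) (nat_lit 479) (nat_lit 467) (nat_lit 254)) (XT.lf (nat_lit 0) (nat_lit 71114725368) (nat_lit 684) (nat_lit 38954237087) (nat_lit 76) (nat_lit 39284544256) (nat_lit 247) (nat_lit 5) (nat_lit 256) (nat_lit 5) (nat_lit 248) (nat_lit 5) (nat_lit 480) (nat_lit 467) (nat_lit 253)))))) (XT.nd (nat_lit 61698) (nat_lit 0) (nat_lit 3952) (XT.nd (nat_lit 61464) (nat_lit 0) (nat_lit 3800) (XT.nd (nat_lit 78) (nat_lit 1140) (nat_lit 0) (XT.lf (nat_lit 0) (nat_lit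 96619378383) (nat_lit 608) (nat_lit 2060759819) (nat_lit 684) (nat_lit 54795919197) (nat_lit 239) (nat_lit 5) (nat_lit 247) (nat_lit 5) (nat_lit 248) (nat_lit 5) (nat_lit 481) (nat_lit 467) (nat_lit 252)) (XT.nd (nat_lit 78) (nat_lit 608) (nat_lit 0) (XT.lf (nat_lit 0) (nat_lit 82528772213) (nat_lit 532) (nat_lit 47363339177) (nat_lit 608) (nat_lit 27844575611) (nat_lit 232) (nat_lit 5) (nat_lit 239) (nat_lit 5) (nat_lit 240) (nat_lit 5) (nat_lit 482) (nat_lit 467) (nat_lit 251)) (XT.lf (nat_lit 0) (nat_lit 2370811493) (nat_lit 608) (nat_lit 93622693700) (nat_lit 76) (nat_lit 66158951675) (nat_lit 224) (nat_lit 5) (nat_lit 232) (nat_lit 5) (nat_lit 225) (nat_lit 5) (nat_lit 483) (nat_lit 467) (nat_lit 250)))) (XT.nd (nat_lit 78) (nat_lit 0) (nat_lit 76) (XT.lf (nat_lit 0) (nat_lit 22788152137) (nat_lit 1292) (nat_lit 16651675674) (nat_lit 1292) (nat_lit 16651675674) (nat_lit 274) (nat_lit 3) (nat_lit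 291) (nat_lit 3) (nat_lit 291) (nat_lit 5) (nat_lit 468) (nat_lit 468) (nat_lit 264)) (XT.nd (nat_lit 78) (nat_lit 0) (nat_lit 0) (XT.lf (nat_lit 0) (nat_lit 47412794547) (nat_lit 1216) (nat_lit 55621254550) (nat_lit 1292) (nat_lit 11932618597) (nat_lit 275) (nat_lit 5) (nat_lit 291) (nat_lit 5) (nat_lit 292) (nat_lit 5) (nat_lit 469) (nat_lit 468) (nat_lit 263)) (XT.lf (nat_lit 76) (nat_lit 39412562645) (nat_lit 0) (nat_lit 11449236140) (nat_lit 1292) (nat_lit 66982092111) (nat_lit 276) (nat_lit 5) (nat_lit 275) (nat_lit 5) (nat_lit 292) (nat_lit 5) (nat_lit 470) (nat_lit 468) (nat_lit 262))))) (XT.nd (nat_lit 234) (nat_lit 0) (nat_lit 228) (XT.nd (nat_lit 78) (nat_lit 0) (nat_lit 76) (XT.lf (nat_lit 76) (nat_lit 19064293476) (nat_lit 0) (nat_lit 36994271336) (nat_lit 1292) (nat_lit 64759151218) (nat_lit 277) (nat_lit 5) (nat_lit 276) (nat_lit 5) (nat_lit 293) (nat_lit 5) (nat_lit 471) (nat_lit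 468) (nat_lit 261)) (XT.nd (nat_lit 78) (nat_lit 0) (nat_lit 76) (XT.lf (nat_lit 0) (nat_lit 63018227651) (nat_lit 1216) (nat_lit 1538822685) (nat_lit 1292) (nat_lit 59338090446) (nat_lit 277) (nat_lit 5) (nat_lit 293) (nat_lit 5) (nat_lit 294) (nat_lit 5) (nat_lit 472) (nat_lit 468) (nat_lit 260)) (XT.lf (nat_lit 0) (nat_lit 72035200325) (nat_lit 1216) (nat_lit 22039460542) (nat_lit 1292) (nat_lit 33000496210) (nat_lit 278) (nat_lit 5) (nat_lit 294) (nat_lit 5) (nat_lit 295) (nat_lit 5) (nat_lit 473) (nat_lit 468) (nat_lit 259)))) (XT.nd (nat_lit 156) (nat_lit 0) (nat_lit 76) (XT.nd (nat_lit 78) (nat_lit 0) (nat_lit 0) (XT.lf (nat_lit 0) (nat_lit 83056612640) (nat_lit 1216) (nat_lit 42798111886) (nat_lit 1292) (nat_lit 4512842036) (nat_lit 279) (nat_lit 5) (nat_lit 295) (nat_lit 5) (nat_lit 296) (nat_lit 5) (nat_lit 474) (nat_lit 468) (nat_lit 258)) (XT.lf (nat_lit 76) (nat_lit 69709792492) (nat_lit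 0) (nat_lit 26767608036) (nat_lit 1292) (nat_lit 37291746944) (nat_lit 280) (nat_lit 5) (nat_lit 279) (nat_lit 5) (nat_lit 296) (nat_lit 5) (nat_lit 475) (nat_lit 468) (nat_lit 257))) (XT.nd (nat_lit 78) (nat_lit 0) (nat_lit 76) (XT.lf (nat_lit 76) (nat_lit 51670649453) (nat_lit 0) (nat_lit 60582591599) (nat_lit 1292) (nat_lit 25037046070) (nat_lit 281) (nat_lit 5) (nat_lit 280) (nat_lit 5) (nat_lit 297) (nat_lit 5) (nat_lit 476) (nat_lit 468) (nat_lit 256)) (XT.lf (nat_lit 76) (nat_lit 33516470784) (nat_lit 0) (nat_lit 96977960962) (nat_lit 1292) (nat_lit 10442755356) (nat_lit 282) (nat_lit 5) (nat_lit 281) (nat_lit 5) (nat_lit 298) (nat_lit 5) (nat_lit 477) (nat_lit 468) (nat_lit 255))))))) (XT.nd (nat_lit 62322) (nat_lit 0) (nat_lit 1140) (XT.nd (nat_lit 61776) (nat_lit 0) (nat_lit 3192) (XT.nd (nat_lit 234) (nat_lit 1748) (nat_lit 0) (XT.nd (nat_lit 78) (nat_lit 760) (nat_lit 0) (XT.lf (nat_lit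 0) (nat_lit 6519292005) (nat_lit 1292) (nat_lit 129511202931) (nat_lit 76) (nat_lit 8682530795) (nat_lit 265) (nat_lit 5) (nat_lit 282) (nat_lit 5) (nat_lit 266) (nat_lit 5) (nat_lit 478) (nat_lit 468) (nat_lit 254)) (XT.nd (nat_lit 78) (nat_lit 760) (nat_lit 0) (XT.lf (nat_lit 0) (nat_lit 26210683011) (nat_lit 1292) (nat_lit 3539714056) (nat_lit 76) (nat_lit 118861241089) (nat_lit 265) (nat_lit 5) (nat_lit 282) (nat_lit 5) (nat_lit 266) (nat_lit 5) (nat_lit 479) (nat_lit 468) (nat_lit 253)) (XT.lf (nat_lit 0) (nat_lit 48947581739) (nat_lit 836) (nat_lit 22174538635) (nat_lit 76) (nat_lit 81521232759) (nat_lit 255) (nat_lit 5) (nat_lit 266) (nat_lit 5) (nat_lit 256) (nat_lit 5) (nat_lit 480) (nat_lit 468) (nat_lit 252)))) (XT.nd (nat_lit 78) (nat_lit 1140) (nat_lit 0) (XT.lf (nat_lit 0) (nat_lit 74680846083) (nat_lit 684) (nat_lit 40891845565) (nat_lit 76) (nat_lit 41248176663) (nat_lit 247) (nat_lit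 5) (nat_lit 256) (nat_lit 5) (nat_lit 248) (nat_lit 5) (nat_lit 481) (nat_lit 468) (nat_lit 251)) (XT.nd (nat_lit 78) (nat_lit 532) (nat_lit 0) (XT.lf (nat_lit 0) (nat_lit 101460161067) (nat_lit 608) (nat_lit 2163968329) (nat_lit 684) (nat_lit 57525429246) (nat_lit 239) (nat_lit 5) (nat_lit 247) (nat_lit 5) (nat_lit 248) (nat_lit 5) (nat_lit 482) (nat_lit 468) (nat_lit 250)) (XT.lf (nat_lit 0) (nat_lit 86665037853) (nat_lit 532) (nat_lit 49731280852) (nat_lit 608) (nat_lit 29226912596) (nat_lit 232) (nat_lit 5) (nat_lit 239) (nat_lit 5) (nat_lit 240) (nat_lit 5) (nat_lit 483) (nat_lit 468) (nat_lit 249))))) (XT.nd (nat_lit 234) (nat_lit 0) (nat_lit 152) (XT.nd (nat_lit 78) (nat_lit 0) (nat_lit 76) (XT.lf (nat_lit 0) (nat_lit 23935900960) (nat_lit 1292) (nat_lit 17479962761) (nat_lit 1292) (nat_lit 17479962761) (nat_lit 274) (nat_lit 3) (nat_lit 291) (nat_lit 3) (nat_lit 291) (nat_lit 5) (nat_lit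 469) (nat_lit 469) (nat_lit 262)) (XT.nd (nat_lit 78) (nat_lit 0) (nat_lit 0) (XT.lf (nat_lit 0) (nat_lit 49799329282) (nat_lit 1216) (nat_lit 58393414209) (nat_lit 1292) (nat_lit 12521777042) (nat_lit 275) (nat_lit 5) (nat_lit 291) (nat_lit 5) (nat_lit 292) (nat_lit 5) (nat_lit 470) (nat_lit 469) (nat_lit 261)) (XT.lf (nat_lit 76) (nat_lit 41391838641) (nat_lit 0) (nat_lit 12028271314) (nat_lit 1292) (nat_lit 70315515328) (nat_lit 276) (nat_lit 5) (nat_lit 275) (nat_lit 5) (nat_lit 292) (nat_lit 5) (nat_lit 471) (nat_lit 469) (nat_lit 260)))) (XT.nd (nat_lit 156) (nat_lit 0) (nat_lit 152) (XT.nd (nat_lit 78) (nat_lit 0) (nat_lit 76) (XT.lf (nat_lit 76) (nat_lit 20026416468) (nat_lit 0) (nat_lit 38849598450) (nat_lit 1292) (nat_lit 67982147906) (nat_lit 277) (nat_lit 5) (nat_lit 276) (nat_lit 5) (nat_lit 293) (nat_lit 5) (nat_lit 472) (nat_lit 469) (nat_lit 259)) (XT.lf (nat_lit 0) (nat_lit 66182917989)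 (nat_lit 1216) (nat_lit 1606810212) (nat_lit 1292) (nat_lit 62299753057) (nat_lit 277) (nat_lit 5) (nat_lit 293) (nat_lit 5) (nat_lit 294) (nat_lit 5) (nat_lit 473) (nat_lit 469) (nat_lit 258))) (XT.nd (nat_lit 78) (nat_lit 0) (nat_lit 76) (XT.lf (nat_lit 0) (nat_lit 75650123410) (nat_lit 1216) (nat_lit 23132294034) (nat_lit 1292) (nat_lit 34646099555) (nat_lit 278) (nat_lit 5) (nat_lit 294) (nat_lit 5) (nat_lit 295) (nat_lit 5) (nat_lit 474) (nat_lit 469) (nat_lit 257)) (XT.lf (nat_lit 0) (nat_lit 87222028874) (nat_lit 1216) (nat_lit 44928722395) (nat_lit 1292) (nat_lit 4734813158) (nat_lit 279) (nat_lit 5) (nat_lit 295) (nat_lit 5) (nat_lit 296) (nat_lit 5) (nat_lit 475) (nat_lit 469) (nat_lit 256)))))) (XT.nd (nat_lit 468) (nat_lit 608) (nat_lit 0) (XT.nd (nat_lit 234) (nat_lit 1824) (nat_lit 0) (XT.nd (nat_lit 78) (nat_lit 0) (nat_lit 76) (XT.lf (nat_lit 76) (nat_lit 73204310761) (nat_lit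 0) (nat_lit 28109032869) (nat_lit 1292) (nat_lit 39143896265) (nat_lit 280) (nat_lit 5) (nat_lit 279) (nat_lit 5) (nat_lit 296) (nat_lit 5) (nat_lit 476) (nat_lit 469) (nat_lit 255)) (XT.nd (nat_lit 78) (nat_lit 0) (nat_lit 76) (XT.lf (nat_lit 76) (nat_lit 54263334682) (nat_lit 0) (nat_lit 63614126702) (nat_lit 1292) (nat_lit 26276990720) (nat_lit 281) (nat_lit 5) (nat_lit 280) (nat_lit 5) (nat_lit 297) (nat_lit 5) (nat_lit 477) (nat_lit 469) (nat_lit 254)) (XT.lf (nat_lit 76) (nat_lit 35201546538) (nat_lit 0) (nat_lit 101828681596) (nat_lit 1292) (nat_lit 10953483578) (nat_lit 282) (nat_lit 5) (nat_lit 281) (nat_lit 5) (nat_lit 298) (nat_lit 5) (nat_lit 478) (nat_lit 469) (nat_lit 253)))) (XT.nd (nat_lit 78) (nat_lit 760) (nat_lit 0) (XT.lf (nat_lit 0) (nat_lit 6855984514) (nat_lit 1292) (nat_lit 135977218088) (nat_lit 76) (nat_lit 9115150264) (nat_lit 265) (nat_lit 5) (nat_lit 282) (nat_lit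 5) (nat_lit 266) (nat_lit 5) (nat_lit 479) (nat_lit 469) (nat_lit 252)) (XT.nd (nat_lit 78) (nat_lit 760) (nat_lit 0) (XT.lf (nat_lit 0) (nat_lit 27531434218) (nat_lit 1292) (nat_lit 3707609293) (nat_lit 76) (nat_lit 124802867838) (nat_lit 265) (nat_lit 5) (nat_lit 282) (nat_lit 5) (nat_lit 266) (nat_lit 5) (nat_lit 480) (nat_lit 469) (nat_lit 251)) (XT.lf (nat_lit 0) (nat_lit 51404766761) (nat_lit 836) (nat_lit 23274129644) (nat_lit 76) (nat_lit 85596328109) (nat_lit 255) (nat_lit 5) (nat_lit 266) (nat_lit 5) (nat_lit 256) (nat_lit 5) (nat_lit 481) (nat_lit 469) (nat_lit 250))))) (XT.nd (nat_lit 61698) (nat_lit 0) (nat_lit 2128) (XT.nd (nat_lit 61542) (nat_lit 0) (nat_lit 2052) (XT.lf (nat_lit 0) (nat_lit 78424307386) (nat_lit 684) (nat_lit 42927273783) (nat_lit 76) (nat_lit 43310045989) (nat_lit 247) (nat_lit 5) (nat_lit 256) (nat_lit 5) (nat_lit 248) (nat_lit 5) (nat_lit 482) (nat_lit 469)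 (nat_lit 249)) (XT.nd (nat_lit 78) (nat_lit 0) (nat_lit 76) (XT.lf (nat_lit 0) (nat_lit 25140261737) (nat_lit 1292) (nat_lit 18350063669) (nat_lit 1292) (nat_lit 18350063669) (nat_lit 274) (nat_lit 3) (nat_lit 291) (nat_lit 3) (nat_lit 291) (nat_lit 5) (nat_lit 470) (nat_lit 470) (nat_lit 260)) (XT.lf (nat_lit 0) (nat_lit 52303712986) (nat_lit 1216) (nat_lit 61305009573) (nat_lit 1292) (nat_lit 13141088130) (nat_lit 275) (nat_lit 5) (nat_lit 291) (nat_lit 5) (nat_lit 292) (nat_lit 5) (nat_lit 471) (nat_lit 470) (nat_lit 259)))) (XT.nd (nat_lit 156) (nat_lit 0) (nat_lit 152) (XT.nd (nat_lit 78) (nat_lit 0) (nat_lit 76) (XT.lf (nat_lit 76) (nat_lit 43469274441) (nat_lit 0) (nat_lit 12635647117) (nat_lit 1292) (nat_lit 73817067613) (nat_lit 276) (nat_lit 5) (nat_lit 275) (nat_lit 5) (nat_lit 292) (nat_lit 5) (nat_lit 472) (nat_lit 470) (nat_lit 258)) (XT.lf (nat_lit 76) (nat_lit 21035817398) (nat_lit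 0) (nat_lit 40797170024) (nat_lit 1292) (nat_lit 71367685348) (nat_lit 277) (nat_lit 5) (nat_lit 276) (nat_lit 5) (nat_lit 293) (nat_lit 5) (nat_lit 473) (nat_lit 470) (nat_lit 257))) (XT.nd (nat_lit 78) (nat_lit 0) (nat_lit 76) (XT.lf (nat_lit 0) (nat_lit 69504561808) (nat_lit 1216) (nat_lit 1679029537) (nat_lit 1292) (nat_lit 65409986143) (nat_lit 277) (nat_lit 5) (nat_lit 293) (nat_lit 5) (nat_lit 294) (nat_lit 5) (nat_lit 474) (nat_lit 470) (nat_lit 256)) (XT.lf (nat_lit 0) (nat_lit 79444568871) (nat_lit 1216) (nat_lit 24280618908) (nat_lit 1292) (nat_lit 36374394132) (nat_lit 278) (nat_lit 5) (nat_lit 294) (nat_lit 5) (nat_lit 295) (nat_lit 5) (nat_lit 475) (nat_lit 470) (nat_lit 255))))))))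
noncomputable def xc127 : XT := (XT.nd (nat_lit 125190) (nat_lit 0) (nat_lit 1444) (XT.nd (nat_lit 62478) (nat_lit 0) (nat_lit 760) (XT.nd (nat_lit 468) (nat_lit 760) (nat_lit 0) (XT.nd (nat_lit 234) (nat_lit 1064) (nat_lit 0) (XT.nd (nat_lit 78) (nat_lit 0) (nat_lit 0) (XT.lf (nat_lit 0) (nat_lit 91594545829) (nat_lit 1216) (nat_lit 47166727598) (nat_lit 1292) (nat_lit 4968224129) (nat_lit 279) (nat_lit 5) (nat_lit 295) (nat_lit 5) (nat_lit 296) (nat_lit 5) (nat_lit 476) (nat_lit 470) (nat_lit 254)) (XT.nd (nat_lit 78) (nat_lit 0) (nat_lit 76) (XT.lf (nat_lit 76) (nat_lit 76872715545) (nat_lit 0) (nat_lit 29517245902) (nat_lit 1292) (nat_lit 41089809421) (nat_lit 280) (nat_lit 5) (nat_lit 279) (nat_lit 5) (nat_lit 296) (nat_lit 5) (nat_lit 477) (nat_lit 470) (nat_lit 253)) (XT.lf (nat_lit 76) (nat_lit 56984803235) (nat_lit 0) (nat_lit 66797014917) (nat_lit 1292) (nat_lit 27580039664) (nat_lit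 281) (nat_lit 5) (nat_lit 280) (nat_lit 5) (nat_lit 297) (nat_lit 5) (nat_lit 478) (nat_lit 470) (nat_lit 252)))) (XT.nd (nat_lit 78) (nat_lit 1216) (nat_lit 0) (XT.lf (nat_lit 76) (nat_lit 36970015896) (nat_lit 0) (nat_lit 106921768814) (nat_lit 1292) (nat_lit 11490808963) (nat_lit 282) (nat_lit 5) (nat_lit 281) (nat_lit 5) (nat_lit 298) (nat_lit 5) (nat_lit 479) (nat_lit 470) (nat_lit 251)) (XT.nd (nat_lit 78) (nat_lit 0) (nat_lit 0) (XT.lf (nat_lit 0) (nat_lit 7208514270) (nat_lit 1292) (nat_lit 142767421406) (nat_lit 76) (nat_lit 9569540820) (nat_lit 265) (nat_lit 5) (nat_lit 282) (nat_lit 5) (nat_lit 266) (nat_lit 5) (nat_lit 480) (nat_lit 470) (nat_lit 250)) (XT.lf (nat_lit 0) (nat_lit 28917273101) (nat_lit 1292) (nat_lit 3884744437) (nat_lit 76) (nat_lit 131041709366) (nat_lit 265) (nat_lit 5) (nat_lit 282) (nat_lit 5) (nat_lit 266) (nat_lit 5) (nat_lit 481) (nat_lit 470) (nat_lit 249)))))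 (XT.nd (nat_lit 61776) (nat_lit 0) (nat_lit 1520) (XT.nd (nat_lit 61620) (nat_lit 0) (nat_lit 1444) (XT.lf (nat_lit 0) (nat_lit 53983899371) (nat_lit 836) (nat_lit 24429549574) (nat_lit 76) (nat_lit 89875268063) (nat_lit 255) (nat_lit 5) (nat_lit 266) (nat_lit 5) (nat_lit 256) (nat_lit 5) (nat_lit 482) (nat_lit 470) (nat_lit 248)) (XT.nd (nat_lit 78) (nat_lit 0) (nat_lit 76) (XT.lf (nat_lit 0) (nat_lit 26404137162) (nat_lit 1292) (nat_lit 19264031949) (nat_lit 1292) (nat_lit 19264031949) (nat_lit 274) (nat_lit 3) (nat_lit 291) (nat_lit 3) (nat_lit 291) (nat_lit 5) (nat_lit 471) (nat_lit 471) (nat_lit 258)) (XT.lf (nat_lit 0) (nat_lit 54931975498) (nat_lit 1216) (nat_lit 64362935475) (nat_lit 1292) (nat_lit 13791994904) (nat_lit 275) (nat_lit 5) (nat_lit 291) (nat_lit 5) (nat_lit 292) (nat_lit 5) (nat_lit 472) (nat_lit 471) (nat_lit 257)))) (XT.nd (nat_lit 78) (nat_lit 0) (nat_lit 76) (XT.lf (nat_lit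 76) (nat_lit 45649852783) (nat_lit 0) (nat_lit 13272837398) (nat_lit 1292) (nat_lit 77495019877) (nat_lit 276) (nat_lit 5) (nat_lit 275) (nat_lit 5) (nat_lit 292) (nat_lit 5) (nat_lit 473) (nat_lit 471) (nat_lit 256)) (XT.nd (nat_lit 78) (nat_lit 0) (nat_lit 76) (XT.lf (nat_lit 76) (nat_lit 22094937164) (nat_lit 0) (nat_lit 42841646804) (nat_lit 1292) (nat_lit 74923761269) (nat_lit 277) (nat_lit 5) (nat_lit 276) (nat_lit 5) (nat_lit 293) (nat_lit 5) (nat_lit 474) (nat_lit 471) (nat_lit 255)) (XT.lf (nat_lit 0) (nat_lit 72991125879) (nat_lit 1216) (nat_lit 1755614859) (nat_lit 1292) (nat_lit 68676172918) (nat_lit 277) (nat_lit 5) (nat_lit 293) (nat_lit 5) (nat_lit 294) (nat_lit 5) (nat_lit 475) (nat_lit 471) (nat_lit 254)))))) (XT.nd (nat_lit 62166) (nat_lit 0) (nat_lit 684) (XT.nd (nat_lit 234) (nat_lit 988) (nat_lit 0) (XT.nd (nat_lit 78) (nat_lit 0) (nat_lit 76) (XT.lf (nat_lit 0) (nat_lit 83427626603)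 (nat_lit 1216) (nat_lit 25487130736) (nat_lit 1292) (nat_lit 38189476288) (nat_lit 278) (nat_lit 5) (nat_lit 294) (nat_lit 5) (nat_lit 295) (nat_lit 5) (nat_lit 476) (nat_lit 471) (nat_lit 253)) (XT.nd (nat_lit 78) (nat_lit 0) (nat_lit 0) (XT.lf (nat_lit 0) (nat_lit 96184627326) (nat_lit 1216) (nat_lit 49517416887) (nat_lit 1292) (nat_lit 5213615211) (nat_lit 279) (nat_lit 5) (nat_lit 295) (nat_lit 5) (nat_lit 296) (nat_lit 5) (nat_lit 477) (nat_lit 471) (nat_lit 252)) (XT.lf (nat_lit 76) (nat_lit 80723779210) (nat_lit 0) (nat_lit 30995612859) (nat_lit 1292) (nat_lit 43134067097) (nat_lit 280) (nat_lit 5) (nat_lit 279) (nat_lit 5) (nat_lit 296) (nat_lit 5) (nat_lit 478) (nat_lit 471) (nat_lit 251)))) (XT.nd (nat_lit 78) (nat_lit 1140) (nat_lit 0) (XT.lf (nat_lit 76) (nat_lit 59841573391) (nat_lit 0) (nat_lit 70138844693) (nat_lit 1292) (nat_lit 28949245191) (nat_lit 281) (nat_lit 5) (nat_lit 280)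 (nat_lit 5) (nat_lit 297) (nat_lit 5) (nat_lit 479) (nat_lit 471) (nat_lit 250)) (XT.nd (nat_lit 78) (nat_lit 1216) (nat_lit 0) (XT.lf (nat_lit 76) (nat_lit 38826128511) (nat_lit 0) (nat_lit 112269356700) (nat_lit 1292) (nat_lit 12055962750) (nat_lit 282) (nat_lit 5) (nat_lit 281) (nat_lit 5) (nat_lit 298) (nat_lit 5) (nat_lit 480) (nat_lit 471) (nat_lit 249)) (XT.lf (nat_lit 0) (nat_lit 7577765861) (nat_lit 1292) (nat_lit 149897939790) (nat_lit 76) (nat_lit 10046777990) (nat_lit 265) (nat_lit 5) (nat_lit 282) (nat_lit 5) (nat_lit 266) (nat_lit 5) (nat_lit 481) (nat_lit 471) (nat_lit 248))))) (XT.nd (nat_lit 234) (nat_lit 0) (nat_lit 152) (XT.nd (nat_lit 78) (nat_lit 0) (nat_lit 76) (XT.lf (nat_lit 0) (nat_lit 27730568364) (nat_lit 1292) (nat_lit 20224027286) (nat_lit 1292) (nat_lit 20224027286) (nat_lit 274) (nat_lit 3) (nat_lit 291) (nat_lit 3) (nat_lit 291) (nat_lit 5) (nat_lit 472) (nat_lit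 472) (nat_lit 256)) (XT.nd (nat_lit 78) (nat_lit 0) (nat_lit 0) (XT.lf (nat_lit 0) (nat_lit 57690435372) (nat_lit 1216) (nat_lit 67574438641) (nat_lit 1292) (nat_lit 14476018566) (nat_lit 275) (nat_lit 5) (nat_lit 291) (nat_lit 5) (nat_lit 292) (nat_lit 5) (nat_lit 473) (nat_lit 472) (nat_lit 255)) (XT.lf (nat_lit 76) (nat_lit 47938798592) (nat_lit 0) (nat_lit 13941384415) (nat_lit 1292) (nat_lit 81358069177) (nat_lit 276) (nat_lit 5) (nat_lit 275) (nat_lit 5) (nat_lit 292) (nat_lit 5) (nat_lit 474) (nat_lit 472) (nat_lit 254)))) (XT.nd (nat_lit 156) (nat_lit 0) (nat_lit 152) (XT.nd (nat_lit 78) (nat_lit 0) (nat_lit 76) (XT.lf (nat_lit 76) (nat_lit 23206331546) (nat_lit 0) (nat_lit 44987918059) (nat_lit 1292) (nat_lit 78658785298) (nat_lit 277) (nat_lit 5) (nat_lit 276) (nat_lit 5) (nat_lit 293) (nat_lit 5) (nat_lit 475) (nat_lit 472) (nat_lit 253)) (XT.lf (nat_lit 0) (nat_lit 76650964242) (nat_lit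 1216) (nat_lit 1836714282) (nat_lit 1292) (nat_lit 72106069969) (nat_lit 277) (nat_lit 5) (nat_lit 293) (nat_lit 5) (nat_lit 294) (nat_lit 5) (nat_lit 476) (nat_lit 472) (nat_lit 252))) (XT.nd (nat_lit 78) (nat_lit 0) (nat_lit 76) (XT.lf (nat_lit 0) (nat_lit 87608830417) (nat_lit 1216) (nat_lit 26754667211) (nat_lit 1292) (nat_lit 40095650737) (nat_lit 278) (nat_lit 5) (nat_lit 294) (nat_lit 5) (nat_lit 295) (nat_lit 5) (nat_lit 477) (nat_lit 472) (nat_lit 251)) (XT.lf (nat_lit 0) (nat_lit 101003250262) (nat_lit 1216) (nat_lit 51986351595) (nat_lit 1292) (nat_lit 5471556630) (nat_lit 279) (nat_lit 5) (nat_lit 295) (nat_lit 5) (nat_lit 296) (nat_lit 5) (nat_lit 478) (nat_lit 472) (nat_lit 250))))))) (XT.nd (nat_lit 124722) (nat_lit 0) (nat_lit 0) (XT.nd (nat_lit 62244) (nat_lit 0) (nat_lit 0) (XT.nd (nat_lit 62010) (nat_lit 380) (nat_lit 0) (XT.nd (nat_lit 78) (nat_lit 0) (nat_lit 76) (XT.lf (nat_lit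 76) (nat_lit 84766705484) (nat_lit 0) (nat_lit 32547665304) (nat_lit 1292) (nat_lit 45281489005) (nat_lit 280) (nat_lit 5) (nat_lit 279) (nat_lit 5) (nat_lit 296) (nat_lit 5) (nat_lit 479) (nat_lit 472) (nat_lit 249)) (XT.nd (nat_lit 78) (nat_lit 0) (nat_lit 76) (XT.lf (nat_lit 76) (nat_lit 62840481987) (nat_lit 0) (nat_lit 73647581965) (nat_lit 1292) (nat_lit 30387821776) (nat_lit 281) (nat_lit 5) (nat_lit 280) (nat_lit 5) (nat_lit 297) (nat_lit 5) (nat_lit 480) (nat_lit 472) (nat_lit 248)) (XT.lf (nat_lit 76) (nat_lit 40774339081) (nat_lit 0) (nat_lit 117884184576) (nat_lit 1292) (nat_lit 12650246909) (nat_lit 282) (nat_lit 5) (nat_lit 281) (nat_lit 5) (nat_lit 298) (nat_lit 5) (nat_lit 481) (nat_lit 472) (nat_lit 247)))) (XT.nd (nat_lit 78) (nat_lit 0) (nat_lit 76) (XT.lf (nat_lit 0) (nat_lit 29122742446) (nat_lit 1292) (nat_lit 21232320477) (nat_lit 1292) (nat_lit 21232320477) (nat_lit 274)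 (nat_lit 3) (nat_lit 291) (nat_lit 3) (nat_lit 291) (nat_lit 5) (nat_lit 473) (nat_lit 473) (nat_lit 254)) (XT.nd (nat_lit 78) (nat_lit 0) (nat_lit 0) (XT.lf (nat_lit 0) (nat_lit 60585715508) (nat_lit 1216) (nat_lit 70947134626) (nat_lit 1292) (nat_lit 15194761822) (nat_lit 275) (nat_lit 5) (nat_lit 291) (nat_lit 5) (nat_lit 292) (nat_lit 5) (nat_lit 474) (nat_lit 473) (nat_lit 253)) (XT.lf (nat_lit 76) (nat_lit 50341591736) (nat_lit 0) (nat_lit 14642902750) (nat_lit 1292) (nat_lit 85415358855) (nat_lit 276) (nat_lit 5) (nat_lit 275) (nat_lit 5) (nat_lit 292) (nat_lit 5) (nat_lit 475) (nat_lit 473) (nat_lit 252))))) (XT.nd (nat_lit 234) (nat_lit 152) (nat_lit 0) (XT.nd (nat_lit 78) (nat_lit 0) (nat_lit 76) (XT.lf (nat_lit 76) (nat_lit 24372677624) (nat_lit 0) (nat_lit 47241113431) (nat_lit 1292) (nat_lit 82581598455) (nat_lit 277) (nat_lit 5) (nat_lit 276) (nat_lit 5) (nat_lit 293) (nat_lit 5)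 (nat_lit 476) (nat_lit 473) (nat_lit 251)) (XT.nd (nat_lit 78) (nat_lit 0) (nat_lit 76) (XT.lf (nat_lit 0) (nat_lit 80492838594) (nat_lit 1216) (nat_lit 1922489843) (nat_lit 1292) (nat_lit 75707825537) (nat_lit 277) (nat_lit 5) (nat_lit 293) (nat_lit 5) (nat_lit 294) (nat_lit 5) (nat_lit 477) (nat_lit 473) (nat_lit 250)) (XT.lf (nat_lit 0) (nat_lit 91998181220) (nat_lit 1216) (nat_lit 28086214574) (nat_lit 1292) (nat_lit 42097440652) (nat_lit 278) (nat_lit 5) (nat_lit 294) (nat_lit 5) (nat_lit 295) (nat_lit 5) (nat_lit 478) (nat_lit 473) (nat_lit 249)))) (XT.nd (nat_lit 62088) (nat_lit 380) (nat_lit 0) (XT.nd (nat_lit 78) (nat_lit 0) (nat_lit 0) (XT.lf (nat_lit 0) (nat_lit 106061931206) (nat_lit 1216) (nat_lit 54579377895) (nat_lit 1292) (nat_lit 5742649798) (nat_lit 279) (nat_lit 5) (nat_lit 295) (nat_lit 5) (nat_lit 296) (nat_lit 5) (nat_lit 479) (nat_lit 473) (nat_lit 248)) (XT.lf (nat_lit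 76) (nat_lit 89011151700) (nat_lit 0) (nat_lit 34177109160) (nat_lit 1292) (nat_lit 47537144909) (nat_lit 280) (nat_lit 5) (nat_lit 279) (nat_lit 5) (nat_lit 296) (nat_lit 5) (nat_lit 480) (nat_lit 473) (nat_lit 247))) (XT.nd (nat_lit 78) (nat_lit 0) (nat_lit 76) (XT.lf (nat_lit 0) (nat_lit 30584000351) (nat_lit 1292) (nat_lit 22291298702) (nat_lit 1292) (nat_lit 22291298702) (nat_lit 274) (nat_lit 3) (nat_lit 291) (nat_lit 3) (nat_lit 291) (nat_lit 5) (nat_lit 474) (nat_lit 474) (nat_lit 252)) (XT.lf (nat_lit 0) (nat_lit 63624759439) (nat_lit 1216) (nat_lit 74489025645) (nat_lit 1292) (nat_lit 15949912455) (nat_lit 275) (nat_lit 5) (nat_lit 291) (nat_lit 5) (nat_lit 292) (nat_lit 5) (nat_lit 475) (nat_lit 474) (nat_lit 251)))))) (XT.nd (nat_lit 62478) (nat_lit 0) (nat_lit 0) (XT.nd (nat_lit 234) (nat_lit 76) (nat_lit 0) (XT.nd (nat_lit 78) (nat_lit 0) (nat_lit 76) (XT.lf (nat_lit 76) (nat_lit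 52863980362) (nat_lit 0) (nat_lit 15379083364) (nat_lit 1292) (nat_lit 89676499786) (nat_lit 276) (nat_lit 5) (nat_lit 275) (nat_lit 5) (nat_lit 292) (nat_lit 5) (nat_lit 476) (nat_lit 474) (nat_lit 250)) (XT.nd (nat_lit 78) (nat_lit 0) (nat_lit 76) (XT.lf (nat_lit 76) (nat_lit 25596780439) (nat_lit 0) (nat_lit 49606615333) (nat_lit 1292) (nat_lit 86701493700) (nat_lit 277) (nat_lit 5) (nat_lit 276) (nat_lit 5) (nat_lit 293) (nat_lit 5) (nat_lit 477) (nat_lit 474) (nat_lit 249)) (XT.lf (nat_lit 0) (nat_lit 84525939607) (nat_lit 1216) (nat_lit 2013117597) (nat_lit 1292) (nat_lit 79489998735) (nat_lit 277) (nat_lit 5) (nat_lit 293) (nat_lit 5) (nat_lit 294) (nat_lit 5) (nat_lit 478) (nat_lit 474) (nat_lit 248)))) (XT.nd (nat_lit 78) (nat_lit 304) (nat_lit 0) (XT.lf (nat_lit 0) (nat_lit 96606171263) (nat_lit 1216) (nat_lit 29484914421) (nat_lit 1292) (nat_lit 44199598288) (nat_lit 278) (nat_lit 5)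 (nat_lit 294) (nat_lit 5) (nat_lit 295) (nat_lit 5) (nat_lit 479) (nat_lit 474) (nat_lit 247)) (XT.nd (nat_lit 62088) (nat_lit 380) (nat_lit 0) (XT.lf (nat_lit 0) (nat_lit 111372754233) (nat_lit 1216) (nat_lit 57302640413) (nat_lit 1292) (nat_lit 6027528625) (nat_lit 279) (nat_lit 5) (nat_lit 295) (nat_lit 5) (nat_lit 296) (nat_lit 5) (nat_lit 480) (nat_lit 474) (nat_lit 246)) (XT.lf (nat_lit 0) (nat_lit 32117845070) (nat_lit 1292) (nat_lit 23403471076) (nat_lit 1292) (nat_lit 23403471076) (nat_lit 274) (nat_lit 3) (nat_lit 291) (nat_lit 3) (nat_lit 291) (nat_lit 5) (nat_lit 475) (nat_lit 475) (nat_lit 250))))) (XT.nd (nat_lit 234) (nat_lit 76) (nat_lit 0) (XT.nd (nat_lit 78) (nat_lit 0) (nat_lit 0) (XT.lf (nat_lit 0) (nat_lit 66814848346) (nat_lit 1216) (nat_lit 78208519365) (nat_lit 1292) (nat_lit 16743247119) (nat_lit 275) (nat_lit 5) (nat_lit 291) (nat_lit 5) (nat_lit 292) (nat_lit 5) (nat_lit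 476) (nat_lit 475) (nat_lit 249)) (XT.nd (nat_lit 78) (nat_lit 0) (nat_lit 76) (XT.lf (nat_lit 76) (nat_lit 55511994834) (nat_lit 0) (nat_lit 16151697829) (nat_lit 1292) (nat_lit 94151592791) (nat_lit 276) (nat_lit 5) (nat_lit 275) (nat_lit 5) (nat_lit 292) (nat_lit 5) (nat_lit 477) (nat_lit 475) (nat_lit 248)) (XT.lf (nat_lit 76) (nat_lit 26881579946) (nat_lit 0) (nat_lit 52090071932) (nat_lit 1292) (nat_lit 91028237611) (nat_lit 277) (nat_lit 5) (nat_lit 276) (nat_lit 5) (nat_lit 293) (nat_lit 5) (nat_lit 478) (nat_lit 475) (nat_lit 247)))) (XT.nd (nat_lit 62322) (nat_lit 0) (nat_lit 76) (XT.nd (nat_lit 62244) (nat_lit 228) (nat_lit 0) (XT.lf (nat_lit 0) (nat_lit 88759909226) (nat_lit 1216) (nat_lit 2108787773) (nat_lit 1292) (nat_lit 83461579780) (nat_lit 277) (nat_lit 5) (nat_lit 293) (nat_lit 5) (nat_lit 294) (nat_lit 5) (nat_lit 479) (nat_lit 475) (nat_lit 246)) (XT.lf (nat_lit 0) (nat_lit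 33727950204) (nat_lit 1292) (nat_lit 24571474506) (nat_lit 1292) (nat_lit 24571474506) (nat_lit 274) (nat_lit 3) (nat_lit 291) (nat_lit 3) (nat_lit 291) (nat_lit 5) (nat_lit 476) (nat_lit 476) (nat_lit 248))) (XT.nd (nat_lit 78) (nat_lit 0) (nat_lit 0) (XT.lf (nat_lit 0) (nat_lit 70163618822) (nat_lit 1216) (nat_lit 82114448679) (nat_lit 1292) (nat_lit 17576635362) (nat_lit 275) (nat_lit 5) (nat_lit 291) (nat_lit 5) (nat_lit 292) (nat_lit 5) (nat_lit 477) (nat_lit 476) (nat_lit 247)) (XT.lf (nat_lit 76) (nat_lit 58291962335) (nat_lit 0) (nat_lit 16962602717) (nat_lit 1292) (nat_lit 98851252264) (nat_lit 276) (nat_lit 5) (nat_lit 275) (nat_lit 5) (nat_lit 292) (nat_lit 5) (nat_lit 478) (nat_lit 476) (nat_lit 246))))))))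

set_option maxRecDepth 10000000 in
noncomputable def Tp : PT := (PT.nd (nat_lit 12761814) (PT.nd (nat_lit 12011532) (PT.nd (nat_lit 11075142) (PT.nd (nat_lit 10138518) pc0 pc1) (PT.nd (nat_lit 561990) pc2 pc3)) (PT.nd (nat_lit 437736) (PT.nd (nat_lit 249912) pc4 pc5) (PT.nd (nat_lit 186888) pc6 pc7))) (PT.nd (nat_lit 497562) (PT.nd (nat_lit 249600) (PT.nd (nat_lit 125112) pc8 pc9) (PT.nd (nat_lit 123864) pc10 pc11)) (PT.nd (nat_lit 440310) (PT.nd (nat_lit 186888) pc12 pc13) (PT.nd (nat_lit 375336) pc14 pc15))))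

set_option maxRecDepth 10000000 in
noncomputable def Tx : XT := (XT.nd (nat_lit 21968700) (nat_lit 0) (nat_lit 228) XT.nil (XT.nd (nat_lit 7808190) (nat_lit 0) (nat_lit 0) (XT.nd (nat_lit 3559920) (nat_lit 0) (nat_lit 1748) (XT.nd (nat_lit 2492802) (nat_lit 0) (nat_lit 760) (XT.nd (nat_lit 1745172) (nat_lit 0) (nat_lit 380) (XT.nd (nat_lit 1186224) (nat_lit 0) (nat_lit 152) (XT.nd (nat_lit 811824) (nat_lit 0) (nat_lit 0) (XT.nd (nat_lit 561756) (nat_lit 0) (nat_lit 0) (XT.nd (nat_lit 374556) (nat_lit 0) (nat_lit 0) xc0 xc1) (XT.nd (nat_lit 125346) (nat_lit 0) (nat_lit 0) xc2 xc3)) (XT.nd (nat_lit 247572) (nat_lit 0) (nat_lit 152) (XT.nd (nat_lit 124098) (nat_lit 0) (nat_lit 152) xc4 xc5) (XT.nd (nat_lit 63492) (nat_lit 0) (nat_lit 0) xc6 xc7))) (XT.nd (nat_lit 310284) (nat_lit 0) (nat_lit 76) (XT.nd (nat_lit 185016) (nat_lit 0) (nat_lit 76) (XT.nd (nat_lit 63102) (nat_lit 0) (nat_lit 0) xc8 xc9)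 (XT.nd (nat_lit 62712) (nat_lit 0) (nat_lit 0) xc10 xc11)) (XT.nd (nat_lit 124644) (nat_lit 0) (nat_lit 0) (XT.nd (nat_lit 62400) (nat_lit 0) (nat_lit 0) xc12 xc13) (XT.nd (nat_lit 62088) (nat_lit 0) (nat_lit 0) xc14 xc15)))) (XT.nd (nat_lit 376584) (nat_lit 0) (nat_lit 152) (XT.nd (nat_lit 188916) (nat_lit 0) (nat_lit 76) (XT.nd (nat_lit 65676) (nat_lit 0) (nat_lit 0) (XT.nd (nat_lit 3900) (nat_lit 76) (nat_lit 0) xc16 xc17) (XT.nd (nat_lit 61698) (nat_lit 0) (nat_lit 0) xc18 xc19)) (XT.nd (nat_lit 122616) (nat_lit 0) (nat_lit 0) (XT.nd (nat_lit 61386) (nat_lit 0) (nat_lit 0) xc20 xc21) (XT.nd (nat_lit 3978) (nat_lit 684) (nat_lit 0) xc22 xc23))) (XT.nd (nat_lit 186186) (nat_lit 0) (nat_lit 76) (XT.nd (nat_lit 64818) (nat_lit 0) (nat_lit 76) (XT.nd (nat_lit 60840) (nat_lit 0) (nat_lit 152) xc24 xc25) (XT.nd (nat_lit 60762) (nat_lit 0) (nat_lit 0) xc26 xc27)) (XT.nd (nat_lit 64428) (nat_lit 0)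 (nat_lit 76) (XT.nd (nat_lit 60450) (nat_lit 0) (nat_lit 1444) xc28 xc29) (XT.nd (nat_lit 60294) (nat_lit 0) (nat_lit 0) xc30 xc31))))) (XT.nd (nat_lit 562068) (nat_lit 0) (nat_lit 532) (XT.nd (nat_lit 254826) (nat_lit 0) (nat_lit 152) (XT.nd (nat_lit 127686) (nat_lit 0) (nat_lit 76) (XT.nd (nat_lit 63882) (nat_lit 0) (nat_lit 76) (XT.nd (nat_lit 3900) (nat_lit 2204) (nat_lit 0) xc32 xc33) (XT.nd (nat_lit 3978) (nat_lit 608) (nat_lit 0) xc34 xc35)) (XT.nd (nat_lit 63648) (nat_lit 0) (nat_lit 76) (XT.nd (nat_lit 59670) (nat_lit 0) (nat_lit 2356) xc36 xc37) (XT.nd (nat_lit 59514) (nat_lit 0) (nat_lit 1140) xc38 xc39))) (XT.nd (nat_lit 181506) (nat_lit 0) (nat_lit 228) (XT.nd (nat_lit 63258) (nat_lit 0) (nat_lit 76) (XT.nd (nat_lit 59280) (nat_lit 0) (nat_lit 532) xc40 xc41) (XT.nd (nat_lit 59202) (nat_lit 0) (nat_lit 76) xc42 xc43)) (XT.nd (nat_lit 62946) (nat_lit 0) (nat_lit 0) (XT.nd (nat_lit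 3978) (nat_lit 4180) (nat_lit 0) xc44 xc45) (XT.nd (nat_lit 3978) (nat_lit 3344) (nat_lit 0) xc46 xc47)))) (XT.nd (nat_lit 251862) (nat_lit 0) (nat_lit 228) (XT.nd (nat_lit 125736) (nat_lit 0) (nat_lit 76) (XT.nd (nat_lit 62790) (nat_lit 0) (nat_lit 0) (XT.nd (nat_lit 3900) (nat_lit 2888) (nat_lit 0) xc48 xc49) (XT.nd (nat_lit 3978) (nat_lit 2280) (nat_lit 0) xc50 xc51)) (XT.nd (nat_lit 63024) (nat_lit 0) (nat_lit 0) (XT.nd (nat_lit 3978) (nat_lit 1672) (nat_lit 0) xc52 xc53) (XT.nd (nat_lit 3978) (nat_lit 1140) (nat_lit 0) xc54 xc55))) (XT.nd (nat_lit 126438) (nat_lit 0) (nat_lit 76) (XT.nd (nat_lit 63180) (nat_lit 0) (nat_lit 76) (XT.nd (nat_lit 3978) (nat_lit 456) (nat_lit 0) xc56 xc57) (XT.nd (nat_lit 59280) (nat_lit 0) (nat_lit 4484) xc58 xc59)) (XT.nd (nat_lit 63336) (nat_lit 0) (nat_lit 76) (XT.nd (nat_lit 59358) (nat_lit 0) (nat_lit 2812) xc60 xc61) (XT.nd (nat_lit 59436) (nat_lit 0) (nat_lit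 1368) xc62 xc63)))))) (XT.nd (nat_lit 1371240) (nat_lit 0) (nat_lit 2584) (XT.nd (nat_lit 623610) (nat_lit 0) (nat_lit 836) (XT.nd (nat_lit 310674) (nat_lit 0) (nat_lit 456) (XT.nd (nat_lit 182832) (nat_lit 0) (nat_lit 304) (XT.nd (nat_lit 63414) (nat_lit 0) (nat_lit 76) (XT.nd (nat_lit 59436) (nat_lit 0) (nat_lit 380) xc64 xc65) (XT.nd (nat_lit 59592) (nat_lit 0) (nat_lit 152) xc66 xc67)) (XT.nd (nat_lit 63882) (nat_lit 0) (nat_lit 76) (XT.nd (nat_lit 3978) (nat_lit 2356) (nat_lit 0) xc68 xc69) (XT.nd (nat_lit 3978) (nat_lit 380) (nat_lit 0) xc70 xc71))) (XT.nd (nat_lit 184314) (nat_lit 0) (nat_lit 228) (XT.nd (nat_lit 63960) (nat_lit 0) (nat_lit 76) (XT.nd (nat_lit 59982) (nat_lit 0) (nat_lit 1900) xc72 xc73) (XT.nd (nat_lit 60138) (nat_lit 0) (nat_lit 76) xc74 xc75)) (XT.nd (nat_lit 64272) (nat_lit 0) (nat_lit 76) (XT.nd (nat_lit 3978) (nat_lit 3116) (nat_lit 0) xc76 xc77) (XT.nd (nat_lit 3978)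 (nat_lit 228) (nat_lit 0) xc78 xc79)))) (XT.nd (nat_lit 372138) (nat_lit 0) (nat_lit 608) (XT.nd (nat_lit 185640) (nat_lit 0) (nat_lit 380) (XT.nd (nat_lit 64350) (nat_lit 0) (nat_lit 152) (XT.nd (nat_lit 60372) (nat_lit 0) (nat_lit 608) xc80 xc81) (XT.nd (nat_lit 60606) (nat_lit 0) (nat_lit 76) xc82 xc83)) (XT.nd (nat_lit 64740) (nat_lit 0) (nat_lit 76) (XT.nd (nat_lit 60762) (nat_lit 0) (nat_lit 3268) xc84 xc85) (XT.nd (nat_lit 60840) (nat_lit 0) (nat_lit 152) xc86 xc87))) (XT.nd (nat_lit 187200) (nat_lit 0) (nat_lit 380) (XT.nd (nat_lit 64974) (nat_lit 0) (nat_lit 76) (XT.nd (nat_lit 3978) (nat_lit 1748) (nat_lit 0) xc88 xc89) (XT.nd (nat_lit 61074) (nat_lit 0) (nat_lit 228) xc90 xc91)) (XT.nd (nat_lit 65286) (nat_lit 0) (nat_lit 532) (XT.nd (nat_lit 3978) (nat_lit 2356) (nat_lit 0) xc92 xc93) (XT.nd (nat_lit 61464) (nat_lit 0) (nat_lit 76) xc94 xc95))))) (XT.nd (nat_lit 937560) (nat_lit 0)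 (nat_lit 3192) (XT.nd (nat_lit 437112) (nat_lit 0) (nat_lit 1216) (XT.nd (nat_lit 188994) (nat_lit 0) (nat_lit 456) (XT.nd (nat_lit 65520) (nat_lit 0) (nat_lit 152) (XT.nd (nat_lit 3900) (nat_lit 456) (nat_lit 0) xc96 xc97) (XT.nd (nat_lit 61698) (nat_lit 0) (nat_lit 152) xc98 xc99)) (XT.nd (nat_lit 123864) (nat_lit 0) (nat_lit 380) (XT.nd (nat_lit 61854) (nat_lit 0) (nat_lit 152) xc100 xc101) (XT.nd (nat_lit 62088) (nat_lit 0) (nat_lit 152) xc102 xc103))) (XT.nd (nat_lit 190866) (nat_lit 0) (nat_lit 684) (XT.nd (nat_lit 66144) (nat_lit 0) (nat_lit 152) (XT.nd (nat_lit 3900) (nat_lit 912) (nat_lit 0) xc104 xc105) (XT.nd (nat_lit 62322) (nat_lit 0) (nat_lit 228) xc106 xc107)) (XT.nd (nat_lit 125190) (nat_lit 0) (nat_lit 380) (XT.nd (nat_lit 62556) (nat_lit 0) (nat_lit 228) xc108 xc109) (XT.nd (nat_lit 62712) (nat_lit 0) (nat_lit 304) xc110 xc111)))) (XT.nd (nat_lit 626184) (nat_lit 0) (nat_lit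 2964) (XT.nd (nat_lit 252486) (nat_lit 0) (nat_lit 912) (XT.nd (nat_lit 126048) (nat_lit 0) (nat_lit 456) (XT.nd (nat_lit 62946) (nat_lit 0) (nat_lit 228) xc112 xc113) (XT.nd (nat_lit 63180) (nat_lit 0) (nat_lit 228) xc114 xc115)) (XT.nd (nat_lit 186420) (nat_lit 0) (nat_lit 912) (XT.nd (nat_lit 122850) (nat_lit 0) (nat_lit 532) xc116 xc117) (XT.nd (nat_lit 63648) (nat_lit 0) (nat_lit 228) xc118 xc119))) (XT.nd (nat_lit 437814) (nat_lit 0) (nat_lit 3344) (XT.nd (nat_lit 188136) (nat_lit 0) (nat_lit 1368) (XT.nd (nat_lit 63960) (nat_lit 0) (nat_lit 304) xc120 xc121) (XT.nd (nat_lit 124644) (nat_lit 0) (nat_lit 760) xc122 xc123)) (XT.nd (nat_lit 312390) (nat_lit 0) (nat_lit 2964) (XT.nd (nat_lit 125424) (nat_lit 0) (nat_lit 988) xc124 xc125) (XT.nd (nat_lit 187980) (nat_lit 0) (nat_lit 2356) xc126 xc127))))))) XT.nil))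

set_option maxRecDepth 10000000 in
noncomputable def Te : XT := XT.nil

set_option maxRecDepth 10000000 in
noncomputable def Tz : ZL := (ZL.cons (nat_lit 76) (nat_lit 6) (nat_lit 344925594065108505402) (ZL.cons (nat_lit 228) (nat_lit 3) (nat_lit 168319848780254054459) (ZL.cons (nat_lit 304) (nat_lit 6) (nat_lit 328756695320858870354) (ZL.cons (nat_lit 380) (nat_lit 6) (nat_lit 321257818293209243906) (ZL.cons (nat_lit 456) (nat_lit 3) (nat_lit 160439085896852896576) (ZL.cons (nat_lit 532) (nat_lit 6) (nat_lit 313383997414177136134) (ZL.cons (nat_lit 608) (nat_lit 6) (nat_lit 306256328909940688210) (ZL.cons (nat_lit 684) (nat_lit 3) (nat_lit 152947380407587748509) (ZL.cons (nat_lit 760) (nat_lit 6) (nat_lit 298772276980492417892) (ZL.cons (nat_lit 836) (nat_lit 6) (nat_lit 291999587615283415234) (ZL.cons (nat_lit 912) (nat_lit 3) (nat_lit 145827618524420188001) (ZL.cons (nat_lit 988) (nat_lit 6)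 (nat_lit 284888263781813962442) (ZL.cons (nat_lit 1064) (nat_lit 6) (nat_lit 278455245338301209562) (ZL.cons (nat_lit 1140) (nat_lit 3) (nat_lit 139063646208939633718) (ZL.cons (nat_lit 1216) (nat_lit 6) (nat_lit 271700575972612819038) (ZL.cons (nat_lit 1292) (nat_lit 6) (nat_lit 265592812740192554274) (ZL.cons (nat_lit 1368) (nat_lit 3) (nat_lit 132640238312752495173) (ZL.cons (nat_lit 1444) (nat_lit 6) (nat_lit 259179661346151276272) (ZL.cons (nat_lit 1520) (nat_lit 6) (nat_lit 253383604383886548926) (ZL.cons (nat_lit 1596) (nat_lit 3) (nat_lit 126543070708758720211) (ZL.cons (nat_lit 1672) (nat_lit 6) (nat_lit 247297744573508585214) (ZL.cons (nat_lit 1748) (nat_lit 6) (nat_lit 241800688916877070514) (ZL.cons (nat_lit 1824) (nat_lit 3) (nat_lit 120758695426834197874) (ZL.cons (nat_lit 1900) (nat_lit 6) (nat_lit 236028780477413980080) (ZL.cons (nat_lit 1976) (nat_lit 6) (nat_lit 230818845324801875310)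 (ZL.cons (nat_lit 2052) (nat_lit 3) (nat_lit 115274518822777759196) (ZL.cons (nat_lit 2128) (nat_lit 6) (nat_lit 225348413414559165306) (ZL.cons (nat_lit 2204) (nat_lit 6) (nat_lit 220414525345779691406) (ZL.cons (nat_lit 2280) (nat_lit 3) (nat_lit 110078782825629675741) (ZL.cons (nat_lit 2356) (nat_lit 6) (nat_lit 215233942873561243812) (ZL.cons (nat_lit 2432) (nat_lit 6) (nat_lit 210565822170089370610) (ZL.cons (nat_lit 2508) (nat_lit 3) (nat_lit 105160549325749285341) (ZL.cons (nat_lit 2584) (nat_lit 6) (nat_lit 205664295431443903746) (ZL.cons (nat_lit 2660) (nat_lit 6) (nat_lit 201252445586682827128) (ZL.cons (nat_lit 2736) (nat_lit 3) (nat_lit 100509687784488651695) (ZL.cons (nat_lit 2812) (nat_lit 6) (nat_lit 196620003249683696682) (ZL.cons (nat_lit 2888) (nat_lit 6) (nat_lit 192455703777564765512) (ZL.cons (nat_lit 2964) (nat_lit 3) (nat_lit 96116866166065466689) (ZL.cons (nat_lit 3040)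 (nat_lit 6) (nat_lit 188516562153877369568) (ZL.cons (nat_lit 3116) (nat_lit 6) (nat_lit 188083189331839887782) (ZL.cons (nat_lit 3192) (nat_lit 6) (nat_lit 184158492003571771692) (ZL.cons (nat_lit 3268) (nat_lit 3) (nat_lit 91973545313484061020) (ZL.cons (nat_lit 3344) (nat_lit 6) (nat_lit 180450295829878327688) (ZL.cons (nat_lit 3420) (nat_lit 6) (nat_lit 180037559808890249798) (ZL.cons (nat_lit 3496) (nat_lit 6) (nat_lit 176345288470896561830) (ZL.cons (nat_lit 3572) (nat_lit 3) (nat_lit 88071976913256066796) (ZL.cons (nat_lit 3648) (nat_lit 6) (nat_lit 172861485490753739836) (ZL.cons (nat_lit 3724) (nat_lit 6) (nat_lit 172468403566003189466) (ZL.cons (nat_lit 3800) (nat_lit 6) (nat_lit 169002157717219348504) (ZL.cons (nat_lit 3876) (nat_lit 3) (nat_lit 84405205218426613186) (ZL.cons (nat_lit 3952) (nat_lit 6) (nat_lit 165736963313853982514) (ZL.cons (nat_lit 4028) (nat_lit 6) (nat_lit 165362599575996315494)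 (ZL.cons (nat_lit 4104) (nat_lit 6) (nat_lit 162665046083518126338) (ZL.cons (nat_lit 4180) (nat_lit 6) (nat_lit 162116761909954226092) (ZL.cons (nat_lit 4256) (nat_lit 3) (nat_lit 80967072726231340602) (ZL.cons (nat_lit 4332) (nat_lit 6) (nat_lit 159065169253807810334) (ZL.cons (nat_lit 4408) (nat_lit 6) (nat_lit 158708632360610032220) (ZL.cons (nat_lit 4484) (nat_lit 6) (nat_lit 156200555910756719614) (ZL.cons (nat_lit 4560) (nat_lit 6) (nat_lit 155678380507362528902) (ZL.cons (nat_lit 4636) (nat_lit 3) (nat_lit 77752230035828147838) (ZL.cons (nat_lit 4712) (nat_lit 6) (nat_lit 152836175007355296240) (ZL.cons (nat_lit 4788) (nat_lit 6) (nat_lit 152496616061452650416) (ZL.cons (nat_lit 4864) (nat_lit 6) (nat_lit 150175248704635936062) (ZL.cons (nat_lit 4940) (nat_lit 6) (nat_lit 149677938796641468720) (ZL.cons (nat_lit 5016) (nat_lit 3) (nat_lit 74756150143222528061) (ZL.cons (nat_lit 5092) (nat_lit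 6) (nat_lit 147041717140877962052) (ZL.cons (nat_lit 5168) (nat_lit 6) (nat_lit 146718327668589727936) (ZL.cons (nat_lit 5244) (nat_lit 6) (nat_lit 144581674375934122070) (ZL.cons (nat_lit 5320) (nat_lit 6) (nat_lit 144108045892129867456) (ZL.cons (nat_lit 5396) (nat_lit 3) (nat_lit 71975147465019022969) (ZL.cons (nat_lit 5472) (nat_lit 6) (nat_lit 142291953257131511056) (ZL.cons (nat_lit 5548) (nat_lit 6) (nat_lit 141675240000454855970) (ZL.cons (nat_lit 5624) (nat_lit 6) (nat_lit 141367250026847013954) (ZL.cons (nat_lit 5700) (nat_lit 6) (nat_lit 139414117598584514880) (ZL.cons (nat_lit 5776) (nat_lit 6) (nat_lit 138963042852104272392) (ZL.cons (nat_lit 5852) (nat_lit 3) (nat_lit 69406401920294125947) (ZL.cons (nat_lit 5928) (nat_lit 6) (nat_lit 137319295061752486226) (ZL.cons (nat_lit 6004) (nat_lit 6) (nat_lit 136731949103012814718) (ZL.cons (nat_lit 6080) (nat_lit 6) (nat_lit 136438625318624393748)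 (ZL.cons (nat_lit 6156) (nat_lit 6) (nat_lit 135385784717252027086) (ZL.cons (nat_lit 6232) (nat_lit 6) (nat_lit 134668656651598613652) (ZL.cons (nat_lit 6308) (nat_lit 6) (nat_lit 134239061654950763662) (ZL.cons (nat_lit 6384) (nat_lit 3) (nat_lit 67047988441039181595) (ZL.cons (nat_lit 6460) (nat_lit 6) (nat_lit 132768252896786873480) (ZL.cons (nat_lit 6536) (nat_lit 6) (nat_lit 132208875793225281564) (ZL.cons (nat_lit 6612) (nat_lit 6) (nat_lit 131929519808093452072) (ZL.cons (nat_lit 6688) (nat_lit 6) (nat_lit 131026213067732804344) (ZL.cons (nat_lit 6764) (nat_lit 6) (nat_lit 130343233957586696308) (ZL.cons (nat_lit 6840) (nat_lit 6) (nat_lit 129934095865541124890) (ZL.cons (nat_lit 6916) (nat_lit 3) (nat_lit 64898912326640847935) (ZL.cons (nat_lit 6992) (nat_lit 6) (nat_lit 129438389450557706076) (ZL.cons (nat_lit 7068) (nat_lit 6) (nat_lit 128637694143664439834) (ZL.cons (nat_lit 7144)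 (nat_lit 6) (nat_lit 128104954045034352296) (ZL.cons (nat_lit 7220) (nat_lit 6) (nat_lit 127838900725861181350) (ZL.cons (nat_lit 7296) (nat_lit 6) (nat_lit 127088195542377744862) (ZL.cons (nat_lit 7372) (nat_lit 6) (nat_lit 126437739247000499118) (ZL.cons (nat_lit 7448) (nat_lit 6) (nat_lit 126048083921242812052) (ZL.cons (nat_lit 7524) (nat_lit 3) (nat_lit 62959150907164535063) (ZL.cons (nat_lit 7600) (nat_lit 6) (nat_lit 125691048871342595454) (ZL.cons (nat_lit 7676) (nat_lit 6) (nat_lit 124928481912396627606) (ZL.cons (nat_lit 7752) (nat_lit 6) (nat_lit 124421110389891782334) (ZL.cons (nat_lit 7828) (nat_lit 6) (nat_lit 124167726276393524288) (ZL.cons (nat_lit 7904) (nat_lit 6) (nat_lit 124442927590866050780) (ZL.cons (nat_lit 7980) (nat_lit 6) (nat_lit 123573588571378442832) (ZL.cons (nat_lit 8056) (nat_lit 6) (nat_lit 122954106385304875456) (ZL.cons (nat_lit 8132) (nat_lit 6) (nat_lit 122583006075059459204)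 (ZL.cons (nat_lit 8208) (nat_lit 3) (nat_lit 61229702034237471542) (ZL.cons (nat_lit 8284) (nat_lit 6) (nat_lit 123340859983613642870) (ZL.cons (nat_lit 8360) (nat_lit 6) (nat_lit 122369833287419711020) (ZL.cons (nat_lit 8436) (nat_lit 6) (nat_lit 121643579040804503544) (ZL.cons (nat_lit 8512) (nat_lit 6) (nat_lit 121160368066990365188) (ZL.cons (nat_lit 8588) (nat_lit 6) (nat_lit 120919049863658690862) (ZL.cons (nat_lit 8664) (nat_lit 6) (nat_lit 122382222079091913616) (ZL.cons (nat_lit 8740) (nat_lit 6) (nat_lit 121314349976511006620) (ZL.cons (nat_lit 8816) (nat_lit 6) (nat_lit 120486408053189475242) (ZL.cons (nat_lit 8892) (nat_lit 6) (nat_lit 119896425018833696786) (ZL.cons (nat_lit 8968) (nat_lit 6) (nat_lit 119542996151933300356) (ZL.cons (nat_lit 9044) (nat_lit 3) (nat_lit 59712639977593071075) (ZL.cons (nat_lit 9120) (nat_lit 6) (nat_lit 120404625583150166048) (ZL.cons (nat_lit 9196)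 (nat_lit 6) (nat_lit 119479838253441659524) (ZL.cons (nat_lit 9272) (nat_lit 6) (nat_lit 118788167542379557166) (ZL.cons (nat_lit 9348) (nat_lit 6) (nat_lit 118327966614937520636) (ZL.cons (nat_lit 9424) (nat_lit 6) (nat_lit 118098139754621640326) (ZL.cons (nat_lit 9500) (nat_lit 3) (nat_lit 58954815639000919652) (ZL.cons (nat_lit 9576) (nat_lit 6) (nat_lit 117978457500229926972) (ZL.cons (nat_lit 9652) (nat_lit 6) (nat_lit 118185100038871875900) (ZL.cons (nat_lit 9728) (nat_lit 6) (nat_lit 118530050899972071678) (ZL.cons (nat_lit 9804) (nat_lit 6) (nat_lit 119014131395104562392) (ZL.cons (nat_lit 9880) (nat_lit 6) (nat_lit 119638494096876806356) (ZL.cons (nat_lit 9956) (nat_lit 6) (nat_lit 118621473046799752072) (ZL.cons (nat_lit 10032) (nat_lit 6) (nat_lit 117832956929350674568) (ZL.cons (nat_lit 10108) (nat_lit 6) (nat_lit 117271068325202314136) (ZL.cons (nat_lit 10184) (nat_lit 6) (nat_lit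 116934469404344793726) (ZL.cons (nat_lit 10260) (nat_lit 3) (nat_lit 58411179370388035811) (ZL.cons (nat_lit 10336) (nat_lit 6) (nat_lit 116493286487343670884) (ZL.cons (nat_lit 10412) (nat_lit 6) (nat_lit 116634380242911250604) (ZL.cons (nat_lit 10488) (nat_lit 6) (nat_lit 116916903691559666186) (ZL.cons (nat_lit 10564) (nat_lit 6) (nat_lit 117341529508166651950) (ZL.cons (nat_lit 10640) (nat_lit 6) (nat_lit 117909268706581272150) (ZL.cons (nat_lit 10716) (nat_lit 6) (nat_lit 117028518868763646886) (ZL.cons (nat_lit 10792) (nat_lit 6) (nat_lit 116369784858228311308) (ZL.cons (nat_lit 10868) (nat_lit 6) (nat_lit 115931498260664466996) (ZL.cons (nat_lit 10944) (nat_lit 6) (nat_lit 115712615536554104792) (ZL.cons (nat_lit 11020) (nat_lit 3) (nat_lit 57606606454472465742) (ZL.cons (nat_lit 11096) (nat_lit 6) (nat_lit 115285480442284423536) (ZL.cons (nat_lit 11172) (nat_lit 6) (nat_lit 115502455107858469910)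 (ZL.cons (nat_lit 11248) (nat_lit 6) (nat_lit 115864653512013675478) (ZL.cons (nat_lit 11324) (nat_lit 6) (nat_lit 116372938031902790728) (ZL.cons (nat_lit 11400) (nat_lit 6) (nat_lit 115621970300998907390) (ZL.cons (nat_lit 11476) (nat_lit 6) (nat_lit 115086838297048087932) (ZL.cons (nat_lit 11552) (nat_lit 6) (nat_lit 114766267896231401826) (ZL.cons (nat_lit 11628) (nat_lit 3) (nat_lit 57329747917844880863) (ZL.cons (nat_lit 11704) (nat_lit 6) (nat_lit 114135188970799426062) (ZL.cons (nat_lit 11780) (nat_lit 6) (nat_lit 114283337414145384768) (ZL.cons (nat_lit 11856) (nat_lit 6) (nat_lit 114579987035226221128) (ZL.cons (nat_lit 11932) (nat_lit 6) (nat_lit 115025844142663556182) (ZL.cons (nat_lit 12008) (nat_lit 6) (nat_lit 114398478418344188964) (ZL.cons (nat_lit 12084) (nat_lit 6) (nat_lit 113981062611140527712) (ZL.cons (nat_lit 12160) (nat_lit 6) (nat_lit 113772602873892563710) (ZL.cons (nat_lit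 12236) (nat_lit 3) (nat_lit 56590383519619218380) (ZL.cons (nat_lit 12312) (nat_lit 6) (nat_lit 113256647949244903414) (ZL.cons (nat_lit 12388) (nat_lit 6) (nat_lit 113484471348097652106) (ZL.cons (nat_lit 12464) (nat_lit 6) (nat_lit 113864779672460617952) (ZL.cons (nat_lit 12540) (nat_lit 6) (nat_lit 113355130144888408940) (ZL.cons (nat_lit 12616) (nat_lit 6) (nat_lit 113049825001253469792) (ZL.cons (nat_lit 12692) (nat_lit 3) (nat_lit 56474068662273572945) (ZL.cons (nat_lit 12768) (nat_lit 6) (nat_lit 112419942214431072318) (ZL.cons (nat_lit 12844) (nat_lit 6) (nat_lit 112575498079944328958) (ZL.cons (nat_lit 12920) (nat_lit 6) (nat_lit 112886980182079207136) (ZL.cons (nat_lit 12996) (nat_lit 6) (nat_lit 112489441318075720228) (ZL.cons (nat_lit 13072) (nat_lit 6) (nat_lit 112290908234982421180) (ZL.cons (nat_lit 13148) (nat_lit 3) (nat_lit 55885614026596214990) (ZL.cons (nat_lit 13224) (nat_lit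 6) (nat_lit 111850903008699219966) (ZL.cons (nat_lit 13300) (nat_lit 6) (nat_lit 112090117577494606092) (ZL.cons (nat_lit 13376) (nat_lit 6) (nat_lit 111799350774032759284) (ZL.cons (nat_lit 13452) (nat_lit 3) (nat_lit 55851252683822892069) (ZL.cons (nat_lit 13528) (nat_lit 6) (nat_lit 111308960908002217728) (ZL.cons (nat_lit 13604) (nat_lit 6) (nat_lit 111472294566791137200) (ZL.cons (nat_lit 13680) (nat_lit 6) (nat_lit 111283215440035614294) (ZL.cons (nat_lit 13756) (nat_lit 3) (nat_lit 55474190719759164689) (ZL.cons (nat_lit 13832) (nat_lit 6) (nat_lit 111032040142800458864) (ZL.cons (nat_lit 13908) (nat_lit 3) (nat_lit 55469903211215955552) (ZL.cons (nat_lit 13984) (nat_lit 6) (nat_lit 110768306080703545660) (ZL.cons (nat_lit 14060) (nat_lit 1) (nat_lit 18446744073709551617) ZL.nil))))))))))))))))))))))))))))))))))))))))))))))))))))))))))))))))))))))))))))))))))))))))))))))))))))))))))))))))))))))))))))))))))))))))))))))))))))))))))))))))))))))))))))))))))))))))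

noncomputable def vl : XL := ⟨(nat_lit 0), (nat_lit 76), (nat_lit 260173165), (nat_lit 152), (nat_lit 42822466), (nat_lit 152), (nat_lit 42822466), (nat_lit 1), (nat_lit 4), (nat_lit 2), (nat_lit 5), (nat_lit 2), (nat_lit 4), (nat_lit 0), (nat_lit 0), (nat_lit 0)⟩

noncomputable def cp0 : Nat := (nat_lit 1899741199078137782389508974075645343776927755529594565369749360167325931881198988193612831590297473715492748025613848712173012756825216668408644529670246291872561513189028492105085987868141947459327855287771470170179478285753085224990430658892837962090074346512363260066020083252194193199414263979780452168461603574897095735618024868205910726985183473751328201390402951904657095569719085714879634766589332666882873328864666138294510238862172514218352515661715905269465650362199441839964179999838762470039082012559217703124769703437933774963153772124117992070844071669609129531916684372631532893943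908123436601774515551989462043208899725758133264380131398084884584260245450786084482044652952348026779464617535177187784226696765025237564773986224201398873263010521334321825529136100678208674120968218516216761470197895007415405316863222227179980013175971913878405527608681235083173054037115305599344270401547716501789181639098741101944133127169591971492358150925555714515822253804792037701029232335634708159856172393284757070605792985611207178182455955410703649766821394847203982770341648180705717759075415189373403060745279681011195269635053255659545104868901245062679275097355427581755599781504059573606108568321475579696691852343730079877332959121705333346242056280734117119476209803917128817265835409028420772302855045141585312860656262704492175813169590732393850392170171036873229052091978976742578232547743589266424845745625214929043479800254603571312013816599761606856116971185969731186912243349621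884725848266728068515727852086648765971957486851519489534856956795799138857662501161292681778168894880625945719490590004539745661673325617865004900253021885732242625898804236179590392717046637896231554871135305078299444881906971348335622732018816960671715621274366121758236369404696325247411132427549796588369175109013863080659273401425789862229341373220943547362076230252078494330474985072843083125509776323347784798440443905841709049132083141075128101218027419334360730901925583424925749687240960343198911558039779333422921742824901964296223099077895387777461830757101167188203680776713126558408111950474738998263832172007700808839778409340604646140408108600313720647915729972250147760481294495949419612300035230646649974738614253278293794666510596097911429763545555060955148317608816394485083703135252384255942293993870179850974667527059405193131650791282032535122224907259965483484964623922880710220371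698914557521896992339486949936524760919965608295845246375285631803113395775089993932486502667682454296872085242790504817349489393654578725166824956545255645808988461756551549436363943811906854898696846454633407300760152736487127077300802147090362145767144934174377971778715234289054049439354366901144705816396206209811397726132870007558268389112224470345739084358832261634093705849321362214706713310779596904852310876885020209931917077335056533459229147824377771917205231504100231827764748069602803095857930060256929238085326643746106855595741454253921564910732367176969312191946213210216991756005250075329138329171036255579216195144503902814337352002331125028750554739865306941175984522269316743393195243543717248909980507713151865754978259614866972342618103788580420564582140048914182359430667524539952187128396956760604852871485276793672038397967648629327178316038536442295820062839903356617516505923302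890845059168048020557024308037741593493998605509230436460134506919748232544757020337427059111776701682854173180018481789614944366939728203931690415356373723245109377617166616967924612510204225223134668762730268925676227238830061260843529543903578052698449573696289703809272137005802287082090367126047700328969132370797780506261653531018643201795931145358295863327275775600022135256597192368029032531015458656343881976269969641614639145633561318877293778030011138104579866294811350065629303900071690318207605836918993917916218337170175558545753373397468300591236627095680836570589635583580192739433270399146269805549559845847274945771990206420616129710296941009749476249355999932410378631409047153797450505825682616868929237283756250834162873783496107834524988798233925976049586932499493469082772084212397736451487053059385393865439946352493522743845882009676246676514361003320967987594312464580873756275409540976615776863778419291193344)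

noncomputable def cp1 : Nat := (nat_lit 748901673558939398849133283448375341381698433368167429116184385502142449922544877841992332139725018222911589114304674515575978465213199806265194850824774614382556884295054189461103373172143649391255366577682708732773129587552928312782367713831099934057416971647897529866926065180798585972938204138221747563258144702159382483272875320980500374659600594688384403294478628256212640149666420741000863074558387115243949007171946120181518435340731307305899314909832643543607788235754258027671537059238516176665670217529318308891199682577707108932362066515374743708166919374380810029850418351719826035024696321316875222673359882544202260007987600867677783542303004465916921049559565940734330114764682300738782886462642532258848778038504456216133995971523073125307661944534311787788658846685992438479606093775049069096130580118545517529041350992693643424050438240052678312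732029479954748329135256677719487113506993359293651783811740920079697369009781191577255994394204173412499709828409929003476025792764586807404143138983762895548661238071223538149941909755602491397357195117766030733542695144862732452800610697066041228323893696669630349198969770862600768418469239484497568154544707939195497486821306049932863355893165722912080576967621713717410941504564197236144885593049436731907064797258141918685990011726598778026627520167131710817723975369845340022066793649820518902981612836661211145997253473311901560156539428569777715132201421368637499564816472846003252553914316400512477202487424011663760652423664116621797244975768130169171248676879700888190997037967477149988890851288586781624727406899523024261947788910497869482078935606818127198633752397172609099412848178630478558454162225093693230053214492696338006023458591298759920948977858683901205784010700003305313160801787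415406362411827166200833893364306852787773726055178670509756762127938993520762462080267482717136832961356566233776088830525246960285292190902199441214989560267818752136723323971796560018314470578241737568449944715058879872851863045607957765444107837533631137069552358035306062033327002397056281558484055997098786407063970267729242912167453659508739756034328674854968175278077278079250699954132551000945952843133687793583751227752248995122754883356648934641336115339990878049132817832032406531856246830868253823046286954666461510504478073362281042322387045704756931317468783001536264225534678600148948134747836346876135444372223873365087975288175017721858218030155346062265696967062442717284413153691946327862586163017347743809247410379952321700759120973109370711437075829511160211783150240927108809177946444045255546223706169156221676710931515424140115989452999597496883019190220827265448480361805139758033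617703488599230856937866837887092670725510613762664476015749712431600533847138095016573601277438899891672634652534736291690867600346731762928393645933098306305972320170142628971125800066408143231913336183808340586546546663431414574106339257519661591702236021394288296631462775792403244039767557824047049459161891260372829008744115549190991758401816277585378046171899799287700947594660426631739312934827846979028685619279715323244487533027786202794039817913401449809582754902594163523397679445989303022596590254352228150420775372536881875629170311135811950558452205769901817702340720147826632319937265245755750866171116544727339618526270989492812450325049717515882215011015447522634796983631608442480058915402050980589786098859621370621867865426786806175306918137763662124252307646108591945176029096925144817327847394029009523241591117201429687450044373968829233496673759472483402114594132099175211651071482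758654498747074572662634648462306472402523246916516624357781309347483479509864912325864411230872865073021645070334988600825230148736203611231613195822260839351160520399742474400676047105125732638031542143422653832586454440291891237985357731027444553522643207993208024658673707318991481566587414273961012183966746852506831996899300104603327873737270001305550146560586100887177350456298852271519231254093113543692082856735488677811732096112669838369707052920814199346693460889348354885548608508579967491888169168077360647428628239653338429607393908626579025822469178781785971502584978188210278237027275836072958957110695097911366306267346649002193405157632223824168324512486693628074749624020814400778636966334692480343494811127519705458074397405420615182721509934322527374397409782367978171153246358677099420112311285638708563438772916660492151043127326240923714992405288517433839180989670578230123045702244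231075702023122100290205989757502761573233413911899222116453161800042107964769239116334863832855972600602635499951759978052839134069424598143489109556191706674314543243666974260663991109774883532783989980196461879343396879174811793292765940587593276898597362575783977707186592740143090231174771213166785039958605935906582184342450736514312412350020309505934009386688562866330512923974770696320986853818349950827104540383896364761279096447950833224830611346464820900956562851147403873921886695059464459864061024838185422312772184738369226238234423389172575368951334269349532750211600744151813795919495283382916320018112635883753674546481593629464025048863463397014551512184728758960055790778402726774470958708043021359476848354242662876253596197430682198765475660578376437426989825072316636776541582552495203626577954458209399896645246424632310136816063281638847725043314259559553520862841446358239936109858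386284073491930638189417301177473807707924857946273852247631832695408796423358242291871569652581259101216915472829115341773412027512435048357010111661191510424331276757361586381806856861950847610133459562071523557463202220661908724980806193058058125300173897886102058637762591759319117474986224362859348127417156186383046661441962697722490879436625037806760396576580431705425899179677090461562631208021415367066276517013050758263038227468683096085354915480225126905188381522711438864908878281985123103620885977696534619475917266119857933982587940212277426889568068572498764895363379593104027938582298315873005838408319048699499835723300448361005747306823787292271511882066637933336538472260121088734788155539056332116097032994571053736456409960443692078088997552934275057321584795464768473455394511804956601899959640600970704851175468335215843684009783950761092159294990141786688089673518846843932285176519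586644578105107757889213855826363244278501620909783793379951928927913444910170131849838959183303345953966043793998755741812423470133820354900502783059335221022577000408687262730511755927555794955264940416942480491749404250061711723724101935180553425131802287622369969167734310729968589254067284362584151872623575802081682316923493864017643812766469859997943378833031936366365861674952880084758181337045122470516219797333785490237715624320465061038603896749495199947182186297793720283600363931319604300108770821913627173112239604254595696125203832314797677053664089842720514125404783297314224968023797260661061661472820723769732053075300300490605939523856649279498358109081492271229790062507927264636217169446026030225697268839956281002957292890735287818087378816139244273351163516911147085728876636775407113975453132741638515582934285321584305088076593528200890033065679609860879003139243755449725465102954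780213345469585156275702117849944773990213959517258160477148062072577711086475185803676616956504065609631235602376756797625222253713418758640168451187665026391949658314602241735076919087596896887445654565870992316515632673501122867425757367827234522651664211069487927599033862451918536551266937610163553451385633783857104446791352673526885950353424004959068649803957033597639263290486748349766507773588857405837853299513848194160312577929542007390893431636389930574694190036079179720438377096121404361815942042186456942932647793796555423675600461911952358653267288389067637888016285425498578460909756371937154694082412165501263230253314052625966353632582464391615521497490027081517367899487040901035079485163844315654701176636000886517609443340518002761525540351230892656245691990172335520689996620297709816343767871420724357574048338707555136221400710312772518605884589883160625349163834155744882156725359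608272454204179460902056876032357253811926561742742531655040660587099258935297649034753496498537156753829183903386061439924799562411559055633599948153953842562051116758176195722797753721075426509509255172385882234560984037412623236864395659516459265834389412728379069562060648752479831253659285375481933590741437176800211374889007218821819054469594663598301856162046175362185698509183135976911774355655178052719195049336553943906498744997705170014656301276437812738103083353180240333299628527394203895902059197874214755094813649942841043785523607298772014542232721900668084231337146145113577748679245889871266948747067569732021552661261315427994487530403137622648193402186487862809829600321262528434429397765802461981006547804668569038060061898254665850554253083438343204879718971370894424820269371136198212662951786408352144518378099284403516145086798487667841026614914113253643193573446185970878548090669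786154035590272014255401435762549567813230750102618100772228607134422375041046140891980143845807689578183738399247431841058287755814531920491774455730118660047308577835863376643051180551572573939591387265479659559895210559057556166438931317072159948696708565534159123835106670459731644968764983668606131859415888392233157193586911886586674859584508269204848799534257350214110645078513413313334918868995436633386424867129272730899885417844593245558693211337978130172672948162178034644634737686398855774405525411100342392120771035168152057702258659832295773211459584)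

noncomputable def rc0 : Nat := (nat_lit 748901673558939398849133283448375341381698433368167429116184385502142449922544877841992332139725018222911589114304674515575978465213199806265194850824774614382556884295054189461103373172143649391255366577682708732773129587552928312782367713831099934057416971647897529866926065180798585972938204138221747563258144702159382483272875320980500374659600594688384403294478628256212640149666420741000863074558387115243949007171946120181518435340731307305899314909832643543607788235754258027671537059238516176665670217529318308891199682577707108932362066515374743708166919374380810029850418351719826035024696321316875222673359882544202260007987600867677783542303004465916921049559565940734330114764682300738782886462642532258848778038504456216133995971523073125307661944534311787788658846685992438479606093775049069096130580118545517529041350992693643424050438240052678312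732029479954748329135256677719487113506993359293651783811740920079697369009781191577255994394204173412499709828409929003476025792764586807404143138983762895548661238071223538149941909755602491397357195117766030733542695144862732452800610697066041228323893696669630349198969770862600768418469239484497568154544707939195497486821306049932863355893165722912080576967621713717410941504564197236144885593049436731907064797258141918685990011726598778026627520167131710817723975369845340022066793649820518902981612836661211145997253473311901560156539428569777715132201421368637499564816472846003252553914316400512477202487424011663760652423664116621797244975768130169171248676879700888190997037967477149988890851288586781624727406899523024261947788910497869482078935606818127198633752397172609099412848178630478558454162225093693230053214492696338006023458591298759920948977858683901205784010700003305313160801787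415406362411827166200833893364306852787773726055178670509756762127938993520762462080267482717136832961356566233776088830525246960285292190902199441214989560267818752136723323971796560018314470578241737568449944715058879872851863045607957765444107837533631137069552358035306062033327002397056281558484055997098786407063970267729242912167453659508739756034328674854968175278077278079250699954132551000945952843133687793583751227752248995122754883356648934641336115339990878049132817832032406531856246830868253823046286954666461510504478073362281042322387045704756931317468783001536264225534678600148948134747836346876135444372223873365087975288175017721858218030155346062265696967062442717284413153691946327862586163017347743809247410379952321700759120973109370711437075829511160211783150240927108809177946444045255546223706169156221676710931515424140115989452999597496883019190220827265448480361805139758033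617703488599230856937866837887092670725510613762664476015749712431600533847138095016573601277438899891672634652534736291690867600346731762928393645933098306305972320170142628971125800066408143231913336183808340586546546663431414574106339257519661591702236021394288296631462775792403244039767557824047049459161891260372829008744115549190991758401816277585378046171899799287700947594660426631739312934827846979028685619279715323244487533027786202794039817913401449809582754902594163523397679445989303022596590254352228150420775372536881875629170311135811950558452205769901817702340720147826632319937265245755750866171116544727339618526270989492812450325049717515882215011015447522634796983631608442480058915402050980589786098859621370621867865426786806175306918137763662124252307646108591945176029096925144817327847394029009523241591117201429687450044373968829233496673759472483402114594132099175211651071482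758654498747074572662634648462306472402523246916516624357781309347483479509864912325864411230872865073021645070334988600825230148736203611231613195822260839351160520399742474400676047105125732638031542143422653832586454440291891237985357731027444553522643207993208024658673707318991481566587414273961012183966746852506831996899300104603327873737270001305550146560586100887177350456298852271519231254093113543692082856735488677811732096112669838369707052920814199346693460889348354885548608508579967491888169168077360647428628239653338429607393908626579025822469178781785971502584978188210278237027275836072958957110695097911366306267346649002193405157632223824168324512486693628074749624020814400778636966334692480343494811127519705458074397405420615182721509934322527374397409782367978171153246358677099420112311285638708563438772916660492151043127326240923714992405288517433839180989670578230123045702244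231075702023122100290205989757502761573233413911899222116453161800042107964769239116334863832855972600602635499951759978052839134069424598143489109556191706674314543243666974260663991109774883532783989980196461879343396879174811793292765940587593276898597362575783977707186592740143090231174771213166785039958605935906582184342450736514312412350020309505934009386688562866330512923974770696320986853818349950827104540383896364761279096447950833224830611346464820900956562851147403873921886695059464459864061024838185422312772184738369226238234423389172575368951334269349532750211600744151813795919495283382916320018112635883753674546481593629464025048863463397014551512184728758960055790778402726774470958708043021359476848354242662876253596197430682198765475660578376437426989825072316636776541582552495203626577954458209399896645246424632310136816063281638847725043314259559553520862841446358239936109858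386284073491930638189417301177473807707924857946273852247631832695408796423358242291871569652581259101216915472829115341773412027512435048357010111661191510424331276757361586381806856861950847610133459562071523557463202220661908724980806193058058125300173897886102058637762591759319117474986224362859348127417156186383046661441962697722490879436625037806760396576580431705425899179677090461562631208021415367066276517013050758263038227468683096085354915480225126905188381522711438864908878281985123103620885977696534619475917266119857933982587940212277426889568068572498764895363379593104027938582298315873005838408319048699499835723300448361005747306823787292271511882066637933336538472260121088734788155539056332116097032994571053736456409960443692078088997552934275057321584795464768473455394511804956601899959640600970704851175468335215843684009783950761092159294990141786688089673518846843932285176519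586644578105107757889213855826363244278501620909783793379951928927913444910170131849838959183303345953966043793998755741812423470133820354900502783059335221022577000408687262730511755927555794955264940416942480491749404250061711723724101935180553425131802287622369969167734310729968589254067284362584151872623575802081682316923493864017643812766469859997943378833031936366365861674952880084758181337045122470516219797333785490237715624320465061038603896749495199947182186297793720283600363931319604300108770821913627173112239604254595696125203832314797677053664089842720514125404783297314224968023797260661061661472820723769732053075300300490605939523856649279498358109081492271229790062507927264636217169446026030225697268839956281002957292890735287818087378816139244273351163516911147085728876636775407113975453132741638515582934285321584305088076593528200890033065679609860879003139243755449725465102954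780213345469585156275702117849944773990213959517258160477148062072577711086475185803676616956504065609631235602376756797625222253713418758640168451187665026391949658314602241735076919087596896887445654565870992316515632673501122867425757367827234522651664211069487927599033862451918536551266937610163553451385633783857104446791352673526885950353424004959068649803957033597639263290486748349766507773588857405837853299513848194160312577929542007390893431636389930574694190036079179720438377096121404361815942042186456942932647793796555423675600461911952358653267288389067637888016285425498578460909756371937154694082412165501263230253314052625966353632582464391615521497490027081517367899487040901035079485163844315654701176636000886517609443340518002761525540351230892656245691990172335520689996620297709816343767871420724357574048338707555136221400710312772518605884589883160625349163834155744882156725359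608272454204179460902056876032357253811926561742742531655040660587099258935297649034753496498537156753829183903386061439924799562411559055633599948153953842562051116758176195722797753721075426509509255172385882234560984037412623236864395659516459265834389412728379069562060648752479831253659285375481933590741437176800211374889007218821819054469594663598301856162046175362185698509183135976911774355655178052719195049336553943906498744997705170014656301276437812738103083353180240333299628527394203895902059197874214755094813649942841043785523607298772014542232721900668084231337146145113577748679245889871266948747067569732021552661261315427994487530403137622648193402186487862809829600321262528434429397765802461981006547804668569038060061898254665850554253083438343204879718971370894424820269371136198212662951786408352144518378099284403516145086798487667841026614914113253643193573446185970878548090669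786154035590272014255401435762549567813230750102618100772228607134422375041046140891980143845807689578183738399247431841058287755814531920491774455730118660047308577835863376643051180551572573939591387265479659559895210559057556166438931317072159948696708565534159123835106670459731644968764983668606131859415888392233157193586911886586674859584508269204848799534257350214110645078513413313334918868995436633386424867129272730899885417844593245558693211337978130172672948162178034644634737686398855774405525411100342392120771035168152057702258659832295773211459584)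

end Vale.Agent.Lib.P154.PChain.BE.S5
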